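import Crest.Agent.R105.Ends1_897

-- ▼ part R105/Ends2_897
section

/-! Row 105, LIB-ENDS (helper897), part 2: homeomorphisms between exterior domains (`EndMap`),
boundedness, inverse, the end correspondence. -/

set_option autoImplicit false

open Set Filter Topology Metric

namespace Crest.Agent.R105.Ends_897

open Crest.AnalysisR Crest.Agent.R193.Planar

/-! ### the far region -/

theorem isPreconnected_norm_gt {ρ : ℝ} (hρ : 0 ≤ ρ) : IsPreconnected {w : ℂ | ρ < ‖w‖} := by
  have h : {w : ℂ | ρ < ‖w‖} =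
      (fun p : ℝ × ℝ => (p.1 : ℂ) * Complex.exp (p.2 * Complex.I)) '' (Ioi ρ ×ˢ univ) := by
    ext w
    constructor
    · intro hw
      exact ⟨(‖w‖, Complex.arg w), ⟨hw, mem_univ _⟩, Complex.norm_mul_exp_arg_mul_I w⟩
    · rintro ⟨⟨r, θ⟩, ⟨hr, -⟩, rfl⟩
      have hr' : ρ < r := hr
      simp only [Set.mem_ofPred_eq, norm_mul, Complex.norm_exp_ofReal_mul_I, mul_one,
        Complex.norm_real, Real.norm_eq_abs]
      rwa [abs_of_pos (hρ.trans_lt hr')]
  rw [h]
  exact (isPreconnected_Ioi.prod isPreconnected_univ).image _ (by fun_prop)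

/-- the image of the far region contains a far region -/
theorem far {U : Set ℂ} {f : ℂ → ℂ} (hc : ContinuousOn f U)
    (hopn : ∀ W ⊆ U, IsOpen W → IsOpen (f '' W))
    (hinf : Tendsto f (cocompact ℂ) (cocompact ℂ)) {R : ℝ} (_hR0 : 0 ≤ R)
    (hR : ∀ z : ℂ, R ≤ ‖z‖ → z ∈ U) :
    ∃ ρ : ℝ, 0 ≤ ρ ∧ ∀ w : ℂ, ρ < ‖w‖ → ∃ z, R < ‖z‖ ∧ f z = w := by
  have hsc : IsCompact (f '' sphere (0 : ℂ) R) :=
    (isCompact_sphere 0 R).image_of_continuousOn (hc.mono fun z hz => hR z (by
      rw [mem_sphere_zero_iff_norm.1 hz]))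
  obtain ⟨ρ0, hρ0⟩ := hsc.isBounded.exists_norm_le
  refine ⟨max ρ0 0, le_max_right _ _, ?_⟩
  set O : Set ℂ := {w | max ρ0 0 < ‖w‖} with hO
  set A : Set ℂ := f '' {z | R < ‖z‖} with hA
  have hAo : IsOpen A := hopn _ (fun z hz => hR z (le_of_lt hz))
    (isOpen_lt continuous_const continuous_norm)
  have hOp : IsPreconnected O := isPreconnected_norm_gt (le_max_right _ _)
  have hne : (O ∩ A).Nonempty := by
    have h1 : ∀ᶠ z in cocompact ℂ, f z ∈ O := by
      refine hinf.eventually ?_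
      have := tendsto_norm_cocompact_atTop (E := ℂ)
      exact this.eventually (eventually_gt_atTop _)
    have h2 : ∀ᶠ z in cocompact ℂ, R < ‖z‖ :=
      (tendsto_norm_cocompact_atTop (E := ℂ)).eventually (eventually_gt_atTop _)
    obtain ⟨z, hz1, hz2⟩ := (h1.and h2).exists
    exact ⟨f z, hz1, z, hz2, rfl⟩
  have hcl : closure A ∩ O ⊆ A := by
    rintro w ⟨hwA, hwO⟩
    have h1 : ∀ᶠ z in cocompact ℂ, f z ∉ closedBall w 1 :=
      hinf.eventually ((isCompact_closedBall w 1).compl_mem_cocompact)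
    obtain ⟨T, hT, hTs⟩ := mem_cocompact.1 h1
    have hK : IsCompact ({z : ℂ | R ≤ ‖z‖} ∩ T) :=
      hT.inter_left (isClosed_le continuous_const continuous_norm)
    have hfK : IsClosed (f '' ({z : ℂ | R ≤ ‖z‖} ∩ T)) :=
      (hK.image_of_continuousOn (hc.mono fun z hz => hR z hz.1)).isClosed
    have h2 : w ∈ closure (f '' ({z : ℂ | R ≤ ‖z‖} ∩ T)) := by
      rw [mem_closure_iff_nhds] at hwA ⊢
      intro t ht
      obtain ⟨y, ⟨hyt, hyb⟩, z, hz, hzy⟩ := hwA (t ∩ closedBall w 1)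
        (inter_mem ht (closedBall_mem_nhds w one_pos))
      have hz' : R < ‖z‖ := hz
      have hz'' : z ∈ {z : ℂ | R ≤ ‖z‖} := hz'.le
      refine ⟨y, hyt, z, ⟨hz'', ?_⟩, hzy⟩
      by_contra hzT
      exact hTs hzT (by rw [hzy]; exact hyb)
    rw [hfK.closure_eq] at h2
    obtain ⟨z, ⟨hz1, -⟩, hz3⟩ := h2
    have hz1' : R ≤ ‖z‖ := hz1
    have hlt : R < ‖z‖ := by
     refine lt_of_le_of_ne hz1' fun h => ?_
     have h4 := hρ0 (f z) ⟨z, mem_sphere_zero_iff_norm.2 h.symm, rfl⟩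
     rw [hz3] at h4
     have h5 : max ρ0 0 < ‖w‖ := hwO
     exact absurd (h4.trans (le_max_left _ _)) (not_le.2 h5)
    exact ⟨z, hlt, hz3⟩
  have hsub : O ⊆ A := hOp.subset_of_closure_inter_subset hAo hne hcl
  intro w hw
  obtain ⟨z, hz1, hz2⟩ := hsub hw
  exact ⟨z, hz1, hz2⟩

/-! ### `EndMap` -/

/-- `f` is a homeomorphism of the exterior domain `U` onto the exterior domain `V` fixing
infinity -/
structure EndMap (U V : Set ℂ) (f : ℂ → ℂ) : Prop where
  hU : IsExteriorDomain U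
  hV : IsExteriorDomain V
  cont : ContinuousOn f U
  inj : InjOn f U
  img : f '' U = V
  opn : ∀ W ⊆ U, IsOpen W → IsOpen (f '' W)
  inf : Tendsto f (cocompact ℂ) (cocompact ℂ)

/-- constructor: the image of an exterior domain is an exterior domain -/
theorem EndMap.of_image {U : Set ℂ} {f : ℂ → ℂ} (hU : IsExteriorDomain U)
    (hc : ContinuousOn f U) (hi : InjOn f U) (hopn : ∀ W ⊆ U, IsOpen W → IsOpen (f '' W))
    (hinf : Tendsto f (cocompact ℂ) (cocompact ℂ)) : EndMap U (f '' U) f := by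
  refine ⟨hU, ⟨hopn U subset_rfl hU.1, hU.2.1.image f hc, ?_⟩, hc, hi, rfl, hopn, hinf⟩
  obtain ⟨R0, hR0⟩ := hU.2.2
  obtain ⟨ρ, -, hρ⟩ := far hc hopn hinf (R := max R0 0 + 1) (by positivity)
    (fun z hz => hR0 z (lt_of_lt_of_le (lt_of_le_of_lt (le_max_left R0 0) (lt_add_one _)) hz))
  refine ⟨ρ, fun w hw => ?_⟩
  obtain ⟨z, hz, rfl⟩ := hρ w hw
  exact ⟨z, hR0 z (lt_of_le_of_lt (le_max_left R0 0) ((lt_add_one _).trans hz)), rfl⟩

/-- constructor for injective holomorphic maps -/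
theorem EndMap.of_holo {U : Set ℂ} {f : ℂ → ℂ} (hU : IsExteriorDomain U)
    (hd : DifferentiableOn ℂ f U) (hi : InjOn f U)
    (hinf : Tendsto f (cocompact ℂ) (cocompact ℂ)) : EndMap U (f '' U) f := by
  refine EndMap.of_image hU hd.continuousOn hi (fun W hWU hW => ?_) hinf
  rw [isOpen_iff_mem_nhds]
  rintro _ ⟨z, hz, rfl⟩
  have hW' : W ∈ 𝓝 z := hW.mem_nhds hz
  have han : AnalyticAt ℂ f z := (hd.mono hWU).analyticAt hW'
  rcases han.eventually_constant_or_nhds_le_map_nhds with h | h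
  · exfalso
    have h2 : ∀ᶠ w in 𝓝[≠] z, f w = f z ∧ w ∈ W :=
      (h.and hW').filter_mono nhdsWithin_le_nhds
    obtain ⟨w, ⟨hw1, hw2⟩, hw3⟩ := (h2.and self_mem_nhdsWithin).exists
    exact hw3 (hi (hWU hw2) (hWU hz) hw1)
  · exact h (image_mem_map hW')

namespace EndMap

variable {U V : Set ℂ} {f : ℂ → ℂ}

theorem mapsTo (h : EndMap U V f) {z : ℂ} (hz : z ∈ U) : f z ∈ V := h.img ▸ mem_image_of_mem f hz

/-- **(E0)** bounded parts go to bounded parts -/
theorem bdd (h : EndMap U V f) (R : ℝ) : ∃ ρ : ℝ, ∀ z ∈ U, ‖z‖ ≤ R → ‖f z‖ ≤ ρ := by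
  obtain ⟨R0, hR0⟩ := h.hU.2.2
  have hlt : ∀ z : ℂ, max (max R0 0) R + 1 ≤ ‖z‖ → z ∈ U := fun z hz =>
    hR0 z (by
      have := (le_max_left R0 0).trans (le_max_left (max R0 0) R)
      linarith)
  obtain ⟨ρ, -, hρ⟩ := far h.cont h.opn h.inf (R := max (max R0 0) R + 1)
    (by have := (le_max_right R0 0).trans (le_max_left (max R0 0) R); linarith) hlt
  refine ⟨ρ, fun z hz hzR => ?_⟩
  by_contra hcon
  obtain ⟨z', hz', hf⟩ := hρ (f z) (not_le.1 hcon)
  have := h.inj (hlt z' hz'.le) hz hf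
  rw [this] at hz'
  have := le_max_right (max R0 0) R
  linarith

/-- the inverse -/
noncomputable def inv (_ : EndMap U V f) : ℂ → ℂ := Function.invFunOn f U

theorem inv_mem (h : EndMap U V f) {w : ℂ} (hw : w ∈ V) : h.inv w ∈ U :=
  Function.invFunOn_mem (by rwa [← h.img] at hw)

theorem inv_right (h : EndMap U V f) {w : ℂ} (hw : w ∈ V) : f (h.inv w) = w :=
  Function.invFunOn_eq (by rwa [← h.img] at hw)

theorem inv_left (h : EndMap U V f) {z : ℂ} (hz : z ∈ U) : h.inv (f z) = z :=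
  h.inj (h.inv_mem (h.mapsTo hz)) hz (h.inv_right (h.mapsTo hz))

theorem preimage_inv (h : EndMap U V f) (t : Set ℂ) : V ∩ h.inv ⁻¹' t = f '' (U ∩ t) := by
  ext w
  constructor
  · rintro ⟨hw, hwt⟩
    exact ⟨h.inv w, ⟨h.inv_mem hw, hwt⟩, h.inv_right hw⟩
  · rintro ⟨z, ⟨hz, hzt⟩, rfl⟩
    exact ⟨h.mapsTo hz, by rw [mem_preimage, h.inv_left hz]; exact hzt⟩

theorem image_inv (h : EndMap U V f) {W : Set ℂ} (hW : W ⊆ V) :
    h.inv '' W = U ∩ f ⁻¹' W := by
  ext z
  constructor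
  · rintro ⟨w, hw, rfl⟩
    exact ⟨h.inv_mem (hW hw), by rw [mem_preimage, h.inv_right (hW hw)]; exact hw⟩
  · rintro ⟨hz, hzW⟩
    exact ⟨f z, hzW, h.inv_left hz⟩

/-- **(E0)** the inverse is an `EndMap` -/
theorem symm (h : EndMap U V f) : EndMap V U h.inv where
  hU := h.hV
  hV := h.hU
  cont := by
    rw [continuousOn_open_iff h.hV.1]
    intro t ht
    rw [h.preimage_inv]
    exact h.opn _ inter_subset_left (h.hU.1.inter ht)
  inj := by
    intro w hw w' hw' he
    rw [← h.inv_right hw, he, h.inv_right hw']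
  img := by
    rw [h.image_inv subset_rfl]
    ext z
    exact ⟨fun hz => hz.1, fun hz => ⟨hz, h.mapsTo hz⟩⟩
  opn := by
    intro W hW hWo
    rw [h.image_inv hW]
    exact h.cont.isOpen_inter_preimage h.hU.1 hWo
  inf := by
    obtain ⟨RV, hRV⟩ := h.hV.2.2
    rw [← cobounded_eq_cocompact, ← tendsto_norm_atTop_iff_cobounded, Filter.tendsto_atTop]
    intro R
    obtain ⟨ρ, hρ⟩ := h.bdd R
    have h1 : ∀ᶠ w : ℂ in Bornology.cobounded ℂ, max ρ RV < ‖w‖ :=
      tendsto_norm_cobounded_atTop.eventually (eventually_gt_atTop _)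
    filter_upwards [h1] with w hw
    have hwV : w ∈ V := hRV w ((le_max_right _ _).trans_lt hw)
    by_contra hcon
    have h2 := hρ _ (h.inv_mem hwV) (not_le.1 hcon).le
    rw [h.inv_right hwV] at h2
    exact absurd (h2.trans (le_max_left _ _)) (not_le.2 hw)

/-- cluster values at a component lie in the complement of the image -/
theorem clusterPt_notMem (h : EndMap U V f) {z ζ : ℂ} (hζ : ClusterPt ζ (map f (eF U z))) :
    ζ ∉ V := by
  intro hζV
  rw [← h.img] at hζV
  obtain ⟨z0, hz0, rfl⟩ := hζV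
  have hK := isClosed_cc h.hU.1.isClosed_compl z
  obtain ⟨W, hWn, hWU, hWc⟩ := local_compact_nhds (h.hU.1.mem_nhds hz0)
  have h1 : f '' interior W ∈ 𝓝 (f z0) :=
    (h.opn _ (interior_subset.trans hWU) isOpen_interior).mem_nhds
      ⟨z0, mem_interior_iff_mem_nhds.2 hWn, rfl⟩
  have h2 : Wᶜ ∩ U ∈ eF U z := by
    refine inter_mem_inf (hWc.isClosed.isOpen_compl.mem_nhdsSet.2 ?_) (mem_principal_self U)
    intro y hy hyW
    exact connectedComponentIn_subset _ _ hy (hWU hyW)
  have h3 : f '' (Wᶜ ∩ U) ∈ map f (eF U z) := image_mem_map h2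
  obtain ⟨y, ⟨a, ha, rfl⟩, b, hb, hab⟩ := clusterPt_iff_nonempty.1 hζ h1 h3
  have := h.inj hb.2 (hWU (interior_subset ha)) hab
  rw [this] at hb
  exact hb.1 (interior_subset ha)

/-- **the main lemma**: `f` tends to one component of `Vᶜ` -/
theorem exists_tendsto (h : EndMap U V f) {z : ℂ} (hz : z ∉ U) :
    ∃ ζ, ζ ∉ V ∧ Tendsto f (eF U z) (eF V ζ) := by
  have hKc := isCompact_cc (isCompact_compl h.hU) z
  have hF := eF_neBot h.hU hz
  -- the values are bounded
  obtain ⟨R, hR⟩ := hKc.isBounded.exists_norm_le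
  obtain ⟨ρ, hρ⟩ := h.bdd (R + 1)
  have hnear : ∀ᶠ w in eF U z, w ∈ U ∧ ‖w‖ ≤ R + 1 := by
    have h1 : ball (0 : ℂ) (R + 1) ∈ 𝓝ˢ (connectedComponentIn Uᶜ z) :=
      isOpen_ball.mem_nhdsSet.2 fun w hw => by
        rw [mem_ball_zero_iff]; linarith [hR w hw]
    filter_upwards [inter_mem_inf h1 (mem_principal_self U)] with w hw
    exact ⟨hw.2, (mem_ball_zero_iff.1 hw.1).le⟩
  have hbd : ∀ᶠ w in eF U z, f w ∈ closedBall (0 : ℂ) ρ := by
    filter_upwards [hnear] with w hw
    rw [mem_closedBall_zero_iff]; exact hρ w hw.1 hw.2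
  obtain ⟨ζ, -, hζ⟩ := (isCompact_closedBall (0 : ℂ) ρ).exists_clusterPt
    (f := map f (eF U z)) (tendsto_principal.2 hbd : Tendsto f (eF U z) _)
  have hζV := h.clusterPt_notMem hζ
  refine ⟨ζ, hζV, ?_⟩
  have hU : Tendsto f (eF U z) (𝓟 V) := by
    rw [tendsto_principal]
    filter_upwards [hnear] with w hw using h.mapsTo hw.1
  refine tendsto_inf.2 ⟨?_, hU⟩
  by_contra hnt
  -- a second cluster value off the component
  obtain ⟨s, hs, hns⟩ := not_tendsto_iff_exists_frequently_notMem.1 hnt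
  obtain ⟨W, hWo, hMW, hWs⟩ := mem_nhdsSet_iff_exists.1 hs
  have hfr : (eF U z ⊓ 𝓟 (f ⁻¹' Wᶜ)).NeBot := by
    rw [← frequently_mem_iff_neBot]
    exact hns.mono fun w hw hwW => hw (hWs hwW)
  obtain ⟨ζ', -, hζ'⟩ := (isCompact_closedBall (0 : ℂ) ρ).exists_clusterPt
    (f := map f (eF U z ⊓ 𝓟 (f ⁻¹' Wᶜ)))
    ((tendsto_principal.2 hbd : Tendsto f (eF U z) _).mono_left inf_le_left)
  have hζ'1 : ClusterPt ζ' (map f (eF U z)) := hζ'.mono (map_mono inf_le_left)
  have hζ'V := h.clusterPt_notMem hζ'1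
  have hζ'W : ζ' ∈ Wᶜ := by
    have h1 : ClusterPt ζ' (𝓟 Wᶜ) := hζ'.mono (by
      have : Tendsto f (eF U z ⊓ 𝓟 (f ⁻¹' Wᶜ)) (𝓟 Wᶜ) := by
        rw [tendsto_principal]
        exact mem_of_superset (mem_inf_of_right (mem_principal_self _)) fun w hw => hw
      exact this)
    have h2 := mem_closure_iff_clusterPt.2 h1
    rwa [hWo.isClosed_compl.closure_eq] at h2
  -- separate by a clopen piece
  have hζ'M : ζ' ∉ connectedComponentIn Vᶜ ζ := fun hm => hζ'W (hMW hm)
  obtain ⟨B, hBc, hBc', hBV, hMB, hBsub⟩ := exists_clopen (isCompact_compl h.hV)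
    (show ζ ∈ Vᶜ from hζV) hWo hMW
  obtain ⟨N, hNo, hBN, hNc, hNd⟩ := exists_nhd hBc hBc'.isClosed disjoint_sdiff_right
  have hζB : ζ ∈ B := hMB (mem_connectedComponentIn hζV)
  have hζ'B : ζ' ∉ B := fun hb => hζ'W (hBsub hb)
  have hζ'N : ζ' ∉ closure N := fun hm => disjoint_left.1 hNd hm ⟨hζ'V, hζ'B⟩
  have hQ'V : frontier N ⊆ V := by
    intro w hw
    by_contra hwV
    by_cases hwB : w ∈ B
    · rw [hNo.frontier_eq] at hw
      exact hw.2 (hBN hwB)
    · exact disjoint_left.1 hNd (frontier_subset_closure hw) ⟨hwV, hwB⟩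
  have hQ'c : IsCompact (frontier N) := hNc.of_isClosed_subset isClosed_frontier
    frontier_subset_closure
  set Q : Set ℂ := h.inv '' frontier N with hQ
  have hQc : IsCompact Q := hQ'c.image_of_continuousOn (h.symm.cont.mono hQ'V)
  have hQU : Q ⊆ U := by
    rintro _ ⟨w, hw, rfl⟩; exact h.inv_mem (hQ'V hw)
  set C := connectedComponentIn Qᶜ z with hC
  have hCo : IsOpen C := hQc.isClosed.isOpen_compl.connectedComponentIn
  have hKC : connectedComponentIn Uᶜ z ⊆ C := connectedComponentIn_mono _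
    (compl_subset_compl.2 hQU)
  have hCU : IsPreconnected (C ∩ U) := preconn_inter h.hU.2.1.isPreconnected
    (isCompact_compl h.hU) hQc.isClosed hQU z
  have hCF : C ∩ U ∈ eF U z := inter_mem_inf (hCo.mem_nhdsSet.2 hKC) (mem_principal_self U)
  have himg : IsPreconnected (f '' (C ∩ U)) := hCU.image f (h.cont.mono inter_subset_right)
  have hmiss : f '' (C ∩ U) ⊆ N ∪ (closure N)ᶜ := by
    rintro _ ⟨w, ⟨hwC, hwU⟩, rfl⟩
    by_cases h1 : f w ∈ closure N
    · left
      by_contra h2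
      have h3 : f w ∈ frontier N := by rw [hNo.frontier_eq]; exact ⟨h1, h2⟩
      have h4 : w ∈ Q := ⟨f w, h3, h.inv_left hwU⟩
      exact connectedComponentIn_subset _ _ hwC h4
    · exact Or.inr h1
  obtain ⟨a, ha, haN⟩ := clusterPt_iff_nonempty.1 hζ (hNo.mem_nhds (hBN hζB))
    (image_mem_map hCF)
  obtain ⟨b, hb, hbN⟩ := clusterPt_iff_nonempty.1 hζ'1
    (isClosed_closure.isOpen_compl.mem_nhds hζ'N) (image_mem_map hCF)
  obtain ⟨c, hc1, hc2, hc3⟩ := himg N (closure N)ᶜ hNo isClosed_closure.isOpen_compl hmiss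
    ⟨a, haN, ha⟩ ⟨b, hbN, hb⟩
  exact hc3 (subset_closure hc2)

end EndMap

end Crest.Agent.R105.Ends_897
end

-- ▼ part R105/Ends3_897

/-! Row 105, LIB-ENDS (helper897), part 3: the bijection of ends, oscillation at an end,
the circle-domain criterion. -/

set_option autoImplicit false

open Set Filter Topology Metric
open scoped ENNReal

namespace Crest.Agent.R105.Ends_897

open Crest.AnalysisR

namespace EndMap

variable {U V : Set ℂ} {f : ℂ → ℂ}

theorem eventually_mem (U : Set ℂ) (z : ℂ) : ∀ᶠ w in eF U z, w ∈ U :=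
  mem_of_superset (mem_inf_of_right (mem_principal_self U)) fun _ h => h

/-- **(E2)** the end correspondence: for every component of `Uᶜ` there is a component of `Vᶜ` -/
theorem exists_end (h : EndMap U V f) {z : ℂ} (hz : z ∉ U) :
    ∃ ζ, ζ ∉ V ∧ map f (eF U z) = eF V ζ := by
  obtain ⟨ζ, hζ, hft⟩ := h.exists_tendsto hz
  obtain ⟨z', hz', hgt⟩ := h.symm.exists_tendsto hζ
  have h1 : Tendsto (h.inv ∘ f) (eF U z) (eF U z') := hgt.comp hft
  have h2 : (h.inv ∘ f) =ᶠ[eF U z] id := by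
    filter_upwards [eventually_mem U z] with w hw using h.inv_left hw
  have h3 : eF U z ≤ eF U z' := by
    have := (tendsto_congr' h2).1 h1
    rwa [tendsto_id'] at this
  have h4 : eF U z = eF U z' := eF_congr (cc_eq_of_eF_le h.hU hz h3)
  refine ⟨ζ, hζ, le_antisymm hft ?_⟩
  have h5 : (f ∘ h.inv) =ᶠ[eF V ζ] id := by
    filter_upwards [eventually_mem V ζ] with w hw using h.inv_right hw
  calc eF V ζ = map (f ∘ h.inv) (eF V ζ) := by rw [map_congr h5, map_id]
    _ = map f (map h.inv (eF V ζ)) := by rw [map_map]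
    _ ≤ map f (eF U z') := map_mono hgt
    _ = map f (eF U z) := by rw [h4]

/-- **(E2)** every component of `Vᶜ` is attained -/
theorem exists_end' (h : EndMap U V f) {ζ : ℂ} (hζ : ζ ∉ V) :
    ∃ z, z ∉ U ∧ map f (eF U z) = eF V ζ := by
  obtain ⟨z, hz, he⟩ := h.symm.exists_end hζ
  refine ⟨z, hz, ?_⟩
  have h5 : (f ∘ h.inv) =ᶠ[eF V ζ] id := by
    filter_upwards [eventually_mem V ζ] with w hw using h.inv_right hw
  rw [← he, map_map, map_congr h5, map_id]

/-- **(E2)** different components go to different components -/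
theorem map_injective (h : EndMap U V f) {z z' : ℂ} (hz : z ∉ U)
    (he : map f (eF U z) = map f (eF U z')) :
    connectedComponentIn Uᶜ z = connectedComponentIn Uᶜ z' := by
  have h2 : ∀ z, map (h.inv) (map f (eF U z)) = eF U z := by
    intro z
    have h2 : (h.inv ∘ f) =ᶠ[eF U z] id := by
      filter_upwards [eventually_mem U z] with w hw using h.inv_left hw
    rw [map_map, map_congr h2, map_id]
  refine cc_eq_of_eF_le h.hU hz ?_
  rw [← h2 z, he, h2 z']

end EndMap

theorem eF_injective {U : Set ℂ} (hU : IsExteriorDomain U) {z z' : ℂ} (hz : z ∉ U)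
    (h : eF U z = eF U z') : connectedComponentIn Uᶜ z = connectedComponentIn Uᶜ z' :=
  cc_eq_of_eF_le hU hz h.le

/-! ### oscillation along a filter -/

/-- oscillation of `a` along the filter `F` -/
noncomputable def oscF {α E : Type*} [PseudoEMetricSpace E] (a : α → E) (F : Filter α) : ℝ≥0∞ :=
  ⨅ s ∈ F, Metric.ediam (a '' s)

/-- **(E3)** the oscillation is transported -/
theorem oscF_comp {α β E : Type*} [PseudoEMetricSpace E] (a : β → E) (f : α → β) (F : Filter α) :
    oscF (a ∘ f) F = oscF a (map f F) := by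
  apply le_antisymm
  · refine le_iInf₂ fun s hs => ?_
    refine (iInf₂_le (f ⁻¹' s) hs).trans (Metric.ediam_mono ?_)
    rw [image_comp]
    exact image_mono (image_preimage_subset f s)
  · refine le_iInf₂ fun s hs => ?_
    refine (iInf₂_le (f '' s) (image_mem_map hs)).trans (Metric.ediam_mono ?_)
    rw [image_comp]



/-! ### topology of components -/

/-- a compact component whose frontier lies in a closed set `D` with connected unbounded
complement lies in `D` -/
theorem subset_of_frontier {M D : Set ℂ} (hM : IsCompact M) (hD : IsPreconnected Dᶜ)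
    (hDu : ¬ Bornology.IsBounded Dᶜ) (hfr : frontier M ⊆ D) : M ⊆ D := by
  intro w hw
  by_contra hwD
  have h1 : Dᶜ ⊆ interior M ∪ Mᶜ := by
    intro y hy
    by_cases hyM : y ∈ M
    · left
      by_contra hyi
      exact hy (hfr ⟨subset_closure hyM, hyi⟩)
    · exact Or.inr hyM
  have hwi : w ∈ interior M := (h1 hwD).resolve_right fun h => h hw
  have hne : (Dᶜ ∩ Mᶜ).Nonempty := by
    by_contra hem
    rw [not_nonempty_iff_eq_empty] at hem
    refine hDu (hM.isBounded.subset fun y hy => ?_)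
    by_contra hyM
    have : y ∈ Dᶜ ∩ Mᶜ := ⟨hy, hyM⟩
    rw [hem] at this; exact this
  obtain ⟨y, hy1, hy2⟩ := hne
  obtain ⟨x, -, hx1, hx2⟩ := hD (interior M) Mᶜ isOpen_interior hM.isClosed.isOpen_compl h1
    ⟨w, hwD, hwi⟩ ⟨y, hy1, hy2⟩
  exact hx2 (interior_subset hx1)

/-- frontier points of a component of `Vᶜ` are cluster points of the end filter -/
theorem clusterPt_eF_of_frontier {V : Set ℂ} (hV : IsExteriorDomain V) {ζ x : ℂ}
    (hx : x ∈ frontier (connectedComponentIn Vᶜ ζ)) : ClusterPt x (eF V ζ) := by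
  have h1 := frontier_cc_subset hV.1 hx
  have hcl := isClosed_cc hV.1.isClosed_compl ζ
  have hxK : x ∈ connectedComponentIn Vᶜ ζ := by
    have := frontier_subset_closure hx
    rwa [hcl.closure_eq] at this
  have h2 : (𝓝 x ⊓ 𝓟 V).NeBot := mem_closure_iff_nhdsWithin_neBot.1 h1
  refine h2.mono (le_inf inf_le_left (inf_le_inf_right _ (nhds_le_nhdsSet hxK)))

/-- cluster points of the end filter lie in the component -/
theorem mem_of_clusterPt_eF {V : Set ℂ} (hV : IsExteriorDomain V) {ζ x : ℂ}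
    (hx : ClusterPt x (eF V ζ)) : x ∈ connectedComponentIn Vᶜ ζ := by
  by_contra hcon
  have hK := isCompact_cc (isCompact_compl hV) ζ
  obtain ⟨u, v, hu, hv, hxu, hKv, huv⟩ :=
    SeparatedNhds.of_isCompact_isCompact (isCompact_singleton (x := x)) hK
      (disjoint_singleton_left.2 hcon)
  have h1 : u ∈ 𝓝 x := hu.mem_nhds (hxu rfl)
  have h2 : v ∈ eF V ζ := mem_inf_of_left (hv.mem_nhdsSet.2 hKv)
  obtain ⟨y, hy1, hy2⟩ := clusterPt_iff_nonempty.1 hx h1 h2
  exact disjoint_left.1 huv hy1 hy2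

theorem nonempty_frontier_cc {V : Set ℂ} (hV : IsExteriorDomain V) {ζ : ℂ} (hζ : ζ ∉ V) :
    (frontier (connectedComponentIn Vᶜ ζ)).Nonempty := by
  rw [nonempty_iff_ne_empty]
  intro h
  have hclopen : IsClopen (connectedComponentIn Vᶜ ζ) := isClopen_iff_frontier_eq_empty.2 h
  rcases isClopen_iff.1 hclopen with h | h
  · have : ζ ∈ connectedComponentIn Vᶜ ζ := mem_connectedComponentIn hζ
    rw [h] at this; exact this
  · have hK := (isCompact_cc (isCompact_compl hV) ζ).isBounded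
    rw [h] at hK
    obtain ⟨C, hC⟩ := hK.exists_norm_le
    have := hC ((|C| + 1 : ℝ) : ℂ) (mem_univ _)
    rw [Complex.norm_real, Real.norm_eq_abs, abs_of_nonneg (by positivity)] at this
    linarith [le_abs_self C]

/-- **(E4), general form**: if `f` tends to the compact set `D` (with connected complement) at the
component of `z`, and `D` (if it has more than one point) misses `f '' U`, then the corresponding
component is `D`. -/
theorem EndMap.cc_eq {U V : Set ℂ} {f : ℂ → ℂ} (h : EndMap U V f) {z ζ : ℂ} (_hz : z ∉ U)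
    (hζ : ζ ∉ V) (he : map f (eF U z) = eF V ζ) {D : Set ℂ} (hDc : IsCompact D)
    (hDp : IsPreconnected D) (hDo : IsPreconnected Dᶜ)
    (hf : ∀ W : Set ℂ, IsOpen W → D ⊆ W → ∀ᶠ w in eF U z, f w ∈ W)
    (hDV : D.Nontrivial → Disjoint D V) : connectedComponentIn Vᶜ ζ = D := by
  have hDu : ¬ Bornology.IsBounded Dᶜ := by
    intro hb
    have h1 := hb.union hDc.isBounded
    rw [compl_union_self] at h1
    obtain ⟨C, hC⟩ := h1.exists_norm_le
    have := hC ((|C| + 1 : ℝ) : ℂ) (mem_univ _)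
    rw [Complex.norm_real, Real.norm_eq_abs, abs_of_nonneg (by positivity)] at this
    linarith [le_abs_self C]
  have hfr : frontier (connectedComponentIn Vᶜ ζ) ⊆ D := by
    intro x hx
    by_contra hxD
    obtain ⟨u, v, hu, hv, hxu, hDv, huv⟩ :=
      SeparatedNhds.of_isCompact_isCompact (isCompact_singleton (x := x)) hDc
        (disjoint_singleton_left.2 hxD)
    have h1 := clusterPt_eF_of_frontier h.hV hx
    have h2 : v ∈ eF V ζ := by rw [← he]; exact hf v hv hDv
    obtain ⟨y, hy1, hy2⟩ := clusterPt_iff_nonempty.1 h1 (hu.mem_nhds (hxu rfl)) h2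
    exact disjoint_left.1 huv hy1 hy2
  have hsub : connectedComponentIn Vᶜ ζ ⊆ D :=
    subset_of_frontier (isCompact_cc (isCompact_compl h.hV) ζ) hDo hDu hfr
  obtain ⟨x, hx⟩ := nonempty_frontier_cc h.hV hζ
  have hxM : x ∈ connectedComponentIn Vᶜ ζ :=
    mem_of_clusterPt_eF h.hV (clusterPt_eF_of_frontier h.hV hx)
  refine Subset.antisymm hsub ?_
  by_cases hnt : D.Nontrivial
  · rw [connectedComponentIn_eq hxM]
    exact hDp.subset_connectedComponentIn (hsub hxM)
      (fun y hy hyV => disjoint_left.1 (hDV hnt) hy hyV)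
  · rw [not_nontrivial_iff] at hnt
    intro y hy
    rw [hnt hy (hsub hxM)]
    exact hxM

theorem isPreconnected_compl_closedBall (c : ℂ) {r : ℝ} (hr : 0 ≤ r) :
    IsPreconnected (closedBall c r)ᶜ := by
  have h : (closedBall c r)ᶜ = (fun w => w + c) '' {w : ℂ | r < ‖w‖} := by
    ext w
    constructor
    · intro hw
      refine ⟨w - c, ?_, by ring⟩
      rw [mem_compl_iff, mem_closedBall, dist_eq_norm, not_le] at hw
      exact hw
    · rintro ⟨y, hy, rfl⟩
      have hy' : r < ‖y‖ := hy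
      rw [mem_compl_iff, mem_closedBall, dist_eq_norm, not_le]
      simpa using hy'
  rw [h]
  exact (isPreconnected_norm_gt hr).image _ (by fun_prop)

/-- **(E4)** the circle-domain criterion -/
theorem EndMap.isCircleDomain {U V : Set ℂ} {f : ℂ → ℂ} (h : EndMap U V f)
    (H : ∀ z, z ∉ U → ∃ c : ℂ, ∃ r : ℝ, 0 ≤ r ∧
      (∀ ε > 0, ∀ᶠ w in eF U z, dist (f w) c < r + ε) ∧ Disjoint (ball c r) V) :
    IsCircleDomainFinitePart V := by
  refine ⟨h.hV, fun ζ hζ => ?_⟩
  obtain ⟨z, hz, he⟩ := h.exists_end' hζ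
  obtain ⟨c, r, hr, hlim, hdis⟩ := H z hz
  refine ⟨c, r, hr, h.cc_eq hz hζ he (isCompact_closedBall c r)
    (convex_closedBall c r).isPreconnected (isPreconnected_compl_closedBall c hr) ?_ ?_⟩
  · intro W hW hDW
    obtain ⟨ε, hε, hsub⟩ := (isCompact_closedBall c r).exists_thickening_subset_open hW hDW
    filter_upwards [hlim ε hε] with w hw
    refine hsub ?_
    rw [thickening_closedBall hε hr, mem_ball]
    linarith
  · intro hnt
    have hr0 : r ≠ 0 := by
      rintro rfl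
      rw [closedBall_zero] at hnt
      exact not_nontrivial_singleton hnt
    have hcl := (hdis.closure_left h.hV.1)
    rwa [closure_ball c hr0] at hcl

/-- **(E4)** the circle-domain criterion for injective holomorphic maps -/
theorem isCircleDomain_image {U : Set ℂ} {f : ℂ → ℂ} (hU : IsExteriorDomain U)
    (hd : DifferentiableOn ℂ f U) (hi : InjOn f U)
    (hinf : Tendsto f (cocompact ℂ) (cocompact ℂ))
    (H : ∀ z, z ∉ U → ∃ c : ℂ, ∃ r : ℝ, 0 ≤ r ∧
      (∀ ε > 0, ∀ᶠ w in eF U z, dist (f w) c < r + ε) ∧ Disjoint (ball c r) (f '' U)) :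
    IsCircleDomainFinitePart (f '' U) :=
  (EndMap.of_holo hU hd hi hinf).isCircleDomain H

end Crest.Agent.R105.Ends_897
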