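import Mathlib
import Crest.Agent.R105.Tc1_808
import Crest.Agent.R105.Ni0_459
import Crest.Agent.R105.IfB2_641
import Crest.Agent.R105.Mid1_987
import Crest.Agent.R105.SelT2_871

-- ▼ part R105/Elf1_600
section

/-!
# Row 105, S0138 (T-frame): first variation of `T` (helper600)

Abstract calculus lemma.  `T (x + t φ) = T₀ + 2 t a + t² b + Σ o_K(t)²` with
`0 ≤ o_K(t) ≤ s_K + |t| c_K`, `Σ s_K² , Σ c_K² < ∞`.
* `el_plus` : if, for `s_K ≠ 0` and small `t > 0`, `o_K(t) ≤ s_K + t (q_K + ε)`, and `T` does not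
  decrease for small `t > 0`, then `0 ≤ a + Σ s_K q_K`;
* `el_two` : two-sided form `|a + Σ s_K r_K| ≤ Σ s_K e_K`;
* `el_crude` : `|a| ≤ Σ s_K c_K`.
-/

set_option autoImplicit false

open Filter Topology

namespace Crest.Agent.R105.Elf_600

variable {ι : Type*}

lemma summable_mul_of_sq {s c : ι → ℝ} (s2 : Summable fun K => s K ^ 2)
    (c2 : Summable fun K => c K ^ 2) : Summable fun K => s K * c K := by
  refine Summable.of_norm_bounded (s2.add c2) fun K => ?_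
  rw [Real.norm_eq_abs, abs_mul]
  nlinarith [sq_nonneg (|s K| - |c K|), sq_abs (s K), sq_abs (c K)]

/-- FIRST VARIATION, one-sided: only small positive `t` -/
theorem el_plus {a b : ℝ} {s c q : ι → ℝ} {o : ι → ℝ → ℝ}
    (hs : ∀ K, 0 ≤ s K) (hc : ∀ K, 0 ≤ c K)
    (s2 : Summable fun K => s K ^ 2) (c2 : Summable fun K => c K ^ 2)
    (hq : Summable fun K => s K * q K)
    (crude : ∀ᶠ t in 𝓝[>] (0 : ℝ), ∀ K, 0 ≤ o K t ∧ o K t ≤ s K + t * c K)
    (fine : ∀ K, s K ≠ 0 → ∀ ε > 0, ∀ᶠ t in 𝓝[>] (0 : ℝ), o K t ≤ s K + t * (q K + ε))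
    (min : ∀ᶠ t in 𝓝[>] (0 : ℝ), ∑' K, s K ^ 2 ≤ 2 * t * a + t ^ 2 * b + ∑' K, o K t ^ 2) :
    0 ≤ a + ∑' K, s K * q K := by
  classical
  have sc : Summable fun K => s K * c K := summable_mul_of_sq s2 c2
  have hq' : Summable fun K => |s K * q K| := hq.abs
  -- the comparison functions
  set V : ℝ → ι → ℝ := fun t K => max ((o K t ^ 2 - s K ^ 2) / t) (2 * (s K * q K)) with hV
  have hsmall : ∀ᶠ t in 𝓝[>] (0 : ℝ), 0 < t ∧ t < 1 := by
    filter_upwards [self_mem_nhdsWithin, mem_nhdsWithin_of_mem_nhds (Iio_mem_nhds one_pos)] with t h1 h2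
    exact ⟨h1, h2⟩
  have hlt : ∀ δ : ℝ, 0 < δ → ∀ᶠ t in 𝓝[>] (0 : ℝ), t < δ := fun δ hδ =>
    mem_nhdsWithin_of_mem_nhds (Iio_mem_nhds hδ)
  -- pointwise limits
  have hlim : ∀ K, Tendsto (fun t => V t K) (𝓝[>] (0 : ℝ)) (𝓝 (2 * (s K * q K))) := by
    intro K
    rcases eq_or_ne (s K) 0 with h0 | h0
    · -- `s K = 0`
      have h1 : Tendsto (fun t : ℝ => t * c K ^ 2) (𝓝[>] (0 : ℝ)) (𝓝 (2 * (s K * q K))) := by
        have : Tendsto (fun t : ℝ => t * c K ^ 2) (𝓝 (0 : ℝ)) (𝓝 (0 * c K ^ 2)) :=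
          tendsto_id.mul_const _
        rw [h0]
        simpa using this.mono_left nhdsWithin_le_nhds
      refine tendsto_of_tendsto_of_tendsto_of_le_of_le' tendsto_const_nhds h1 ?_ ?_
      · exact Eventually.of_forall fun t => le_max_right _ _
      · filter_upwards [crude, hsmall] with t h2 h4
        obtain ⟨h5, h6⟩ := h2 K
        rw [h0, zero_add] at h6
        refine max_le ?_ (by rw [h0]; nlinarith [sq_nonneg (c K), h4.1, mul_nonneg h4.1.le (sq_nonneg (c K))])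
        rw [div_le_iff₀ h4.1, h0]
        nlinarith [mul_self_le_mul_self h5 h6]
    · refine tendsto_order.2 ⟨fun y hy => Eventually.of_forall fun t => hy.trans_le (le_max_right _ _),
        fun y hy => ?_⟩
      have hs0 : 0 < s K := lt_of_le_of_ne (hs K) (Ne.symm h0)
      set η := y - 2 * (s K * q K) with hη
      have hη0 : 0 < η := sub_pos.2 hy
      set ε := η / (4 * s K) with hε
      have hε0 : 0 < ε := by positivity
      have h4 : s K * ε = η / 4 := by rw [hε]; field_simp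
      filter_upwards [fine K h0 ε hε0, crude, hsmall,
        hlt (η / (4 * ((q K + ε) ^ 2 + 1))) (by positivity)] with t h5 h6 h7 h8
      refine max_lt ?_ hy
      rw [div_lt_iff₀ h7.1]
      have h9 : t * (q K + ε) ^ 2 ≤ η / 4 := by
        rw [lt_div_iff₀ (by positivity)] at h8
        nlinarith [h7.1, sq_nonneg (q K + ε)]
      have h10 := mul_self_le_mul_self (h6 K).1 h5
      have h11 : o K t ^ 2 - s K ^ 2 ≤ (2 * (s K * q K) + 2 * (s K * ε) + t * (q K + ε) ^ 2) * t := by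
        nlinarith
      have h12 : 2 * (s K * q K) + 2 * (s K * ε) + t * (q K + ε) ^ 2 < y := by
        rw [h4]
        linarith
      exact h11.trans_lt (mul_lt_mul_of_pos_right h12 h7.1)
  -- domination
  have hbd : ∀ᶠ t in 𝓝[>] (0 : ℝ), ∀ K, ‖V t K‖ ≤ 2 * (s K * c K) + c K ^ 2 + 2 * |s K * q K| := by
    filter_upwards [crude, hsmall] with t h1 h2 K
    obtain ⟨h3, h4⟩ := h1 K
    have hsc : 0 ≤ s K * c K := mul_nonneg (hs K) (hc K)
    have hU : (o K t ^ 2 - s K ^ 2) / t ≤ 2 * (s K * c K) + c K ^ 2 := by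
      rw [div_le_iff₀ h2.1]
      nlinarith [mul_self_le_mul_self h3 h4, mul_nonneg (sq_nonneg (c K)) (sub_nonneg.2 h2.2.le),
        mul_nonneg (mul_nonneg (sq_nonneg (c K)) (sub_nonneg.2 h2.2.le)) h2.1.le]
    have hl := neg_abs_le (s K * q K)
    have hr := le_abs_self (s K * q K)
    have h0 := abs_nonneg (s K * q K)
    rw [Real.norm_eq_abs, abs_le]
    constructor
    · refine le_trans ?_ (le_max_right _ _)
      nlinarith [sq_nonneg (c K)]
    · refine max_le ?_ ?_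
      · linarith
      · nlinarith [sq_nonneg (c K)]
  have hdom : Summable fun K => 2 * (s K * c K) + c K ^ 2 + 2 * |s K * q K| :=
    ((sc.mul_left 2).add c2).add (hq'.mul_left 2)
  have hT : Tendsto (fun t => ∑' K, V t K) (𝓝[>] (0 : ℝ)) (𝓝 (∑' K, 2 * (s K * q K))) :=
    tendsto_tsum_of_dominated_convergence hdom hlim hbd
  have hT2 : Tendsto (fun t => 2 * a + t * b + ∑' K, V t K) (𝓝[>] (0 : ℝ))
      (𝓝 (2 * a + ∑' K, 2 * (s K * q K))) := by
    have h1 : Tendsto (fun t : ℝ => 2 * a + t * b) (𝓝[>] (0 : ℝ)) (𝓝 (2 * a)) := by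
      have : Tendsto (fun t : ℝ => 2 * a + t * b) (𝓝 (0 : ℝ)) (𝓝 (2 * a + 0 * b)) :=
        tendsto_const_nhds.add (tendsto_id.mul_const _)
      simpa using this.mono_left nhdsWithin_le_nhds
    exact h1.add hT
  have hpos : ∀ᶠ t in 𝓝[>] (0 : ℝ), 0 ≤ 2 * a + t * b + ∑' K, V t K := by
    filter_upwards [min, crude, hsmall, hbd] with t h1 h2 h3 h4
    have hVs : Summable fun K => V t K := Summable.of_norm_bounded hdom h4
    have hos : Summable fun K => o K t ^ 2 := by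
      refine Summable.of_nonneg_of_le (fun K => sq_nonneg _) (fun K => ?_)
        ((s2.mul_left 2).add (c2.mul_left 2))
      obtain ⟨h5, h6⟩ := h2 K
      have h7 : s K + t * c K ≤ s K + c K := by nlinarith [hc K, h3.1, h3.2]
      nlinarith [mul_self_le_mul_self h5 (h6.trans h7), sq_nonneg (s K - c K)]
    have hUs : Summable fun K => (o K t ^ 2 - s K ^ 2) / t := (hos.sub s2).div_const t
    have h5 : ∑' K, (o K t ^ 2 - s K ^ 2) / t ≤ ∑' K, V t K :=
      hUs.tsum_le_tsum (fun K => le_max_left _ _) hVs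
    have h6 : ∑' K, (o K t ^ 2 - s K ^ 2) / t = (∑' K, o K t ^ 2 - ∑' K, s K ^ 2) / t := by
      rw [tsum_div_const, hos.tsum_sub s2]
    have h7 : 0 ≤ (2 * t * a + t ^ 2 * b + (∑' K, o K t ^ 2 - ∑' K, s K ^ 2)) / t :=
      div_nonneg (by linarith) h3.1.le
    have h8 : (2 * t * a + t ^ 2 * b + (∑' K, o K t ^ 2 - ∑' K, s K ^ 2)) / t
        = 2 * a + t * b + (∑' K, o K t ^ 2 - ∑' K, s K ^ 2) / t := by
      have := h3.1.ne'
      field_simp
    rw [h8, ← h6] at h7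
    linarith
  have hfin : 0 ≤ 2 * a + ∑' K, 2 * (s K * q K) := ge_of_tendsto hT2 hpos
  rw [tsum_mul_left] at hfin
  linarith

/-- FIRST VARIATION, two-sided -/
theorem el_two {a b : ℝ} {s c r e : ι → ℝ} {o : ι → ℝ → ℝ}
    (hs : ∀ K, 0 ≤ s K) (hc : ∀ K, 0 ≤ c K)
    (s2 : Summable fun K => s K ^ 2) (c2 : Summable fun K => c K ^ 2)
    (hr : Summable fun K => s K * r K) (he : Summable fun K => s K * e K)
    (crude : ∀ᶠ t in 𝓝[≠] (0 : ℝ), ∀ K, 0 ≤ o K t ∧ o K t ≤ s K + |t| * c K)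
    (fine : ∀ K, s K ≠ 0 → ∀ ε > 0, ∀ᶠ t in 𝓝[≠] (0 : ℝ), o K t ≤ s K + t * r K + |t| * (e K + ε))
    (min : ∀ᶠ t in 𝓝[≠] (0 : ℝ), ∑' K, s K ^ 2 ≤ 2 * t * a + t ^ 2 * b + ∑' K, o K t ^ 2) :
    |a + ∑' K, s K * r K| ≤ ∑' K, s K * e K := by
  have hle : 𝓝[>] (0 : ℝ) ≤ 𝓝[≠] (0 : ℝ) := nhdsWithin_mono _ fun t ht => (ne_of_gt ht)
  have hpos : ∀ᶠ t in 𝓝[>] (0 : ℝ), 0 < t := self_mem_nhdsWithin
  have hneg : Tendsto (fun t : ℝ => -t) (𝓝[>] (0 : ℝ)) (𝓝[≠] (0 : ℝ)) := by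
    refine tendsto_nhdsWithin_iff.2 ⟨?_, ?_⟩
    · have : Tendsto (fun t : ℝ => -t) (𝓝 (0 : ℝ)) (𝓝 (-0)) := tendsto_id.neg
      simpa using this.mono_left nhdsWithin_le_nhds
    · filter_upwards [hpos] with t ht
      exact (neg_lt_zero.2 ht).ne
  have e1 : ∀ K, s K * (r K + e K) = s K * r K + s K * e K := fun K => by ring
  have e2 : ∀ K, s K * (-r K + e K) = -(s K * r K) + s K * e K := fun K => by ring
  have s1 : Summable fun K => s K * (r K + e K) := (hr.add he).congr fun K => (e1 K).symm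
  have s3 : Summable fun K => s K * (-r K + e K) := (hr.neg.add he).congr fun K => (e2 K).symm
  have h1 : 0 ≤ a + ∑' K, s K * (r K + e K) := by
    refine el_plus (b := b) (o := o) hs hc s2 c2 s1 ?_ ?_ (hle min)
    · filter_upwards [hle crude, hpos] with t h1 ht K
      exact ⟨(h1 K).1, by simpa [abs_of_pos ht] using (h1 K).2⟩
    · intro K h0 ε hε
      filter_upwards [hle (fine K h0 ε hε), hpos] with t h1 ht
      rw [abs_of_pos ht] at h1
      linarith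
  have h2 : 0 ≤ -a + ∑' K, s K * (-r K + e K) := by
    refine el_plus (b := b) (o := fun K t => o K (-t)) hs hc s2 c2 s3 ?_ ?_ ?_
    · filter_upwards [hneg.eventually crude, hpos] with t h1 ht K
      exact ⟨(h1 K).1, by simpa [abs_of_pos ht] using (h1 K).2⟩
    · intro K h0 ε hε
      filter_upwards [hneg.eventually (fine K h0 ε hε), hpos] with t h1 ht
      rw [abs_neg, abs_of_pos ht] at h1
      linarith
    · filter_upwards [hneg.eventually min] with t h1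
      linarith [neg_sq t]
  rw [tsum_congr e1, hr.tsum_add he] at h1
  rw [tsum_congr e2, hr.neg.tsum_add he, tsum_neg] at h2
  rw [abs_le]
  constructor <;> linarith


/-- crude form -/
theorem el_crude {a b : ℝ} {s c : ι → ℝ} {o : ι → ℝ → ℝ}
    (hs : ∀ K, 0 ≤ s K) (hc : ∀ K, 0 ≤ c K)
    (s2 : Summable fun K => s K ^ 2) (c2 : Summable fun K => c K ^ 2)
    (crude : ∀ᶠ t in 𝓝[≠] (0 : ℝ), ∀ K, 0 ≤ o K t ∧ o K t ≤ s K + |t| * c K)
    (min : ∀ᶠ t in 𝓝[≠] (0 : ℝ), ∑' K, s K ^ 2 ≤ 2 * t * a + t ^ 2 * b + ∑' K, o K t ^ 2) :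
    |a| ≤ ∑' K, s K * c K := by
  have h := el_two (a := a) (b := b) (r := fun _ => (0 : ℝ)) (e := c) hs hc s2 c2
    (by simp [summable_zero]) (summable_mul_of_sq s2 c2) crude
    (fun K _ ε hε => by
      filter_upwards [crude] with t h1
      have := (h1 K).2
      nlinarith [abs_nonneg t]) min
  simpa using h

end Crest.Agent.R105.Elf_600
end

-- ▼ part R105/Elf2_600
section

/-!
# Row 105, S0138 (T-frame): first variation of `T` on the class `TT` of Tc1_808 (helper600)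

* `Rng Y u K α β` : `[α, β]` is the cluster interval of `u` at `K`; `exists_rng`
* `osc_faces_plus`, `osc_faces` : `osc_K (u + t φ)` for small `t`, one-sided / two-sided
* `crude`, `plus`, `faces`, `exact` : the E-L relations at a `T`-minimiser
-/

set_option autoImplicit false

open MeasureTheory Set Filter Topology Metric
open scoped NNReal ENNReal

namespace Crest.Agent.R105.Elf_600

open Bd_775 Tc_808

variable {Y K : Set ℂ} {u φ : ℂ → ℝ} {α β : ℝ}

lemma osc_le_of_bounds {f : ℂ → ℝ} {A B : ℝ} (hAB : A ≤ B)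
    (h1 : ∀ η > 0, ∀ᶠ z in eK Y K, f z ≤ B + η) (h2 : ∀ η > 0, ∀ᶠ z in eK Y K, A - η ≤ f z) :
    osc Y f K ≤ B - A := by
  refine osc_le_of_forall (sub_nonneg.2 hAB) fun η hη => ?_
  obtain ⟨O, hO, hKO, h⟩ := mem_eK.1 ((h1 (η / 2) (by positivity)).and (h2 (η / 2) (by positivity)))
  refine ⟨O, hO, hKO, fun z hz hzY w hw hwY => ?_⟩
  have h3 := h z hz hzY
  have h4 := h w hw hwY
  simp only [mem_ofPred_eq] at h3 h4
  rw [abs_le]; constructor <;> linarith [h3.1, h3.2, h4.1, h4.2]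

/-- `[α, β]` is the cluster interval of `u` at `K` -/
structure Rng (Y : Set ℂ) (u : ℂ → ℝ) (K : Set ℂ) (α β : ℝ) : Prop where
  le : α ≤ β
  lo : ∀ ε > 0, ∀ᶠ z in eK Y K, α - ε < u z
  hi : ∀ ε > 0, ∀ᶠ z in eK Y K, u z < β + ε
  osc : β - α = osc Y u K


/-- `osc_K (u + t φ)` for small `t > 0`: only the values of `φ` near the two faces count -/
lemma osc_faces_plus (h : Rng Y u K α β) (hs : α < β) {M : ℝ} (hφ : ∀ z, |φ z| ≤ M) {R L : ℝ}
    (hR : ∀ ε > 0, ∃ δ > 0, ∀ᶠ z in eK Y K, β - δ < u z → φ z ≤ R + ε)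
    (hL : ∀ ε > 0, ∃ δ > 0, ∀ᶠ z in eK Y K, u z < α + δ → L - ε ≤ φ z) {ε : ℝ} (hε : 0 < ε) :
    ∀ᶠ t in 𝓝[>] (0 : ℝ), Tc_808.osc Y (fun z => u z + t * φ z) K ≤ (β - α) + t * (R - L + ε) := by
  have hM : 0 ≤ M := (abs_nonneg _).trans (hφ 0)
  obtain ⟨δ₁, hδ₁, h1⟩ := hR (ε / 2) (by positivity)
  obtain ⟨δ₂, hδ₂, h2⟩ := hL (ε / 2) (by positivity)
  set B := M + |R| + |L| + ε + 1 with hB
  have hB0 : 0 < B := by positivity
  have hlt : ∀ δ : ℝ, 0 < δ → ∀ᶠ t in 𝓝[>] (0 : ℝ), t < δ := fun δ hδ =>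
    mem_nhdsWithin_of_mem_nhds (Iio_mem_nhds hδ)
  filter_upwards [self_mem_nhdsWithin, hlt (δ₁ / B) (by positivity), hlt (δ₂ / B) (by positivity),
    hlt ((β - α) / (2 * B)) (by have := sub_pos.2 hs; positivity)] with t ht ht1 ht2 ht3
  have ht0 : (0 : ℝ) < t := ht
  rw [lt_div_iff₀ hB0] at ht1 ht2
  rw [lt_div_iff₀ (by positivity)] at ht3
  have e1 : t * |R| ≤ t * B := mul_le_mul_of_nonneg_left (by rw [hB]; linarith [abs_nonneg L]) ht0.le
  have hR1 := le_abs_self R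
  have hR2 := neg_abs_le R
  have hL1 := le_abs_self L
  have hL2 := neg_abs_le L
  have hRabs := abs_nonneg R
  have hLabs := abs_nonneg L
  have key : (β - α) + t * (R - L + ε) = (β + t * (R + ε / 2)) - (α + t * (L - ε / 2)) := by ring
  rw [key]
  refine osc_le_of_bounds ?_ (fun η hη => ?_) (fun η hη => ?_)
  · have h3 : -(2 * B) ≤ R - L + ε := by rw [hB]; linarith
    have h4 : t * (-(2 * B)) ≤ t * (R - L + ε) := mul_le_mul_of_nonneg_left h3 ht0.le
    nlinarith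
  · filter_upwards [h1, h.hi η hη] with z h3 h4
    rcases lt_or_ge (β - δ₁) (u z) with h5 | h5
    · have := mul_le_mul_of_nonneg_left (h3 h5) ht0.le
      linarith
    · have h6 : t * φ z ≤ t * M := mul_le_mul_of_nonneg_left ((le_abs_self _).trans (hφ z)) ht0.le
      have h7 : t * (-(|R|)) ≤ t * (R + ε / 2) :=
        mul_le_mul_of_nonneg_left (by linarith) ht0.le
      have h8 : t * M + t * |R| ≤ t * B := by
        rw [← mul_add]; exact mul_le_mul_of_nonneg_left (by rw [hB]; linarith) ht0.le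
      nlinarith
  · filter_upwards [h2, h.lo η hη] with z h3 h4
    rcases lt_or_ge (u z) (α + δ₂) with h5 | h5
    · have := mul_le_mul_of_nonneg_left (h3 h5) ht0.le
      linarith
    · have h6 : t * (-M) ≤ t * φ z := mul_le_mul_of_nonneg_left
        ((neg_le_neg (hφ z)).trans (neg_abs_le _)) ht0.le
      have h7 : t * (L - ε / 2) ≤ t * |L| :=
        mul_le_mul_of_nonneg_left (by linarith) ht0.le
      have h8 : t * M + t * |L| ≤ t * B := by
        rw [← mul_add]; exact mul_le_mul_of_nonneg_left (by rw [hB]; linarith) ht0.le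
      nlinarith

/-- two-sided form -/
lemma osc_faces (h : Rng Y u K α β) (hs : α < β) {M : ℝ} (hφ : ∀ z, |φ z| ≤ M) {R L e : ℝ}
    (hR : ∀ ε > 0, ∃ δ > 0, ∀ᶠ z in eK Y K, β - δ < u z → |φ z - R| ≤ e + ε)
    (hL : ∀ ε > 0, ∃ δ > 0, ∀ᶠ z in eK Y K, u z < α + δ → |φ z - L| ≤ e + ε) {ε : ℝ} (hε : 0 < ε) :
    ∀ᶠ t in 𝓝[≠] (0 : ℝ), Tc_808.osc Y (fun z => u z + t * φ z) K ≤
      (β - α) + t * (R - L) + |t| * (2 * e + ε) := by
  rw [← nhdsLT_sup_nhdsGT, eventually_sup]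
  constructor
  · have h1 := osc_faces_plus (φ := fun z => - φ z) h hs (M := M) (fun z => by simpa using hφ z)
      (R := -R + e) (L := -L - e)
      (fun ε hε => by
        obtain ⟨δ, hδ, h⟩ := hR ε hε
        exact ⟨δ, hδ, h.mono fun z hz h0 => by have := (abs_le.1 (hz h0)).1; linarith⟩)
      (fun ε hε => by
        obtain ⟨δ, hδ, h⟩ := hL ε hε
        exact ⟨δ, hδ, h.mono fun z hz h0 => by have := (abs_le.1 (hz h0)).2; linarith⟩) hε
    have hneg : Tendsto (fun t : ℝ => -t) (𝓝[<] (0 : ℝ)) (𝓝[>] (0 : ℝ)) := by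
      refine tendsto_nhdsWithin_iff.2 ⟨?_, ?_⟩
      · have : Tendsto (fun t : ℝ => -t) (𝓝 (0 : ℝ)) (𝓝 (-0)) := tendsto_id.neg
        simpa using this.mono_left nhdsWithin_le_nhds
      · filter_upwards [self_mem_nhdsWithin] with t ht
        have ht' : t < 0 := ht
        exact neg_pos.2 ht'
    filter_upwards [hneg.eventually h1, self_mem_nhdsWithin] with t h2 ht
    have ht' : t < 0 := ht
    rw [abs_of_neg ht']
    have e1 : (fun z => u z + -t * -φ z) = fun z => u z + t * φ z := by funext z; ring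
    rw [e1] at h2
    linarith
  · have h1 := osc_faces_plus h hs hφ (R := R + e) (L := L - e)
      (fun ε hε => by
        obtain ⟨δ, hδ, h⟩ := hR ε hε
        exact ⟨δ, hδ, h.mono fun z hz h0 => by have := (abs_le.1 (hz h0)).2; linarith⟩)
      (fun ε hε => by
        obtain ⟨δ, hδ, h⟩ := hL ε hε
        exact ⟨δ, hδ, h.mono fun z hz h0 => by have := (abs_le.1 (hz h0)).1; linarith⟩) hε
    filter_upwards [h1, self_mem_nhdsWithin] with t h2 ht
    have ht' : 0 < t := ht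
    rw [abs_of_pos ht']
    linarith

lemma osc_mul_const (hφ : ∃ M, ∀ z, |φ z| ≤ M) (t : ℝ) :
    Tc_808.osc Y (fun z => t * φ z) K ≤ |t| * Tc_808.osc Y φ K := by
  have h : LipschitzWith ‖t‖₊ fun y : ℝ => t * y := by
    refine LipschitzWith.of_dist_le_mul fun a b => ?_
    rw [Real.dist_eq, Real.dist_eq, ← mul_sub, abs_mul, coe_nnnorm, Real.norm_eq_abs]
  simpa using osc_comp_le (Y := Y) (K := K) hφ h

lemma osc_crude (hu : ∃ M, ∀ z, |u z| ≤ M) (hφ : ∃ M, ∀ z, |φ z| ≤ M) (t : ℝ) :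
    Tc_808.osc Y (fun z => u z + t * φ z) K ≤ Tc_808.osc Y u K + |t| * Tc_808.osc Y φ K := by
  have hφ' : ∃ M, ∀ z, |(fun z => t * φ z) z| ≤ M := by
    obtain ⟨M, hM⟩ := hφ
    exact ⟨|t| * M, fun z => by
      simp only [abs_mul]; exact mul_le_mul_of_nonneg_left (hM z) (abs_nonneg t)⟩
  exact (osc_add_le hu hφ').trans (add_le_add le_rfl (osc_mul_const hφ t))

/-! ### the E-L relations -/

section EL
variable {a b : ℝ}

/-- `T (x + t φ) ≥ T x` : the quadratic part is `2 t a + t² b` -/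
def MinAt (Y : Set ℂ) (u φ : ℂ → ℝ) (a b : ℝ) : Prop :=
  ∀ t : ℝ, ∑' K : Cmp Y, Tc_808.osc Y u K.1 ^ 2 ≤
    2 * t * a + t ^ 2 * b + ∑' K : Cmp Y, Tc_808.osc Y (fun z => u z + t * φ z) K.1 ^ 2

lemma crude_hyp (hu : TT Y u) (hφ : TT Y φ) (t : ℝ) (K : Cmp Y) :
    0 ≤ Tc_808.osc Y (fun z => u z + t * φ z) K.1 ∧
      Tc_808.osc Y (fun z => u z + t * φ z) K.1 ≤
        Tc_808.osc Y u K.1 + |t| * Tc_808.osc Y φ K.1 :=
  ⟨osc_nonneg _ _ _, osc_crude hu.q.bdd hφ.q.bdd t⟩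

/-- E-L, crude form -/
theorem crude (hu : TT Y u) (hφ : TT Y φ) (hm : MinAt Y u φ a b) :
    |a| ≤ ∑' K : Cmp Y, Tc_808.osc Y u K.1 * Tc_808.osc Y φ K.1 :=
  el_crude (b := b) (o := fun (K : Cmp Y) t => Tc_808.osc Y (fun z => u z + t * φ z) K.1)
    (fun _ => osc_nonneg _ _ _) (fun _ => osc_nonneg _ _ _) hu.sum hφ.sum
    (Eventually.of_forall fun t K => crude_hyp hu hφ t K) (Eventually.of_forall hm)


/-- E-L, two-sided form with faces -/
theorem faces (hu : TT Y u) (hφ : TT Y φ) (hm : MinAt Y u φ a b) {α β R L e : Cmp Y → ℝ}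
    (hr : ∀ K, Tc_808.osc Y u K.1 ≠ 0 → Rng Y u K.1 (α K) (β K))
    (hR : ∀ K, Tc_808.osc Y u K.1 ≠ 0 → ∀ ε > 0, ∃ δ > 0, ∀ᶠ z in eK Y K.1,
      β K - δ < u z → |φ z - R K| ≤ e K + ε)
    (hL : ∀ K, Tc_808.osc Y u K.1 ≠ 0 → ∀ ε > 0, ∃ δ > 0, ∀ᶠ z in eK Y K.1,
      u z < α K + δ → |φ z - L K| ≤ e K + ε)
    (hs : Summable fun K : Cmp Y => Tc_808.osc Y u K.1 * (R K - L K))
    (hse : Summable fun K : Cmp Y => Tc_808.osc Y u K.1 * e K) :
    |a + ∑' K : Cmp Y, Tc_808.osc Y u K.1 * (R K - L K)| ≤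
      2 * ∑' K : Cmp Y, Tc_808.osc Y u K.1 * e K := by
  obtain ⟨M, hM⟩ := hφ.q.bdd
  have hse' : Summable fun K : Cmp Y => Tc_808.osc Y u K.1 * (2 * e K) :=
    (hse.mul_left 2).congr fun K => by ring
  have h := el_two (a := a) (b := b) (c := fun K : Cmp Y => Tc_808.osc Y φ K.1)
    (r := fun K : Cmp Y => R K - L K) (e := fun K : Cmp Y => 2 * e K)
    (o := fun (K : Cmp Y) t => Tc_808.osc Y (fun z => u z + t * φ z) K.1)
    (fun _ => osc_nonneg _ _ _) (fun _ => osc_nonneg _ _ _) hu.sum hφ.sum hs hse'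
    (Eventually.of_forall fun t K => crude_hyp hu hφ t K) ?_
    (Eventually.of_forall hm)
  · refine h.trans (le_of_eq ?_)
    rw [← tsum_mul_left]
    exact tsum_congr fun K => by ring
  · intro K h0 ε hε
    have h1 := hr K h0
    have h2 : α K < β K := by
      have := lt_of_le_of_ne (osc_nonneg Y u K.1) (Ne.symm h0)
      linarith [h1.osc]
    have h3 := osc_faces h1 h2 hM (hR K h0) (hL K h0) hε
    rwa [h1.osc] at h3

/-- E-L, exact form: test function `χ · G ∘ u` near `Y`, `χ` locally constant near `Y` -/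
theorem exact (hu : TT Y u) (hφ : TT Y φ) (hm : MinAt Y u φ a b) {χ : ℂ → ℝ} (hχ : LC Y χ)
    {G : ℝ → ℝ} {Λ : ℝ≥0} (hG : LipschitzWith Λ G)
    (hφG : ∀ K : Cmp Y, ∀ᶠ z in eK Y K.1, φ z = χ z * G (u z))
    {α β c : Cmp Y → ℝ} (hr : ∀ K, Tc_808.osc Y u K.1 ≠ 0 → Rng Y u K.1 (α K) (β K))
    (hc : ∀ K, ∀ z ∈ K.1, χ z = c K) :
    a + ∑' K : Cmp Y, Tc_808.osc Y u K.1 * (c K * (G (β K) - G (α K))) = 0 := by
  classical
  obtain ⟨M, hM⟩ := hχ.bdd
  have hM0 : 0 ≤ M := (abs_nonneg _).trans (hM 0)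
  have hcM : ∀ K : Cmp Y, |c K| ≤ M := fun K => by
    obtain ⟨z, hz⟩ := K.nonempty
    rw [← hc K z hz]; exact hM z
  have hcev : ∀ K : Cmp Y, ∀ᶠ z in eK Y K.1, χ z = c K := by
    intro K
    obtain ⟨c', O, hO, hKO, h⟩ := LC.const_near hχ K.preconn K.subset
    obtain ⟨z, hz⟩ := K.nonempty
    have : c' = c K := by rw [← hc K z hz, h z (hKO hz)]
    exact mem_eK.2 ⟨O, hO, hKO, fun w hw _ => by rw [← this]; exact h w hw⟩
  have hGL : ∀ p q, |G p - G q| ≤ Λ * |p - q| := fun p q => by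
    simpa [Real.dist_eq] using hG.dist_le_mul p q
  have hΛ : (0 : ℝ) ≤ Λ := Λ.2
  -- near a face
  have near : ∀ K : Cmp Y, ∀ γ ε : ℝ, 0 < ε → ∃ δ > 0, ∀ᶠ z in eK Y K.1, |u z - γ| ≤ δ →
      |φ z - c K * G γ| ≤ 0 + ε := by
    intro K γ ε hε
    refine ⟨ε / ((M + 1) * (Λ + 1)), by positivity, ?_⟩
    filter_upwards [hφG K, hcev K] with z h1 h2 h3
    rw [h1, h2, ← mul_sub, abs_mul, zero_add]
    have h4 : |c K| * |G (u z) - G γ| ≤ M * (Λ * (ε / ((M + 1) * (Λ + 1)))) :=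
      mul_le_mul (hcM K) ((hGL _ _).trans (mul_le_mul_of_nonneg_left h3 hΛ)) (abs_nonneg _) hM0
    refine h4.trans ?_
    rw [← mul_assoc, mul_div_assoc', div_le_iff₀ (by positivity)]
    nlinarith [mul_nonneg hM0 hΛ]
  have hR : ∀ K, Tc_808.osc Y u K.1 ≠ 0 → ∀ ε > 0, ∃ δ > 0, ∀ᶠ z in eK Y K.1,
      β K - δ < u z → |φ z - c K * G (β K)| ≤ 0 + ε := by
    intro K h0 ε hε
    obtain ⟨δ, hδ, h⟩ := near K (β K) ε hε
    refine ⟨δ, hδ, ?_⟩
    filter_upwards [h, (hr K h0).hi δ hδ] with z h1 h2 h3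
    exact h1 (abs_le.2 ⟨by linarith, by linarith⟩)
  have hL : ∀ K, Tc_808.osc Y u K.1 ≠ 0 → ∀ ε > 0, ∃ δ > 0, ∀ᶠ z in eK Y K.1,
      u z < α K + δ → |φ z - c K * G (α K)| ≤ 0 + ε := by
    intro K h0 ε hε
    obtain ⟨δ, hδ, h⟩ := near K (α K) ε hε
    refine ⟨δ, hδ, ?_⟩
    filter_upwards [h, (hr K h0).lo δ hδ] with z h1 h2 h3
    exact h1 (abs_le.2 ⟨by linarith, by linarith⟩)
  have hsum : Summable fun K : Cmp Y => Tc_808.osc Y u K.1 * (c K * G (β K) - c K * G (α K)) := by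
    refine Summable.of_norm_bounded ((hu.sum.mul_left (M * Λ))) fun K => ?_
    rw [Real.norm_eq_abs, abs_mul, abs_of_nonneg (osc_nonneg Y u K.1)]
    by_cases h0 : Tc_808.osc Y u K.1 = 0
    · rw [h0]; simp
    · have h1 := hr K h0
      have h2 : |c K * G (β K) - c K * G (α K)| ≤ M * (Λ * Tc_808.osc Y u K.1) := by
        rw [← mul_sub, abs_mul]
        refine mul_le_mul (hcM K) ((hGL _ _).trans (mul_le_mul_of_nonneg_left (le_of_eq ?_) hΛ))
          (abs_nonneg _) hM0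
        rw [h1.osc, abs_of_nonneg (osc_nonneg Y u K.1)]
      calc Tc_808.osc Y u K.1 * |c K * G (β K) - c K * G (α K)|
          ≤ Tc_808.osc Y u K.1 * (M * (Λ * Tc_808.osc Y u K.1)) :=
            mul_le_mul_of_nonneg_left h2 (osc_nonneg _ _ _)
        _ = M * Λ * Tc_808.osc Y u K.1 ^ 2 := by ring
  have h := faces (e := fun _ => (0 : ℝ)) hu hφ hm hr hR hL hsum (by simp [summable_zero])
  have h' : |a + ∑' K : Cmp Y, Tc_808.osc Y u K.1 * (c K * G (β K) - c K * G (α K))| ≤ 0 := by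
    simpa using h
  have h'' := abs_nonpos_iff.1 h'
  rw [← h'']
  congr 1
  exact tsum_congr fun K => by ring

end EL

end Crest.Agent.R105.Elf_600
end

-- ▼ part R105/Elf3_600

/-!
# Row 105, S0138 (T-frame): the E-L relations for `JT = J + Σ osc²` (helper600)

`x = x0 + u`, `u` minimal for `JT Y x0` along `u + t φ`, `φ` with compact support:
* `el_crude` : `|∫_{Yᶜ} ∇x·∇φ| ≤ Σ_K osc_K u · osc_K φ`
* `el_faces` : two-sided form with faces
* `el_plus`  : one-sided form with faces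
* `el_exact` : `∫_{Yᶜ} ∇x·∇(χ G(x)) + Σ_K osc_K u · χ(K) (G (up K) - G (lo K)) = 0`
* `el_sign`  : `∫_{Yᶜ} ∇x·∇(χ G(x)) ≤ 0` for `χ ≥ 0`, `G` monotone
-/

set_option autoImplicit false

open MeasureTheory Set Filter Topology Metric
open scoped NNReal ENNReal ContDiff

namespace Crest.Agent.R105.Elf_600

open Bd_775 Tc_808 Ends_897 Crest.AnalysisR
open IfB_641 (X0 di lap J)
open SelT_871 (JT oS)

variable {Y K : Set ℂ} {x0 u φ : ℂ → ℝ}

/-- the quadratic expansion of `JT` -/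
theorem minAt_JT (hY : IsClosed Y) (hx : X0 Y x0) (hu : TT Y u) (hφ : TT Y φ)
    (hmin : ∀ t : ℝ, JT Y x0 u ≤ JT Y x0 (fun z => u z + t * φ z)) :
    MinAt Y u φ (di Y u φ - ∫ z, φ z * lap x0 z) (di Y φ φ) := by
  intro t
  have h := hmin t
  unfold JT oS at h
  rw [IfB_641.J_expand hY hx hu.q hφ.q t] at h
  linarith

/-- a point of a component -/
noncomputable def pt (K : Cmp Y) : ℂ := K.nonempty.some

lemma pt_mem (K : Cmp Y) : pt K ∈ K.1 := K.nonempty.some_mem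

lemma pt_mem' (K : Cmp Y) : pt K ∈ Y := K.subset (pt_mem K)

lemma cc_pt (K : Cmp Y) : connectedComponentIn Y (pt K) = K.1 :=
  (congrArg Subtype.val (K.eq_of_mem (pt_mem K))).symm

/-- lower / upper limit at a component -/
noncomputable def loK (Y : Set ℂ) (u : ℂ → ℝ) (K : Cmp Y) : ℝ := Ni_459.lo Y u (pt K)
noncomputable def upK (Y : Set ℂ) (u : ℂ → ℝ) (K : Cmp Y) : ℝ := Ni_459.up Y u (pt K)

lemma loK_eq (K : Cmp Y) {z : ℂ} (hz : z ∈ K.1) : Ni_459.lo Y u z = loK Y u K :=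
  Ni_459.lo_congr_cc (pt_mem' K) (by rw [cc_pt]; exact hz)

lemma upK_eq (K : Cmp Y) {z : ℂ} (hz : z ∈ K.1) : Ni_459.up Y u z = upK Y u K :=
  Ni_459.up_congr_cc (pt_mem' K) (by rw [cc_pt]; exact hz)

lemma osc_eq (hY : IsExteriorDomain Yᶜ) (hu : ∃ M, ∀ z, |u z| ≤ M) (K : Cmp Y) :
    Tc_808.osc Y u K.1 = upK Y u K - loK Y u K := by
  have := Ni_459.osc_eq hY hu (pt_mem' K)
  rwa [cc_pt] at this

lemma loK_le_upK (hY : IsExteriorDomain Yᶜ) (hu : ∃ M, ∀ z, |u z| ≤ M) (K : Cmp Y) :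
    loK Y u K ≤ upK Y u K := Ni_459.lo_le_up hY (Ni_459.LB.of_bdd hu) _

lemma rng (hY : IsExteriorDomain Yᶜ) (hu : ∃ M, ∀ z, |u z| ≤ M) (K : Cmp Y) :
    Rng Y u K.1 (loK Y u K) (upK Y u K) := by
  refine ⟨loK_le_upK hY hu K, fun ε hε => ?_, fun ε hε => ?_, (osc_eq hY hu K).symm⟩
  · obtain ⟨O, hO, h⟩ := Ni_459.exists_gt_of_lt_lo hY (Ni_459.LB.of_bdd hu)
      (show loK Y u K - ε < Ni_459.lo Y u (pt K) by unfold loK; linarith)
    exact mem_eK.2 ⟨O, hO.op, by rw [← cc_pt K]; exact hO.sub, h⟩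
  · obtain ⟨O, hO, h⟩ := Ni_459.exists_lt_of_up_lt hY (Ni_459.LB.of_bdd hu)
      (show Ni_459.up Y u (pt K) < upK Y u K + ε by unfold upK; linarith)
    exact mem_eK.2 ⟨O, hO.op, by rw [← cc_pt K]; exact hO.sub, h⟩

/-- the first variation is `∫ ∇x·∇φ` -/
lemma a_eq (hY : IsCompact Y) (hx : X0 Y x0) (hu : Q Y u) (hφ : Q Y φ)
    (hc : HasCompactSupport φ) :
    di Y u φ - ∫ z, φ z * lap x0 z = ∫ z in Yᶜ, dot (fun w => x0 w + u w) φ z := by
  obtain ⟨h1, h2⟩ := Mid_987.di_x0 hY hx hφ hc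
  have h3 : di Y u φ - ∫ z, φ z * lap x0 z = di Y x0 φ + di Y u φ := by rw [h2]; ring
  rw [h3]
  unfold di at h2 ⊢
  rw [← integral_add h1 (integrableOn_dot hu hφ)]
  refine integral_congr_ae ?_
  filter_upwards [hu.ae_diff hY.isClosed] with z h4
  have h5 : DifferentiableAt ℝ x0 z := hx.sm.differentiable (by simp) z
  unfold dot
  rw [gx_add h5 h4, gy_add h5 h4]
  ring

section Main
variable (hY : IsExteriorDomain Yᶜ) (hx : X0 Y x0) (hu : TT Y u) (hφ : TT Y φ)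
  (hc : HasCompactSupport φ)
  (hmin : ∀ t : ℝ, JT Y x0 u ≤ JT Y x0 (fun z => u z + t * φ z))
include hY hx hu hφ hc hmin

/-- E-L, crude form -/
theorem el_crude_x : |∫ z in Yᶜ, dot (fun w => x0 w + u w) φ z| ≤
    ∑' K : Cmp Y, Tc_808.osc Y u K.1 * Tc_808.osc Y φ K.1 := by
  have hYc : IsCompact Y := Ni_459.cpt_of hY
  rw [← a_eq hYc hx hu.q hφ.q hc]
  exact crude hu hφ (minAt_JT hYc.isClosed hx hu hφ hmin)



/-- E-L, exact form: `φ = χ · G ∘ u` near `Y` -/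
theorem el_exact_x {χ : ℂ → ℝ} (hχ : LC Y χ) {G : ℝ → ℝ} {Λ : ℝ≥0} (hG : LipschitzWith Λ G)
    (hφG : ∀ K : Cmp Y, ∀ᶠ z in eK Y K.1, φ z = χ z * G (u z)) :
    (∫ z in Yᶜ, dot (fun w => x0 w + u w) φ z) +
      ∑' K : Cmp Y, (upK Y u K - loK Y u K) * (χ (pt K) * (G (upK Y u K) - G (loK Y u K))) = 0 := by
  have hYc : IsCompact Y := Ni_459.cpt_of hY
  have hcc : ∀ K : Cmp Y, ∀ z ∈ K.1, χ z = χ (pt K) := by
    intro K z hz
    obtain ⟨c, O, hO, hKO, h⟩ := LC.const_near hχ K.preconn K.subset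
    rw [h z (hKO hz), h _ (hKO (pt_mem K))]
  have h := exact hu hφ (minAt_JT hYc.isClosed hx hu hφ hmin) hχ hG hφG
    (fun K _ => rng hY hu.q.bdd K) (c := fun K => χ (pt K)) hcc
  rw [a_eq hYc hx hu.q hφ.q hc] at h
  rw [← h]
  congr 1
  exact tsum_congr fun K => by rw [osc_eq hY hu.q.bdd K]

end Main

/-! ### test functions `χ · G (x)` -/

/-- `χ · G (x0 + u)` is `T`-finite with compact support, and `= χ · G u` near `Y` -/
theorem test_chiG (hY : IsCompact Y) (hx : X0 Y x0) (hu : TT Y u) {χ : ℂ → ℝ} (hχ : LC Y χ)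
    (hχc : HasCompactSupport χ) {G : ℝ → ℝ} {Λ : ℝ≥0} (hG : LipschitzWith Λ G) :
    TT Y (fun z => χ z * G (x0 z + u z)) ∧ HasCompactSupport (fun z => χ z * G (x0 z + u z)) ∧
      ∀ K : Cmp Y, ∀ᶠ z in eK Y K.1, χ z * G (x0 z + u z) = χ z * G (u z) := by
  refine ⟨?_, hχc.mul_right, fun K => ?_⟩
  · obtain ⟨R, hR⟩ := hχc.isCompact.isBounded.subset_closedBall (0 : ℂ)
    set R' : ℝ := max R 1
    have hR1 : 0 < R' := lt_of_lt_of_le one_pos (le_max_right _ _)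
    let f : ContDiffBump (0 : ℂ) := ⟨R', R' + 1, hR1, by linarith⟩
    have hf : ∀ z ∈ tsupport χ, f z = 1 := fun z hz =>
      f.one_of_mem_closedBall (closedBall_subset_closedBall (le_max_left _ _) (hR hz))
    have e : (fun z => χ z * G (x0 z + u z)) = fun z => χ z * G (x0 z * f z + u z) := by
      funext z
      by_cases hz : z ∈ tsupport χ
      · rw [hf z hz, mul_one]
      · rw [image_eq_zero_of_notMem_tsupport hz, zero_mul, zero_mul]
    rw [e]
    have hl : LC Y (fun z => x0 z * f z) := by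
      refine LC.of_compact ((hx.sm.mul f.contDiff).of_le (by simp)).locallyLipschitz
        (f.hasCompactSupport.mul_left) fun z hz => ?_
      have h4 : x0 =ᶠ[𝓝 z] 0 := notMem_tsupport_iff_eventuallyEq.1 fun h => hx.zero h hz
      filter_upwards [h4] with w hw
      rw [hw, h4.self_of_nhds]; simp
    exact (TT.lc hχ).mul hY.isClosed (((TT.lc hl).add hY.isClosed hu).comp hY.isClosed hG)
  · -- `x0 = 0` near `Y`
    refine mem_eK.2 ⟨(tsupport x0)ᶜ, (isClosed_tsupport x0).isOpen_compl,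
      fun z hz h => hx.zero h (K.subset hz), fun z hz _ => ?_⟩
    have : x0 z = 0 := image_eq_zero_of_notMem_tsupport hz
    simp only [mem_ofPred_eq, this, zero_add]

/-- **E-L, exact form for `χ · G (x)`** -/
theorem el_exact_chiG (hY : IsExteriorDomain Yᶜ) (hx : X0 Y x0) (hu : TT Y u) {χ : ℂ → ℝ}
    (hχ : LC Y χ) (hχc : HasCompactSupport χ) {G : ℝ → ℝ} {Λ : ℝ≥0} (hG : LipschitzWith Λ G)
    (hmin : ∀ t : ℝ, JT Y x0 u ≤ JT Y x0 (fun z => u z + t * (χ z * G (x0 z + u z)))) :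
    (∫ z in Yᶜ, dot (fun w => x0 w + u w) (fun z => χ z * G (x0 z + u z)) z) +
      ∑' K : Cmp Y, (upK Y u K - loK Y u K) * (χ (pt K) * (G (upK Y u K) - G (loK Y u K))) = 0 := by
  obtain ⟨h1, h2, h3⟩ := test_chiG (Ni_459.cpt_of hY) hx hu hχ hχc hG
  exact el_exact_x hY hx hu h1 h2 hmin hχ hG h3



end Crest.Agent.R105.Elf_600
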