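import Mathlib
import Crest.Agent.R105.Tc1_808
import Crest.Agent.R105.Ni0_459
import Crest.Agent.R105.IfB2_641
import Crest.Agent.R105.Bd5_775

-- ▼ part R105/Grd1_782
section

/-!
# Row 105, S0138 (T-frame, 459 #9956 (S)): abstract greedy selection for a symmetric relation

* `greedy` : `N` a relation on `α`, symmetric and reflexive on the class `C`, `T` bounded below on
  `C`, `S` the switched elements, every `b ∈ C` can be replaced by `b' ∈ C ∩ S` with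
  `T b' ≤ T b` and `N a b → N a b'` for `a ∈ C ∩ S`.  Then there is a sequence `u n ∈ C ∩ S`,
  pairwise related, with `T (u n) → m` and `m ≤ T b` for all `b ∈ C` related to all `u n`.
* `cauchy_of_parallelogram` : if the commutant is midpoint convex and
  `T (mid a b) + q a b ≤ (T a + T b) / 2` then `q (u n) (u m) → 0`.
* `l2_limit` : an `ℓ²` Cauchy sequence of square summable families has an `ℓ²` limit, uniformly
  small tails.
-/

set_option autoImplicit false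

open Filter Topology Set

namespace Crest.Agent.R105.Grd_782

noncomputable section

section Greedy

variable {α : Type*} (N : α → α → Prop) (T : α → ℝ) (C S : Set α) (u0 : α)

/-- one greedy step -/
def GoodStep (l : List α) (b : α) : Prop :=
  b ∈ C ∧ b ∈ S ∧ (∀ a ∈ l, N a b) ∧
    ∀ b' ∈ C, (∀ a ∈ l, N a b') → T b ≤ T b' + (1 / 2 : ℝ) ^ l.length

open Classical in
/-- the chosen next element -/
def step (l : List α) : α :=
  if h : ∃ b, GoodStep N T C S l b then h.choose else u0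

/-- the lists `[u n, …, u 0]` -/
def lst : ℕ → List α
  | 0 => [u0]
  | n + 1 => step N T C S u0 (lst n) :: lst n

/-- the greedy sequence -/
def sq : ℕ → α
  | 0 => u0
  | n + 1 => step N T C S u0 (lst N T C S u0 n)

lemma length_lst (n : ℕ) : (lst N T C S u0 n).length = n + 1 := by
  induction n with
  | zero => rfl
  | succ n ih => simp [lst, ih]

lemma mem_lst (n : ℕ) (a : α) : a ∈ lst N T C S u0 n ↔ ∃ k ≤ n, a = sq N T C S u0 k := by
  induction n with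
  | zero =>
    simp only [lst, List.mem_singleton, Nat.le_zero]
    constructor
    · rintro rfl; exact ⟨0, rfl, rfl⟩
    · rintro ⟨k, rfl, h⟩; exact h
  | succ n ih =>
    simp only [lst, List.mem_cons, ih]
    constructor
    · rintro (h | ⟨k, hk, h⟩)
      · exact ⟨n + 1, le_rfl, h⟩
      · exact ⟨k, hk.trans (Nat.le_succ n), h⟩
    · rintro ⟨k, hk, h⟩
      rcases Nat.lt_or_ge k (n + 1) with h1 | h1
      · exact Or.inr ⟨k, Nat.lt_succ_iff.1 h1, h⟩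
      · have : k = n + 1 := le_antisymm hk h1
        subst this
        exact Or.inl h

variable {N T C S u0}

/-- the hypotheses of the greedy selection -/
structure Hyp (N : α → α → Prop) (T : α → ℝ) (C S : Set α) (u0 : α) : Prop where
  mem : u0 ∈ C
  sw : u0 ∈ S
  symm : ∀ a ∈ C, ∀ b ∈ C, N a b → N b a
  refl : ∀ a ∈ C, N a a
  bdd : ∃ M, ∀ a ∈ C, M ≤ T a
  switch : ∀ b ∈ C, ∃ b' ∈ C, b' ∈ S ∧ T b' ≤ T b ∧ ∀ a ∈ C, a ∈ S → N a b → N a b'

lemma exists_goodStep (h : Hyp N T C S u0) (l : List α) (hl : ∀ a ∈ l, a ∈ C ∧ a ∈ S)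
    {b0 : α} (hb0 : b0 ∈ C) (hb0' : ∀ a ∈ l, N a b0) : ∃ b, GoodStep N T C S l b := by
  classical
  set A : Set ℝ := {t | ∃ b ∈ C, (∀ a ∈ l, N a b) ∧ T b = t} with hA
  have hne : A.Nonempty := ⟨T b0, b0, hb0, hb0', rfl⟩
  obtain ⟨M, hM⟩ := h.bdd
  have hbd : BddBelow A := ⟨M, by rintro _ ⟨b, hb, -, rfl⟩; exact hM b hb⟩
  have hε : (0 : ℝ) < (1 / 2 : ℝ) ^ l.length := by positivity
  obtain ⟨_, ⟨b, hb, hbl, rfl⟩, hlt⟩ := exists_lt_of_csInf_lt hne (lt_add_of_pos_right (sInf A) hε)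
  obtain ⟨b', hb', hbS, hT, hN⟩ := h.switch b hb
  refine ⟨b', hb', hbS, fun a ha => hN a (hl a ha).1 (hl a ha).2 (hbl a ha), fun c hc hcl => ?_⟩
  have h1 : sInf A ≤ T c := csInf_le hbd ⟨c, hc, hcl, rfl⟩
  linarith

lemma step_spec (h : Hyp N T C S u0) (l : List α) (hl : ∀ a ∈ l, a ∈ C ∧ a ∈ S)
    {b0 : α} (hb0 : b0 ∈ C) (hb0' : ∀ a ∈ l, N a b0) : GoodStep N T C S l (step N T C S u0 l) := by
  have he := exists_goodStep h l hl hb0 hb0'
  unfold step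
  rw [dif_pos he]
  exact he.choose_spec

lemma sq_spec (h : Hyp N T C S u0) (n : ℕ) :
    (∀ k ≤ n, sq N T C S u0 k ∈ C ∧ sq N T C S u0 k ∈ S) ∧
    (∀ i ≤ n, ∀ j ≤ n, i ≤ j → N (sq N T C S u0 i) (sq N T C S u0 j)) ∧
    GoodStep N T C S (lst N T C S u0 n) (sq N T C S u0 (n + 1)) := by
  induction n with
  | zero =>
    have h0 : ∀ k ≤ 0, sq N T C S u0 k ∈ C ∧ sq N T C S u0 k ∈ S := by
      intro k hk; obtain rfl : k = 0 := Nat.le_zero.1 hk; exact ⟨h.mem, h.sw⟩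
    refine ⟨h0, ?_, ?_⟩
    · intro i hi j hj _
      obtain rfl : i = 0 := Nat.le_zero.1 hi
      obtain rfl : j = 0 := Nat.le_zero.1 hj
      exact h.refl _ h.mem
    · refine step_spec h _ ?_ h.mem ?_
      · intro a ha
        obtain ⟨k, hk, rfl⟩ := (mem_lst N T C S u0 0 a).1 ha
        exact h0 k hk
      · intro a ha
        obtain ⟨k, hk, rfl⟩ := (mem_lst N T C S u0 0 a).1 ha
        obtain rfl : k = 0 := Nat.le_zero.1 hk
        exact h.refl _ h.mem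
  | succ n ih =>
    obtain ⟨h1, h2, h3⟩ := ih
    have h1' : ∀ k ≤ n + 1, sq N T C S u0 k ∈ C ∧ sq N T C S u0 k ∈ S := by
      intro k hk
      rcases Nat.lt_or_ge k (n + 1) with hlt | hge
      · exact h1 k (Nat.lt_succ_iff.1 hlt)
      · obtain rfl : k = n + 1 := le_antisymm hk hge
        exact ⟨h3.1, h3.2.1⟩
    have h2' : ∀ i ≤ n + 1, ∀ j ≤ n + 1, i ≤ j → N (sq N T C S u0 i) (sq N T C S u0 j) := by
      intro i hi j hj hij
      rcases Nat.lt_or_ge j (n + 1) with hlt | hge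
      · exact h2 i (hij.trans (Nat.lt_succ_iff.1 hlt)) j (Nat.lt_succ_iff.1 hlt) hij
      · obtain rfl : j = n + 1 := le_antisymm hj hge
        rcases Nat.lt_or_ge i (n + 1) with hlt | hge'
        · exact h3.2.2.1 _ ((mem_lst N T C S u0 n _).2 ⟨i, Nat.lt_succ_iff.1 hlt, rfl⟩)
        · obtain rfl : i = n + 1 := le_antisymm hi hge'
          exact h.refl _ h3.1
    refine ⟨h1', h2', ?_⟩
    refine step_spec h _ ?_ (b0 := sq N T C S u0 (n + 1)) h3.1 ?_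
    · intro a ha
      obtain ⟨k, hk, rfl⟩ := (mem_lst N T C S u0 (n + 1) a).1 ha
      exact h1' k hk
    · intro a ha
      obtain ⟨k, hk, rfl⟩ := (mem_lst N T C S u0 (n + 1) a).1 ha
      exact h2' k hk (n + 1) le_rfl hk

/-- **the greedy sequence** -/
theorem greedy (h : Hyp N T C S u0) :
    ∃ (u : ℕ → α) (m : ℝ), u 0 = u0 ∧ (∀ n, u n ∈ C ∧ u n ∈ S) ∧ (∀ i j, N (u i) (u j)) ∧
      Tendsto (fun n => T (u n)) atTop (𝓝 m) ∧ (∀ n, m ≤ T (u n)) ∧
      ∀ b ∈ C, (∀ i, N (u i) b) → m ≤ T b := by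
  set u := sq N T C S u0 with hu
  have hmem : ∀ n, u n ∈ C ∧ u n ∈ S := fun n => (sq_spec h n).1 n le_rfl
  have hN : ∀ i j, N (u i) (u j) := by
    intro i j
    rcases le_total i j with hij | hij
    · exact (sq_spec h j).2.1 i hij j le_rfl hij
    · exact h.symm _ (hmem j).1 _ (hmem i).1 ((sq_spec h i).2.1 j hij i le_rfl hij)
  set A : Set ℝ := {t | ∃ b ∈ C, (∀ i, N (u i) b) ∧ T b = t} with hA
  obtain ⟨M, hM⟩ := h.bdd
  have hbd : BddBelow A := ⟨M, by rintro _ ⟨b, hb, -, rfl⟩; exact hM b hb⟩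
  have hle : ∀ b ∈ C, (∀ i, N (u i) b) → sInf A ≤ T b := fun b hb hb' => csInf_le hbd ⟨b, hb, hb', rfl⟩
  have hne : A.Nonempty := ⟨T (u 0), u 0, (hmem 0).1, fun i => hN i 0, rfl⟩
  have hupper : ∀ n, T (u (n + 1)) ≤ sInf A + (1 / 2 : ℝ) ^ (n + 1) := by
    intro n
    have h1 : T (u (n + 1)) - (1 / 2 : ℝ) ^ (n + 1) ≤ sInf A := by
      refine le_csInf hne ?_
      rintro _ ⟨b, hb, hb', rfl⟩
      have h2 := (sq_spec h n).2.2.2.2.2 b hb (fun a ha => by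
        obtain ⟨k, _, rfl⟩ := (mem_lst N T C S u0 n a).1 ha
        exact hb' k)
      rw [length_lst] at h2
      linarith
    linarith
  refine ⟨u, sInf A, rfl, hmem, hN, ?_, fun n => hle _ (hmem n).1 fun i => hN i n, hle⟩
  rw [← tendsto_add_atTop_iff_nat 1]
  refine tendsto_of_tendsto_of_tendsto_of_le_of_le (tendsto_const_nhds (x := sInf A)) ?_
    (fun n => hle _ (hmem _).1 fun i => hN i _) hupper
  have h3 : Tendsto (fun n : ℕ => (1 / 2 : ℝ) ^ (n + 1)) atTop (𝓝 0) :=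
    (tendsto_pow_atTop_nhds_zero_of_lt_one (by norm_num) (by norm_num)).comp (tendsto_add_atTop_nat 1)
  simpa using h3.const_add (sInf A)

end Greedy

section Parallelogram

variable {α : Type*}

/-- near minimisers are Cauchy for every quantity controlled by the parallelogram inequality -/
theorem cauchy_of_parallelogram {T : α → ℝ} {m : ℝ} {u : ℕ → α} {mid : α → α → α} {q : α → α → ℝ}
    (hT : Tendsto (fun n => T (u n)) atTop (𝓝 m)) (hm : ∀ i j, m ≤ T (mid (u i) (u j)))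
    (hq : ∀ i j, T (mid (u i) (u j)) + q (u i) (u j) ≤ (T (u i) + T (u j)) / 2) :
    ∀ ε > 0, ∃ n₀, ∀ i ≥ n₀, ∀ j ≥ n₀, q (u i) (u j) ≤ ε := by
  intro ε hε
  obtain ⟨n₀, hn₀⟩ := (hT.eventually (gt_mem_nhds (lt_add_of_pos_right m hε))).exists_forall_of_atTop
  refine ⟨n₀, fun i hi j hj => ?_⟩
  have h1 := hn₀ i hi
  have h2 := hn₀ j hj
  have h3 := hm i j
  have h4 := hq i j
  linarith

/-- `ℓ²` completeness for families -/
theorem l2_limit {ι : Type*} {s : ℕ → ι → ℝ} (hs : ∀ n, Summable fun k => s n k ^ 2)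
    (hc : ∀ ε > 0, ∃ n₀, ∀ i ≥ n₀, ∀ j ≥ n₀, ∑' k, (s i k - s j k) ^ 2 ≤ ε) :
    ∃ σ : ι → ℝ, (Summable fun k => σ k ^ 2) ∧ (∀ k, Tendsto (fun n => s n k) atTop (𝓝 (σ k))) ∧
      (∀ n, Summable fun k => (s n k - σ k) ^ 2) ∧
      Tendsto (fun n => ∑' k, (s n k - σ k) ^ 2) atTop (𝓝 0) := by
  classical
  have hmem : ∀ n, Memℓp (s n) 2 := fun n => by
    rw [memℓp_gen_iff (by norm_num)]
    simpa using hs n
  set f : ℕ → lp (fun _ : ι => ℝ) 2 := fun n => ⟨s n, hmem n⟩ with hf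
  have hnorm : ∀ g : lp (fun _ : ι => ℝ) 2, ‖g‖ ^ 2 = ∑' k, (g k) ^ 2 := by
    intro g
    have := lp.norm_rpow_eq_tsum (p := 2) (by norm_num) g
    simpa using this
  have hcau : CauchySeq f := by
    rw [Metric.cauchySeq_iff']
    intro ε hε
    obtain ⟨n₀, hn₀⟩ := hc (ε ^ 2 / 2) (by positivity)
    refine ⟨n₀, fun n hn => ?_⟩
    rw [dist_eq_norm]
    have h1 : ‖f n - f n₀‖ ^ 2 ≤ ε ^ 2 / 2 := by
      rw [hnorm]
      exact hn₀ n hn n₀ le_rfl
    have h2 : ‖f n - f n₀‖ ^ 2 < ε ^ 2 := lt_of_le_of_lt h1 (by nlinarith [sq_pos_of_pos hε])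
    exact lt_of_pow_lt_pow_left₀ 2 hε.le h2
  obtain ⟨g, hg⟩ := cauchySeq_tendsto_of_complete hcau
  have hsumm : ∀ g : lp (fun _ : ι => ℝ) 2, Summable fun k => (g k) ^ 2 := by
    intro g
    have := (memℓp_gen_iff (by norm_num : (0 : ℝ) < (2 : ENNReal).toReal)).1 (lp.memℓp g)
    simpa using this
  refine ⟨fun k => g k, hsumm g, fun k => ?_, fun n => hsumm (f n - g), ?_⟩
  · have h1 : Tendsto (fun n => ‖f n - g‖) atTop (𝓝 0) := tendsto_iff_norm_sub_tendsto_zero.1 hg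
    rw [tendsto_iff_norm_sub_tendsto_zero]
    refine squeeze_zero (fun n => norm_nonneg _) (fun n => ?_) h1
    exact lp.norm_apply_le_norm (by norm_num) (f n - g) k
  · have h1 : Tendsto (fun n => ‖f n - g‖) atTop (𝓝 0) := tendsto_iff_norm_sub_tendsto_zero.1 hg
    have h2 := h1.pow 2
    simp only [ne_eq, OfNat.ofNat_ne_zero, not_false_eq_true, zero_pow] at h2
    refine h2.congr fun n => ?_
    rw [hnorm]
    rfl

/-- uniform smallness of tails of `∑ s_n s_m` off a finite set -/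
theorem tail_small {ι : Type*} {s : ℕ → ι → ℝ} {σ : ι → ℝ} (hs : ∀ n, Summable fun k => s n k ^ 2)
    (hσ : Summable fun k => σ k ^ 2) (hd : ∀ n, Summable fun k => (s n k - σ k) ^ 2)
    (h0 : Tendsto (fun n => ∑' k, (s n k - σ k) ^ 2) atTop (𝓝 0)) {ε : ℝ} (hε : 0 < ε) :
    ∃ (F : Finset ι) (n₀ : ℕ), ∀ n ≥ n₀, ∀ A : Set ι, Disjoint A (F : Set ι) →
      ∑' k : A, s n k ^ 2 ≤ ε := by
  classical
  obtain ⟨F, hF⟩ := (hσ.tsum_vanishing (Metric.ball_mem_nhds (0 : ℝ) (show (0 : ℝ) < ε / 4 by positivity)))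
  obtain ⟨n₀, hn₀⟩ := (h0.eventually (gt_mem_nhds (show (0 : ℝ) < ε / 4 by positivity))).exists_forall_of_atTop
  refine ⟨F, n₀, fun n hn A hA => ?_⟩
  have h1 : ∑' k : A, σ k ^ 2 < ε / 4 := by
    have := hF A hA
    rw [Metric.mem_ball, Real.dist_eq, sub_zero] at this
    exact (le_abs_self _).trans_lt this
  have h2 : ∑' k : A, (s n k - σ k) ^ 2 ≤ ∑' k, (s n k - σ k) ^ 2 :=
    (hd n).tsum_subtype_le (fun k => (s n k - σ k) ^ 2) A (fun k => sq_nonneg _)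
  have h3 := hn₀ n hn
  have h4 : ∑' k : A, s n k ^ 2 ≤ ∑' k : A, (2 * σ k ^ 2 + 2 * (s n k - σ k) ^ 2) := by
    refine Summable.tsum_le_tsum (fun k => ?_) ((hs n).subtype A)
      (((hσ.subtype A).mul_left 2).add (((hd n).subtype A).mul_left 2))
    nlinarith [sq_nonneg (s n k - 2 * σ k)]
  have h5 : ∑' k : A, (2 * σ k ^ 2 + 2 * (s n k - σ k) ^ 2) =
      2 * ∑' k : A, σ k ^ 2 + 2 * ∑' k : A, (s n k - σ k) ^ 2 := by
    have e1 : Summable fun k : A => 2 * σ k ^ 2 := (hσ.subtype A).mul_left 2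
    have e2 : Summable fun k : A => 2 * (s n k - σ k) ^ 2 := ((hd n).subtype A).mul_left 2
    rw [Summable.tsum_add e1 e2, tsum_mul_left, tsum_mul_left]
  linarith

end Parallelogram

end

end Crest.Agent.R105.Grd_782
private theorem rz_95743845ee : type_of% @_root_.Crest.Agent.R105.Grd_782.lst.eq_def := @_root_.Crest.Agent.R105.Grd_782.lst.eq_def -- L39
private theorem rz_552340a83a : type_of% @_root_.Crest.Agent.R105.Grd_782.lst.eq_1 := @_root_.Crest.Agent.R105.Grd_782.lst.eq_1 -- L39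
end

-- ▼ part R105/Grd2_782
section

/-!
# Row 105, S0138 (T-frame, 459 #9956 (S)): parallelogram inequality for `ET`, greedy package

* `ET_mid` : `ET ((u+v)/2) + ¼ ∫ en (u-v) + ¼ Σ (osc u - osc v)² ≤ (ET u + ET v)/2`
* `greedyTT` : the greedy sequence of `Grd1_782.greedy` for `T = ET + ℓ` on a class of `TT`
  functions whose commutants are midpoint convex: energies of differences are Cauchy, the
  oscillations converge in `ℓ²` to some `σ`, with uniformly small tails.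
-/

set_option autoImplicit false

open MeasureTheory Set Filter Topology Metric
open scoped NNReal ENNReal

namespace Crest.Agent.R105.Grd_782

open Bd_775 Ends_897 Tc_808

noncomputable section

variable {Y : Set ℂ} {u v : ℂ → ℝ}

/-- the midpoint of two functions -/
def mid (u v : ℂ → ℝ) : ℂ → ℝ := fun z => (1 / 2 : ℝ) * (u z + v z)

lemma Q_smul (hY : IsClosed Y) (c : ℝ) (hu : Q Y u) : Q Y (fun z => c * u z) :=
  (Q.const Y c).mul hY hu

lemma TT_smul (hY : IsClosed Y) (c : ℝ) (hu : TT Y u) : TT Y (fun z => c * u z) :=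
  (TT.const c).mul hY hu

lemma TT_mid (hY : IsClosed Y) (hu : TT Y u) (hv : TT Y v) : TT Y (mid u v) :=
  TT_smul hY _ (hu.add hY hv)

lemma TT_sub (hY : IsClosed Y) (hu : TT Y u) (hv : TT Y v) : TT Y (fun z => u z - v z) := by
  have h := hu.add hY (TT_smul hY (-1) hv)
  have he : (fun z => u z - v z) = fun z => u z + -1 * v z := by funext z; ring
  rw [he]; exact h

lemma osc_smul_le (hb : ∃ M, ∀ z, |u z| ≤ M) {K : Set ℂ} (c : ℝ) :
    osc Y (fun z => c * u z) K ≤ |c| * osc Y u K := by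
  have hL : LipschitzWith (Real.toNNReal |c|) fun t : ℝ => c * t := by
    refine LipschitzWith.of_dist_le_mul fun x y => ?_
    rw [Real.dist_eq, Real.dist_eq, ← mul_sub, abs_mul, Real.coe_toNNReal _ (abs_nonneg c)]
  have h := osc_comp_le (Y := Y) (K := K) hb hL
  rwa [Real.coe_toNNReal _ (abs_nonneg c)] at h

lemma osc_mid_le (hu : ∃ M, ∀ z, |u z| ≤ M) (hv : ∃ M, ∀ z, |v z| ≤ M) {K : Set ℂ} :
    osc Y (mid u v) K ≤ (osc Y u K + osc Y v K) / 2 := by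
  have hs : ∃ M, ∀ z, |u z + v z| ≤ M := by
    obtain ⟨M, hM⟩ := hu
    obtain ⟨N, hN⟩ := hv
    exact ⟨M + N, fun z => (abs_add_le _ _).trans (add_le_add (hM z) (hN z))⟩
  have h1 := osc_smul_le (Y := Y) (K := K) hs (1 / 2)
  have h2 := osc_add_le (Y := Y) (K := K) hu hv
  rw [abs_of_pos (by norm_num : (0 : ℝ) < 1 / 2)] at h1
  unfold mid
  linarith

/-- pointwise parallelogram law -/
lemma en_mid {z : ℂ} (hu : DifferentiableAt ℝ u z) (hv : DifferentiableAt ℝ v z) :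
    en (mid u v) z + (1 / 4) * en (fun w => u w - v w) z = (en u z + en v z) / 2 := by
  have hs : DifferentiableAt ℝ (fun w => u w + v w) z := hu.add hv
  have hc : DifferentiableAt ℝ (fun _ : ℂ => (1 / 2 : ℝ)) z := differentiableAt_const _
  have h1 : gx (mid u v) z = (1 / 2) * (gx u z + gx v z) := by
    unfold mid
    rw [gx_mul hc hs, gx_const, gx_add hu hv]; ring
  have h2 : gy (mid u v) z = (1 / 2) * (gy u z + gy v z) := by
    unfold mid
    rw [gy_mul hc hs, gy_const, gy_add hu hv]; ring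
  unfold en
  rw [h1, h2, gx_sub hu hv, gy_sub hu hv]
  ring

lemma int_en_mid (hY : IsClosed Y) (hu : Q Y u) (hv : Q Y v) :
    (∫ z in Yᶜ, en (mid u v) z) + (1 / 4) * (∫ z in Yᶜ, en (fun w => u w - v w) z) =
      ((∫ z in Yᶜ, en u z) + ∫ z in Yᶜ, en v z) / 2 := by
  have hm : Q Y (mid u v) := Q_smul hY _ (hu.add hY hv)
  have hd : Q Y (fun w => u w - v w) := hu.sub hY hv
  rw [← integral_const_mul, ← integral_add hm.fin (hd.fin.const_mul _), ← integral_add hu.fin hv.fin,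
    ← integral_div]
  refine integral_congr_ae ?_
  filter_upwards [hu.ae_diff hY, hv.ae_diff hY] with z h1 h2
  exact en_mid h1 h2

lemma summable_sq_sub {ι : Type*} {a b : ι → ℝ} (ha : Summable fun k => a k ^ 2)
    (hb : Summable fun k => b k ^ 2) : Summable fun k => (a k - b k) ^ 2 := by
  refine Summable.of_nonneg_of_le (fun k => sq_nonneg _) (fun k => ?_)
    ((ha.mul_left 2).add (hb.mul_left 2))
  nlinarith [sq_nonneg (a k + b k)]

/-- **the parallelogram inequality for the `T`-energy** -/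
theorem ET_mid (hY : IsClosed Y) (hu : TT Y u) (hv : TT Y v) :
    ET Y (mid u v) + ((1 / 4) * (∫ z in Yᶜ, en (fun w => u w - v w) z) +
      (1 / 4) * ∑' K : Cmp Y, (osc Y u K.1 - osc Y v K.1) ^ 2) ≤ (ET Y u + ET Y v) / 2 := by
  have h1 := int_en_mid hY hu.q hv.q
  have hs := summable_sq_sub hu.sum hv.sum
  have h2 : (∑' K : Cmp Y, osc Y (mid u v) K.1 ^ 2) +
      (1 / 4) * (∑' K : Cmp Y, (osc Y u K.1 - osc Y v K.1) ^ 2) ≤
      ((∑' K : Cmp Y, osc Y u K.1 ^ 2) + ∑' K : Cmp Y, osc Y v K.1 ^ 2) / 2 := by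
    rw [← tsum_mul_left, ← Summable.tsum_add (TT_mid hY hu hv).sum (hs.mul_left _),
      ← Summable.tsum_add hu.sum hv.sum, ← tsum_div_const]
    refine Summable.tsum_le_tsum (fun K => ?_) ((TT_mid hY hu hv).sum.add (hs.mul_left _))
      ((hu.sum.add hv.sum).div_const 2)
    have h3 := osc_mid_le (Y := Y) (K := K.1) hu.q.bdd hv.q.bdd
    have h4 := osc_nonneg Y (mid u v) K.1
    nlinarith [osc_nonneg Y u K.1, osc_nonneg Y v K.1]
  unfold ET
  linarith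

/-- **greedy package in the class `TT`** -/
theorem greedyTT (hY : IsClosed Y) {N : (ℂ → ℝ) → (ℂ → ℝ) → Prop} {C S : Set (ℂ → ℝ)}
    {ℓ : (ℂ → ℝ) → ℝ} {u0 : ℂ → ℝ} (hC : ∀ a ∈ C, TT Y a)
    (hℓ : ∀ a ∈ C, ∀ b ∈ C, ℓ (mid a b) = (ℓ a + ℓ b) / 2)
    (hmid : ∀ a ∈ C, ∀ b ∈ C, mid a b ∈ C)
    (hN : ∀ a ∈ C, a ∈ S → ∀ b ∈ C, ∀ b' ∈ C, N a b → N a b' → N a (mid b b'))
    (h : Hyp N (fun a => ET Y a + ℓ a) C S u0) :
    ∃ (u : ℕ → ℂ → ℝ) (m : ℝ) (σ : Cmp Y → ℝ), u 0 = u0 ∧ (∀ n, u n ∈ C ∧ u n ∈ S) ∧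
      (∀ i j, N (u i) (u j)) ∧ Tendsto (fun n => ET Y (u n) + ℓ (u n)) atTop (𝓝 m) ∧
      (∀ b ∈ C, (∀ i, N (u i) b) → m ≤ ET Y b + ℓ b) ∧
      (∀ ε > 0, ∃ n₀, ∀ i ≥ n₀, ∀ j ≥ n₀, ∫ z in Yᶜ, en (fun w => u i w - u j w) z ≤ ε) ∧
      (Summable fun K => σ K ^ 2) ∧ (∀ K, Tendsto (fun n => osc Y (u n) K.1) atTop (𝓝 (σ K))) ∧
      Tendsto (fun n => ∑' K : Cmp Y, (osc Y (u n) K.1 - σ K) ^ 2) atTop (𝓝 0) ∧
      (∀ ε > 0, ∃ (F : Finset (Cmp Y)) (n₀ : ℕ), ∀ n ≥ n₀, ∀ A : Set (Cmp Y),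
        Disjoint A (F : Set (Cmp Y)) → ∑' K : A, osc Y (u n) K.1.1 ^ 2 ≤ ε) := by
  obtain ⟨u, m, hu0, hmem, hNN, hlim, -, hmin⟩ := greedy h
  set q : (ℂ → ℝ) → (ℂ → ℝ) → ℝ := fun a b =>
    (1 / 4) * (∫ z in Yᶜ, en (fun w => a w - b w) z) +
      (1 / 4) * ∑' K : Cmp Y, (osc Y a K.1 - osc Y b K.1) ^ 2 with hq
  have hC' : ∀ n, TT Y (u n) := fun n => hC _ (hmem n).1
  have hmidA : ∀ i j, m ≤ ET Y (mid (u i) (u j)) + ℓ (mid (u i) (u j)) := fun i j =>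
    hmin _ (hmid _ (hmem i).1 _ (hmem j).1) fun k =>
      hN _ (hmem k).1 (hmem k).2 _ (hmem i).1 _ (hmem j).1 (hNN k i) (hNN k j)
  have hpar : ∀ i j, (ET Y (mid (u i) (u j)) + ℓ (mid (u i) (u j))) + q (u i) (u j) ≤
      ((ET Y (u i) + ℓ (u i)) + (ET Y (u j) + ℓ (u j))) / 2 := by
    intro i j
    have h1 := ET_mid hY (hC' i) (hC' j)
    rw [hℓ _ (hmem i).1 _ (hmem j).1]
    simp only [hq]
    linarith
  have hcau := cauchy_of_parallelogram (T := fun a => ET Y a + ℓ a) (mid := mid) (q := q) hlim hmidA hpar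
  have hI0 : ∀ a b : ℂ → ℝ, 0 ≤ ∫ z in Yᶜ, en (fun w => a w - b w) z := fun a b =>
    integral_nonneg fun z => en_nonneg _ _
  have hS0 : ∀ a b : ℂ → ℝ, 0 ≤ ∑' K : Cmp Y, (osc Y a K.1 - osc Y b K.1) ^ 2 := fun a b =>
    tsum_nonneg fun K => sq_nonneg _
  obtain ⟨σ, hσ, hσlim, hd, hσ0⟩ := l2_limit (s := fun n (K : Cmp Y) => osc Y (u n) K.1)
    (fun n => (hC' n).sum) (fun ε hε => by
      obtain ⟨n₀, hn₀⟩ := hcau (ε / 4) (by positivity)
      refine ⟨n₀, fun i hi j hj => ?_⟩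
      have h1 := hn₀ i hi j hj
      simp only [hq] at h1
      linarith [hI0 (u i) (u j)])
  refine ⟨u, m, σ, hu0, hmem, hNN, hlim, hmin, fun ε hε => ?_, hσ, hσlim, hσ0, fun ε hε => ?_⟩
  · obtain ⟨n₀, hn₀⟩ := hcau (ε / 4) (by positivity)
    refine ⟨n₀, fun i hi j hj => ?_⟩
    have h1 := hn₀ i hi j hj
    simp only [hq] at h1
    linarith [hS0 (u i) (u j)]
  · exact tail_small (fun n => (hC' n).sum) hσ hd hσ0 hε

end

end Crest.Agent.R105.Grd_782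
end

-- ▼ part R105/Grd3_782

/-!
# Row 105, S0138 (T-frame, NI of 459 #9956, target T6): the greedy sequence for `NI`

* `TJ Y x0 φ = J Y x0 φ + Σ' osc_K φ ²` : the renormalised `T`-energy of `x0 + φ`
* `SwitchP`  : exact switching (T5, 209),  `CombP` : commutants of switched functions are linear (T4)
* `SelT`     : the package: greedy sequence, minimality over the commutant, Cauchy, tails
* `selT`     : `SwitchP → CombP → ∃ u m σ, u 0 = φ0 ∧ SelT ..`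
* `SelT.near_el`, `SelT.el_lim` : (crude) Euler-Lagrange inequality along the sequence
-/

set_option autoImplicit false

open MeasureTheory Set Filter Topology Metric
open scoped NNReal ENNReal

namespace Crest.Agent.R105.Grd_782

open Bd_775 Ends_897 Tc_808 Ni_459 Crest.AnalysisR
open Crest.Agent.R105.IfB_641 (J di lap X0)

noncomputable section

variable {Y : Set ℂ} {x0 φ ψ a b : ℂ → ℝ}

/-- the `T`-functional -/
def TJ (Y : Set ℂ) (x0 φ : ℂ → ℝ) : ℝ := J Y x0 φ + ∑' K : Cmp Y, osc Y φ K.1 ^ 2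

lemma di_self_en (φ : ℂ → ℝ) : di Y φ φ = ∫ z in Yᶜ, en φ z := Bd_775.di_self φ

lemma TJ_eq (Y : Set ℂ) (x0 φ : ℂ → ℝ) :
    TJ Y x0 φ = ET Y φ + (-2 * ∫ z, φ z * lap x0 z) := by
  unfold TJ J ET
  rw [di_self_en]
  ring

/-- `NI` is symmetric -/
lemma NI_symm (h : NI Y a b) : NI Y b a := by
  unfold NI at h ⊢
  have he : NP Y b a = (MeasurableEquiv.prodComm : ℝ × ℝ ≃ᵐ ℝ × ℝ) ⁻¹' NP Y a b := by
    ext p
    constructor
    · rintro ⟨z, hz, h1, h2, h3, h4⟩; exact ⟨z, hz, h3, h4, h1, h2⟩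
    · rintro ⟨z, hz, h1, h2, h3, h4⟩; exact ⟨z, hz, h3, h4, h1, h2⟩
  have hm : MeasurePreserving (MeasurableEquiv.prodComm : ℝ × ℝ ≃ᵐ ℝ × ℝ) volume volume :=
    Measure.measurePreserving_swap
  rw [he, hm.measure_preimage_equiv, h]

lemma volume_diag : volume {p : ℝ × ℝ | p.1 = p.2} = 0 := by
  rw [Measure.volume_eq_prod, Measure.measure_prod_null (measurableSet_eq_fun measurable_fst measurable_snd)]
  refine ae_of_all _ fun x => ?_
  have h : Prod.mk x ⁻¹' {p : ℝ × ℝ | p.1 = p.2} = {x} := by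
    ext y; simp only [mem_preimage, mem_ofPred_eq, mem_singleton_iff]; exact eq_comm
  show volume (Prod.mk x ⁻¹' {p : ℝ × ℝ | p.1 = p.2}) = 0
  rw [h]; simp

/-- `NI` is reflexive -/
lemma NI_self (Y : Set ℂ) (a : ℂ → ℝ) : NI Y a a := by
  unfold NI
  refine measure_mono_null ?_ volume_diag
  rintro p ⟨z, -, h1, -, h3, -⟩
  exact h1.symm.trans h3

/-- exact switching, in the form consumed by the greedy selection; `P` = behaviour at infinity -/
def SwitchP (Y : Set ℂ) (x0 : ℂ → ℝ) (P : (ℂ → ℝ) → Prop) : Prop :=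
  ∀ φ, TT Y φ → P φ → ∃ ψ, TT Y ψ ∧ P ψ ∧ Swd Y (fun z => x0 z + ψ z) ∧ TJ Y x0 ψ ≤ TJ Y x0 φ ∧
    ∀ a, TT Y a → P a → Swd Y (fun z => x0 z + a z) → NI Y a φ → NI Y a ψ

/-- the commutant of a switched function is closed under linear combinations -/
def CombP (Y : Set ℂ) (x0 : ℂ → ℝ) (P : (ℂ → ℝ) → Prop) : Prop :=
  ∀ a, TT Y a → P a → Swd Y (fun z => x0 z + a z) → ∀ b b' : ℂ → ℝ, TT Y b → P b → TT Y b' → P b' →
    NI Y a b → NI Y a b' → ∀ s t : ℝ, NI Y a (fun z => s * b z + t * b' z)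

/-- `P` is closed under linear combinations -/
def PLin (P : (ℂ → ℝ) → Prop) : Prop :=
  ∀ b b' : ℂ → ℝ, P b → P b' → ∀ s t : ℝ, P (fun z => s * b z + t * b' z)

/-- the package -/
structure SelT (Y : Set ℂ) (x0 : ℂ → ℝ) (P : (ℂ → ℝ) → Prop) (u : ℕ → ℂ → ℝ) (m : ℝ)
    (σ : Cmp Y → ℝ) : Prop where
  tt : ∀ n, TT Y (u n)
  p : ∀ n, P (u n)
  swd : ∀ n, Swd Y (fun z => x0 z + u n z)
  ni : ∀ i j, NI Y (u i) (u j)
  lim : Tendsto (fun n => TJ Y x0 (u n)) atTop (𝓝 m)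
  min : ∀ b, TT Y b → P b → (∀ i, NI Y (u i) b) → m ≤ TJ Y x0 b
  cauchy : ∀ ε > 0, ∃ n₀, ∀ i ≥ n₀, ∀ j ≥ n₀, ∫ z in Yᶜ, en (fun w => u i w - u j w) z ≤ ε
  sum : Summable fun K => σ K ^ 2
  oscl : ∀ K, Tendsto (fun n => Tc_808.osc Y (u n) K.1) atTop (𝓝 (σ K))
  l2 : Tendsto (fun n => ∑' K : Cmp Y, (Tc_808.osc Y (u n) K.1 - σ K) ^ 2) atTop (𝓝 0)
  tail : ∀ ε > 0, ∃ (F : Finset (Cmp Y)) (n₀ : ℕ), ∀ n ≥ n₀, ∀ A : Set (Cmp Y),
    Disjoint A (F : Set (Cmp Y)) → ∑' K : A, Tc_808.osc Y (u n) K.1.1 ^ 2 ≤ ε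

lemma mid_eq (a b : ℂ → ℝ) : mid a b = fun z => (1 / 2 : ℝ) * a z + (1 / 2 : ℝ) * b z := by
  funext z; unfold mid; ring

lemma ell_mid (hY : IsClosed Y) (hx : X0 Y x0) (ha : TT Y a) (hb : TT Y b) :
    (-2 * ∫ z, mid a b z * lap x0 z) =
      ((-2 * ∫ z, a z * lap x0 z) + (-2 * ∫ z, b z * lap x0 z)) / 2 := by
  have ia := IfB_641.int_mul_lap hY hx ha.q
  have ib := IfB_641.int_mul_lap hY hx hb.q
  have h1 : ∫ z, mid a b z * lap x0 z =
      (1 / 2) * (∫ z, a z * lap x0 z) + (1 / 2) * ∫ z, b z * lap x0 z := by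
    rw [← integral_const_mul, ← integral_const_mul, ← integral_add (ia.const_mul _) (ib.const_mul _)]
    congr 1; funext z; unfold mid; ring
  rw [h1]; ring

/-- `TJ` is bounded below -/
lemma TJ_bdd (hY : IsCompact Y) (hx : X0 Y x0) : ∃ M, ∀ φ, TT Y φ → M ≤ TJ Y x0 φ := by
  obtain ⟨L, hL⟩ := J_bddBelow hY hx
  refine ⟨L, fun φ hφ => ?_⟩
  have h1 := hL φ hφ.q
  have h2 : 0 ≤ ∑' K : Cmp Y, Tc_808.osc Y φ K.1 ^ 2 := tsum_nonneg fun K => sq_nonneg _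
  unfold TJ; linarith

/-- **SELECTION for null-image isotropy** -/
theorem selT (hY : IsCompact Y) (hx : X0 Y x0) {P : (ℂ → ℝ) → Prop} (hP : PLin P)
    (hsw : SwitchP Y x0 P) (hlin : CombP Y x0 P) {φ0 : ℂ → ℝ} (h0 : TT Y φ0) (hP0 : P φ0)
    (hs0 : Swd Y (fun z => x0 z + φ0 z)) :
    ∃ (u : ℕ → ℂ → ℝ) (m : ℝ) (σ : Cmp Y → ℝ), u 0 = φ0 ∧ SelT Y x0 P u m σ := by
  have hYc := hY.isClosed
  set C : Set (ℂ → ℝ) := {φ | TT Y φ ∧ P φ} with hC
  set S : Set (ℂ → ℝ) := {φ | Swd Y (fun z => x0 z + φ z)} with hS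
  set ℓ : (ℂ → ℝ) → ℝ := fun φ => -2 * ∫ z, φ z * lap x0 z with hℓ
  have hT : ∀ φ, ET Y φ + ℓ φ = TJ Y x0 φ := fun φ => (TJ_eq Y x0 φ).symm
  have hmidC : ∀ a ∈ C, ∀ b ∈ C, mid a b ∈ C := by
    rintro a ⟨ha, ha'⟩ b ⟨hb, hb'⟩
    exact ⟨TT_mid hYc ha hb, by rw [mid_eq]; exact hP a b ha' hb' _ _⟩
  have hyp : Hyp (NI Y) (fun a => ET Y a + ℓ a) C S φ0 := by
    refine ⟨⟨h0, hP0⟩, hs0, fun a _ b _ h => NI_symm h, fun a _ => NI_self Y a, ?_, ?_⟩
    · obtain ⟨M, hM⟩ := TJ_bdd hY hx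
      exact ⟨M, fun a ha => by rw [hT]; exact hM a ha.1⟩
    · rintro b ⟨hb, hb'⟩
      obtain ⟨ψ, h1, h2, h3, h4, h5⟩ := hsw b hb hb'
      exact ⟨ψ, ⟨h1, h2⟩, h3, by rw [hT, hT]; exact h4, fun a ha hs h => h5 a ha.1 ha.2 hs h⟩
  obtain ⟨u, m, σ, e0, h1, h2, h3, h4, h5, h6, h7, h8, h9⟩ := greedyTT hYc (fun a ha => ha.1)
    (fun a ha b hb => ell_mid hYc hx ha.1 hb.1) hmidC
    (fun a ha hs b hb b' hb' h h' => by
      rw [mid_eq]; exact hlin a ha.1 ha.2 hs b b' hb.1 hb.2 hb'.1 hb'.2 h h' _ _) hyp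
  refine ⟨u, m, σ, e0, ?_⟩
  exact
    { tt := fun n => (h1 n).1.1
      p := fun n => (h1 n).1.2
      swd := fun n => (h1 n).2
      ni := h2
      lim := by simpa only [hT] using h3
      min := fun b hb hPb h => by rw [← hT]; exact h4 b ⟨hb, hPb⟩ h
      cauchy := h5
      sum := h6
      oscl := h7
      l2 := h8
      tail := h9 }

/-! ### Euler-Lagrange along the sequence -/

section EL
variable {P : (ℂ → ℝ) → Prop} {u : ℕ → ℂ → ℝ} {m : ℝ} {σ : Cmp Y → ℝ}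

/-- expansion of `TJ (u + t ψ)` -/
lemma TJ_expand_le (hY : IsClosed Y) (hx : X0 Y x0) (ha : TT Y a) (hψ : TT Y ψ) (t : ℝ) :
    TJ Y x0 (fun z => a z + t * ψ z) ≤ TJ Y x0 a + 2 * t * (di Y a ψ - ∫ z, ψ z * lap x0 z) +
      2 * |t| * (∑' K : Cmp Y, Tc_808.osc Y a K.1 * Tc_808.osc Y ψ K.1) + t ^ 2 * ET Y ψ := by
  have hs : Summable fun K : Cmp Y => Tc_808.osc Y a K.1 * Tc_808.osc Y ψ K.1 := by
    refine Summable.of_nonneg_of_le (fun K => mul_nonneg (osc_nonneg _ _ _) (osc_nonneg _ _ _))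
      (fun K => ?_) (ha.sum.add hψ.sum)
    nlinarith [sq_nonneg (Tc_808.osc Y a K.1 - Tc_808.osc Y ψ K.1), sq_nonneg (Tc_808.osc Y a K.1),
      sq_nonneg (Tc_808.osc Y ψ K.1)]
  have ht : TT Y (fun z => t * ψ z) := TT_smul hY t hψ
  have hsum : TT Y (fun z => a z + t * ψ z) := ha.add hY ht
  have h1 := IfB_641.J_expand hY hx ha.q hψ.q t
  have h2 : (∑' K : Cmp Y, Tc_808.osc Y (fun z => a z + t * ψ z) K.1 ^ 2) ≤
      (∑' K : Cmp Y, Tc_808.osc Y a K.1 ^ 2) +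
        2 * |t| * (∑' K : Cmp Y, Tc_808.osc Y a K.1 * Tc_808.osc Y ψ K.1) +
        t ^ 2 * ∑' K : Cmp Y, Tc_808.osc Y ψ K.1 ^ 2 := by
    rw [← tsum_mul_left, ← tsum_mul_left, ← Summable.tsum_add ha.sum (hs.mul_left _),
      ← Summable.tsum_add (ha.sum.add (hs.mul_left _)) (hψ.sum.mul_left _)]
    refine Summable.tsum_le_tsum (fun K => ?_) hsum.sum
      ((ha.sum.add (hs.mul_left _)).add (hψ.sum.mul_left _))
    have h3 := osc_add_le (Y := Y) (K := K.1) ha.q.bdd ht.q.bdd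
    have h4 := osc_smul_le (Y := Y) (K := K.1) hψ.q.bdd t
    have h5 := osc_nonneg Y (fun z => a z + t * ψ z) K.1
    have h6 : Tc_808.osc Y (fun z => a z + t * ψ z) K.1 ≤
        Tc_808.osc Y a K.1 + |t| * Tc_808.osc Y ψ K.1 := h3.trans (by linarith)
    have h7 : |t| ^ 2 = t ^ 2 := sq_abs t
    calc Tc_808.osc Y (fun z => a z + t * ψ z) K.1 ^ 2
        ≤ (Tc_808.osc Y a K.1 + |t| * Tc_808.osc Y ψ K.1) ^ 2 := pow_le_pow_left₀ h5 h6 2
      _ = _ := by rw [← h7]; ring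
  unfold TJ ET
  rw [h1]
  have h8 : di Y ψ ψ = ∫ z in Yᶜ, en ψ z := di_self_en ψ
  rw [h8]
  nlinarith

lemma ET_nonneg (φ : ℂ → ℝ) : 0 ≤ ET Y φ := by
  unfold ET
  have h1 : 0 ≤ ∫ z in Yᶜ, en φ z := integral_nonneg fun z => en_nonneg _ _
  have h2 : 0 ≤ ∑' K : Cmp Y, Tc_808.osc Y φ K.1 ^ 2 := tsum_nonneg fun K => sq_nonneg _
  linarith

lemma abs_le_of_quad {A B D E : ℝ} (hD : 0 ≤ D) (hE : 0 ≤ E)
    (h : ∀ t : ℝ, 0 ≤ D + 2 * t * A + 2 * |t| * B + t ^ 2 * E) :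
    |A| ≤ B + Real.sqrt (D * E) := by
  -- take `t = ∓ τ`, `τ ≥ 0`
  have h1 : ∀ τ : ℝ, 0 ≤ τ → 2 * τ * (|A| - B) ≤ D + τ ^ 2 * E := by
    intro τ hτ
    rcases abs_cases A with ⟨hA, -⟩ | ⟨hA, -⟩
    · have := h (-τ)
      rw [abs_neg, abs_of_nonneg hτ] at this
      rw [hA]; nlinarith
    · have := h τ
      rw [abs_of_nonneg hτ] at this
      rw [hA]; nlinarith
  by_contra hcon
  push Not at hcon
  set X := |A| - B with hX
  have hX0 : Real.sqrt (D * E) < X := by rw [hX]; linarith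
  have hXp : 0 < X := (Real.sqrt_nonneg _).trans_lt hX0
  have hDE : D * E < X ^ 2 := by
    have := Real.sq_sqrt (mul_nonneg hD hE)
    nlinarith [Real.sqrt_nonneg (D * E)]
  rcases hE.eq_or_lt with hE0 | hE0
  · have := h1 ((D + 1) / X) (by positivity)
    rw [← hE0] at this
    have h2 : 2 * ((D + 1) / X) * X = 2 * (D + 1) := by field_simp
    rw [h2] at this
    linarith
  · have := h1 (X / E) (by positivity)
    have h2 : 2 * (X / E) * X = 2 * (X ^ 2 / E) := by ring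
    have h3 : (X / E) ^ 2 * E = X ^ 2 / E := by field_simp
    rw [h2, h3] at this
    have h4 : D < X ^ 2 / E := by rw [lt_div_iff₀ hE0]; exact hDE
    linarith

/-- near Euler-Lagrange inequality -/
theorem SelT.near_el (hY : IsClosed Y) (hx : X0 Y x0) (hP : PLin P) (hlin : CombP Y x0 P)
    (h : SelT Y x0 P u m σ) (hψ : TT Y ψ) (hPψ : P ψ) (hni : ∀ i, NI Y (u i) ψ) (n : ℕ) :
    |di Y (u n) ψ - ∫ z, ψ z * lap x0 z| ≤
      (∑' K : Cmp Y, Tc_808.osc Y (u n) K.1 * Tc_808.osc Y ψ K.1) +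
        Real.sqrt ((TJ Y x0 (u n) - m) * ET Y ψ) := by
  have hn0 : m ≤ TJ Y x0 (u n) := h.min _ (h.tt n) (h.p n) (fun i => h.ni i n)
  refine abs_le_of_quad (sub_nonneg.2 hn0) (ET_nonneg ψ) fun t => ?_
  have h1 : m ≤ TJ Y x0 (fun z => u n z + t * ψ z) := by
    refine h.min _ ((h.tt n).add hY (TT_smul hY t hψ)) ?_ fun i => ?_
    · have := hP (u n) ψ (h.p n) hPψ 1 t
      simpa only [one_mul] using this
    · have := hlin (u i) (h.tt i) (h.p i) (h.swd i) (u n) ψ (h.tt n) (h.p n) hψ hPψ (h.ni i n)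
        (hni i) 1 t
      simpa only [one_mul] using this
  have h2 := TJ_expand_le hY hx (h.tt n) hψ t
  linarith



end EL

end

end Crest.Agent.R105.Grd_782
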