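import Mathlib
import Crest.Agent.R105.Ends1_897
import Crest.Agent.R105.Ni0_459
import Crest.Agent.R105.Uni2_659

-- ▼ part R105/NiA1_823
section

/-!
# Row 105, S0138, null-image frame: core of the attainment (helper823; 459 #9956 (ATT))

`am ap bm bp : ℂ → ℝ` are the lower and upper values at the component of each point.
* `slice` : a level continuum of `a` carries a long interval of values of `b`
* `area_lower` : lower bound of the area of the image
* `noCpt_level` : the levels of a switched function have no compact clopen piece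
-/

set_option autoImplicit false

open MeasureTheory Set Filter Topology Metric
open scoped NNReal ENNReal

namespace Crest.Agent.R105.NiA_823

open Crest.Agent.R105 Crest.Agent.R193.Planar

/-- no nonempty compact relatively open piece (`L ∪ {∞}` is connected) -/
def NoCpt (L : Set ℂ) : Prop := ∀ A ⊆ L, IsCompact A → IsClosed (L \ A) → A = ∅

/-- boundary bumping in an open set -/
theorem bump_open {W N : Set ℂ} (hW : IsOpen W) (hN : IsOpen N) {z : ℂ} (hz : z ∈ W)
    (hzN : z ∈ N) (h : ¬ connectedComponentIn W z ⊆ N) :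
    ∃ (Q : Set ℂ) (q : ℂ), IsPreconnected Q ∧ z ∈ Q ∧ q ∈ Q ∧ q ∈ frontier N ∧ Q ⊆ W ∧
      ∀ w ∈ Q, w ≠ q → w ∈ N := by
  set D := connectedComponentIn W z with hD
  have hDo : IsOpen D := hW.connectedComponentIn
  have hDc : IsPreconnected D := isPreconnected_connectedComponentIn
  have hzD : z ∈ D := mem_connectedComponentIn hz
  set Q0 := connectedComponentIn (D ∩ N) z with hQ0
  have hQo : IsOpen Q0 := (hDo.inter hN).connectedComponentIn
  have hQc : IsPreconnected Q0 := isPreconnected_connectedComponentIn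
  have hzQ : z ∈ Q0 := mem_connectedComponentIn ⟨hzD, hzN⟩
  have hQs : Q0 ⊆ D ∩ N := connectedComponentIn_subset _ _
  obtain ⟨q, hqQ, hqD, hqN⟩ : ∃ q, q ∈ closure Q0 ∧ q ∈ D ∧ q ∈ frontier N := by
    by_contra hcon
    push Not at hcon
    apply h
    have h1 : closure Q0 ∩ D ⊆ Q0 := by
      rintro y ⟨hy, hyD⟩
      have hyN : y ∈ N := by
        have h2 : y ∈ closure N := closure_mono (hQs.trans inter_subset_right) hy
        by_contra h3
        apply hcon y hy hyD
        rw [hN.frontier_eq]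
        exact ⟨h2, h3⟩
      have h4 : IsPreconnected (insert y Q0) :=
        hQc.subset_closure (subset_insert _ _) (insert_subset hy subset_closure)
      have h5 : insert y Q0 ⊆ D ∩ N := insert_subset ⟨hyD, hyN⟩ hQs
      exact h4.subset_connectedComponentIn (mem_insert_of_mem _ hzQ) h5 (mem_insert _ _)
    exact (hDc.subset_of_closure_inter_subset hQo ⟨z, hzD, hzQ⟩ h1).trans
      (hQs.trans inter_subset_right)
  refine ⟨insert q Q0, q, ?_, mem_insert_of_mem _ hzQ, mem_insert _ _, hqN, ?_, ?_⟩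
  · exact hQc.subset_closure (subset_insert _ _) (insert_subset hqQ subset_closure)
  · exact insert_subset (connectedComponentIn_subset _ _ hqD)
      (hQs.trans (inter_subset_left.trans (connectedComponentIn_subset _ _)))
  · intro w hw hwq
    rcases hw with rfl | hw
    · exact absurd rfl hwq
    · exact (hQs hw).2

/-- boundary bumping in a closed set without compact pieces -/
theorem bump_closed {L N : Set ℂ} (hL : IsClosed L) (hNL : NoCpt L) (hN : IsOpen N)
    (hNb : Bornology.IsBounded N) {q : ℂ} (hq : q ∈ L) (hqN : q ∈ N) :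
    ∃ q' ∈ connectedComponentIn (L ∩ closure N) q, q' ∈ frontier N := by
  have hX : IsCompact (L ∩ closure N) := (hNb.isCompact_closure).inter_left hL
  have hqX : q ∈ L ∩ closure N := ⟨hq, subset_closure hqN⟩
  by_contra hcon
  push Not at hcon
  have hK : connectedComponentIn (L ∩ closure N) q ⊆ N := by
    intro y hy
    have h1 := connectedComponentIn_subset _ _ hy
    by_contra h2
    apply hcon y hy
    rw [hN.frontier_eq]
    exact ⟨h1.2, h2⟩
  obtain ⟨B, hB, hXB, hBX, hKB, hBN⟩ := Ends_897.exists_clopen hX hqX hN hK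
  have h3 : L \ B = ((L ∩ closure N) \ B) ∪ (L \ N) := by
    ext y
    constructor
    · rintro ⟨h4, h5⟩
      by_cases h6 : y ∈ N
      · exact Or.inl ⟨⟨h4, subset_closure h6⟩, h5⟩
      · exact Or.inr ⟨h4, h6⟩
    · rintro (h4 | h4)
      · exact ⟨h4.1.1, h4.2⟩
      · exact ⟨h4.1, fun h5 => h4.2 (hBN h5)⟩
  have h4 : IsClosed (L \ B) := by
    rw [h3]
    exact hXB.isClosed.union (hL.sdiff hN)
  have h5 := hNL B (hBX.trans inter_subset_left) hB h4
  have h6 : q ∈ B := hKB (mem_connectedComponentIn hqX)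
  rw [h5] at h6
  exact h6

/-- **Slice lemma.** -/
theorem slice {am ap bm bp : ℂ → ℝ} (ham : LowerSemicontinuous am)
    (hap : UpperSemicontinuous ap) (hbm : LowerSemicontinuous bm) (hbp : UpperSemicontinuous bp)
    (ha : ∀ z, am z ≤ ap z) (hb : ∀ z, bm z ≤ bp z) {N : Set ℂ} (hN : IsOpen N)
    (hNb : Bornology.IsBounded N) {z0 : ℂ} (hz0 : z0 ∈ N) {t s1 s2 : ℝ}
    (haz : ap z0 < t) (hbz : s2 < bm z0) (hLt : NoCpt {z | am z ≤ t ∧ t ≤ ap z})
    (hD : ¬ connectedComponentIn {z | s2 < bm z} z0 ⊆ N)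
    (hf1 : ∀ z ∈ frontier N, s2 < bm z → t < am z)
    (hf2 : ∀ z ∈ frontier N, am z ≤ t → t ≤ ap z → bm z ≤ s1) :
    ∀ s ∈ Icc s1 s2, ∃ z ∈ closure N, am z ≤ t ∧ t ≤ ap z ∧ bm z ≤ s ∧ s ≤ bp z := by
  have hO1 : IsOpen {z | ap z < t} := hap.isOpen_preimage t
  have hO2 : IsOpen {z | t < am z} := ham.isOpen_preimage t
  have hW : IsOpen {z | s2 < bm z} := hbm.isOpen_preimage s2
  have hL : IsClosed {z | am z ≤ t ∧ t ≤ ap z} := by
    have : {z | am z ≤ t ∧ t ≤ ap z} = {z | t < am z}ᶜ ∩ {z | ap z < t}ᶜ := by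
      ext z; simp
    rw [this]
    exact hO2.isClosed_compl.inter hO1.isClosed_compl
  obtain ⟨Q, q1, hQc, hzQ, hq1Q, hq1N, hQW, hQN⟩ := bump_open hW hN hbz hz0 hD
  -- a point of `Q` on the level
  obtain ⟨q, hqQ, hqL⟩ : ∃ q ∈ Q, am q ≤ t ∧ t ≤ ap q := by
    by_contra hcon
    push Not at hcon
    have hcov : Q ⊆ {z | ap z < t} ∪ {z | t < am z} := by
      intro y hy
      by_cases h : am y ≤ t
      · exact Or.inl (hcon y hy h)
      · exact Or.inr (not_le.1 h)
    obtain ⟨y, -, hy1, hy2⟩ := hQc _ _ hO1 hO2 hcov ⟨z0, hzQ, haz⟩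
      ⟨q1, hq1Q, hf1 q1 hq1N (hQW hq1Q)⟩
    have h1 : ap y < t := hy1
    have h2 : t < am y := hy2
    linarith [ha y]
  have hqN : q ∈ N := by
    by_cases h : q = q1
    · subst h
      exact absurd (hf1 q hq1N (hQW hqQ)) (not_lt.2 hqL.1)
    · exact hQN q hqQ h
  obtain ⟨q', hq', hq'N⟩ := bump_closed hL hLt hN hNb hqL hqN
  set K := connectedComponentIn ({z | am z ≤ t ∧ t ≤ ap z} ∩ closure N) q with hK
  have hKs : K ⊆ {z | am z ≤ t ∧ t ≤ ap z} ∩ closure N := connectedComponentIn_subset _ _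
  have hqK : q ∈ K := mem_connectedComponentIn ⟨hqL, subset_closure hqN⟩
  intro s hs
  by_contra hcon
  push Not at hcon
  have hbo1 : IsOpen {z | bp z < s} := hbp.isOpen_preimage s
  have hbo2 : IsOpen {z | s < bm z} := hbm.isOpen_preimage s
  have hcov : K ⊆ {z | bp z < s} ∪ {z | s < bm z} := by
    intro y hy
    by_cases h : bm y ≤ s
    · exact Or.inl (hcon y (hKs hy).2 (hKs hy).1.1 (hKs hy).1.2 h)
    · exact Or.inr (not_le.1 h)
  have hq'L := (hKs hq').1
  have h1 : bm q' ≤ s := (hf2 q' hq'N hq'L.1 hq'L.2).trans hs.1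
  have h2 : q' ∈ {z | bp z < s} := by
    rcases hcov hq' with h | h
    · exact h
    · exact absurd h1 (not_le.2 h)
  have h3 : q ∈ {z | s < bm z} := lt_of_le_of_lt hs.2 (hQW hqQ)
  obtain ⟨y, hyK, hy1, hy2⟩ := (isPreconnected_connectedComponentIn :
    IsPreconnected K) _ _ hbo1 hbo2 hcov ⟨q', hq', h2⟩ ⟨q, hqK, h3⟩
  have h4 : bp y < s := hy1
  have h5 : s < bm y := hy2
  linarith [hb y]



end Crest.Agent.R105.NiA_823
end

-- ▼ part R105/Uni3_659

/-! Row 105 (S0138, NI frame, T1 of 459 #10219): levels of a switched function have no islands,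
boundary bumping inside the saturated level sets `Lv Y u t`. -/

set_option autoImplicit false
noncomputable section
open Set Metric Topology Filter

namespace Crest.Agent.R105.Uni_659

open Crest.AnalysisR

variable {Y : Set ℂ} {u : ℂ → ℝ}


theorem lo_neg (z : ℂ) : Ni_459.lo Y (fun w => -u w) z = - Ni_459.up Y u z := by
  unfold Ni_459.lo
  simp only [neg_neg]

theorem up_neg (z : ℂ) : Ni_459.up Y (fun w => -u w) z = - Ni_459.lo Y u z := by
  unfold Ni_459.lo
  simp only [neg_neg]

theorem Swd_neg (h : Ni_459.Swd Y u) : Ni_459.Swd Y (fun z => -u z) where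
  gt := fun t z hz => by
    simp only [lo_neg] at hz ⊢
    have h1 := h.lt (-t) z (by linarith)
    have h2 : {w | t < -Ni_459.up Y u w} = {w | Ni_459.up Y u w < -t} := by
      ext w
      constructor
      · intro h; have h' : t < -Ni_459.up Y u w := h; show Ni_459.up Y u w < -t; linarith
      · intro h; have h' : Ni_459.up Y u w < -t := h; show t < -Ni_459.up Y u w; linarith
    rw [h2]; exact h1
  lt := fun t z hz => by
    simp only [up_neg] at hz ⊢
    have h1 := h.gt (-t) z (by linarith)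
    have h2 : {w | -Ni_459.lo Y u w < t} = {w | -t < Ni_459.lo Y u w} := by
      ext w
      constructor
      · intro h; have h' : -Ni_459.lo Y u w < t := h; show -t < Ni_459.lo Y u w; linarith
      · intro h; have h' : -t < Ni_459.lo Y u w := h; show -Ni_459.lo Y u w < t; linarith
    rw [h2]; exact h1

theorem continuousAt_of_lip (hY : IsExteriorDomain Yᶜ) (h : LocallyLipschitzOn Yᶜ u) {z : ℂ}
    (hz : z ∉ Y) : ContinuousAt u z :=
  h.continuousOn.continuousAt ((Ni_459.cpt_of hY).isClosed.isOpen_compl.mem_nhds hz)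

/-- superlevel sets of a switched function have no islands. -/
theorem noIsland_up (hY : IsExteriorDomain Yᶜ) (hu : Ni_459.LB u)
    (hc : ∀ z ∉ Y, ContinuousAt u z) (hs : Ni_459.Swd Y u) (t : ℝ) :
    NoIsland {z | t ≤ Ni_459.up Y u z} := by
  rintro F hFS hne hF ⟨O, hO, hOF⟩
  have husc := Ni_459.usc_up hY hu
  have hFO : F ⊆ O := by rw [← hOF]; exact inter_subset_left
  obtain ⟨O', hO'o, hFO', hcO', hcc⟩ := exists_open_between_and_isCompact_closure hF hO hFO
  have hbd : IsCompact (frontier O') := hcc.of_isClosed_subset isClosed_frontier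
    (frontier_subset_closure)
  have hfr : ∀ z ∈ frontier O', Ni_459.up Y u z < t := by
    intro z hz
    by_contra hlt
    have hzO : z ∈ O := hcO' (frontier_subset_closure hz)
    have hzF : z ∈ F := by rw [← hOF]; exact ⟨hzO, not_lt.1 hlt⟩
    have h1 : z ∈ O' ∩ frontier O' := ⟨hFO' hzF, hz⟩
    rw [hO'o.inter_frontier_eq] at h1
    exact h1
  obtain ⟨s, hst, hsf⟩ : ∃ s < t, ∀ z ∈ frontier O', Ni_459.up Y u z ≤ s := by
    rcases (frontier O').eq_empty_or_nonempty with he | hn
    · exact ⟨t - 1, by linarith, by rw [he]; simp⟩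
    · obtain ⟨a, ha, hmax⟩ := UpperSemicontinuousOn.exists_isMaxOn hn hbd
        (husc.upperSemicontinuousOn _)
      exact ⟨Ni_459.up Y u a, hfr a ha, fun z hz => hmax hz⟩
  obtain ⟨c, hsc, hct⟩ := exists_between hst
  obtain ⟨z₀, hz₀⟩ := hne
  have hz₀t : t ≤ Ni_459.up Y u z₀ := hFS hz₀
  obtain ⟨w, hwO, hw⟩ : ∃ w, w ∈ O' ∧ c < Ni_459.lo Y u w := by
    have hNb : Ni_459.Nb Y z₀ O' := by
      by_cases hzY : z₀ ∈ Y
      · refine Ni_459.nb_of_mem hzY hO'o ?_
        by_contra hcon
        obtain ⟨v, hv, hvf⟩ := meets_frontier isPreconnected_connectedComponentIn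
          (mem_connectedComponentIn hzY) (hFO' hz₀) hcon
        have h1 := hsf v hvf
        rw [Ni_459.up_congr_cc hzY hv] at h1
        linarith
      · exact Ni_459.nb_of_notMem hzY hO'o (hFO' hz₀)
    obtain ⟨w, h1, h2, h3⟩ := Ni_459.exists_of_lt_up hY hu
      (show c < Ni_459.up Y u z₀ by linarith) hNb
    exact ⟨w, h1, by rw [Ni_459.lo_of_notMem hY hu h2 (hc w h2)]; exact h3⟩
  have hunb := hs.gt c w hw
  have hnot : ¬ connectedComponentIn {w | c < Ni_459.lo Y u w} w ⊆ O' := by
    intro hcon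
    exact hunb ((hcc.isBounded.subset subset_closure).subset hcon)
  obtain ⟨v, hv, hvf⟩ := meets_frontier isPreconnected_connectedComponentIn
    (mem_connectedComponentIn (show w ∈ {w | c < Ni_459.lo Y u w} from hw)) hwO hnot
  have h0 : v ∈ {w | c < Ni_459.lo Y u w} := connectedComponentIn_subset _ _ hv
  have h1 : c < Ni_459.lo Y u v := h0
  have h2 := hsf v hvf
  have h3 := Ni_459.lo_le_up hY hu v
  linarith

/-- sublevel sets of a switched function have no islands. -/
theorem noIsland_lo (hY : IsExteriorDomain Yᶜ) (hu : Ni_459.LB u)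
    (hc : ∀ z ∉ Y, ContinuousAt u z) (hs : Ni_459.Swd Y u) (t : ℝ) :
    NoIsland {z | Ni_459.lo Y u z ≤ t} := by
  have h1 := noIsland_up hY hu.neg (fun z hz => (hc z hz).neg) (Swd_neg hs) (-t)
  have h2 : {z | -t ≤ Ni_459.up Y (fun w => -u w) z} = {z | Ni_459.lo Y u z ≤ t} := by
    ext z
    simp only [up_neg]
    constructor
    · intro h; have h' : -t ≤ -Ni_459.lo Y u z := h; show Ni_459.lo Y u z ≤ t; linarith
    · intro h; have h' : Ni_459.lo Y u z ≤ t := h; show -t ≤ -Ni_459.lo Y u z; linarith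
  rw [h2] at h1
  exact h1

theorem nLv_eq (t : ℝ) :
    Ni_459.Lv Y u t = {z | t ≤ Ni_459.up Y u z} ∩ {z | Ni_459.lo Y u z ≤ t} := by
  ext z; exact ⟨fun h => ⟨h.2, h.1⟩, fun h => ⟨h.2, h.1⟩⟩

theorem isClosed_nLv (hY : IsExteriorDomain Yᶜ) (hu : Ni_459.LB u) (t : ℝ) :
    IsClosed (Ni_459.Lv Y u t) := by
  rw [nLv_eq]
  exact ((Ni_459.usc_up hY hu).isClosed_preimage t).inter
    ((Ni_459.lsc_lo hY hu).isClosed_preimage t)

/-- **LEVEL SETS OF A SWITCHED FUNCTION HAVE NO ISLANDS**. -/
theorem noIsland_nLv (hY : IsExteriorDomain Yᶜ) (hu : Ni_459.LB u)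
    (hc : ∀ z ∉ Y, ContinuousAt u z) (hs : Ni_459.Swd Y u) (t : ℝ) :
    NoIsland (Ni_459.Lv Y u t) := by
  rw [nLv_eq]
  refine noIsland_inter ((Ni_459.usc_up hY hu).isClosed_preimage t)
    ((Ni_459.lsc_lo hY hu).isClosed_preimage t) ?_ (noIsland_up hY hu hc hs t)
    (noIsland_lo hY hu hc hs t)
  ext z
  simp only [mem_union, mem_univ, iff_true]
  by_cases h1 : t ≤ Ni_459.up Y u z
  · exact Or.inl h1
  · exact Or.inr ((Ni_459.lo_le_up hY hu z).trans (not_le.1 h1).le)


/-- saturation: with `frontier N` off `Y`, the components of `Lv ∩ closure N` are saturated. -/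
theorem cc_saturated {N : Set ℂ} {t : ℝ} (hN : IsOpen N) (hfN : frontier N ∩ Y = ∅) {z : ℂ} :
    ∀ w ∈ connectedComponentIn (Ni_459.Lv Y u t ∩ closure N) z,
      connectedComponentIn Y w ⊆ connectedComponentIn (Ni_459.Lv Y u t ∩ closure N) z := by
  intro w hw
  by_cases hwY : w ∈ Y
  · have hwL := connectedComponentIn_subset _ _ hw
    have hK1 : connectedComponentIn Y w ⊆ Ni_459.Lv Y u t := by
      intro v hv
      refine ⟨?_, ?_⟩
      · rw [Ni_459.lo_congr_cc hwY hv]; exact hwL.1.1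
      · rw [Ni_459.up_congr_cc hwY hv]; exact hwL.1.2
    have hwN : w ∈ N := by
      by_contra h
      have : w ∈ frontier N ∩ Y := ⟨⟨hwL.2, by rw [hN.interior_eq]; exact h⟩, hwY⟩
      rw [hfN] at this; exact this
    have hK2 : connectedComponentIn Y w ⊆ closure N := by
      by_contra hcon
      obtain ⟨v, hv, hvf⟩ := meets_frontier isPreconnected_connectedComponentIn
        (mem_connectedComponentIn hwY) hwN (fun h => hcon (h.trans subset_closure))
      have : v ∈ frontier N ∩ Y := ⟨hvf, connectedComponentIn_subset _ _ hv⟩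
      rw [hfN] at this; exact this
    rw [connectedComponentIn_eq hw]
    exact isPreconnected_connectedComponentIn.subset_connectedComponentIn
      (mem_connectedComponentIn hwY) (subset_inter hK1 hK2)
  · rw [connectedComponentIn_eq_empty hwY]
    exact empty_subset _

/-- **T1 (459 #10219): BOUNDARY BUMPING IN THE LEVELS OF A SWITCHED FUNCTION**, the continuum is a
component of `Lv ∩ closure N`. -/
theorem bump_cc (hY : IsExteriorDomain Yᶜ) (hu : Ni_459.LB u)
    (hc : ∀ z ∉ Y, ContinuousAt u z) (hs : Ni_459.Swd Y u) (t : ℝ) {N : Set ℂ}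
    (hNb : Bornology.IsBounded N) {z : ℂ} (hz : z ∈ Ni_459.Lv Y u t) (hzN : z ∈ closure N) :
    (connectedComponentIn (Ni_459.Lv Y u t ∩ closure N) z ∩ frontier N).Nonempty := by
  obtain ⟨w, hw, hwf⟩ := comp_meets (isClosed_nLv hY hu t) (noIsland_nLv hY hu hc hs t)
    hNb.isCompact_closure hz hzN
  exact ⟨w, hw, frontier_closure_subset hwf⟩

/-- **T1 (459 #10219)**. -/
theorem bump (hY : IsExteriorDomain Yᶜ) (hl : LocallyLipschitzOn Yᶜ u) (hu : Ni_459.LB u)
    (hs : Ni_459.Swd Y u) (t : ℝ) {N : Set ℂ} (hN : IsOpen N) (hNb : Bornology.IsBounded N)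
    {z : ℂ} (hz : z ∈ Ni_459.Lv Y u t ∩ N) :
    ∃ C ⊆ Ni_459.Lv Y u t ∩ closure N, IsCompact C ∧ IsPreconnected C ∧ z ∈ C ∧
      (C ∩ frontier N).Nonempty ∧
      (frontier N ∩ Y = ∅ → ∀ w ∈ C, connectedComponentIn Y w ⊆ C) :=
  ⟨connectedComponentIn (Ni_459.Lv Y u t ∩ closure N) z, connectedComponentIn_subset _ _,
    Thin_12.isCompact_cc (hNb.isCompact_closure.inter_left (isClosed_nLv hY hu t)) z,
    isPreconnected_connectedComponentIn,
    mem_connectedComponentIn ⟨hz.1, subset_closure hz.2⟩,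
    bump_cc hY hu (fun _ => continuousAt_of_lip hY hl) hs t hNb hz.1 (subset_closure hz.2),
    fun h => cc_saturated hN h⟩

end Crest.Agent.R105.Uni_659
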