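import Crest.Agent.R165.Cl4_722
import Crest.Agent.R105.Tra1_937

-- ▼ part R105/Dir1_508
section

/-!
# Row 105, LIB-DIR 1: gradients, test functions, radial bumps, mean value (helper508)

* `gr u z` : the real gradient of `u : ℂ → ℝ` as a complex number
* `Tst U φ` : `φ` smooth, compactly supported in `ℂ`, locally constant near `Uᶜ`
* `rb ε` : radial bump, `∫ rb ε = 1`, `mean` : mean value property of holomorphic functions
* `exact_field` : a compactly supported divergence free field is `-I * gr φ`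
-/

set_option autoImplicit false

open MeasureTheory Set Filter Topology Complex Metric
open scoped ContDiff ComplexConjugate

namespace Crest.Agent.R105.Dir_508

noncomputable section

/-- real gradient as a complex number -/
def gr (u : ℂ → ℝ) (z : ℂ) : ℂ := (fderiv ℝ u z 1 : ℂ) + (fderiv ℝ u z I : ℂ) * I

/-- test functions: smooth, compactly supported in `ℂ`, locally constant near `Uᶜ` -/
structure Tst (U : Set ℂ) (φ : ℂ → ℝ) : Prop where
  sm : ContDiff ℝ ∞ φ
  cpt : HasCompactSupport φ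
  sub : tsupport (fderiv ℝ φ) ⊆ U

/-! ### radial bump -/

/-- radial profile -/
def rb0 (z : ℂ) : ℝ := Real.smoothTransition (1 - ‖z‖ ^ 2)

lemma contDiff_rb0 : ContDiff ℝ ∞ rb0 :=
  Real.smoothTransition.contDiff.comp (contDiff_const.sub (contDiff_norm_sq ℝ))

lemma rb0_nonneg (z : ℂ) : 0 ≤ rb0 z := Real.smoothTransition.nonneg _

lemma rb0_zero_of {z : ℂ} (h : 1 ≤ ‖z‖) : rb0 z = 0 := by
  refine Real.smoothTransition.zero_of_nonpos ?_
  nlinarith [norm_nonneg z]

/-- scaled bump, total mass `1` -/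
def rb (ε : ℝ) (z : ℂ) : ℝ := (∫ w : ℂ, rb0 ((ε⁻¹ : ℝ) • w))⁻¹ * rb0 ((ε⁻¹ : ℝ) • z)

lemma rb_cs {ε : ℝ} (hε : 0 < ε) : ∀ w : ℂ, ε ≤ ‖w‖ → rb0 ((ε⁻¹ : ℝ) • w) = 0 := by
  intro w hw
  refine rb0_zero_of ?_
  rw [norm_smul, norm_inv, Real.norm_of_nonneg hε.le]
  rw [inv_mul_eq_div, le_div_iff₀ hε]; linarith

lemma contDiff_rb0s (ε : ℝ) : ContDiff ℝ ∞ fun w : ℂ => rb0 ((ε⁻¹ : ℝ) • w) :=
  contDiff_rb0.comp (contDiff_const_smul _)

lemma cpt_rb0s {ε : ℝ} (hε : 0 < ε) : HasCompactSupport fun w : ℂ => rb0 ((ε⁻¹ : ℝ) • w) := by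
  refine HasCompactSupport.intro (isCompact_closedBall (0 : ℂ) ε) fun w hw => rb_cs hε w ?_
  rw [mem_closedBall, dist_zero_right, not_le] at hw
  exact hw.le

lemma int_pos {ε : ℝ} (hε : 0 < ε) : 0 < ∫ w : ℂ, rb0 ((ε⁻¹ : ℝ) • w) := by
  refine (contDiff_rb0s ε).continuous.integral_pos_of_hasCompactSupport_nonneg_nonzero
    (cpt_rb0s hε) (fun w => rb0_nonneg _) (x := 0) ?_
  simp only [smul_zero]
  unfold rb0
  rw [Real.smoothTransition.one_of_one_le (by simp)]
  exact one_ne_zero

lemma contDiff_rb (ε : ℝ) : ContDiff ℝ ∞ (rb ε) := contDiff_const.mul (contDiff_rb0s ε)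

lemma rb_zero {ε : ℝ} (hε : 0 < ε) {w : ℂ} (hw : ε ≤ ‖w‖) : rb ε w = 0 := by
  unfold rb; rw [rb_cs hε w hw, mul_zero]


lemma cpt_rb {ε : ℝ} (hε : 0 < ε) : HasCompactSupport (rb ε) := (cpt_rb0s hε).mul_left


lemma int_rb {ε : ℝ} (hε : 0 < ε) : ∫ w, rb ε w = 1 := by
  unfold rb
  rw [integral_const_mul, inv_mul_cancel₀ (int_pos hε).ne']

lemma rb_radial (ε : ℝ) {z w : ℂ} (h : ‖z‖ = ‖w‖) : rb ε z = rb ε w := by
  unfold rb rb0
  rw [norm_smul, norm_smul, h]


/-! ### polar coordinates -/

lemma polar_formula {g : ℂ → ℂ} (hg : Continuous g) {R : ℝ} (h0 : ∀ w, R ≤ ‖w‖ → g w = 0) :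
    ∫ w, g w = ∫ r in Ioi (0 : ℝ), ∫ θ in Ioo (-Real.pi) Real.pi, (r : ℂ) *
      g (r * exp (θ * I)) := by
  rw [← Complex.integral_comp_polarCoord_symm]
  have hset : polarCoord.target = Ioi (0 : ℝ) ×ˢ Ioo (-Real.pi) Real.pi := rfl
  set f : ℝ × ℝ → ℂ := fun p => (p.1 : ℂ) * g (p.1 * exp (p.2 * I)) with hf
  have hfc : Continuous f := by
    rw [hf]
    exact (continuous_ofReal.comp continuous_fst).mul (hg.comp
      ((continuous_ofReal.comp continuous_fst).mul (continuous_exp.comp
        ((continuous_ofReal.comp continuous_snd).mul continuous_const))))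
  have hf0 : ∀ p : ℝ × ℝ, max R 0 < p.1 → f p = 0 := by
    intro p hp
    rw [hf]
    simp only
    rw [h0, mul_zero]
    rw [norm_mul, Complex.norm_exp_ofReal_mul_I, mul_one, Complex.norm_real, Real.norm_of_nonneg
      ((le_max_right R 0).trans hp.le)]
    exact (le_max_left R 0).trans hp.le
  have hi := Crest.Agent.R165.Cl1x722.integrableOn_of_zero hfc (max R 0) hf0
  have h1 : ∀ p ∈ polarCoord.target, p.1 • g (Complex.polarCoord.symm p) = f p := by
    intro p _
    rw [hf, Complex.polarCoord_symm_apply]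
    simp only [real_smul]
    congr 2
    rw [Complex.exp_mul_I]
    push_cast
    ring_nf
  rw [setIntegral_congr_fun (polarCoord.open_target.measurableSet) h1, hset, Measure.volume_eq_prod,
    setIntegral_prod f hi]

/-- **mean value property against a radial bump** -/
theorem mean {F : ℂ → ℂ} {z : ℂ} {ε R : ℝ} (hε : 0 < ε) (hR : ε < R)
    (hF : DifferentiableOn ℂ F (ball z R)) : ∫ w, (rb ε w : ℂ) * F (z + w) = F z := by
  have hcont : ∀ {F : ℂ → ℂ}, DifferentiableOn ℂ F (ball z R) →
      Continuous fun w => (rb ε w : ℂ) * F (z + w) := by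
    intro F hF
    rw [continuous_iff_continuousAt]
    intro w
    by_cases hw : ‖w‖ < R
    · refine (continuous_ofReal.comp (contDiff_rb ε).continuous).continuousAt.mul ?_
      have h1 : ContinuousAt F (z + w) := (hF.continuousOn).continuousAt
        (isOpen_ball.mem_nhds (by rw [mem_ball, dist_eq_norm]; simpa using hw))
      exact ContinuousAt.comp (f := fun w => z + w) h1 (by fun_prop)
    · have h2 : (fun w => (rb ε w : ℂ) * F (z + w)) =ᶠ[𝓝 w] fun _ => 0 := by
        have h3 : {w : ℂ | ε < ‖w‖} ∈ 𝓝 w :=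
          (isOpen_lt continuous_const continuous_norm).mem_nhds (hR.trans_le (not_lt.1 hw))
        filter_upwards [h3] with v hv
        rw [rb_zero hε (le_of_lt hv)]; simp
      exact continuousAt_const.congr h2.symm
  have key : ∀ {F : ℂ → ℂ}, DifferentiableOn ℂ F (ball z R) → ∫ w, (rb ε w : ℂ) * F (z + w) =
      ∫ r in Ioi (0 : ℝ), (2 * Real.pi * r * rb ε r : ℝ) * F z := by
    intro F hF
    rw [polar_formula (hcont hF) (R := ε) (fun w hw => by rw [rb_zero hε hw]; simp)]
    refine setIntegral_congr_fun measurableSet_Ioi fun r hr => ?_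
    have hr0 : 0 < r := hr
    have h1 : ∀ θ : ℝ, (r : ℂ) * ((rb ε (r * exp (θ * I)) : ℂ) * F (z + r * exp (θ * I))) =
        ((r * rb ε r : ℝ) : ℂ) * F (circleMap z r θ) := by
      intro θ
      rw [rb_radial ε (z := r * exp (θ * I)) (w := (r : ℂ)) (by
        rw [norm_mul, Complex.norm_exp_ofReal_mul_I, mul_one])]
      unfold circleMap
      push_cast
      ring
    simp only [h1]
    by_cases hrε : r < ε
    · rw [integral_const_mul, ← integral_Ioc_eq_integral_Ioo,
        ← intervalIntegral.integral_of_le (by linarith [Real.pi_pos])]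
      have h2 : ∫ θ in (-Real.pi)..Real.pi, F (circleMap z r θ) =
          ∫ θ in (0 : ℝ)..(2 * Real.pi), F (circleMap z r θ) := by
        have h3 : Function.Periodic (fun θ => F (circleMap z r θ)) (2 * Real.pi) := by
          intro θ
          simp only [periodic_circleMap z r θ]
        have h4 := h3.intervalIntegral_add_eq (-Real.pi) 0
        rw [zero_add, show -Real.pi + 2 * Real.pi = Real.pi by ring] at h4
        exact h4
      rw [h2]
      have h5 : DiffContOnCl ℂ F (ball z |r|) := by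
        refine DifferentiableOn.diffContOnCl ?_
        refine hF.mono ?_
        refine closure_ball_subset_closedBall.trans ?_
        rw [abs_of_pos hr0]
        exact closedBall_subset_ball (by linarith)
      have h6 := h5.circleAverage
      unfold Real.circleAverage at h6
      rw [inv_smul_eq_iff₀ (by positivity)] at h6
      rw [h6]
      simp only [real_smul]
      push_cast
      ring
    · rw [rb_zero hε (by rw [Complex.norm_real, Real.norm_of_nonneg hr0.le]; exact not_lt.1 hrε)]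
      simp
  rw [key hF]
  have h1 := key (F := fun _ => (1 : ℂ)) (differentiableOn_const _)
  simp only [mul_one] at h1
  rw [integral_mul_const, ← h1, integral_complex_ofReal, int_rb hε]
  simp

/-! ### exact fields -/

/-- divergence of a field -/
def dv (β : ℂ → ℂ) (z : ℂ) : ℝ := (fderiv ℝ β z 1).re + (fderiv ℝ β z I).im

lemma isPreconnected_ext {R : ℝ} (hR : 0 ≤ R) : IsPreconnected {z : ℂ | R < ‖z‖} := by
  have h1 : {z : ℂ | R < ‖z‖} = (fun p : ℝ × ℝ => (p.1 : ℂ) * exp (p.2 * I)) ''
      (Ioi R ×ˢ univ) := by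
    ext z
    constructor
    · intro hz
      refine ⟨(‖z‖, arg z), ⟨hz, trivial⟩, ?_⟩
      exact norm_mul_exp_arg_mul_I z
    · rintro ⟨⟨r, θ⟩, ⟨hr, -⟩, rfl⟩
      have hr' : R < r := hr
      simp only [mem_ofPred_eq]
      rw [norm_mul, Complex.norm_exp_ofReal_mul_I, mul_one, Complex.norm_real,
        Real.norm_of_nonneg (hR.trans hr'.le)]
      exact hr'
  rw [h1]
  refine (isPreconnected_Ioi.prod isPreconnected_univ).image _ ?_
  exact Continuous.continuousOn (by fun_prop)

/-- **a compactly supported divergence free field is a rotated gradient** -/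
theorem exact_field {U : Set ℂ} {β : ℂ → ℂ} (h1 : ContDiff ℝ ∞ β) (h2 : HasCompactSupport β)
    (h3 : tsupport β ⊆ U) (h4 : ∀ z, dv β z = 0) : ∃ φ, Tst U φ ∧ ∀ z, gr φ z = I * β z := by
  -- the one-form
  set om : ℂ → (ℂ →L[ℝ] ℝ) := fun z =>
    (reCLM.comp (ContinuousLinearMap.mul ℝ ℂ (conj (I * β z)))) with hom
  have hom1 : ContDiff ℝ ∞ om := by
    rw [hom]
    refine contDiff_const.clm_comp ?_
    refine (ContinuousLinearMap.mul ℝ ℂ).contDiff.comp ?_
    exact (conjCLE.contDiff).comp (contDiff_const.mul h1)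
  have hd : ∀ z x y, fderiv ℝ om z x y = (conj (I * fderiv ℝ β z x) * y).re := by
    intro z x y
    have hb := (h1.differentiable (by simp) z).hasFDerivAt
    have e1 : HasFDerivAt (fun z => conj (I * β z))
        ((conjCLE : ℂ →L[ℝ] ℂ).comp (I • fderiv ℝ β z)) z := by
      have := (hb.const_mul I)
      exact (conjCLE : ℂ →L[ℝ] ℂ).hasFDerivAt.comp z this
    have e2 : HasFDerivAt (fun z => ContinuousLinearMap.mul ℝ ℂ (conj (I * β z)))
        ((ContinuousLinearMap.mul ℝ ℂ).comp ((conjCLE : ℂ →L[ℝ] ℂ).comp (I • fderiv ℝ β z))) z :=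
      (ContinuousLinearMap.mul ℝ ℂ).hasFDerivAt.comp z e1
    have e3 := (hasFDerivAt_const reCLM z).clm_comp e2
    have e4 : HasFDerivAt om _ z := e3
    rw [e4.fderiv]
    simp
  have hsym : ∀ z x y, fderiv ℝ om z x y = fderiv ℝ om z y x := by
    intro z x y
    rw [hd, hd]
    have h5 := h4 z
    unfold dv at h5
    have hx : fderiv ℝ β z x = x.re * fderiv ℝ β z 1 + x.im * fderiv ℝ β z I := by
      conv_lhs => rw [show x = x.re • (1 : ℂ) + x.im • I by simp [Complex.re_add_im]]
      rw [map_add, map_smul, map_smul, real_smul, real_smul]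
    have hy : fderiv ℝ β z y = y.re * fderiv ℝ β z 1 + y.im * fderiv ℝ β z I := by
      conv_lhs => rw [show y = y.re • (1 : ℂ) + y.im • I by simp [Complex.re_add_im]]
      rw [map_add, map_smul, map_smul, real_smul, real_smul]
    rw [hx, hy]
    simp
    linear_combination (x.re * y.im - x.im * y.re) * h5
  obtain ⟨φ0, hφ0⟩ := convex_univ.exists_forall_hasFDerivAt_of_fderiv_symmetric isOpen_univ
    (hom1.differentiable (by simp)).differentiableOn (fun z _ => hsym z)
  have hφd : ∀ z, HasFDerivAt φ0 (om z) z := fun z => hφ0 z (mem_univ z)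
  have hfd : fderiv ℝ φ0 = om := funext fun z => (hφd z).fderiv
  have hφs : ContDiff ℝ ∞ φ0 := by
    rw [contDiff_infty_iff_fderiv]
    exact ⟨fun z => (hφd z).differentiableAt, by rw [hfd]; exact hom1⟩
  -- constant near infinity
  obtain ⟨R, hR0, hR⟩ : ∃ R : ℝ, 0 ≤ R ∧ tsupport β ⊆ closedBall 0 R := by
    obtain ⟨R, hR⟩ := h2.isCompact.isBounded.subset_closedBall (0 : ℂ)
    exact ⟨max R 0, le_max_right _ _, hR.trans (closedBall_subset_closedBall (le_max_left _ _))⟩
  have hb0 : ∀ z, z ∉ tsupport β → om z = 0 := by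
    intro z hz
    rw [hom]
    simp only
    rw [image_eq_zero_of_notMem_tsupport hz]
    ext v
    simp
  set z1 : ℂ := ((R + 1 : ℝ) : ℂ) with hz1
  have hz1m : R < ‖z1‖ := by
    rw [hz1, Complex.norm_real, Real.norm_of_nonneg (by linarith)]; linarith
  have hconst : ∀ z : ℂ, R < ‖z‖ → φ0 z = φ0 z1 := by
    intro z hz
    have ho : IsOpen {z : ℂ | R < ‖z‖} := isOpen_lt continuous_const continuous_norm
    refine ho.is_const_of_fderiv_eq_zero (isPreconnected_ext hR0)
      (fun w _ => (hφd w).differentiableAt.differentiableWithinAt) ?_ hz hz1m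
    intro w hw
    rw [hfd]
    refine hb0 w fun h => ?_
    have := hR h
    rw [mem_closedBall, dist_zero_right] at this
    exact absurd hw (not_lt.2 this)
  refine ⟨fun z => φ0 z - φ0 z1, ⟨hφs.sub contDiff_const, ?_, ?_⟩, ?_⟩
  · refine HasCompactSupport.intro (isCompact_closedBall (0 : ℂ) R) fun z hz => ?_
    rw [mem_closedBall, dist_zero_right, not_le] at hz
    rw [hconst z hz, sub_self]
  · have e1 : fderiv ℝ (fun z => φ0 z - φ0 z1) = om := by
      funext z
      rw [fderiv_sub_const, hfd]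
    rw [e1]
    refine Subset.trans ?_ h3
    refine closure_minimal ?_ (isClosed_tsupport β)
    intro z hz
    by_contra h
    exact hz (hb0 z h)
  · intro z
    unfold gr
    have e1 : fderiv ℝ (fun z => φ0 z - φ0 z1) z = om z := by
      rw [fderiv_sub_const, hfd]
    rw [e1, hom]
    simp only [ContinuousLinearMap.comp_apply, ContinuousLinearMap.mul_apply', reCLM_apply]
    apply Complex.ext <;> simp

end

end Crest.Agent.R105.Dir_508
end

-- ▼ part R105/Dir2_508
section

/-!
# Row 105, LIB-DIR 2: primitives on arbitrary open sets from test functions (helper508)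

* `seg ε a b` : smooth field carried by the segment from `a` to `b`
* `exists_primitive` : `G` holomorphic on the open set `U` with `∫ G * gr φ = 0` for all test
  functions `φ` locally constant near `Uᶜ` has a holomorphic primitive on `U`
-/

set_option autoImplicit false

open MeasureTheory Set Filter Topology Complex Metric
open scoped ContDiff ComplexConjugate Convolution

namespace Crest.Agent.R105.Dir_508

noncomputable section

/-- scalar density of the segment field -/
def sg (ε : ℝ) (a b w : ℂ) : ℝ := ∫ t in (0 : ℝ)..1, rb ε (w - (a + t * (b - a)))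

/-- smooth field carried by the segment `[a, b]` -/
def seg (ε : ℝ) (a b w : ℂ) : ℂ := (b - a) * (sg ε a b w : ℂ)

/-- the measure on the segment -/
def smu (a b : ℂ) : Measure ℂ := (volume.restrict (Ioc (0 : ℝ) 1)).map (fun t : ℝ => a + t * (b - a))

lemma cont_par (a b : ℂ) : Continuous (fun t : ℝ => a + t * (b - a)) := by fun_prop

instance (a b : ℂ) : IsFiniteMeasure (smu a b) := by
  unfold smu
  infer_instance

lemma sg_eq_conv (ε : ℝ) (a b : ℂ) :
    sg ε a b = ((fun _ : ℂ => (1 : ℝ)) ⋆[ContinuousLinearMap.mul ℝ ℝ, smu a b] (rb ε)) := by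
  funext w
  unfold convolution sg smu
  rw [integral_map (cont_par a b).measurable.aemeasurable, intervalIntegral.integral_of_le
    zero_le_one]
  · simp
  · have h1 : Continuous fun x : ℂ => (ContinuousLinearMap.mul ℝ ℝ) (1 : ℝ) (rb ε (w - x)) := by
      simp only [ContinuousLinearMap.mul_apply', one_mul]
      exact (contDiff_rb ε).continuous.comp (by fun_prop)
    exact h1.aestronglyMeasurable

lemma contDiff_sg {ε : ℝ} (hε : 0 < ε) (a b : ℂ) : ContDiff ℝ ∞ (sg ε a b) := by
  rw [sg_eq_conv]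
  refine HasCompactSupport.contDiff_convolution_right _ (cpt_rb hε) ?_ (contDiff_rb ε)
  exact (integrable_const (1 : ℝ)).locallyIntegrable

lemma contDiff_seg {ε : ℝ} (hε : 0 < ε) (a b : ℂ) : ContDiff ℝ ∞ (seg ε a b) :=
  contDiff_const.mul (ofRealCLM.contDiff.comp (contDiff_sg hε a b))

lemma hasFDerivAt_sg {ε : ℝ} (hε : 0 < ε) (a b w : ℂ) (v : ℂ) :
    fderiv ℝ (sg ε a b) w v = ∫ t in (0 : ℝ)..1, fderiv ℝ (rb ε) (w - (a + t * (b - a))) v := by
  have hcf : Continuous (fderiv ℝ (rb ε)) := (contDiff_rb ε).continuous_fderiv (by simp)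
  obtain ⟨M, hM⟩ := hcf.bounded_above_of_compact_support ((cpt_rb hε).fderiv ℝ)
  have hc1 : ∀ x : ℂ, Continuous fun t : ℝ => rb ε (x - (a + t * (b - a))) := fun x =>
    (contDiff_rb ε).continuous.comp (by fun_prop)
  have hc2 : ∀ x : ℂ, Continuous fun t : ℝ => fderiv ℝ (rb ε) (x - (a + t * (b - a))) := fun x =>
    hcf.comp (by fun_prop)
  have hci : ∀ {E : Type} [NormedAddCommGroup E] [NormedSpace ℝ E] {f : ℝ → E}, Continuous f →
      Integrable f (volume.restrict (Ioc (0 : ℝ) 1)) := fun hf =>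
    (hf.integrableOn_Icc (a := 0) (b := 1)).mono_set Ioc_subset_Icc_self
  have h1 : HasFDerivAt (fun x : ℂ => ∫ t in Ioc (0 : ℝ) 1, rb ε (x - (a + t * (b - a))))
      (∫ t in Ioc (0 : ℝ) 1, fderiv ℝ (rb ε) (w - (a + t * (b - a)))) w := by
    refine hasFDerivAt_integral_of_dominated_of_fderiv_le (s := univ) (bound := fun _ => M)
      (F := fun (x : ℂ) (t : ℝ) => rb ε (x - (a + t * (b - a))))
      (F' := fun (x : ℂ) (t : ℝ) => fderiv ℝ (rb ε) (x - (a + t * (b - a)))) univ_mem
      (Eventually.of_forall fun x => (hc1 x).aestronglyMeasurable) (hci (hc1 w))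
      (hc2 w).aestronglyMeasurable (ae_of_all _ fun t x _ => hM _) (integrable_const _)
      (ae_of_all _ fun t x _ => ?_)
    have e1 : HasFDerivAt (rb ε) (fderiv ℝ (rb ε) (x - (a + t * (b - a))))
        (x - (a + t * (b - a))) := ((contDiff_rb ε).differentiable (by simp) _).hasFDerivAt
    have e2 : HasFDerivAt (fun x : ℂ => x - (a + t * (b - a))) (ContinuousLinearMap.id ℝ ℂ) x :=
      (hasFDerivAt_id x).sub_const _
    exact e1.comp x e2
  have h2 : sg ε a b = fun x : ℂ => ∫ t in Ioc (0 : ℝ) 1, rb ε (x - (a + t * (b - a))) := by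
    funext x
    unfold sg
    rw [intervalIntegral.integral_of_le zero_le_one]
  rw [h2, h1.fderiv, intervalIntegral.integral_of_le zero_le_one,
    ContinuousLinearMap.integral_apply (hci (hc2 w))]

lemma dv_seg {ε : ℝ} (hε : 0 < ε) (a b w : ℂ) :
    dv (seg ε a b) w = rb ε (w - a) - rb ε (w - b) := by
  have hd : HasFDerivAt (sg ε a b) (fderiv ℝ (sg ε a b) w) w :=
    ((contDiff_sg hε a b).differentiable (by simp) w).hasFDerivAt
  have h1 : HasFDerivAt (seg ε a b)
      ((b - a) • (ofRealCLM.comp (fderiv ℝ (sg ε a b) w))) w :=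
    (ofRealCLM.hasFDerivAt.comp w hd).const_mul (b - a)
  unfold dv
  rw [h1.fderiv]
  have h2 : ((b - a) • (ofRealCLM.comp (fderiv ℝ (sg ε a b) w))) 1 =
      (b - a) * (fderiv ℝ (sg ε a b) w 1 : ℂ) := by simp
  have h3 : ((b - a) • (ofRealCLM.comp (fderiv ℝ (sg ε a b) w))) I =
      (b - a) * (fderiv ℝ (sg ε a b) w I : ℂ) := by simp
  rw [h2, h3, Complex.re_mul_ofReal, Complex.im_mul_ofReal]
  have h4 : (b - a).re * fderiv ℝ (sg ε a b) w 1 + (b - a).im * fderiv ℝ (sg ε a b) w I =
      fderiv ℝ (sg ε a b) w (b - a) := by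
    conv_rhs => rw [show b - a = (b - a).re • (1 : ℂ) + (b - a).im • I by
      rw [real_smul, real_smul, mul_one]; exact (Complex.re_add_im _).symm]
    rw [map_add, map_smul, map_smul, smul_eq_mul, smul_eq_mul]
  rw [h4, hasFDerivAt_sg hε]
  have h5 : ∀ t ∈ uIcc (0 : ℝ) 1, HasDerivAt (fun t : ℝ => rb ε (w - (a + t * (b - a))))
      (-(fderiv ℝ (rb ε) (w - (a + t * (b - a))) (b - a))) t := by
    intro t _
    have e1 : HasFDerivAt (rb ε) (fderiv ℝ (rb ε) (w - (a + t * (b - a))))
        (w - (a + t * (b - a))) :=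
      ((contDiff_rb ε).differentiable (by simp) _).hasFDerivAt
    have e2 : HasDerivAt (fun t : ℝ => w - (a + (t : ℂ) * (b - a))) (-(b - a)) t := by
      have e3 : HasDerivAt (fun t : ℝ => (t : ℂ)) 1 t := Complex.ofRealCLM.hasDerivAt
      have e4 := ((e3.mul_const (b - a)).const_add a).const_sub w
      simpa using e4
    have e5 := e1.comp_hasDerivAt t e2
    rw [map_neg] at e5
    exact e5
  have h6 := intervalIntegral.integral_eq_sub_of_hasDerivAt h5 (by
    refine Continuous.intervalIntegrable ?_ _ _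
    refine Continuous.neg ?_
    have : Continuous fun t : ℝ => fderiv ℝ (rb ε) (w - (a + t * (b - a))) :=
      ((contDiff_rb ε).continuous_fderiv (by simp)).comp (by fun_prop)
    exact this.clm_apply continuous_const)
  rw [intervalIntegral.integral_neg] at h6
  have h7 : w - (a + ((1 : ℝ) : ℂ) * (b - a)) = w - b := by push_cast; ring
  have h8 : w - (a + ((0 : ℝ) : ℂ) * (b - a)) = w - a := by push_cast; ring
  rw [h7, h8] at h6
  linarith

lemma seg_zero {ε : ℝ} (hε : 0 < ε) {a b q : ℂ} {r : ℝ} (ha : a ∈ closedBall q r)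
    (hb : b ∈ closedBall q r) {w : ℂ} (hw : w ∉ closedBall q (r + ε)) : sg ε a b w = 0 := by
  unfold sg
  have h1 : ∀ t ∈ uIcc (0 : ℝ) 1, rb ε (w - (a + t * (b - a))) = 0 := by
    intro t ht
    rw [uIcc_of_le zero_le_one] at ht
    refine rb_zero hε ?_
    have h2 : a + t * (b - a) ∈ closedBall q r := by
      have := (convex_closedBall q r).add_smul_sub_mem ha hb ht
      rwa [real_smul] at this
    rw [mem_closedBall, dist_eq_norm] at h2
    rw [mem_closedBall, dist_eq_norm, not_le] at hw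
    have h3 : w - q = (w - (a + t * (b - a))) + ((a + t * (b - a)) - q) := by ring
    have h4 : ‖w - q‖ ≤ ‖w - (a + t * (b - a))‖ + ‖(a + t * (b - a)) - q‖ := by
      rw [h3]; exact norm_add_le _ _
    linarith
  rw [intervalIntegral.integral_congr h1]
  simp

lemma tsupport_seg {ε : ℝ} (hε : 0 < ε) {a b q : ℂ} {r : ℝ} (ha : a ∈ closedBall q r)
    (hb : b ∈ closedBall q r) : tsupport (seg ε a b) ⊆ closedBall q (r + ε) := by
  refine closure_minimal ?_ isClosed_closedBall
  intro w hw
  by_contra h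
  refine hw ?_
  simp only [seg]
  rw [seg_zero hε ha hb h]; simp

lemma cpt_seg {ε : ℝ} (hε : 0 < ε) (a b : ℂ) : HasCompactSupport (seg ε a b) := by
  have ha : a ∈ closedBall a (dist b a) := mem_closedBall_self dist_nonneg
  have hb : b ∈ closedBall a (dist b a) := by rw [mem_closedBall]
  exact (isCompact_closedBall _ _).of_isClosed_subset (isClosed_tsupport _)
    (tsupport_seg hε ha hb)

/-- the pairing of a holomorphic function with the segment field -/
theorem int_seg {G P : ℂ → ℂ} {q : ℂ} {R r ε : ℝ} (hε : 0 < ε) (hR : r + ε < R)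
    (hG : DifferentiableOn ℂ G (ball q R)) (hP : ∀ z ∈ ball q R, HasDerivAt P (G z) z)
    {a b : ℂ} (ha : a ∈ closedBall q r) (hb : b ∈ closedBall q r) :
    ∫ w, G w * seg ε a b w = P b - P a := by
  -- cut off
  set B := closedBall q (r + ε) with hB
  have hBR : B ⊆ ball q R := closedBall_subset_ball hR
  set G1 : ℂ → ℂ := B.indicator G with hG1
  have hGi : Integrable G1 := by
    rw [hG1, integrable_indicator_iff isClosed_closedBall.measurableSet]
    exact (hG.continuousOn.mono hBR).integrableOn_compact (isCompact_closedBall _ _)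
  have hpt : ∀ t ∈ Ioc (0 : ℝ) 1, a + t * (b - a) ∈ closedBall q r := by
    intro t ht
    have := (convex_closedBall q r).add_smul_sub_mem ha hb ⟨ht.1.le, ht.2⟩
    rwa [real_smul] at this
  have e1 : ∀ w, G w * seg ε a b w =
      ∫ t in Ioc (0 : ℝ) 1, (b - a) * (G1 w * (rb ε (w - (a + t * (b - a))) : ℂ)) := by
    intro w
    rw [integral_const_mul, integral_const_mul]
    unfold seg
    by_cases hw : w ∈ B
    · rw [hG1, indicator_of_mem hw]
      unfold sg
      rw [intervalIntegral.integral_of_le zero_le_one, ← integral_complex_ofReal]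
      ring
    · rw [seg_zero hε ha hb hw, hG1, indicator_of_notMem hw]
      simp
  simp only [e1]
  rw [integral_integral_swap]
  · have e2 : ∀ t ∈ Ioc (0 : ℝ) 1, ∫ w, (b - a) * (G1 w * (rb ε (w - (a + t * (b - a))) : ℂ)) =
        G (a + t * (b - a)) * (b - a) := by
      intro t ht
      have hc := hpt t ht
      set c := a + t * (b - a) with hcdef
      rw [integral_const_mul]
      have hcn : ‖c - q‖ ≤ r := by rwa [mem_closedBall, dist_eq_norm] at hc
      have e3 : ∫ w, G1 w * (rb ε (w - c) : ℂ) = ∫ w, (rb ε w : ℂ) * G (c + w) := by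
        rw [← integral_add_left_eq_self (fun w => G1 w * (rb ε (w - c) : ℂ)) c]
        refine integral_congr_ae (ae_of_all _ fun w => ?_)
        simp only [add_sub_cancel_left]
        by_cases hw : ‖w‖ ≤ ε
        · rw [hG1, indicator_of_mem]
          · ring
          · rw [hB, mem_closedBall, dist_eq_norm, show c + w - q = (c - q) + w by ring]
            exact (norm_add_le _ _).trans (by linarith)
        · rw [rb_zero hε (not_le.1 hw).le]; simp
      have hsub : ball c (R - r) ⊆ ball q R := by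
        intro z hz
        rw [mem_ball, dist_eq_norm] at hz ⊢
        have : z - q = (z - c) + (c - q) := by ring
        rw [this]
        exact (norm_add_le _ _).trans_lt (by linarith)
      rw [e3, mean hε (R := R - r) (by linarith) (hG.mono hsub)]
      ring
    rw [setIntegral_congr_fun measurableSet_Ioc e2, ← intervalIntegral.integral_of_le zero_le_one]
    have h5 : ∀ t ∈ uIcc (0 : ℝ) 1, HasDerivAt (fun t : ℝ => P (a + t * (b - a)))
        (G (a + t * (b - a)) * (b - a)) t := by
      intro t ht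
      rw [uIcc_of_le zero_le_one] at ht
      have hm : a + t * (b - a) ∈ ball q R := by
        refine hBR (closedBall_subset_closedBall (show r ≤ r + ε by linarith) ?_)
        have := (convex_closedBall q r).add_smul_sub_mem ha hb ht
        rwa [real_smul] at this
      have e4 : HasDerivAt (fun t : ℝ => a + (t : ℂ) * (b - a)) (b - a) t := by
        have e3 : HasDerivAt (fun t : ℝ => (t : ℂ)) 1 t := Complex.ofRealCLM.hasDerivAt
        simpa using (e3.mul_const (b - a)).const_add a
      have := HasDerivAt.comp (𝕜 := ℝ) (𝕜' := ℂ) t (hP _ hm) e4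
      exact this
    have hci : IntervalIntegrable (fun t : ℝ => G (a + t * (b - a)) * (b - a)) volume 0 1 := by
      refine ContinuousOn.intervalIntegrable ?_
      rw [uIcc_of_le zero_le_one]
      refine ContinuousOn.mul ?_ continuousOn_const
      refine hG.continuousOn.comp (cont_par a b).continuousOn ?_
      intro t ht
      refine hBR (closedBall_subset_closedBall (show r ≤ r + ε by linarith) ?_)
      have := (convex_closedBall q r).add_smul_sub_mem ha hb ht
      rwa [real_smul] at this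
    rw [intervalIntegral.integral_eq_sub_of_hasDerivAt h5 hci]
    congr 2
    · push_cast; ring
    · push_cast; ring
  · -- integrability
    have f1 : Integrable (fun p : ℂ × ℝ => G1 p.1) (volume.prod (volume.restrict (Ioc (0 : ℝ) 1))) :=
      hGi.comp_fst _
    have f2 : Continuous (fun p : ℂ × ℝ => (b - a) * (rb ε (p.1 - (a + p.2 * (b - a))) : ℂ)) := by
      refine continuous_const.mul (continuous_ofReal.comp ((contDiff_rb ε).continuous.comp ?_))
      fun_prop
    obtain ⟨M, hM⟩ := (contDiff_rb ε).continuous.bounded_above_of_compact_support (cpt_rb hε)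
    have f3 := f1.bdd_mul (c := ‖b - a‖ * M) f2.aestronglyMeasurable (ae_of_all _ fun p => by
      rw [norm_mul, Complex.norm_real]
      exact mul_le_mul_of_nonneg_left (hM _) (norm_nonneg _))
    refine f3.congr (ae_of_all _ fun p => ?_)
    simp only [Function.uncurry]
    ring

/-! ### chains -/

/-- there is a chain from `z0` to `z` with period `c` -/
def Rch (U : Set ℂ) (G : ℂ → ℂ) (z0 z c : ℂ) : Prop :=
  ∃ ε0 > 0, ∀ ε, 0 < ε → ε < ε0 → ∃ β : ℂ → ℂ, ContDiff ℝ ∞ β ∧ HasCompactSupport β ∧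
    tsupport β ⊆ U ∧ (∀ w, dv β w = rb ε (w - z0) - rb ε (w - z)) ∧ ∫ w, G w * β w = c

lemma integrable_mul {U : Set ℂ} (hU : IsOpen U) {G β : ℂ → ℂ} (hG : ContinuousOn G U)
    (h1 : Continuous β) (h2 : HasCompactSupport β) (h3 : tsupport β ⊆ U) :
    Integrable fun w => G w * β w := by
  have hc : Continuous fun w => G w * β w := by
    rw [continuous_iff_continuousAt]
    intro z
    by_cases hz : z ∈ U
    · exact (hG.continuousAt (hU.mem_nhds hz)).mul h1.continuousAt
    · have h6 : (fun z => G z * β z) =ᶠ[𝓝 z] fun _ => 0 := by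
        filter_upwards [(isClosed_tsupport β).isOpen_compl.mem_nhds (fun h => hz (h3 h))]
          with y hy
        rw [image_eq_zero_of_notMem_tsupport hy, mul_zero]
      exact continuousAt_const.congr h6.symm
  exact hc.integrable_of_hasCompactSupport h2.mul_left

lemma dv_add {β β' : ℂ → ℂ} (h : ContDiff ℝ ∞ β) (h' : ContDiff ℝ ∞ β') (w : ℂ) :
    dv (fun w => β w + β' w) w = dv β w + dv β' w := by
  unfold dv
  rw [fderiv_fun_add (h.differentiable (by simp) w) (h'.differentiable (by simp) w)]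
  simp only [_root_.add_apply, Complex.add_re, Complex.add_im]
  ring

lemma dv_sub {β β' : ℂ → ℂ} (h : ContDiff ℝ ∞ β) (h' : ContDiff ℝ ∞ β') (w : ℂ) :
    dv (fun w => β w - β' w) w = dv β w - dv β' w := by
  unfold dv
  rw [fderiv_fun_sub (h.differentiable (by simp) w) (h'.differentiable (by simp) w)]
  simp only [_root_.sub_apply, Complex.sub_re, Complex.sub_im]
  ring

lemma Rch.refl (U : Set ℂ) (G : ℂ → ℂ) (z0 : ℂ) : Rch U G z0 z0 0 := by
  refine ⟨1, one_pos, fun ε _ _ => ⟨fun _ => 0, contDiff_const, HasCompactSupport.zero, ?_, ?_, ?_⟩⟩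
  · simp [tsupport]
  · intro w
    simp [dv]
  · simp

lemma Rch.step {U : Set ℂ} (hU : IsOpen U) {G P : ℂ → ℂ} (hGU : ContinuousOn G U) {z0 a b c q : ℂ}
    {R : ℝ} (h : Rch U G z0 a c) (hB : ball q R ⊆ U) (hG : DifferentiableOn ℂ G (ball q R))
    (hP : ∀ z ∈ ball q R, HasDerivAt P (G z) z) (ha : a ∈ ball q R) (hb : b ∈ ball q R) :
    Rch U G z0 b (c + (P b - P a)) := by
  obtain ⟨ε0, hε0, H⟩ := h
  set r := max (dist a q) (dist b q) with hr
  have hr0 : 0 ≤ r := dist_nonneg.trans (le_max_left _ _)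
  have hrR : r < R := max_lt (mem_ball.1 ha) (mem_ball.1 hb)
  have ha' : a ∈ closedBall q r := by rw [mem_closedBall]; exact le_max_left _ _
  have hb' : b ∈ closedBall q r := by rw [mem_closedBall]; exact le_max_right _ _
  refine ⟨min ε0 (R - r), lt_min hε0 (by linarith), fun ε hε hεε => ?_⟩
  obtain ⟨β, b1, b2, b3, b4, b5⟩ := H ε hε (hεε.trans_le (min_le_left _ _))
  have hεR : r + ε < R := by
    have := hεε.trans_le (min_le_right _ _)
    linarith
  have s3 : tsupport (seg ε a b) ⊆ U :=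
    (tsupport_seg hε ha' hb').trans ((closedBall_subset_ball hεR).trans hB)
  refine ⟨fun w => β w + seg ε a b w, b1.add (contDiff_seg hε a b), b2.add (cpt_seg hε a b),
    ?_, ?_, ?_⟩
  · exact (tsupport_add β (seg ε a b)).trans (union_subset b3 s3)
  · intro w
    rw [dv_add b1 (contDiff_seg hε a b), b4, dv_seg hε]
    ring
  · have i1 := integrable_mul hU hGU b1.continuous b2 b3
    have i2 := integrable_mul hU hGU (contDiff_seg hε a b).continuous (cpt_seg hε a b) s3
    have : ∀ w, G w * (β w + seg ε a b w) = G w * β w + G w * seg ε a b w := fun w => by ring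
    simp only [this]
    rw [integral_add i1 i2, b5, int_seg hε hεR hG hP ha' hb']

lemma Rch.unique {U : Set ℂ} (hU : IsOpen U) {G : ℂ → ℂ} (hGU : ContinuousOn G U)
    (hT : ∀ φ, Tst U φ → ∫ z, G z * gr φ z = 0) {z0 z c c' : ℂ} (h : Rch U G z0 z c)
    (h' : Rch U G z0 z c') : c = c' := by
  obtain ⟨ε0, hε0, H⟩ := h
  obtain ⟨ε1, hε1, H'⟩ := h'
  set ε := min ε0 ε1 / 2 with hε
  have hm : 0 < min ε0 ε1 := lt_min hε0 hε1
  have he : 0 < ε := by rw [hε]; positivity
  have hl : ε < min ε0 ε1 := by rw [hε]; linarith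
  obtain ⟨β, b1, b2, b3, b4, b5⟩ := H ε he (hl.trans_le (min_le_left _ _))
  obtain ⟨β', d1, d2, d3, d4, d5⟩ := H' ε he (hl.trans_le (min_le_right _ _))
  obtain ⟨φ, hφ, hφ2⟩ := exact_field (U := U) (β := fun w => β w - β' w) (b1.sub d1) (by
    exact b2.sub d2) (by
    exact (tsupport_sub β β').trans (union_subset b3 d3)) (fun w => by
    rw [dv_sub b1 d1, b4, d4, sub_self])
  have h1 := hT φ hφ
  simp only [hφ2] at h1
  have i1 := integrable_mul hU hGU b1.continuous b2 b3
  have i2 := integrable_mul hU hGU d1.continuous d2 d3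
  have : ∀ w, G w * (I * (β w - β' w)) = I * (G w * β w - G w * β' w) := fun w => by ring
  simp only [this] at h1
  rw [integral_const_mul, integral_sub i1 i2, b5, d5] at h1
  have h2 : c - c' = 0 := by
    rcases mul_eq_zero.1 h1 with h | h
    · exact absurd h I_ne_zero
    · exact h
  exact sub_eq_zero.1 h2

/-- a holomorphic function on a ball has a primitive -/
lemma exists_primitive_ball {G : ℂ → ℂ} {q : ℂ} {R : ℝ} (hG : DifferentiableOn ℂ G (ball q R)) :
    ∃ P : ℂ → ℂ, ∀ z ∈ ball q R, HasDerivAt P (G z) z := by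
  obtain ⟨P, hP⟩ := (convex_ball q R).exists_forall_hasDerivWithinAt hG
  exact ⟨P, fun z hz => (hP z hz).hasDerivAt (isOpen_ball.mem_nhds hz)⟩

/-- **primitives from test functions**, connected case -/
theorem exists_primitive_conn {U : Set ℂ} (hU : IsOpen U) (hc : IsPreconnected U) {G : ℂ → ℂ}
    (hG : DifferentiableOn ℂ G U) (hT : ∀ φ, Tst U φ → ∫ z, G z * gr φ z = 0) :
    ∃ p : ℂ → ℂ, ∀ z ∈ U, HasDerivAt p (G z) z := by
  rcases U.eq_empty_or_nonempty with rfl | ⟨z0, hz0⟩
  · exact ⟨fun _ => 0, fun z hz => absurd hz (notMem_empty z)⟩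
  have hGc := hG.continuousOn
  -- existence
  have hex : ∀ z ∈ U, ∃ c, Rch U G z0 z c := by
    intro z hz
    have hind := hc.induction₂' (fun a b => (∃ c, Rch U G z0 a c) → ∃ c, Rch U G z0 b c) ?_ ?_
      hz0 hz
    · exact hind ⟨0, Rch.refl U G z0⟩
    · intro a ha
      obtain ⟨R, hR, hB⟩ := Metric.isOpen_iff.1 hU a ha
      obtain ⟨P, hP⟩ := exists_primitive_ball (hG.mono hB)
      have : ball a R ∈ 𝓝[U] a := mem_nhdsWithin_of_mem_nhds (ball_mem_nhds a hR)
      filter_upwards [this] with b hb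
      constructor
      · rintro ⟨c, h⟩
        exact ⟨_, h.step hU hGc hB (hG.mono hB) hP (mem_ball_self hR) hb⟩
      · rintro ⟨c, h⟩
        exact ⟨_, h.step hU hGc hB (hG.mono hB) hP hb (mem_ball_self hR)⟩
    · intro a b c _ _ _ h1 h2 h3
      exact h2 (h1 h3)
  choose! p hp using hex
  refine ⟨p, fun z hz => ?_⟩
  obtain ⟨R, hR, hB⟩ := Metric.isOpen_iff.1 hU z hz
  obtain ⟨P, hP⟩ := exists_primitive_ball (hG.mono hB)
  have h1 : p =ᶠ[𝓝 z] fun w => p z + (P w - P z) := by
    filter_upwards [ball_mem_nhds z hR] with w hw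
    exact Rch.unique hU hGc hT (hp w (hB hw))
      ((hp z hz).step hU hGc hB (hG.mono hB) hP (mem_ball_self hR) hw)
  have h2 : HasDerivAt (fun w => p z + (P w - P z)) (G z) z :=
    ((hP z (mem_ball_self hR)).sub_const _).const_add _
  exact h2.congr_of_eventuallyEq h1

lemma Tst.mono {U V : Set ℂ} (h : U ⊆ V) {φ : ℂ → ℝ} (hφ : Tst U φ) : Tst V φ :=
  ⟨hφ.sm, hφ.cpt, hφ.sub.trans h⟩

/-- **primitives from test functions** -/
theorem exists_primitive {U : Set ℂ} (hU : IsOpen U) {G : ℂ → ℂ}
    (hG : DifferentiableOn ℂ G U) (hT : ∀ φ, Tst U φ → ∫ z, G z * gr φ z = 0) :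
    ∃ p : ℂ → ℂ, ∀ z ∈ U, HasDerivAt p (G z) z := by
  have h1 : ∀ C : Set ℂ, ∃ p : ℂ → ℂ, (IsOpen C → IsPreconnected C → C ⊆ U →
      ∀ z ∈ C, HasDerivAt p (G z) z) := by
    intro C
    by_cases h : IsOpen C ∧ IsPreconnected C ∧ C ⊆ U
    · obtain ⟨p, hp⟩ := exists_primitive_conn h.1 h.2.1 (hG.mono h.2.2)
        (fun φ hφ => hT φ (hφ.mono h.2.2))
      exact ⟨p, fun _ _ _ => hp⟩
    · exact ⟨fun _ => 0, fun a b c => absurd ⟨a, b, c⟩ h⟩
  choose p hp using h1
  refine ⟨fun z => p (connectedComponentIn U z) z, fun z hz => ?_⟩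
  have ho : IsOpen (connectedComponentIn U z) := hU.connectedComponentIn
  have hm : z ∈ connectedComponentIn U z := mem_connectedComponentIn hz
  refine (hp _ ho isPreconnected_connectedComponentIn (connectedComponentIn_subset U z) z
    hm).congr_of_eventuallyEq ?_
  filter_upwards [ho.mem_nhds hm] with w hw
  rw [connectedComponentIn_eq hw]

end

end Crest.Agent.R105.Dir_508
end

-- ▼ part R105/Dir3_508

/-!
# Row 105, LIB-DIR 3: Weyl's lemma and primitives for `L2` limits of gradients (helper508)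

* `exists_primitive_weak` : weak form (Weyl + periods)
* `wdg_tst` : for `u` locally Lipschitz on `U`, `∫ wdg u φ = 0` for all test functions
* `el_form` : an `L2` limit of gradients, orthogonal to all test gradients, is `conj p'`
* `el_limit` : moreover the uniform limit of the functions is `Re p`
-/

set_option autoImplicit false

open MeasureTheory Set Filter Topology Complex Metric
open scoped ContDiff ComplexConjugate ENNReal NNReal Manifold

namespace Crest.Agent.R105.Dir_508

open Crest.Agent.R105.Tra_937 Crest.Agent.R165.Cl1x722 Crest.Agent.R165.Cl3x722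
  Crest.Agent.R165.Cl4x722

noncomputable section

lemma gr_eq (u : ℂ → ℝ) (z : ℂ) : gr u z = (gx u z : ℂ) + (gy u z : ℂ) * I := rfl

lemma gr_re (u : ℂ → ℝ) (z : ℂ) : (gr u z).re = gx u z := by
  simp [gr_eq]

lemma gr_im (u : ℂ → ℝ) (z : ℂ) : (gr u z).im = gy u z := by
  simp [gr_eq]

lemma conj_gr_mul (u w : ℂ → ℝ) (z : ℂ) :
    conj (gr u z) * gr w z = (dot u w z : ℂ) + (wdg u w z : ℂ) * I := by
  apply Complex.ext
  · simp [gr_eq, dot]
  · simp [gr_eq, wdg]; ring


lemma gr_of_notMem {u : ℂ → ℝ} {z : ℂ} (hz : z ∉ tsupport (fderiv ℝ u)) : gr u z = 0 := by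
  unfold gr
  rw [image_eq_zero_of_notMem_tsupport hz]
  simp

lemma continuous_gr {φ : ℂ → ℝ} (h : ContDiff ℝ 1 φ) : Continuous (gr φ) := by
  unfold gr
  have h1 := h.continuous_fderiv one_ne_zero
  fun_prop

lemma tsupport_gr (φ : ℂ → ℝ) : tsupport (gr φ) ⊆ tsupport (fderiv ℝ φ) := by
  refine closure_minimal ?_ (isClosed_tsupport _)
  intro z hz
  by_contra h
  exact hz (gr_of_notMem h)

lemma Tst.cpt_gr {U : Set ℂ} {φ : ℂ → ℝ} (h : Tst U φ) : HasCompactSupport (gr φ) :=
  (h.cpt.fderiv ℝ).of_isClosed_subset (isClosed_tsupport _) (tsupport_gr φ)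

lemma Tst.int_gr {U : Set ℂ} {φ : ℂ → ℝ} (h : Tst U φ) {Y : ℂ → ℂ}
    (hY : LocallyIntegrableOn Y U) : Integrable fun z => Y z * gr φ z :=
  integrable_mul_test hY (continuous_gr (h.sm.of_le (by exact_mod_cast le_top))) h.cpt_gr
    ((tsupport_gr φ).trans h.sub)

/-- a smooth function with compact support in `U` is a test function -/
lemma Tst.of_supp {U : Set ℂ} {φ : ℂ → ℝ} (h1 : ContDiff ℝ ∞ φ) (h2 : HasCompactSupport φ)
    (h3 : tsupport φ ⊆ U) : Tst U φ :=
  ⟨h1, h2, (tsupport_fderiv_subset ℝ).trans h3⟩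

lemma setInt_eq {U : Set ℂ} {φ : ℂ → ℝ} (h : tsupport (fderiv ℝ φ) ⊆ U) (Y : ℂ → ℂ) :
    ∫ z in U, Y z * gr φ z = ∫ z, Y z * gr φ z := by
  refine setIntegral_eq_integral_of_forall_compl_eq_zero fun z hz => ?_
  rw [gr_of_notMem fun h' => hz (h h'), mul_zero]

/-- weak holomorphy from real test functions -/
lemma wdbar_of_tst {U : Set ℂ} {Y : ℂ → ℂ} (hY : LocallyIntegrableOn Y U)
    (h : ∀ φ : ℂ → ℝ, ContDiff ℝ ∞ φ → HasCompactSupport φ → tsupport φ ⊆ U →
      ∫ z, Y z * gr φ z = 0) : WDbar U Y 0 := by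
  intro χ h1 h2 h3
  set a : ℂ → ℝ := fun z => (χ z).re with ha
  set b : ℂ → ℝ := fun z => (χ z).im with hb
  have ha1 : ContDiff ℝ ∞ a := reCLM.contDiff.comp h1
  have hb1 : ContDiff ℝ ∞ b := imCLM.contDiff.comp h1
  have sa : tsupport a ⊆ tsupport χ := closure_mono fun z hz => by
    intro h'
    exact hz (by simp [ha, h'])
  have sb : tsupport b ⊆ tsupport χ := closure_mono fun z hz => by
    intro h'
    exact hz (by simp [hb, h'])
  have ca : HasCompactSupport a := h2.of_isClosed_subset (isClosed_tsupport _) sa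
  have cb : HasCompactSupport b := h2.of_isClosed_subset (isClosed_tsupport _) sb
  have e1 : ∀ z, dbar χ z = (gr a z + I * gr b z) / 2 := by
    intro z
    have da : DifferentiableAt ℝ a z := ha1.differentiable (by simp) z
    have db : DifferentiableAt ℝ b z := hb1.differentiable (by simp) z
    have h5 : HasFDerivAt χ (ofRealCLM.comp (fderiv ℝ a z) +
        I • (ofRealCLM.comp (fderiv ℝ b z))) z := by
      have h6 : HasFDerivAt (fun z => (a z : ℂ) + I * (b z : ℂ)) (ofRealCLM.comp (fderiv ℝ a z) +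
          I • (ofRealCLM.comp (fderiv ℝ b z))) z :=
        (ofRealCLM.hasFDerivAt.comp z da.hasFDerivAt).add
          ((ofRealCLM.hasFDerivAt.comp z db.hasFDerivAt).const_mul I)
      have h7 : χ = fun z => (a z : ℂ) + I * (b z : ℂ) := by
        funext z
        rw [mul_comm I]
        exact (Complex.re_add_im (χ z)).symm
      rw [h7]
      exact h6
    unfold dbar
    rw [h5.fderiv]
    simp only [_root_.add_apply, _root_.smul_apply, ContinuousLinearMap.comp_apply,
      ofRealCLM_apply, smul_eq_mul, gr]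
    ring
  have i1 := (Tst.of_supp ha1 ca (sa.trans h3)).int_gr hY
  have i2 := (Tst.of_supp hb1 cb (sb.trans h3)).int_gr hY
  have e2 : ∀ z, Y z * dbar χ z + (0 : ℂ → ℂ) z * χ z =
      (1 / 2 : ℂ) * (Y z * gr a z) + (I / 2) * (Y z * gr b z) := by
    intro z
    rw [e1]
    simp only [Pi.zero_apply, zero_mul, add_zero]
    ring
  simp only [e2]
  rw [integral_add (i1.const_mul _) (i2.const_mul _), integral_const_mul, integral_const_mul,
    h a ha1 ca (sa.trans h3), h b hb1 cb (sb.trans h3)]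
  simp

/-- **weak form: Weyl and periods** -/
theorem exists_primitive_weak {U : Set ℂ} (hU : IsOpen U) {Y : ℂ → ℂ}
    (hY : LocallyIntegrableOn Y U) (h : ∀ φ, Tst U φ → ∫ z, Y z * gr φ z = 0) :
    ∃ p : ℂ → ℂ, DifferentiableOn ℂ p U ∧ ∀ᵐ z : ℂ, z ∈ U → Y z = deriv p z := by
  obtain ⟨v, hv, hYv⟩ := Crest.Agent.R165.Cl4x722.weyl hU hY (wdbar_of_tst hY fun φ h1 h2 h3 =>
    h φ (Tst.of_supp h1 h2 h3))
  obtain ⟨p, hp⟩ := exists_primitive hU hv (fun φ hφ => by
    rw [← h φ hφ]
    refine integral_congr_ae ?_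
    filter_upwards [hYv] with z hz
    by_cases hzU : z ∈ U
    · simp only [hz hzU]
    · simp only [gr_of_notMem fun h' => hzU (hφ.sub h'), mul_zero])
  refine ⟨p, fun z hz => (hp z hz).differentiableAt.differentiableWithinAt, ?_⟩
  filter_upwards [hYv] with z hz hzU
  rw [hz hzU, (hp z hzU).deriv]

/-! ### locally Lipschitz functions -/

theorem exists_cutoff {K W : Set ℂ} (hK : IsCompact K) (hW : IsOpen W) (hKW : K ⊆ W) :
    ∃ χ : ℂ → ℝ, ContDiff ℝ ∞ χ ∧ HasCompactSupport χ ∧ tsupport χ ⊆ W ∧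
      (∀ᶠ y in 𝓝ˢ K, χ y = 1) ∧ ∀ y, χ y ∈ Icc (0 : ℝ) 1 := by
  obtain ⟨V, hVo, hKV, hVΩ, hVc⟩ := exists_open_between_and_isCompact_closure hK hW hKW
  obtain ⟨f, hf1, hf0, hf⟩ := exists_contMDiffMap_one_nhds_of_subset_interior
    (modelWithCornersSelf ℝ ℂ) (n := (⊤ : ℕ∞)) hK.isClosed (t := V)
    (hKV.trans (interior_eq_iff_isOpen.mpr hVo).ge)
  have hsm : ContDiff ℝ ∞ (f : ℂ → ℝ) := f.contMDiff.contDiff
  have hts : tsupport (f : ℂ → ℝ) ⊆ closure V := by
    apply closure_mono
    intro x hx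
    by_contra h
    exact hx (hf0 x h)
  have hcs : HasCompactSupport (f : ℂ → ℝ) := hVc.of_isClosed_subset isClosed_closure hts
  exact ⟨f, hsm, hcs, hts.trans hVΩ, hf1, hf⟩

/-- product of a locally Lipschitz function with a cut-off is Lipschitz -/
lemma lipschitz_mul {U : Set ℂ} {u χ : ℂ → ℝ} (hu : LocallyLipschitzOn U u)
    (h1 : ContDiff ℝ ∞ χ) (h2 : HasCompactSupport χ) (h3 : tsupport χ ⊆ U) :
    ∃ C, LipschitzWith C fun z => χ z * u z := by
  -- bounds on the support
  have hk := h2.isCompact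
  set K := tsupport χ with hKdef
  obtain ⟨L, hL⟩ := (hu.mono h3).exists_lipschitzOnWith_of_compact hk
  obtain ⟨M, hM⟩ := hk.exists_bound_of_continuousOn (hu.continuousOn.mono h3)
  obtain ⟨C1, hC1⟩ : ∃ C1, LipschitzWith C1 χ :=
    (h1.of_le (by exact_mod_cast le_top) : ContDiff ℝ 1 χ).lipschitzWith_of_hasCompactSupport h2
      one_ne_zero
  obtain ⟨B, hB⟩ := h1.continuous.bounded_above_of_compact_support h2
  set M' := max M 0 with hM'
  set B' := max B 0 with hB'
  have key : ∀ z ∈ K, ∀ w, |χ z * u z - χ w * u w| ≤ (C1 * M' + B' * L) * dist z w := by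
    intro z hz w
    by_cases hw : w ∈ K
    · have e : χ z * u z - χ w * u w = (χ z - χ w) * u z + χ w * (u z - u w) := by ring
      rw [e]
      refine (abs_add_le _ _).trans ?_
      rw [abs_mul, abs_mul]
      have a1 : |χ z - χ w| ≤ C1 * dist z w := by
        have := hC1.dist_le_mul z w
        rwa [Real.dist_eq] at this
      have a2 : |u z| ≤ M' := (hM z hz).trans (le_max_left _ _)
      have a3 : |χ w| ≤ B' := (hB w).trans (le_max_left _ _)
      have a4 : |u z - u w| ≤ L * dist z w := by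
        have := hL.dist_le_mul z hz w hw
        rwa [Real.dist_eq] at this
      have d0 : 0 ≤ dist z w := dist_nonneg
      have b1 : |χ z - χ w| * |u z| ≤ C1 * dist z w * M' :=
        mul_le_mul a1 a2 (abs_nonneg _) (by positivity)
      have b2 : |χ w| * |u z - u w| ≤ B' * (L * dist z w) :=
        mul_le_mul a3 a4 (abs_nonneg _) (le_max_right _ _)
      calc _ ≤ C1 * dist z w * M' + B' * (L * dist z w) := add_le_add b1 b2
        _ = _ := by ring
    · have hw0 : χ w = 0 := image_eq_zero_of_notMem_tsupport hw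
      rw [hw0, zero_mul, sub_zero, abs_mul]
      have a1 : |χ z| ≤ C1 * dist z w := by
        have := hC1.dist_le_mul z w
        rwa [Real.dist_eq, hw0, sub_zero] at this
      have a2 : |u z| ≤ M' := (hM z hz).trans (le_max_left _ _)
      have d0 : 0 ≤ dist z w := dist_nonneg
      have b1 : |χ z| * |u z| ≤ C1 * dist z w * M' :=
        mul_le_mul a1 a2 (abs_nonneg _) (by positivity)
      have b2 : 0 ≤ B' * L * dist z w := by
        have : 0 ≤ B' := le_max_right _ _
        positivity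
      calc _ ≤ C1 * dist z w * M' := b1
        _ ≤ _ := by nlinarith
  refine ⟨⟨C1 * M' + B' * L, by
    have : 0 ≤ B' := le_max_right _ _
    have : 0 ≤ M' := le_max_right _ _
    positivity⟩, LipschitzWith.of_dist_le_mul fun z w => ?_⟩
  rw [Real.dist_eq]
  by_cases hz : z ∈ K
  · exact key z hz w
  · by_cases hw : w ∈ K
    · have := key w hw z
      rw [abs_sub_comm, dist_comm]
      exact this
    · rw [image_eq_zero_of_notMem_tsupport hz, image_eq_zero_of_notMem_tsupport hw]
      simp only [zero_mul, sub_zero, abs_zero]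
      have : 0 ≤ B' := le_max_right _ _
      have : 0 ≤ M' := le_max_right _ _
      change 0 ≤ (C1 * M' + B' * L) * dist z w
      positivity

/-- integration by parts for a Lipschitz function against a smooth one -/
lemma int_fderiv_mul {f : ℂ → ℝ} {C : ℝ≥0} (hf : LipschitzWith C f) {g : ℂ → ℝ}
    (h1 : ContDiff ℝ ∞ g) (h2 : HasCompactSupport g) (v : ℂ) :
    ∫ z, fderiv ℝ f z v * g z = - ∫ z, fderiv ℝ g z v * f z := by
  obtain ⟨D, hD⟩ : ∃ D, LipschitzWith D g :=
    (h1.of_le (by exact_mod_cast le_top) : ContDiff ℝ 1 g).lipschitzWith_of_hasCompactSupport h2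
      one_ne_zero
  have h3 := LipschitzWith.integral_lineDeriv_mul_eq (μ := (volume : Measure ℂ)) hf hD h2 v
  have h4 : ∫ z, fderiv ℝ f z v * g z = ∫ z, lineDeriv ℝ f z v * g z := by
    refine integral_congr_ae ?_
    filter_upwards [hf.ae_differentiableAt (μ := (volume : Measure ℂ))] with z hz
    rw [hz.lineDeriv_eq_fderiv]
  rw [h4, h3, ← integral_neg]
  refine integral_congr_ae (ae_of_all _ fun z => ?_)
  simp only
  rw [(h1.differentiable (by simp) z).lineDeriv_eq_fderiv, map_neg, neg_mul]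

/-- **closedness**: `∫ wdg u φ = 0` -/
theorem wdg_tst {U : Set ℂ} (hU : IsOpen U) {u : ℂ → ℝ} (hu : LocallyLipschitzOn U u)
    {φ : ℂ → ℝ} (hφ : Tst U φ) : ∫ z, wdg u φ z = 0 := by
  obtain ⟨χ, c1, c2, c3, c4, -⟩ := exists_cutoff ((hφ.cpt.fderiv ℝ).isCompact) hU hφ.sub
  obtain ⟨C, hC⟩ := lipschitz_mul hu c1 c2 c3
  set f : ℂ → ℝ := fun z => χ z * u z with hf
  have e1 : ∀ z, wdg u φ z = fderiv ℝ f z 1 * fderiv ℝ φ z I - fderiv ℝ f z I * fderiv ℝ φ z 1 := by
    intro z
    by_cases hz : z ∈ tsupport (fderiv ℝ φ)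
    · have h5 : f =ᶠ[𝓝 z] u := by
        filter_upwards [(eventually_nhdsSet_iff_forall.1 c4) z hz] with w hw
        rw [hf]; simp only [hw, one_mul]
      unfold wdg gx gy
      rw [h5.fderiv_eq]
    · unfold wdg gx gy
      rw [image_eq_zero_of_notMem_tsupport hz]
      simp
  have hs1 : ∀ v : ℂ, ContDiff ℝ ∞ (fun z => fderiv ℝ φ z v) := fun v =>
    (hφ.sm.fderiv_right (m := ∞) (by simp)).clm_apply contDiff_const
  have hs2 : ∀ v : ℂ, HasCompactSupport (fun z => fderiv ℝ φ z v) := fun v =>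
    hφ.cpt.fderiv_apply ℝ v
  have hfi : ∀ v v' : ℂ, Integrable fun z => fderiv ℝ f z v * fderiv ℝ φ z v' := by
    intro v v'
    have hg : Integrable fun z => fderiv ℝ φ z v' :=
      (hs1 v').continuous.integrable_of_hasCompactSupport (hs2 v')
    refine Integrable.bdd_mul (c := C * ‖v‖) hg ?_ (ae_of_all _ fun z => ?_)
    · exact (measurable_fderiv_apply_const ℝ f v).aestronglyMeasurable
    · exact ((fderiv ℝ f z).le_opNorm v).trans (mul_le_mul_of_nonneg_right
        (norm_fderiv_le_of_lipschitz ℝ hC) (norm_nonneg _))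
  simp only [e1]
  rw [integral_sub (hfi 1 I) (hfi I 1), int_fderiv_mul hC (hs1 I) (hs2 I) 1,
    int_fderiv_mul hC (hs1 1) (hs2 1) I, sub_eq_zero, neg_inj]
  refine integral_congr_ae (ae_of_all _ fun z => ?_)
  simp only
  congr 1
  have hd : DifferentiableAt ℝ (fderiv ℝ φ) z :=
    (hφ.sm.fderiv_right (m := ∞) (by simp)).differentiable (by simp) z
  have a1 : ∀ v v' : ℂ, fderiv ℝ (fun z => fderiv ℝ φ z v) z v' =
      fderiv ℝ (fderiv ℝ φ) z v' v := by
    intro v v'
    have := (hd.hasFDerivAt.clm_apply (hasFDerivAt_const v z)).fderiv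
    rw [this]
    simp
  rw [a1, a1]
  have hsym : IsSymmSndFDerivAt ℝ φ z :=
    ((hφ.sm.of_le (m := 2) (WithTop.coe_le_coe.2 le_top)).contDiffAt (x := z)).isSymmSndFDerivAt
      (by simp)
  exact hsym 1 I

end

end Crest.Agent.R105.Dir_508
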