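import Mathlib
import Crest.Agent.R105.Tc1_808
import Crest.Agent.R105.Thin1_12
import Crest.Agent.R105.Ni0_459
import Crest.Agent.R105.Grd3_782
import Crest.Agent.R105.Uni3_659
import Crest.Agent.R105.Elf3_600
import Crest.Agent.R105.Uw3_913

-- ▼ part R105/Att1_790
section

/-!
# Row 105 (S0138, T-frame): core of (ATT) of helper459 #9956

`ZZ am ap bm bp F` = multivalued image of `F` under the pair of interval valued maps `[am, ap]`,
`[bm, bp]`.  `att_core` : a ghost of `b` over `a` in `N` (value of `b` at `z0` much larger than the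
values of `a` near the end), `b` switched, level sets of `a` reach the frontier of `N`, and
`|a - b| < h / 5` on the frontier, force `4/5 h² ≤ |Z_F(a,b)|`, `F = {z ∈ N | β + h ≤ ap z}`.
-/

set_option autoImplicit false

open Set Filter Metric Topology MeasureTheory
open scoped ENNReal

namespace Crest.Agent.R105.Att1_790

/-- multivalued image of `F` -/
def ZZ {X : Type*} (am ap bm bp : X → ℝ) (F : Set X) : Set (ℝ × ℝ) :=
  {p | ∃ z ∈ F, (am z ≤ p.1 ∧ p.1 ≤ ap z) ∧ bm z ≤ p.2 ∧ p.2 ≤ bp z}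

section top

variable {X : Type*} [TopologicalSpace X]

/-- a preconnected set on which an interval valued usc map takes values below and above `s` meets
the level `s`. -/
theorem exists_level {am ap : X → ℝ} (hle : ∀ z, am z ≤ ap z) (ham : LowerSemicontinuous am)
    (hap : UpperSemicontinuous ap) {C : Set X} (hC : IsPreconnected C) {s : ℝ} {p q : X}
    (hp : p ∈ C) (hq : q ∈ C) (hps : am p ≤ s) (hqs : s ≤ ap q) :
    ∃ z ∈ C, am z ≤ s ∧ s ≤ ap z := by
  by_contra hne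
  push Not at hne
  have h1 : IsOpen {z | s < am z} := ham.isOpen_preimage s
  have h2 : IsOpen {z | ap z < s} := hap.isOpen_preimage s
  have hcov : C ⊆ {z | s < am z} ∪ {z | ap z < s} := by
    intro z hz
    by_cases h : am z ≤ s
    · exact Or.inr (hne z hz h)
    · exact Or.inl (not_le.1 h)
  have hp' : p ∈ {z | ap z < s} := hne p hp hps
  have hq' : q ∈ {z | s < am z} := by
    by_contra h
    exact absurd (hne q hq (not_lt.1 h)) (not_lt.2 hqs)
  obtain ⟨w, -, hw1, hw2⟩ := hC _ _ h1 h2 hcov ⟨q, hq, hq'⟩ ⟨p, hp, hp'⟩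
  exact absurd (hw1.trans_le (hle w)) (not_lt.2 (le_of_lt hw2))

variable {am ap bm bp : X → ℝ}

/-- the crossing point of a superlevel component of `b` with a level set of `a` inside `N` -/
theorem exists_cross (hle : ∀ z, am z ≤ ap z) (ham : LowerSemicontinuous am)
    (hap : UpperSemicontinuous ap) (hbb : ∀ z, bm z ≤ bp z) {N : Set X} (hN : IsClosed N)
    {h t : ℝ} (hh : 0 < h)
    (hfa : ∀ z ∈ frontier N, am z = ap z) (hfd : ∀ z ∈ frontier N, |bp z - ap z| < h / 5)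
    {D : Set X} (hD : IsPreconnected D) (hDb : ∀ z ∈ D, t + h < bm z) {z0 w : X} (hz0 : z0 ∈ D)
    (hz0N : z0 ∈ N) (hz0a : ap z0 < t) (hw : w ∈ D) (hwN : w ∉ interior N) :
    ∃ q ∈ D, q ∈ N ∧ am q ≤ t ∧ t ≤ ap q := by
  by_contra hne
  push Not at hne
  have hfr : ∀ z ∈ D, z ∈ frontier N → t < ap z := by
    intro z hz hzf
    have h1 := abs_lt.1 (hfd z hzf)
    have h2 := hDb z hz
    have h3 := hbb z
    linarith [h1.2]
  have hO1 : IsOpen (interior N ∩ {z | ap z < t}) := isOpen_interior.inter (hap.isOpen_preimage t)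
  have hO2 : IsOpen ({z | t < am z} ∪ Nᶜ) := (ham.isOpen_preimage t).union hN.isOpen_compl
  have hfrm : ∀ z, z ∈ N → z ∉ interior N → z ∈ frontier N := fun z h1 h2 =>
    ⟨subset_closure h1, h2⟩
  have hcov : D ⊆ (interior N ∩ {z | ap z < t}) ∪ ({z | t < am z} ∪ Nᶜ) := by
    intro z hz
    by_cases hzN : z ∈ N
    · by_cases h1 : am z ≤ t
      · have h2 := hne z hz hzN h1
        refine Or.inl ⟨?_, h2⟩
        by_contra h3
        exact absurd (hfr z hz (hfrm z hzN h3)) (not_lt.2 h2.le)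
      · exact Or.inr (Or.inl (not_le.1 h1))
    · exact Or.inr (Or.inr hzN)
  have hz0i : z0 ∈ interior N := by
    by_contra h3
    exact absurd (hfr z0 hz0 (hfrm z0 hz0N h3)) (not_lt.2 hz0a.le)
  have hw2 : w ∈ {z | t < am z} ∪ Nᶜ := by
    by_cases hwN' : w ∈ N
    · have h1 := hfrm w hwN' hwN
      left
      show t < am w
      rw [hfa w h1]
      exact hfr w hw h1
    · exact Or.inr hwN'
  obtain ⟨y, -, ⟨hy1, hy2⟩, hy3⟩ := hD _ _ hO1 hO2 hcov ⟨z0, hz0, hz0i, hz0a⟩ ⟨w, hw, hw2⟩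
  rcases hy3 with hy3 | hy3
  · exact absurd (lt_of_lt_of_le hy3 (hle y)) (not_lt.2 (le_of_lt hy2))
  · exact hy3 (interior_subset hy1)

end top

/-- the sheared square -/
theorem volume_band (c h : ℝ) (hh : 0 < h) :
    volume {p : ℝ × ℝ | (c < p.1 ∧ p.1 < c + h) ∧ p.1 + h / 5 < p.2 ∧ p.2 < p.1 + h} =
      ENNReal.ofReal (4 / 5 * h ^ 2) := by
  have h1 : {p : ℝ × ℝ | (c < p.1 ∧ p.1 < c + h) ∧ p.1 + h / 5 < p.2 ∧ p.2 < p.1 + h} =
      regionBetween (fun t => t + h / 5) (fun t => t + h) (Ioo c (c + h)) := by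
    ext p
    simp only [mem_ofPred_eq, regionBetween, mem_Ioo]
  rw [h1, Measure.volume_eq_prod, volume_regionBetween_eq_lintegral
    (by fun_prop) (by fun_prop) measurableSet_Ioo]
  have h2 : ∀ t : ℝ, ENNReal.ofReal (((fun t => t + h) - fun t => t + h / 5) t) =
      ENNReal.ofReal (4 / 5 * h) := by
    intro t
    congr 1
    simp only [Pi.sub_apply]
    ring
  simp_rw [h2]
  rw [lintegral_const, Measure.restrict_apply_univ, Real.volume_Ioo,
    ← ENNReal.ofReal_mul (by positivity)]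
  congr 1
  ring

/-- **Core of (ATT)** of #9956. -/
theorem att_core {X : Type*} [TopologicalSpace X] {am ap bm bp : X → ℝ}
    (haa : ∀ z, am z ≤ ap z) (hbb : ∀ z, bm z ≤ bp z)
    (ham : LowerSemicontinuous am) (hap : UpperSemicontinuous ap)
    (hbm : LowerSemicontinuous bm) (hbp : UpperSemicontinuous bp)
    {N : Set X} (hN : IsClosed N) {h β : ℝ} (hh : 0 < h)
    (hfa : ∀ z ∈ frontier N, am z = ap z)
    (hfd : ∀ z ∈ frontier N, |bp z - ap z| < h / 5)
    {z0 : X} (hz0 : z0 ∈ N) (ha0 : ap z0 < β + h) (hb0 : β + 3 * h < bm z0)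
    (swb : ∀ t, t < bm z0 → ∃ D, IsPreconnected D ∧ z0 ∈ D ∧ (∀ z ∈ D, t < bm z) ∧
      ∃ w ∈ D, w ∉ interior N)
    (bump : ∀ t, ∀ q ∈ N, am q ≤ t → t ≤ ap q → ∃ C ⊆ N, IsPreconnected C ∧ q ∈ C ∧
      (∀ z ∈ C, am z ≤ t ∧ t ≤ ap z) ∧ ∃ w ∈ C, w ∈ frontier N) :
    ENNReal.ofReal (4 / 5 * h ^ 2) ≤ volume (ZZ am ap bm bp {z ∈ N | β + h ≤ ap z}) := by
  rw [← volume_band (β + h) h hh]
  refine measure_mono ?_
  rintro ⟨t, s⟩ ⟨⟨ht1, ht2⟩, hs1, hs2⟩
  simp only at ht1 ht2 hs1 hs2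
  obtain ⟨D, hD, hz0D, hDb, w, hw, hwN⟩ := swb (t + h) (by linarith)
  obtain ⟨q, hqD, hqN, hq1, hq2⟩ := exists_cross haa ham hap hbb hN hh hfa hfd hD hDb hz0D hz0
    (by linarith) hw hwN
  obtain ⟨C, hCN, hC, hqC, hCL, w', hw', hwf⟩ := bump t q hqN hq1 hq2
  have h1 : t + h < bm q := hDb q hqD
  have h2 : bp w' < t + h / 5 := by
    have h3 := hCL w' hw'
    rw [hfa w' hwf] at h3
    have h4 : ap w' = t := le_antisymm h3.1 h3.2
    have h5 := (abs_lt.1 (hfd w' hwf)).2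
    linarith
  obtain ⟨z, hzC, hz1, hz2⟩ := exists_level hbb hbm hbp hC (s := s) hw' hqC
    ((hbb w').trans (by linarith)) (by linarith [hbb q])
  have h6 := hCL z hzC
  exact ⟨z, ⟨hCN hzC, ht1.le.trans h6.2⟩, h6, hz1, hz2⟩

end Crest.Agent.R105.Att1_790
end

-- ▼ part R105/Att2_790
section

/-!
# Row 105 (S0138, T-frame): limit half of (ATT) of helper459 #9956

`Env Y u um up` : `um ≤ up` lower / upper envelopes of `u`.
`osc_le` : under `small` (areas of the multivalued images of compact sets near `K0`, off `K0`, are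
eventually small) the oscillation of the limit at `K0` is at most the limit of the oscillations.
-/

set_option autoImplicit false

open Set Filter Metric Topology MeasureTheory
open scoped ENNReal

namespace Crest.Agent.R105.Att2_790

open Att1_790 Tc_808

/-- lower and upper envelope -/
structure Env (Y : Set ℂ) (u um up : ℂ → ℝ) : Prop where
  le : ∀ z, um z ≤ up z
  lsc : LowerSemicontinuous um
  usc : UpperSemicontinuous up
  eqm : ∀ z ∉ Y, um z = u z
  eqp : ∀ z ∉ Y, up z = u z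
  cm : ∀ K : Cmp Y, ∀ z ∈ K.1, ∀ w ∈ K.1, um z = um w
  cp : ∀ K : Cmp Y, ∀ z ∈ K.1, ∀ w ∈ K.1, up z = up w

/-- superlevel components of `u` are not contained in small sets (`u` switched) -/
def SwUp (um : ℂ → ℝ) : Prop :=
  ∀ N : Set ℂ, IsCompact N → ∀ t, ∀ z0 ∈ N, t < um z0 →
    ∃ D, IsPreconnected D ∧ z0 ∈ D ∧ (∀ z ∈ D, t < um z) ∧ ∃ w ∈ D, w ∉ interior N

/-- level sets reach the frontier -/
def Bump (um up : ℂ → ℝ) : Prop :=
  ∀ N : Set ℂ, IsCompact N → ∀ t, ∀ q ∈ N, um q ≤ t → t ≤ up q →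
    ∃ C ⊆ N, IsPreconnected C ∧ q ∈ C ∧ (∀ z ∈ C, um z ≤ t ∧ t ≤ up z) ∧ ∃ w ∈ C, w ∈ frontier N

/-- **upper half of (ATT)** -/
theorem upper {Y : Set ℂ} {a am ap : ℂ → ℝ} (ha : Env Y a am ap)
    {b bm bp : ℕ → ℂ → ℝ} (hb : ∀ n, Env Y (b n) (bm n) (bp n)) {x : ℂ → ℝ}
    (hbump : Bump am ap) (hsw : ∀ n, SwUp (bm n))
    (hconv : ∀ A, IsCompact A → A ⊆ Yᶜ → TendstoUniformlyOn b x atTop A)
    {h : ℝ} (hh : 0 < h) (K0 : Cmp Y) {β : ℝ} (hβ : ∀ z ∈ K0.1, ap z = β)
    {N : Set ℂ} (hN : IsOpen N) (hNc : IsCompact (closure N)) (hKN : K0.1 ⊆ N)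
    (hNY : Disjoint (frontier N) Y)
    (hax : ∀ z ∈ frontier N, |x z - a z| < h / 10)
    (hsmall : ∀ᶠ n in atTop, ∀ F, IsCompact F → F ⊆ closure N → Disjoint F K0.1 →
      volume (ZZ am ap (bm n) (bp n) F) ≤ ENNReal.ofReal (h ^ 2 / 2)) :
    ∃ O, IsOpen O ∧ K0.1 ⊆ O ∧ ∀ z ∈ O, z ∉ Y → x z ≤ β + 4 * h := by
  refine ⟨N ∩ {z | ap z < β + h}, hN.inter (ha.usc.isOpen_preimage _),
    fun z hz => ⟨hKN hz, by show ap z < β + h; rw [hβ z hz]; linarith⟩, ?_⟩
  rintro z0 ⟨hz0N, hz0a⟩ hz0Y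
  by_contra hcon
  push Not at hcon
  have hfrY : frontier (closure N) ⊆ Yᶜ := by
    intro z hz
    exact Set.disjoint_left.1 hNY (frontier_closure_subset hz)
  have hfrc : IsCompact (frontier (closure N)) :=
    hNc.of_isClosed_subset isClosed_frontier (by
      have := frontier_subset_closure (s := closure N); rwa [closure_closure] at this)
  have e1 : ∀ᶠ n in atTop, ∀ z ∈ frontier (closure N), |x z - b n z| < h / 10 := by
    have := hconv _ hfrc hfrY
    rw [Metric.tendstoUniformlyOn_iff] at this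
    filter_upwards [this (h / 10) (by positivity)] with n hn z hz
    have := hn z hz
    rwa [Real.dist_eq] at this
  have e2 : ∀ᶠ n in atTop, |x z0 - b n z0| < h := by
    have := hconv {z0} isCompact_singleton (by simpa using hz0Y)
    rw [Metric.tendstoUniformlyOn_iff] at this
    filter_upwards [this h hh] with n hn
    have := hn z0 rfl
    rwa [Real.dist_eq] at this
  obtain ⟨n, h1, h2, h3⟩ := (e1.and (e2.and hsmall)).exists
  have hcore := att_core (am := am) (ap := ap) (bm := bm n) (bp := bp n) ha.le (hb n).le ha.lsc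
    ha.usc (hb n).lsc (hb n).usc (N := closure N) isClosed_closure (h := h) (β := β) hh
    (fun z hz => by rw [ha.eqm z (hfrY hz), ha.eqp z (hfrY hz)])
    (fun z hz => by
      rw [(hb n).eqp z (hfrY hz), ha.eqp z (hfrY hz)]
      have h4 := hax z (frontier_closure_subset hz)
      have h5 := h1 z hz
      rw [abs_lt] at h4 h5 ⊢
      constructor <;> linarith [h4.1, h4.2, h5.1, h5.2])
    (z0 := z0) (subset_closure hz0N) hz0a
    (by
      rw [(hb n).eqm z0 hz0Y]
      rw [abs_lt] at h2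
      linarith [h2.1, h2.2])
    (fun t ht => hsw n (closure N) hNc t z0 (subset_closure hz0N) ht)
    (fun t q hq hq1 hq2 => hbump (closure N) hNc t q hq hq1 hq2)
  have hFc : IsCompact {z ∈ closure N | β + h ≤ ap z} := by
    refine hNc.of_isClosed_subset ?_ (fun z hz => hz.1)
    exact isClosed_closure.inter (ha.usc.isClosed_preimage _)
  have h4 := h3 _ hFc (fun z hz => hz.1) (by
    rw [Set.disjoint_left]
    rintro z ⟨-, hz⟩ hzK
    rw [hβ z hzK] at hz
    linarith)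
  have h5 := hcore.trans h4
  rw [ENNReal.ofReal_le_ofReal_iff (by positivity)] at h5
  nlinarith [sq_nonneg h, mul_pos hh hh]

/-! ### the lower half, by reflection -/

theorem Env.neg {Y : Set ℂ} {u um up : ℂ → ℝ} (h : Env Y u um up) :
    Env Y (fun z => - u z) (fun z => - up z) (fun z => - um z) where
  le z := neg_le_neg (h.le z)
  lsc := by
    have := h.usc
    exact this.neg
  usc := by
    have := h.lsc
    exact this.neg
  eqm z hz := by rw [h.eqp z hz]
  eqp z hz := by rw [h.eqm z hz]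
  cm K z hz w hw := by rw [h.cp K z hz w hw]
  cp K z hz w hw := by rw [h.cm K z hz w hw]

theorem volume_ZZ_neg {X : Type*} (am ap bm bp : X → ℝ) (F : Set X) :
    volume (ZZ (fun z => - ap z) (fun z => - am z) (fun z => - bp z) (fun z => - bm z) F) =
      volume (ZZ am ap bm bp F) := by
  have h1 : ZZ (fun z => - ap z) (fun z => - am z) (fun z => - bp z) (fun z => - bm z) F =
      Neg.neg ⁻¹' (ZZ am ap bm bp F) := by
    ext p
    simp only [ZZ, mem_ofPred_eq, mem_preimage, Prod.fst_neg, Prod.snd_neg]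
    constructor
    · rintro ⟨z, hz, ⟨h1, h2⟩, h3, h4⟩
      exact ⟨z, hz, ⟨by linarith, by linarith⟩, by linarith, by linarith⟩
    · rintro ⟨z, hz, ⟨h1, h2⟩, h3, h4⟩
      exact ⟨z, hz, ⟨by linarith, by linarith⟩, by linarith, by linarith⟩
  rw [h1]
  exact Measure.measure_preimage_neg volume _

/-- sublevel components of `u` are not contained in small sets (`u` switched) -/
def SwDn (up : ℂ → ℝ) : Prop :=
  ∀ N : Set ℂ, IsCompact N → ∀ t, ∀ z0 ∈ N, up z0 < t →
    ∃ D, IsPreconnected D ∧ z0 ∈ D ∧ (∀ z ∈ D, up z < t) ∧ ∃ w ∈ D, w ∉ interior N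

theorem SwDn.neg {up : ℂ → ℝ} (h : SwDn up) : SwUp (fun z => - up z) := by
  intro N hN t z0 hz0 ht
  obtain ⟨D, hD, h1, h2, h3⟩ := h N hN (-t) z0 hz0 (by linarith)
  exact ⟨D, hD, h1, fun z hz => by linarith [h2 z hz], h3⟩

theorem Bump.neg {um up : ℂ → ℝ} (h : Bump um up) : Bump (fun z => - up z) (fun z => - um z) := by
  intro N hN t q hq h1 h2
  obtain ⟨C, hC, h3, h4, h5, h6⟩ := h N hN (-t) q hq (by linarith) (by linarith)
  exact ⟨C, hC, h3, h4, fun z hz => ⟨by linarith [(h5 z hz).2], by linarith [(h5 z hz).1]⟩, h6⟩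

/-- **lower half of (ATT)** -/
theorem lower {Y : Set ℂ} {a am ap : ℂ → ℝ} (ha : Env Y a am ap)
    {b bm bp : ℕ → ℂ → ℝ} (hb : ∀ n, Env Y (b n) (bm n) (bp n)) {x : ℂ → ℝ}
    (hbump : Bump am ap) (hsw : ∀ n, SwDn (bp n))
    (hconv : ∀ A, IsCompact A → A ⊆ Yᶜ → TendstoUniformlyOn b x atTop A)
    {h : ℝ} (hh : 0 < h) (K0 : Cmp Y) {β : ℝ} (hβ : ∀ z ∈ K0.1, am z = β)
    {N : Set ℂ} (hN : IsOpen N) (hNc : IsCompact (closure N)) (hKN : K0.1 ⊆ N)
    (hNY : Disjoint (frontier N) Y)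
    (hax : ∀ z ∈ frontier N, |x z - a z| < h / 10)
    (hsmall : ∀ᶠ n in atTop, ∀ F, IsCompact F → F ⊆ closure N → Disjoint F K0.1 →
      volume (ZZ am ap (bm n) (bp n) F) ≤ ENNReal.ofReal (h ^ 2 / 2)) :
    ∃ O, IsOpen O ∧ K0.1 ⊆ O ∧ ∀ z ∈ O, z ∉ Y → β - 4 * h ≤ x z := by
  have hconv' : ∀ A, IsCompact A → A ⊆ Yᶜ →
      TendstoUniformlyOn (fun n z => - b n z) (fun z => - x z) atTop A := by
    intro A hA hAY
    have := hconv A hA hAY
    rw [Metric.tendstoUniformlyOn_iff] at this ⊢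
    intro ε hε
    filter_upwards [this ε hε] with n hn z hz
    rw [dist_neg_neg]
    exact hn z hz
  obtain ⟨O, hO, hKO, hx⟩ := upper (b := fun n z => - b n z) ha.neg (fun n => (hb n).neg)
    (x := fun z => - x z) hbump.neg (fun n => (hsw n).neg) hconv' hh K0 (β := -β)
    (fun z hz => by rw [hβ z hz]) hN hNc hKN hNY
    (fun z hz => by
      have h1 : - x z - - a z = - (x z - a z) := by ring
      show |- x z - - a z| < h / 10
      rw [h1, abs_neg]
      exact hax z hz)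
    (by
      filter_upwards [hsmall] with n hn F hF hFN hFK
      rw [volume_ZZ_neg]
      exact hn F hF hFN hFK)
  refine ⟨O, hO, hKO, fun z hz hzY => ?_⟩
  have := hx z hz hzY
  linarith

/-- **(ATT)**: the oscillation of the limit. -/
theorem osc_le {Y : Set ℂ} (hY : IsCompact Y) {u um up : ℕ → ℂ → ℝ}
    (hu : ∀ n, Env Y (u n) (um n) (up n)) {x : ℂ → ℝ} (hbump : ∀ n, Bump (um n) (up n))
    (hup : ∀ n, SwUp (um n)) (hdn : ∀ n, SwDn (up n))
    (hconv : ∀ A, IsCompact A → A ⊆ Yᶜ → TendstoUniformlyOn u x atTop A)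
    (K0 : Cmp Y) {s0 : ℝ}
    (hs : ∀ z ∈ K0.1, Tendsto (fun n => up n z - um n z) atTop (𝓝 s0))
    (hsmall : ∀ ε > 0, ∃ W, IsOpen W ∧ K0.1 ⊆ W ∧ ∀ᶠ m in atTop, ∀ᶠ n in atTop, ∀ F,
      IsCompact F → F ⊆ W → Disjoint F K0.1 →
      volume (ZZ (um m) (up m) (um n) (up n) F) ≤ ENNReal.ofReal ε) :
    osc Y x K0.1 ≤ s0 := by
  obtain ⟨z1, hz1⟩ := K0.nonempty
  have hK0 : connectedComponentIn Y z1 = K0.1 := by
    rw [K0.eq_of_mem hz1]; rfl
  have hs0 : 0 ≤ s0 := ge_of_tendsto' (hs z1 hz1) fun n => by linarith [(hu n).le z1]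
  refine osc_le_of_forall hs0 fun ε hε => ?_
  -- parameters
  set h : ℝ := ε / 9 with hh
  have hh0 : 0 < h := by positivity
  obtain ⟨W, hW, hKW, hWs⟩ := hsmall (h ^ 2 / 2) (by positivity)
  obtain ⟨N, hN, hKN, hNW, hNc, hNY⟩ := Thin_12.thin_nhd hY (K0.subset hz1) hW (by rwa [hK0])
  rw [hK0] at hKN
  have hfrc : IsCompact (frontier N) :=
    hNc.of_isClosed_subset isClosed_frontier frontier_subset_closure
  have hfrY : frontier N ⊆ Yᶜ := fun z hz => Set.disjoint_left.1 hNY hz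
  have e1 : ∀ᶠ m in atTop, ∀ z ∈ frontier N, |x z - u m z| < h / 10 := by
    have := hconv _ hfrc hfrY
    rw [Metric.tendstoUniformlyOn_iff] at this
    filter_upwards [this (h / 10) (by positivity)] with n hn z hz
    have := hn z hz
    rwa [Real.dist_eq] at this
  have e2 : ∀ᶠ m in atTop, up m z1 - um m z1 < s0 + h :=
    (hs z1 hz1).eventually (gt_mem_nhds (by linarith))
  obtain ⟨m, h1, h2, h3⟩ := (e1.and (e2.and hWs)).exists
  have h3' : ∀ᶠ n in atTop, ∀ F, IsCompact F → F ⊆ closure N → Disjoint F K0.1 →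
      volume (ZZ (um m) (up m) (um n) (up n) F) ≤ ENNReal.ofReal (h ^ 2 / 2) := by
    filter_upwards [h3] with n hn F hF hFN hFK
    exact hn F hF (hFN.trans hNW) hFK
  obtain ⟨O1, hO1, hKO1, hx1⟩ := upper (hu m) hu (hbump m) hup hconv hh0 K0
    (β := up m z1) (fun z hz => (hu m).cp K0 z hz z1 hz1) hN hNc hKN hNY h1 h3'
  obtain ⟨O2, hO2, hKO2, hx2⟩ := lower (hu m) hu (hbump m) hdn hconv hh0 K0
    (β := um m z1) (fun z hz => (hu m).cm K0 z hz z1 hz1) hN hNc hKN hNY h1 h3'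
  refine ⟨O1 ∩ O2, hO1.inter hO2, subset_inter hKO1 hKO2, fun z hz hzY w hw hwY => ?_⟩
  have k1 := hx1 z hz.1 hzY
  have k2 := hx2 z hz.2 hzY
  have k3 := hx1 w hw.1 hwY
  have k4 := hx2 w hw.2 hwY
  have k5 : 9 * h = ε := by rw [hh]; ring
  rw [abs_le]
  constructor <;> linarith

end Crest.Agent.R105.Att2_790
end

-- ▼ part R105/Att3_790
section

/-!
# Row 105 (S0138, T-frame): (ATT) of helper459 #9956 over the carrier `Ni0_459`

`att` : the limit of a minimising sequence of switched functions with pairwise null image has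
`osc Y ψ K ≤ s K` at every component.
-/

set_option autoImplicit false

open Set Filter Metric Topology MeasureTheory
open scoped ENNReal

namespace Crest.Agent.R105.Att3_790

open Bd_775 Tc_808 Ni_459 Att1_790 Att2_790 Crest.AnalysisR

theorem ZZ_eq (Y : Set ℂ) (a b : ℂ → ℝ) (F : Set ℂ) :
    ZZ (lo Y a) (up Y a) (lo Y b) (up Y b) F = ZF Y a b F := by
  ext p
  constructor
  · rintro ⟨z, hz, ⟨h1, h2⟩, h3, h4⟩
    exact ⟨z, hz, h1, h2, h3, h4⟩
  · rintro ⟨z, hz, h1, h2, h3, h4⟩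
    exact ⟨z, hz, ⟨h1, h2⟩, h3, h4⟩

/-- the envelopes of `u` -/
theorem env {Y : Set ℂ} (hY : IsExteriorDomain Yᶜ) {u : ℂ → ℝ} (hu : LB u)
    (hc : ∀ z ∉ Y, ContinuousAt u z) : Env Y u (lo Y u) (up Y u) where
  le := lo_le_up hY hu
  lsc := lsc_lo hY hu
  usc := usc_up hY hu
  eqm z hz := lo_of_notMem hY hu hz (hc z hz)
  eqp z hz := up_of_notMem hY hu hz (hc z hz)
  cm K z hz w hw := by
    have h1 := K.eq_of_mem hz
    have h2 : w ∈ connectedComponentIn Y z := by
      have : (K.1 : Set ℂ) = connectedComponentIn Y z := by rw [h1]; rfl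
      rwa [this] at hw
    exact (lo_congr_cc (K.subset hz) h2).symm
  cp K z hz w hw := by
    have h1 := K.eq_of_mem hz
    have h2 : w ∈ connectedComponentIn Y z := by
      have : (K.1 : Set ℂ) = connectedComponentIn Y z := by rw [h1]; rfl
      rwa [this] at hw
    exact (up_congr_cc (K.subset hz) h2).symm

theorem swUp {Y : Set ℂ} {u : ℂ → ℝ} (h : Swd Y u) : SwUp (lo Y u) := by
  intro N hN t z0 hz0 ht
  refine ⟨connectedComponentIn {w | t < lo Y u w} z0, isPreconnected_connectedComponentIn,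
    mem_connectedComponentIn ht,
    fun z hz => (connectedComponentIn_subset {w | t < lo Y u w} z0 hz : z ∈ {w | t < lo Y u w}), ?_⟩
  by_contra hcon
  push Not at hcon
  exact h.gt t z0 ht (hN.isBounded.subset fun w hw => interior_subset (hcon w hw))

theorem swDn {Y : Set ℂ} {u : ℂ → ℝ} (h : Swd Y u) : SwDn (up Y u) := by
  intro N hN t z0 hz0 ht
  refine ⟨connectedComponentIn {w | up Y u w < t} z0, isPreconnected_connectedComponentIn,
    mem_connectedComponentIn ht,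
    fun z hz => (connectedComponentIn_subset {w | up Y u w < t} z0 hz : z ∈ {w | up Y u w < t}), ?_⟩
  by_contra hcon
  push Not at hcon
  exact h.lt t z0 ht (hN.isBounded.subset fun w hw => interior_subset (hcon w hw))

/-- the form T1 of #10219 -/
def BumpT1 (Y : Set ℂ) (a : ℂ → ℝ) : Prop :=
  ∀ t, ∀ N : Set ℂ, IsOpen N → Bornology.IsBounded N → ∀ z ∈ Lv Y a t ∩ N,
    ∃ C ⊆ Lv Y a t ∩ closure N, IsCompact C ∧ IsPreconnected C ∧ z ∈ C ∧ (C ∩ frontier N).Nonempty

theorem bump {Y : Set ℂ} {a : ℂ → ℝ} (h : BumpT1 Y a) : Bump (lo Y a) (up Y a) := by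
  intro N hN t q hq h1 h2
  by_cases hqi : q ∈ interior N
  · obtain ⟨C, hC, -, hCp, hqC, w, hwC, hwf⟩ := h t (interior N) isOpen_interior
      (hN.isBounded.subset interior_subset) q ⟨⟨h1, h2⟩, hqi⟩
    refine ⟨C, fun z hz => ?_, hCp, hqC, fun z hz => (hC hz).1, w, hwC, ?_⟩
    · exact (closure_minimal interior_subset hN.isClosed) (hC hz).2
    · exact frontier_interior_subset hwf
  · refine ⟨{q}, by simpa using hq, isPreconnected_singleton, rfl, ?_, q, rfl,
      subset_closure hq, hqi⟩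
    rintro z rfl
    exact ⟨h1, h2⟩

section energy

variable {Y : Set ℂ}

theorem en_congr {u v : ℂ → ℝ} {z : ℂ} (h : u =ᶠ[𝓝 z] v) : en u z = en v z := by
  unfold en gx gy; rw [h.fderiv_eq]

theorem en_le {u v : ℂ → ℝ} {z : ℂ} (hu : DifferentiableAt ℝ u z) (hv : DifferentiableAt ℝ v z) :
    en u z ≤ 2 * en v z + 2 * en (fun w => u w - v w) z := by
  have h1 : fderiv ℝ (fun w => u w - v w) z = fderiv ℝ u z - fderiv ℝ v z := fderiv_fun_sub hu hv
  unfold en gx gy
  rw [h1]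
  simp only [sub_apply]
  nlinarith [sq_nonneg (2 * fderiv ℝ v z 1 - fderiv ℝ u z 1),
    sq_nonneg (2 * fderiv ℝ v z Complex.I - fderiv ℝ u z Complex.I)]

/-- small neighbourhoods carry little energy -/
theorem exists_small_energy {f : ℂ → ℝ} (hf : IntegrableOn f Yᶜ) {K : Set ℂ} (hK : IsCompact K)
    (hKY : K ⊆ Y) (hYc : IsClosed Y) {ε : ℝ} (hε : 0 < ε) :
    ∃ W, IsOpen W ∧ K ⊆ W ∧ ∀ W' ⊆ W, MeasurableSet W' → ∫ z in W' \ Y, |f z| ≤ ε := by
  let W : ℕ → Set ℂ := fun n => thickening (1 / ((n : ℝ) + 1)) K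
  have hWo : ∀ n, IsOpen (W n) := fun n => isOpen_thickening
  have hanti : Antitone fun n => W n \ Y := by
    intro m n hmn
    refine sdiff_subset_sdiff_left (thickening_mono ?_ K)
    exact one_div_le_one_div_of_le (by positivity) (by exact_mod_cast Nat.succ_le_succ hmn)
  have hint : IntegrableOn (fun z => |f z|) Yᶜ := hf.abs
  have hemp : ⋂ n, (W n \ Y) = ∅ := by
    ext z
    simp only [mem_iInter, mem_empty_iff_false, iff_false]
    intro h
    have hzK : z ∈ closure K := by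
      rw [closure_eq_iInter_thickening]
      simp only [mem_iInter]
      intro δ hδ
      obtain ⟨n, hn⟩ := exists_nat_one_div_lt (K := ℝ) hδ
      exact thickening_mono hn.le K (h n).1
    rw [hK.isClosed.closure_eq] at hzK
    exact (h 0).2 (hKY hzK)
  have ht := tendsto_setIntegral_of_antitone (μ := volume) (f := fun z => |f z|)
    (s := fun n => W n \ Y) (fun n => (hWo n).measurableSet.diff hYc.measurableSet) hanti
    ⟨0, hint.mono_set fun z hz => hz.2⟩
  rw [hemp, setIntegral_empty] at ht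
  obtain ⟨n, hn⟩ := (ht.eventually (gt_mem_nhds hε)).exists
  refine ⟨W n, hWo n, self_subset_thickening (by positivity) K, fun W' hW' hm => ?_⟩
  refine le_trans ?_ hn.le
  refine setIntegral_mono_set (hint.mono_set fun z hz => hz.2)
    (Eventually.of_forall fun z => abs_nonneg _) ?_
  exact (sdiff_subset_sdiff_left hW').eventuallyLE

/-- small neighbourhoods see a small tail of an `l²` family -/
theorem exists_small_tail (hYc : IsCompact Y) {s : Cmp Y → ℝ} (hs : Summable fun K => s K ^ 2)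
    (K0 : Cmp Y) {ε : ℝ} (hε : 0 < ε) :
    ∃ W, IsOpen W ∧ K0.1 ⊆ W ∧
      ∑' K : Cmp Y, {K : Cmp Y | (K.1 ∩ W).Nonempty ∧ K ≠ K0}.indicator (fun K => s K ^ 2) K ≤ ε := by
  classical
  obtain ⟨G, hG⟩ := ((tendsto_tsum_compl_atTop_zero (fun K : Cmp Y => s K ^ 2)).eventually
    (gt_mem_nhds hε)).exists
  let Z : Set ℂ := ⋃ K ∈ (G.erase K0), K.1
  have hZ : IsClosed Z := by
    refine (G.erase K0).finite_toSet.isClosed_biUnion fun K _ => (K.isCompact hYc).isClosed
  refine ⟨Zᶜ, hZ.isOpen_compl, fun z hz hzZ => ?_, ?_⟩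
  · simp only [Z, mem_iUnion] at hzZ
    obtain ⟨K, hK, hzK⟩ := hzZ
    exact Set.disjoint_left.1 (Cmp.disjoint (Finset.ne_of_mem_erase hK)) hzK hz
  · refine le_trans ?_ hG.le
    have h1 : ∀ K : Cmp Y, K ∈ {K : Cmp Y | (K.1 ∩ Zᶜ).Nonempty ∧ K ≠ K0} → K ∉ G := by
      rintro K ⟨⟨z, hz, hzZ⟩, hne⟩ hKG
      apply hzZ
      simp only [Z, mem_iUnion]
      exact ⟨K, Finset.mem_erase.2 ⟨hne, hKG⟩, hz⟩
    have h2 : (∑' x : { x // x ∉ G }, s x ^ 2) =
      ∑' x, {x : Cmp Y | x ∉ G}.indicator (fun K => s K ^ 2) x :=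
      tsum_subtype {x : Cmp Y | x ∉ G} (fun K => s K ^ 2)
    rw [h2]
    refine Summable.tsum_le_tsum (fun K => ?_) (hs.indicator _) (hs.indicator _)
    exact indicator_le_indicator_of_subset h1 (fun _ => sq_nonneg _) K

/-- the measure `MU` of small sets, in terms of energies and oscillations -/
theorem MU_le (hYc : IsClosed Y) {a b : ℂ → ℝ} {ea eb : ℂ → ℝ} {oa ob : Cmp Y → ℝ}
    (ha : IntegrableOn ea Yᶜ) (hb : IntegrableOn eb Yᶜ)
    (hoa : Summable fun K => oa K ^ 2) (hob : Summable fun K => ob K ^ 2) {F W : Set ℂ}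
    (hW : IsOpen W) (hFW : F ⊆ W) (hea : ∀ z ∈ W, z ∉ Y → en a z = ea z)
    (heb : ∀ z ∈ W, z ∉ Y → en b z = eb z)
    (haK : ∀ K : Cmp Y, osc Y a K.1 = oa K) (hbK : ∀ K : Cmp Y, osc Y b K.1 = ob K)
    (K0 : Cmp Y) (hFK : Disjoint F K0.1) {A B C D : ℝ}
    (hA : ∫ z in W \ Y, ea z ≤ A) (hB : ∫ z in W \ Y, eb z ≤ B)
    (hC : ∑' K : Cmp Y, {K : Cmp Y | (K.1 ∩ W).Nonempty ∧ K ≠ K0}.indicator
      (fun K => oa K ^ 2) K ≤ C)
    (hD : ∑' K : Cmp Y, {K : Cmp Y | (K.1 ∩ W).Nonempty ∧ K ≠ K0}.indicator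
      (fun K => ob K ^ 2) K ≤ D) :
    MU Y a b F ≤ ENNReal.ofReal ((A + B) / 2 + (C + D) / 2) := by
  have hsub : W \ Y ⊆ Yᶜ := fun z hz => hz.2
  have hWm : MeasurableSet (W \ Y) := hW.measurableSet.diff hYc.measurableSet
  have ia : IntegrableOn ea (W \ Y) := ha.mono_set hsub
  have ib : IntegrableOn eb (W \ Y) := hb.mono_set hsub
  have h0a : 0 ≤ ∫ z in W \ Y, ea z := setIntegral_nonneg hWm fun z hz => by
    rw [← hea z hz.1 hz.2]; exact en_nonneg _ _
  have h0b : 0 ≤ ∫ z in W \ Y, eb z := setIntegral_nonneg hWm fun z hz => by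
    rw [← heb z hz.1 hz.2]; exact en_nonneg _ _
  set S : Set (Cmp Y) := {K : Cmp Y | (K.1 ∩ W).Nonempty ∧ K ≠ K0} with hS
  have h0c : 0 ≤ ∑' K : Cmp Y, S.indicator (fun K => oa K ^ 2) K :=
    tsum_nonneg fun K => indicator_nonneg (fun _ _ => sq_nonneg _) _
  have h0d : 0 ≤ ∑' K : Cmp Y, S.indicator (fun K => ob K ^ 2) K :=
    tsum_nonneg fun K => indicator_nonneg (fun _ _ => sq_nonneg _) _
  rw [ENNReal.ofReal_add (by linarith) (by linarith)]
  refine add_le_add ?_ ?_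
  · calc ∫⁻ z in F \ Y, ENNReal.ofReal |wdg a b z|
        ≤ ∫⁻ z in W \ Y, ENNReal.ofReal |wdg a b z| :=
          lintegral_mono_set (sdiff_subset_sdiff_left hFW)
      _ ≤ ∫⁻ z in W \ Y, ENNReal.ofReal ((ea z + eb z) / 2) := by
          refine setLIntegral_mono' hWm fun z hz => ENNReal.ofReal_le_ofReal ?_
          rw [← hea z hz.1 hz.2, ← heb z hz.1 hz.2]
          exact abs_wdg_le a b z
      _ = ENNReal.ofReal (∫ z in W \ Y, (ea z + eb z) / 2) := by
          have iab : IntegrableOn (fun z => (ea z + eb z) / 2) (W \ Y) := (ia.add ib).div_const 2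
          rw [ofReal_integral_eq_lintegral_ofReal iab]
          refine (ae_restrict_iff' hWm).2 (Eventually.of_forall fun z hz => ?_)
          show 0 ≤ (ea z + eb z) / 2
          rw [← hea z hz.1 hz.2, ← heb z hz.1 hz.2]
          have := en_nonneg a z
          have := en_nonneg b z
          positivity
      _ ≤ ENNReal.ofReal ((A + B) / 2) := by
          refine ENNReal.ofReal_le_ofReal ?_
          rw [integral_div, integral_add ia ib]
          linarith
  · have e1 : (∑' K : {K : Cmp Y // (K.1 ∩ F).Nonempty},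
        ENNReal.ofReal (osc Y a K.1.1 * osc Y b K.1.1)) =
        ∑' K : Cmp Y, {K : Cmp Y | (K.1 ∩ F).Nonempty}.indicator
          (fun K => ENNReal.ofReal (osc Y a K.1 * osc Y b K.1)) K :=
      tsum_subtype {K : Cmp Y | (K.1 ∩ F).Nonempty}
        (fun K => ENNReal.ofReal (osc Y a K.1 * osc Y b K.1))
    rw [e1]
    have sa := hoa.indicator S
    have sb := hob.indicator S
    calc ∑' K : Cmp Y, {K : Cmp Y | (K.1 ∩ F).Nonempty}.indicator
          (fun K => ENNReal.ofReal (osc Y a K.1 * osc Y b K.1)) K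
        ≤ ∑' K : Cmp Y, ENNReal.ofReal ((S.indicator (fun K => oa K ^ 2) K +
            S.indicator (fun K => ob K ^ 2) K) / 2) := by
          refine ENNReal.tsum_le_tsum fun K => ?_
          by_cases hK : K ∈ {K : Cmp Y | (K.1 ∩ F).Nonempty}
          · rw [indicator_of_mem hK]
            obtain ⟨z, hz, hzF⟩ := hK
            have hKS : K ∈ S := by
              refine ⟨⟨z, hz, hFW hzF⟩, ?_⟩
              rintro rfl
              exact Set.disjoint_left.1 hFK hzF hz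
            rw [indicator_of_mem hKS, indicator_of_mem hKS, haK, hbK]
            refine ENNReal.ofReal_le_ofReal ?_
            nlinarith [sq_nonneg (oa K - ob K)]
          · rw [indicator_of_notMem hK]
            exact zero_le
      _ = ENNReal.ofReal (∑' K : Cmp Y, (S.indicator (fun K => oa K ^ 2) K +
            S.indicator (fun K => ob K ^ 2) K) / 2) := by
          rw [ENNReal.ofReal_tsum_of_nonneg]
          · intro K
            have h1 : 0 ≤ S.indicator (fun K => oa K ^ 2) K :=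
              indicator_nonneg (fun _ _ => sq_nonneg _) _
            have h2 : 0 ≤ S.indicator (fun K => ob K ^ 2) K :=
              indicator_nonneg (fun _ _ => sq_nonneg _) _
            positivity
          · exact (sa.add sb).div_const 2
      _ ≤ ENNReal.ofReal ((C + D) / 2) := by
          refine ENNReal.ofReal_le_ofReal ?_
          rw [tsum_div_const, Summable.tsum_add sa sb]
          linarith

end energy

/-- **(ATT)** of #9956 over `Ni0_459`. -/
theorem att {Y : Set ℂ} (hY : IsExteriorDomain Yᶜ) {x0 : ℂ → ℝ} (hx0 : Continuous x0)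
    (hx0Y : tsupport x0 ⊆ Yᶜ) {φ : ℕ → ℂ → ℝ} (hφ : ∀ n, TT Y (φ n))
    (hsw : ∀ n, Swd Y (fun z => x0 z + φ n z)) (hbump : ∀ n, BumpT1 Y (fun z => x0 z + φ n z))
    (harea : ∀ m n, ∀ F, IsCompact F →
      volume (ZF Y (fun z => x0 z + φ m z) (fun z => x0 z + φ n z) F) ≤
        MU Y (fun z => x0 z + φ m z) (fun z => x0 z + φ n z) F)
    {ψ : ℂ → ℝ} (hψ : LocallyLipschitzOn Yᶜ ψ) (hψe : IntegrableOn (en ψ) Yᶜ)
    (hconv : ∀ A, IsCompact A → A ⊆ Yᶜ → TendstoUniformlyOn φ ψ atTop A)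
    (hen : Tendsto (fun n => ∫ z in Yᶜ, en (fun w => φ n w - ψ w) z) atTop (𝓝 0))
    (heni : ∀ n, IntegrableOn (en (fun w => φ n w - ψ w)) Yᶜ)
    {s : Cmp Y → ℝ} (hs : Summable fun K => s K ^ 2)
    (hosc : Tendsto (fun n => ∑' K : Cmp Y, (osc Y (φ n) K.1 - s K) ^ 2) atTop (𝓝 0)) :
    ∀ K : Cmp Y, osc Y ψ K.1 ≤ s K := by
  classical
  intro K0
  have hYc : IsCompact Y := cpt_of hY
  have hO : IsOpen (tsupport x0)ᶜ := (isClosed_tsupport x0).isOpen_compl
  have hYO : Y ⊆ (tsupport x0)ᶜ := fun z hz hz' => hx0Y hz' hz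
  have hx00 : ∀ z ∈ (tsupport x0)ᶜ, x0 z = 0 := fun z hz => image_eq_zero_of_notMem_tsupport hz
  set u : ℕ → ℂ → ℝ := fun n z => x0 z + φ n z with hu
  have hLB : ∀ n, LB (u n) := fun n => (LB.of_cont hx0).add (LB.of_bdd (hφ n).q.bdd)
  have hYo : IsOpen Yᶜ := hYc.isClosed.isOpen_compl
  have hca : ∀ n, ∀ z ∉ Y, ContinuousAt (u n) z := fun n z hz =>
    hx0.continuousAt.add ((hφ n).q.loc.continuousOn.continuousAt (hYo.mem_nhds hz))
  have hoscu : ∀ n, ∀ K : Cmp Y, osc Y (u n) K.1 = osc Y (φ n) K.1 := fun n K =>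
    osc_congr hO (K.subset.trans hYO) fun z hz _ => by
      simp only [hu]; rw [hx00 z hz, zero_add]
  have hoscx : osc Y (fun z => x0 z + ψ z) K0.1 = osc Y ψ K0.1 :=
    osc_congr hO (K0.subset.trans hYO) fun z hz _ => by rw [hx00 z hz, zero_add]
  -- summabilities
  have hsd : ∀ n, Summable fun K : Cmp Y => (osc Y (φ n) K.1 - s K) ^ 2 := by
    intro n
    refine Summable.of_nonneg_of_le (fun K => sq_nonneg _) (fun K => ?_)
      (((hφ n).sum.mul_left 2).add (hs.mul_left 2))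
    nlinarith [sq_nonneg (osc Y (φ n) K.1 + s K)]
  -- convergence of each oscillation
  have hoK : Tendsto (fun n => osc Y (φ n) K0.1) atTop (𝓝 (s K0)) := by
    rw [Metric.tendsto_atTop']
    intro ε hε
    obtain ⟨N, hN⟩ := (hosc.eventually (gt_mem_nhds (show (0 : ℝ) < ε ^ 2 by positivity))).exists_forall_of_atTop
    refine ⟨N, fun n hn => ?_⟩
    have h1 := hN n hn.le
    have h2 : (osc Y (φ n) K0.1 - s K0) ^ 2 ≤ ∑' K : Cmp Y, (osc Y (φ n) K.1 - s K) ^ 2 :=
      (hsd n).le_tsum K0 fun K _ => sq_nonneg _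
    rw [Real.dist_eq]
    exact abs_lt_of_sq_lt_sq (h2.trans_lt h1) hε.le
  rw [← hoscx]
  refine osc_le hYc (u := u) (um := fun n => lo Y (u n)) (up := fun n => up Y (u n))
    (fun n => env hY (hLB n) (hca n)) (fun n => bump (hbump n)) (fun n => swUp (hsw n))
    (fun n => swDn (hsw n)) ?_ K0 ?_ ?_
  · intro A hA hAY
    have h1 := hconv A hA hAY
    rw [Metric.tendstoUniformlyOn_iff] at h1 ⊢
    intro ε hε
    filter_upwards [h1 ε hε] with n hn z hz
    have := hn z hz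
    rw [Real.dist_eq] at this ⊢
    simp only [hu]
    rwa [add_sub_add_left_eq_sub]
  · intro z hz
    have h1 : ∀ n, up Y (u n) z - lo Y (u n) z = osc Y (φ n) K0.1 := by
      intro n
      have hzY := K0.subset hz
      have hK : connectedComponentIn Y z = K0.1 := by rw [K0.eq_of_mem hz]; rfl
      -- `u n` agrees with the bounded `φ n` near `z`
      have h2 : up Y (u n) z = up Y (φ n) z := by
        unfold Ni_459.up
        congr 1
        ext c
        constructor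
        · rintro ⟨O, hOn, h⟩
          refine ⟨O ∩ (tsupport x0)ᶜ, hOn.inter (nb_of_mem hzY hO (hK ▸ K0.subset.trans hYO)),
            fun w hw hwY => ?_⟩
          have := h w hw.1 hwY
          simp only [hu] at this
          rwa [hx00 w hw.2, zero_add] at this
        · rintro ⟨O, hOn, h⟩
          refine ⟨O ∩ (tsupport x0)ᶜ, hOn.inter (nb_of_mem hzY hO (hK ▸ K0.subset.trans hYO)),
            fun w hw hwY => ?_⟩
          have := h w hw.1 hwY
          simp only [hu]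
          rwa [hx00 w hw.2, zero_add]
      have h3 : lo Y (u n) z = lo Y (φ n) z := by
        unfold Ni_459.lo Ni_459.up
        congr 2
        ext c
        constructor
        · rintro ⟨O, hOn, h⟩
          refine ⟨O ∩ (tsupport x0)ᶜ, hOn.inter (nb_of_mem hzY hO (hK ▸ K0.subset.trans hYO)),
            fun w hw hwY => ?_⟩
          have := h w hw.1 hwY
          simp only [hu] at this
          rwa [hx00 w hw.2, zero_add] at this
        · rintro ⟨O, hOn, h⟩
          refine ⟨O ∩ (tsupport x0)ᶜ, hOn.inter (nb_of_mem hzY hO (hK ▸ K0.subset.trans hYO)),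
            fun w hw hwY => ?_⟩
          have := h w hw.1 hwY
          simp only [hu]
          rwa [hx00 w hw.2, zero_add]
      rw [h2, h3, ← hK, osc_eq hY (hφ n).q.bdd hzY]
    simp_rw [h1]
    exact hoK
  · intro ε hε
    have hε8 : 0 < ε / 8 := by positivity
    obtain ⟨W1, hW1, hKW1, hE⟩ := exists_small_energy hψe (K0.isCompact hYc) K0.subset
      hYc.isClosed hε8
    obtain ⟨W2, hW2, hKW2, hT⟩ := exists_small_tail hYc hs K0 hε8
    refine ⟨W1 ∩ W2 ∩ (tsupport x0)ᶜ, (hW1.inter hW2).inter hO,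
      fun z hz => ⟨⟨hKW1 hz, hKW2 hz⟩, hYO (K0.subset hz)⟩, ?_⟩
    set W := W1 ∩ W2 ∩ (tsupport x0)ᶜ with hW
    have hWo : IsOpen W := (hW1.inter hW2).inter hO
    have hWm : MeasurableSet (W \ Y) := hWo.measurableSet.diff hYc.isClosed.measurableSet
    have hsubY : W \ Y ⊆ Yᶜ := fun z hz => hz.2
    have ev1 : ∀ᶠ n in atTop, ∫ z in Yᶜ, en (fun w => φ n w - ψ w) z < ε / 8 :=
      hen.eventually (gt_mem_nhds hε8)
    have ev2 : ∀ᶠ n in atTop, ∑' K : Cmp Y, (osc Y (φ n) K.1 - s K) ^ 2 < ε / 8 :=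
      hosc.eventually (gt_mem_nhds hε8)
    have hEn : ∀ᶠ n in atTop, ∫ z in W \ Y, en (φ n) z ≤ ε / 2 := by
      filter_upwards [ev1] with n hn
      have hd1 := ae_diff hYo (hφ n).q.loc
      have hd2 := ae_diff hYo hψ
      have h1 : ∫ z in W \ Y, en ψ z ≤ ε / 8 := by
        have h2 := hE W (fun z hz => hz.1.1) hWo.measurableSet
        refine le_trans (le_of_eq ?_) h2
        refine setIntegral_congr_fun hWm fun z _ => ?_
        rw [abs_of_nonneg (en_nonneg _ _)]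
      have h3 : ∫ z in W \ Y, en (fun w => φ n w - ψ w) z ≤ ε / 8 :=
        (setIntegral_mono_set (heni n) (Eventually.of_forall fun z => en_nonneg _ _)
          hsubY.eventuallyLE).trans hn.le
      have h4 : ∫ z in W \ Y, en (φ n) z ≤
          ∫ z in W \ Y, (2 * en ψ z + 2 * en (fun w => φ n w - ψ w) z) := by
        refine setIntegral_mono_ae_restrict ((hφ n).q.fin.mono_set hsubY)
          (((hψe.mono_set hsubY).const_mul 2).add (((heni n).mono_set hsubY).const_mul 2)) ?_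
        have hd1' := ae_restrict_of_ae_restrict_of_subset hsubY hd1
        have hd2' := ae_restrict_of_ae_restrict_of_subset hsubY hd2
        filter_upwards [hd1', hd2'] with z hz1 hz2
        exact en_le hz1 hz2
      rw [integral_add ((hψe.mono_set hsubY).const_mul 2) (((heni n).mono_set hsubY).const_mul 2),
        integral_const_mul, integral_const_mul] at h4
      linarith
    have hTn : ∀ᶠ n in atTop, ∑' K : Cmp Y, {K : Cmp Y | (K.1 ∩ W).Nonempty ∧ K ≠ K0}.indicator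
        (fun K => osc Y (φ n) K.1 ^ 2) K ≤ ε / 2 := by
      filter_upwards [ev2] with n hn
      have h1 : ∑' K : Cmp Y, {K : Cmp Y | (K.1 ∩ W).Nonempty ∧ K ≠ K0}.indicator
          (fun K => osc Y (φ n) K.1 ^ 2) K ≤
          ∑' K : Cmp Y, (2 * {K : Cmp Y | (K.1 ∩ W2).Nonempty ∧ K ≠ K0}.indicator
            (fun K => s K ^ 2) K + 2 * (osc Y (φ n) K.1 - s K) ^ 2) := by
        refine Summable.tsum_le_tsum (fun K => ?_) ((hφ n).sum.indicator _)
          (((hs.indicator _).mul_left 2).add ((hsd n).mul_left 2))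
        by_cases hK : K ∈ {K : Cmp Y | (K.1 ∩ W).Nonempty ∧ K ≠ K0}
        · have hK2 : K ∈ {K : Cmp Y | (K.1 ∩ W2).Nonempty ∧ K ≠ K0} := by
            obtain ⟨⟨z, hz, hzW⟩, hne⟩ := hK
            exact ⟨⟨z, hz, hzW.1.2⟩, hne⟩
          rw [indicator_of_mem hK, indicator_of_mem hK2]
          nlinarith [sq_nonneg (osc Y (φ n) K.1 - 2 * s K)]
        · rw [indicator_of_notMem hK]
          have h2 : 0 ≤ {K : Cmp Y | (K.1 ∩ W2).Nonempty ∧ K ≠ K0}.indicator
              (fun K => s K ^ 2) K := indicator_nonneg (fun _ _ => sq_nonneg _) _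
          positivity
      rw [Summable.tsum_add ((hs.indicator _).mul_left 2) ((hsd n).mul_left 2), tsum_mul_left,
        tsum_mul_left] at h1
      linarith
    filter_upwards [hEn, hTn] with m hm1 hm2
    filter_upwards [hEn, hTn] with n hn1 hn2
    intro F hF hFW hFK
    rw [ZZ_eq]
    refine (harea m n F hF).trans ?_
    refine (MU_le hYc.isClosed (hφ m).q.fin (hφ n).q.fin (hφ m).sum (hφ n).sum hWo hFW
      (fun z hz hzY => ?_) (fun z hz hzY => ?_) (hoscu m) (hoscu n) K0 hFK hm1 hn1 hm2 hn2).trans ?_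
    · refine en_congr ?_
      filter_upwards [hO.mem_nhds hz.2] with w hw
      show x0 w + φ m w = φ m w
      rw [hx00 w hw, zero_add]
    · refine en_congr ?_
      filter_upwards [hO.mem_nhds hz.2] with w hw
      show x0 w + φ n w = φ n w
      rw [hx00 w hw, zero_add]
    · refine ENNReal.ofReal_le_ofReal ?_
      linarith

end Crest.Agent.R105.Att3_790
end

-- ▼ part R105/SkA1_8

/-!
# Row 105, S0138, first half (T-frame, null image of 459 #9956): literal Props (helper8)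

`Y = Uᶜ`, `U` an exterior domain, `x0` : the coordinate made constant near `Y` (`IfB_641.X0`).
Functions `φ ∈ TT Y` (808), `x = x0 + φ`; `NI`, `Swd`, `up`, `lo`, `ZF`, `MU` of 459's `Ni0`.

Leaves (one owner each): `SWITCHP` (209), `LINP`, `CLOSEDP` (439 / 732 / 31), `AREAP` (459),
`CONVP` (755), `CUTP` (free), `VALP` (459).  Output: `Pk` = the package after attainment.
-/

set_option autoImplicit false

open MeasureTheory Set Filter Topology Metric
open scoped NNReal ENNReal ContDiff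

namespace Crest.Agent.R105.SkA_8

open Crest.AnalysisR Bd_775 IfB_641 Tc_808 Ni_459 Grd_782

/-- **SWITCHP** (NI-6, owner 209): exact switching, compactly supported class -/
def SWITCHP : Prop := ∀ (Y : Set ℂ) (x0 : ℂ → ℝ), IsExteriorDomain Yᶜ → X0 Y x0 →
  SwitchP Y x0 HasCompactSupport

/-- **LINP** ((P2) linear, owners 439 / 732 / 31): the commutant of a switched function is linear -/
def LINP : Prop := ∀ (Y : Set ℂ) (x0 : ℂ → ℝ), IsExteriorDomain Yᶜ → X0 Y x0 →
  ∀ a, TT Y a → HasCompactSupport a → Swd Y (fun z => x0 z + a z) →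
    ∀ b b' : ℂ → ℝ, TT Y b → TT Y b' → NI Y a b → NI Y a b' →
      ∀ s t : ℝ, NI Y a (fun z => s * b z + t * b' z)

/-- **CLOSEDP** ((P2) closed, owners 439 / 732 / 31): the commutant of a switched function is
closed: locally uniform convergence off `Y`, gradients in `L²`, oscillations in `ℓ²` -/
def CLOSEDP : Prop := ∀ (Y : Set ℂ) (x0 : ℂ → ℝ), IsExteriorDomain Yᶜ → X0 Y x0 →
  ∀ a, TT Y a → HasCompactSupport a → Swd Y (fun z => x0 z + a z) →
    ∀ (b : ℕ → ℂ → ℝ) (ψ : ℂ → ℝ) (σ : Cmp Y → ℝ), (∀ n, TT Y (b n)) → TT Y ψ →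
      (∀ n, NI Y a (b n)) → (Summable fun K => σ K ^ 2) →
      (∀ A, IsCompact A → A ⊆ Yᶜ → TendstoUniformlyOn b ψ atTop A) →
      Tendsto (fun n => ∫ z in Yᶜ, en (fun w => b n w - ψ w) z) atTop (𝓝 0) →
      Tendsto (fun n => ∑' K : Cmp Y, (Tc_808.osc Y (b n) K.1 - σ K) ^ 2) atTop (𝓝 0) →
      (∀ K : Cmp Y, Tc_808.osc Y ψ K.1 ≤ σ K) → NI Y a ψ

/-- **AREAP** (T3 of #10219, owner 459) -/
def AREAP : Prop := ∀ (Y : Set ℂ) (a b : ℂ → ℝ), IsExteriorDomain Yᶜ →
  LocallyLipschitzOn Yᶜ a → LocallyLipschitzOn Yᶜ b → LB a → LB b →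
  {K : Cmp Y | Tc_808.osc Y a K.1 ≠ 0}.Countable → {K : Cmp Y | Tc_808.osc Y b K.1 ≠ 0}.Countable →
  NI Y a b → ∀ F, IsCompact F → volume (ZF Y a b F) ≤ MU Y a b F

/-- **CONVP** (node CONV, owner 755): the limit of the greedy sequence -/
def CONVP : Prop := ∀ (Y : Set ℂ) (x0 : ℂ → ℝ), IsExteriorDomain Yᶜ → X0 Y x0 →
  ∀ (u : ℕ → ℂ → ℝ) (m : ℝ) (σ : Cmp Y → ℝ), SelT Y x0 HasCompactSupport u m σ →
    (∀ ψ, TT Y ψ → HasCompactSupport ψ → (∀ z ∈ Y, ∀ᶠ w in 𝓝 z, ψ w = ψ z) →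
      Tendsto (fun n => di Y (u n) ψ - ∫ z, ψ z * lap x0 z) atTop (𝓝 0)) →
    ∃ (F : ℂ → ℂ) (ψ : ℂ → ℝ) (c : ℕ → ℝ), DifferentiableOn ℂ F Yᶜ ∧
      (∀ z ∈ Yᶜ, (F z).re = x0 z + ψ z) ∧
      (∃ c' : ℂ, Tendsto (fun z => F z - z) (cocompact ℂ) (𝓝 c')) ∧ Q Y ψ ∧
      (∀ A, IsCompact A → A ⊆ Yᶜ → TendstoUniformlyOn (fun n z => u n z + c n) ψ atTop A) ∧
      Tendsto (fun n => ∫ z in Yᶜ, en (fun w => (u n w + c n) - ψ w) z) atTop (𝓝 0)


/-- **VALP** (part of (P1), owner 459): null image only sees the honest values at the components -/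
def VALP : Prop := ∀ (Y : Set ℂ) (a b w : ℂ → ℝ), IsExteriorDomain Yᶜ → TT Y a → TT Y b → TT Y w →
  NI Y a b → ∀ S : Set ℝ, S.Countable →
  (∀ z ∈ Y, lo Y w z = up Y w z → (lo Y b z = up Y b z ∧ up Y b z = up Y w z) ∨ up Y w z ∈ S ∨
    lo Y b z ≠ up Y b z) → NI Y a w

/-- the package after attainment (no compact support of the anchors, 395 #10556): `a i` the anchors, `φ` the minimiser, `x = x0 + φ = Re F` -/
structure Pk (Y : Set ℂ) (x0 : ℂ → ℝ) (a : ℕ → ℂ → ℝ) (φ : ℂ → ℝ) (F : ℂ → ℂ) : Prop where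
  hY : IsExteriorDomain Yᶜ
  hx : X0 Y x0
  tta : ∀ i, TT Y (a i)
  swd : ∀ i, Swd Y (fun z => x0 z + a i z)
  ni : ∀ i j, NI Y (a i) (a j)
  tt : TT Y φ
  com : ∀ i, NI Y (a i) φ
  min : ∀ b, TT Y b → (∀ i, NI Y (a i) b) → TJ Y x0 φ ≤ TJ Y x0 b
  hol : DifferentiableOn ℂ F Yᶜ
  re : ∀ z ∈ Yᶜ, (F z).re = x0 z + φ z
  inf : ∃ c : ℂ, Tendsto (fun z => F z - z) (cocompact ℂ) (𝓝 c)


end Crest.Agent.R105.SkA_8
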