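import Crest.Agent.R105.Ni2_459
import Crest.Agent.R105.SkA1_8

/-!
# Row 105, S0138, NI part 3 (helper459): the Props `AREAP`, `VALP` of `SkA1_8`; closure rules
-/

set_option autoImplicit false

open MeasureTheory Set Filter Topology Metric
open scoped NNReal ENNReal

namespace Crest.Agent.R105.Ni_459

open Bd_775 Ends_897 Tc_808 Crest.AnalysisR

noncomputable section

theorem areap : SkA_8.AREAP := by
  intro Y a b hY ha hb la lb ja jb h F hF
  exact area_ZF hY ha hb la lb ja jb h hF.measurableSet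

theorem valp : SkA_8.VALP := by
  intro Y a b w hY _ htb _ h S hS hw
  have hwb : LB b := LB.of_bdd htb.q.bdd
  refine NI.of_rule (b := fun _ => b) (fun _ => h) (G := fun _ t => t)
    (fun _ => ⟨1, LipschitzWith.id⟩) hS (J := Jmp Y b) htb.countable ?_
  intro z hz hK _ hfz
  rcases hw z hz hfz with ⟨h1, h2⟩ | h1 | h1
  · exact Or.inl ⟨0, 0, h1, by rw [hfz, h1, h2]⟩
  · right; rw [hfz]; exact h1
  · exfalso
    have h2 := osc_eq' hY hwb hz
    have h3 : osc Y b (Cmp.of hz).1 = 0 := by
      by_contra h4; exact hK h4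
    have h4 : osc Y b (connectedComponentIn Y z) = 0 := h3
    rw [h4] at h2
    exact h1 (by linarith)

/-! ### further rules -/

section Rules
variable {Y : Set ℂ} {a b c f : ℂ → ℝ} {z : ℂ}

lemma no_jump (hY : IsExteriorDomain Yᶜ) (hb : LB b) (hz : z ∈ Y) (hK : Cmp.of hz ∉ Jmp Y b) :
    lo Y b z = up Y b z := by
  have h2 := osc_eq' hY hb hz
  have h3 : osc Y b (Cmp.of hz).1 = 0 := by
    by_contra h4; exact hK h4
  have h4 : osc Y b (connectedComponentIn Y z) = 0 := h3
  rw [h4] at h2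
  linarith

/-- values near a component without jump -/
lemma close_of_no_jump (hY : IsExteriorDomain Yᶜ) (hb : LB b) (h : lo Y b z = up Y b z) {ε : ℝ}
    (hε : 0 < ε) : ∃ O, Nb Y z O ∧ ∀ w ∈ O, w ∉ Y → |b w - up Y b z| < ε := by
  obtain ⟨O, hO, h1⟩ := exists_lt_of_up_lt hY hb (show up Y b z < up Y b z + ε by linarith)
  obtain ⟨P, hP, h2⟩ := exists_gt_of_lt_lo hY hb (show lo Y b z - ε < lo Y b z by linarith)
  refine ⟨O ∩ P, hO.inter hP, fun w hw hwY => abs_lt.2 ⟨?_, ?_⟩⟩ <;>
  linarith [h1 w hw.1 hwY, h2 w hw.2 hwY]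

/-- the common value is determined by the values near the component -/
lemma up_eq_of_close (hY : IsExteriorDomain Yᶜ) (hf : LB f) {s : ℝ}
    (h : ∀ ε > 0, ∃ O, Nb Y z O ∧ ∀ w ∈ O, w ∉ Y → |f w - s| ≤ ε) :
    up Y f z = s ∧ lo Y f z = s := by
  have h1 : up Y f z ≤ s := le_of_forall_pos_le_add fun ε hε => by
    obtain ⟨O, hO, h⟩ := h ε hε
    exact up_le hY hf hO fun w hw hwY => by linarith [(abs_le.1 (h w hw hwY)).2]
  have h2 : s ≤ lo Y f z := by
    refine le_of_forall_pos_sub_le fun ε hε => ?_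
    obtain ⟨O, hO, h⟩ := h ε hε
    exact le_lo hY hf hO fun w hw hwY => by linarith [(abs_le.1 (h w hw hwY)).1]
  have h3 := lo_le_up hY hf z
  exact ⟨by linarith, by linarith⟩

/-- **Lipschitz functions of several members**: `f = Φ (b 0, b 1, …)` continuous along the values:
at a component where no `b n` jumps, `f` has the value `Φ (values)`; the null image of the pair is
not preserved by general `Φ`, see the slices; here: functions of ONE member, `lc` multipliers. -/
theorem NI.comp (hY : IsExteriorDomain Yᶜ) (hb : LB b) (jb : (Jmp Y b).Countable) (h : NI Y a b)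
    {g : ℝ → ℝ} {L : ℝ≥0} (hg : LipschitzWith L g) : NI Y a (fun z => g (b z)) := by
  have hf : LB fun z => g (b z) := by
    intro R
    obtain ⟨M, hM⟩ := hb R
    refine ⟨|g 0| + L * |M|, fun z hz => ?_⟩
    have h1 := hg.dist_le_mul (b z) 0
    rw [Real.dist_eq, Real.dist_eq, sub_zero] at h1
    have h2 := (hM z hz).trans (le_abs_self M)
    have h3 : (L : ℝ) * |b z| ≤ L * |M| := mul_le_mul_of_nonneg_left h2 L.2
    have h4 := abs_sub_abs_le_abs_sub (g (b z)) (g 0)
    linarith
  refine NI.of_rule (b := fun _ => b) (fun _ => h) (G := fun _ => g)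
    (fun _ => ⟨L, hg⟩) countable_empty (J := Jmp Y b) jb ?_
  intro z hz hK _ _
  have hbz := no_jump hY hb hz hK
  left
  refine ⟨0, 0, hbz, ?_⟩
  have h1 := up_eq_of_close hY hf (z := z) (s := g (lo Y b z)) fun ε hε => by
    have hL : (0 : ℝ) < L + 1 := by positivity
    obtain ⟨O, hO, h2⟩ := close_of_no_jump hY hb hbz (show 0 < ε / (L + 1) by positivity)
    refine ⟨O, hO, fun w hw hwY => ?_⟩
    have h3 := hg.dist_le_mul (b w) (lo Y b z)
    rw [Real.dist_eq, Real.dist_eq, hbz] at h3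
    rw [hbz]
    have h4 := (h2 w hw hwY).le
    have h5 : (L : ℝ) * |b w - up Y b z| ≤ L * (ε / (L + 1)) := mul_le_mul_of_nonneg_left h4 L.2
    have h6 : (L : ℝ) * (ε / (L + 1)) ≤ ε := by
      rw [mul_div_assoc', div_le_iff₀ hL]; nlinarith [L.2]
    linarith
  exact h1.2



/-- only the values near `Y` matter -/
theorem NI.congr (hY : IsExteriorDomain Yᶜ) (hb : LB b) (hc : LB c) (h : NI Y a b)
    (he : ∀ᶠ z in 𝓝ˢ Y, c z = b z) : NI Y a c := by
  obtain ⟨O, hO, hYO, hOe⟩ := mem_nhdsSet_iff_exists.1 he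
  have h1 : NP Y a c = NP Y a b := by
    ext p
    constructor <;>
    · rintro ⟨z, hz, h1, h2, h3, h4⟩
      have hN : Nb Y z O := nb_of_mem hz hO ((connectedComponentIn_subset _ _).trans hYO)
      have e1 := up_congr hY hc hb hN fun w hw _ => (by have h := hOe hw; exact h)
      have e2 := lo_congr hY hc hb hN fun w hw _ => (by have h := hOe hw; exact h)
      refine ⟨z, hz, h1, h2, ?_, ?_⟩ <;> first | exact e2.symm.trans h3 | exact e1.symm.trans h4 | exact e2.trans h3 | exact e1.trans h4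
  unfold NI; rw [h1]; exact h

/-- constants -/
theorem NI.const (hY : IsExteriorDomain Yᶜ) (c : ℝ) : NI Y a (fun _ => c) := by
  refine measure_mono_null ?_ (null_strip (D := {c}) (countable_singleton c))
  rintro p ⟨z, hz, -, -, -, h4⟩
  have hc : LB fun _ : ℂ => c := fun _ => ⟨|c|, fun _ _ => le_rfl⟩
  have := up_eq_of_close hY hc (z := z) (s := c) fun ε hε => ⟨univ, Nb.univ _ _, fun w _ _ => by simp [hε.le]⟩
  show p.2 = c
  rw [← h4]; exact this.1

end Rules

end

end Crest.Agent.R105.Ni_459
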