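import Mathlib

/-!
Row 105 (helper271), LIB-LOC: thin neighbourhoods from one big rectangle.
Vertical Poincare inequality for functions which are absolutely continuous on almost every vertical
line, and the energy of `χ z`.
-/

set_option autoImplicit false

namespace Crest.Agent.R105.Loc_271

open MeasureTheory Set Filter ENNReal Topology

/-- horizontal partial derivative -/
noncomputable def dx (f : ℝ × ℝ → ℝ) (p : ℝ × ℝ) : ℝ := deriv (fun s => f (s, p.2)) p.1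

/-- vertical partial derivative -/
noncomputable def dy (f : ℝ × ℝ → ℝ) (p : ℝ × ℝ) : ℝ := deriv (fun t => f (p.1, t)) p.2

theorem sq_lintegral_le {α : Type*} {m : MeasurableSpace α} (μ : Measure α) {g : α → ℝ≥0∞}
    (hg : AEMeasurable g μ) : (∫⁻ t, g t ∂μ) ^ 2 ≤ μ univ * ∫⁻ t, g t ^ 2 ∂μ := by
  have h := ENNReal.lintegral_mul_le_Lp_mul_Lq μ (p := 2) (q := 2)
    (Real.HolderConjugate.two_two) (aemeasurable_const (b := (1 : ℝ≥0∞))) hg
  simp only [Pi.mul_apply, one_mul, ENNReal.one_rpow, lintegral_const] at h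
  have h2 := pow_le_pow_left' h 2
  refine h2.trans_eq ?_
  rw [mul_pow]
  have e : ∀ x : ℝ≥0∞, (x ^ (1 / 2 : ℝ)) ^ 2 = x := fun x => by
    rw [← ENNReal.rpow_natCast, ← ENNReal.rpow_mul]; norm_num
  rw [e, e]
  congr 1
  refine lintegral_congr fun t => ?_
  rw [← ENNReal.rpow_natCast]; norm_num

/-- one-dimensional Poincare inequality, pointwise form -/
theorem sq_le_line {f : ℝ → ℝ} {a b : ℝ} (hf : AbsolutelyContinuousOnInterval f a b)
    (ha : f a = 0) (hab : a ≤ b) {y : ℝ} (hy : y ∈ Icc a b) :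
    ‖f y‖ₑ ^ 2 ≤ ENNReal.ofReal (b - a) * ∫⁻ t in Ioc a b, ‖deriv f t‖ₑ ^ 2 := by
  have hsub : AbsolutelyContinuousOnInterval f a y := by
    refine hf.mono ?_
    rw [uIcc_of_le hab, uIcc_of_le hy.1]
    exact Icc_subset_Icc_right hy.2
  have h1 := hsub.integral_deriv_eq_sub
  rw [ha, sub_zero] at h1
  have h2 : ‖f y‖ₑ ≤ ∫⁻ t in Ioc a b, ‖deriv f t‖ₑ := by
    rw [← h1, intervalIntegral.integral_of_le hy.1]
    refine (enorm_integral_le_lintegral_enorm _).trans ?_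
    exact lintegral_mono_set (Ioc_subset_Ioc_right hy.2)
  have h3 := sq_lintegral_le (volume.restrict (Ioc a b)) (g := fun t => ‖deriv f t‖ₑ)
    (measurable_deriv f).enorm.aemeasurable
  refine (pow_le_pow_left' h2 2).trans (h3.trans_eq ?_)
  rw [Measure.restrict_apply MeasurableSet.univ, univ_inter, Real.volume_Ioc]

/-- one-dimensional Poincare inequality -/
theorem poincare_line {f : ℝ → ℝ} {a b : ℝ} (hf : AbsolutelyContinuousOnInterval f a b)
    (ha : f a = 0) (hab : a ≤ b) :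
    ∫⁻ t in Ioc a b, ‖f t‖ₑ ^ 2 ≤ ENNReal.ofReal (b - a) ^ 2 * ∫⁻ t in Ioc a b, ‖deriv f t‖ₑ ^ 2 := by
  calc ∫⁻ t in Ioc a b, ‖f t‖ₑ ^ 2
      ≤ ∫⁻ _ in Ioc a b, ENNReal.ofReal (b - a) * ∫⁻ t in Ioc a b, ‖deriv f t‖ₑ ^ 2 := by
        refine setLIntegral_mono' measurableSet_Ioc fun t ht => ?_
        exact sq_le_line hf ha hab ⟨ht.1.le, ht.2⟩
    _ = ENNReal.ofReal (b - a) ^ 2 * ∫⁻ t in Ioc a b, ‖deriv f t‖ₑ ^ 2 := by
        rw [setLIntegral_const, Real.volume_Ioc]; ring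


/-- **Vertical Poincare inequality** on a box, zero at the bottom side. -/
theorem poincare_box {f : ℝ × ℝ → ℝ} {c d a b : ℝ} (hab : a ≤ b)
    (hf : ∀ᵐ x ∂(volume.restrict (Ioc c d)),
      AbsolutelyContinuousOnInterval (fun t => f (x, t)) a b ∧ f (x, a) = 0)
    (hm : AEMeasurable (dy f) (volume.restrict (Ioc c d ×ˢ Ioc a b))) :
    ∫⁻ p in Ioc c d ×ˢ Ioc a b, ‖f p‖ₑ ^ 2 ≤
      ENNReal.ofReal (b - a) ^ 2 * ∫⁻ p in Ioc c d ×ˢ Ioc a b, ‖dy f p‖ₑ ^ 2 := by
  rw [Measure.volume_eq_prod, ← Measure.prod_restrict] at hm ⊢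
  refine (lintegral_prod_le _).trans ?_
  rw [lintegral_prod _ (hm.enorm.pow_const 2), ← lintegral_const_mul' _ _ (by finiteness)]
  refine lintegral_mono_ae ?_
  filter_upwards [hf] with x hx
  exact poincare_line hx.1 hx.2 hab


/-! ### cut-offs -/



/-- pointwise energy density -/
noncomputable def en (f : ℝ × ℝ → ℝ) (p : ℝ × ℝ) : ℝ := dx f p ^ 2 + dy f p ^ 2

theorem en_nonneg (f : ℝ × ℝ → ℝ) (p : ℝ × ℝ) : 0 ≤ en f p := by unfold en; positivity





end Crest.Agent.R105.Loc_271
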