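import Crest.Agent.R105.Bd2_775
import Mathlib
import Crest.Agent.R105.IfB0_641

-- ▼ part R105/Bd3_775
section

/-!
# Row 105, S0139 [B]: the complete metric on the honest class (helper775)

`Near C r u v` : (`1 ≤ r` or `u = v` off the `r`-neighbourhood of `C`), `|u - v| ≤ r`,
`∫_{Cᶜ} en (u - v) ≤ r²`;  `Hn C = {u // D C u}`,  `metr hC : MetricSpace (Hn C)` with
`dist u v = inf {r > 0 | Near C r u v}`; complete.
-/

set_option autoImplicit false

open MeasureTheory Set Filter Topology Metric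
open scoped NNReal ENNReal

namespace Crest.Agent.R105.Bd_775

noncomputable section

/-! ### metrics from gauges -/

/-- a family of relations defining a metric -/
structure Gauge {X : Type*} (N : ℝ → X → X → Prop) : Prop where
  refl : ∀ r > 0, ∀ x, N r x x
  symm : ∀ r > 0, ∀ x y, N r x y → N r y x
  tri : ∀ r s, 0 < r → 0 < s → ∀ x y z, N r x y → N s y z → N (r + s) x z
  mono : ∀ r s, 0 < r → r ≤ s → ∀ x y, N r x y → N s x y
  ex : ∀ x y, ∃ r > 0, N r x y
  sep : ∀ x y, (∀ r > 0, N r x y) → x = y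

namespace Gauge
variable {X : Type*} {N : ℝ → X → X → Prop}

/-- distance of a gauge -/
def gd (N : ℝ → X → X → Prop) (x y : X) : ℝ := sInf {r | 0 < r ∧ N r x y}

lemma bddBelow (x y : X) : BddBelow {r : ℝ | 0 < r ∧ N r x y} := ⟨0, fun _ h => h.1.le⟩

lemma gd_nonneg (x y : X) : 0 ≤ gd N x y :=
  Real.sInf_nonneg fun r (h : 0 < r ∧ N r x y) => h.1.le

lemma gd_le {x y : X} {r : ℝ} (hr : 0 < r) (h : N r x y) : gd N x y ≤ r :=
  csInf_le (bddBelow x y) ⟨hr, h⟩

lemma of_gd_lt (g : Gauge N) {x y : X} {r : ℝ} (h : gd N x y < r) : N r x y := by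
  obtain ⟨r₀, hr₀, h₀⟩ := g.ex x y
  have hne : {r : ℝ | 0 < r ∧ N r x y}.Nonempty := ⟨r₀, hr₀, h₀⟩
  obtain ⟨s, hs, hsr⟩ := exists_lt_of_csInf_lt hne h
  exact g.mono s r hs.1 hsr.le x y hs.2

/-- the metric space of a gauge -/
@[instance_reducible] def metric (g : Gauge N) : MetricSpace X where
  dist := gd N
  dist_self x := le_antisymm (le_of_forall_pos_le_add fun r hr => by
    rw [zero_add]; exact gd_le hr (g.refl r hr x)) (gd_nonneg x x)
  dist_comm x y := by
    unfold gd; congr 1; ext r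
    exact ⟨fun h => ⟨h.1, g.symm r h.1 _ _ h.2⟩, fun h => ⟨h.1, g.symm r h.1 _ _ h.2⟩⟩
  dist_triangle x y z := by
    refine le_of_forall_pos_le_add fun e he => ?_
    have h1 := g.of_gd_lt (lt_add_of_pos_right (gd N x y) (half_pos he))
    have h2 := g.of_gd_lt (lt_add_of_pos_right (gd N y z) (half_pos he))
    have p1 : 0 < gd N x y + e / 2 := by have := gd_nonneg (N := N) x y; positivity
    have p2 : 0 < gd N y z + e / 2 := by have := gd_nonneg (N := N) y z; positivity
    have h3 := gd_le (add_pos p1 p2) (g.tri _ _ p1 p2 _ _ _ h1 h2)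
    linarith
  eq_of_dist_eq_zero {x y} h := g.sep x y fun r hr => g.of_gd_lt (lt_of_le_of_lt (le_of_eq h) hr)

end Gauge

/-! ### the relation `Near` -/

/-- closeness of order `r` -/
structure Near (C : Set ℂ) (r : ℝ) (u v : ℂ → ℝ) : Prop where
  off : 1 ≤ r ∨ ∀ z ∉ thickening r C, u z = v z
  sup : ∀ z, |u z - v z| ≤ r
  enr : ∫⁻ z in Cᶜ, ENNReal.ofReal (en (fun w => u w - v w) z) ≤ ENNReal.ofReal (r ^ 2)

section
variable {C : Set ℂ} {u v w : ℂ → ℝ} {r s : ℝ}

lemma Near.refl (hr : 0 < r) (u : ℂ → ℝ) : Near C r u u := by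
  refine ⟨Or.inr fun _ _ => rfl, fun z => by simpa using hr.le, ?_⟩
  have : ∀ z, en (fun w => u w - u w) z = 0 := fun z => by
    have : (fun w => u w - u w) = fun _ : ℂ => (0 : ℝ) := funext fun w => sub_self _
    rw [this]; exact en_const 0 z
  refine le_trans (le_of_eq ?_) zero_le
  refine (lintegral_congr fun z => ?_).trans lintegral_zero
  rw [this, ENNReal.ofReal_zero]

lemma gx_neg (u : ℂ → ℝ) (z : ℂ) : gx (fun w => - u w) z = - gx u z := by
  unfold gx; rw [fderiv_fun_neg]; rfl
lemma gy_neg (u : ℂ → ℝ) (z : ℂ) : gy (fun w => - u w) z = - gy u z := by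
  unfold gy; rw [fderiv_fun_neg]; rfl
lemma en_neg (u : ℂ → ℝ) (z : ℂ) : en (fun w => - u w) z = en u z := by
  unfold en; rw [gx_neg, gy_neg]; ring

lemma en_sub_comm (u v : ℂ → ℝ) (z : ℂ) :
    en (fun w => u w - v w) z = en (fun w => v w - u w) z := by
  rw [← en_neg]; congr 1; funext w; ring

lemma Near.symm (h : Near C r u v) : Near C r v u := by
  refine ⟨h.off.imp id fun h z hz => (h z hz).symm, fun z => by
    rw [abs_sub_comm]; exact h.sup z, ?_⟩
  refine le_trans (le_of_eq ?_) h.enr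
  congr 1; funext z; rw [en_sub_comm]

lemma Near.mono (hr : 0 < r) (hrs : r ≤ s) (h : Near C r u v) : Near C s u v := by
  refine ⟨?_, fun z => (h.sup z).trans hrs, h.enr.trans (ENNReal.ofReal_le_ofReal
    (pow_le_pow_left₀ hr.le hrs 2))⟩
  rcases h.off with h1 | h1
  · exact Or.inl (h1.trans hrs)
  · exact Or.inr fun z hz => h1 z fun h2 => hz (thickening_mono hrs C h2)

/-- Minkowski's inequality with weights -/
lemma lintegral_en_tri (hC : IsClosed C) (hr : 0 < r) (hs : 0 < s) {f g : ℂ → ℝ}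
    (hf : LocallyLipschitzOn Cᶜ f) (hg : LocallyLipschitzOn Cᶜ g)
    (h1 : ∫⁻ z in Cᶜ, ENNReal.ofReal (en f z) ≤ ENNReal.ofReal (r ^ 2))
    (h2 : ∫⁻ z in Cᶜ, ENNReal.ofReal (en g z) ≤ ENNReal.ofReal (s ^ 2)) :
    ∫⁻ z in Cᶜ, ENNReal.ofReal (en (fun w => f w + g w) z) ≤ ENNReal.ofReal ((r + s) ^ 2) := by
  have hA : (0 : ℝ) ≤ 1 + s / r := by positivity
  have hB : (0 : ℝ) ≤ 1 + r / s := by positivity
  have key : ∀ a b : ℝ, (a + b) ^ 2 ≤ (1 + s / r) * a ^ 2 + (1 + r / s) * b ^ 2 := by
    intro a b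
    have : (1 + s / r) * a ^ 2 + (1 + r / s) * b ^ 2 - (a + b) ^ 2 =
        (s * a - r * b) ^ 2 / (r * s) := by field_simp; ring
    have h3 : 0 ≤ (s * a - r * b) ^ 2 / (r * s) := by positivity
    linarith
  calc ∫⁻ z in Cᶜ, ENNReal.ofReal (en (fun w => f w + g w) z)
      ≤ ∫⁻ z in Cᶜ, (ENNReal.ofReal (1 + s / r) * ENNReal.ofReal (en f z) +
          ENNReal.ofReal (1 + r / s) * ENNReal.ofReal (en g z)) := by
        refine lintegral_mono_ae ?_
        filter_upwards [ae_diff hC.isOpen_compl hf, ae_diff hC.isOpen_compl hg] with z d1 d2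
        rw [← ENNReal.ofReal_mul hA, ← ENNReal.ofReal_mul hB,
          ← ENNReal.ofReal_add (mul_nonneg hA (en_nonneg _ _)) (mul_nonneg hB (en_nonneg _ _))]
        refine ENNReal.ofReal_le_ofReal ?_
        unfold en
        rw [gx_add d1 d2, gy_add d1 d2]
        have e1 := key (gx f z) (gx g z)
        have e2 := key (gy f z) (gy g z)
        linarith
    _ = ENNReal.ofReal (1 + s / r) * (∫⁻ z in Cᶜ, ENNReal.ofReal (en f z)) +
          ENNReal.ofReal (1 + r / s) * (∫⁻ z in Cᶜ, ENNReal.ofReal (en g z)) := by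
        rw [lintegral_add_left ((measurable_en f).ennreal_ofReal.const_mul _),
          lintegral_const_mul _ (measurable_en f).ennreal_ofReal,
          lintegral_const_mul _ (measurable_en g).ennreal_ofReal]
    _ ≤ ENNReal.ofReal (1 + s / r) * ENNReal.ofReal (r ^ 2) +
          ENNReal.ofReal (1 + r / s) * ENNReal.ofReal (s ^ 2) := by gcongr
    _ = ENNReal.ofReal ((r + s) ^ 2) := by
        rw [← ENNReal.ofReal_mul hA, ← ENNReal.ofReal_mul hB,
          ← ENNReal.ofReal_add (by positivity) (by positivity)]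
        congr 1; field_simp; ring

lemma Near.tri (hC : IsClosed C) (hr : 0 < r) (hs : 0 < s) (hu : LocallyLipschitzOn Cᶜ u)
    (hv : LocallyLipschitzOn Cᶜ v) (hw : LocallyLipschitzOn Cᶜ w) (h1 : Near C r u v)
    (h2 : Near C s v w) : Near C (r + s) u w := by
  refine ⟨?_, fun z => ?_, ?_⟩
  · rcases h1.off with h3 | h3
    · exact Or.inl (by linarith)
    rcases h2.off with h4 | h4
    · exact Or.inl (by linarith)
    refine Or.inr fun z hz => ?_
    rw [h3 z fun h => hz (thickening_mono (by linarith) C h),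
      h4 z fun h => hz (thickening_mono (by linarith) C h)]
  · have := abs_add_le (u z - v z) (v z - w z)
    rw [sub_add_sub_cancel] at this
    exact this.trans (add_le_add (h1.sup z) (h2.sup z))
  · have := lintegral_en_tri hC hr hs (ll_sub hu hv) (ll_sub hv hw) h1.enr h2.enr
    refine le_trans (le_of_eq ?_) this
    congr 1; funext z; congr 2; funext w'; ring

lemma Q.lintegral_en_ne_top (hu : Q C u) : ∫⁻ z in Cᶜ, ENNReal.ofReal (en u z) ≠ ∞ := by
  have := hu.fin.2
  rw [hasFiniteIntegral_iff_ofReal (Eventually.of_forall fun z => en_nonneg u z)] at this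
  exact this.ne

lemma integrableOn_en_of (h : ∫⁻ z in Cᶜ, ENNReal.ofReal (en u z) ≠ ∞) :
    IntegrableOn (en u) Cᶜ := by
  refine ⟨(measurable_en u).aestronglyMeasurable, ?_⟩
  rw [hasFiniteIntegral_iff_ofReal (Eventually.of_forall fun z => en_nonneg u z)]
  exact h.lt_top

lemma near_ex (hC : IsClosed C) (hu : Q C u) (hv : Q C v) : ∃ r > 0, Near C r u v := by
  obtain ⟨M, hM⟩ := (hu.sub hC hv).bdd
  have hf := (hu.sub hC hv).lintegral_en_ne_top
  set A := (∫⁻ z in Cᶜ, ENNReal.ofReal (en (fun w => u w - v w) z)).toReal with hA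
  have hA0 : 0 ≤ A := ENNReal.toReal_nonneg
  refine ⟨max (max M 1) (A + 1), lt_max_of_lt_left (lt_max_of_lt_right one_pos),
    Or.inl ((le_max_right _ _).trans (le_max_left _ _)),
    fun z => (hM z).trans ((le_max_left _ _).trans (le_max_left _ _)), ?_⟩
  rw [← ENNReal.ofReal_toReal hf]
  refine ENNReal.ofReal_le_ofReal ?_
  rw [← hA]
  have h1 : A + 1 ≤ max (max M 1) (A + 1) := le_max_right _ _
  nlinarith

end

/-! ### the metric space -/

/-- honest functions -/
def Hn (C : Set ℂ) : Type := {u : ℂ → ℝ // D C u}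

/-- the gauge of `Near` -/
lemma gauge {C : Set ℂ} (hC : IsClosed C) :
    Gauge (fun (r : ℝ) (u v : Hn C) => Near C r u.1 v.1) where
  refl r hr x := Near.refl hr x.1
  symm r _ x y h := h.symm
  tri r s hr hs x y z h1 h2 := h1.tri hC hr hs x.2.loc y.2.loc z.2.loc h2
  mono r s hr hrs x y h := h.mono hr hrs
  ex x y := near_ex hC x.2.q y.2.q
  sep x y h := by
    refine Subtype.ext (funext fun z => ?_)
    by_contra hne
    have hpos : 0 < |x.1 z - y.1 z| := abs_pos.2 (sub_ne_zero.2 hne)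
    have := (h (|x.1 z - y.1 z| / 2) (half_pos hpos)).sup z
    linarith

/-- the metric on `Hn C` -/
@[instance_reducible] def metr {C : Set ℂ} (hC : IsClosed C) : MetricSpace (Hn C) := (gauge hC).metric

section Metric
variable {C : Set ℂ} (hC : IsClosed C)
include hC

lemma near_of_dist_lt {x y : Hn C} {r : ℝ} (h : (metr hC).dist x y < r) : Near C r x.1 y.1 :=
  (gauge hC).of_gd_lt h

lemma dist_le_of_near {x y : Hn C} {r : ℝ} (hr : 0 < r) (h : Near C r x.1 y.1) :
    (metr hC).dist x y ≤ r := Gauge.gd_le hr h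

/-- Fatou for the energy of the difference -/
lemma near_limit {u : ℕ → ℂ → ℝ} {x : ℂ → ℝ} {B : ℕ → ℝ}
    (hBt : Tendsto B atTop (𝓝 0)) (hB1 : ∀ n, B n < 1)
    (h : ∀ N n m, N ≤ n → N ≤ m → Near C (B N) (u n) (u m))
    (hx : ∀ z, Tendsto (fun n => u n z) atTop (𝓝 (x z))) {N n : ℕ} (hn : N ≤ n) :
    Near C (B N) (u n) x := by
  have hoff : ∀ N n m, N ≤ n → N ≤ m → ∀ z ∉ thickening (B N) C, u n z = u m z := by
    intro N n m h1 h2
    rcases (h N n m h1 h2).off with h3 | h3
    · exact absurd (hB1 N) (not_lt.2 h3)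
    · exact h3
  have hoffx : ∀ N n, N ≤ n → ∀ z ∉ thickening (B N) C, u n z = x z := by
    intro N n hn z hz
    refine tendsto_nhds_unique (tendsto_const_nhds) ((hx z).congr' ?_)
    filter_upwards [eventually_ge_atTop N] with m hm
    exact (hoff N n m hn hm z hz).symm
  refine ⟨Or.inr (hoffx N n hn), fun z => ?_, ?_⟩
  · refine le_of_tendsto ((tendsto_const_nhds.sub (hx z)).abs) ?_
    filter_upwards [eventually_ge_atTop N] with m hm
    exact (h N n m hn hm).sup z
  · have hpt : ∀ z ∈ Cᶜ, ∀ᶠ m in atTop,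
        en (fun w => u n w - u m w) z = en (fun w => u n w - x w) z := by
      intro z hz
      obtain ⟨ρ, hρ, hρz⟩ := Metric.isOpen_iff.1 hC.isOpen_compl z hz
      obtain ⟨M, hM⟩ := (hBt.eventually (gt_mem_nhds (half_pos hρ))).exists
      filter_upwards [eventually_ge_atTop M] with m hm
      refine en_eq_of_eventuallyEq ?_
      filter_upwards [ball_mem_nhds z (half_pos hρ)] with w hw
      have hwn : w ∉ thickening (B M) C := by
        intro hw2
        obtain ⟨c, hc, hd⟩ := mem_thickening_iff.1 hw2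
        refine hρz (mem_ball.2 ?_) hc
        rw [mem_ball] at hw
        have := dist_triangle c w z
        rw [dist_comm c w] at this
        linarith
      rw [hoffx M m hm w hwn]
    have hF := lintegral_liminf_le (μ := volume.restrict Cᶜ) (ι := ℕ) (u := atTop)
      (f := fun m z => ENNReal.ofReal (en (fun w => u n w - u m w) z))
      (fun m => (measurable_en _).ennreal_ofReal)
    have h1 : ∫⁻ z in Cᶜ, ENNReal.ofReal (en (fun w => u n w - x w) z) ≤
        ∫⁻ z in Cᶜ, liminf (fun m => ENNReal.ofReal (en (fun w => u n w - u m w) z)) atTop := by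
      refine lintegral_mono_ae ?_
      filter_upwards [ae_restrict_mem hC.isOpen_compl.measurableSet] with z hz
      refine le_of_eq ?_
      have := hpt z hz
      have h2 : Tendsto (fun m => ENNReal.ofReal (en (fun w => u n w - u m w) z)) atTop
          (𝓝 (ENNReal.ofReal (en (fun w => u n w - x w) z))) :=
        tendsto_const_nhds.congr' (this.mono fun m hm => by simp only [hm])
      exact h2.liminf_eq.symm
    refine h1.trans (hF.trans ?_)
    refine liminf_le_of_frequently_le' ?_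
    refine Eventually.frequently ?_
    filter_upwards [eventually_ge_atTop N] with m hm
    exact (h N n m hn hm).enr

lemma complete : @CompleteSpace (Hn C) (metr hC).toUniformSpace := by
  let _ := metr hC
  refine Metric.complete_of_convergent_controlled_sequences (fun n => (1 / 2 : ℝ) ^ (n + 1))
    (fun n => by positivity) ?_
  intro u hu
  set B : ℕ → ℝ := fun n => (1 / 2 : ℝ) ^ (n + 1) with hBdef
  have hB0 : ∀ n, 0 < B n := fun n => by positivity
  have hBt : Tendsto B atTop (𝓝 0) := by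
    have := (tendsto_pow_atTop_nhds_zero_of_lt_one (r := (1 / 2 : ℝ)) (by norm_num)
      (by norm_num)).comp (tendsto_add_atTop_nat 1)
    exact this
  have hB1 : ∀ n, B n < 1 := fun n => pow_lt_one₀ (by norm_num) (by norm_num) (by omega)
  have hN : ∀ N n m, N ≤ n → N ≤ m → Near C (B N) (u n).1 (u m).1 :=
    fun N n m h1 h2 => near_of_dist_lt hC (hu N n m h1 h2)
  have hcau : ∀ z, CauchySeq fun n => (u n).1 z := by
    intro z
    rw [Metric.cauchySeq_iff']
    intro ε hε
    obtain ⟨N, hN'⟩ := (hBt.eventually (gt_mem_nhds hε)).exists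
    refine ⟨N, fun n hn => ?_⟩
    rw [Real.dist_eq]
    exact lt_of_le_of_lt ((hN N n N hn le_rfl).sup z) hN'
  choose x hx using fun z => cauchySeq_tendsto_of_complete (hcau z)
  have hnear : ∀ N n, N ≤ n → Near C (B N) (u n).1 x := fun N n hn =>
    near_limit hC hBt hB1 hN hx hn
  have hoff : ∀ N n, N ≤ n → ∀ z ∉ thickening (B N) C, (u n).1 z = x z := by
    intro N n hn
    rcases (hnear N n hn).off with h3 | h3
    · exact absurd (hB1 N) (not_lt.2 h3)
    · exact h3
  have hD : D C x := by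
    refine ⟨?_, ?_, ?_, ?_⟩
    · have hunif : TendstoUniformly (fun n => (u n).1) x atTop := by
        rw [Metric.tendstoUniformly_iff]
        intro ε hε
        filter_upwards [hBt.eventually (gt_mem_nhds hε)] with n hn z
        rw [dist_comm, Real.dist_eq]
        exact lt_of_le_of_lt ((hnear n n le_rfl).sup z) hn
      exact hunif.continuous (Frequently.of_forall fun n => (u n).2.cont)
    · obtain ⟨M, hM⟩ := (u 0).2.bdd
      refine ⟨M + B 0, fun z => ?_⟩
      have h1 := (hnear 0 0 le_rfl).sup z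
      have h2 : |x z| ≤ |(u 0).1 z| + |(u 0).1 z - x z| := by
        have := abs_sub ((u 0).1 z) ((u 0).1 z - x z)
        rwa [sub_sub_cancel] at this
      linarith [hM z]
    · intro z hz
      obtain ⟨ρ, hρ, hρz⟩ := Metric.isOpen_iff.1 hC.isOpen_compl z hz
      obtain ⟨M, hM⟩ := (hBt.eventually (gt_mem_nhds (half_pos hρ))).exists
      obtain ⟨K, t, ht, hL⟩ := (u M).2.loc hz
      rw [hC.isOpen_compl.nhdsWithin_eq hz] at ht
      refine ⟨K, t ∩ ball z (ρ / 2), ?_, ?_⟩
      · rw [hC.isOpen_compl.nhdsWithin_eq hz]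
        exact inter_mem ht (ball_mem_nhds z (half_pos hρ))
      · have hEq : EqOn (u M).1 x (t ∩ ball z (ρ / 2)) := by
          intro w hw
          refine hoff M M le_rfl w fun hw2 => ?_
          obtain ⟨c, hc, hd⟩ := mem_thickening_iff.1 hw2
          refine hρz (mem_ball.2 ?_) hc
          have hw3 := mem_ball.1 hw.2
          have := dist_triangle c w z
          rw [dist_comm c w] at this
          linarith
        intro a ha b hb
        rw [← hEq ha, ← hEq hb]
        exact hL ha.1 hb.1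
    · have hll : LocallyLipschitzOn Cᶜ x := by
        intro z hz
        obtain ⟨ρ, hρ, hρz⟩ := Metric.isOpen_iff.1 hC.isOpen_compl z hz
        obtain ⟨M, hM⟩ := (hBt.eventually (gt_mem_nhds (half_pos hρ))).exists
        obtain ⟨K, t, ht, hL⟩ := (u M).2.loc hz
        rw [hC.isOpen_compl.nhdsWithin_eq hz] at ht
        refine ⟨K, t ∩ ball z (ρ / 2), ?_, ?_⟩
        · rw [hC.isOpen_compl.nhdsWithin_eq hz]
          exact inter_mem ht (ball_mem_nhds z (half_pos hρ))
        · have hEq : EqOn (u M).1 x (t ∩ ball z (ρ / 2)) := by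
            intro w hw
            refine hoff M M le_rfl w fun hw2 => ?_
            obtain ⟨c, hc, hd⟩ := mem_thickening_iff.1 hw2
            refine hρz (mem_ball.2 ?_) hc
            have hw3 := mem_ball.1 hw.2
            have := dist_triangle c w z
            rw [dist_comm c w] at this
            linarith
          intro a ha b hb
          rw [← hEq ha, ← hEq hb]
          exact hL ha.1 hb.1
      have h1 : ∫⁻ z in Cᶜ, ENNReal.ofReal (en (u 0).1 z) ≠ ∞ := (u 0).2.q.lintegral_en_ne_top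
      have h2 := (hnear 0 0 le_rfl).symm.enr
      have h3 : ∫⁻ z in Cᶜ, ENNReal.ofReal (en x z) ≤
          2 * (∫⁻ z in Cᶜ, ENNReal.ofReal (en (u 0).1 z)) +
          2 * ∫⁻ z in Cᶜ, ENNReal.ofReal (en (fun w => x w - (u 0).1 w) z) := by
        rw [← lintegral_const_mul _ (measurable_en _).ennreal_ofReal,
          ← lintegral_const_mul _ (measurable_en _).ennreal_ofReal,
          ← lintegral_add_left ((measurable_en _).ennreal_ofReal.const_mul _)]
        refine lintegral_mono_ae ?_
        filter_upwards [ae_diff hC.isOpen_compl hll, ae_diff hC.isOpen_compl (u 0).2.loc]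
          with z d1 d2
        have e1 := en_add_le (u := (u 0).1) (v := fun w => x w - (u 0).1 w) d2 (d1.fun_sub d2)
        have e2 : (fun w => (u 0).1 w + (x w - (u 0).1 w)) = x := by funext w; ring
        rw [e2] at e1
        have e3 : (2 : ℝ≥0∞) = ENNReal.ofReal 2 := by norm_num
        rw [e3, ← ENNReal.ofReal_mul (by norm_num), ← ENNReal.ofReal_mul (by norm_num),
          ← ENNReal.ofReal_add (mul_nonneg (by norm_num) (en_nonneg _ _))
            (mul_nonneg (by norm_num) (en_nonneg _ _))]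
        exact ENNReal.ofReal_le_ofReal e1
      refine integrableOn_en_of (ne_top_of_le_ne_top ?_ h3)
      refine ENNReal.add_ne_top.2 ⟨ENNReal.mul_ne_top (by norm_num) h1,
        ENNReal.mul_ne_top (by norm_num) (ne_top_of_le_ne_top ENNReal.ofReal_ne_top h2)⟩
  refine ⟨⟨x, hD⟩, ?_⟩
  rw [tendsto_iff_dist_tendsto_zero]
  refine squeeze_zero (fun n => dist_nonneg) (fun n => ?_) hBt
  exact dist_le_of_near hC (hB0 n) (hnear n n le_rfl)

end Metric

end

end Crest.Agent.R105.Bd_775
end

-- ▼ part R105/Sel1_658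
section

/-!
Abstract greedy selection with closings (post #9488 (3)).

`X` complete metric space, `Iso` a predicate on sets of finite character, closed under limits of
finite families, `J` continuous and bounded below.  `select` produces a sequence `b` with
`dist (b 0) v ≤ η`, `Iso (range b)`, `J (b k) → m` and the robust greedy property.
-/

open Set Filter Topology

namespace Crest.Agent.R105.Sel_658

variable {X : Type*}

/-- dependent choice along `ℕ` with an invariant -/
theorem exists_seq_inv {S : Type*} (Inv : ℕ → S → Prop) (R : ℕ → S → S → Prop) (s0 : S)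
    (h0 : Inv 0 s0) (hstep : ∀ k s, Inv k s → ∃ s', Inv (k + 1) s' ∧ R k s s') :
    ∃ σ : ℕ → S, σ 0 = s0 ∧ ∀ k, Inv k (σ k) ∧ R k (σ k) (σ (k + 1)) := by
  classical
  choose! nx hnx using hstep
  let σ : ℕ → S := fun k => Nat.rec s0 (fun k s => nx k s) k
  have hσ0 : σ 0 = s0 := rfl
  have hσs : ∀ k, σ (k + 1) = nx k (σ k) := fun k => rfl
  have hI : ∀ k, Inv k (σ k) := by
    intro k
    induction k with
    | zero => rw [hσ0]; exact h0
    | succ k ih => rw [hσs]; exact (hnx k _ ih).1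
  refine ⟨σ, hσ0, fun k => ⟨hI k, ?_⟩⟩
  rw [hσs]
  exact (hnx k _ (hI k)).2

/-- The hypotheses on the isotropy predicate. -/
structure IsoPred [TopologicalSpace X] (Iso : Set X → Prop) : Prop where
  mono : ∀ {S T : Set X}, S ⊆ T → Iso T → Iso S
  fin : ∀ {S : Set X}, (∀ F ⊆ S, F.Finite → Iso F) → Iso S
  lim : ∀ (n : ℕ) (s : ℕ → ℕ → X) (b : ℕ → X), (∀ k, Iso (s k '' Iic n)) →
    (∀ i ≤ n, Tendsto (fun k => s k i) atTop (𝓝 (b i))) → Iso (b '' Iic n)

theorem IsoPred.range [TopologicalSpace X] {Iso : Set X → Prop} (hI : IsoPred Iso) {b : ℕ → X}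
    (h : ∀ n, Iso (b '' Iic n)) : Iso (range b) := by
  classical
  refine hI.fin fun F hF hfin => ?_
  -- `F ⊆ b '' Iic n` for some `n`
  have : ∃ n, F ⊆ b '' Iic n := by
    have hch : ∀ x ∈ F, ∃ i, b i = x := fun x hx => hF hx
    choose! f hf using hch
    obtain ⟨n, hn⟩ := (hfin.image f).bddAbove
    exact ⟨n, fun x hx => ⟨f x, hn ⟨x, hx, rfl⟩, hf x hx⟩⟩
  obtain ⟨n, hn⟩ := this
  exact hI.mono hn (h n)

/-- **Greedy selection with closings.** -/
theorem select [MetricSpace X] [CompleteSpace X] {Iso : Set X → Prop} (hI : IsoPred Iso)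
    {J : X → ℝ} (hJ : Continuous J) {L : ℝ} (hL : ∀ x, L ≤ J x) {v u₀ : X} (h0 : Iso {v, u₀})
    {η : ℝ} (hη : 0 < η) :
    ∃ (b : ℕ → X) (m : ℝ), dist (b 0) v ≤ η ∧ Iso (range b) ∧
      Tendsto (fun k => J (b k)) atTop (𝓝 m) ∧ L ≤ m ∧
      ∀ g > 0, ∃ n : ℕ, ∃ δ > 0, ∀ (c : ℕ → X) (u : X), (∀ i ≤ n, dist (c i) (b i) ≤ δ) →
        Iso (insert u (c '' Iic n)) → m - g ≤ J u := by
  classical
  -- states
  let Inv : ℕ → (ℕ → X) × (ℕ → ℝ) → Prop := fun k p =>
    Iso (p.1 '' Iic (k + 1)) ∧ ∀ i ≤ k + 1, 0 < p.2 i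
  let R : ℕ → (ℕ → X) × (ℕ → ℝ) → (ℕ → X) × (ℕ → ℝ) → Prop := fun k p q =>
    (∀ i ≤ k + 1, dist (q.1 i) (p.1 i) ≤ p.2 i * (J (p.1 (k + 1)) - J (q.1 (k + 2)))) ∧
    (∀ (c : ℕ → X) (u : X), Iso (insert u (c '' Iic (k + 1))) →
      (∀ i ≤ k + 1, dist (c i) (p.1 i) ≤ p.2 i * (J (p.1 (k + 1)) - J u)) →
      J (q.1 (k + 2)) ≤ J u + (1 / 2 : ℝ) ^ k) ∧
    (∀ i ≤ k + 1, q.2 i = p.2 i) ∧
    (∀ x, dist x (q.1 (k + 2)) ≤ q.2 (k + 2) * (J (q.1 (k + 2)) - L) →
      |J x - J (q.1 (k + 2))| ≤ (1 / 2 : ℝ) ^ k)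
  have hκ : ∀ (u : X) (ε : ℝ), 0 < ε → ∃ κ > 0, ∀ x, dist x u ≤ κ * (J u - L) → |J x - J u| ≤ ε := by
    intro u ε hε
    obtain ⟨ρ, hρ, h⟩ := Metric.continuous_iff.1 hJ u ε hε
    have hpos : 0 < J u - L + 1 := by linarith [hL u]
    refine ⟨ρ / 2 / (J u - L + 1), by positivity, fun x hx => ?_⟩
    have h1 : ρ / 2 / (J u - L + 1) * (J u - L) ≤ ρ / 2 := by
      rw [div_mul_eq_mul_div, div_le_iff₀ hpos]
      have := hL u
      nlinarith
    have h2 := h x (by linarith)
    rw [Real.dist_eq] at h2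
    exact h2.le
  obtain ⟨σ, hσ0, hσ⟩ := exists_seq_inv Inv R
    ((fun i => if i = 0 then v else u₀), (fun _ => η / (J u₀ - L + 1))) (by
      have hpos : 0 < J u₀ - L + 1 := by linarith [hL u₀]
      refine ⟨hI.mono ?_ h0, fun i _ => by positivity⟩
      rintro x ⟨i, -, rfl⟩
      by_cases hi : i = 0 <;> simp [hi]) (by
      intro k p hp
      obtain ⟨hiso, hpos⟩ := hp
      -- the admissible values
      let A : Set ℝ := {t | ∃ (c : ℕ → X) (u : X), Iso (insert u (c '' Iic (k + 1))) ∧
        (∀ i ≤ k + 1, dist (c i) (p.1 i) ≤ p.2 i * (J (p.1 (k + 1)) - J u)) ∧ J u = t}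
      have hAne : A.Nonempty := by
        refine ⟨J (p.1 (k + 1)), p.1, p.1 (k + 1), ?_, fun i _ => by simp, rfl⟩
        rwa [insert_eq_of_mem]
        exact ⟨k + 1, mem_Iic.2 le_rfl, rfl⟩
      have hAb : BddBelow A := ⟨L, by rintro t ⟨c, u, -, -, rfl⟩; exact hL u⟩
      obtain ⟨t, ⟨c, u, hcu, hd, rfl⟩, ht⟩ := exists_lt_of_csInf_lt hAne
        (show sInf A < sInf A + (1 / 2 : ℝ) ^ k by
          have : (0 : ℝ) < (1 / 2 : ℝ) ^ k := by positivity
          linarith)
      obtain ⟨κ, hκ0, hκ1⟩ := hκ u ((1 / 2 : ℝ) ^ k) (by positivity)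
      refine ⟨(fun i => if i ≤ k + 1 then c i else u, fun i => if i ≤ k + 1 then p.2 i else κ),
        ⟨?_, ?_⟩, ?_, ?_, ?_, ?_⟩
      · refine hI.mono ?_ hcu
        rintro x ⟨i, -, rfl⟩
        by_cases hi : i ≤ k + 1
        · right
          exact ⟨i, hi, by simp [hi]⟩
        · left
          simp [hi]
      · intro i _
        by_cases hi : i ≤ k + 1
        · simpa [hi] using hpos i hi
        · simpa [hi] using hκ0
      · intro i hi
        simp only [hi, if_true]
        have : ¬ (k + 2 ≤ k + 1) := by omega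
        simp only [this, if_false]
        exact hd i hi
      · intro c' u' hiso' hd'
        have h1 : ¬ (k + 2 ≤ k + 1) := by omega
        simp only [h1, if_false]
        have : sInf A ≤ J u' := csInf_le hAb ⟨c', u', hiso', hd', rfl⟩
        linarith
      · intro i hi
        simp [hi]
      · intro x hx
        have h1 : ¬ (k + 2 ≤ k + 1) := by omega
        simp only [h1, if_false] at hx ⊢
        exact hκ1 x hx)
  -- notation
  set s : ℕ → ℕ → X := fun k => (σ k).1 with hs
  set κ : ℕ → ℕ → ℝ := fun k => (σ k).2 with hκdef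
  have hiso : ∀ k, Iso (s k '' Iic (k + 1)) := fun k => (hσ k).1.1
  have hκpos : ∀ k i, i ≤ k + 1 → 0 < κ k i := fun k => (hσ k).1.2
  have hd : ∀ k i, i ≤ k + 1 → dist (s (k + 1) i) (s k i) ≤
      κ k i * (J (s k (k + 1)) - J (s (k + 1) (k + 2))) := fun k => (hσ k).2.1
  have hopt : ∀ k (c : ℕ → X) (u : X), Iso (insert u (c '' Iic (k + 1))) →
      (∀ i ≤ k + 1, dist (c i) (s k i) ≤ κ k i * (J (s k (k + 1)) - J u)) →
      J (s (k + 1) (k + 2)) ≤ J u + (1 / 2 : ℝ) ^ k := fun k => (hσ k).2.2.1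
  have hκs : ∀ k i, i ≤ k + 1 → κ (k + 1) i = κ k i := fun k => (hσ k).2.2.2.1
  have hcont : ∀ k x, dist x (s (k + 1) (k + 2)) ≤ κ (k + 1) (k + 2) * (J (s (k + 1) (k + 2)) - L) →
      |J x - J (s (k + 1) (k + 2))| ≤ (1 / 2 : ℝ) ^ k := fun k => (hσ k).2.2.2.2
  let j : ℕ → ℝ := fun k => J (s k (k + 1))
  have hjs : ∀ k, j (k + 1) ≤ j k := by
    intro k
    have h1 := hd k 0 (by omega)
    have h2 := hκpos k 0 (by omega)
    have h3 : 0 ≤ κ k 0 * (j k - j (k + 1)) := le_trans dist_nonneg h1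
    by_contra h
    push Not at h
    have : κ k 0 * (j k - j (k + 1)) < 0 := mul_neg_of_pos_of_neg h2 (by linarith)
    linarith
  have hjanti : Antitone j := antitone_nat_of_succ_le hjs
  have hjL : ∀ k, L ≤ j k := fun k => hL _
  obtain ⟨m, hm⟩ : ∃ m, Tendsto j atTop (𝓝 m) :=
    ⟨_, tendsto_atTop_ciInf hjanti ⟨L, by rintro _ ⟨k, rfl⟩; exact hjL k⟩⟩
  have hmj : ∀ k, m ≤ j k := fun k => hjanti.le_of_tendsto hm k
  have hLm : L ≤ m := ge_of_tendsto' hm hjL
  -- stable constants
  have hκst : ∀ k l i, i ≤ k + 1 → κ (k + l) i = κ k i := by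
    intro k l i hi
    induction l with
    | zero => rfl
    | succ l ih => rw [← add_assoc, hκs (k + l) i (by omega), ih]
  -- total change
  have htot : ∀ k l i, i ≤ k + 1 → dist (s (k + l) i) (s k i) ≤ κ k i * (j k - j (k + l)) := by
    intro k l i hi
    induction l with
    | zero => simp
    | succ l ih =>
      have h1 := hd (k + l) i (by omega)
      rw [hκst k l i hi] at h1
      have h2 := dist_triangle (s (k + l + 1) i) (s (k + l) i) (s k i)
      have h3 : κ k i * (j k - j (k + (l + 1))) =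
          κ k i * (j (k + l) - j (k + l + 1)) + κ k i * (j k - j (k + l)) := by
        rw [← add_assoc]; ring
      rw [h3, ← add_assoc]
      have h1' : dist (s (k + l + 1) i) (s (k + l) i) ≤ κ k i * (j (k + l) - j (k + l + 1)) := h1
      linarith
  have hcau : ∀ i, CauchySeq (fun k => s k i) := by
    intro i
    refine Metric.cauchySeq_iff'.2 fun ε hε => ?_
    -- choose `k ≥ i` with `κ k i * (j k - m) < ε`
    have hpos : 0 < κ i i := hκpos i i (by omega)
    have hlim : Tendsto (fun k => κ i i * (j k - m)) atTop (𝓝 0) := by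
      have := (hm.sub_const m).const_mul (κ i i)
      simpa using this
    obtain ⟨N, hN⟩ := (Filter.eventually_atTop.1 (hlim.eventually (gt_mem_nhds hε)))
    refine ⟨max N i, fun n hn => ?_⟩
    obtain ⟨l, rfl⟩ := Nat.exists_eq_add_of_le hn
    have h1 := htot (max N i) l i (by have := le_max_right N i; omega)
    have h2 : κ (max N i) i = κ i i := by
      obtain ⟨l', hl'⟩ := Nat.exists_eq_add_of_le (le_max_right N i)
      rw [hl']
      exact hκst i l' i (by omega)
    rw [h2] at h1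
    have h3 := hN (max N i) (le_max_left _ _)
    have h4 : κ i i * (j (max N i) - j (max N i + l)) ≤ κ i i * (j (max N i) - m) := by
      apply mul_le_mul_of_nonneg_left _ hpos.le
      linarith [hmj (max N i + l)]
    exact lt_of_le_of_lt (h1.trans h4) h3
  have hb : ∀ i, ∃ x, Tendsto (fun k => s k i) atTop (𝓝 x) := fun i =>
    cauchySeq_tendsto_of_complete (hcau i)
  choose b hb using hb
  have hbd : ∀ k i, i ≤ k + 1 → dist (b i) (s k i) ≤ κ k i * (j k - m) := by
    intro k i hi
    have h1 : Tendsto (fun l => dist (s (k + l) i) (s k i)) atTop (𝓝 (dist (b i) (s k i))) := by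
      have h2 : Tendsto (fun l => s (k + l) i) atTop (𝓝 (b i)) := by
        have := (hb i).comp (tendsto_add_atTop_nat k)
        refine this.congr fun l => ?_
        simp [add_comm]
      exact h2.dist tendsto_const_nhds
    refine le_of_tendsto' h1 fun l => (htot k l i hi).trans ?_
    apply mul_le_mul_of_nonneg_left _ (hκpos k i hi).le
    linarith [hmj (k + l)]
  refine ⟨b, m, ?_, ?_, ?_, hLm, ?_⟩
  · -- closeness to `v`
    have h1 := hbd 0 0 (by omega)
    have h2 : s 0 0 = v := by simp [hs, hσ0]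
    have h3 : κ 0 0 = η / (J u₀ - L + 1) := by simp [hκdef, hσ0]
    have h4 : j 0 = J u₀ := by simp [j, hs, hσ0]
    rw [h2, h3, h4] at h1
    refine h1.trans ?_
    have hpos : 0 < J u₀ - L + 1 := by linarith [hL u₀]
    rw [div_mul_eq_mul_div, div_le_iff₀ hpos]
    apply mul_le_mul_of_nonneg_left _ hη.le
    linarith
  · -- isotropy of the limit
    refine hI.range fun n => ?_
    refine hI.lim n (fun k => s (k + n)) b (fun k => hI.mono (image_mono ?_) (hiso (k + n))) ?_
    · exact Iic_subset_Iic.2 (by omega)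
    · intro i _
      exact (hb i).comp (tendsto_add_atTop_nat n)
  · -- `J (b k) → m`
    have h1 : ∀ k, |J (b (k + 2)) - j (k + 1)| ≤ (1 / 2 : ℝ) ^ k := by
      intro k
      refine hcont k (b (k + 2)) ((hbd (k + 1) (k + 2) (by omega)).trans ?_)
      apply mul_le_mul_of_nonneg_left _ (hκpos (k + 1) (k + 2) (by omega)).le
      have : j (k + 1) = J (s (k + 1) (k + 2)) := rfl
      rw [this]
      linarith
    have h2 : Tendsto (fun k => J (b (k + 2)) - j (k + 1)) atTop (𝓝 0) := by
      refine squeeze_zero_norm (a := fun k => (1 / 2 : ℝ) ^ k) (fun k => ?_)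
        (tendsto_pow_atTop_nhds_zero_of_lt_one (by norm_num) (by norm_num))
      simpa using h1 k
    have h3 : Tendsto (fun k => J (b (k + 2))) atTop (𝓝 m) := by
      have := h2.add (hm.comp (tendsto_add_atTop_nat 1))
      simpa using this
    exact (tendsto_add_atTop_iff_nat 2).1 h3
  · -- robust greedy property
    intro g hg
    obtain ⟨k, hk⟩ : ∃ k : ℕ, (1 / 2 : ℝ) ^ k < g := exists_pow_lt_of_lt_one hg (by norm_num)
    obtain ⟨κ₀, hκ₀, hκ₀le⟩ : ∃ κ₀ > 0, ∀ i ≤ k + 1, κ₀ ≤ κ k i := by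
      have hfin : (Iic (k + 1)).Finite := finite_Iic _
      obtain ⟨i₀, hi₀, hmin⟩ := Set.exists_min_image (Iic (k + 1)) (κ k) hfin ⟨0, by simp⟩
      exact ⟨κ k i₀, hκpos k i₀ hi₀, fun i hi => hmin i hi⟩
    refine ⟨k + 1, κ₀ * g, by positivity, fun c u hc hcu => ?_⟩
    by_contra hlt
    push Not at hlt
    have h1 := hopt k c u hcu (fun i hi => by
      have h2 := dist_triangle (c i) (b i) (s k i)
      have h3 := hc i hi
      have h4 := hbd k i hi
      have h5 := hκ₀le i hi
      have h6 := hκpos k i hi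
      have h7 : κ₀ * g ≤ κ k i * g := mul_le_mul_of_nonneg_right h5 hg.le
      have h8 : κ k i * (j k - m) + κ k i * g ≤ κ k i * (J (s k (k + 1)) - J u) := by
        rw [← mul_add]
        apply mul_le_mul_of_nonneg_left _ h6.le
        show j k - m + g ≤ j k - J u
        linarith
      linarith)
    have h2 : m ≤ j (k + 1) := hmj (k + 1)
    have h3 : j (k + 1) = J (s (k + 1) (k + 2)) := rfl
    linarith

end Crest.Agent.R105.Sel_658
end

-- ▼ part R105/Bd4_775

/-!
# Row 105, S0139 [B]: the honest class satisfies the hypotheses of 658's `select` (helper775)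

* `cv_of_tendsto` : convergence in `metr hC` gives `Cv`
* `isoPred hC : IsoPred (IsoH C)` in the metric space `metr hC`
* `continuous_di`, `continuous_J`
-/

set_option autoImplicit false
set_option linter.style.haveILetI false

open MeasureTheory Set Filter Topology Metric
open scoped NNReal ENNReal

namespace Crest.Agent.R105.Bd_775

noncomputable section

section
variable {C : Set ℂ}

lemma unif_bdd {a : ℕ → ℂ → ℝ} (h : ∀ n, ∃ M, ∀ z, |a n z| ≤ M) {M₀ : ℝ}
    (h' : ∀ᶠ n in atTop, ∀ z, |a n z| ≤ M₀) : ∃ M, ∀ n z, |a n z| ≤ M := by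
  obtain ⟨N, hN⟩ := eventually_atTop.1 h'
  choose M hM using h
  refine ⟨(Finset.range N).sum (fun k => |M k|) + |M₀|, fun n z => ?_⟩
  by_cases hn : N ≤ n
  · have h1 := hN n hn z
    have h2 : 0 ≤ (Finset.range N).sum (fun k => |M k|) := Finset.sum_nonneg fun _ _ => abs_nonneg _
    linarith [le_abs_self M₀]
  · have h1 := hM n z
    have h2 : |M n| ≤ (Finset.range N).sum (fun k => |M k|) :=
      Finset.single_le_sum (f := fun k => |M k|) (fun _ _ => abs_nonneg _)
        (Finset.mem_range.2 (not_le.1 hn))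
    linarith [le_abs_self (M n), abs_nonneg M₀]

/-- convergence in the metric gives `Cv` -/
theorem cv_of_tendsto (hC : IsClosed C) {x : ℕ → Hn C} {y : Hn C}
    (h : letI := metr hC; Tendsto x atTop (𝓝 y)) : Cv C (fun n => (x n).1) y.1 := by
  letI := metr hC
  have hn : ∀ r > 0, ∀ᶠ n in atTop, Near C r (x n).1 y.1 := by
    intro r hr
    filter_upwards [(Metric.tendsto_nhds.1 h) r hr] with n hn
    exact near_of_dist_lt hC hn
  refine ⟨fun r hr => ?_, ?_, fun ε hε => ?_⟩
  · filter_upwards [hn (min r (1 / 2)) (by positivity)] with n h1 z hz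
    rcases h1.off with h2 | h2
    · have := h2.trans (min_le_right r (1 / 2)); norm_num at this
    · exact h2 z fun h3 => hz (thickening_mono (min_le_left _ _) C h3)
  · obtain ⟨M, hM⟩ := y.2.bdd
    refine unif_bdd (fun n => (x n).2.bdd) (M₀ := M + 1) ?_
    filter_upwards [hn 1 one_pos] with n h1 z
    have h2 := h1.sup z
    have h3 : |(x n).1 z| ≤ |(x n).1 z - y.1 z| + |y.1 z| := by
      have := abs_add_le ((x n).1 z - y.1 z) (y.1 z)
      rwa [sub_add_cancel] at this
    linarith [hM z]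
  · obtain ⟨r, hr, h1⟩ := y.2.q.small hC (ε := ε / 4) (by positivity)
    have hρ : 0 < Real.sqrt (ε / 4) := Real.sqrt_pos.2 (by positivity)
    refine ⟨r, hr, ?_⟩
    filter_upwards [hn (Real.sqrt (ε / 4)) hρ] with n h2
    have h3 := h2.enr
    rw [Real.sq_sqrt (by positivity)] at h3
    have h4 : Ln C r (x n).1 ≤ ENNReal.ofReal 2 * Ln C r (fun w => (x n).1 w - y.1 w) +
        ENNReal.ofReal 2 * Ln C r y.1 := by
      refine Ln_le_of_ae (by norm_num) (by norm_num) ?_
      filter_upwards [ae_diff_near hC (x n).2.q r, ae_diff_near hC y.2.q r] with z d1 d2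
      have := en_add_le (u := fun w => (x n).1 w - y.1 w) (v := y.1) (d1.fun_sub d2) d2
      have e : (fun w => (x n).1 w - y.1 w + y.1 w) = (x n).1 := by funext w; ring
      rwa [e] at this
    refine h4.trans ?_
    have h5 : Ln C r (fun w => (x n).1 w - y.1 w) ≤ ENNReal.ofReal (ε / 4) :=
      (lintegral_mono_set inter_subset_left).trans h3
    calc _ ≤ ENNReal.ofReal 2 * ENNReal.ofReal (ε / 4) + ENNReal.ofReal 2 * ENNReal.ofReal (ε / 4) := by
          gcongr
      _ = ENNReal.ofReal ε := by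
          rw [← ENNReal.ofReal_mul (by norm_num), ← ENNReal.ofReal_add (by positivity) (by positivity)]
          congr 1; ring

/-- isotropic sets of honest functions -/
def IsoH (C : Set ℂ) (S : Set (Hn C)) : Prop :=
  IfB_641.Iso C ((fun x : Hn C => x.1) '' S)

/-- finite support of generation -/
lemma gen_finite {S : Set (ℂ → ℝ)} {u : ℂ → ℝ} (h : IfB_641.Gen C S u) :
    ∃ F ⊆ S, F.Finite ∧ IfB_641.Gen C F u := by
  unfold IfB_641.Gen at h
  induction h with
  | const c => exact ⟨∅, empty_subset _, finite_empty, IfB_641.Gen.const c⟩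
  | lc h' => exact ⟨∅, empty_subset _, finite_empty, IfB_641.Gen.lc h'⟩
  | of i => exact ⟨{i.1}, singleton_subset_iff.2 i.2, finite_singleton _,
      IfB_641.Gen.of (mem_singleton _)⟩
  | add _ _ h1 h2 =>
    obtain ⟨F, hF, fF, gF⟩ := h1
    obtain ⟨G, hG, fG, gG⟩ := h2
    exact ⟨F ∪ G, union_subset hF hG, fF.union fG,
      IfB_641.Gen.add (gF.mono subset_union_left) (gG.mono subset_union_right)⟩
  | mul _ _ h1 h2 =>
    obtain ⟨F, hF, fF, gF⟩ := h1
    obtain ⟨G, hG, fG, gG⟩ := h2
    exact ⟨F ∪ G, union_subset hF hG, fF.union fG,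
      IfB_641.Gen.mul (gF.mono subset_union_left) (gG.mono subset_union_right)⟩
  | comp hh _ h1 =>
    obtain ⟨F, hF, fF, gF⟩ := h1
    exact ⟨F, hF, fF, IfB_641.Gen.comp hh gF⟩

theorem iso_of_finite {S : Set (ℂ → ℝ)} (h : ∀ F ⊆ S, F.Finite → IfB_641.Iso C F) :
    IfB_641.Iso C S := by
  intro u v hu hv
  obtain ⟨F, hF, fF, gF⟩ := gen_finite hu
  obtain ⟨G, hG, fG, gG⟩ := gen_finite hv
  exact h (F ∪ G) (union_subset hF hG) (fF.union fG) u v (gF.mono subset_union_left)
    (gG.mono subset_union_right)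

/-- the hypotheses of `Sel_658.select` -/
theorem isoPred (hC : IsClosed C) :
    letI := metr hC; Sel_658.IsoPred (IsoH C) := by
  letI := metr hC
  refine ⟨fun hST hT => IfB_641.Iso.mono (image_mono hST) hT, ?_, ?_⟩
  · intro S h
    refine iso_of_finite fun F hF fF => ?_
    obtain ⟨F', hF', fF', rfl⟩ := exists_subset_image_finite_and.1 ⟨F, hF, fF, rfl⟩
    exact h F' hF' fF'
  · intro n s b hs hb
    unfold IsoH at hs ⊢
    have e : ∀ t : ℕ → Hn C, (fun x : Hn C => x.1) '' (t '' Iic n) =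
        range (fun i : Iic n => (t i).1) := by
      intro t
      rw [image_image]
      ext u
      constructor
      · rintro ⟨i, hi, rfl⟩; exact ⟨⟨i, hi⟩, rfl⟩
      · rintro ⟨i, rfl⟩; exact ⟨i.1, i.2, rfl⟩
    rw [e b, IfB_641.iso_range]
    refine iso_of_cv (b := fun k (i : Iic n) => (s k i).1) hC (fun k i => (s k i).2.q)
      (fun i => (b i).2.q) (fun i => ?_) (Frequently.of_forall fun k => ?_)
    · exact cv_of_tendsto hC (x := fun k => s k i) (hb i i.2)
    · rw [← IfB_641.iso_range, ← e (s k)]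
      exact hs k

/-! ### continuity of the energy -/

lemma setIntegral_en_eq {u : ℂ → ℝ} (hu : Q C u) :
    ENNReal.ofReal (∫ z in Cᶜ, en u z) = ∫⁻ z in Cᶜ, ENNReal.ofReal (en u z) :=
  ofReal_integral_eq_lintegral_ofReal hu.fin (Eventually.of_forall fun z => en_nonneg u z)

lemma en_integral_le {u : ℂ → ℝ} (hu : Q C u) {K : ℝ} (hK : 0 ≤ K)
    (h : ∫⁻ z in Cᶜ, ENNReal.ofReal (en u z) ≤ ENNReal.ofReal K) : ∫ z in Cᶜ, en u z ≤ K := by
  rw [← setIntegral_en_eq hu] at h
  exact (ENNReal.ofReal_le_ofReal_iff hK).1 h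

lemma di_self (u : ℂ → ℝ) : IfB_641.di C u u = ∫ z in Cᶜ, en u z := by
  unfold IfB_641.di; congr 1; funext z; unfold dot en; ring

lemma di_self_nonneg (u : ℂ → ℝ) : 0 ≤ IfB_641.di C u u := by
  rw [di_self]; exact integral_nonneg fun z => en_nonneg u z

/-- the energy of `u` against that of `v` -/
lemma di_le (hC : IsClosed C) {u v : ℂ → ℝ} (hu : Q C u) (hv : Q C v) {t : ℝ} (ht : 0 < t) :
    IfB_641.di C u u ≤ (1 + t) * IfB_641.di C v v +
      (1 + 1 / t) * IfB_641.di C (fun w => u w - v w) (fun w => u w - v w) := by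
  rw [di_self, di_self, di_self]
  have hw := hu.sub hC hv
  rw [← integral_const_mul, ← integral_const_mul, ← integral_add (hv.fin.const_mul _)
    (hw.fin.const_mul _)]
  refine integral_mono_ae hu.fin ((hv.fin.const_mul _).add (hw.fin.const_mul _)) ?_
  filter_upwards [hu.ae_diff hC, hv.ae_diff hC] with z d1 d2
  unfold en
  rw [gx_sub d1 d2, gy_sub d1 d2]
  have key : ∀ a b : ℝ, a ^ 2 ≤ (1 + t) * b ^ 2 + (1 + 1 / t) * (a - b) ^ 2 := by
    intro a b
    have : (1 + t) * b ^ 2 + (1 + 1 / t) * (a - b) ^ 2 - a ^ 2 = (t * b - (a - b)) ^ 2 / t := by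
      field_simp; ring
    have h3 : 0 ≤ (t * b - (a - b)) ^ 2 / t := by positivity
    linarith
  have e1 := key (gx u z) (gx v z)
  have e2 := key (gy u z) (gy v z)
  linarith

theorem continuous_di (hC : IsClosed C) :
    letI := metr hC; Continuous fun x : Hn C => IfB_641.di C x.1 x.1 := by
  letI := metr hC
  rw [Metric.continuous_iff']
  intro y ε hε
  set A := IfB_641.di C y.1 y.1 with hA
  have hA0 : 0 ≤ A := di_self_nonneg _
  -- choose the weight
  obtain ⟨t, ht, ht1, htA⟩ : ∃ t : ℝ, 0 < t ∧ t ≤ 1 ∧ t * (A + 1) ≤ ε / 8 := by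
    refine ⟨min 1 (ε / (8 * (A + 1))), by positivity, min_le_left _ _, ?_⟩
    calc min 1 (ε / (8 * (A + 1))) * (A + 1) ≤ (ε / (8 * (A + 1))) * (A + 1) := by
          gcongr; exact min_le_right _ _
      _ = ε / 8 := by field_simp
  set s : ℝ := min 1 (t * ε / 16) with hs
  have hs0 : 0 < s := by positivity
  have hsr : 0 < Real.sqrt s := Real.sqrt_pos.2 hs0
  filter_upwards [Metric.ball_mem_nhds y hsr] with x hx
  have hn := near_of_dist_lt hC (Metric.mem_ball.1 hx)
  have h1 : IfB_641.di C (fun w => x.1 w - y.1 w) (fun w => x.1 w - y.1 w) ≤ s := by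
    rw [di_self]
    refine en_integral_le (x.2.q.sub hC y.2.q) hs0.le ?_
    have := hn.enr
    rwa [Real.sq_sqrt hs0.le] at this
  have h2 : IfB_641.di C (fun w => y.1 w - x.1 w) (fun w => y.1 w - x.1 w) ≤ s := by
    rw [di_self] at h1 ⊢
    refine le_trans (le_of_eq ?_) h1
    congr 1; funext z; exact en_sub_comm _ _ _
  have h3 := di_le hC x.2.q y.2.q ht
  have h4 := di_le hC y.2.q x.2.q ht
  rw [← hA] at h3 h4
  set B := IfB_641.di C x.1 x.1 with hB
  have hts : (1 + 1 / t) * s ≤ ε / 8 := by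
    have h5 : s ≤ t * ε / 16 := min_le_right _ _
    calc (1 + 1 / t) * s ≤ (1 + 1 / t) * (t * ε / 16) := by gcongr
      _ = (t + 1) * ε / 16 := by field_simp
      _ ≤ ε / 8 := by nlinarith
  have h5 : B ≤ A + ε / 4 := by
    have : (1 + 1 / t) * IfB_641.di C (fun w => x.1 w - y.1 w) (fun w => x.1 w - y.1 w) ≤
      (1 + 1 / t) * s := mul_le_mul_of_nonneg_left h1 (by positivity)
    nlinarith
  have h6 : A ≤ B + t * B + ε / 8 := by
    have : (1 + 1 / t) * IfB_641.di C (fun w => y.1 w - x.1 w) (fun w => y.1 w - x.1 w) ≤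
      (1 + 1 / t) * s := mul_le_mul_of_nonneg_left h2 (by positivity)
    nlinarith
  have h7 : t * B ≤ ε / 8 + ε / 4 := by
    have : t * B ≤ t * (A + ε / 4) := mul_le_mul_of_nonneg_left h5 ht.le
    nlinarith
  rw [Real.dist_eq, abs_lt]
  constructor <;> linarith

/-- the linear term is continuous -/
theorem continuous_lin (hC : IsClosed C) {g : ℂ → ℝ} (hg : Integrable g) :
    letI := metr hC; Continuous fun x : Hn C => ∫ z, x.1 z * g z := by
  letI := metr hC
  rw [Metric.continuous_iff']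
  intro y ε hε
  set A := ∫ z, |g z| with hA
  have hA0 : 0 ≤ A := integral_nonneg fun z => abs_nonneg _
  have hint : ∀ x : Hn C, Integrable fun z => x.1 z * g z := by
    intro x
    obtain ⟨M, hM⟩ := x.2.bdd
    exact hg.bdd_mul x.2.cont.aestronglyMeasurable (Eventually.of_forall fun z => by
      rw [Real.norm_eq_abs]; exact hM z)
  filter_upwards [Metric.ball_mem_nhds y (show 0 < ε / (A + 1) by positivity)] with x hx
  have hn := near_of_dist_lt hC (Metric.mem_ball.1 hx)
  rw [Real.dist_eq, ← integral_sub (hint x) (hint y)]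
  calc |∫ z, (x.1 z * g z - y.1 z * g z)| ≤ ∫ z, |x.1 z * g z - y.1 z * g z| :=
        abs_integral_le_integral_abs
    _ ≤ ∫ z, (ε / (A + 1)) * |g z| := by
        refine integral_mono_of_nonneg (Eventually.of_forall fun z => abs_nonneg _)
          (hg.abs.const_mul _) (Eventually.of_forall fun z => ?_)
        simp only []
        rw [← sub_mul, abs_mul]
        exact mul_le_mul_of_nonneg_right (hn.sup z) (abs_nonneg _)
    _ = (ε / (A + 1)) * A := by rw [integral_const_mul]
    _ < ε := by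
        rw [div_mul_eq_mul_div, div_lt_iff₀ (by positivity)]
        nlinarith

theorem continuous_J (hC : IsClosed C) {x0 : ℂ → ℝ} (hx0 : Integrable (IfB_641.lap x0)) :
    letI := metr hC; Continuous fun x : Hn C => IfB_641.J C x0 x.1 := by
  letI := metr hC
  unfold IfB_641.J
  exact (continuous_di hC).sub (continuous_const.mul (continuous_lin hC hx0))

end

end

end Crest.Agent.R105.Bd_775
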