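import Crest.Agent.R105.Asm0_6
import Crest.Agent.R105.Bd4_775
import Crest.Agent.R105.Dir5_508

-- ▼ part R105/Asm5a_6
section

/-!
# Row 105, S0139 [B], ATTP, part C5 (a): energy inequalities, the good sequence (helper6)
-/

set_option autoImplicit false

open MeasureTheory Set Filter Topology Metric Bornology
open scoped ContDiff NNReal

namespace Crest.Agent.R105.Asm_6

open Crest.Agent.R105.IfB_641

variable {C : Set ℂ} {x0 u v φ ψ : ℂ → ℝ} {b : ℕ → ℂ → ℝ} {m : ℝ}

theorem Gen.d (hC : IsClosed C) {S : Set (ℂ → ℝ)} (hS : ∀ s ∈ S, D C s) (hu : Gen C S u) :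
    D C u :=
  (Gen.q hC (fun s hs => (hS s hs).q) hu).d
    (Bd_775.Gen.cont (fun i => (hS _ i.2).cont) hu)

theorem min_gen (hC : IsClosed C) (hs : Sel C x0 b m) (hφ : Gen C (range b) φ) :
    m ≤ J C x0 φ := by
  have hd : D C φ := Gen.d hC (by rintro _ ⟨i, rfl⟩; exact hs.mem i) hφ
  refine hs.min φ (Or.inl hd) (Iso.trans ?_ hs.iso)
  intro s hs'
  rcases hs' with rfl | hs'
  · exact hφ
  · exact Gen.of hs'

theorem di_const_right (u : ℂ → ℝ) (c : ℝ) : di C u (fun _ => c) = 0 := by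
  unfold di
  have : ∀ z, dot u (fun _ => c) z = 0 := fun z => by
    unfold Bd_775.dot; rw [Bd_775.gx_const, Bd_775.gy_const]; ring
  simp only [this, integral_zero]

/-- `∫ lap x0 = 0` -/
theorem int_lap (hC : IsClosed C) (hx : X0 C x0) (hs : Sel C x0 b m) : ∫ z, lap x0 z = 0 := by
  have h1 : ∀ t : ℝ, m ≤ J C x0 (b 0) - 2 * t * ∫ z, lap x0 z := by
    intro t
    have hg : Gen C (range b) (fun z => b 0 z + t * (1 : ℝ)) :=
      Gen.add (Gen.of (mem_range_self 0)) (Gen.smul t (Gen.const 1))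
    have h2 := min_gen hC hs hg
    have h3 := J_expand hC hx (hs.mem 0).q (Bd_775.Q.const C 1) t
    rw [di_const_right, di_const_right] at h3
    simp only [one_mul] at h3
    linarith
  by_contra hne
  set I := ∫ z, lap x0 z with hI
  have h2 := h1 ((J C x0 (b 0) - m + 1) / (2 * I))
  have h3 : 2 * ((J C x0 (b 0) - m + 1) / (2 * I)) * I = J C x0 (b 0) - m + 1 := by
    field_simp
  linarith

theorem J_add_const (hC : IsClosed C) (hx : X0 C x0) (h0 : ∫ z, lap x0 z = 0) (hu : Q C u)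
    (c : ℝ) : J C x0 (fun z => u z + c) = J C x0 u := by
  have h3 := J_expand hC hx hu (Bd_775.Q.const C 1) c
  rw [di_const_right, di_const_right] at h3
  simp only [one_mul, mul_one, h0, sub_zero, mul_zero, add_zero] at h3
  exact h3

/-- parallelogram -/
theorem para (hC : IsClosed C) (hx : X0 C x0) (hs : Sel C x0 b m) (hu : Gen C (range b) u)
    (hv : Gen C (range b) v) :
    di C (fun z => v z - u z) (fun z => v z - u z) ≤ 2 * (J C x0 u - m) + 2 * (J C x0 v - m) := by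
  have hS : ∀ s ∈ range b, D C s := by rintro _ ⟨i, rfl⟩; exact hs.mem i
  have qu : Q C u := (Gen.d hC hS hu).q
  have qv : Q C v := (Gen.d hC hS hv).q
  have qw : Q C (fun z => v z - u z) := qv.sub hC qu
  have e1 := J_expand hC hx qu qw 1
  have e2 := J_expand hC hx qu qw (1 / 2)
  have e3 : (fun z => u z + 1 * (v z - u z)) = v := by funext z; ring
  rw [e3] at e1
  have h1 : m ≤ J C x0 (fun z => u z + 1 / 2 * (v z - u z)) :=
    min_gen hC hs (Gen.add hu (Gen.smul (1 / 2) (Gen.sub hv hu)))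
  rw [e2] at h1
  linarith

/-- near Euler-Lagrange -/
theorem near_el (hC : IsClosed C) (hx : X0 C x0) (hs : Sel C x0 b m) (hu : Gen C (range b) u)
    (hψ : Gen C (range b) ψ) :
    (di C u ψ - ∫ z, ψ z * lap x0 z) ^ 2 ≤ (J C x0 u - m) * di C ψ ψ := by
  have hS : ∀ s ∈ range b, D C s := by rintro _ ⟨i, rfl⟩; exact hs.mem i
  have qu : Q C u := (Gen.d hC hS hu).q
  have qψ : Q C ψ := (Gen.d hC hS hψ).q
  set A := di C u ψ - ∫ z, ψ z * lap x0 z with hA
  set B := di C ψ ψ with hB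
  have h1 : ∀ t : ℝ, 0 ≤ B * (t * t) + (2 * A) * t + (J C x0 u - m) := by
    intro t
    have h2 := min_gen hC hs (Gen.add hu (Gen.smul t hψ))
    rw [J_expand hC hx qu qψ t] at h2
    nlinarith
  have h2 := discrim_le_zero h1
  unfold discrim at h2
  nlinarith

theorem di_nonneg (u : ℂ → ℝ) : 0 ≤ di C u u := Bd_775.di_self_nonneg u



theorem di_comp_le (hC : IsClosed C) (hu : Q C u) {h : ℝ → ℝ} (hh : LipschitzWith 1 h) :
    di C (fun z => h (u z)) (fun z => h (u z)) ≤ di C u u := by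
  rw [Bd_775.di_self, Bd_775.di_self]
  refine integral_mono_ae (hu.comp hC hh).fin hu.fin ?_
  filter_upwards [hu.ae_diff hC] with z hz
  have := Bd_775.en_comp_le hh hz
  simpa using this

/-! ### the clamp -/

theorem cl_lip (δ : ℝ) : LipschitzWith 1 (cl δ) := by
  unfold cl
  exact (LipschitzWith.id.min_const δ).const_max (-δ)

theorem cl_of_le {δ s : ℝ} (h : |s| ≤ δ) : cl δ s = s := by
  unfold cl
  rw [min_eq_left (abs_le.1 h).2, max_eq_right (abs_le.1 h).1]

theorem abs_cl_le {δ : ℝ} (h : 0 ≤ δ) (s : ℝ) : |cl δ s| ≤ δ := by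
  unfold cl
  rw [abs_le]
  exact ⟨le_max_left _ _, max_le (by linarith) (min_le_right _ _)⟩

theorem cl_sub_le (δ s t : ℝ) : |cl δ s - cl δ t| ≤ |s - t| := by
  have := (cl_lip δ).dist_le_mul s t
  rw [Real.dist_eq, Real.dist_eq] at this
  simpa using this

theorem lap_zero_far {R0 : ℝ} (h0 : ∀ z, R0 ≤ ‖z‖ → x0 z = z.re) {z : ℂ} (hz : R0 < ‖z‖) :
    lap x0 z = 0 := by
  have : x0 =ᶠ[𝓝 z] fun w : ℂ => w.re := by
    have ho : IsOpen {w : ℂ | R0 < ‖w‖} := isOpen_lt continuous_const continuous_norm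
    filter_upwards [ho.mem_nhds hz] with w hw using h0 w (le_of_lt hw)
  rw [(lap_of_eq this).eq_of_nhds, lap_re]; rfl

theorem J_clamp_le (hC : IsClosed C) {R0 K : ℝ} (h0 : ∀ z, R0 ≤ ‖z‖ → x0 z = z.re) (hu : Q C u)
    (hK : ∀ z, ‖z‖ ≤ R0 → |u z| ≤ K) : J C x0 (fun z => cl K (u z)) ≤ J C x0 u := by
  unfold J
  have h1 := di_comp_le hC hu (cl_lip K)
  have h2 : ∫ z, cl K (u z) * lap x0 z = ∫ z, u z * lap x0 z := by
    congr 1; funext z
    by_cases hz : ‖z‖ ≤ R0
    · rw [cl_of_le (hK z hz)]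
    · rw [lap_zero_far h0 (not_le.1 hz)]; ring
  rw [h2]; linarith

/-! ### the good sequence -/

theorem Mn.mono {e e' : ℝ} (h : Mn u e) (he : e ≤ e') : Mn u e' := by
  intro p
  refine ⟨fun hb => (h p).1 (hb.subset (connectedComponentIn_mono p ?_)),
    fun hb => (h p).2 (hb.subset (connectedComponentIn_mono p ?_))⟩
  · intro w (hw : u w < u p + e)
    show u w < u p + e'
    linarith
  · intro w (hw : u p - e < u w)
    show u p - e' < u w
    linarith

/-- output of part (a) -/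
structure GS (C : Set ℂ) (x0 : ℂ → ℝ) (b : ℕ → ℂ → ℝ) (m : ℝ) (χ : ℕ → ℂ → ℝ) : Prop where
  gen : ∀ k, Gen C (range b) (χ k)
  bdd : ∃ K : ℝ, ∀ k z, |χ k z| ≤ K
  uni : ∀ R h : ℝ, 0 < h → ∃ K : ℕ, ∀ k l, K ≤ k → K ≤ l → ∀ z, ‖z‖ ≤ R → |χ k z - χ l z| ≤ h
  lim : Tendsto (fun k => J C x0 (χ k)) atTop (𝓝 m)

theorem exists_gs (h2 : C2P) (h4 : C4P) (hC : TD C) (hx : X0 C x0) (hs : Sel C x0 b m) :
    ∃ χ, GS C x0 b m χ := by
  have hcl : IsClosed C := hC.cpt.isClosed
  have hS : ∀ s ∈ range b, D C s := by rintro _ ⟨i, rfl⟩; exact hs.mem i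
  have hlap := int_lap hcl hx hs
  choose φ hφD hφg hφc hφJ hφM using fun k : ℕ => h2 C x0 hC hx b m hs (1 / ((k : ℝ) + 1))
    (by positivity)
  -- energies
  have hpara : ∀ k l, di C (fun z => φ l z - φ k z) (fun z => φ l z - φ k z) ≤
      2 * (1 / ((k : ℝ) + 1)) + 2 * (1 / ((l : ℝ) + 1)) := by
    intro k l
    have h1 := para hcl hx hs (hφg k) (hφg l)
    have h2 := hφJ k
    have h3 := hφJ l
    linarith
  obtain ⟨E, hE0, hE⟩ : ∃ E : ℝ, 0 < E ∧ ∀ k, di C (φ k) (φ k) ≤ E := by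
    refine ⟨2 * di C (φ 0) (φ 0) + 2 * 4 + 1, ?_, fun k => ?_⟩
    · have := di_nonneg (C := C) (φ 0); linarith
    · have h1 := Bd_775.di_le hcl (hφD k).q (hφD 0).q (t := 1) one_pos
      have h2 := hpara 0 k
      have h3 : (1 : ℝ) / ((k : ℝ) + 1) ≤ 1 := by
        rw [div_le_one (by positivity)]; linarith [Nat.cast_nonneg (α := ℝ) k]
      norm_num at h1 h2
      have h4 : ((k : ℝ) + 1)⁻¹ ≤ 1 := by rw [← one_div]; exact h3
      linarith
  -- a radius
  obtain ⟨R0, hR0, hCR, hxR⟩ : ∃ R0 : ℝ, 0 < R0 ∧ C ⊆ ball 0 R0 ∧ ∀ z, R0 ≤ ‖z‖ → x0 z = z.re := by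
    obtain ⟨R1, hR1⟩ := hC.cpt.isBounded.subset_ball (0 : ℂ)
    obtain ⟨R2, hR2⟩ := hx.far
    refine ⟨max (max R1 R2) 1, lt_max_of_lt_right one_pos,
      hR1.trans (ball_subset_ball ((le_max_left _ _).trans (le_max_left _ _))), fun z hz => ?_⟩
    exact hR2 z (((le_max_right _ _).trans (le_max_left _ _)).trans hz)
  -- uniform estimate
  have huni : ∀ R h : ℝ, 0 < h → ∃ K : ℕ, ∀ k l, K ≤ k → K ≤ l → ∀ z, ‖z‖ ≤ R →
      |(φ k z - φ k 0) - (φ l z - φ l 0)| ≤ h := by
    intro R h hh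
    obtain ⟨δ, hδ, H⟩ := h4 C x0 hC hx (max R R0) (lt_max_of_lt_right hR0)
      (hCR.trans (ball_subset_ball (le_max_right _ _)))
      (fun z hz => hxR z ((le_max_right _ _).trans hz)) (range b) hS hs.iso h hh E hE0
    obtain ⟨K, hK⟩ := exists_nat_one_div_lt (show (0 : ℝ) < min (h / 16) (δ / 4) by positivity)
    have hK' : ∀ k, K ≤ k → 1 / ((k : ℝ) + 1) ≤ min (h / 16) (δ / 4) := fun k hk =>
      (Nat.one_div_le_one_div hk).trans hK.le
    refine ⟨K, fun k l hk hl z hz => ?_⟩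
    have h1 := hK' k hk
    have h2 := hK' l hl
    have h3 := H (φ l) (φ k) (hφg l) (hφg k)
      ((hφM l).mono (h2.trans (min_le_left _ _))) ((hφM k).mono (h1.trans (min_le_left _ _)))
      (hE l) (hE k) (by
        have h5 := hpara l k
        have h6 := h1.trans (min_le_right _ _)
        have h7 := h2.trans (min_le_right _ _)
        linarith) z 0 (hz.trans (le_max_left _ _)) (by simp [hR0.le])
    have e : (φ k z - φ k 0) - (φ l z - φ l 0) = (φ k z - φ l z) - (φ k 0 - φ l 0) := by ring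
    rw [e]; exact h3
  -- bound on the ball
  obtain ⟨K1, hK1⟩ := huni R0 1 one_pos
  obtain ⟨M, hM⟩ := (hφD K1).bdd
  set K0 : ℝ := 2 * M + 1 with hK0
  have hM0 : 0 ≤ M := (abs_nonneg _).trans (hM 0)
  have hbd : ∀ k, K1 ≤ k → ∀ z, ‖z‖ ≤ R0 → |φ k z - φ k 0| ≤ K0 := by
    intro k hk z hz
    have h1 := hK1 k K1 hk le_rfl z hz
    have h2 := hM z
    have h3 := hM 0
    rw [abs_le] at h1 h2 h3 ⊢
    constructor <;> linarith [h1.1, h1.2, h2.1, h2.2, h3.1, h3.2]
  have hψg : ∀ k, Gen C (range b) (fun z => φ k z - φ k 0) := fun k =>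
    Gen.sub (hφg k) (Gen.const _)
  refine ⟨fun k z => cl K0 (φ (k + K1) z - φ (k + K1) 0), fun k => ?_, ⟨K0, fun k z => ?_⟩, ?_, ?_⟩
  · exact Gen.comp (cl_lip K0) (hψg (k + K1))
  · exact abs_cl_le (by linarith) _
  · intro R h hh
    obtain ⟨K, hK⟩ := huni R h hh
    refine ⟨K, fun k l hk hl z hz => (cl_sub_le _ _ _).trans ?_⟩
    exact hK (k + K1) (l + K1) (by omega) (by omega) z hz
  · have hJ : ∀ k, J C x0 (fun z => cl K0 (φ (k + K1) z - φ (k + K1) 0)) ≤
        m + 1 / ((k : ℝ) + 1) := by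
      intro k
      refine (J_clamp_le hcl hxR (Gen.d hcl hS (hψg (k + K1))).q (hbd _ (by omega))).trans ?_
      have e1 := J_add_const hcl hx hlap (hφD (k + K1)).q (-φ (k + K1) 0)
      have e2 : (fun z => φ (k + K1) z - φ (k + K1) 0) =
          fun z => φ (k + K1) z + -φ (k + K1) 0 := by funext z; ring
      rw [e2, e1]
      refine (hφJ (k + K1)).trans ?_
      have : (1 : ℝ) / (((k + K1 : ℕ) : ℝ) + 1) ≤ 1 / ((k : ℝ) + 1) :=
        Nat.one_div_le_one_div (by omega)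
      linarith
    refine tendsto_of_tendsto_of_tendsto_of_le_of_le tendsto_const_nhds ?_
      (fun k => min_gen hcl hs (Gen.comp (cl_lip K0) (hψg (k + K1)))) hJ
    have : Tendsto (fun k : ℕ => m + 1 / ((k : ℝ) + 1)) atTop (𝓝 (m + 0)) :=
      tendsto_const_nhds.add tendsto_one_div_add_atTop_nhds_zero_nat
    simpa using this

end Crest.Agent.R105.Asm_6
end

-- ▼ part R105/Asm5b_6
section

/-!
# Row 105, S0139 [B], ATTP, part C5 (b): the limit function (helper6)
-/

set_option autoImplicit false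

open MeasureTheory Set Filter Topology Metric Bornology
open scoped ContDiff NNReal ComplexConjugate ENNReal

namespace Crest.Agent.R105.Asm_6

open Crest.Agent.R105.IfB_641 Crest.Agent.R105.Dir_508

variable {C : Set ℂ} {x0 : ℂ → ℝ} {b : ℕ → ℂ → ℝ} {m : ℝ} {χ : ℕ → ℂ → ℝ}

theorem exists_lim_fun (hg : GS C x0 b m χ) (hD : ∀ k, Continuous (χ k)) :
    ∃ f : ℂ → ℝ, Continuous f ∧ (∃ K : ℝ, ∀ z, |f z| ≤ K) ∧
      ∀ R h : ℝ, 0 < h → ∃ K : ℕ, ∀ k, K ≤ k → ∀ z, ‖z‖ ≤ R → |χ k z - f z| ≤ h := by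
  have hc : ∀ z, CauchySeq fun k => χ k z := by
    intro z
    rw [Metric.cauchySeq_iff']
    intro ε hε
    obtain ⟨K, hK⟩ := hg.uni ‖z‖ (ε / 2) (by positivity)
    refine ⟨K, fun n hn => ?_⟩
    rw [Real.dist_eq]
    exact lt_of_le_of_lt (hK n K hn le_rfl z le_rfl) (by linarith)
  choose f hf using fun z => cauchySeq_tendsto_of_complete (hc z)
  have hu : ∀ R h : ℝ, 0 < h → ∃ K : ℕ, ∀ k, K ≤ k → ∀ z, ‖z‖ ≤ R → |χ k z - f z| ≤ h := by
    intro R h hh
    obtain ⟨K, hK⟩ := hg.uni R h hh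
    refine ⟨K, fun k hk z hz => ?_⟩
    refine le_of_tendsto ((tendsto_const_nhds.sub (hf z)).abs) ?_
    filter_upwards [eventually_ge_atTop K] with l hl
    exact hK k l hk hl z hz
  refine ⟨f, ?_, ?_, hu⟩
  · refine continuous_of_locally_uniform_approx_of_continuousAt fun z u hu' => ?_
    obtain ⟨ε, hε, hεu⟩ := Metric.mem_uniformity_dist.1 hu'
    obtain ⟨K, hK⟩ := hu (‖z‖ + 1) (ε / 2) (by positivity)
    refine ⟨ball z 1, ball_mem_nhds z one_pos, χ K, (hD K).continuousAt, fun y hy => hεu ?_⟩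
    have h1 : ‖y‖ ≤ ‖z‖ + 1 := by
      have h2 := norm_sub_norm_le y z
      rw [mem_ball, dist_eq_norm] at hy
      linarith
    rw [dist_comm, Real.dist_eq]
    exact lt_of_le_of_lt (hK K le_rfl y h1) (by linarith)
  · obtain ⟨K, hK⟩ := hg.bdd
    exact ⟨K, fun z => le_of_tendsto (hf z).abs (Eventually.of_forall fun k => hK k z)⟩

/-! ### `L²` -/

theorem norm_toLp_sq {μ : Measure ℂ} {f : ℂ → ℂ} (h : MemLp f 2 μ) :
    ‖h.toLp f‖ ^ 2 = ∫ z, ‖f z‖ ^ 2 ∂μ := by
  have h0 : 0 ≤ ∫ z, ‖f z‖ ^ 2 ∂μ := integral_nonneg fun z => by positivity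
  rw [Lp.norm_toLp, h.eLpNorm_eq_integral_rpow_norm two_ne_zero ENNReal.ofNat_ne_top,
    ENNReal.toReal_ofReal (by positivity)]
  simp only [ENNReal.toReal_ofNat, Real.rpow_ofNat]
  rw [← Real.rpow_natCast, ← Real.rpow_mul h0]
  norm_num

theorem lim_inner {μ : Measure ℂ} {G : Lp ℂ 2 μ} {g : ℕ → Lp ℂ 2 μ}
    (hg : Tendsto g atTop (𝓝 G)) {Ψ : ℂ → ℂ} (hΨ : MemLp Ψ 2 μ) :
    Tendsto (fun k => ∫ z, conj (g k z) * Ψ z ∂μ) atTop (𝓝 (∫ z, conj (G z) * Ψ z ∂μ)) := by
  have h1 : ∀ f : Lp ℂ 2 μ, inner ℂ f (hΨ.toLp Ψ) = ∫ z, conj (f z) * Ψ z ∂μ := by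
    intro f
    rw [L2.inner_def]
    refine integral_congr_ae ?_
    filter_upwards [hΨ.coeFn_toLp] with z hz
    rw [hz]
    simp [RCLike.inner_apply, mul_comm]
  simp only [← h1]
  exact hg.inner tendsto_const_nhds

theorem gr_sub {u v : ℂ → ℝ} {z : ℂ} (hu : DifferentiableAt ℝ u z)
    (hv : DifferentiableAt ℝ v z) : gr (fun w => u w - v w) z = gr u z - gr v z := by
  unfold gr
  rw [fderiv_fun_sub hu hv]
  simp only [_root_.sub_apply]
  push_cast
  ring


theorem norm_sub_sq {u v : ℂ → ℝ} (hC : IsClosed C) (hu : Q C u) (hv : Q C v) :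
    ‖(memLp_gr hu.fin).toLp (gr u) - (memLp_gr hv.fin).toLp (gr v)‖ ^ 2 =
      di C (fun z => u z - v z) (fun z => u z - v z) := by
  rw [← MemLp.toLp_sub, norm_toLp_sq, Bd_775.di_self]
  refine integral_congr_ae ?_
  filter_upwards [hu.ae_diff hC, hv.ae_diff hC] with z h1 h2
  rw [← norm_gr_sq, gr_sub h1 h2]
  rfl


/-- the `L²` limit of the gradients -/
theorem exists_G (hC : IsClosed C) (hx : X0 C x0) (hs : Sel C x0 b m) (hg : GS C x0 b m χ)
    (hQ : ∀ k, Q C (χ k)) :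
    ∃ G : Lp ℂ 2 (volume.restrict Cᶜ),
      Tendsto (fun k => (memLp_gr (hQ k).fin).toLp (gr (χ k))) atTop (𝓝 G) := by
  refine cauchySeq_tendsto_of_complete ?_
  rw [Metric.cauchySeq_iff']
  intro ε hε
  have h1 : ∀ᶠ k in atTop, J C x0 (χ k) - m < ε ^ 2 / 8 := by
    have h2 : Tendsto (fun k => J C x0 (χ k) - m) atTop (𝓝 (m - m)) := hg.lim.sub_const m
    rw [sub_self] at h2
    exact h2.eventually (gt_mem_nhds (by positivity))
  obtain ⟨N, hN⟩ := eventually_atTop.1 h1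
  refine ⟨N, fun n hn => ?_⟩
  rw [dist_eq_norm]
  have h2 := norm_sub_sq hC (hQ n) (hQ N)
  have h3 := para hC hx hs (hg.gen N) (hg.gen n)
  have h4 := hN n hn
  have h5 := hN N le_rfl
  refine lt_of_pow_lt_pow_left₀ 2 hε.le ?_
  rw [h2]
  have : 0 < ε ^ 2 := by positivity
  linarith

/-- the weak gradient of the limit -/
theorem weak_G (hC : IsClosed C) {f : ℂ → ℝ} (hf : Continuous f)
    (hu : ∀ R h : ℝ, 0 < h → ∃ K : ℕ, ∀ k, K ≤ k → ∀ z, ‖z‖ ≤ R → |χ k z - f z| ≤ h)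
    (hD : ∀ k, D C (χ k)) {G : Lp ℂ 2 (volume.restrict Cᶜ)}
    (hG : Tendsto (fun k => (memLp_gr (hD k).fin).toLp (gr (χ k))) atTop (𝓝 G))
    {ψ : ℂ → ℝ} (h1 : ContDiff ℝ ∞ ψ) (h2 : HasCompactSupport ψ) (h3 : tsupport ψ ⊆ Cᶜ) :
    ∫ z, (f z : ℂ) * gr ψ z = - ∫ z, (ψ z : ℂ) * G z := by
  have hψc : Continuous (gr ψ) := continuous_gr (h1.of_le (by exact_mod_cast le_top))
  have hψs : HasCompactSupport (gr ψ) :=
    (h2.fderiv ℝ).of_isClosed_subset (isClosed_tsupport _) (tsupport_gr ψ)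
  have hi : Integrable (gr ψ) := hψc.integrable_of_hasCompactSupport hψs
  -- left side
  have hL : Tendsto (fun k => ∫ z, (χ k z : ℂ) * gr ψ z) atTop (𝓝 (∫ z, (f z : ℂ) * gr ψ z)) := by
    rw [Metric.tendsto_atTop]
    intro ε hε
    obtain ⟨R, hR⟩ := hψs.isCompact.isBounded.subset_closedBall (0 : ℂ)
    set A := ∫ z, ‖gr ψ z‖ with hA
    have hA0 : 0 ≤ A := integral_nonneg fun z => norm_nonneg _
    obtain ⟨K, hK⟩ := hu R (ε / (2 * (A + 1))) (by positivity)
    refine ⟨K, fun k hk => ?_⟩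
    have i1 : ∀ {v : ℂ → ℝ}, Continuous v → Integrable fun z => (v z : ℂ) * gr ψ z := fun hv =>
      ((Complex.continuous_ofReal.comp hv).mul hψc).integrable_of_hasCompactSupport hψs.mul_left
    rw [dist_eq_norm, ← integral_sub (i1 (hD k).cont) (i1 hf)]
    have h5 : ‖∫ z, ((χ k z : ℂ) * gr ψ z - (f z : ℂ) * gr ψ z)‖ ≤
        ∫ z, (ε / (2 * (A + 1))) * ‖gr ψ z‖ := by
      refine norm_integral_le_of_norm_le (hi.norm.const_mul _) (ae_of_all _ fun z => ?_)
      rw [← sub_mul, norm_mul, ← Complex.ofReal_sub, Complex.norm_real, Real.norm_eq_abs]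
      by_cases hz : z ∈ tsupport (gr ψ)
      · have h6 := hR hz
        rw [mem_closedBall, dist_zero_right] at h6
        exact mul_le_mul_of_nonneg_right (hK k hk z h6) (norm_nonneg _)
      · rw [image_eq_zero_of_notMem_tsupport hz, norm_zero, mul_zero, mul_zero]
    refine lt_of_le_of_lt h5 ?_
    rw [integral_const_mul, ← hA, div_mul_eq_mul_div, div_lt_iff₀ (by positivity)]
    nlinarith
  -- right side
  have hΨ : MemLp (fun z => (ψ z : ℂ)) 2 (volume.restrict Cᶜ) :=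
    ((Complex.continuous_ofReal.comp h1.continuous).memLp_of_hasCompactSupport
      (h2.comp_left (g := fun t : ℝ => (t : ℂ)) (by simp))).restrict _
  have hR := lim_inner hG hΨ
  have e1 : ∀ (Y : ℂ → ℂ), ∫ z in Cᶜ, (ψ z : ℂ) * Y z = ∫ z, (ψ z : ℂ) * Y z := by
    intro Y
    refine setIntegral_eq_integral_of_forall_compl_eq_zero fun z hz => ?_
    rw [image_eq_zero_of_notMem_tsupport fun h' => hz (h3 h')]
    simp
  have e2 : ∀ (Y : ℂ → ℂ), ∫ z in Cᶜ, conj (Y z) * (ψ z : ℂ) =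
      conj (∫ z in Cᶜ, (ψ z : ℂ) * Y z) := by
    intro Y
    rw [← integral_conj]
    congr 1; funext z
    rw [map_mul, Complex.conj_ofReal, mul_comm]
  have hR2 : Tendsto (fun k => ∫ z, (ψ z : ℂ) * gr (χ k) z) atTop
      (𝓝 (∫ z, (ψ z : ℂ) * G z)) := by
    have h5 : ∀ k, ∫ z in Cᶜ, conj (((memLp_gr (hD k).fin).toLp (gr (χ k)) : ℂ → ℂ) z) * (ψ z : ℂ)
        = conj (∫ z, (ψ z : ℂ) * gr (χ k) z) := by
      intro k
      rw [← e1, ← e2]
      refine integral_congr_ae ?_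
      filter_upwards [(memLp_gr (hD k).fin).coeFn_toLp] with z hz
      rw [hz]
    simp only [h5] at hR
    rw [e2, e1] at hR
    have h6 := (Complex.continuous_conj.tendsto _).comp hR
    simp only [Complex.conj_conj] at h6
    refine h6.congr fun k => ?_
    simp
  have h4 : ∀ k, ∫ z, (χ k z : ℂ) * gr ψ z = - ∫ z, (ψ z : ℂ) * gr (χ k) z := fun k =>
    weak_gr hC.isOpen_compl (hD k).loc h1 h2 h3
  simp only [h4] at hL
  exact tendsto_nhds_unique hL hR2.neg

/-- the Euler-Lagrange equation of the limit -/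
theorem el_G (hC : IsClosed C) (hx : X0 C x0) (hs : Sel C x0 b m) (hg : GS C x0 b m χ)
    (hD : ∀ k, D C (χ k)) {G : Lp ℂ 2 (volume.restrict Cᶜ)}
    (hG : Tendsto (fun k => (memLp_gr (hD k).fin).toLp (gr (χ k))) atTop (𝓝 G))
    {ψ : ℂ → ℝ} (hψ : Tst Cᶜ ψ) :
    ∫ z, conj (G z) * gr ψ z = ((∫ z, ψ z * lap x0 z : ℝ) : ℂ) := by
  have hO := hC.isOpen_compl
  have hΨ : MemLp (gr ψ) 2 (volume.restrict Cᶜ) :=
    ((continuous_gr (hψ.sm.of_le (by exact_mod_cast le_top))).memLp_of_hasCompactSupport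
      hψ.cpt_gr).restrict _
  have hR := lim_inner hG hΨ
  have e0 : ∀ k, ∫ z in Cᶜ, conj (((memLp_gr (hD k).fin).toLp (gr (χ k)) : ℂ → ℂ) z) * gr ψ z
      = ((di C (χ k) ψ : ℝ) : ℂ) := by
    intro k
    have h1 : ∫ z in Cᶜ, conj (((memLp_gr (hD k).fin).toLp (gr (χ k)) : ℂ → ℂ) z) * gr ψ z =
        ∫ z in Cᶜ, conj (gr (χ k) z) * gr ψ z := by
      refine integral_congr_ae ?_
      filter_upwards [(memLp_gr (hD k).fin).coeFn_toLp] with z hz
      rw [hz]
    have hi : Integrable fun z => conj (gr (χ k) z) * gr ψ z := by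
      refine hψ.int_gr (Y := fun z => conj (gr (χ k) z)) ?_
      intro z hz
      obtain ⟨s, hs, hi⟩ := locInt_gr hO (hD k).loc z hz
      exact ⟨s, hs, (Complex.conjLIE.toContinuousLinearEquiv.toContinuousLinearMap.integrable_comp
        hi : _)⟩
    rw [h1, setInt_eq hψ.sub (fun z => conj (gr (χ k) z)), int_conj_gr hi,
      wdg_tst hO (hD k).loc hψ]
    have h2 : ∫ z, Tra_937.dot (χ k) ψ z = di C (χ k) ψ := by
      unfold di
      symm
      refine setIntegral_eq_integral_of_forall_compl_eq_zero fun z hz => ?_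
      exact dot_of_notMem fun h' => hz (hψ.sub h')
    rw [h2]; simp
  simp only [e0] at hR
  rw [setInt_eq hψ.sub (fun z => conj (G z))] at hR
  -- the limit of `di (χ k) ψ`
  have h5 : Tendsto (fun k => di C (χ k) ψ) atTop (𝓝 (∫ z, ψ z * lap x0 z)) := by
    rw [← tendsto_sub_nhds_zero_iff]
    have h6 : ∀ k, (di C (χ k) ψ - ∫ z, ψ z * lap x0 z) ^ 2 ≤ (J C x0 (χ k) - m) * di C ψ ψ :=
      fun k => near_el hC hx hs (hg.gen k) (Gen.lc hψ.lc)
    have h7 : Tendsto (fun k => (J C x0 (χ k) - m) * di C ψ ψ) atTop (𝓝 0) := by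
      have := (hg.lim.sub_const m).mul_const (di C ψ ψ)
      simpa using this
    have h8 : Tendsto (fun k => (di C (χ k) ψ - ∫ z, ψ z * lap x0 z) ^ 2) atTop (𝓝 0) :=
      squeeze_zero (fun k => sq_nonneg _) h6 h7
    have h9 := h8.sqrt
    simp only [Real.sqrt_sq_eq_abs, Real.sqrt_zero] at h9
    exact (tendsto_zero_iff_abs_tendsto_zero _).2 h9
  exact tendsto_nhds_unique hR ((Complex.continuous_ofReal.tendsto _).comp h5)

theorem di_eq_norm {u : ℂ → ℝ} (hu : Q C u) :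
    di C u u = ‖(memLp_gr hu.fin).toLp (gr u)‖ ^ 2 := by
  rw [norm_toLp_sq, Bd_775.di_self]
  refine integral_congr_ae (ae_of_all _ fun z => ?_)
  exact (norm_gr_sq u z).symm

theorem tendsto_lin (hx : X0 C x0) {f : ℂ → ℝ} (hf : Continuous f)
    (hu : ∀ R h : ℝ, 0 < h → ∃ K : ℕ, ∀ k, K ≤ k → ∀ z, ‖z‖ ≤ R → |χ k z - f z| ≤ h)
    (hD : ∀ k, Continuous (χ k)) :
    Tendsto (fun k => ∫ z, χ k z * lap x0 z) atTop (𝓝 (∫ z, f z * lap x0 z)) := by
  have hi : Integrable (lap x0) := hx.lap_cont.integrable_of_hasCompactSupport hx.lap_cpt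
  rw [Metric.tendsto_atTop]
  intro ε hε
  obtain ⟨R, hR⟩ := hx.lap_cpt.isCompact.isBounded.subset_closedBall (0 : ℂ)
  set A := ∫ z, ‖lap x0 z‖ with hA
  have hA0 : 0 ≤ A := integral_nonneg fun z => norm_nonneg _
  obtain ⟨K, hK⟩ := hu R (ε / (2 * (A + 1))) (by positivity)
  refine ⟨K, fun k hk => ?_⟩
  have i1 : ∀ {v : ℂ → ℝ}, Continuous v → Integrable fun z => v z * lap x0 z := fun hv =>
    (hv.mul hx.lap_cont).integrable_of_hasCompactSupport hx.lap_cpt.mul_left
  rw [dist_eq_norm, ← integral_sub (i1 (hD k)) (i1 hf)]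
  have h5 : ‖∫ z, (χ k z * lap x0 z - f z * lap x0 z)‖ ≤
      ∫ z, (ε / (2 * (A + 1))) * ‖lap x0 z‖ := by
    refine norm_integral_le_of_norm_le (hi.norm.const_mul _) (ae_of_all _ fun z => ?_)
    rw [← sub_mul, norm_mul, Real.norm_eq_abs]
    by_cases hz : z ∈ tsupport (lap x0)
    · have h6 := hR hz
      rw [mem_closedBall, dist_zero_right] at h6
      exact mul_le_mul_of_nonneg_right (hK k hk z h6) (norm_nonneg _)
    · rw [image_eq_zero_of_notMem_tsupport hz, norm_zero, mul_zero, mul_zero]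
  refine lt_of_le_of_lt h5 ?_
  rw [integral_const_mul, ← hA, div_mul_eq_mul_div, div_lt_iff₀ (by positivity)]
  nlinarith

/-- **THE LIMIT** -/
theorem exists_limit (hC : TD C) (hx : X0 C x0) (hs : Sel C x0 b m) (hg : GS C x0 b m χ) :
    ∃ f : ℂ → ℝ, D C f ∧
      (∀ R h : ℝ, 0 < h → ∃ K : ℕ, ∀ k, K ≤ k → ∀ z, ‖z‖ ≤ R → |χ k z - f z| ≤ h) ∧
      Tendsto (fun k => di C (fun z => χ k z - f z) (fun z => χ k z - f z)) atTop (𝓝 0) ∧
      J C x0 f = m := by
  have hcl : IsClosed C := hC.cpt.isClosed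
  have hO : IsOpen Cᶜ := hcl.isOpen_compl
  have hS : ∀ s ∈ range b, D C s := by rintro _ ⟨i, rfl⟩; exact hs.mem i
  have hD : ∀ k, D C (χ k) := fun k => Gen.d hcl hS (hg.gen k)
  have hQ : ∀ k, Q C (χ k) := fun k => (hD k).q
  obtain ⟨f, hfc, hfb, hu⟩ := exists_lim_fun hg fun k => (hD k).cont
  obtain ⟨G, hG⟩ := exists_G hcl hx hs hg hQ
  have hxc : Continuous (gr x0) := continuous_gr (hx.sm.of_le (by exact_mod_cast le_top))
  have hx1 : LocallyLipschitzOn Cᶜ x0 :=
    (hx.sm.of_le (by exact_mod_cast le_top) : ContDiff ℝ 1 x0).locallyLipschitz.locallyLipschitzOn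
  have lx : LocallyIntegrableOn (gr x0) Cᶜ := hxc.locallyIntegrable.locallyIntegrableOn _
  have lG : LocallyIntegrableOn (fun z => G z) Cᶜ := locInt_of_memLp hO (Lp.memLp G)
  have hconj : ∀ {Y : ℂ → ℂ}, LocallyIntegrableOn Y Cᶜ →
      LocallyIntegrableOn (fun z => conj (Y z)) Cᶜ := by
    intro Y hY z hz
    obtain ⟨s, hs, hi⟩ := hY z hz
    exact ⟨s, hs, (Complex.conjLIE.toContinuousLinearEquiv.toContinuousLinearMap.integrable_comp
      hi : _)⟩
  obtain ⟨F, hF, hre, hFG⟩ := completion_weak hO (x := fun z => x0 z + f z)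
    (G := fun z => gr x0 z + G z)
    ((hx.sm.continuous.add hfc).locallyIntegrable.locallyIntegrableOn _) (lx.add lG) (by
      intro ψ h1 h2 h3
      have e1 := weak_gr hO hx1 h1 h2 h3
      have e2 := weak_G hcl hfc hu hD hG h1 h2 h3
      have hψc : Continuous (gr ψ) := continuous_gr (h1.of_le (by exact_mod_cast le_top))
      have hT : Tst Cᶜ ψ := Tst.of_supp h1 h2 h3
      have i1 : Integrable fun z => (x0 z : ℂ) * gr ψ z :=
        ((Complex.continuous_ofReal.comp hx.sm.continuous).mul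
          hψc).integrable_of_hasCompactSupport hT.cpt_gr.mul_left
      have i2 : Integrable fun z => (f z : ℂ) * gr ψ z :=
        ((Complex.continuous_ofReal.comp hfc).mul
          hψc).integrable_of_hasCompactSupport hT.cpt_gr.mul_left
      have hψo : Continuous fun z => (ψ z : ℂ) := Complex.continuous_ofReal.comp h1.continuous
      have hcs : HasCompactSupport fun z => (ψ z : ℂ) :=
        h2.comp_left (g := fun t : ℝ => (t : ℂ)) (by simp)
      have hts : tsupport (fun z => (ψ z : ℂ)) ⊆ Cᶜ := by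
        refine (closure_mono ?_).trans h3
        intro z hz h'
        exact hz (by simp [h'])
      have j1 : Integrable fun z => (ψ z : ℂ) * gr x0 z :=
        (hψo.mul hxc).integrable_of_hasCompactSupport hcs.mul_right
      have j2 : Integrable fun z => (ψ z : ℂ) * G z := by
        have h5 := Crest.Agent.R165.Cl4x722.integrable_mul_test lG hψo hcs hts
        exact h5.congr (ae_of_all _ fun z => mul_comm _ _)
      have e3 : ∫ z, ((x0 z + f z : ℝ) : ℂ) * gr ψ z =
          (∫ z, (x0 z : ℂ) * gr ψ z) + ∫ z, (f z : ℂ) * gr ψ z := by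
        rw [← integral_add i1 i2]
        congr 1; funext z; push_cast; ring
      have e4 : ∫ z, (ψ z : ℂ) * (gr x0 z + G z) =
          (∫ z, (ψ z : ℂ) * gr x0 z) + ∫ z, (ψ z : ℂ) * G z := by
        rw [← integral_add j1 j2]
        congr 1; funext z; ring
      rw [e3, e4, e1, e2]; ring) (by
      intro ψ hψ
      have e1 := el_G hcl hx hs hg hD hG hψ
      have i1 := hψ.int_gr (hconj lx)
      have i2 := hψ.int_gr (hconj lG)
      have e2 : ∫ z, conj (gr x0 z + G z) * gr ψ z =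
          (∫ z, conj (gr x0 z) * gr ψ z) + ∫ z, conj (G z) * gr ψ z := by
        rw [← integral_add i1 i2]
        congr 1; funext z; rw [map_add]; ring
      rw [e2, e1, int_conj_gr i1, int_dot_smooth hx.sm hψ.sm hψ.cpt, wdg_tst hO hx1 hψ]
      push_cast
      ring)
  have hre' : ∀ z ∈ Cᶜ, (F z).re = x0 z + f z := by
    refine Measure.eqOn_open_of_ae_eq (μ := (volume : Measure ℂ)) ?_ hO
      (Complex.continuous_re.comp_continuousOn hF.continuousOn)
      (hx.sm.continuous.add hfc).continuousOn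
    rw [Filter.EventuallyEq, ae_restrict_iff' hO.measurableSet]
    exact hre
  have hfe : ∀ z ∈ Cᶜ, f =ᶠ[𝓝 z] fun w => (F w).re - x0 w := by
    intro z hz
    filter_upwards [hO.mem_nhds hz] with w hw
    rw [hre' w hw]; ring
  have hloc : LocallyLipschitzOn Cᶜ f := by
    intro z hz
    have h1 : ContDiffAt ℂ 1 F z := (hF.analyticAt (hO.mem_nhds hz)).contDiffAt
    have h2 : ContDiffAt ℝ 1 (fun w => (F w).re - x0 w) z :=
      (Complex.reCLM.contDiff.contDiffAt.comp z (h1.restrict_scalars ℝ)).sub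
        (hx.sm.of_le (by exact_mod_cast le_top) : ContDiff ℝ 1 x0).contDiffAt
    obtain ⟨K, t, ht, h3⟩ := h2.exists_lipschitzOnWith
    refine ⟨K, t ∩ Cᶜ, mem_nhdsWithin_of_mem_nhds (inter_mem ht (hO.mem_nhds hz)), ?_⟩
    intro a ha c hc
    have ea : f a = (F a).re - x0 a := by rw [hre' a ha.2]; ring
    have ec : f c = (F c).re - x0 c := by rw [hre' c hc.2]; ring
    rw [ea, ec]
    exact h3 ha.1 hc.1
  have hgrf : ∀ᵐ z ∂(volume.restrict Cᶜ), gr f z = G z := by
    rw [ae_restrict_iff' hO.measurableSet]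
    filter_upwards [hFG] with z hz hzC
    have hFd : DifferentiableAt ℂ F z := (hF z hzC).differentiableAt (hO.mem_nhds hzC)
    have h1 : DifferentiableAt ℝ (fun w => (F w).re) z :=
      Complex.reCLM.differentiableAt.comp z (hFd.restrictScalars ℝ)
    have h2 : gr f z = gr (fun w => (F w).re - x0 w) z := by
      unfold gr; rw [(hfe z hzC).fderiv_eq]
    rw [h2, gr_sub h1 (hx.sm.differentiable (by simp) z), gr_re_hol hFd, ← hz hzC]
    ring
  have hfin : IntegrableOn (Bd_775.en f) Cᶜ := by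
    have h1 := (memLp_two_iff_integrable_sq_norm (Lp.aestronglyMeasurable G)).1 (Lp.memLp G)
    refine h1.congr ?_
    filter_upwards [hgrf] with z hz
    rw [← hz, norm_gr_sq]
  have hDf : D C f := ⟨hfc, hfb, hloc, hfin⟩
  have hGf : (memLp_gr hfin).toLp (gr f) = G := by
    have h1 : (Lp.memLp G).toLp G = G := Lp.toLp_coeFn G _
    rw [← h1]
    exact MemLp.toLp_congr _ _ hgrf
  refine ⟨f, hDf, hu, ?_, ?_⟩
  · have h1 : ∀ k, di C (fun z => χ k z - f z) (fun z => χ k z - f z) =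
        ‖(memLp_gr (hD k).fin).toLp (gr (χ k)) - G‖ ^ 2 := by
      intro k
      rw [← norm_sub_sq hcl (hQ k) hDf.q, hGf]
    simp only [h1]
    have h2 := ((hG.sub_const G).norm).pow 2
    simpa using h2
  · have h1 : Tendsto (fun k => di C (χ k) (χ k)) atTop (𝓝 (di C f f)) := by
      have h2 : ∀ k, di C (χ k) (χ k) = ‖(memLp_gr (hD k).fin).toLp (gr (χ k))‖ ^ 2 :=
        fun k => di_eq_norm (hQ k)
      simp only [h2]
      rw [di_eq_norm hDf.q, hGf]
      exact hG.norm.pow 2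
    have h2 := tendsto_lin hx hfc hu fun k => (hD k).cont
    have h3 : Tendsto (fun k => J C x0 (χ k)) atTop (𝓝 (J C x0 f)) := by
      unfold J
      exact h1.sub (h2.const_mul 2)
    exact tendsto_nhds_unique h3 hg.lim

end Crest.Agent.R105.Asm_6
end

-- ▼ part R105/Asm5c_6

/-!
# Row 105, S0139 [B], ATTP, part C5 (c): isotropy of the limit, `ATTP` from `C2P`, `C4P` (helper6)
-/

set_option autoImplicit false
set_option linter.style.haveILetI false

open MeasureTheory Set Filter Topology Metric Bornology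
open scoped ContDiff NNReal ENNReal

namespace Crest.Agent.R105.Asm_6

open Crest.Agent.R105.IfB_641

variable {C : Set ℂ} {x0 : ℂ → ℝ} {b : ℕ → ℂ → ℝ} {m : ℝ} {χ : ℕ → ℂ → ℝ}

/-- functions of class `Q` vanishing near `C` are in `LC` -/
theorem lc_of_zero (hC : IsClosed C) {g : ℂ → ℝ} (hg : Q C g)
    (h0 : ∀ z ∈ C, ∀ᶠ w in 𝓝 z, g w = 0) : LC C g where
  lip := by
    intro z
    by_cases hz : z ∈ C
    · refine ⟨0, {w | g w = 0}, h0 z hz, ?_⟩
      intro x hx y hy
      rw [show g x = 0 from hx, show g y = 0 from hy]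
      simp
    · obtain ⟨K, t, ht, h⟩ := hg.loc hz
      rw [hC.isOpen_compl.nhdsWithin_eq hz] at ht
      exact ⟨K, t, ht, h⟩
  bdd := hg.bdd
  fin := by
    have h1 := hg.fin
    rwa [integrableOn_iff_integrable_of_support_subset] at h1
    intro z hz hzC
    apply hz
    have h2 : g =ᶠ[𝓝 z] fun _ => (0 : ℝ) := h0 z hzC
    rw [Bd_775.en_eq_of_eventuallyEq h2, Bd_775.en_const]
  lc := by
    intro z hz
    filter_upwards [h0 z hz] with w hw
    rw [hw, (h0 z hz).self_of_nhds]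

theorem en_mul_le' {u v : ℂ → ℝ} {z : ℂ} {M : ℝ} (hu : DifferentiableAt ℝ u z)
    (hv : DifferentiableAt ℝ v z) (h1 : |u z| ≤ 1) (h2 : |v z| ≤ M) :
    Bd_775.en (fun w => u w * v w) z ≤ 2 * Bd_775.en v z + 2 * M ^ 2 * Bd_775.en u z := by
  unfold Bd_775.en; rw [Bd_775.gx_mul hu hv, Bd_775.gy_mul hu hv]
  have h3 : u z ^ 2 ≤ 1 := by rw [← sq_abs]; nlinarith [abs_nonneg (u z)]
  have h4 : v z ^ 2 ≤ M ^ 2 := by rw [← sq_abs]; exact pow_le_pow_left₀ (abs_nonneg _) h2 2
  have key : ∀ p q : ℝ, (u z * p + v z * q) ^ 2 ≤ 2 * p ^ 2 + 2 * M ^ 2 * q ^ 2 := by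
    intro p q
    have e1 : (u z * p + v z * q) ^ 2 ≤ 2 * (u z ^ 2 * p ^ 2 + v z ^ 2 * q ^ 2) := by
      nlinarith [sq_nonneg (u z * p - v z * q)]
    have e2 : u z ^ 2 * p ^ 2 ≤ 1 * p ^ 2 := mul_le_mul_of_nonneg_right h3 (sq_nonneg _)
    have e3 : v z ^ 2 * q ^ 2 ≤ M ^ 2 * q ^ 2 := mul_le_mul_of_nonneg_right h4 (sq_nonneg _)
    linarith
  have e1 := key (Bd_775.gx v z) (Bd_775.gx u z)
  have e2 := key (Bd_775.gy v z) (Bd_775.gy u z)
  linarith

/-- **approximants equal to `f` off small neighbourhoods of `C`** -/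
theorem exists_near (hC : TD C) (hg : GS C x0 b m χ) (hS : ∀ s ∈ range b, D C s) {f : ℂ → ℝ}
    (hf : D C f)
    (hu : ∀ R h : ℝ, 0 < h → ∃ K : ℕ, ∀ k, K ≤ k → ∀ z, ‖z‖ ≤ R → |χ k z - f z| ≤ h)
    (hdi : Tendsto (fun k => di C (fun z => χ k z - f z) (fun z => χ k z - f z)) atTop (𝓝 0))
    {r : ℝ} (hr : 0 < r) : ∃ a, Gen C (range b) a ∧ Bd_775.Near C r a f := by
  have hcl : IsClosed C := hC.cpt.isClosed
  obtain ⟨ζ, z1, z2, z3, z4, z5⟩ := Dir_508.exists_cutoff hC.cpt (isOpen_thickening (δ := r))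
    (self_subset_thickening hr C)
  have hζ1 : ∀ z, |ζ z| ≤ 1 := fun z => by
    rw [abs_of_nonneg (z5 z).1]; exact (z5 z).2
  have hζlc : LC C ζ := by
    have h1 : ContDiff ℝ 1 ζ := z1.of_le (by exact_mod_cast le_top)
    obtain ⟨D, hD⟩ := h1.lipschitzWith_of_hasCompactSupport z2 one_ne_zero
    refine Bd_775.LC.of_lipschitz hD z2 fun z hz => ?_
    have h2 := (eventually_nhdsSet_iff_forall.1 z4) z hz
    filter_upwards [h2] with w hw
    rw [hw, h2.self_of_nhds]
  set A := ∫ z in Cᶜ, Bd_775.en ζ z with hA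
  have hA0 : 0 ≤ A := integral_nonneg fun z => Bd_775.en_nonneg _ z
  obtain ⟨R, hR⟩ := z2.isCompact.isBounded.subset_closedBall (0 : ℂ)
  set s : ℝ := min r (r / (2 * (A + 1))) with hs
  have hs0 : 0 < s := by positivity
  obtain ⟨K1, hK1⟩ := hu R s hs0
  have h1 : ∀ᶠ k in atTop, di C (fun z => χ k z - f z) (fun z => χ k z - f z) < r ^ 2 / 4 :=
    hdi.eventually (gt_mem_nhds (by positivity))
  obtain ⟨k, hk1, hk2⟩ := (h1.and (eventually_ge_atTop K1)).exists
  have hDk : D C (χ k) := Gen.d hcl hS (hg.gen k)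
  have hQd : Q C (fun z => χ k z - f z) := hDk.q.sub hcl hf.q
  have hd : ∀ z, |ζ z * (χ k z - f z)| ≤ s := by
    intro z
    by_cases hz : z ∈ tsupport ζ
    · have h2 := hR hz
      rw [mem_closedBall, dist_zero_right] at h2
      rw [abs_mul]
      have h3 := hK1 k hk2 z h2
      calc |ζ z| * |χ k z - f z| ≤ 1 * s :=
            mul_le_mul (hζ1 z) h3 (abs_nonneg _) zero_le_one
        _ = s := one_mul s
    · rw [image_eq_zero_of_notMem_tsupport hz, zero_mul, abs_zero]; exact hs0.le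
  refine ⟨fun z => f z + ζ z * (χ k z - f z), ?_, ?_⟩
  · have e : (fun z => f z + ζ z * (χ k z - f z)) =
        fun z => χ k z + (ζ z - 1) * (χ k z - f z) := by funext z; ring
    rw [e]
    refine Gen.add (hg.gen k) (Gen.lc (lc_of_zero hcl ?_ ?_))
    · exact (hζlc.q.sub hcl (Bd_775.Q.const C 1)).mul hcl hQd
    · intro z hz
      filter_upwards [(eventually_nhdsSet_iff_forall.1 z4) z hz] with w hw
      rw [hw, sub_self, zero_mul]
  · refine ⟨Or.inr fun z hz => ?_, fun z => ?_, ?_⟩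
    · have : ζ z = 0 := image_eq_zero_of_notMem_tsupport fun h' => hz (z3 h')
      simp only [this]; ring
    · have e : f z + ζ z * (χ k z - f z) - f z = ζ z * (χ k z - f z) := by ring
      simp only [e]
      exact (hd z).trans (min_le_left _ _)
    · have e : (fun w => f w + ζ w * (χ k w - f w) - f w) = fun w => ζ w * (χ k w - f w) := by
        funext w; ring
      have hQm : Q C (fun w => ζ w * (χ k w - f w)) := hζlc.q.mul hcl hQd
      have e2 : ∀ z, Bd_775.en (fun w => (fun z => f z + ζ z * (χ k z - f z)) w - f w) z =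
          Bd_775.en (fun w => ζ w * (χ k w - f w)) z := fun z => by
        simp only [e]
      simp only [e2]
      rw [← Bd_775.setIntegral_en_eq hQm]
      refine ENNReal.ofReal_le_ofReal ?_
      -- pointwise estimate, with `|χ k - f| ≤ s` where `ζ ≠ 0`
      have hpt : ∀ᵐ z ∂(volume.restrict Cᶜ), Bd_775.en (fun w => ζ w * (χ k w - f w)) z ≤
          2 * Bd_775.en (fun w => χ k w - f w) z + 2 * s ^ 2 * Bd_775.en ζ z := by
        filter_upwards [hζlc.q.ae_diff hcl, hQd.ae_diff hcl] with z d1 d2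
        by_cases hz : z ∈ tsupport ζ
        · have h2 := hR hz
          rw [mem_closedBall, dist_zero_right] at h2
          exact en_mul_le' d1 d2 (hζ1 z) (hK1 k hk2 z h2)
        · have h3 : (fun w => ζ w * (χ k w - f w)) =ᶠ[𝓝 z] fun _ => (0 : ℝ) := by
            have h4 : ζ =ᶠ[𝓝 z] 0 := notMem_tsupport_iff_eventuallyEq.1 hz
            filter_upwards [h4] with w hw
            rw [hw]; simp
          rw [Bd_775.en_eq_of_eventuallyEq h3, Bd_775.en_const]
          have := Bd_775.en_nonneg (fun w => χ k w - f w) z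
          have := Bd_775.en_nonneg ζ z
          positivity
      have h5 := integral_mono_ae hQm.fin ((hQd.fin.const_mul 2).add
        (hζlc.q.fin.const_mul (2 * s ^ 2))) hpt
      refine h5.trans ?_
      have h6 : ∫ z in Cᶜ, (2 * Bd_775.en (fun w => χ k w - f w) z +
          2 * s ^ 2 * Bd_775.en ζ z) =
          2 * (∫ z in Cᶜ, Bd_775.en (fun w => χ k w - f w) z) + 2 * s ^ 2 * A := by
        rw [← integral_const_mul, hA, ← integral_const_mul]
        exact integral_add (hQd.fin.const_mul 2) (hζlc.q.fin.const_mul (2 * s ^ 2))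
      have h7 : ∫ z in Cᶜ, Bd_775.en (fun w => χ k w - f w) z < r ^ 2 / 4 := by
        rw [← Bd_775.di_self]; exact hk1
      have h8 : 2 * s ^ 2 * A ≤ r ^ 2 / 2 := by
        have h9 : s ≤ r / (2 * (A + 1)) := min_le_right _ _
        have h10 : s ≤ r := min_le_left _ _
        have h11 : s * (A + 1) ≤ r / 2 := by
          calc s * (A + 1) ≤ r / (2 * (A + 1)) * (A + 1) :=
                mul_le_mul_of_nonneg_right h9 (by positivity)
            _ = r / 2 := by field_simp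
        have h12 : s ^ 2 * A ≤ s * (s * (A + 1)) := by nlinarith
        have h13 : s * (s * (A + 1)) ≤ s * (r / 2) := mul_le_mul_of_nonneg_left h11 hs0.le
        -- `s * A ≤ r / 2`, need one more factor
        have h14 : s ≤ r / 2 := by
          have : r / (2 * (A + 1)) ≤ r / 2 := by
            apply div_le_div_of_nonneg_left hr.le (by norm_num) (by linarith)
          exact h9.trans this
        nlinarith
      refine le_trans (le_of_eq h6) ?_
      linarith

/-- **isotropy of the limit** -/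
theorem iso_limit (hC : TD C) (hs : Sel C x0 b m) {f : ℂ → ℝ} (hf : D C f)
    (hn : ∀ r : ℝ, 0 < r → ∃ a, Gen C (range b) a ∧ Bd_775.Near C r a f) :
    Iso C (insert f (range b)) := by
  have hcl : IsClosed C := hC.cpt.isClosed
  have hS : ∀ s ∈ range b, D C s := by rintro _ ⟨i, rfl⟩; exact hs.mem i
  choose a ha hn using fun n : ℕ => hn (1 / ((n : ℝ) + 1)) (by positivity)
  have hcv : Bd_775.Cv C a f := by
    have h1 := Bd_775.cv_of_tendsto hcl (x := fun n => (⟨a n, Gen.d hcl hS (ha n)⟩ : Bd_775.Hn C))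
      (y := ⟨f, hf⟩) (by
        letI := Bd_775.metr hcl
        rw [tendsto_iff_dist_tendsto_zero]
        refine squeeze_zero (fun n => dist_nonneg) (fun n => ?_)
          tendsto_one_div_add_atTop_nhds_zero_nat
        exact Bd_775.dist_le_of_near hcl (by positivity) (hn n))
    exact h1
  have hr : insert f (range b) = range (fun i : Option ℕ => i.elim f b) := by
    ext u
    constructor
    · rintro (rfl | ⟨i, rfl⟩)
      · exact ⟨none, rfl⟩
      · exact ⟨some i, rfl⟩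
    · rintro ⟨i, rfl⟩
      cases i with
      | none => exact mem_insert _ _
      | some i => exact mem_insert_of_mem _ ⟨i, rfl⟩
  rw [hr, iso_range]
  refine Bd_775.iso_of_cv (b := fun n (i : Option ℕ) => i.elim (a n) b) hcl ?_ ?_ ?_
    (Frequently.of_forall fun n => ?_)
  · intro n i
    cases i with
    | none => exact (Gen.d hcl hS (ha n)).q
    | some i => exact (hs.mem i).q
  · intro i
    cases i with
    | none => exact hf.q
    | some i => exact (hs.mem i).q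
  · intro i
    cases i with
    | none => exact hcv
    | some i => exact Bd_775.Cv.of_const hcl (hs.mem i).q
  · rw [← iso_range]
    refine Iso.trans ?_ hs.iso
    rintro _ ⟨i, rfl⟩
    cases i with
    | none => exact ha n
    | some i => exact Gen.of ⟨i, rfl⟩

/-- **`ATTP` from the leaves** -/
theorem attp_of (h2 : C2P) (h4 : C4P) : ATTP := by
  intro C x0 hC hx b m hs
  have hcl : IsClosed C := hC.cpt.isClosed
  have hS : ∀ s ∈ range b, D C s := by rintro _ ⟨i, rfl⟩; exact hs.mem i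
  obtain ⟨χ, hg⟩ := exists_gs h2 h4 hC hx hs
  obtain ⟨f, hf, hu, hdi, hJ⟩ := exists_limit hC hx hs hg
  exact ⟨f, hf, iso_limit hC hs hf fun r hr => exists_near hC hg hS hf hu hdi hr, hJ⟩

end Crest.Agent.R105.Asm_6
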