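import Crest.Agent.R105.Mr1_61
import Crest.Agent.R105.Asm0_6
import Crest.Agent.R105.Stk2_939
import Crest.Agent.R105.Mid1_987
import Mathlib
import Crest.Agent.R105.Bd1_775
import Crest.Agent.R105.Sep1_590
import Crest.Agent.R105.Asm5c_6

-- ▼ part R105/Mr2_61
section

/-!
# Row 105, ATT (B): monotone replacement on a finite grid of levels (helper61)
-/

set_option autoImplicit false

open Set Filter Topology Metric Bornology
open scoped ContDiff

namespace Crest.Agent.R105.Mr_61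

/-- far away the function only depends on `re z` -/
def FarRe (u : ℂ → ℝ) (R : ℝ) : Prop :=
  ∀ z w : ℂ, R ≤ ‖z‖ → R ≤ ‖w‖ → z.re = w.re → u z = u w

lemma FarRe.neg {u : ℂ → ℝ} {R : ℝ} (h : FarRe u R) : FarRe (fun z => -u z) R :=
  fun z w hz hw h1 => by simp only [h z w hz hw h1]

lemma FarRe.congr {u u' : ℂ → ℝ} {R : ℝ} (h : FarRe u R) (h' : ∀ z, R ≤ ‖z‖ → u' z = u z) :
    FarRe u' R := fun z w hz hw h1 => by rw [h' z hz, h' w hw, h z w hz hw h1]

lemma farRe_re {u : ℂ → ℝ} {R : ℝ} (h : ∀ z, R ≤ ‖z‖ → u z = z.re) : FarRe u R :=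
  fun z w hz hw h1 => by rw [h z hz, h w hw, h1]

/-- far points lie in unbounded components of superlevel sets -/
lemma far_unbounded {u : ℂ → ℝ} {R : ℝ} (h : FarRe u R) (t : ℝ) :
    ∀ z, t < u z → R ≤ ‖z‖ → ¬ IsBounded (connectedComponentIn {w | t < u w} z) := by
  intro z hz hR hb
  -- a vertical ray away from the real axis
  obtain ⟨σ, hσ, hσ1⟩ : ∃ σ : ℝ, 0 ≤ σ * z.im ∧ |σ| = 1 := by
    rcases le_total 0 z.im with h1 | h1
    · exact ⟨1, by linarith, by norm_num⟩
    · exact ⟨-1, by linarith, by norm_num⟩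
  set g : ℝ → ℂ := fun s => z + ((s * σ : ℝ) : ℂ) * Complex.I with hg
  have hgc : Continuous g := by
    rw [hg]
    exact continuous_const.add ((Complex.continuous_ofReal.comp (continuous_id.mul
      continuous_const)).mul continuous_const)
  have hre : ∀ s, (g s).re = z.re := by intro s; simp [hg]
  have him : ∀ s, (g s).im = z.im + s * σ := by intro s; simp [hg]
  have hnorm : ∀ s, 0 ≤ s → ‖z‖ ≤ ‖g s‖ := by
    intro s hs
    rw [← sq_le_sq₀ (norm_nonneg _) (norm_nonneg _), ← Complex.normSq_eq_norm_sq,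
      ← Complex.normSq_eq_norm_sq, Complex.normSq_apply, Complex.normSq_apply, hre, him]
    nlinarith [mul_nonneg hs hσ, mul_self_nonneg (s * σ)]
  have hsub : g '' Ici 0 ⊆ connectedComponentIn {w | t < u w} z := by
    refine (isPreconnected_Ici.image g hgc.continuousOn).subset_connectedComponentIn
      ⟨0, mem_Ici.2 le_rfl, by simp [hg]⟩ ?_
    rintro _ ⟨s, hs, rfl⟩
    show t < u (g s)
    rw [h (g s) z (hR.trans (hnorm s hs)) hR (hre s)]
    exact hz
  have hb' := hb.subset hsub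
  rw [isBounded_iff_forall_norm_le] at hb'
  obtain ⟨M, hM⟩ := hb'
  have h0 : 0 ≤ |M| + |z.im| + 1 := by positivity
  have h1 := hM (g (|M| + |z.im| + 1)) ⟨_, h0, rfl⟩
  have h2 : |(g (|M| + |z.im| + 1)).im| ≤ M := (Complex.abs_im_le_norm _).trans h1
  rw [him] at h2
  have h3 : |M| + |z.im| + 1 ≤ |z.im + (|M| + |z.im| + 1) * σ| + |z.im| := by
    have h4 : |(|M| + |z.im| + 1) * σ| ≤ |z.im + (|M| + |z.im| + 1) * σ| + |z.im| := by
      have := abs_sub (z.im + (|M| + |z.im| + 1) * σ) z.im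
      rwa [add_sub_cancel_left] at this
    rw [abs_mul, hσ1, mul_one, abs_of_nonneg h0] at h4
    exact h4
  have h5 := le_abs_self M
  linarith

/-- a class of functions closed under the two component switches -/
structure Cl (C : Set ℂ) (PP : (ℂ → ℝ) → Prop) : Prop where
  up : ∀ (u : ℂ → ℝ) (t e : ℝ) (χ : ℂ → ℝ), PP u → 0 < e → Cut C χ →
    PP (fun z => u z - max (u z - t - e) 0 * χ z)
  dn : ∀ (u : ℂ → ℝ) (t e : ℝ) (χ : ℂ → ℝ), PP u → 0 < e → Cut C χ →
    PP (fun z => u z + max (t - e - u z) 0 * χ z)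

/-- the relation "good replacement" -/
structure Rep (R : ℝ) (u u' : ℂ → ℝ) : Prop where
  cont : Continuous u'
  far : ∀ z, R ≤ ‖z‖ → u' z = u z
  grad : ∀ z, fderiv ℝ u' z = fderiv ℝ u z ∨ fderiv ℝ u' z = 0

lemma Rep.trans {R : ℝ} {u u' u'' : ℂ → ℝ} (h : Rep R u u') (h' : Rep R u' u'') : Rep R u u'' where
  cont := h'.cont
  far z hz := by rw [h'.far z hz, h.far z hz]
  grad z := by
    rcases h'.grad z with h1 | h1
    · rcases h.grad z with h2 | h2
      · left; rw [h1, h2]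
      · right; rw [h1, h2]
    · right; exact h1

/-- one superlevel step -/
theorem step_up {C : Set ℂ} (hC : IsCompact C) (htd : IsTotallyDisconnected C) {u : ℂ → ℝ}
    (hu : Continuous u) {R : ℝ} (hR : FarRe u R) {PP : (ℂ → ℝ) → Prop} (hcl : Cl C PP) (hP : PP u)
    (t : ℝ) {e : ℝ} (he : 0 < e) :
    ∃ u', PP u' ∧ Rep R u u' ∧ (∀ z, u' z ≤ u z) ∧ Pp u' t e ∧
      (∀ s e', 0 < e' → Pp u s e' → Pp u' s e') ∧ (∀ s e', 0 < e' → Pm u s e' → Pm u' s e') := by
  obtain ⟨χ, hχ, hA⟩ := exists_adm hC htd hu he (far_unbounded hR t)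
  refine ⟨sw u t e χ, hcl.up u t e χ hP he hχ, ⟨?_, ?_, fderiv_sw hu he hA⟩, sw_le hA,
    Pp_sw he hA, fun s e' he' h => Pp_sw_of he hA he' h, fun s e' he' h => Pm_sw_of hu he hA he' h⟩
  · exact hu.sub (((((hu.sub continuous_const).sub continuous_const)).max continuous_const).mul
      hχ.sm.continuous)
  · intro z hz
    refine sw_not hA fun h => ?_
    exact far_unbounded hR t z h.1 hz h.2

/-- one sublevel step -/
theorem step_dn {C : Set ℂ} (hC : IsCompact C) (htd : IsTotallyDisconnected C) {u : ℂ → ℝ}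
    (hu : Continuous u) {R : ℝ} (hR : FarRe u R) {PP : (ℂ → ℝ) → Prop} (hcl : Cl C PP) (hP : PP u)
    (t : ℝ) {e : ℝ} (he : 0 < e) :
    ∃ u', PP u' ∧ Rep R u u' ∧ (∀ z, u z ≤ u' z) ∧ Pm u' t e ∧
      (∀ s e', 0 < e' → Pp u s e' → Pp u' s e') ∧ (∀ s e', 0 < e' → Pm u s e' → Pm u' s e') := by
  have hcl' : Cl C (fun v => PP (fun z => -v z)) := by
    refine ⟨fun v t e χ hv he hχ => ?_, fun v t e χ hv he hχ => ?_⟩
    · have := hcl.dn (fun z => -v z) (-t) e χ hv he hχ
      refine (congrArg PP (funext fun z => ?_)).mp this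
      rw [show -t - e - -v z = v z - t - e by ring]; ring
    · have := hcl.up (fun z => -v z) (-t) e χ hv he hχ
      refine (congrArg PP (funext fun z => ?_)).mp this
      rw [show -v z - -t - e = t - e - v z by ring]; ring
  obtain ⟨v, hv, hr, hle, h1, h2, h3⟩ := step_up hC htd (u := fun z => -u z) hu.neg hR.neg hcl'
    (by simpa using hP) (-t) he
  refine ⟨fun z => -v z, hv, ⟨hr.cont.neg, ?_, ?_⟩, ?_, ?_, ?_, ?_⟩
  · intro z hz
    rw [hr.far z hz, neg_neg]
  · intro z
    have e1 : fderiv ℝ (fun z => -v z) z = -fderiv ℝ v z := fderiv_fun_neg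
    have e2 : fderiv ℝ (fun z => -u z) z = -fderiv ℝ u z := fderiv_fun_neg
    rcases hr.grad z with h | h
    · left; rw [e1, h, e2, neg_neg]
    · right; rw [e1, h, neg_zero]
  · intro z
    have := hle z
    linarith
  · rw [← Pp_neg]; simpa using h1
  · intro s e' he' h
    rw [← Pm_neg]
    simpa using h3 (-s) e' he' (Pm_neg.2 h)
  · intro s e' he' h
    rw [← Pp_neg]
    simpa using h2 (-s) e' he' (Pp_neg.2 h)

/-- **MONOTONE REPLACEMENT** on a finite grid `T` of levels, with tolerance `e` -/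
theorem exists_mono {C : Set ℂ} (hC : IsCompact C) (htd : IsTotallyDisconnected C) {u : ℂ → ℝ}
    (hu : Continuous u) {R : ℝ} (hR : FarRe u R) {PP : (ℂ → ℝ) → Prop} (hcl : Cl C PP) (hP : PP u)
    (T : Finset ℝ) {e : ℝ} (he : 0 < e) :
    ∃ u', PP u' ∧ Rep R u u' ∧ ∀ t ∈ T, Pp u' t e ∧ Pm u' t e := by
  classical
  induction T using Finset.induction_on with
  | empty =>
    exact ⟨u, hP, ⟨hu, fun z _ => rfl, fun z => Or.inl rfl⟩, by simp⟩
  | insert t T _ ih =>
    obtain ⟨u₁, hP₁, hr₁, h₁⟩ := ih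
    obtain ⟨u₂, hP₂, hr₂, -, h2t, h2p, h2m⟩ :=
      step_up hC htd hr₁.cont (hR.congr hr₁.far) hcl hP₁ t he
    obtain ⟨u₃, hP₃, hr₃, -, h3t, h3p, h3m⟩ :=
      step_dn hC htd hr₂.cont ((hR.congr hr₁.far).congr hr₂.far) hcl hP₂ t he
    refine ⟨u₃, hP₃, (hr₁.trans hr₂).trans hr₃, fun s hs => ?_⟩
    rcases Finset.mem_insert.1 hs with rfl | hs
    · exact ⟨h3p _ e he h2t, h3t⟩
    · exact ⟨h3p s e he (h2p s e he (h₁ s hs).1), h3m s e he (h2m s e he (h₁ s hs).2)⟩


/-- a grid: for `z` with `u z < c` there is a grid level between -/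
theorem exists_grid (M e : ℝ) (he : 0 < e) :
    ∃ T : Finset ℝ, ∀ c, |c| ≤ M → ∃ t ∈ T, c ≤ t ∧ t ≤ c + e := by
  classical
  obtain ⟨N, hN⟩ := exists_nat_gt (2 * (|M| + 1) / e + 1)
  refine ⟨(Finset.range (N + 1)).image fun k : ℕ => -|M| + k * e, fun c hc => ?_⟩
  have hM : |c| ≤ |M| := hc.trans (le_abs_self M)
  have h0 : 0 ≤ c + |M| := by linarith [neg_abs_le c]
  refine ⟨-|M| + (⌈(c + |M|) / e⌉₊ : ℕ) * e, ?_, ?_, ?_⟩
  · rw [Finset.mem_image]
    refine ⟨⌈(c + |M|) / e⌉₊, ?_, rfl⟩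
    rw [Finset.mem_range]
    have h1 : (⌈(c + |M|) / e⌉₊ : ℝ) < (c + |M|) / e + 1 := Nat.ceil_lt_add_one (by positivity)
    have h2 : (c + |M|) / e ≤ 2 * (|M| + 1) / e := by
      gcongr
      linarith [le_abs_self c]
    have h3 : (⌈(c + |M|) / e⌉₊ : ℝ) < N := by linarith
    have h4 : ⌈(c + |M|) / e⌉₊ < N := by exact_mod_cast h3
    omega
  · have h1 : (c + |M|) / e ≤ ⌈(c + |M|) / e⌉₊ := Nat.le_ceil _
    rw [div_le_iff₀ he] at h1
    linarith
  · have h1 : (⌈(c + |M|) / e⌉₊ : ℝ) < (c + |M|) / e + 1 := Nat.ceil_lt_add_one (by positivity)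
    have h2 : (⌈(c + |M|) / e⌉₊ : ℝ) * e ≤ ((c + |M|) / e + 1) * e :=
      mul_le_mul_of_nonneg_right h1.le he.le
    rw [add_mul, div_mul_cancel₀ _ he.ne'] at h2
    linarith

end Crest.Agent.R105.Mr_61
end

-- ▼ part R105/Mr3_61
section

/-!
# Row 105, ATT (B): monotone replacement, output form (helper61)
-/

set_option autoImplicit false

open Set Filter Topology Metric Bornology
open scoped ContDiff

namespace Crest.Agent.R105.Mr_61

lemma Pm.unb {u : ℂ → ℝ} {t e s : ℝ} (h : Pm u t e) {p : ℂ} (hp : u p < t - e) (he : 0 < e)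
    (hts : t ≤ s) : ¬ IsBounded (connectedComponentIn {w | u w < s} p) := by
  intro hb
  refine h p hp (hb.subset ?_)
  refine isPreconnected_connectedComponentIn.subset_connectedComponentIn
    (mem_connectedComponentIn (show p ∈ {w | u w < t} from by show u p < t; linarith)) ?_
  intro w hw
  have : u w < t := connectedComponentIn_subset {w | u w < t} p hw
  exact this.trans_le hts

lemma Pp.unb {u : ℂ → ℝ} {t e s : ℝ} (h : Pp u t e) {p : ℂ} (hp : t + e < u p) (he : 0 < e)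
    (hts : s ≤ t) : ¬ IsBounded (connectedComponentIn {w | s < u w} p) := by
  intro hb
  refine h p hp (hb.subset ?_)
  refine isPreconnected_connectedComponentIn.subset_connectedComponentIn
    (mem_connectedComponentIn (show p ∈ {w | t < u w} from by show t < u p; linarith)) ?_
  intro w hw
  have : t < u w := connectedComponentIn_subset {w | t < u w} p hw
  exact hts.trans_lt this

/-- **MONOTONE REPLACEMENT, output form.** `u` continuous, `= re` off `ball 0 R`; a class `PP` closed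
under component switches. For `M`, `e > 0` there is `u'` in the class, `= u` off `ball 0 R`, whose
gradient at every point is the old one or zero, such that for all levels `|c| ≤ M`: a point with
`u' p ≤ c` lies in an unbounded component of `{u' < c + e}`, a point with `c ≤ u' p` in an unbounded
component of `{c - e < u'}`. -/
theorem exists_mono' {C : Set ℂ} (hC : IsCompact C) (htd : IsTotallyDisconnected C) {u : ℂ → ℝ}
    (hu : Continuous u) {R : ℝ} (hR : ∀ z, R ≤ ‖z‖ → u z = z.re) {PP : (ℂ → ℝ) → Prop}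
    (hcl : Cl C PP) (hP : PP u) (M : ℝ) {e : ℝ} (he : 0 < e) :
    ∃ u', PP u' ∧ Rep R u u' ∧ ∀ c, |c| ≤ M → ∀ p,
      (u' p ≤ c → ¬ IsBounded (connectedComponentIn {w | u' w < c + e} p)) ∧
      (c ≤ u' p → ¬ IsBounded (connectedComponentIn {w | c - e < u' w} p)) := by
  obtain ⟨T, hT⟩ := exists_grid (|M| + e) (e / 4) (by linarith)
  obtain ⟨u', hP', hr, h⟩ := exists_mono hC htd hu (farRe_re hR) hcl hP T (e := e / 4) (by linarith)
  refine ⟨u', hP', hr, fun c hc p => ⟨fun hp => ?_, fun hp => ?_⟩⟩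
  · obtain ⟨t, ht, h1, h2⟩ := hT (c + e / 2) (by
      have := abs_add_le c (e / 2)
      rw [abs_of_pos (show 0 < e / 2 by linarith)] at this
      linarith [le_abs_self M])
    exact (h t ht).2.unb (by linarith) (by linarith) (by linarith)
  · obtain ⟨t, ht, h1, h2⟩ := hT (c - 3 * e / 4) (by
      have := abs_sub c (3 * e / 4)
      rw [abs_of_pos (show 0 < 3 * e / 4 by linarith)] at this
      linarith [le_abs_self M])
    exact (h t ht).1.unb (by linarith) (by linarith) (by linarith)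

end Crest.Agent.R105.Mr_61
end

-- ▼ part R105/C2P_61
section

/-!
# Row 105, S0139 [B], ATTP: leaf `C2P` of helper6 (`Asm0_6`) (helper61)

* `exists_cpt` : logarithmic cut-off of an honest function, `J` increases by at most `ε`
* `cl_PP` : `x0 + Gen` is closed under component switches (`Mr_61.Cl`)
* `J_le_of_rep` : a replacement does not increase `J`
* `Mn_of` : tolerance monotonicity at all points
* `c2p : Asm_6.C2P`
-/

set_option autoImplicit false

open MeasureTheory Set Filter Topology Metric Bornology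
open scoped ContDiff NNReal

namespace Crest.Agent.R105.C2P_61

open Crest.Agent.R105.IfB_641 Crest.Agent.R105.Mr_61

variable {C : Set ℂ} {x0 : ℂ → ℝ} {S : Set (ℂ → ℝ)}

/-! ### 1. cut-off -/

lemma en_mul_le' {η b : ℂ → ℝ} {z : ℂ} {M s : ℝ} (hs : 0 < s) (hη : DifferentiableAt ℝ η z)
    (hb : DifferentiableAt ℝ b z) (h1 : |η z| ≤ 1) (h2 : |b z| ≤ M) :
    en (fun w => η w * b w) z ≤ (1 + s) * en b z + (1 + s⁻¹) * M ^ 2 * en η z := by
  have e1 : η z ^ 2 ≤ 1 := by rw [← sq_abs]; nlinarith [abs_nonneg (η z)]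
  have e2 : b z ^ 2 ≤ M ^ 2 := by rw [← sq_abs]; exact pow_le_pow_left₀ (abs_nonneg _) h2 2
  have key : ∀ p q : ℝ, (η z * p + b z * q) ^ 2 ≤ (1 + s) * p ^ 2 + (1 + s⁻¹) * M ^ 2 * q ^ 2 := by
    intro p q
    have h3 : 2 * (η z * p) * (b z * q) ≤ s * (η z * p) ^ 2 + s⁻¹ * (b z * q) ^ 2 := by
      have h4 : 0 ≤ s * (η z * p - s⁻¹ * (b z * q)) ^ 2 := by positivity
      have h5 : s * (η z * p - s⁻¹ * (b z * q)) ^ 2
          = s * (η z * p) ^ 2 - 2 * (s * s⁻¹) * (η z * p) * (b z * q)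
            + (s * s⁻¹) * s⁻¹ * (b z * q) ^ 2 := by ring
      rw [h5, mul_inv_cancel₀ hs.ne'] at h4
      linarith
    have h6 : (η z * p) ^ 2 ≤ p ^ 2 := by
      rw [mul_pow]; exact mul_le_of_le_one_left (sq_nonneg _) e1
    have h7 : (b z * q) ^ 2 ≤ M ^ 2 * q ^ 2 := by
      rw [mul_pow]; exact mul_le_mul_of_nonneg_right e2 (sq_nonneg _)
    have h8 : (η z * p + b z * q) ^ 2
        ≤ (1 + s) * (η z * p) ^ 2 + (1 + s⁻¹) * (b z * q) ^ 2 := by nlinarith
    refine h8.trans ?_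
    have h9 : (1 + s) * (η z * p) ^ 2 ≤ (1 + s) * p ^ 2 :=
      mul_le_mul_of_nonneg_left h6 (by positivity)
    have h10 : (1 + s⁻¹) * (b z * q) ^ 2 ≤ (1 + s⁻¹) * (M ^ 2 * q ^ 2) :=
      mul_le_mul_of_nonneg_left h7 (by positivity)
    linarith
  unfold Bd_775.en
  rw [Bd_775.gx_mul hη hb, Bd_775.gy_mul hη hb]
  have k1 := key (gx b z) (gx η z)
  have k2 := key (gy b z) (gy η z)
  nlinarith

lemma di_self' (u : ℂ → ℝ) : di C u u = ∫ z in Cᶜ, en u z := by
  unfold di
  congr 1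
  funext z
  unfold Bd_775.dot Bd_775.en
  ring

/-- logarithmic cut-off of a bounded honest function -/
theorem exists_cpt (hC : IsCompact C) (hx : X0 C x0) {b : ℂ → ℝ} (hb : D C b)
    (hg : Gen C S b) {ε : ℝ} (hε : 0 < ε) :
    ∃ φ : ℂ → ℝ, D C φ ∧ Gen C S φ ∧ HasCompactSupport φ ∧ J C x0 φ ≤ J C x0 b + ε := by
  have hcl := hC.isClosed
  obtain ⟨M, hM⟩ := hb.bdd
  set E := di C b b with hE
  have hE0 : 0 ≤ E := by
    rw [hE, di_self']; exact integral_nonneg fun z => Bd_775.en_nonneg _ z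
  obtain ⟨R1, hR1⟩ := hC.isBounded.subset_closedBall (0 : ℂ)
  obtain ⟨R2, hR2⟩ := hx.lap_far
  set R₀ := max R1 R2 with hR₀
  set s := ε / (2 * (E + 1)) with hs
  have hs0 : 0 < s := by positivity
  set δ := ε / (2 * ((1 + s⁻¹) * (M ^ 2 + 1))) with hδ
  have hδ0 : 0 < δ := by positivity
  obtain ⟨η, ⟨K, hK⟩, hηc, hη01, hη1, hηi, hηe⟩ := Stk_939.exists_cut_inf (R₀ + 1) hδ0
  have hlc : LC C η := by
    refine Bd_775.LC.of_lipschitz hK hηc fun z hz => ?_
    have hz' : ‖z‖ < R₀ + 1 := by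
      have h1 := hR1 hz
      rw [mem_closedBall, dist_zero_right] at h1
      linarith [le_max_left R1 R2]
    have h2 : ∀ᶠ w in 𝓝 z, ‖w‖ < R₀ + 1 := continuous_norm.continuousAt.eventually_lt
      continuousAt_const hz'
    filter_upwards [h2] with w hw
    rw [hη1 w hw.le, hη1 z hz'.le]
  have hgen : Gen C S (fun z => η z * b z) := Gen.mul (Gen.lc hlc) hg
  have hQ : Q C (fun z => η z * b z) := hlc.q.mul hcl hb.q
  refine ⟨fun z => η z * b z, hQ.d (hK.continuous.mul hb.cont), hgen, hηc.mul_right, ?_⟩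
  have hlap : ∫ z, (η z * b z) * lap x0 z = ∫ z, b z * lap x0 z := by
    refine integral_congr_ae (Eventually.of_forall fun z => ?_)
    simp only []
    by_cases hz : ‖z‖ ≤ R₀
    · rw [hη1 z (by linarith), one_mul]
    · rw [hR2 z (by linarith [le_max_right R1 R2, not_le.1 hz]), mul_zero, mul_zero]
  unfold J
  rw [hlap]
  have hmain : di C (fun z => η z * b z) (fun z => η z * b z) ≤ E + ε := by
    rw [di_self']
    have h1 : ∫ z in Cᶜ, en (fun z => η z * b z) z
        ≤ ∫ z in Cᶜ, ((1 + s) * en b z + (1 + s⁻¹) * M ^ 2 * en η z) := by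
      refine integral_mono_ae hQ.fin
        ((hb.fin.const_mul (1 + s)).add (hηi.integrableOn.const_mul _)) ?_
      filter_upwards [hlc.q.ae_diff hcl, hb.q.ae_diff hcl] with z h1 h2
      exact en_mul_le' hs0 h1 h2 (by rw [abs_of_nonneg (hη01 z).1]; exact (hη01 z).2) (hM z)
    refine h1.trans ?_
    rw [integral_add (hb.fin.const_mul (1 + s)) (hηi.integrableOn.const_mul _),
      integral_const_mul, integral_const_mul, ← di_self', ← hE]
    have h2 : ∫ z in Cᶜ, en η z ≤ δ :=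
      (setIntegral_le_integral hηi (Eventually.of_forall fun z => Bd_775.en_nonneg _ z)).trans hηe
    have h3 : s * E ≤ ε / 2 := by
      rw [hs, div_mul_eq_mul_div, div_le_div_iff₀ (by positivity) two_pos]
      nlinarith
    have h4 : (1 + s⁻¹) * M ^ 2 * ∫ z in Cᶜ, en η z ≤ ε / 2 := by
      have h5 : (1 + s⁻¹) * M ^ 2 * ∫ z in Cᶜ, en η z ≤ (1 + s⁻¹) * (M ^ 2 + 1) * δ := by
        refine mul_le_mul ?_ h2 (integral_nonneg fun z => Bd_775.en_nonneg _ z) (by positivity)
        exact mul_le_mul_of_nonneg_left (by linarith) (by positivity)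
      refine h5.trans (le_of_eq ?_)
      rw [hδ]; field_simp
    linarith
  linarith

/-! ### 2. the class is closed under switches -/

theorem lip_up (t e : ℝ) : LipschitzWith 1 (fun s : ℝ => max (s - t - e) 0) :=
  ((LipschitzWith.id.sub (LipschitzWith.const t)).sub (LipschitzWith.const e)).max_const 0 |>.weaken
    (by simp)

theorem lip_dn (t e : ℝ) : LipschitzWith 1 (fun s : ℝ => max (t - e - s) 0) :=
  ((LipschitzWith.const (t - e)).sub LipschitzWith.id).max_const 0 |>.weaken (by simp)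

/-- the class `x0 + Gen` -/
def PP (C : Set ℂ) (x0 : ℂ → ℝ) (S : Set (ℂ → ℝ)) (u : ℂ → ℝ) : Prop :=
  ∃ φ, Gen C S φ ∧ u = fun z => x0 z + φ z

theorem lc_of_cut {χ : ℂ → ℝ} (h : Cut C χ) : LC C χ :=
  Mid_987.lc_of_smooth h.sm h.cpt h.lc

/-- `h(x0 + φ) χ` is generated -/
theorem gen_mul_cut (hx : X0 C x0) {φ χ : ℂ → ℝ} (hg : Gen C S φ) (hχ : Cut C χ) {h : ℝ → ℝ}
    {K : ℝ≥0} (hh : LipschitzWith K h) : Gen C S (fun z => h (x0 z + φ z) * χ z) := by
  obtain ⟨κ, hκ, hκc, -, hκ1, -⟩ := Mid_987.exists_cut_in hχ.cpt.isCompact isOpen_univ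
    (subset_univ _)
  have h1 : LC C (fun z => x0 z * κ z) := by
    refine Mid_987.lc_of_smooth (hx.sm.mul hκ) hκc.mul_left fun z hz => ?_
    have h2 : x0 =ᶠ[𝓝 z] 0 := notMem_tsupport_iff_eventuallyEq.1 fun h => hx.zero h hz
    filter_upwards [h2] with w hw
    rw [hw, h2.self_of_nhds]; simp
  have h3 : Gen C S (fun z => h (x0 z * κ z + φ z) * χ z) :=
    Gen.mul (Gen.comp hh (Gen.add (Gen.lc h1) hg)) (Gen.lc (lc_of_cut hχ))
  convert h3 using 2 with z
  by_cases hz : z ∈ tsupport χ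
  · rw [(hκ1 z hz).self_of_nhds, mul_one]
  · rw [image_eq_zero_of_notMem_tsupport hz, mul_zero, mul_zero]

theorem cl_PP (hx : X0 C x0) : Cl C (PP C x0 S) := by
  constructor
  · rintro u t e χ ⟨φ, hφ, rfl⟩ _ hχ
    refine ⟨_, Gen.sub hφ (gen_mul_cut hx hφ hχ (lip_up t e)), ?_⟩
    funext z; ring
  · rintro u t e χ ⟨φ, hφ, rfl⟩ _ hχ
    refine ⟨_, Gen.add hφ (gen_mul_cut hx hφ hχ (lip_dn t e)), ?_⟩
    funext z; ring

/-! ### 3. `J` decreases -/

lemma en_add' {u v : ℂ → ℝ} {z : ℂ} (hu : DifferentiableAt ℝ u z) (hv : DifferentiableAt ℝ v z) :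
    en (fun w => u w + v w) z = en u z + 2 * dot u v z + en v z := by
  unfold Bd_775.en Bd_775.dot
  rw [Bd_775.gx_add hu hv, Bd_775.gy_add hu hv]; ring

theorem J_eq (hC : IsCompact C) (hx : X0 C x0) {φ : ℂ → ℝ} (hφ : D C φ)
    (hc : HasCompactSupport φ) :
    IntegrableOn (fun z => en φ z + 2 * dot x0 φ z) Cᶜ ∧
      J C x0 φ = ∫ z in Cᶜ, (en φ z + 2 * dot x0 φ z) := by
  obtain ⟨h1, h2⟩ := Mid_987.di_x0 hC hx hφ.q hc
  refine ⟨hφ.fin.add (h1.const_mul 2), ?_⟩
  rw [integral_add hφ.fin (h1.const_mul 2), integral_const_mul, ← di_self']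
  unfold J
  have h3 : ∫ z in Cᶜ, dot x0 φ z = di C x0 φ := rfl
  rw [h3, h2]; ring

theorem J_le_of_rep (hC : IsCompact C) (hx : X0 C x0) {φ φ' : ℂ → ℝ} (hφ : D C φ)
    (hc : HasCompactSupport φ) (hφ' : D C φ') (hc' : HasCompactSupport φ')
    (hr : ∀ z, fderiv ℝ (fun z => x0 z + φ' z) z = fderiv ℝ (fun z => x0 z + φ z) z ∨
      fderiv ℝ (fun z => x0 z + φ' z) z = 0) : J C x0 φ' ≤ J C x0 φ := by
  obtain ⟨i1, e1⟩ := J_eq hC hx hφ hc
  obtain ⟨i2, e2⟩ := J_eq hC hx hφ' hc'
  rw [e1, e2]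
  refine integral_mono_ae i2 i1 ?_
  filter_upwards [hφ.q.ae_diff hC.isClosed, hφ'.q.ae_diff hC.isClosed] with z h1 h2
  have h0 : DifferentiableAt ℝ x0 z := hx.sm.differentiable (by simp) z
  have k1 := en_add' h0 h1
  have k2 := en_add' h0 h2
  have k3 : en (fun z => x0 z + φ' z) z ≤ en (fun z => x0 z + φ z) z := by
    rw [Bd_775.en_eq, Bd_775.en_eq]
    rcases hr z with h | h
    · rw [h]
    · rw [h, norm_zero, zero_pow two_ne_zero]; exact sq_nonneg _
  linarith

/-! ### 4. monotonicity at all points -/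

lemma exists_norm_eq {W : Set ℂ} (hW : IsPreconnected W) {p : ℂ} {R : ℝ} (hp : p ∈ W)
    (hpR : ‖p‖ ≤ R) (hb : ¬ IsBounded W) : ∃ w ∈ W, ‖w‖ = R := by
  obtain ⟨q, hq, hqR⟩ : ∃ q ∈ W, R ≤ ‖q‖ := by
    by_contra h
    push Not at h
    refine hb ((isBounded_closedBall (x := (0 : ℂ)) (r := R)).subset fun w hw => ?_)
    rw [mem_closedBall, dist_zero_right]
    exact (h w hw).le
  have h1 := (hW.image _ continuous_norm.continuousOn).ordConnected.out
    (mem_image_of_mem _ hp) (mem_image_of_mem _ hq)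
  obtain ⟨w, hw, hwR⟩ := h1 ⟨hpR, hqR⟩
  exact ⟨w, hw, hwR⟩

theorem Mn_of {u : ℂ → ℝ} {R e : ℝ} (hR0 : 0 ≤ R) (hR : ∀ z, R ≤ ‖z‖ → u z = z.re) (he : 0 < e)
    (he1 : e ≤ 1)
    (h : ∀ c, |c| ≤ R + 1 → ∀ p,
      (u p ≤ c → ¬ IsBounded (connectedComponentIn {w | u w < c + e} p)) ∧
      (c ≤ u p → ¬ IsBounded (connectedComponentIn {w | c - e < u w} p))) : Asm_6.Mn u e := by
  intro p
  rcases le_or_gt R ‖p‖ with hp | hp
  · constructor
    · have h1 := far_unbounded (farRe_re hR).neg (-(u p + e)) p (by linarith) hp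
      have h2 : {w : ℂ | -(u p + e) < -u w} = {w | u w < u p + e} := by
        ext w; simp only [mem_ofPred_eq]; constructor <;> intro h <;> linarith
      rwa [h2] at h1
    · exact far_unbounded (farRe_re hR) (u p - e) p (by linarith) hp
  · have hre : ∀ w : ℂ, ‖w‖ = R → |u w| ≤ R := by
      intro w hw
      rw [hR w hw.ge]
      exact (Complex.abs_re_le_norm w).trans hw.le
    have hup : u p ≤ R + 1 := by
      by_contra hn
      rw [not_le] at hn
      have h1 := (h (R + 1) (by rw [abs_of_nonneg (by linarith)]) p).2 hn.le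
      obtain ⟨w, hw, hwR⟩ := exists_norm_eq isPreconnected_connectedComponentIn
        (mem_connectedComponentIn (show p ∈ {w | R + 1 - e < u w} by
          show R + 1 - e < u p; linarith)) hp.le h1
      have h2 : R + 1 - e < u w := connectedComponentIn_subset {w | R + 1 - e < u w} p hw
      have h3 := (abs_le.1 (hre w hwR)).2
      linarith
    have hlo : -(R + 1) ≤ u p := by
      by_contra hn
      rw [not_le] at hn
      have h1 := (h (-(R + 1)) (by rw [abs_neg, abs_of_nonneg (by linarith)]) p).1 hn.le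
      obtain ⟨w, hw, hwR⟩ := exists_norm_eq isPreconnected_connectedComponentIn
        (mem_connectedComponentIn (show p ∈ {w | u w < -(R + 1) + e} by
          show u p < -(R + 1) + e; linarith)) hp.le h1
      have h2 : u w < -(R + 1) + e := connectedComponentIn_subset {w | u w < -(R + 1) + e} p hw
      have h3 := (abs_le.1 (hre w hwR)).1
      linarith
    have h1 := h (u p) (abs_le.2 ⟨hlo, hup⟩) p
    exact ⟨h1.1 le_rfl, h1.2 le_rfl⟩

theorem mn_mono {u : ℂ → ℝ} {e e' : ℝ} (h : Asm_6.Mn u e) (hee : e ≤ e') (he : 0 < e) :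
    Asm_6.Mn u e' := by
  intro p
  refine ⟨fun hb => (h p).1 (hb.subset ?_), fun hb => (h p).2 (hb.subset ?_)⟩
  · refine isPreconnected_connectedComponentIn.subset_connectedComponentIn
      (mem_connectedComponentIn (show p ∈ {w | u w < u p + e} by show u p < u p + e; linarith)) ?_
    intro w hw
    have : u w < u p + e := connectedComponentIn_subset {w | u w < u p + e} p hw
    show u w < u p + e'
    linarith
  · refine isPreconnected_connectedComponentIn.subset_connectedComponentIn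
      (mem_connectedComponentIn (show p ∈ {w | u p - e < u w} by show u p - e < u p; linarith)) ?_
    intro w hw
    have : u p - e < u w := connectedComponentIn_subset {w | u p - e < u w} p hw
    show u p - e' < u w
    linarith

/-! ### 5. assembly -/

/-- (C2), for any set `S` of honest functions -/
theorem c2 (hC : TD C) (hx : X0 C x0) (hS : ∀ s ∈ S, D C s) {b : ℂ → ℝ} (hb : Gen C S b)
    {ε : ℝ} (hε : 0 < ε) :
    ∃ φ : ℂ → ℝ, D C φ ∧ Gen C S φ ∧ HasCompactSupport φ ∧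
      J C x0 φ ≤ J C x0 b + ε ∧ Asm_6.Mn (fun z => x0 z + φ z) ε := by
  have hcl := hC.cpt.isClosed
  have hd : ∀ u, Gen C S u → D C u := fun u hu =>
    (hu.q hcl fun s hs => (hS s hs).q).d (Mid_987.Gen.cont (fun s hs => (hS s hs).cont) hu)
  obtain ⟨φ, hφ, hgφ, hcφ, hJφ⟩ := exists_cpt hC.cpt hx (hd b hb) hb hε
  obtain ⟨R1, hR1⟩ := hcφ.isCompact.isBounded.subset_ball (0 : ℂ)
  obtain ⟨R2, hR2⟩ := hx.far
  set R := max (max R1 R2) 0 with hRdef
  have hRR1 : R1 ≤ R := (le_max_left _ _).trans (le_max_left _ _)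
  have hRR2 : R2 ≤ R := (le_max_right _ _).trans (le_max_left _ _)
  have hR : ∀ z, R ≤ ‖z‖ → x0 z + φ z = z.re := by
    intro z hz
    have h1 : z ∉ tsupport φ := by
      intro h
      have := hR1 h
      rw [mem_ball, dist_zero_right] at this
      linarith
    rw [image_eq_zero_of_notMem_tsupport h1, add_zero]
    exact hR2 z (hRR2.trans hz)
  set e := min ε 1 with he
  have he0 : 0 < e := lt_min hε one_pos
  obtain ⟨u', ⟨φ', hφ', rfl⟩, hr, hm⟩ := exists_mono' hC.cpt hC.td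
    (u := fun z => x0 z + φ z) (hx.sm.continuous.add hφ.cont) hR (cl_PP (S := S) hx)
    ⟨φ, hgφ, rfl⟩ (R + 1) he0
  have hR' : ∀ z, R ≤ ‖z‖ → x0 z + φ' z = z.re := fun z hz => by
    have h1 : x0 z + φ' z = x0 z + φ z := hr.far z hz
    rw [h1]; exact hR z hz
  have hc' : HasCompactSupport φ' := by
    refine HasCompactSupport.intro (isCompact_closedBall (0 : ℂ) R) fun z hz => ?_
    rw [mem_closedBall, dist_zero_right, not_le] at hz
    have h1 := hR' z hz.le
    have h2 := hR2 z (hRR2.trans hz.le)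
    linarith
  refine ⟨φ', hd _ hφ', hφ', hc', ?_, ?_⟩
  · exact (J_le_of_rep hC.cpt hx hφ hcφ (hd _ hφ') hc' hr.grad).trans hJφ
  · exact mn_mono (Mn_of (le_max_right _ _) hR' he0 (min_le_right _ _) hm) (min_le_left _ _) he0

/-- **(C2)** -/
theorem c2p : Asm_6.C2P := by
  intro C x0 hC hx b m hs ε hε
  have h1 : ∀ᶠ k in atTop, J C x0 (b k) < m + ε / 2 :=
    hs.lim.eventually (gt_mem_nhds (by linarith))
  obtain ⟨k, hk⟩ := h1.exists
  obtain ⟨φ, h2, h3, h4, h5, h6⟩ := c2 (S := range b) hC hx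
    (by rintro s ⟨i, rfl⟩; exact hs.mem i) (Gen.of (mem_range_self k)) (half_pos hε)
  exact ⟨φ, h2, h3, h4, by linarith, mn_mono h6 (by linarith) (half_pos hε)⟩

end Crest.Agent.R105.C2P_61
end

-- ▼ part R105/Asm1_987
section

/-!
# Row 105, S0139, ATTP: leaf `C4aP` of `Asm0_6` (helper987): the clamping operator
-/

set_option autoImplicit false

open MeasureTheory Set Filter Topology Metric Bornology
open scoped ContDiff NNReal

namespace Crest.Agent.R105.Asm_987

open Crest.Agent.R105.IfB_641 Crest.Agent.R105.Asm_6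

/-- on a segment from inside to outside of the closed ball there is a point of the sphere -/
theorem exists_sphere {r : ℝ} {x y : ℂ} (hx : ‖x‖ ≤ r) (hy : r < ‖y‖) :
    ∃ w ∈ segment ℝ x y, ‖w‖ = r := by
  have h1 : IsPreconnected (segment ℝ x y) := (convex_segment x y).isPreconnected
  have h2 := h1.image (fun w : ℂ => ‖w‖) continuous_norm.continuousOn
  have h3 : r ∈ (fun w : ℂ => ‖w‖) '' segment ℝ x y :=
    h2.ordConnected.out (mem_image_of_mem _ (left_mem_segment ℝ x y))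
      (mem_image_of_mem _ (right_mem_segment ℝ x y)) ⟨hx, hy.le⟩
  obtain ⟨w, hw, h⟩ := h3
  exact ⟨w, hw, h⟩

/-- gluing zero inside the ball -/
theorem lip_glue {r : ℝ} {g : ℂ → ℝ} {B : Set ℂ} {K : ℝ≥0} (hB : Convex ℝ B)
    (hg : LipschitzOnWith K g B) (h0 : ∀ w ∈ B, ‖w‖ = r → g w = 0) :
    LipschitzOnWith K (fun z => if ‖z‖ ≤ r then 0 else g z) B := by
  have key : ∀ x ∈ B, ∀ y ∈ B, ‖x‖ ≤ r → r < ‖y‖ → |g y| ≤ K * dist x y := by
    intro x hx y hy h1 h2
    obtain ⟨w, hw, hwr⟩ := exists_sphere h1 h2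
    have hwB : w ∈ B := hB.segment_subset hx hy hw
    have h3 := hg.dist_le_mul y hy w hwB
    rw [Real.dist_eq, h0 w hwB hwr, sub_zero] at h3
    refine h3.trans (mul_le_mul_of_nonneg_left ?_ K.2)
    obtain ⟨a, b, ha, hb, hab, rfl⟩ := hw
    rw [dist_eq_norm, dist_eq_norm]
    have h4 : y - (a • x + b • y) = a • (y - x) := by
      have : y = (a + b) • y := by rw [hab, one_smul]
      calc y - (a • x + b • y) = (a + b) • y - (a • x + b • y) := by rw [← this]
        _ = a • (y - x) := by rw [add_smul, smul_sub]; abel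
    rw [h4, norm_smul, Real.norm_of_nonneg ha, norm_sub_rev]
    have : a ≤ 1 := by linarith
    nlinarith [norm_nonneg (x - y)]
  refine LipschitzOnWith.of_dist_le_mul fun x hx y hy => ?_
  rw [Real.dist_eq]
  by_cases h1 : ‖x‖ ≤ r
  · by_cases h2 : ‖y‖ ≤ r
    · simp only [if_pos h1, if_pos h2, sub_self, abs_zero]
      positivity
    · simp only [if_pos h1, if_neg h2, zero_sub, abs_neg]
      exact key x hx y hy h1 (not_le.1 h2)
  · by_cases h2 : ‖y‖ ≤ r
    · simp only [if_neg h1, if_pos h2, sub_zero]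
      rw [dist_comm]
      exact key y hy x hx h2 (not_le.1 h1)
    · simp only [if_neg h1, if_neg h2]
      have := hg.dist_le_mul x hx y hy
      rwa [Real.dist_eq] at this

theorem cl_lip (δ : ℝ) : LipschitzWith 1 (cl δ) := by
  unfold cl
  exact (LipschitzWith.id.min_const δ).const_max (-δ)

theorem cl_abs {δ : ℝ} (hδ : 0 < δ) (s : ℝ) : |cl δ s| ≤ δ := by
  unfold cl
  rw [abs_le]
  exact ⟨le_max_left _ _, max_le (by linarith) (min_le_right _ _)⟩

theorem cl_of_abs {δ s : ℝ} (h : |s| ≤ δ) : cl δ s = s := by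
  unfold cl
  rw [abs_le] at h
  rw [min_eq_left h.2, max_eq_right h.1]

/-- `cl δ s - s` -/
def hh (δ s : ℝ) : ℝ := cl δ s - s

theorem hh_lip (δ : ℝ) : LipschitzWith 2 (hh δ) := by
  have h : LipschitzWith (1 + 1) (fun s : ℝ => cl δ s - id s) := (cl_lip δ).sub LipschitzWith.id
  have h2 : (1 + 1 : ℝ≥0) = 2 := by norm_num
  rw [h2] at h
  exact h

theorem Kl_eq (r δ : ℝ) (ψ : ℂ → ℝ) (z : ℂ) :
    Kl r δ ψ z - ψ z = if ‖z‖ ≤ r then 0 else hh δ (ψ z) := by
  unfold Kl hh
  split_ifs <;> simp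

section
variable {C : Set ℂ} {r δ : ℝ} {ψ : ℂ → ℝ}

/-- the difference -/
noncomputable def df (r δ : ℝ) (ψ : ℂ → ℝ) (z : ℂ) : ℝ := if ‖z‖ ≤ r then 0 else hh δ (ψ z)

theorem df_in {z : ℂ} (hz : ‖z‖ < r) : df r δ ψ =ᶠ[𝓝 z] fun _ => (0 : ℝ) := by
  filter_upwards [(isOpen_lt continuous_norm continuous_const).mem_nhds hz] with w hw
  unfold df
  rw [if_pos (le_of_lt hw)]

theorem df_out {z : ℂ} (hz : r < ‖z‖) : df r δ ψ =ᶠ[𝓝 z] fun w => hh δ (ψ w) := by
  filter_upwards [(isOpen_lt continuous_const continuous_norm).mem_nhds hz] with w hw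
  unfold df
  rw [if_neg (not_le.2 hw)]

theorem Kl_in {z : ℂ} (hz : ‖z‖ < r) : Kl r δ ψ =ᶠ[𝓝 z] ψ := by
  filter_upwards [(isOpen_lt continuous_norm continuous_const).mem_nhds hz] with w hw
  unfold Kl
  rw [if_pos (le_of_lt hw)]

theorem Kl_out {z : ℂ} (hz : r < ‖z‖) : Kl r δ ψ =ᶠ[𝓝 z] fun w => cl δ (ψ w) := by
  filter_upwards [(isOpen_lt continuous_const continuous_norm).mem_nhds hz] with w hw
  unfold Kl
  rw [if_neg (not_le.2 hw)]

theorem notMem_C (hCr : C ⊆ ball 0 r) {z : ℂ} (hz : r ≤ ‖z‖) : z ∉ C := fun h => by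
  have := hCr h
  rw [mem_ball_zero_iff] at this
  linarith

theorem df_ll (hC : IsCompact C) (hCr : C ⊆ ball 0 r) (hψ : D C ψ)
    (hs : ∀ z, ‖z‖ = r → |ψ z| ≤ δ) : LocallyLipschitz (df r δ ψ) := by
  intro z
  rcases lt_or_ge ‖z‖ r with hz | hz
  · refine ⟨0, {w | df r δ ψ w = 0}, df_in hz, LipschitzOnWith.of_dist_le_mul fun a ha b hb => ?_⟩
    rw [mem_ofPred_eq] at ha hb
    rw [ha, hb]; simp
  · have hzC := notMem_C hCr hz
    obtain ⟨K, t, ht, hK⟩ := hψ.loc hzC
    rw [hC.isClosed.isOpen_compl.nhdsWithin_eq hzC] at ht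
    obtain ⟨ε, hε, hb⟩ := Metric.mem_nhds_iff.1 ht
    refine ⟨2 * K, ball z ε, ball_mem_nhds z hε, ?_⟩
    refine lip_glue (convex_ball z ε) ((hh_lip δ).comp_lipschitzOnWith (hK.mono hb)) ?_
    intro w _ hw
    simp only [hh, cl_of_abs (hs w hw), sub_self]

theorem c4aP : C4aP := by
  intro C hC r δ hδ hCr ψ hψ hs
  have hll := df_ll hC hCr hψ hs
  have hdf : (fun z => Kl r δ ψ z - ψ z) = df r δ ψ := funext fun z => Kl_eq r δ ψ z
  have hKl : Kl r δ ψ = fun z => df r δ ψ z + ψ z := by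
    funext z
    have : Kl r δ ψ z - ψ z = df r δ ψ z := congrFun hdf z
    linarith
  have hsph : volume (sphere (0 : ℂ) r) = 0 := Measure.addHaar_sphere _ _ _
  have hae : ∀ᵐ z : ℂ, ‖z‖ ≠ r := by
    rw [ae_iff]
    refine measure_mono_null (fun z hz => ?_) hsph
    simp only [mem_ofPred_eq, not_not] at hz
    rw [mem_sphere_zero_iff_norm]; exact hz
  have hdiff : ∀ᵐ z ∂(volume.restrict Cᶜ), DifferentiableAt ℝ ψ z := hψ.q.ae_diff hC.isClosed
  have hen : ∀ᵐ z ∂(volume.restrict Cᶜ), en (Kl r δ ψ) z ≤ en ψ z := by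
    filter_upwards [hdiff, ae_restrict_of_ae hae] with z hz hzr
    rcases lt_or_gt_of_ne hzr with h | h
    · rw [Bd_775.en_eq_of_eventuallyEq (Kl_in h)]
    · rw [Bd_775.en_eq_of_eventuallyEq (Kl_out h)]
      have := Bd_775.en_comp_le (cl_lip δ) hz
      simpa using this
  have hcont : Continuous (Kl r δ ψ) := by
    rw [hKl]; exact hll.continuous.add hψ.cont
  have hfin : IntegrableOn (en (Kl r δ ψ)) Cᶜ := by
    refine hψ.fin.mono' (Bd_775.measurable_en _).aestronglyMeasurable ?_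
    filter_upwards [hen] with z hz
    rw [Real.norm_of_nonneg (Bd_775.en_nonneg _ _)]; exact hz
  have hbdd : ∃ M, ∀ z, |Kl r δ ψ z| ≤ M := by
    obtain ⟨M, hM⟩ := hψ.bdd
    refine ⟨max M δ, fun z => ?_⟩
    unfold Kl
    split_ifs
    · exact (hM z).trans (le_max_left _ _)
    · exact (cl_abs hδ _).trans (le_max_right _ _)
  refine ⟨⟨hcont, hbdd, ?_, hfin⟩, ?_, ?_, ?_⟩
  · rw [hKl]
    refine Bd_775.ll_add ?_ hψ.loc
    intro z _
    obtain ⟨K, t, ht, h⟩ := hll z
    exact ⟨K, t, mem_nhdsWithin_of_mem_nhds ht, h⟩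
  · rw [hdf]
    refine ⟨hll, ?_, ?_, ?_⟩
    · obtain ⟨M, hM⟩ := hψ.bdd
      obtain ⟨N, hN⟩ := hbdd
      refine ⟨N + M, fun z => ?_⟩
      rw [← hdf]
      exact (abs_sub _ _).trans (add_le_add (hN z) (hM z))
    · have h1 : Integrable (indicator Cᶜ (fun z => 4 * en ψ z)) :=
        (integrable_indicator_iff hC.isClosed.isOpen_compl.measurableSet).2 (hψ.fin.const_mul 4)
      refine h1.mono' (Bd_775.measurable_en _).aestronglyMeasurable ?_
      rw [ae_restrict_iff' hC.isClosed.isOpen_compl.measurableSet] at hdiff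
      filter_upwards [hdiff, hae] with z hz hzr
      rw [Real.norm_of_nonneg (Bd_775.en_nonneg _ _)]
      rcases lt_or_gt_of_ne hzr with h | h
      · rw [Bd_775.en_eq_of_eventuallyEq (df_in h), Bd_775.en_const]
        exact indicator_nonneg (fun w _ => by have := Bd_775.en_nonneg ψ w; positivity) z
      · have hzC : z ∈ Cᶜ := notMem_C hCr h.le
        rw [Bd_775.en_eq_of_eventuallyEq (df_out h), indicator_of_mem hzC]
        have := Bd_775.en_comp_le (hh_lip δ) (hz hzC)
        refine this.trans (le_of_eq ?_)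
        norm_num
    · intro z hz
      have h1 := df_in (δ := δ) (ψ := ψ) (mem_ball_zero_iff.1 (hCr hz))
      filter_upwards [h1] with w hw
      rw [hw, h1.self_of_nhds]
  · intro z hz
    unfold Kl
    split_ifs with h
    · exact hs z (le_antisymm h hz)
    · exact cl_abs hδ _
  · have h1 : ∀ u : ℂ → ℝ, dot u u = en u := fun u => by
      funext z; unfold Bd_775.dot Bd_775.en; ring
    unfold di
    rw [h1, h1]
    exact integral_mono_ae hfin hψ.fin hen

end

end Crest.Agent.R105.Asm_987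
end

-- ▼ part R105/Att1_823
section

/-!
# Row 105, S0139 [B], attainment (helper823, task 2290): pointwise calculus and Stokes

`f = (min b t1 - a)^+`, `g = max a t0`, `q = c - ((t1 - g)^+)^2/2`.
-/

set_option autoImplicit false

open MeasureTheory Set Filter Topology Metric
open scoped NNReal ENNReal ContDiff

namespace Crest.Agent.R105.Att1_823

open Bd_775

noncomputable section

/-! ### derivatives of `max` and `min` with a constant -/

lemma fderiv_max_of_lt {u : ℂ → ℝ} {c : ℝ} {z : ℂ} (hu : ContinuousAt u z) (h : c < u z) :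
    fderiv ℝ (fun w => max (u w) c) z = fderiv ℝ u z := by
  refine Filter.EventuallyEq.fderiv_eq ?_
  filter_upwards [hu.eventually (lt_mem_nhds h)] with w hw
  exact max_eq_left (le_of_lt hw)

lemma fderiv_max_of_le {u : ℂ → ℝ} {c : ℝ} {z : ℂ} (h : u z ≤ c) :
    fderiv ℝ (fun w => max (u w) c) z = 0 := by
  have : IsLocalMin (fun w => max (u w) c) z := by
    refine Eventually.of_forall fun w => ?_
    show max (u z) c ≤ max (u w) c
    rw [max_eq_right h]
    exact le_max_right _ _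
  exact this.fderiv_eq_zero

lemma fderiv_min_of_lt {u : ℂ → ℝ} {c : ℝ} {z : ℂ} (hu : ContinuousAt u z) (h : u z < c) :
    fderiv ℝ (fun w => min (u w) c) z = fderiv ℝ u z := by
  refine Filter.EventuallyEq.fderiv_eq ?_
  filter_upwards [hu.eventually (gt_mem_nhds h)] with w hw
  exact min_eq_left (le_of_lt hw)

lemma fderiv_min_of_le {u : ℂ → ℝ} {c : ℝ} {z : ℂ} (h : c ≤ u z) :
    fderiv ℝ (fun w => min (u w) c) z = 0 := by
  have : IsLocalMax (fun w => min (u w) c) z := by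
    refine Eventually.of_forall fun w => ?_
    show min (u w) c ≤ min (u z) c
    rw [min_eq_right h]
    exact min_le_right _ _
  exact this.fderiv_eq_zero

/-- the function `f = (min b t1 - a)^+` -/
def ff (a b : ℂ → ℝ) (t1 : ℝ) (z : ℂ) : ℝ := max (min (b z) t1 - a z) 0
/-- the function `g = max a t0` -/
def gg (a : ℂ → ℝ) (t0 : ℝ) (z : ℂ) : ℝ := max (a z) t0
/-- the function `q = (t1-t0)²/2 - ((t1 - g)^+)²/2` -/
def qq (a : ℂ → ℝ) (t0 t1 : ℝ) (z : ℂ) : ℝ :=
  (t1 - t0) ^ 2 / 2 - (max (t1 - gg a t0 z) 0) ^ 2 / 2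

/-- `|df ∧ dg| ≤ |d(b-a) ∧ da|` -/
lemma wdg_le {a b : ℂ → ℝ} {t0 t1 : ℝ} {z : ℂ} (ha : DifferentiableAt ℝ a z)
    (hb : DifferentiableAt ℝ b z) (hm : DifferentiableAt ℝ (fun w => min (b w) t1) z) :
    |wdg (ff a b t1) (gg a t0) z| ≤ |wdg (fun w => b w - a w) a z| := by
  by_cases h1 : min (b z) t1 - a z ≤ 0
  · have : fderiv ℝ (ff a b t1) z = 0 := fderiv_max_of_le (u := fun w => min (b w) t1 - a w) h1
    unfold wdg gx gy
    rw [this]; simp
  push Not at h1
  by_cases h2 : a z ≤ t0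
  · have : fderiv ℝ (gg a t0) z = 0 := fderiv_max_of_le h2
    unfold wdg gx gy
    rw [this]; simp
  push Not at h2
  have e1 : fderiv ℝ (ff a b t1) z = fderiv ℝ (fun w => min (b w) t1 - a w) z :=
    fderiv_max_of_lt (u := fun w => min (b w) t1 - a w) (hm.sub ha).continuousAt h1
  have e2 : fderiv ℝ (gg a t0) z = fderiv ℝ a z := fderiv_max_of_lt ha.continuousAt h2
  have e3 : fderiv ℝ (fun w => min (b w) t1 - a w) z
      = fderiv ℝ (fun w => min (b w) t1) z - fderiv ℝ a z := fderiv_fun_sub hm ha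
  have e4 : fderiv ℝ (fun w => b w - a w) z = fderiv ℝ b z - fderiv ℝ a z := fderiv_fun_sub hb ha
  unfold wdg gx gy
  rw [e1, e2, e3, e4]
  by_cases h3 : b z < t1
  · rw [fderiv_min_of_lt hb.continuousAt h3]
  · push Not at h3
    rw [fderiv_min_of_le h3]
    have : ((0 - fderiv ℝ a z) 1 * (fderiv ℝ a z) Complex.I
        - (0 - fderiv ℝ a z) Complex.I * (fderiv ℝ a z) 1) = 0 := by
      simp only [zero_sub, neg_apply]; ring
    rw [this, abs_zero]
    exact abs_nonneg _

lemma hasDerivAt_sq_max (s : ℝ) : HasDerivAt (fun r : ℝ => (max r 0) ^ 2) (2 * max s 0) s := by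
  rcases lt_trichotomy s 0 with h | h | h
  · rw [max_eq_right h.le, mul_zero]
    refine (hasDerivAt_const s (0 : ℝ)).congr_of_eventuallyEq ?_
    filter_upwards [gt_mem_nhds h] with r hr
    rw [max_eq_right hr.le]; simp
  · subst h
    rw [max_self, mul_zero]
    rw [hasDerivAt_iff_isLittleO]
    simp only [max_self, sub_zero, smul_zero]
    have : (fun r : ℝ => (max r 0) ^ 2 - (0 : ℝ) ^ 2) =O[𝓝 0] fun r : ℝ => r ^ 2 := by
      refine Asymptotics.IsBigO.of_bound 1 (Eventually.of_forall fun r => ?_)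
      rw [one_mul, Real.norm_eq_abs, Real.norm_eq_abs, zero_pow two_ne_zero, sub_zero,
        abs_of_nonneg (sq_nonneg _), abs_of_nonneg (sq_nonneg _)]
      rcases le_total r 0 with h | h
      · rw [max_eq_right h]; simpa using sq_nonneg r
      · rw [max_eq_left h]
    refine this.trans_isLittleO ?_
    have h2 : (fun r : ℝ => r ^ 2) =o[𝓝 0] fun r : ℝ => r ^ 1 :=
      Asymptotics.isLittleO_pow_pow (by norm_num)
    simpa using h2
  · rw [max_eq_left h.le]
    have h1 : HasDerivAt (fun r : ℝ => r ^ 2) (2 * s) s := by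
      simpa using hasDerivAt_pow 2 s
    refine h1.congr_of_eventuallyEq ?_
    filter_upwards [lt_mem_nhds h] with r hr
    rw [max_eq_left hr.le]

/-- `dq = (t1 - g)^+ dg` -/
lemma fderiv_qq {a : ℂ → ℝ} {t0 t1 : ℝ} {z : ℂ} (hg : DifferentiableAt ℝ (gg a t0) z) :
    HasFDerivAt (qq a t0 t1) (max (t1 - gg a t0 z) 0 • fderiv ℝ (gg a t0) z) z := by
  have h1 : HasFDerivAt (fun w => t1 - gg a t0 w) (-fderiv ℝ (gg a t0) z) z :=
    hg.hasFDerivAt.const_sub t1
  have h2 := (hasDerivAt_sq_max (t1 - gg a t0 z)).comp_hasFDerivAt z h1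
  have h3 := (h2.mul_const (1 / 2)).const_sub ((t1 - t0) ^ 2 / 2)
  have h4 : qq a t0 t1 = fun x => (t1 - t0) ^ 2 / 2
      - ((fun r : ℝ => (max r 0) ^ 2) ∘ fun w => t1 - gg a t0 w) x * (1 / 2) := by
    funext x
    simp only [qq, Function.comp]
    ring
  rw [h4]
  refine h3.congr_fderiv ?_
  ext
  simp; ring

/-- `f dθ ∧ dg = dθ ∧ dq` -/
lemma f_wdg {a b θ : ℂ → ℝ} {t0 t1 : ℝ} {z : ℂ} (hg : DifferentiableAt ℝ (gg a t0) z)
    (h : a z < t0 ∨ t1 < b z ∨ ∀ᶠ w in 𝓝 z, θ w = θ z) :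
    ff a b t1 z * wdg θ (gg a t0) z = wdg θ (qq a t0 t1) z := by
  have hq := (fderiv_qq (t1 := t1) hg).fderiv
  unfold wdg gx gy
  rw [hq]
  simp only [smul_apply, smul_eq_mul]
  by_cases h1 : a z ≤ t0
  · have : fderiv ℝ (gg a t0) z = 0 := fderiv_max_of_le h1
    rw [this]; simp
  push Not at h1
  rcases h with h | h | h
  · exact absurd h (not_lt.2 h1.le)
  · have e1 : gg a t0 z = a z := max_eq_left h1.le
    have e2 : ff a b t1 z = max (t1 - a z) 0 := by
      unfold ff; rw [min_eq_right h.le]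
    rw [e1, e2]; ring
  · have : fderiv ℝ θ z = 0 := by
      have h2 : θ =ᶠ[𝓝 z] fun _ => θ z := h
      rw [h2.fderiv_eq]; simp
    rw [this]; simp

/-! ### Stokes -/

/-- `∫ ∂_v F = 0` for `F` Lipschitz with compact support -/
lemma int_fderiv {F : ℂ → ℝ} {K : ℝ≥0} (hF : LipschitzWith K F) (hc : HasCompactSupport F)
    (v : ℂ) : ∫ z, fderiv ℝ F z v = 0 := by
  have h1 := LipschitzWith.integral_lineDeriv_mul_eq (μ := (volume : Measure ℂ))
    (LipschitzWith.const (α := ℂ) (1 : ℝ)) hF hc (-v)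
  have h2 : ∀ x : ℂ, lineDeriv ℝ (fun _ : ℂ => (1 : ℝ)) x (-v) = 0 := by
    intro x; simp [lineDeriv]
  simp only [h2, zero_mul, integral_zero, mul_one, neg_neg] at h1
  rw [h1]
  refine integral_congr_ae ?_
  filter_upwards [hF.ae_differentiableAt (μ := (volume : Measure ℂ))] with z hz
  exact (hz.lineDeriv_eq_fderiv).symm

lemma fderiv_eq_zero_of_notMem_tsupport {F : ℂ → ℝ} {z : ℂ} (h : z ∉ tsupport F) :
    fderiv ℝ F z = 0 := by
  have : F =ᶠ[𝓝 z] fun _ => (0 : ℝ) := by
    rw [notMem_tsupport_iff_eventuallyEq] at h; exact h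
  rw [this.fderiv_eq]; simp

lemma integrable_fderiv {F : ℂ → ℝ} {K : ℝ≥0} (hF : LipschitzWith K F)
    (hc : HasCompactSupport F) (v : ℂ) : Integrable (fun z => fderiv ℝ F z v) := by
  have h1 : IntegrableOn (fun z => fderiv ℝ F z v) (tsupport F) := by
    refine Measure.integrableOn_of_bounded (M := (K : ℝ) * ‖v‖) hc.isCompact.measure_lt_top.ne
      (measurable_fderiv_apply_const ℝ F v).aestronglyMeasurable ?_
    refine Eventually.of_forall fun z => ?_
    exact ((fderiv ℝ F z).le_opNorm _).trans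
      (mul_le_mul_of_nonneg_right (norm_fderiv_le_of_lipschitz ℝ hF) (norm_nonneg _))
  rwa [integrableOn_iff_integrable_of_support_subset] at h1
  intro z hz
  by_contra h2
  apply hz
  show fderiv ℝ F z v = 0
  rw [fderiv_eq_zero_of_notMem_tsupport h2]; simp

/-- local product of Lipschitz functions -/
lemma lip_mul_at {u v : ℂ → ℝ} {z : ℂ} (hu : ∃ K : ℝ≥0, ∃ t ∈ 𝓝 z, LipschitzOnWith K u t)
    (hv : ∃ K : ℝ≥0, ∃ t ∈ 𝓝 z, LipschitzOnWith K v t) :
    ∃ K : ℝ≥0, ∃ t ∈ 𝓝 z, LipschitzOnWith K (fun w => u w * v w) t := by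
  obtain ⟨K, s, hs, h3⟩ := hu
  obtain ⟨L, t, ht, h4⟩ := hv
  set M : ℝ := |u z| + |v z| + K + L with hM
  have hM0 : 0 ≤ M := by positivity
  refine ⟨M.toNNReal * L + M.toNNReal * K, (s ∩ t) ∩ ball z 1,
    inter_mem (inter_mem hs ht) (ball_mem_nhds z one_pos), ?_⟩
  have hzs : z ∈ s := mem_of_mem_nhds hs
  have hzt : z ∈ t := mem_of_mem_nhds ht
  refine LipschitzOnWith.of_dist_le_mul fun x hx y hy => ?_
  rw [Real.dist_eq]
  have e1 := h3.dist_le_mul x hx.1.1 y hy.1.1
  have e2 := h4.dist_le_mul x hx.1.2 y hy.1.2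
  rw [Real.dist_eq] at e1 e2
  have h1 : |u x| ≤ M := by
    have := h3.dist_le_mul x hx.1.1 z hzs
    rw [Real.dist_eq] at this
    have h5 : (K : ℝ) * dist x z ≤ K * 1 := mul_le_mul_of_nonneg_left (mem_ball.1 hx.2).le K.2
    have h6 : |u x| ≤ |u z| + |u x - u z| := by
      have := abs_add_le (u z) (u x - u z)
      rwa [add_sub_cancel] at this
    have h7 : (0 : ℝ) ≤ L := L.2
    have h8 := abs_nonneg (v z)
    linarith
  have h2 : |v y| ≤ M := by
    have := h4.dist_le_mul y hy.1.2 z hzt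
    rw [Real.dist_eq] at this
    have h5 : (L : ℝ) * dist y z ≤ L * 1 := mul_le_mul_of_nonneg_left (mem_ball.1 hy.2).le L.2
    have h6 : |v y| ≤ |v z| + |v y - v z| := by
      have := abs_add_le (v z) (v y - v z)
      rwa [add_sub_cancel] at this
    have h7 : (0 : ℝ) ≤ K := K.2
    have h8 := abs_nonneg (u z)
    linarith
  have : u x * v x - u y * v y = u x * (v x - v y) + v y * (u x - u y) := by ring
  rw [this]
  refine (abs_add_le _ _).trans ?_
  rw [abs_mul, abs_mul]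
  have e3 : |u x| * |v x - v y| ≤ M * (L * dist x y) :=
    mul_le_mul h1 e2 (abs_nonneg _) hM0
  have e4 : |v y| * |u x - u y| ≤ M * (K * dist x y) :=
    mul_le_mul h2 e1 (abs_nonneg _) hM0
  push_cast
  rw [Real.coe_toNNReal M hM0]
  nlinarith

lemma contDiff_gx {θ : ℂ → ℝ} (hθ : ContDiff ℝ ∞ θ) : ContDiff ℝ ∞ (gx θ) := by
  unfold gx
  exact (hθ.fderiv_right (m := ∞) (by simp)).clm_apply contDiff_const

lemma contDiff_gy {θ : ℂ → ℝ} (hθ : ContDiff ℝ ∞ θ) : ContDiff ℝ ∞ (gy θ) := by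
  unfold gy
  exact (hθ.fderiv_right (m := ∞) (by simp)).clm_apply contDiff_const

lemma gx_gy {θ : ℂ → ℝ} (hθ : ContDiff ℝ ∞ θ) (z : ℂ) : gx (gy θ) z = gy (gx θ) z := by
  have hd : DifferentiableAt ℝ (fderiv ℝ θ) z :=
    ((hθ.fderiv_right (m := ∞) (by simp)).differentiable (by simp)).differentiableAt
  have h1 : ∀ u v : ℂ, fderiv ℝ (fun w => fderiv ℝ θ w v) z u
      = fderiv ℝ (fderiv ℝ θ) z u v := by
    intro u v
    rw [fderiv_clm_apply hd (differentiableAt_const v)]
    simp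
  have h2 : IsSymmSndFDerivAt ℝ θ z := by
    have h3 : ContDiff ℝ 2 θ := hθ.of_le (by exact WithTop.coe_le_coe.2 (le_top (a := (2:ℕ∞))))
    exact h3.contDiffAt.isSymmSndFDerivAt (by simp)
  show fderiv ℝ (fun w => fderiv ℝ θ w Complex.I) z 1
    = fderiv ℝ (fun w => fderiv ℝ θ w 1) z Complex.I
  rw [h1, h1]
  exact h2 _ _

lemma lip_at_of_contDiff {θ : ℂ → ℝ} (hθ : ContDiff ℝ ∞ θ) (z : ℂ) :
    ∃ K : ℝ≥0, ∃ t ∈ 𝓝 z, LipschitzOnWith K θ t :=
  (hθ.contDiffAt (x := z)).of_le (by simp) |>.exists_lipschitzOnWith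

/-- **Stokes**: `∫_{Cᶜ} dθ ∧ de = 0` -/
theorem stokes {C : Set ℂ} (hC : IsClosed C) {θ e : ℂ → ℝ} (hθ : ContDiff ℝ ∞ θ)
    (hlc : ∀ z ∈ C, ∀ᶠ w in 𝓝 z, θ w = θ z) (he : LocallyLipschitzOn Cᶜ e) {S : Set ℂ}
    (hS : IsCompact S) (hSx : ∀ z ∉ S, gx θ z * e z = 0) (hSy : ∀ z ∉ S, gy θ z * e z = 0) :
    IntegrableOn (wdg θ e) Cᶜ ∧ ∫ z in Cᶜ, wdg θ e z = 0 := by
  -- derivatives of θ vanish near C
  have hd0 : ∀ z ∈ C, ∀ᶠ w in 𝓝 z, fderiv ℝ θ w = 0 := by
    intro z hz
    have h1 : ∀ᶠ w in 𝓝 z, ∀ᶠ w' in 𝓝 w, θ w' = θ z := (hlc z hz).eventually_nhds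
    filter_upwards [h1] with w hw
    have h2 : θ =ᶠ[𝓝 w] fun _ => θ z := hw
    rw [h2.fderiv_eq]; simp
  have key : ∀ k : ℂ → ℝ, ContDiff ℝ ∞ k → (∀ z ∈ C, ∀ᶠ w in 𝓝 z, k w = 0) →
      (∀ z ∉ S, k z * e z = 0) → ∃ K : ℝ≥0, LipschitzWith K (fun z => k z * e z) ∧
        HasCompactSupport (fun z => k z * e z) ∧
        (∀ z ∈ C, (fun z => k z * e z) =ᶠ[𝓝 z] fun _ => 0) := by
    intro k hk hk0 hkS
    have hsup : HasCompactSupport (fun z => k z * e z) := by
      refine HasCompactSupport.of_support_subset_isCompact hS ?_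
      intro z hz
      by_contra h
      exact hz (hkS z h)
    have hC0 : ∀ z ∈ C, (fun z => k z * e z) =ᶠ[𝓝 z] fun _ => 0 := by
      intro z hz
      filter_upwards [hk0 z hz] with w hw
      rw [hw, zero_mul]
    have hll : LocallyLipschitz (fun z => k z * e z) := by
      intro z
      by_cases hz : z ∈ C
      · refine ⟨0, {w | k w * e w = 0}, hC0 z hz, ?_⟩
        refine LipschitzOnWith.of_dist_le_mul fun x hx y hy => ?_
        have hx' : k x * e x = 0 := hx
        have hy' : k y * e y = 0 := hy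
        simp only [hx', hy', dist_self]
        positivity
      · refine lip_mul_at (lip_at_of_contDiff hk z) ?_
        obtain ⟨K, t, ht, h⟩ := he (show z ∈ Cᶜ from hz)
        rw [hC.isOpen_compl.nhdsWithin_eq hz] at ht
        exact ⟨K, t, ht, h⟩
    obtain ⟨K, hK⟩ := lipschitz_of_compact hll hsup
    exact ⟨K, hK, hsup, hC0⟩
  obtain ⟨K1, hK1, hs1, hC1⟩ := key (gy θ) (contDiff_gy hθ)
    (fun z hz => (hd0 z hz).mono fun w hw => by unfold gy; rw [hw]; simp) hSy
  obtain ⟨K2, hK2, hs2, hC2⟩ := key (gx θ) (contDiff_gx hθ)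
    (fun z hz => (hd0 z hz).mono fun w hw => by unfold gx; rw [hw]; simp) hSx
  have i1 := integrable_fderiv hK1 hs1 1
  have i2 := integrable_fderiv hK2 hs2 Complex.I
  have z1 := int_fderiv hK1 hs1 1
  have z2 := int_fderiv hK2 hs2 Complex.I
  have hae : ∀ᵐ z ∂(volume.restrict Cᶜ), wdg θ e z
      = fderiv ℝ (fun z => gx θ z * e z) z Complex.I - fderiv ℝ (fun z => gy θ z * e z) z 1 := by
    filter_upwards [ae_diff hC.isOpen_compl he] with z hz
    have d1 : DifferentiableAt ℝ (gx θ) z :=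
      ((contDiff_gx hθ).differentiable (by simp)).differentiableAt
    have d2 : DifferentiableAt ℝ (gy θ) z :=
      ((contDiff_gy hθ).differentiable (by simp)).differentiableAt
    have e1 := gy_mul d1 hz
    have e2 := gx_mul d2 hz
    show wdg θ e z = gy (fun z => gx θ z * e z) z - gx (fun z => gy θ z * e z) z
    rw [e1, e2, gx_gy hθ]
    unfold wdg; ring
  have hz1 : ∫ z in Cᶜ, fderiv ℝ (fun z => gy θ z * e z) z 1 = 0 := by
    rw [← z1]
    refine setIntegral_eq_integral_of_forall_compl_eq_zero fun z hz => ?_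
    rw [(hC1 z (not_not.1 hz)).fderiv_eq]; simp
  have hz2 : ∫ z in Cᶜ, fderiv ℝ (fun z => gx θ z * e z) z Complex.I = 0 := by
    rw [← z2]
    refine setIntegral_eq_integral_of_forall_compl_eq_zero fun z hz => ?_
    rw [(hC2 z (not_not.1 hz)).fderiv_eq]; simp
  refine ⟨(i2.integrableOn.sub i1.integrableOn).congr (hae.mono fun z h => h.symm), ?_⟩
  rw [integral_congr_ae hae, integral_sub i2.integrableOn i1.integrableOn, hz1, hz2, sub_zero]
/-- `∫ ∂_yθ(z) η'(Re z) = ∫ η'` when `θ = 1` at the top and `0` at the bottom -/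
theorem int_top {θ : ℂ → ℝ} {η : ℝ → ℝ} {L M c : ℝ}
    (hθ : ContDiff ℝ ∞ θ)
    (hη : ContDiff ℝ ∞ η) (h1 : ∀ z : ℂ, |z.re| ≤ L → M ≤ z.im → θ z = 1)
    (h0 : ∀ z : ℂ, |z.re| ≤ L → z.im ≤ -M → θ z = 0)
    (e0 : ∀ x ≤ -L, η x = 0) (e1 : ∀ x, L ≤ x → η x = c) :
    Integrable (fun z : ℂ => gy θ z * deriv η z.re) ∧
    (∀ z : ℂ, z ∉ (Icc (-L) L ×ℂ Icc (-M) M) → gy θ z * deriv η z.re = 0) ∧
      ∫ z : ℂ, gy θ z * deriv η z.re = c := by
  have hline : ∀ x y : ℝ, HasDerivAt (fun s : ℝ => θ ((x : ℂ) + s * Complex.I))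
      (gy θ ((x : ℂ) + y * Complex.I)) y := by
    intro x y
    have hd : HasFDerivAt θ (fderiv ℝ θ ((x : ℂ) + y * Complex.I)) ((x : ℂ) + y * Complex.I) :=
      ((hθ.differentiable (by simp)) _).hasFDerivAt
    have h2 : HasDerivAt (fun s : ℝ => (x : ℂ) + s * Complex.I) Complex.I y := by
      have h3 : HasDerivAt (fun s : ℝ => (s : ℂ)) 1 y := by
        simpa using (hasDerivAt_id y).ofReal_comp
      simpa using (h3.mul_const Complex.I).const_add (x : ℂ)
    exact hd.comp_hasDerivAt y h2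
  have hgy : ∀ x y : ℝ, |x| ≤ L → M < |y| → gy θ ((x : ℂ) + y * Complex.I) = 0 := by
    intro x y hx hy
    rw [← (hline x y).deriv]
    rcases lt_abs.1 hy with h | h
    · have : (fun s : ℝ => θ ((x : ℂ) + s * Complex.I)) =ᶠ[𝓝 y] fun _ => 1 := by
        filter_upwards [lt_mem_nhds h] with s hs
        exact h1 _ (by simpa using hx) (by simpa using hs.le)
      rw [this.deriv_eq]; simp
    · have : (fun s : ℝ => θ ((x : ℂ) + s * Complex.I)) =ᶠ[𝓝 y] fun _ => 0 := by
        have h' : y < -M := by linarith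
        filter_upwards [gt_mem_nhds h'] with s hs
        exact h0 _ (by simpa using hx) (by simpa using hs.le)
      rw [this.deriv_eq]; simp
  have hηd : ∀ x : ℝ, L < |x| → deriv η x = 0 := by
    intro x hx
    rcases lt_abs.1 hx with h | h
    · have : η =ᶠ[𝓝 x] fun _ => c := by
        filter_upwards [lt_mem_nhds h] with s hs
        exact e1 _ hs.le
      rw [this.deriv_eq]; simp
    · have : η =ᶠ[𝓝 x] fun _ => 0 := by
        have h' : x < -L := by linarith
        filter_upwards [gt_mem_nhds h'] with s hs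
        exact e0 _ hs.le
      rw [this.deriv_eq]; simp
  have hz0 : ∀ x y : ℝ, ¬ (|x| ≤ L ∧ |y| ≤ M) →
      gy θ ((x : ℂ) + y * Complex.I) * deriv η x = 0 := by
    intro x y h
    by_cases hx : |x| ≤ L
    · have hy : M < |y| := by
        by_contra h2
        exact h ⟨hx, not_lt.1 h2⟩
      rw [hgy x y hx hy, zero_mul]
    · rw [hηd x (not_le.1 hx), mul_zero]
  have hz0' : ∀ z : ℂ, z ∉ (Icc (-L) L ×ℂ Icc (-M) M) → gy θ z * deriv η z.re = 0 := by
    intro z hz
    have h2 : ¬ (|z.re| ≤ L ∧ |z.im| ≤ M) := by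
      intro h3
      apply hz
      rw [Complex.mem_reProdIm]
      exact ⟨abs_le.1 h3.1, abs_le.1 h3.2⟩
    have := hz0 z.re z.im h2
    rwa [Complex.re_add_im] at this
  have hη1 : ContDiff ℝ ∞ (deriv η) := by
    have : ContDiff ℝ (((⊤ : ℕ∞) : WithTop ℕ∞) + 1) η := by simpa using hη
    exact (contDiff_succ_iff_deriv.1 this).2.2
  have hcont : Continuous (fun z : ℂ => gy θ z * deriv η z.re) :=
    (contDiff_gy hθ).continuous.mul (hη1.continuous.comp Complex.continuous_re)
  have hcpt : HasCompactSupport (fun z : ℂ => gy θ z * deriv η z.re) := by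
    refine HasCompactSupport.of_support_subset_isCompact
      (isCompact_Icc.reProdIm isCompact_Icc) (K := Icc (-L) L ×ℂ Icc (-M) M) ?_
    intro z hz
    by_contra h
    exact hz (hz0' z h)
  have hint : Integrable (fun z : ℂ => gy θ z * deriv η z.re) :=
    hcont.integrable_of_hasCompactSupport hcpt
  refine ⟨hint, hz0', ?_⟩
  have hmp := Complex.volume_preserving_equiv_real_prod.symm
  have hfub : ∫ z : ℂ, gy θ z * deriv η z.re
      = ∫ x : ℝ, ∫ y : ℝ, gy θ ((x : ℂ) + y * Complex.I) * deriv η x := by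
    rw [← hmp.integral_comp (MeasurableEquiv.measurableEmbedding _)]
    have hint2 : Integrable (fun p : ℝ × ℝ =>
        gy θ (Complex.measurableEquivRealProd.symm p)
          * deriv η (Complex.measurableEquivRealProd.symm p).re) :=
      (hmp.integrable_comp_emb (MeasurableEquiv.measurableEmbedding _)).2 hint
    rw [Measure.volume_eq_prod] at hint2 ⊢
    rw [integral_prod _ hint2]
    refine integral_congr_ae (Eventually.of_forall fun x => ?_)
    refine integral_congr_ae (Eventually.of_forall fun y => ?_)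
    have : Complex.measurableEquivRealProd.symm (x, y) = (x : ℂ) + y * Complex.I := by
      apply Complex.ext <;> simp [Complex.measurableEquivRealProd]
    simp only [this]
    simp
  rw [hfub]
  have hin : ∀ x : ℝ, ∫ y : ℝ, gy θ ((x : ℂ) + y * Complex.I) * deriv η x = deriv η x := by
    intro x
    by_cases hx : |x| ≤ L
    · rw [integral_mul_const]
      have hi : Integrable (fun y : ℝ => gy θ ((x : ℂ) + y * Complex.I)) := by
        refine Continuous.integrable_of_hasCompactSupport ?_ ?_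
        · exact (contDiff_gy hθ).continuous.comp (by fun_prop)
        · refine HasCompactSupport.of_support_subset_isCompact (isCompact_Icc (a := -M) (b := M)) ?_
          intro y hy
          by_contra h
          apply hy
          refine hgy x y hx ?_
          by_contra h2
          exact h (abs_le.1 (not_lt.1 h2))
      have h3 := integral_of_hasDerivAt_of_tendsto (m := 0) (n := 1) (hline x) hi ?_ ?_
      · rw [h3]; ring
      · refine tendsto_const_nhds.congr' ?_
        filter_upwards [eventually_le_atBot (-M)] with s hs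
        exact (h0 _ (by simpa using hx) (by simpa using hs)).symm
      · refine tendsto_const_nhds.congr' ?_
        filter_upwards [eventually_ge_atTop M] with s hs
        exact (h1 _ (by simpa using hx) (by simpa using hs)).symm
    · simp [hηd x (not_le.1 hx)]
  rw [integral_congr_ae (Eventually.of_forall hin)]
  have hi : Integrable (deriv η) := by
    refine Continuous.integrable_of_hasCompactSupport hη1.continuous ?_
    refine HasCompactSupport.of_support_subset_isCompact (isCompact_Icc (a := -L) (b := L)) ?_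
    intro y hy
    by_contra h
    apply hy
    refine hηd y ?_
    by_contra h2
    exact h (abs_le.1 (not_lt.1 h2))
  have h3 := integral_of_hasDerivAt_of_tendsto (f := η) (m := 0) (n := c)
    (fun x => ((hη.differentiable (by simp)) x).hasDerivAt) hi ?_ ?_
  · rw [h3]; ring
  · refine tendsto_const_nhds.congr' ?_
    filter_upwards [eventually_le_atBot (-L)] with s hs
    exact (e0 _ hs).symm
  · refine tendsto_const_nhds.congr' ?_
    filter_upwards [eventually_ge_atTop L] with s hs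
    exact (e1 _ hs).symm

end
end Crest.Agent.R105.Att1_823
end

-- ▼ part R105/Att2_823
section

/-!
# Row 105, S0139 [B], attainment (helper823, task 2290): the uniform Cauchy inequality
-/

set_option autoImplicit false

open MeasureTheory Set Filter Topology Metric
open scoped NNReal ENNReal ContDiff

namespace Crest.Agent.R105.Att1_823

open Bd_775

noncomputable section

lemma lip_max (c : ℝ) : LipschitzWith 1 (fun s : ℝ => max s c) := LipschitzWith.id.max_const c

lemma lip_min (c : ℝ) : LipschitzWith 1 (fun s : ℝ => min s c) := LipschitzWith.id.min_const c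

/-- **The inequality, with the separating function `θ` given.** -/
theorem cauchy_aux {C : Set ℂ} (hC : IsCompact C) {a b θ : ℂ → ℝ}
    (hal : LocallyLipschitzOn Cᶜ a) (hbl : LocallyLipschitzOn Cᶜ b)
    (hab : HasCompactSupport (fun z => b z - a z)) {t0 t1 L M : ℝ} (ht : t0 < t1)
    (hθ : ContDiff ℝ ∞ θ) (hθ01 : ∀ z, 0 ≤ θ z ∧ θ z ≤ 1)
    (h1 : ∀ z : ℂ, |z.re| ≤ L → M ≤ z.im → θ z = 1)
    (h0 : ∀ z : ℂ, |z.re| ≤ L → z.im ≤ -M → θ z = 0)
    (hlc : ∀ z ∈ C, ∀ᶠ w in 𝓝 z, θ w = θ z)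
    (htri : ∀ z, a z < t0 ∨ t1 < b z ∨ ∀ᶠ w in 𝓝 z, θ w = θ z)
    (hLa : ∀ z : ℂ, z.re ≤ -L → a z ≤ t0) (hLb : ∀ z : ℂ, L ≤ z.re → t1 ≤ a z)
    (hiso : ∀ θ : ℂ → ℝ, ContDiff ℝ ∞ θ → HasCompactSupport θ →
      (∀ z ∈ C, ∀ᶠ w in 𝓝 z, θ w = θ z) →
      om C (fun z => θ z * max (min (b z) t1 - a z) 0) (fun z => max (a z) t0) = 0)
    (hint : IntegrableOn (wdg (fun z => b z - a z) a) Cᶜ) :
    (t1 - t0) ^ 2 / 2 ≤ ∫ z in Cᶜ, |wdg (fun w => b w - a w) a z| := by
  have hCc : IsClosed C := hC.isClosed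
  have hO : IsOpen Cᶜ := hCc.isOpen_compl
  -- `0 < L`
  have hL : 0 < L := by
    by_contra h
    push Not at h
    have e1 := hLa 0 (by simpa using h)
    have e2 := hLb 0 (by simpa using h)
    linarith
  set c : ℝ := (t1 - t0) ^ 2 / 2 with hc
  -- local Lipschitz
  have lg : LocallyLipschitzOn Cᶜ (gg a t0) := ll_comp (lip_max t0) hal
  have lm : LocallyLipschitzOn Cᶜ (fun w => min (b w) t1) := ll_comp (lip_min t1) hbl
  have lf : LocallyLipschitzOn Cᶜ (ff a b t1) := ll_comp (lip_max 0) (ll_sub lm hal)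
  have lh : LocallyLipschitzOn Cᶜ (fun w => max (t1 - gg a t0 w) 0) :=
    ll_comp (lip_max 0) (ll_sub (ll_const t1) lg)
  have hh : ∀ z, |max (t1 - gg a t0 z) 0| ≤ t1 - t0 := by
    intro z
    rw [abs_of_nonneg (le_max_right _ _)]
    refine max_le ?_ (by linarith)
    have : t0 ≤ gg a t0 z := le_max_right _ _
    linarith
  have lq : LocallyLipschitzOn Cᶜ (qq a t0 t1) := by
    have e1 := ll_comp (h := fun s : ℝ => c - s * (1 / 2)) (K := 1)
      (LipschitzWith.of_dist_le_mul fun x y => by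
        rw [Real.dist_eq, Real.dist_eq]
        have : c - x * (1 / 2) - (c - y * (1 / 2)) = -((1 / 2) * (x - y)) := by ring
        rw [this, abs_neg, abs_mul, abs_of_pos (by norm_num : (0 : ℝ) < 1 / 2)]
        have := abs_nonneg (x - y)
        push_cast
        linarith) (ll_mul lh lh hh hh)
    refine (show qq a t0 t1 = _ from ?_) ▸ e1
    funext z
    simp only [qq]
    ring
  -- the comparison function
  set η : ℝ → ℝ := fun x => c * Real.smoothTransition (x / (2 * L) + 1 / 2) with hη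
  have hηs : ContDiff ℝ ∞ η := by
    have : ContDiff ℝ ∞ (fun x : ℝ => x / (2 * L) + 1 / 2) := by fun_prop
    exact contDiff_const.mul (Real.smoothTransition.contDiff.comp this)
  have hη0 : ∀ x ≤ -L, η x = 0 := by
    intro x hx
    have : x / (2 * L) + 1 / 2 ≤ 0 := by
      rw [div_add_div _ _ (by positivity) (by norm_num)]
      apply div_nonpos_of_nonpos_of_nonneg <;> nlinarith
    rw [hη]; simp only []
    rw [Real.smoothTransition.zero_of_nonpos this, mul_zero]
  have hη1 : ∀ x, L ≤ x → η x = c := by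
    intro x hx
    have : 1 ≤ x / (2 * L) + 1 / 2 := by
      rw [div_add_div _ _ (by positivity) (by norm_num), le_div_iff₀ (by positivity)]
      nlinarith
    rw [hη]; simp only []
    rw [Real.smoothTransition.one_of_one_le this, mul_one]
  have hq0 : ∀ z, a z ≤ t0 → qq a t0 t1 z = 0 := by
    intro z hz
    have : gg a t0 z = t0 := max_eq_right hz
    simp only [qq, this]
    rw [max_eq_left (by linarith)]; ring
  have hq1 : ∀ z, t1 ≤ a z → qq a t0 t1 z = c := by
    intro z hz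
    have : gg a t0 z = a z := max_eq_left (by linarith)
    simp only [qq, this]
    rw [max_eq_right (by linarith)]; ring
  set ηr : ℂ → ℝ := fun z => η z.re with hηr
  have hηrs : ContDiff ℝ ∞ ηr := hηs.comp Complex.reCLM.contDiff
  have hηrd : ∀ z v, fderiv ℝ ηr z v = deriv η z.re * v.re := by
    intro z v
    have e1 : HasDerivAt η (deriv η z.re) z.re := ((hηs.differentiable (by simp)) _).hasDerivAt
    have e2 : HasFDerivAt (fun w : ℂ => w.re) Complex.reCLM z := Complex.reCLM.hasFDerivAt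
    have e3 := (e1.comp_hasFDerivAt z e2).fderiv
    have e4 : fderiv ℝ ηr z = deriv η z.re • Complex.reCLM := e3
    rw [e4]; simp
  set e : ℂ → ℝ := fun z => qq a t0 t1 z - ηr z with he
  have le : LocallyLipschitzOn Cᶜ e := by
    refine ll_sub lq ?_
    intro z _
    obtain ⟨K, t, ht', h⟩ := lip_at_of_contDiff hηrs z
    exact ⟨K, t, mem_nhdsWithin_of_mem_nhds ht', h⟩
  have he0 : ∀ z : ℂ, L ≤ |z.re| → e z = 0 := by
    intro z hz
    rcases le_abs.1 hz with h | h
    · simp only [he, hηr]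
      rw [hq1 z (hLb z h), hη1 _ h, sub_self]
    · have h' : z.re ≤ -L := by linarith
      simp only [he, hηr]
      rw [hq0 z (hLa z h'), hη0 _ h', sub_self]
  -- derivatives of θ vanish
  have hθd : ∀ z, (∀ᶠ w in 𝓝 z, θ w = θ z) → fderiv ℝ θ z = 0 := by
    intro z hz
    have h2 : θ =ᶠ[𝓝 z] fun _ => θ z := hz
    rw [h2.fderiv_eq]; simp
  have hθM : ∀ z : ℂ, |z.re| < L → M < |z.im| → fderiv ℝ θ z = 0 := by
    intro z hz hz'
    apply hθd
    have hre : ∀ᶠ w : ℂ in 𝓝 z, |w.re| < L :=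
      (continuous_abs.comp Complex.continuous_re).continuousAt.eventually (gt_mem_nhds hz)
    rcases lt_abs.1 hz' with h | h
    · have him : ∀ᶠ w : ℂ in 𝓝 z, M < w.im :=
        Complex.continuous_im.continuousAt.eventually (lt_mem_nhds h)
      filter_upwards [hre, him] with w hw hw'
      rw [h1 w hw.le hw'.le, h1 z hz.le h.le]
    · have h' : z.im < -M := by linarith
      have him : ∀ᶠ w : ℂ in 𝓝 z, w.im < -M :=
        Complex.continuous_im.continuousAt.eventually (gt_mem_nhds h')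
      filter_upwards [hre, him] with w hw hw'
      rw [h0 w hw.le hw'.le, h0 z hz.le h'.le]
  have hS : ∀ z ∉ (Icc (-L) L ×ℂ Icc (-M) M), fderiv ℝ θ z = 0 ∨ e z = 0 := by
    intro z hz
    by_cases hz1 : L ≤ |z.re|
    · exact Or.inr (he0 z hz1)
    · left
      push Not at hz1
      refine hθM z hz1 ?_
      by_contra h
      push Not at h
      apply hz
      rw [Complex.mem_reProdIm]
      exact ⟨abs_le.1 hz1.le, abs_le.1 h⟩
  obtain ⟨ie, ze⟩ := stokes hCc hθ hlc le (S := Icc (-L) L ×ℂ Icc (-M) M)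
    (isCompact_Icc.reProdIm isCompact_Icc)
    (fun z hz => by
      rcases hS z hz with h | h
      · unfold gx; rw [h]; simp
      · rw [h, mul_zero])
    (fun z hz => by
      rcases hS z hz with h | h
      · unfold gy; rw [h]; simp
      · rw [h, mul_zero])
  obtain ⟨it, -, zt⟩ := int_top (c := c) hθ hηs h1 h0 hη0 hη1
  -- `∫ dθ ∧ d(η ∘ re) = - c`
  have hwη : ∀ z, wdg θ ηr z = -(gy θ z * deriv η z.re) := by
    intro z
    unfold wdg
    have e1 : gx ηr z = deriv η z.re := by unfold gx; rw [hηrd]; simp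
    have e2 : gy ηr z = 0 := by unfold gy; rw [hηrd]; simp
    rw [e1, e2]; ring
  have iη : IntegrableOn (wdg θ ηr) Cᶜ := by
    have : wdg θ ηr = fun z => -(gy θ z * deriv η z.re) := funext hwη
    rw [this]
    exact it.neg.integrableOn
  have zη : ∫ z in Cᶜ, wdg θ ηr z = -c := by
    simp only [hwη]
    rw [integral_neg, ← zt]
    congr 1
    refine setIntegral_eq_integral_of_forall_compl_eq_zero fun z hz => ?_
    unfold gy
    rw [hθd z (hlc z (not_not.1 hz))]; simp
  -- a.e. differentiability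
  have da := ae_diff hO hal
  have db := ae_diff hO hbl
  have dg := ae_diff hO lg
  have dm := ae_diff hO lm
  have df := ae_diff hO lf
  have dq := ae_diff hO lq
  -- `f dθ ∧ dg`
  have hF3 : ∀ᵐ z ∂(volume.restrict Cᶜ), ff a b t1 z * wdg θ (gg a t0) z
      = wdg θ e z + wdg θ ηr z := by
    filter_upwards [dg, dq] with z hz hz'
    rw [f_wdg hz (htri z)]
    have d1 : DifferentiableAt ℝ ηr z := (hηrs.differentiable (by simp)) z
    unfold wdg
    have e1 : gx e z = gx (qq a t0 t1) z - gx ηr z := gx_sub hz' d1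
    have e2 : gy e z = gy (qq a t0 t1) z - gy ηr z := gy_sub hz' d1
    rw [e1, e2]; ring
  have i3 : IntegrableOn (fun z => ff a b t1 z * wdg θ (gg a t0) z) Cᶜ :=
    (ie.add iη).congr (hF3.mono fun z h => h.symm)
  have z3 : ∫ z in Cᶜ, ff a b t1 z * wdg θ (gg a t0) z = -c := by
    rw [integral_congr_ae hF3, integral_add ie iη, ze, zη, zero_add]
  -- `θ df ∧ dg`
  have hF1 : ∀ᵐ z ∂(volume.restrict Cᶜ), ‖θ z * wdg (ff a b t1) (gg a t0) z‖
      ≤ |wdg (fun w => b w - a w) a z| := by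
    filter_upwards [da, db, dm] with z h2 h3 h4
    rw [Real.norm_eq_abs, abs_mul, abs_of_nonneg (hθ01 z).1]
    refine (mul_le_mul_of_nonneg_right (hθ01 z).2 (abs_nonneg _)).trans ?_
    rw [one_mul]
    exact wdg_le h2 h3 h4
  have i1 : IntegrableOn (fun z => θ z * wdg (ff a b t1) (gg a t0) z) Cᶜ :=
    Integrable.mono' hint.abs
      (hθ.continuous.measurable.mul (measurable_wdg _ _)).aestronglyMeasurable hF1
  -- the cut off
  have hK : IsCompact (C ∪ tsupport (fun z => b z - a z)) := hC.union hab.isCompact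
  obtain ⟨R, hR⟩ := hK.isBounded.subset_ball (0 : ℂ)
  have hR' : C ∪ tsupport (fun z => b z - a z) ⊆ ball (0 : ℂ) (max R 1) :=
    hR.trans (ball_subset_ball (le_max_left _ _))
  set κ : ContDiffBump (0 : ℂ) := ⟨max R 1, max R 1 + 1, by positivity, by linarith⟩ with hκ
  have hκ1 : ∀ z ∈ ball (0 : ℂ) (max R 1), κ z = 1 := fun z hz =>
    κ.one_of_mem_closedBall (ball_subset_closedBall hz)
  have hf0 : ∀ z, z ∉ tsupport (fun z => b z - a z) → ff a b t1 z = 0 := by
    intro z hz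
    have e1 : b z - a z = 0 :=
      image_eq_zero_of_notMem_tsupport (f := fun z => b z - a z) hz
    unfold ff
    apply max_eq_right
    have : min (b z) t1 ≤ b z := min_le_left _ _
    linarith
  have hfeq : (fun z => (θ z * κ z) * max (min (b z) t1 - a z) 0)
      = fun z => θ z * ff a b t1 z := by
    funext z
    show (θ z * κ z) * ff a b t1 z = θ z * ff a b t1 z
    by_cases hz : z ∈ tsupport (fun z => b z - a z)
    · rw [hκ1 z (hR' (Or.inr hz)), mul_one]
    · rw [hf0 z hz]; ring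
  have hz2 : om C (fun z => θ z * ff a b t1 z) (gg a t0) = 0 := by
    have := hiso (fun z => θ z * κ z) (hθ.mul κ.contDiff) (κ.hasCompactSupport.mul_left)
      (fun z hz => by
        have e1 : ∀ᶠ w in 𝓝 z, w ∈ ball (0 : ℂ) (max R 1) :=
          isOpen_ball.mem_nhds (hR' (Or.inl hz))
        filter_upwards [hlc z hz, e1] with w hw hw'
        rw [hw, hκ1 w hw', hκ1 z (hR' (Or.inl hz))])
    rw [hfeq] at this
    exact this
  have hF2 : ∀ᵐ z ∂(volume.restrict Cᶜ), wdg (fun z => θ z * ff a b t1 z) (gg a t0) z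
      = θ z * wdg (ff a b t1) (gg a t0) z + ff a b t1 z * wdg θ (gg a t0) z := by
    filter_upwards [df] with z hz
    have d1 : DifferentiableAt ℝ θ z := (hθ.differentiable (by simp)) z
    unfold wdg
    rw [gx_mul d1 hz, gy_mul d1 hz]; ring
  have hsum : ∫ z in Cᶜ, θ z * wdg (ff a b t1) (gg a t0) z = c := by
    unfold om at hz2
    rw [integral_congr_ae hF2, integral_add i1 i3, z3] at hz2
    linarith
  rw [← hsum]
  refine integral_mono_ae i1 hint.abs ?_
  filter_upwards [hF1] with z hz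
  exact (le_abs_self _).trans hz

/-- `|du ∧ dv| ≤ (s |∇u|² + |∇v|²/s)/2` -/
lemma abs_wdg_le_s (u v : ℂ → ℝ) (z : ℂ) {s : ℝ} (hs : 0 < s) :
    |wdg u v z| ≤ (s * en u z + s⁻¹ * en v z) / 2 := by
  unfold wdg en
  have h1 : s * s⁻¹ = 1 := mul_inv_cancel₀ hs.ne'
  have h0 : 0 < s⁻¹ := inv_pos.2 hs
  have k : ∀ p q : ℝ, p * q ≤ (s * p ^ 2 + s⁻¹ * q ^ 2) / 2 := by
    intro p q
    have : (s * p - q) ^ 2 * s⁻¹ = s * p ^ 2 * (s * s⁻¹) - 2 * p * q * (s * s⁻¹) + s⁻¹ * q ^ 2 := by
      ring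
    have h2 : 0 ≤ (s * p - q) ^ 2 * s⁻¹ := by positivity
    rw [this, h1] at h2
    linarith
  rw [abs_le]; constructor
  · have e1 := k (gx u z) (-gy v z)
    have e2 := k (gy u z) (gx v z)
    nlinarith
  · have e1 := k (gx u z) (gy v z)
    have e2 := k (gy u z) (-gx v z)
    nlinarith

/-- Cauchy-Schwarz for `∫ |du ∧ dv|` -/
lemma int_wdg_sq {S : Set ℂ} {u v : ℂ → ℝ} (hu : IntegrableOn (en u) S)
    (hv : IntegrableOn (en v) S) :
    IntegrableOn (wdg u v) S ∧
    (∫ z in S, |wdg u v z|) ^ 2 ≤ (∫ z in S, en u z) * ∫ z in S, en v z := by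
  have hi : IntegrableOn (wdg u v) S :=
    Integrable.mono' ((hu.add hv).div_const 2) (measurable_wdg _ _).aestronglyMeasurable
      (Eventually.of_forall fun z => abs_wdg_le u v z)
  refine ⟨hi, ?_⟩
  set A := ∫ z in S, en u z with hA
  set B := ∫ z in S, en v z with hB
  set W := ∫ z in S, |wdg u v z| with hW
  have hA0 : 0 ≤ A := integral_nonneg fun z => en_nonneg u z
  have hB0 : 0 ≤ B := integral_nonneg fun z => en_nonneg v z
  have hW0 : 0 ≤ W := integral_nonneg fun z => abs_nonneg _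
  have key : ∀ s : ℝ, 0 < s → W ≤ (s * A + s⁻¹ * B) / 2 := by
    intro s hs
    have h1 : W ≤ ∫ z in S, (s * en u z + s⁻¹ * en v z) / 2 :=
      integral_mono hi.abs (((hu.const_mul s).add (hv.const_mul s⁻¹)).div_const 2)
        fun z => abs_wdg_le_s u v z hs
    rwa [integral_div, integral_add (hu.const_mul s) (hv.const_mul s⁻¹), integral_const_mul,
      integral_const_mul] at h1
  have hq : ∀ s : ℝ, 0 ≤ A * (s * s) + (-2 * W) * s + B := by
    intro s
    rcases lt_or_ge 0 s with hs | hs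
    · have h1 := key s hs
      have h2 := mul_le_mul_of_nonneg_left h1 hs.le
      have h3 : s * ((s * A + s⁻¹ * B) / 2) = (A * (s * s) + (s * s⁻¹) * B) / 2 := by ring
      rw [h3, mul_inv_cancel₀ hs.ne'] at h2
      linarith
    · have h1 : 0 ≤ A * (s * s) := mul_nonneg hA0 (mul_self_nonneg s)
      have h2 : 0 ≤ (-2 * W) * s := by nlinarith
      linarith
  have hd := discrim_le_zero hq
  unfold discrim at hd
  nlinarith

/-- **The uniform Cauchy inequality** (helper61's form). -/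
theorem cauchy {C : Set ℂ} (hC : IsCompact C) (hCt : IsTotallyDisconnected C) {a b : ℂ → ℝ}
    (ha : Continuous a) (hb : Continuous b) (hal : LocallyLipschitzOn Cᶜ a)
    (hbl : LocallyLipschitzOn Cᶜ b) (hab : HasCompactSupport (fun z => b z - a z))
    {t0 t1 L : ℝ} (ht : t0 < t1) {p : ℂ} (hp : a p < t0) (hp' : t1 < b p)
    (hL : ∀ z : ℂ, z.re ≤ -L → z ∈ connectedComponentIn {w | a w < t0} p)
    (hR : ∀ z : ℂ, L ≤ z.re → z ∈ connectedComponentIn {w | t1 < b w} p)
    (hiso : ∀ θ : ℂ → ℝ, ContDiff ℝ ∞ θ → HasCompactSupport θ →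
      (∀ z ∈ C, ∀ᶠ w in 𝓝 z, θ w = θ z) →
      om C (fun z => θ z * max (min (b z) t1 - a z) 0) (fun z => max (a z) t0) = 0)
    (hint : IntegrableOn (wdg (fun z => b z - a z) a) Cᶜ) :
    (t1 - t0) ^ 2 / 2 ≤ ∫ z in Cᶜ, |wdg (fun w => b w - a w) a z| := by
  have hPo : IsOpen {w | a w < t0} := isOpen_lt ha continuous_const
  have hWo : IsOpen {w | t1 < b w} := isOpen_lt continuous_const hb
  -- enlarge `L` so that `a = b` for `|Re z| ≥ L'`
  obtain ⟨R, hR0⟩ := hab.isCompact.isBounded.subset_ball (0 : ℂ)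
  set L' := max L (max R 1) with hL'
  have hLL : L ≤ L' := le_max_left _ _
  have hRL : R ≤ L' := (le_max_left _ _).trans (le_max_right _ _)
  have heq : ∀ z : ℂ, L' ≤ |z.re| → b z = a z := by
    intro z hz
    have : z ∉ tsupport (fun z => b z - a z) := by
      intro h
      have h1 := hR0 h
      rw [mem_ball_zero_iff] at h1
      have h2 := Complex.abs_re_le_norm z
      linarith
    have := image_eq_zero_of_notMem_tsupport (f := fun z => b z - a z) this
    linarith
  obtain ⟨M, θ, -, hθ, hθ01, h1, h0, hlc, hel⟩ :=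
    Sep_590.exists_theta (P := connectedComponentIn {w | a w < t0} p)
      (W := connectedComponentIn {w | t1 < b w} p) hC hCt (hPo.connectedComponentIn)
      (hWo.connectedComponentIn) isPreconnected_connectedComponentIn
      isPreconnected_connectedComponentIn (mem_connectedComponentIn hp)
      (mem_connectedComponentIn hp') (L := L') (fun z hz => hL z (by linarith))
      (fun z hz => hR z (by linarith))
  refine cauchy_aux hC hal hbl hab ht hθ hθ01 h1 h0 hlc ?_ ?_ ?_ hiso hint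
  · intro z
    by_cases hz : z ∈ connectedComponentIn {w | a w < t0} p
    · exact Or.inl (connectedComponentIn_subset {w | a w < t0} p hz)
    by_cases hz' : z ∈ connectedComponentIn {w | t1 < b w} p
    · exact Or.inr (Or.inl (connectedComponentIn_subset {w | t1 < b w} p hz'))
    · exact Or.inr (Or.inr (hel z hz hz'))
  · intro z hz
    have : z ∈ {w | a w < t0} := connectedComponentIn_subset _ _ (hL z (by linarith))
    exact (show a z < t0 from this).le
  · intro z hz
    have h3 : z ∈ {w | t1 < b w} := connectedComponentIn_subset _ _ (hR z (by linarith))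
    have h4 : b z = a z := heq z (hz.trans (le_abs_self _))
    have h5 : t1 < b z := h3
    linarith

/-- squared form: `(t1-t0)^4/4 ≤ (∫_{Cᶜ} |∇(b-a)|²) (∫_{Cᶜ ∩ supp(b-a)} |∇a|²)` -/
theorem cauchy_sq {C : Set ℂ} (hC : IsCompact C) (hCt : IsTotallyDisconnected C) {a b : ℂ → ℝ}
    (ha : Continuous a) (hb : Continuous b) (hal : LocallyLipschitzOn Cᶜ a)
    (hbl : LocallyLipschitzOn Cᶜ b) (hab : HasCompactSupport (fun z => b z - a z))
    {t0 t1 L : ℝ} (ht : t0 < t1) {p : ℂ} (hp : a p < t0) (hp' : t1 < b p)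
    (hL : ∀ z : ℂ, z.re ≤ -L → z ∈ connectedComponentIn {w | a w < t0} p)
    (hR : ∀ z : ℂ, L ≤ z.re → z ∈ connectedComponentIn {w | t1 < b w} p)
    (hiso : ∀ θ : ℂ → ℝ, ContDiff ℝ ∞ θ → HasCompactSupport θ →
      (∀ z ∈ C, ∀ᶠ w in 𝓝 z, θ w = θ z) →
      om C (fun z => θ z * max (min (b z) t1 - a z) 0) (fun z => max (a z) t0) = 0)
    (hEb : IntegrableOn (en (fun z => b z - a z)) Cᶜ)
    (hEa : IntegrableOn (en a) (Cᶜ ∩ tsupport (fun z => b z - a z))) :
    ((t1 - t0) ^ 2 / 2) ^ 2 ≤ (∫ z in Cᶜ, en (fun z => b z - a z) z) *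
      ∫ z in Cᶜ ∩ tsupport (fun z => b z - a z), en a z := by
  set T := tsupport (fun z => b z - a z) with hT
  have hCm : MeasurableSet Cᶜ := hC.isClosed.isOpen_compl.measurableSet
  have hTm : MeasurableSet T := (isClosed_tsupport _).measurableSet
  have h0 : ∀ z ∈ Cᶜ \ (Cᶜ ∩ T), wdg (fun z => b z - a z) a z = 0 := by
    intro z hz
    have hzT : z ∉ T := fun h => hz.2 ⟨hz.1, h⟩
    unfold wdg gx gy
    rw [fderiv_eq_zero_of_notMem_tsupport hzT]; simp
  obtain ⟨i1, s1⟩ := int_wdg_sq (hEb.mono_set inter_subset_left) hEa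
  have i2 : IntegrableOn (wdg (fun z => b z - a z) a) Cᶜ :=
    i1.of_forall_sdiff_eq_zero hCm h0
  have e1 : ∫ z in Cᶜ, |wdg (fun w => b w - a w) a z|
      = ∫ z in Cᶜ ∩ T, |wdg (fun w => b w - a w) a z| :=
    setIntegral_eq_of_subset_of_forall_sdiff_eq_zero hCm inter_subset_left
      (fun z hz => by rw [h0 z hz, abs_zero])
  have h1 := cauchy hC hCt ha hb hal hbl hab ht hp hp' hL hR hiso i2
  rw [e1] at h1
  have h2 : (0 : ℝ) ≤ (t1 - t0) ^ 2 / 2 := by positivity
  refine (pow_le_pow_left₀ h2 h1 2).trans (s1.trans ?_)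
  refine mul_le_mul_of_nonneg_right ?_ (integral_nonneg fun z => en_nonneg a z)
  exact setIntegral_mono_set hEb (Eventually.of_forall fun z => en_nonneg _ z)
    (Eventually.of_forall fun z hz => hz.1)

end
end Crest.Agent.R105.Att1_823
end

-- ▼ part R105/Asm2_987
section

/-!
# Row 105, S0139, ATTP: leaf `C4P` of `Asm0_6` (helper987), from `C3P` and 823's `cauchy_sq`
-/

set_option autoImplicit false

open MeasureTheory Set Filter Topology Metric Bornology
open scoped ContDiff NNReal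

namespace Crest.Agent.R105.Asm_987

open Crest.Agent.R105.IfB_641 Crest.Agent.R105.Asm_6

/-! ### topology -/

theorem abs_re_le' (z : ℂ) : |z.re| ≤ ‖z‖ := Complex.abs_re_le_norm z
theorem abs_im_le' (z : ℂ) : |z.im| ≤ ‖z‖ := Complex.abs_im_le_norm z

/-- the half plane minus the open disc is connected -/
theorem preconn_S {r τ σ : ℝ} (hr : 0 < r) (hσ : σ = 1 ∨ σ = -1) :
    IsPreconnected {z : ℂ | r ≤ ‖z‖ ∧ σ * z.re < τ} := by
  set S : Set ℂ := {z : ℂ | r ≤ ‖z‖ ∧ σ * z.re < τ} with hS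
  have hσ2 : σ * σ = 1 := by rcases hσ with h | h <;> rw [h] <;> norm_num
  set m : ℝ := min τ (-r) with hm
  set H : Set ℂ := {z : ℂ | σ * z.re < m} with hH
  have hHc : Convex ℝ H := by
    intro x hx y hy a b ha hb hab
    simp only [hH, mem_ofPred_eq] at hx hy ⊢
    have e : (a • x + b • y).re = a * x.re + b * y.re := by simp
    rw [e]
    have e2 : σ * (a * x.re + b * y.re) = a * (σ * x.re) + b * (σ * y.re) := by ring
    rw [e2]
    have e3 : m = a * m + b * m := by rw [← add_mul, hab, one_mul]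
    rw [e3]
    rcases ha.eq_or_lt with h | h
    · have hb1 : b = 1 := by linarith
      subst h; rw [hb1]; linarith
    · have := mul_lt_mul_of_pos_left hx h
      have := mul_le_mul_of_nonneg_left hy.le hb
      linarith
  have hHS : H ⊆ S := by
    intro z hz
    have h1 : σ * z.re < m := hz
    have h2 : σ * z.re < -r := h1.trans_le (min_le_right _ _)
    refine ⟨?_, h1.trans_le (min_le_left _ _)⟩
    have h3 : |z.re| ≤ ‖z‖ := abs_re_le' z
    rcases hσ with h | h <;> rw [h] at h2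
    · have := neg_abs_le z.re; linarith
    · have := le_abs_self z.re; linarith
  set q : ℂ := ⟨σ * (m - 1), 0⟩ with hq
  have hqH : q ∈ H := by
    simp only [hH, mem_ofPred_eq, hq]
    rw [← mul_assoc, hσ2]; linarith
  refine isPreconnected_of_forall q fun z hz => ?_
  -- the vertical direction
  obtain ⟨ε, hε, hεi⟩ : ∃ ε : ℝ, (ε = 1 ∨ ε = -1) ∧ 0 ≤ ε * z.im := by
    rcases le_total 0 z.im with h | h
    · exact ⟨1, Or.inl rfl, by linarith⟩
    · exact ⟨-1, Or.inr rfl, by linarith⟩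
  have hε2 : ε * ε = 1 := by rcases hε with h | h <;> rw [h] <;> norm_num
  set z1 : ℂ := ⟨z.re, z.im + ε * r⟩ with hz1
  set z2 : ℂ := ⟨σ * (m - 1), z.im + ε * r⟩ with hz2
  have hs1 : segment ℝ z z1 ⊆ S := by
    rintro w ⟨a, b, ha, hb, hab, rfl⟩
    have e1 : (a • z + b • z1).re = z.re := by
      simp only [hz1, Complex.add_re, Complex.real_smul, Complex.mul_re, Complex.ofReal_re,
        Complex.ofReal_im, zero_mul, sub_zero]
      rw [← add_mul, hab, one_mul]
    have e2 : (a • z + b • z1).im = z.im + b * (ε * r) := by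
      simp only [hz1, Complex.add_im, Complex.real_smul, Complex.mul_im, Complex.ofReal_re,
        Complex.ofReal_im, zero_mul, add_zero]
      have : a * z.im + b * (z.im + ε * r) = (a + b) * z.im + b * (ε * r) := by ring
      rw [this, hab, one_mul]
    refine ⟨?_, by rw [e1]; exact hz.2⟩
    refine hz.1.trans ?_
    rw [Complex.norm_def, Complex.norm_def]
    apply Real.sqrt_le_sqrt
    rw [Complex.normSq_apply, Complex.normSq_apply, e1, e2]
    have h3 : 0 ≤ 2 * b * r * (ε * z.im) := by positivity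
    have h4 : (b * (ε * r)) * (b * (ε * r)) = (b * r) * (b * r) := by
      calc (b * (ε * r)) * (b * (ε * r)) = (ε * ε) * ((b * r) * (b * r)) := by ring
        _ = _ := by rw [hε2, one_mul]
    nlinarith [mul_self_nonneg (b * r)]
  have hs2 : segment ℝ z1 z2 ⊆ S := by
    rintro w ⟨a, b, ha, hb, hab, rfl⟩
    have e2 : (a • z1 + b • z2).im = z.im + ε * r := by
      simp only [hz1, hz2, Complex.add_im, Complex.real_smul, Complex.mul_im, Complex.ofReal_re,
        Complex.ofReal_im, zero_mul, add_zero]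
      rw [← add_mul, hab, one_mul]
    have e1 : (a • z1 + b • z2).re = a * z.re + b * (σ * (m - 1)) := by
      simp only [hz1, hz2, Complex.add_re, Complex.real_smul, Complex.mul_re, Complex.ofReal_re,
        Complex.ofReal_im, zero_mul, sub_zero]
    constructor
    · refine le_trans ?_ (abs_im_le' _)
      rw [e2]
      have h5 : ε * (z.im + ε * r) = ε * z.im + r := by
        rw [mul_add, ← mul_assoc, hε2, one_mul]
      have h6 : r ≤ ε * (z.im + ε * r) := by rw [h5]; linarith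
      refine h6.trans ?_
      rcases hε with h | h <;> rw [h]
      · rw [one_mul]; exact le_abs_self _
      · rw [neg_one_mul]; exact neg_le_abs _
    · rw [e1]
      have e3 : σ * (a * z.re + b * (σ * (m - 1))) = a * (σ * z.re) + b * (m - 1) := by
        calc σ * (a * z.re + b * (σ * (m - 1))) = a * (σ * z.re) + (σ * σ) * (b * (m - 1)) := by
              ring
          _ = _ := by rw [hσ2, one_mul]
      rw [e3]
      have h7 : m - 1 < τ := by
        have := min_le_left τ (-r); linarith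
      have h8 : τ = a * τ + b * τ := by rw [← add_mul, hab, one_mul]
      rw [h8]
      have hz2' := hz.2
      rcases ha.eq_or_lt with h | h
      · have hb1 : b = 1 := by linarith
        subst h; rw [hb1]; linarith
      · have := mul_lt_mul_of_pos_left hz2' h
        have := mul_le_mul_of_nonneg_left h7.le hb
        linarith
  have hz2H : z2 ∈ H := by
    simp only [hH, mem_ofPred_eq, hz2]
    rw [← mul_assoc, hσ2]; linarith
  refine ⟨H ∪ (segment ℝ z1 z2 ∪ segment ℝ z z1), union_subset hHS (union_subset hs2 hs1),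
    Or.inl hqH, Or.inr (Or.inr (left_mem_segment ℝ z z1)), ?_⟩
  refine hHc.isPreconnected.union z2 hz2H (Or.inl (right_mem_segment ℝ z1 z2)) ?_
  exact (convex_segment z1 z2).isPreconnected.union z1 (left_mem_segment ℝ z1 z2)
    (right_mem_segment ℝ z z1) (convex_segment z z1).isPreconnected

/-- the far part of a level set is reached from `p` -/
theorem far {r τ σ : ℝ} (hr : 0 < r) (hσ : σ = 1 ∨ σ = -1) {O A : Set ℂ} {p : ℂ} (hp : ‖p‖ ≤ r)
    (hO : ¬ IsBounded (connectedComponentIn O p)) (h1 : ∀ w ∈ O, ‖w‖ ≤ r → w ∈ A)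
    (h2 : ∀ w : ℂ, r ≤ ‖w‖ → σ * w.re < τ → w ∈ A)
    (h3 : ∀ w ∈ O, ‖w‖ = r → σ * w.re < τ) :
    ∀ z : ℂ, r ≤ ‖z‖ → σ * z.re < τ → z ∈ connectedComponentIn A p := by
  set Ω := connectedComponentIn O p with hΩ
  set S : Set ℂ := {z : ℂ | r ≤ ‖z‖ ∧ σ * z.re < τ} with hS
  set T : Set ℂ := (Ω ∩ closedBall 0 r) ∪ S with hT
  have hΩO : Ω ⊆ O := connectedComponentIn_subset _ _
  have hpΩ : p ∈ Ω := by
    by_contra h
    have h4 : Ω = ∅ := by
      rw [hΩ]
      refine connectedComponentIn_eq_empty fun hpO => h ?_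
      exact mem_connectedComponentIn hpO
    rw [h4] at hO
    exact hO isBounded_empty
  have hΩout : ∃ x ∈ Ω, r < ‖x‖ := by
    by_contra h
    push Not at h
    exact hO (isBounded_closedBall.subset fun x hx => mem_closedBall_zero_iff.2 (h x hx))
  have hSc : IsPreconnected S := preconn_S hr hσ
  have hTc : IsPreconnected T := by
    intro u v hu hv hTuv hTu hTv
    by_contra hno
    rw [not_nonempty_iff_eq_empty] at hno
    -- symmetric statement
    have key : ∀ u v : Set ℂ, IsOpen u → IsOpen v → T ⊆ u ∪ v → (T ∩ v).Nonempty →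
        T ∩ (u ∩ v) = ∅ → S ⊆ u → False := by
      intro u v hu hv hTuv hTv hno hSu
      obtain ⟨x, hxT, hxv⟩ := hTv
      have hxu : x ∉ u := fun h => by
        have : x ∈ T ∩ (u ∩ v) := ⟨hxT, h, hxv⟩
        rw [hno] at this; exact this
      have hxΩ : x ∈ Ω ∩ closedBall 0 r := by
        rcases hxT with h | h
        · exact h
        · exact absurd (hSu h) hxu
      have hxr : ‖x‖ ≤ r := mem_closedBall_zero_iff.1 hxΩ.2
      have hΩc : IsPreconnected Ω := isPreconnected_connectedComponentIn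
      have c1 : Ω ⊆ (u ∪ (closedBall 0 r)ᶜ) ∪ (v ∩ ball 0 r) := by
        intro y hy
        rcases lt_trichotomy ‖y‖ r with h | h | h
        · rcases hTuv (Or.inl ⟨hy, mem_closedBall_zero_iff.2 h.le⟩) with h' | h'
          · exact Or.inl (Or.inl h')
          · exact Or.inr ⟨h', mem_ball_zero_iff.2 h⟩
        · exact Or.inl (Or.inl (hSu ⟨h.ge, h3 y (hΩO hy) h⟩))
        · refine Or.inl (Or.inr ?_)
          rw [mem_compl_iff, mem_closedBall_zero_iff, not_le]; exact h
      have c2 : (Ω ∩ (u ∪ (closedBall 0 r)ᶜ)).Nonempty := by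
        obtain ⟨y, hy, hyr⟩ := hΩout
        refine ⟨y, hy, Or.inr ?_⟩
        rw [mem_compl_iff, mem_closedBall_zero_iff, not_le]; exact hyr
      have c3 : (Ω ∩ (v ∩ ball 0 r)).Nonempty := by
        refine ⟨x, hxΩ.1, hxv, mem_ball_zero_iff.2 (lt_of_le_of_ne hxr fun h => hxu ?_)⟩
        exact hSu ⟨h.ge, h3 x (hΩO hxΩ.1) h⟩
      obtain ⟨y, hyΩ, hyu, hyv⟩ := hΩc (u ∪ (closedBall 0 r)ᶜ) (v ∩ ball 0 r)
        (hu.union isClosed_closedBall.isOpen_compl) (hv.inter isOpen_ball) c1 c2 c3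
      have hyr : ‖y‖ < r := mem_ball_zero_iff.1 hyv.2
      have hyu' : y ∈ u := by
        rcases hyu with h | h
        · exact h
        · exact absurd (mem_closedBall_zero_iff.2 hyr.le) h
      have : y ∈ T ∩ (u ∩ v) := ⟨Or.inl ⟨hyΩ, mem_closedBall_zero_iff.2 hyr.le⟩, hyu', hyv.1⟩
      rw [hno] at this; exact this
    have hSuv : S ⊆ u ∪ v := subset_union_right.trans hTuv
    have hSno : S ∩ (u ∩ v) = ∅ := by
      rw [← subset_empty_iff, ← hno]
      exact inter_subset_inter_left _ subset_union_right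
    rcases isPreconnected_iff_subset_of_disjoint.1 hSc u v hu hv hSuv hSno with h | h
    · exact key u v hu hv hTuv hTv hno h
    · refine key v u hv hu ?_ hTu ?_ h
      · rw [union_comm]; exact hTuv
      · rw [inter_comm v u]; exact hno
  have hTA : T ⊆ A := by
    rintro x (hx | hx)
    · exact h1 x (hΩO hx.1) (mem_closedBall_zero_iff.1 hx.2)
    · exact h2 x hx.1 hx.2
  intro z hz1 hz2
  exact hTc.subset_connectedComponentIn (Or.inl ⟨hpΩ, mem_closedBall_zero_iff.2 hp⟩) hTA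
    (Or.inr ⟨hz1, hz2⟩)

end Crest.Agent.R105.Asm_987
end

-- ▼ part R105/Asm3_987
section

/-!
# Row 105, S0139, ATTP: leaf `C4P` of `Asm0_6` (helper987), part 2: the comparison functions
-/

set_option autoImplicit false

open MeasureTheory Set Filter Topology Metric Bornology
open scoped ContDiff NNReal

namespace Crest.Agent.R105.Asm_987

open Crest.Agent.R105.IfB_641 Crest.Agent.R105.Asm_6

theorem dot_self (u : ℂ → ℝ) : dot u u = en u := by
  funext z; unfold Bd_775.dot Bd_775.en; ring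

theorem di_self (C : Set ℂ) (u : ℂ → ℝ) : di C u u = ∫ z in Cᶜ, en u z := by
  unfold di; rw [dot_self]

theorem gx_sub_const (u : ℂ → ℝ) (c : ℝ) : gx (fun z => u z - c) = gx u := by
  funext z; unfold Bd_775.gx; rw [fderiv_sub_const]
theorem gy_sub_const (u : ℂ → ℝ) (c : ℝ) : gy (fun z => u z - c) = gy u := by
  funext z; unfold Bd_775.gy; rw [fderiv_sub_const]

theorem en_sub_const (u : ℂ → ℝ) (c : ℝ) : en (fun z => u z - c) = en u := by
  funext z; unfold Bd_775.en; rw [gx_sub_const, gy_sub_const]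

theorem d_sub_const {C : Set ℂ} {u : ℂ → ℝ} (h : D C u) (c : ℝ) : D C (fun z => u z - c) := by
  obtain ⟨M, hM⟩ := h.bdd
  refine ⟨h.cont.sub continuous_const, ⟨M + |c|, fun z => ?_⟩, Bd_775.ll_sub h.loc
    (Bd_775.ll_const c), ?_⟩
  · exact (abs_sub _ _).trans (by linarith [hM z])
  · rw [en_sub_const]; exact h.fin

/-- hypotheses on the background -/
structure Bg (C : Set ℂ) (x0 η : ℂ → ℝ) (R0 R1 : ℝ) : Prop where
  td : TD C
  hX : X0 C x0
  R0pos : 0 < R0
  hR : R0 < R1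
  hCR : C ⊆ ball 0 R0
  far : ∀ z : ℂ, R0 ≤ ‖z‖ → x0 z = z.re
  ηs : ContDiff ℝ ∞ η
  ηc : HasCompactSupport η
  η1 : ∀ z : ℂ, ‖z‖ ≤ R1 → ∀ᶠ w in 𝓝 z, η w = 1
  η01 : ∀ z, η z ∈ Icc (0 : ℝ) 1

section
variable {C : Set ℂ} {x0 η φ φ' : ℂ → ℝ} {R0 R1 r δ1 δ2 : ℝ}




theorem ηlc (B : Bg C x0 η R0 R1) : LC C η := by
  refine Mid_987.lc_of_smooth B.ηs B.ηc fun z hz => ?_
  have h1 : ‖z‖ ≤ R1 := by
    have := mem_ball_zero_iff.1 (B.hCR hz)
    linarith [B.hR]
  have h2 := B.η1 z h1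
  filter_upwards [h2] with w hw
  rw [hw, h2.self_of_nhds]

theorem η_one (B : Bg C x0 η R0 R1) {z : ℂ} (hz : ‖z‖ ≤ R1) : η z = 1 :=
  (B.η1 z hz).self_of_nhds



/-- bundle of facts on the clamped functions -/
theorem kl_facts (B : Bg C x0 η R0 R1) (hr : R0 < r) {δ : ℝ} (hδ : 0 < δ) {ψ : ℂ → ℝ}
    (hψ : D C ψ) (hs : ∀ z, ‖z‖ = r → |ψ z| ≤ δ) :
    D C (Kl r δ ψ) ∧ LC C (fun z => Kl r δ ψ z - ψ z) ∧
      (∀ z, r ≤ ‖z‖ → |Kl r δ ψ z| ≤ δ) ∧ di C (Kl r δ ψ) (Kl r δ ψ) ≤ di C ψ ψ :=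
  c4aP C B.td.cpt r δ hδ (B.hCR.trans (ball_subset_ball hr.le)) ψ hψ hs



/-- energy of `b - a` -/
theorem fd_energy (B : Bg C x0 η R0 R1) (hr1 : r < R1) {v : ℂ → ℝ}
    (hv : D C v) (k3 : ∀ z, r ≤ ‖z‖ → |v z| ≤ δ2) :
    IntegrableOn (en (fun z => η z * v z)) Cᶜ ∧
      ∫ z in Cᶜ, en (fun z => η z * v z) z ≤ 2 * di C v v + 2 * δ2 ^ 2 * ∫ z in Cᶜ, en η z := by
  have hηf : IntegrableOn (en η) Cᶜ := (ηlc B).fin.integrableOn
  have hdiff := hv.q.ae_diff B.td.cpt.isClosed
  have hpt : ∀ᵐ z ∂(volume.restrict Cᶜ), en (fun z => η z * v z) z ≤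
      2 * en v z + 2 * δ2 ^ 2 * en η z := by
    filter_upwards [hdiff] with z hz
    have hηd : DifferentiableAt ℝ η z := (B.ηs.differentiable (by simp)).differentiableAt
    obtain ⟨h0, h1⟩ := B.η01 z
    have e1 : en (fun z => η z * v z) z ≤ 2 * (η z) ^ 2 * en v z + 2 * (v z) ^ 2 * en η z := by
      unfold Bd_775.en
      rw [Bd_775.gx_mul hηd hz, Bd_775.gy_mul hηd hz]
      nlinarith [sq_nonneg (η z * gx v z - v z * gx η z), sq_nonneg (η z * gy v z - v z * gy η z)]
    have e2 : (η z) ^ 2 * en v z ≤ en v z := by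
      have : (η z) ^ 2 ≤ 1 := by nlinarith
      have := mul_le_mul_of_nonneg_right this (Bd_775.en_nonneg v z)
      linarith
    have e3 : (v z) ^ 2 * en η z ≤ δ2 ^ 2 * en η z := by
      rcases le_or_gt ‖z‖ R1 with h | h
      · have h3 : en η z = 0 := by
          rw [Bd_775.en_eq_of_eventuallyEq (B.η1 z h : η =ᶠ[𝓝 z] fun _ => 1), Bd_775.en_const]
        rw [h3]; simp
      · refine mul_le_mul_of_nonneg_right ?_ (Bd_775.en_nonneg η z)
        rw [← sq_abs (v z)]
        exact pow_le_pow_left₀ (abs_nonneg _) (k3 z (hr1.le.trans h.le)) 2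
    linarith
  have hi : IntegrableOn (fun z => 2 * en v z + 2 * δ2 ^ 2 * en η z) Cᶜ :=
    (hv.fin.const_mul 2).add (hηf.const_mul (2 * δ2 ^ 2))
  have hI : IntegrableOn (en (fun z => η z * v z)) Cᶜ := by
    refine hi.mono' (Bd_775.measurable_en _).aestronglyMeasurable ?_
    filter_upwards [hpt] with z hz
    rw [Real.norm_of_nonneg (Bd_775.en_nonneg _ _)]; exact hz
  refine ⟨hI, (integral_mono_ae hI hi hpt).trans (le_of_eq ?_)⟩
  rw [integral_add (hv.fin.const_mul 2) (hηf.const_mul (2 * δ2 ^ 2)), integral_const_mul,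
    integral_const_mul, di_self]

theorem en_x0_int (B : Bg C x0 η R0 R1) : IntegrableOn (en x0) (tsupport η) := by
  have h1 : Continuous (en x0) := by
    have : en x0 = fun z => gx x0 z ^ 2 + gy x0 z ^ 2 := rfl
    rw [this]
    exact ((Mid_987.contDiff_gx B.hX.sm).continuous.pow 2).add
      ((Mid_987.contDiff_gy B.hX.sm).continuous.pow 2)
  exact h1.continuousOn.integrableOn_compact B.ηc.isCompact

/-- energy of `a` on `supp (b - a)` -/
theorem fa_energy (B : Bg C x0 η R0 R1) {v : ℂ → ℝ} (hv : D C v) {T : Set ℂ}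
    (hTη : T ⊆ tsupport η) :
    IntegrableOn (en (fun z => x0 z + v z)) (Cᶜ ∩ T) ∧
      ∫ z in Cᶜ ∩ T, en (fun z => x0 z + v z) z ≤
        2 * (∫ z in tsupport η, en x0 z) + 2 * di C v v := by
  have hx := en_x0_int B
  have hx' : IntegrableOn (en x0) (Cᶜ ∩ T) := hx.mono_set (inter_subset_right.trans hTη)
  have hv' : IntegrableOn (en v) (Cᶜ ∩ T) := hv.fin.mono_set inter_subset_left
  have hdiff := ae_mono (Measure.restrict_mono (inter_subset_left (s := Cᶜ) (t := T)) le_rfl)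
    (hv.q.ae_diff B.td.cpt.isClosed)
  have hpt : ∀ᵐ z ∂(volume.restrict (Cᶜ ∩ T)), en (fun z => x0 z + v z) z ≤
      2 * en x0 z + 2 * en v z := by
    filter_upwards [hdiff] with z hz
    exact Bd_775.en_add_le (B.hX.sm.differentiable (by simp)).differentiableAt hz
  have hi : IntegrableOn (fun z => 2 * en x0 z + 2 * en v z) (Cᶜ ∩ T) :=
    (hx'.const_mul 2).add (hv'.const_mul 2)
  have hI : IntegrableOn (en (fun z => x0 z + v z)) (Cᶜ ∩ T) := by
    refine hi.mono' (Bd_775.measurable_en _).aestronglyMeasurable ?_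
    filter_upwards [hpt] with z hz
    rw [Real.norm_of_nonneg (Bd_775.en_nonneg _ _)]; exact hz
  refine ⟨hI, (integral_mono_ae hI hi hpt).trans ?_⟩
  rw [integral_add (hx'.const_mul 2) (hv'.const_mul 2), integral_const_mul,
    integral_const_mul, di_self]
  have e1 : ∫ z in Cᶜ ∩ T, en x0 z ≤ ∫ z in tsupport η, en x0 z :=
    setIntegral_mono_set hx (Eventually.of_forall fun z => Bd_775.en_nonneg _ _)
      (Eventually.of_forall fun z hz => hTη hz.2)
  have e2 : ∫ z in Cᶜ ∩ T, en v z ≤ ∫ z in Cᶜ, en v z :=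
    setIntegral_mono_set hv.fin (Eventually.of_forall fun z => Bd_775.en_nonneg _ _)
      (Eventually.of_forall fun z hz => hz.1)
  linarith

/-- isotropy of the test pair -/
theorem iso_pair (B : Bg C x0 η R0 R1) {S : Set (ℂ → ℝ)} (hiso : Iso C S) {v w : ℂ → ℝ}
    (hv : Gen C S v) (hw : Gen C S w) (t0 t1 : ℝ) {θ : ℂ → ℝ} (hθ : ContDiff ℝ ∞ θ)
    (hθc : HasCompactSupport θ) (hθl : ∀ z ∈ C, ∀ᶠ w in 𝓝 z, θ w = θ z) :
    om C (fun z => θ z * max (min ((x0 z + v z) + η z * w z) t1 - (x0 z + v z)) 0)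
      (fun z => max (x0 z + v z) t0) = 0 := by
  obtain ⟨κ, hκ, hκc, -, hκ1, -⟩ := Mid_987.exists_cut_in
    (hθc.isCompact.union (isCompact_closedBall (0 : ℂ) R1)) isOpen_univ (subset_univ _)
  have hx : LC C (fun z => κ z * x0 z) := by
    refine Mid_987.lc_of_smooth (hκ.mul B.hX.sm) hκc.mul_right fun z hz => ?_
    have h2 : x0 =ᶠ[𝓝 z] fun _ => (0 : ℝ) :=
      notMem_tsupport_iff_eventuallyEq.1 fun h' => (B.hX.zero h') hz
    filter_upwards [h2] with w hw
    rw [hw, h2.self_of_nhds]; ring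
  have g1 : Gen C S (fun z => κ z * x0 z + v z) := Gen.add (Gen.lc hx) hv
  have g2 : Gen C S (fun z => (κ z * x0 z + v z) + η z * w z) :=
    Gen.add g1 (Gen.mul (Gen.lc (ηlc B)) hw)
  have hmax : ∀ c : ℝ, LipschitzWith 1 (fun s : ℝ => max s c) := fun c =>
    LipschitzWith.id.max_const c
  have hmin : ∀ c : ℝ, LipschitzWith 1 (fun s : ℝ => min s c) := fun c =>
    LipschitzWith.id.min_const c
  have g3 : Gen C S (fun z => θ z * max (min ((κ z * x0 z + v z) + η z * w z) t1 -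
      (κ z * x0 z + v z)) 0) :=
    Gen.mul (Gen.lc (Mid_987.lc_of_smooth hθ hθc hθl))
      (Gen.comp (hmax 0) (Gen.sub (Gen.comp (hmin t1) g2) g1))
  have g4 : Gen C S (fun z => max (κ z * x0 z + v z) t0) := Gen.comp (hmax t0) g1
  refine Eq.trans ?_ (hiso _ _ g3 g4)
  refine setIntegral_congr_fun B.td.cpt.isClosed.isOpen_compl.measurableSet fun z _ => ?_
  by_cases hz : z ∈ tsupport θ
  · refine Bd_775.wdg_eq_of_eventuallyEq ?_ ?_
    · filter_upwards [hκ1 z (Or.inl hz)] with y hy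
      rw [hy, one_mul]
    · filter_upwards [hκ1 z (Or.inl hz)] with y hy
      rw [hy, one_mul]
  · have h3 : θ =ᶠ[𝓝 z] fun _ => (0 : ℝ) := notMem_tsupport_iff_eventuallyEq.1 hz
    have h4 : ∀ k : ℂ → ℝ, (fun z => θ z * k z) =ᶠ[𝓝 z] fun _ => (0 : ℝ) := fun k => by
      filter_upwards [h3] with y hy
      rw [hy, zero_mul]
    have h5 : ∀ k l : ℂ → ℝ, Bd_775.wdg (fun z => θ z * k z) l z = 0 := fun k l => by
      unfold Bd_775.wdg
      rw [Bd_775.gx_eq_of_eventuallyEq (h4 k), Bd_775.gy_eq_of_eventuallyEq (h4 k),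
        Bd_775.gx_const, Bd_775.gy_const]
      ring
    change Bd_775.wdg _ _ z = Bd_775.wdg _ _ z
    rw [h5, h5]

/-- **the one-sided estimate on a good circle** -/
theorem core (B : Bg C x0 η R0 R1) (hr : R0 < r) (hr1 : r < R1) {S : Set (ℂ → ℝ)}
    (hS : ∀ s ∈ S, D C s) (hiso : Iso C S) {h E δ : ℝ} (hδ1 : 0 < δ1) (hδ1h : δ1 ≤ h / 16)
    (hδ2 : 0 < δ2) (hδ2h : δ2 ≤ h / 16) (hφ : Gen C S φ) (hφ' : Gen C S φ')
    (hM : Mn (fun z => x0 z + φ z) (h / 16)) (hM' : Mn (fun z => x0 z + φ' z) (h / 16))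
    (o1 : ∀ z w : ℂ, ‖z‖ = r → ‖w‖ = r → |φ z - φ w| ≤ δ1)
    (o1' : ∀ z w : ℂ, ‖z‖ = r → ‖w‖ = r → |φ' z - φ' w| ≤ δ1)
    (o2 : ∀ z w : ℂ, ‖z‖ = r → ‖w‖ = r → |(φ' z - φ z) - (φ' w - φ w)| ≤ δ2)
    (hE : di C φ φ ≤ E) (hd : di C (fun z => φ' z - φ z) (fun z => φ' z - φ z) ≤ δ)
    (hsmall : (2 * δ + 2 * δ2 ^ 2 * ∫ z in Cᶜ, en η z) *
      (2 * (∫ z in tsupport η, en x0 z) + 2 * E) < ((h / 16) ^ 2 / 2) ^ 2)
    {p : ℂ} (hp : ‖p‖ ≤ r) : (φ' p - φ p) - (φ' r - φ r) ≤ h / 2 := by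
  by_contra hcon
  push Not at hcon
  have hr0 : 0 < r := B.R0pos.trans hr
  have hrn : ‖(r : ℂ)‖ = r := by rw [Complex.norm_real, Real.norm_of_nonneg hr0.le]
  have hCc := B.td.cpt.isClosed
  have hcg : ∀ s ∈ S, Continuous s := fun s hs => (hS s hs).cont
  have hqg : ∀ s ∈ S, Q C s := fun s hs => (hS s hs).q
  have dφ : D C φ := (Gen.q hCc hqg hφ).d (Mid_987.Gen.cont hcg hφ)
  have dφ' : D C φ' := (Gen.q hCc hqg hφ').d (Mid_987.Gen.cont hcg hφ')
  have gd : Gen C S (fun z => φ' z - φ z) := Gen.sub hφ' hφ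
  have dd : D C (fun z => φ' z - φ z) := (Gen.q hCc hqg gd).d (Mid_987.Gen.cont hcg gd)
  obtain ⟨k1, k2, k3, k4⟩ := kl_facts B hr hδ1 (d_sub_const dφ (φ r)) (fun z hz => o1 z r hz hrn)
  obtain ⟨l1, l2, l3, l4⟩ := kl_facts B hr hδ2 (d_sub_const dd (φ' r - φ r))
    (fun z hz => o2 z r hz hrn)
  set v : ℂ → ℝ := Kl r δ1 (fun z => φ z - φ r) with hv
  set w : ℂ → ℝ := Kl r δ2 (fun z => (φ' z - φ z) - (φ' r - φ r)) with hw
  have hvE : di C v v ≤ E := by
    refine k4.trans ?_
    rw [di_self, en_sub_const, ← di_self]; exact hE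
  have hwE : di C w w ≤ δ := by
    refine l4.trans ?_
    rw [di_self, en_sub_const, ← di_self]; exact hd
  have gv : Gen C S v := by
    have h1 := Gen.add (Gen.sub hφ (Gen.const (φ r))) (Gen.lc k2)
    convert h1 using 2
    ring
  have gw : Gen C S w := by
    have h1 := Gen.add (Gen.sub gd (Gen.const (φ' r - φ r))) (Gen.lc l2)
    convert h1 using 2
    ring
  -- the functions
  set a : ℂ → ℝ := fun z => x0 z + v z with ha
  set b : ℂ → ℝ := fun z => (x0 z + v z) + η z * w z with hb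
  have a_in : ∀ z : ℂ, ‖z‖ ≤ r → a z = x0 z + φ z - φ r := fun z hz => by
    simp only [ha, hv, Kl, if_pos hz]; ring
  have b_in : ∀ z : ℂ, ‖z‖ ≤ r → b z = x0 z + φ' z - φ' r := fun z hz => by
    simp only [hb, hv, hw, Kl, if_pos hz, η_one B (hz.trans hr1.le)]; ring
  have a_far : ∀ z : ℂ, r ≤ ‖z‖ → |a z - z.re| ≤ δ1 := fun z hz => by
    simp only [ha]
    rw [B.far z (hr.le.trans hz), add_sub_cancel_left]
    exact k3 z hz
  have d_far : ∀ z : ℂ, r ≤ ‖z‖ → |η z * w z| ≤ δ2 := fun z hz => by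
    obtain ⟨h0, h1⟩ := B.η01 z
    rw [abs_mul, abs_of_nonneg h0]
    have := l3 z hz
    have h2 := abs_nonneg (w z)
    nlinarith
  have hac : Continuous a := B.hX.sm.continuous.add k1.cont
  have hbc : Continuous b := hac.add (B.ηs.continuous.mul l1.cont)
  have hba : (fun z => b z - a z) = fun z => η z * w z := by
    funext z; simp only [hb, ha]; ring
  have hsupp : HasCompactSupport (fun z => b z - a z) := by
    rw [hba]; exact B.ηc.mul_right
  have hal : LocallyLipschitzOn Cᶜ a :=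
    Bd_775.ll_add (Mid_987.ll_on (Mid_987.ll_smooth B.hX.sm) _) k1.loc
  have hbl : LocallyLipschitzOn Cᶜ b := by
    refine Bd_775.ll_add hal ?_
    exact ((ηlc B).q.mul hCc l1.q).loc
  -- levels
  set t0 : ℝ := a p + 3 * (h / 16) with ht0
  set t1 : ℝ := b p - 4 * (h / 16) with ht1
  have hh : 0 < h / 16 := hδ1.trans_le hδ1h
  have hgap : h / 16 < t1 - t0 := by
    rw [ht1, ht0, a_in p hp, b_in p hp]; linarith
  -- left
  have hL : ∀ z : ℂ, r ≤ ‖z‖ → 1 * z.re < a p + h / 16 + δ1 →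
      z ∈ connectedComponentIn {y | a y < t0} p := by
    refine far hr0 (Or.inl rfl) hp (hM p).1 ?_ ?_ ?_
    · intro y hy hyr
      have h1 : x0 y + φ y < x0 p + φ p + h / 16 := hy
      rw [mem_ofPred_eq, ht0, a_in y hyr, a_in p hp]; linarith
    · intro y hy hy2
      have h1 := (abs_le.1 (a_far y hy)).2
      rw [mem_ofPred_eq, ht0]; linarith
    · intro y hy hyr
      have h1 : x0 y + φ y < x0 p + φ p + h / 16 := hy
      have h2 := (abs_le.1 (a_far y hyr.ge)).1
      have h3 := a_in y hyr.le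
      have h4 := a_in p hp
      rw [one_mul]; linarith
  -- right
  have hR : ∀ z : ℂ, r ≤ ‖z‖ → (-1) * z.re < -(b p - h / 16 - δ1) →
      z ∈ connectedComponentIn {y | t1 < b y} p := by
    refine far hr0 (Or.inr rfl) hp (hM' p).2 ?_ ?_ ?_
    · intro y hy hyr
      have h1 : x0 p + φ' p - h / 16 < x0 y + φ' y := hy
      rw [mem_ofPred_eq, ht1, b_in y hyr, b_in p hp]; linarith
    · intro y hy hy2
      have h1 := (abs_le.1 (a_far y hy)).1
      have h2 := (abs_le.1 (d_far y hy)).1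
      have h3 : b y = a y + η y * w y := rfl
      rw [mem_ofPred_eq, ht1]; linarith
    · intro y hy hyr
      have h1 : x0 p + φ' p - h / 16 < x0 y + φ' y := hy
      have h3 := b_in y hyr.le
      have h4 := b_in p hp
      have h5 := (abs_le.1 (o1' y r hyr hrn)).2
      have h6 := B.far y (hr.le.trans hyr.ge)
      linarith
  set L : ℝ := max r (max (-(a p + h / 16 + δ1)) (b p - h / 16 - δ1)) + 1 with hLdef
  have hLr : r < L := by have := le_max_left r (max (-(a p + h / 16 + δ1)) (b p - h / 16 - δ1)); linarith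
  have hL1 : -(a p + h / 16 + δ1) < L := by
    have h1 := le_max_right r (max (-(a p + h / 16 + δ1)) (b p - h / 16 - δ1))
    have h2 := le_max_left (-(a p + h / 16 + δ1)) (b p - h / 16 - δ1)
    linarith
  have hL2 : b p - h / 16 - δ1 < L := by
    have h1 := le_max_right r (max (-(a p + h / 16 + δ1)) (b p - h / 16 - δ1))
    have h2 := le_max_right (-(a p + h / 16 + δ1)) (b p - h / 16 - δ1)
    linarith
  obtain ⟨fE1, fE2⟩ := fd_energy B hr1 l1 l3
  have hTη : tsupport (fun z => b z - a z) ⊆ tsupport η := by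
    rw [hba]; exact closure_mono (fun z hz h0 => hz (by simp only [h0, zero_mul]))
  obtain ⟨fA1, fA2⟩ := fa_energy B k1 hTη
  have main := Att1_823.cauchy_sq B.td.cpt B.td.td hac hbc hal hbl hsupp (t0 := t0) (t1 := t1)
    (L := L) (by linarith) (p := p) (by rw [ht0]; linarith) (by rw [ht1]; linarith)
    (fun z hz => hL z (by have := abs_re_le' z; have := neg_abs_le z.re; linarith) (by linarith))
    (fun z hz => hR z (by have := abs_re_le' z; have := le_abs_self z.re; linarith) (by linarith))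
    (fun θ h1 h2 h3 => iso_pair B hiso gv gw t0 t1 h1 h2 h3)
    (by rw [hba]; exact fE1) fA1
  rw [hba] at main
  have e1 : (0 : ℝ) ≤ ∫ z in Cᶜ, en (fun z => η z * w z) z :=
    integral_nonneg fun z => Bd_775.en_nonneg _ _
  have e2 : (0 : ℝ) ≤ ∫ z in Cᶜ ∩ tsupport (fun z => η z * w z), en a z :=
    integral_nonneg fun z => Bd_775.en_nonneg _ _
  have e3 : ((h / 16) ^ 2 / 2) ^ 2 ≤ ((t1 - t0) ^ 2 / 2) ^ 2 := by
    have : (h / 16) ^ 2 ≤ (t1 - t0) ^ 2 := pow_le_pow_left₀ hh.le hgap.le 2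
    refine pow_le_pow_left₀ (by positivity) (by linarith) 2
  rw [hba] at fA2
  have e4 : ∫ z in Cᶜ, en (fun z => η z * w z) z ≤ 2 * δ + 2 * δ2 ^ 2 * ∫ z in Cᶜ, en η z := by
    linarith
  have e5 : ∫ z in Cᶜ ∩ tsupport (fun z => η z * w z), en a z ≤
      2 * (∫ z in tsupport η, en x0 z) + 2 * E := by linarith
  have e6 := mul_le_mul e4 e5 e2 (e1.trans e4)
  linarith

end

end Crest.Agent.R105.Asm_987
end

-- ▼ part R105/Asm4_987
section

/-!
# Row 105, S0139, ATTP: leaf `C4P` of `Asm0_6` (helper987), part 3: `c4P_of : C3P → C4P`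
-/

set_option autoImplicit false

open MeasureTheory Set Filter Topology Metric Bornology
open scoped ContDiff NNReal

namespace Crest.Agent.R105.Asm_987

open Crest.Agent.R105.IfB_641 Crest.Agent.R105.Asm_6

theorem en_swap (u v : ℂ → ℝ) : en (fun z => u z - v z) = en (fun z => v z - u z) := by
  funext z
  have h : (fun z => u z - v z) = fun z => -(v z - u z) := by funext z; ring
  unfold Bd_775.en Bd_775.gx Bd_775.gy
  rw [h, fderiv_fun_neg]
  simp

theorem di_swap (C : Set ℂ) (u v : ℂ → ℝ) :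
    di C (fun z => u z - v z) (fun z => u z - v z) =
      di C (fun z => v z - u z) (fun z => v z - u z) := by
  rw [di_self, di_self, en_swap]

theorem le_of_sq {x y : ℝ} (hy : 0 ≤ y) (h : |x| ^ 2 ≤ y ^ 2) : |x| ≤ y :=
  (pow_le_pow_iff_left₀ (abs_nonneg x) hy (by norm_num)).1 h

/-- **C4P** from **C3P** -/
theorem c4P_of (H3 : C3P) : C4P := by
  intro C x0 htd hX R0 hR0 hCR hfar S hS hiso h hh E hE
  have hh16 : 0 < h / 16 := by linarith
  set δ1 : ℝ := h / 16 with hδ1
  set lg : ℝ := 6 * Real.pi * E / δ1 ^ 2 with hlg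
  have hpi := Real.pi_pos
  have hlg0 : 0 < lg := by rw [hlg]; positivity
  set R1 : ℝ := R0 * Real.exp lg with hR1
  have hRR : R0 < R1 := by
    have h1 : 1 < Real.exp lg := Real.one_lt_exp_iff.2 hlg0
    rw [hR1]; nlinarith
  have hlog : Real.log (R1 / R0) = lg := by
    rw [hR1, mul_div_cancel_left₀ _ hR0.ne', Real.log_exp]
  obtain ⟨η, η1, η2, -, η3, η4⟩ := Mid_987.exists_cut_in (isCompact_closedBall (0 : ℂ) R1)
    isOpen_univ (subset_univ _)
  have B : Bg C x0 η R0 R1 := ⟨htd, hX, hR0, hRR, hCR, hfar, η1, η2,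
    fun z hz => η3 z (mem_closedBall_zero_iff.2 hz), η4⟩
  set A : ℝ := ∫ z in Cᶜ, en η z with hA
  set X : ℝ := ∫ z in tsupport η, en x0 z with hXd
  have hA0 : 0 ≤ A := integral_nonneg fun z => Bd_775.en_nonneg _ _
  have hX0 : 0 ≤ X := integral_nonneg fun z => Bd_775.en_nonneg _ _
  set M : ℝ := (2 + 2 * (δ1 ^ 2 / E) * A) * (2 * X + 2 * E) with hM
  have hM0 : 0 < M := by rw [hM]; positivity
  set c : ℝ := ((h / 16) ^ 2 / 2) ^ 2 with hc
  have hc0 : 0 < c := by rw [hc]; positivity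
  set δ : ℝ := min E (c / (2 * M)) with hδ
  have hδ0 : 0 < δ := lt_min hE (by positivity)
  have hδE : δ ≤ E := min_le_left _ _
  have hδM : δ * M < c := by
    have h1 : δ ≤ c / (2 * M) := min_le_right _ _
    have h2 : δ * M ≤ c / (2 * M) * M := mul_le_mul_of_nonneg_right h1 hM0.le
    have h3 : c / (2 * M) * M = c / 2 := by field_simp
    linarith
  set δ2 : ℝ := δ1 * Real.sqrt (δ / E) with hδ2
  have hδ20 : 0 < δ2 := mul_pos hh16 (Real.sqrt_pos.2 (by positivity))
  have hδ2s : δ2 ^ 2 = δ1 ^ 2 * (δ / E) := by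
    rw [hδ2, mul_pow, Real.sq_sqrt (by positivity)]
  have hδ2h : δ2 ≤ h / 16 := by
    rw [hδ2]
    have h1 : Real.sqrt (δ / E) ≤ 1 := by
      rw [Real.sqrt_le_one]
      exact (div_le_one hE).2 hδE
    nlinarith
  refine ⟨δ, hδ0, fun φ φ' hφ hφ' hMφ hMφ' hEφ hEφ' hd z w hz hw => ?_⟩
  have hCc := htd.cpt.isClosed
  have hqg : ∀ s ∈ S, Q C s := fun s hs => (hS s hs).q
  have qφ := Gen.q hCc hqg hφ
  have qφ' := Gen.q hCc hqg hφ'
  have qd := Gen.q hCc hqg (Gen.sub hφ' hφ)
  obtain ⟨r, hr, hr1, hosc⟩ := H3 Cᶜ hCc.isOpen_compl R0 R1 hR0 hRR (fun y hy hyC => by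
      have := mem_ball_zero_iff.1 (hCR hyC)
      linarith [hy.1])
    ![φ, φ', fun z => φ' z - φ z] ![E, E, δ]
    (fun i => by
      fin_cases i
      · exact qφ.loc
      · exact qφ'.loc
      · exact qd.loc)
    (fun i => by
      fin_cases i
      · exact qφ.fin
      · exact qφ'.fin
      · exact qd.fin)
    (fun i => by
      fin_cases i
      · exact hE
      · exact hE
      · exact hδ0)
    (fun i => by
      fin_cases i
      · have := hEφ; rwa [di_self] at this
      · have := hEφ'; rwa [di_self] at this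
      · have := hd; rwa [di_self] at this)
  rw [hlog] at hosc
  have e1 : 6 * Real.pi * E / lg = δ1 ^ 2 := by
    rw [hlg]; field_simp
  have e2 : 6 * Real.pi * δ / lg = δ2 ^ 2 := by
    rw [hδ2s, hlg]; field_simp
  have o1 : ∀ z w : ℂ, ‖z‖ = r → ‖w‖ = r → |φ z - φ w| ≤ δ1 := fun z w hz hw => by
    have := hosc 0 z w hz hw
    refine le_of_sq hh16.le (this.trans (le_of_eq ?_))
    exact e1
  have o1' : ∀ z w : ℂ, ‖z‖ = r → ‖w‖ = r → |φ' z - φ' w| ≤ δ1 := fun z w hz hw => by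
    have := hosc 1 z w hz hw
    refine le_of_sq hh16.le (this.trans (le_of_eq ?_))
    exact e1
  have o2 : ∀ z w : ℂ, ‖z‖ = r → ‖w‖ = r → |(φ' z - φ z) - (φ' w - φ w)| ≤ δ2 :=
    fun z w hz hw => by
      have := hosc 2 z w hz hw
      refine le_of_sq hδ20.le (this.trans (le_of_eq ?_))
      exact e2
  have o2' : ∀ z w : ℂ, ‖z‖ = r → ‖w‖ = r → |(φ z - φ' z) - (φ w - φ' w)| ≤ δ2 :=
    fun z w hz hw => by
      have := o2 z w hz hw
      rw [abs_sub_comm] at this
      convert this using 2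
      ring
  have hsmall : (2 * δ + 2 * δ2 ^ 2 * ∫ z in Cᶜ, en η z) *
      (2 * (∫ z in tsupport η, en x0 z) + 2 * E) < ((h / 16) ^ 2 / 2) ^ 2 := by
    rw [← hA, ← hXd, ← hc]
    refine lt_of_le_of_lt (le_of_eq ?_) hδM
    rw [hδ2s, hM]
    field_simp
  have f1 : ∀ p : ℂ, ‖p‖ ≤ R0 → (φ' p - φ p) - (φ' r - φ r) ≤ h / 2 := fun p hp =>
    core B hr hr1 hS hiso hh16 le_rfl hδ20 hδ2h hφ hφ' hMφ hMφ' o1 o1' o2 hEφ hd hsmall
      (hp.trans hr.le)
  have f2 : ∀ p : ℂ, ‖p‖ ≤ R0 → (φ p - φ' p) - (φ r - φ' r) ≤ h / 2 := fun p hp =>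
    core B hr hr1 hS hiso hh16 le_rfl hδ20 hδ2h hφ' hφ hMφ' hMφ o1' o1 o2' hEφ'
      (by rw [di_swap]; exact hd) hsmall (hp.trans hr.le)
  have g1 := f1 z hz
  have g2 := f2 z hz
  have g3 := f1 w hw
  have g4 := f2 w hw
  rw [abs_le]
  constructor <;> linarith

end Crest.Agent.R105.Asm_987
end

-- ▼ part R105/CofP_231
section

/-!
# R105 / COFAT (node D2), part (D), polar half (helper231): Cauchy-Schwarz on an annulus

* `polar` : `∫⁻ z in {a < dist z p < b} G = ∫⁻ t ∈ (a,b) ∫⁻ θ ∈ (-π,π) t * G (circleMap p t θ)`;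
* `polar_cs` : `(∫⁻ t ∈ (a,b) ∫⁻ θ G (circleMap p t θ))² ≤ 2π log (b/a) * ∫⁻ annulus G²`.
-/

set_option autoImplicit false

open Set Filter Topology Metric MeasureTheory
open scoped ENNReal

namespace Crest.Agent.R105.CofP_231

theorem circleMap_eq_polar (p : ℂ) (t θ : ℝ) :
    circleMap p t θ = p + Complex.polarCoord.symm (t, θ) := by
  rw [Complex.polarCoord_symm_apply, circleMap, Complex.exp_mul_I]
  push_cast
  ring

theorem lintegral_prodIoo {F : ℝ × ℝ → ℝ≥0∞} (hF : Measurable F) (a b c d : ℝ) :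
    ∫⁻ q in Ioo a b ×ˢ Ioo c d, F q = ∫⁻ t in Ioo a b, ∫⁻ θ in Ioo c d, F (t, θ) := by
  rw [Measure.volume_eq_prod, ← Measure.prod_restrict,
    lintegral_prod _ hF.aemeasurable]

theorem measurable_circleMap (p : ℂ) : Measurable fun q : ℝ × ℝ => circleMap p q.1 q.2 := by
  have : Continuous fun q : ℝ × ℝ => circleMap p q.1 q.2 := by
    unfold circleMap
    fun_prop
  exact this.measurable

/-- polar coordinates on an annulus -/
theorem polar {G : ℂ → ℝ≥0∞} (hG : Measurable G) (p : ℂ) {a : ℝ} (ha : 0 ≤ a) (b : ℝ) :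
    ∫⁻ z in {z | dist z p ∈ Ioo a b}, G z =
      ∫⁻ t in Ioo a b, ∫⁻ θ in Ioo (-Real.pi) Real.pi,
        ENNReal.ofReal t * G (circleMap p t θ) := by
  have hA : MeasurableSet {z : ℂ | dist z p ∈ Ioo a b} :=
    (measurable_id.dist measurable_const) measurableSet_Ioo
  set H : ℂ → ℝ≥0∞ := fun z => {z : ℂ | dist z p ∈ Ioo a b}.indicator G (p + z) with hH
  have h1 : ∫⁻ z in {z : ℂ | dist z p ∈ Ioo a b}, G z = ∫⁻ z, H z := by
    rw [← lintegral_indicator hA, ← lintegral_add_left_eq_self _ p]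
  rw [h1, ← Complex.lintegral_comp_polarCoord_symm]
  have h2 : ∀ q ∈ polarCoord.target, ENNReal.ofReal q.1 • H (Complex.polarCoord.symm q) =
      (Ioo a b ×ˢ Ioo (-Real.pi) Real.pi).indicator
        (fun q : ℝ × ℝ => ENNReal.ofReal q.1 * G (circleMap p q.1 q.2)) q := by
    rintro ⟨t, θ⟩ ⟨ht, hθ⟩
    simp only [hH, smul_eq_mul, indicator]
    rw [← circleMap_eq_polar]
    have h3 : dist (circleMap p t θ) p = t := by
      rw [dist_eq_norm, circleMap_sub_center, norm_circleMap_zero, abs_of_pos ht]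
    simp only [mem_ofPred_eq, h3]
    by_cases h4 : t ∈ Ioo a b
    · rw [if_pos h4, if_pos ⟨h4, hθ⟩]
    · rw [if_neg h4, if_neg fun h => h4 h.1, mul_zero]
  rw [setLIntegral_congr_fun polarCoord.open_target.measurableSet h2]
  rw [lintegral_indicator (measurableSet_Ioo.prod measurableSet_Ioo),
    Measure.restrict_restrict (measurableSet_Ioo.prod measurableSet_Ioo)]
  have h5 : Ioo a b ×ˢ Ioo (-Real.pi) Real.pi ∩ polarCoord.target =
      Ioo a b ×ˢ Ioo (-Real.pi) Real.pi := by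
    refine inter_eq_left.2 ?_
    rintro ⟨t, θ⟩ ⟨h, h'⟩
    exact ⟨ha.trans_lt h.1, h'⟩
  rw [h5]
  exact lintegral_prodIoo ((ENNReal.measurable_ofReal.comp measurable_fst).mul
    (hG.comp (measurable_circleMap p))) a b _ _

theorem lintegral_inv {a b : ℝ} (ha : 0 < a) (hab : a ≤ b) :
    ∫⁻ t in Ioo a b, ENNReal.ofReal t⁻¹ = ENNReal.ofReal (Real.log (b / a)) := by
  have h0 : (0:ℝ) ∉ uIcc a b := by
    rw [uIcc_of_le hab]
    exact fun h => absurd h.1 (not_le.2 ha)
  rw [← integral_inv h0, intervalIntegral.integral_of_le hab, ← setLIntegral_congr Ioo_ae_eq_Ioc.symm,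
    ofReal_integral_eq_lintegral_ofReal]
  · have := (intervalIntegral.intervalIntegrable_inv (μ := volume) (f := fun t : ℝ => t)
      (a := a) (b := b) (fun t ht h => h0 (h ▸ ht)) continuousOn_id)
    exact (intervalIntegrable_iff_integrableOn_Ioc_of_le hab).1 this
  · refine (ae_restrict_iff' measurableSet_Ioc).2 (Eventually.of_forall fun t ht => ?_)
    exact inv_nonneg.2 (ha.le.trans ht.1.le)


end Crest.Agent.R105.CofP_231
end

-- ▼ part R105/Cl1_590
section

/-!
# R105, S0139, ATTP leaf (C3) (helper590): good circle (Courant-Lebesgue) for three functions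

`osc_circle` : oscillation of a locally Lipschitz function on a circle;
`c3P : Asm_6.C3P`.
-/

set_option autoImplicit false

open MeasureTheory Set Filter Topology Metric
open scoped ContDiff NNReal ENNReal

namespace Crest.Agent.R105.Cl_590

open Crest.Agent.R105.Bd_775

/-- FTC for Lipschitz functions on an interval, absolute value form -/
theorem enorm_sub_le {h : ℝ → ℝ} {K : ℝ≥0} {α β : ℝ} (hK : LipschitzOnWith K h (uIcc α β)) :
    ‖h β - h α‖ₑ ≤ ∫⁻ θ in uIoc α β, ‖deriv h θ‖ₑ := by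
  have h1 := (hK.absolutelyContinuousOnInterval).integral_deriv_eq_sub
  rw [← h1, intervalIntegral.intervalIntegral_eq_integral_uIoc]
  refine (enorm_smul_le.trans ?_)
  have h2 : ‖(if α ≤ β then 1 else -1 : ℝ)‖ₑ = 1 := by
    split_ifs <;> simp
  rw [h2, one_mul]
  exact enorm_integral_le_lintegral_enorm _

theorem circleMap_eq_of_norm {z : ℂ} {t : ℝ} (hz : ‖z‖ = t) : circleMap 0 t z.arg = z := by
  rw [circleMap_zero, ← hz]
  exact Complex.norm_mul_exp_arg_mul_I z

/-- oscillation along a circle -/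
theorem osc_circle {f : ℂ → ℝ} {O : Set ℂ} (hO : IsOpen O) (hf : LocallyLipschitzOn O f) {t : ℝ}
    (ht : 0 < t) (hc : ∀ z : ℂ, ‖z‖ = t → z ∈ O)
    (hd : ∀ᵐ θ ∂(volume.restrict (Ioo (-Real.pi) Real.pi)), DifferentiableAt ℝ f (circleMap 0 t θ))
    {B : ℝ} (hB : ∫⁻ θ in Ioo (-Real.pi) Real.pi, ENNReal.ofReal (t ^ 2 * en f (circleMap 0 t θ)) ≤
      ENNReal.ofReal B) (hB0 : 0 ≤ B) {z w : ℂ} (hz : ‖z‖ = t) (hw : ‖w‖ = t) :
    |f z - f w| ^ 2 ≤ 2 * Real.pi * B := by
  set h : ℝ → ℝ := fun θ => f (circleMap 0 t θ) with hh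
  have hcm : ∀ θ, circleMap 0 t θ ∈ O := fun θ => hc _ (by
    rw [norm_circleMap_zero, abs_of_pos ht])
  -- locally Lipschitz
  have hll : LocallyLipschitzOn (univ : Set ℝ) h := by
    intro θ _
    obtain ⟨K, s, hs, hK⟩ := hf (hcm θ)
    rw [hO.nhdsWithin_eq (hcm θ)] at hs
    refine ⟨K * Real.nnabs t, (circleMap 0 t) ⁻¹' s,
      mem_nhdsWithin_of_mem_nhds ((continuous_circleMap 0 t).continuousAt.preimage_mem_nhds hs), ?_⟩
    exact hK.comp ((lipschitzWith_circleMap 0 t).lipschitzOnWith) (fun x hx => hx)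
  have hder : ∀ θ, DifferentiableAt ℝ f (circleMap 0 t θ) →
      ‖deriv h θ‖ ^ 2 ≤ t ^ 2 * en f (circleMap 0 t θ) := by
    intro θ hθ
    have h1 : HasDerivAt h ((fderiv ℝ f (circleMap 0 t θ)) (circleMap 0 t θ * Complex.I)) θ :=
      hθ.hasFDerivAt.comp_hasDerivAt θ (hasDerivAt_circleMap 0 t θ)
    rw [h1.deriv, en_eq]
    have h2 := (fderiv ℝ f (circleMap 0 t θ)).le_opNorm (circleMap 0 t θ * Complex.I)
    have h3 : ‖circleMap 0 t θ * Complex.I‖ = t := by
      rw [norm_mul, Complex.norm_I, mul_one, norm_circleMap_zero, abs_of_pos ht]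
    rw [h3] at h2
    calc _ ≤ (‖fderiv ℝ f (circleMap 0 t θ)‖ * t) ^ 2 := pow_le_pow_left₀ (norm_nonneg _) h2 2
      _ = _ := by ring
  set X : ℝ := |f z - f w| with hX
  rcases eq_or_lt_of_le (abs_nonneg (f z - f w)) with h0 | h0
  · rw [hX, ← h0]
    have := Real.pi_pos
    nlinarith [mul_nonneg Real.pi_pos.le hB0]
  have hXpos : 0 < X := h0
  -- the integral
  obtain ⟨K, hK⟩ := (hll.mono (subset_univ (uIcc w.arg z.arg))).exists_lipschitzOnWith_of_compact
    isCompact_uIcc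
  have h1 := enorm_sub_le hK
  have hhz : h z.arg = f z := by simp only [hh]; rw [circleMap_eq_of_norm hz]
  have hhw : h w.arg = f w := by simp only [hh]; rw [circleMap_eq_of_norm hw]
  rw [hhz, hhw] at h1
  have hsub : uIoc w.arg z.arg ⊆ Ioc (-Real.pi) Real.pi := by
    intro θ hθ
    rw [mem_uIoc] at hθ
    rcases hθ with hθ | hθ
    · exact ⟨(Complex.neg_pi_lt_arg w).trans hθ.1, hθ.2.trans (Complex.arg_le_pi z)⟩
    · exact ⟨(Complex.neg_pi_lt_arg z).trans hθ.1, hθ.2.trans (Complex.arg_le_pi w)⟩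
  set l : ℝ := 2 * Real.pi / X with hl
  have hlpos : 0 < l := by positivity
  have h2 : ENNReal.ofReal X ≤ ENNReal.ofReal (l / 2 * B + Real.pi / l) := by
    calc ENNReal.ofReal X = ‖f z - f w‖ₑ := by
          rw [Real.enorm_eq_ofReal_abs]
      _ ≤ ∫⁻ θ in uIoc w.arg z.arg, ‖deriv h θ‖ₑ := h1
      _ ≤ ∫⁻ θ in Ioc (-Real.pi) Real.pi, ‖deriv h θ‖ₑ := lintegral_mono_set hsub
      _ = ∫⁻ θ in Ioo (-Real.pi) Real.pi, ‖deriv h θ‖ₑ := by
          rw [setLIntegral_congr Ioo_ae_eq_Ioc]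
      _ ≤ ∫⁻ θ in Ioo (-Real.pi) Real.pi, (ENNReal.ofReal (l / 2) *
            ENNReal.ofReal (t ^ 2 * en f (circleMap 0 t θ)) + ENNReal.ofReal (1 / (2 * l))) := by
          refine lintegral_mono_ae ?_
          filter_upwards [hd] with θ hθ
          have h3 := hder θ hθ
          rw [← ofReal_norm, ← ENNReal.ofReal_mul (by positivity),
            ← ENNReal.ofReal_add (mul_nonneg (by positivity)
              (mul_nonneg (sq_nonneg _) (en_nonneg _ _))) (by positivity)]
          refine ENNReal.ofReal_le_ofReal ?_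
          have h4 : ‖deriv h θ‖ ≤ l / 2 * ‖deriv h θ‖ ^ 2 + 1 / (2 * l) := by
            have h5 : 0 ≤ (l * ‖deriv h θ‖ - 1) ^ 2 / (2 * l) := by positivity
            have h6 : (l * ‖deriv h θ‖ - 1) ^ 2 / (2 * l) =
                l / 2 * ‖deriv h θ‖ ^ 2 + 1 / (2 * l) - ‖deriv h θ‖ := by
              field_simp; ring
            linarith
          nlinarith [mul_le_mul_of_nonneg_left h3 (by positivity : 0 ≤ l / 2)]
      _ = ENNReal.ofReal (l / 2) * (∫⁻ θ in Ioo (-Real.pi) Real.pi,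
            ENNReal.ofReal (t ^ 2 * en f (circleMap 0 t θ))) +
            ENNReal.ofReal (1 / (2 * l)) * ENNReal.ofReal (2 * Real.pi) := by
          rw [lintegral_add_right _ measurable_const, lintegral_const_mul' _ _ ENNReal.ofReal_ne_top,
            lintegral_const, Measure.restrict_apply_univ, Real.volume_Ioo]
          congr 3; ring
      _ ≤ ENNReal.ofReal (l / 2) * ENNReal.ofReal B +
            ENNReal.ofReal (1 / (2 * l)) * ENNReal.ofReal (2 * Real.pi) := by gcongr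
      _ = ENNReal.ofReal (l / 2 * B + Real.pi / l) := by
          rw [← ENNReal.ofReal_mul (by positivity), ← ENNReal.ofReal_mul (by positivity),
            ← ENNReal.ofReal_add (by positivity) (by positivity)]
          congr 2
          field_simp
  have h3 : X ≤ l / 2 * B + Real.pi / l :=
    (ENNReal.ofReal_le_ofReal_iff (by positivity)).1 h2
  have h4 : Real.pi / l = X / 2 := by
    rw [hl]; field_simp
  have h5 : l / 2 * B * X = Real.pi * B := by
    rw [hl]; field_simp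
  rw [h4] at h3
  nlinarith [mul_le_mul_of_nonneg_right h3 hXpos.le]

/-- good circle for finitely many functions with weights -/
theorem good_circle {O : Set ℂ} (hO : IsOpen O) {R0 R1 : ℝ} (hR0 : 0 < R0) (hR : R0 < R1)
    (hsub : {z : ℂ | R0 ≤ ‖z‖ ∧ ‖z‖ ≤ R1} ⊆ O) {n : ℕ} (f : Fin n → ℂ → ℝ) (E : Fin n → ℝ)
    (hf : ∀ i, LocallyLipschitzOn O (f i)) (hen : ∀ i, IntegrableOn (en (f i)) O)
    (hE : ∀ i, 0 < E i) (hle : ∀ i, ∫ z in O, en (f i) z ≤ E i) :
    ∃ r : ℝ, R0 < r ∧ r < R1 ∧ ∀ i z w, ‖z‖ = r → ‖w‖ = r →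
      |f i z - f i w| ^ 2 ≤ 2 * Real.pi * (n * E i / Real.log (R1 / R0)) := by
  classical
  have hR1 : 0 < R1 := hR0.trans hR
  have hlog : 0 < Real.log (R1 / R0) := Real.log_pos (by rw [lt_div_iff₀ hR0]; linarith)
  rcases Nat.eq_zero_or_pos n with rfl | hn
  · exact ⟨(R0 + R1) / 2, by linarith, by linarith, fun i => i.elim0⟩
  have hn' : (0 : ℝ) < n := by exact_mod_cast hn
  set N : Set ℂ := {z | ∃ i, ¬ DifferentiableAt ℝ (f i) z} with hN
  have hNm : MeasurableSet N := by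
    have : N = ⋃ i, {z | DifferentiableAt ℝ (f i) z}ᶜ := by
      ext z; simp [hN]
    rw [this]
    exact MeasurableSet.iUnion fun i => (measurableSet_of_differentiableAt ℝ (f i)).compl
  have hN0 : ∀ᵐ z ∂(volume.restrict O), z ∉ N := by
    have := ae_all_iff.2 fun i => ae_diff hO (hf i)
    filter_upwards [this] with z hz
    rintro ⟨i, hi⟩
    exact hi (hz i)
  set G : ℂ → ℝ≥0∞ := fun z => ∑ i, ENNReal.ofReal (en (f i) z / E i) + N.indicator (fun _ => ⊤) z
    with hG
  have hGm : Measurable G := by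
    refine Measurable.add ?_ (measurable_const.indicator hNm)
    exact Finset.measurable_sum _ fun i _ => ((measurable_en (f i)).div_const _).ennreal_ofReal
  set A : Set ℂ := {z : ℂ | dist z 0 ∈ Ioo R0 R1} with hA
  have hAO : A ⊆ O := by
    intro z hz
    simp only [hA, mem_ofPred_eq, dist_zero_right] at hz
    exact hsub ⟨hz.1.le, hz.2.le⟩
  have hint : ∫⁻ z in A, G z ≤ n := by
    calc ∫⁻ z in A, G z ≤ ∫⁻ z in O, G z := lintegral_mono_set hAO
      _ = ∫⁻ z in O, ∑ i, ENNReal.ofReal (en (f i) z / E i) := by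
          refine lintegral_congr_ae ?_
          filter_upwards [hN0] with z hz
          simp [hG, hz]
      _ = ∑ i, ∫⁻ z in O, ENNReal.ofReal (en (f i) z / E i) :=
          lintegral_finsetSum _ fun i _ => ((measurable_en (f i)).div_const _).ennreal_ofReal
      _ ≤ ∑ i : Fin n, (1 : ℝ≥0∞) := by
          refine Finset.sum_le_sum fun i _ => ?_
          rw [← ofReal_integral_eq_lintegral_ofReal ((hen i).div_const _)
            (Eventually.of_forall fun z => div_nonneg (en_nonneg _ _) (hE i).le)]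
          rw [integral_div]
          refine ENNReal.ofReal_le_one.2 ?_
          exact (div_le_one (hE i)).2 (hle i)
      _ = n := by simp
  rw [CofP_231.polar hGm 0 hR0.le R1] at hint
  set κ : ℝ := n / Real.log (R1 / R0) with hκ
  have hκ0 : 0 < κ := div_pos hn' hlog
  set Φ : ℝ → ℝ≥0∞ := fun t => ∫⁻ θ in Ioo (-Real.pi) Real.pi,
    ENNReal.ofReal t * G (circleMap 0 t θ) with hΦ
  have hex : ∃ t ∈ Ioo R0 R1, Φ t ≤ ENNReal.ofReal (κ * t⁻¹) := by
    by_contra hcon
    push Not at hcon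
    have h1 : ∫⁻ t in Ioo R0 R1, ENNReal.ofReal (κ * t⁻¹) = n := by
      have : ∀ t : ℝ, ENNReal.ofReal (κ * t⁻¹) = ENNReal.ofReal κ * ENNReal.ofReal t⁻¹ :=
        fun t => ENNReal.ofReal_mul hκ0.le
      simp_rw [this]
      rw [lintegral_const_mul' _ _ ENNReal.ofReal_ne_top, CofP_231.lintegral_inv hR0 hR.le,
        ← ENNReal.ofReal_mul hκ0.le, hκ, div_mul_cancel₀ _ hlog.ne']
      simp
    have h2 : ∫⁻ t in Ioo R0 R1, ENNReal.ofReal (κ * t⁻¹) < ∫⁻ t in Ioo R0 R1, Φ t := by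
      have hμ : (volume.restrict (Ioo R0 R1) : Measure ℝ) ≠ 0 := by
        rw [Ne, Measure.restrict_eq_zero, Real.volume_Ioo]
        simp [hR]
      refine lintegral_strict_mono hμ ?_ (by rw [h1]; simp) ?_
      · have hm2 : Measurable fun q : ℝ × ℝ => ENNReal.ofReal q.1 * G (circleMap 0 q.1 q.2) :=
          (ENNReal.measurable_ofReal.comp measurable_fst).mul
            (hGm.comp (CofP_231.measurable_circleMap 0))
        exact (hm2.lintegral_prod_right' (ν := volume.restrict (Ioo (-Real.pi) Real.pi))).aemeasurable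
      · refine (ae_restrict_iff' measurableSet_Ioo).2 (Eventually.of_forall fun t ht => ?_)
        exact hcon t ht
    rw [h1] at h2
    exact absurd hint (not_le.2 h2)
  obtain ⟨t, ht, htΦ⟩ := hex
  have ht0 : 0 < t := hR0.trans ht.1
  have hmG : Measurable fun θ : ℝ => ENNReal.ofReal t * G (circleMap 0 t θ) :=
    measurable_const.mul (hGm.comp (continuous_circleMap 0 t).measurable)
  have hfin : ∀ᵐ θ ∂(volume.restrict (Ioo (-Real.pi) Real.pi)),
      ENNReal.ofReal t * G (circleMap 0 t θ) < ⊤ :=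
    ae_lt_top hmG (ne_top_of_le_ne_top ENNReal.ofReal_ne_top htΦ)
  have hnN : ∀ᵐ θ ∂(volume.restrict (Ioo (-Real.pi) Real.pi)), circleMap 0 t θ ∉ N := by
    filter_upwards [hfin] with θ hθ hmem
    have : G (circleMap 0 t θ) = ⊤ := by simp [hG, hmem]
    rw [this, ENNReal.mul_top (by simpa using ht0)] at hθ
    exact lt_irrefl _ hθ
  refine ⟨t, ht.1, ht.2, fun i z w hz hw => ?_⟩
  refine osc_circle hO (hf i) ht0 (fun z hz => hsub ⟨hz ▸ ht.1.le, hz ▸ ht.2.le⟩) ?_ ?_
    (by have := hE i; positivity) hz hw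
  · filter_upwards [hnN] with θ hθ
    by_contra h
    exact hθ ⟨i, h⟩
  · have hEi := hE i
    calc ∫⁻ θ in Ioo (-Real.pi) Real.pi, ENNReal.ofReal (t ^ 2 * en (f i) (circleMap 0 t θ))
        = ENNReal.ofReal (t * E i) * ∫⁻ θ in Ioo (-Real.pi) Real.pi,
            ENNReal.ofReal t * ENNReal.ofReal (en (f i) (circleMap 0 t θ) / E i) := by
          rw [← lintegral_const_mul' _ _ ENNReal.ofReal_ne_top]
          refine lintegral_congr fun θ => ?_
          rw [← ENNReal.ofReal_mul ht0.le, ← ENNReal.ofReal_mul (by positivity)]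
          congr 1
          field_simp
      _ ≤ ENNReal.ofReal (t * E i) * Φ t := by
          refine mul_le_mul_right (lintegral_mono fun θ => mul_le_mul_right ?_ _) _
          refine le_trans ?_ (le_self_add)
          exact Finset.single_le_sum (f := fun i => ENNReal.ofReal (en (f i) (circleMap 0 t θ) / E i))
            (fun _ _ => zero_le) (Finset.mem_univ i)
      _ ≤ ENNReal.ofReal (t * E i) * ENNReal.ofReal (κ * t⁻¹) := by gcongr
      _ = ENNReal.ofReal (n * E i / Real.log (R1 / R0)) := by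
          rw [← ENNReal.ofReal_mul (by positivity)]
          congr 1
          rw [hκ]
          field_simp

theorem c3P : Asm_6.C3P := by
  intro O hO R0 R1 hR0 hR hsub f E hf hen hE hle
  obtain ⟨r, h1, h2, h3⟩ := good_circle hO hR0 hR hsub f E hf hen hE hle
  refine ⟨r, h1, h2, fun i z w hz hw => (h3 i z w hz hw).trans (le_of_eq ?_)⟩
  push_cast
  ring

end Crest.Agent.R105.Cl_590
end

-- ▼ part R105/Asm5_987
section

/-!
# Row 105, S0139, ATTP: `c4P : C4P`
-/

namespace Crest.Agent.R105.Asm_987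

theorem c4P : Crest.Agent.R105.Asm_6.C4P := c4P_of Crest.Agent.R105.Cl_590.c3P

end Crest.Agent.R105.Asm_987
end

-- ▼ part R105/Asm6_6

/-!
# Row 105, S0139 [B]: `ATTP` (attainment), assembled (helper6)
-/

set_option autoImplicit false

namespace Crest.Agent.R105.Asm_6

/-- **ATTAINMENT** -/
theorem attp : IfB_641.ATTP := attp_of C2P_61.c2p Asm_987.c4P

end Crest.Agent.R105.Asm_6
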