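import Crest.Agent.R105.Bd4_775
import Crest.Agent.R105.Stk2_939
import Crest.Agent.R105.IfB2_641

/-!
# Row 105, S0139, ATTP, first half of leaf `C2P` (helper86): compactly supported near minimisers
by the logarithmic cut-off at infinity
-/

set_option autoImplicit false

open MeasureTheory Set Filter Topology Metric Bornology
open scoped ContDiff NNReal

namespace Crest.Agent.R105.C2c_86

open Crest.Agent.R105.IfB_641
open Crest.Agent.R105.Bd_775 (en en_nonneg gx_mul gy_mul di_self di_self_nonneg)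

variable {C : Set ℂ} {S : Set (ℂ → ℝ)} {x0 φ : ℂ → ℝ}

/-- weighted product rule -/
theorem en_mul_le_t {χ φ : ℂ → ℝ} {z : ℂ} (hχ : DifferentiableAt ℝ χ z)
    (hφ : DifferentiableAt ℝ φ z) {s M : ℝ} (hs : 0 < s) (h1 : |χ z| ≤ 1) (hM : |φ z| ≤ M) :
    en (fun w => χ w * φ w) z ≤ (1 + s) * en φ z + (1 + 1 / s) * M ^ 2 * en χ z := by
  unfold en
  rw [gx_mul hχ hφ, gy_mul hχ hφ]
  have h2 : χ z ^ 2 ≤ 1 := by
    rw [← sq_abs]; exact pow_le_one₀ (abs_nonneg _) h1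
  have h3 : φ z ^ 2 ≤ M ^ 2 := by
    rw [← sq_abs]; exact pow_le_pow_left₀ (abs_nonneg _) hM 2
  have key : ∀ a b : ℝ, (χ z * a + φ z * b) ^ 2 ≤ (1 + s) * a ^ 2 + (1 + 1 / s) * M ^ 2 * b ^ 2 := by
    intro a b
    have e1 : (1 + s) * (χ z * a) ^ 2 + (1 + 1 / s) * (φ z * b) ^ 2 - (χ z * a + φ z * b) ^ 2
        = (s * (χ z * a) - φ z * b) ^ 2 / s := by
      field_simp; ring
    have e2 : 0 ≤ (s * (χ z * a) - φ z * b) ^ 2 / s := by positivity
    have e3 : (χ z * a) ^ 2 ≤ a ^ 2 := by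
      rw [mul_pow]; nlinarith [sq_nonneg a]
    have e4 : (φ z * b) ^ 2 ≤ M ^ 2 * b ^ 2 := by
      rw [mul_pow]; exact mul_le_mul_of_nonneg_right h3 (sq_nonneg b)
    have e5 : (1 + s) * (χ z * a) ^ 2 ≤ (1 + s) * a ^ 2 := mul_le_mul_of_nonneg_left e3 (by positivity)
    have e6 : (1 + 1 / s) * (φ z * b) ^ 2 ≤ (1 + 1 / s) * (M ^ 2 * b ^ 2) :=
      mul_le_mul_of_nonneg_left e4 (by positivity)
    nlinarith
  have k1 := key (Bd_775.gx φ z) (Bd_775.gx χ z)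
  have k2 := key (Bd_775.gy φ z) (Bd_775.gy χ z)
  nlinarith


end Crest.Agent.R105.C2c_86
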