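import Mathlib
import Crest.Prelude.Def_CircleDomain
import Crest.Agent.Lib.InjHolo

-- ▼ part R105/Red1_828
section

/-!
# Row 105 (S0138, S0139): first reductions (helper828)

* `exists_expansion` : `f z = a z + b + O(1/z)` with `a ≠ 0`;
* `exteriorDomain_image` : the image of an exterior domain is an exterior domain;
-/

set_option autoImplicit false

open Set Filter Metric Topology Bornology
open Crest.AnalysisR

namespace Crest.Agent.R105.Red_828

/-- `1 / f (1 / w)` with value `0` at `0`. -/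
noncomputable def inv8 (f : ℂ → ℂ) (w : ℂ) : ℂ := if w = 0 then 0 else (f w⁻¹)⁻¹

theorem inv8_zero (f : ℂ → ℂ) : inv8 f 0 = 0 := by simp [inv8]

theorem inv8_of_ne (f : ℂ → ℂ) {w : ℂ} (hw : w ≠ 0) : inv8 f w = (f w⁻¹)⁻¹ := by simp [inv8, hw]

/-- a radius outside which everything is in `U` and `f` is large -/
theorem exists_radius {U : Set ℂ} (hU : IsExteriorDomain U) {f : ℂ → ℂ}
    (hinf : Tendsto f (cocompact ℂ) (cocompact ℂ)) (M : ℝ) :
    ∃ R : ℝ, 0 < R ∧ ∀ z : ℂ, R < ‖z‖ → z ∈ U ∧ M < ‖f z‖ := by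
  obtain ⟨R0, hR0⟩ := hU.2.2
  have h1 : ∀ᶠ z in cocompact ℂ, M < ‖f z‖ := by
    have h2 : Tendsto (fun z => ‖f z‖) (cocompact ℂ) atTop :=
      (tendsto_norm_cocompact_atTop (E := ℂ)).comp hinf
    exact h2.eventually_gt_atTop M
  rw [← cobounded_eq_cocompact] at h1
  obtain ⟨R1, -, hR1⟩ := (hasBasis_cobounded_norm (E := ℂ)).mem_iff.1 h1
  refine ⟨max (max R0 R1) 1, by positivity, fun z hz => ⟨hR0 z ?_, hR1 ?_⟩⟩
  · exact lt_of_le_of_lt (le_trans (le_max_left _ _) (le_max_left _ _)) hz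
  · exact le_of_lt (lt_of_le_of_lt (le_trans (le_max_right _ _) (le_max_left _ _)) hz)

/-- The local coordinate at infinity is holomorphic and injective near `0`. -/
theorem inv8_spec {U : Set ℂ} (hU : IsExteriorDomain U) {f : ℂ → ℂ}
    (hf : DifferentiableOn ℂ f U) (hinj : InjOn f U)
    (hinf : Tendsto f (cocompact ℂ) (cocompact ℂ)) :
    ∃ r : ℝ, 0 < r ∧ DifferentiableOn ℂ (inv8 f) (ball 0 r) ∧ InjOn (inv8 f) (ball 0 r) ∧
      ∀ w ∈ ball (0 : ℂ) r, w ≠ 0 → w⁻¹ ∈ U ∧ f w⁻¹ ≠ 0 := by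
  obtain ⟨R, hR, h⟩ := exists_radius hU hinf 0
  have hr : 0 < R⁻¹ := inv_pos.2 hR
  have key : ∀ w ∈ ball (0 : ℂ) R⁻¹, w ≠ 0 → w⁻¹ ∈ U ∧ f w⁻¹ ≠ 0 := by
    intro w hw hw0
    rw [mem_ball_zero_iff] at hw
    have h1 : R < ‖w⁻¹‖ := by
      rw [norm_inv]
      exact (lt_inv_comm₀ hR (norm_pos_iff.2 hw0)).2 hw
    exact ⟨(h _ h1).1, norm_pos_iff.1 (h _ h1).2⟩
  refine ⟨R⁻¹, hr, ?_, ?_, key⟩
  · have hcont : ContinuousAt (inv8 f) 0 := by
      rw [continuousAt_iff_punctured_nhds, inv8_zero]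
      have h2 : Tendsto (fun w : ℂ => (f w⁻¹)⁻¹) (𝓝[≠] 0) (𝓝 0) := by
        have h3 : Tendsto (fun w : ℂ => w⁻¹) (𝓝[≠] 0) (cocompact ℂ) := by
          rw [← cobounded_eq_cocompact]
          exact tendsto_inv₀_nhdsNE_zero
        have h4 : Tendsto (fun w : ℂ => w⁻¹) (cocompact ℂ) (𝓝 0) := by
          rw [← cobounded_eq_cocompact]
          exact tendsto_inv₀_cobounded
        exact h4.comp (hinf.comp h3)
      refine h2.congr' ?_
      filter_upwards [self_mem_nhdsWithin] with w hw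
      exact (inv8_of_ne f hw).symm
    refine (Complex.differentiableOn_compl_singleton_and_continuousAt_iff
      (ball_mem_nhds (0 : ℂ) hr)).1 ⟨?_, hcont⟩
    have h5 : DifferentiableOn ℂ (fun w : ℂ => (f w⁻¹)⁻¹) (ball 0 R⁻¹ \ {0}) := by
      refine DifferentiableOn.inv ?_ (fun w hw => (key w hw.1 hw.2).2)
      refine hf.comp (differentiableOn_id.inv fun w hw => hw.2) ?_
      intro w hw
      exact (key w hw.1 hw.2).1
    exact h5.congr fun w hw => inv8_of_ne f hw.2
  · intro w hw v hv hwv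
    by_cases hw0 : w = 0
    · by_cases hv0 : v = 0
      · rw [hw0, hv0]
      · exfalso
        rw [hw0, inv8_zero, inv8_of_ne f hv0] at hwv
        exact (inv_ne_zero (key v hv hv0).2) hwv.symm
    · by_cases hv0 : v = 0
      · exfalso
        rw [hv0, inv8_zero, inv8_of_ne f hw0] at hwv
        exact (inv_ne_zero (key w hw hw0).2) hwv
      · rw [inv8_of_ne f hw0, inv8_of_ne f hv0] at hwv
        exact inv_injective (hinj (key w hw hw0).1 (key v hv hv0).1 (inv_injective hwv))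

/-- Expansion at infinity: `f z = a z + b + O(1/z)`. -/
theorem exists_expansion {U : Set ℂ} (hU : IsExteriorDomain U) {f : ℂ → ℂ}
    (hf : DifferentiableOn ℂ f U) (hinj : InjOn f U)
    (hinf : Tendsto f (cocompact ℂ) (cocompact ℂ)) :
    ∃ a b : ℂ, a ≠ 0 ∧ ∃ C R : ℝ, 0 < R ∧ ∀ z : ℂ, R < ‖z‖ →
      z ∈ U ∧ ‖f z - (a * z + b)‖ ≤ C / ‖z‖ := by
  obtain ⟨r, hr, hd, hi, hk⟩ := inv8_spec hU hf hinj hinf
  have hd0 : deriv (inv8 f) 0 ≠ 0 :=
    Crest.Agent.Lib.deriv_ne_zero_of_injOn isOpen_ball hd hi (mem_ball_self hr)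
  -- `h w = inv8 f w / w`, `h 0 = deriv`
  have hslope : DifferentiableOn ℂ (dslope (inv8 f) 0) (ball 0 r) :=
    (Complex.differentiableOn_dslope (ball_mem_nhds (0 : ℂ) hr)).2 hd
  have hne : ∀ w ∈ ball (0 : ℂ) r, dslope (inv8 f) 0 w ≠ 0 := by
    intro w hw
    by_cases hw0 : w = 0
    · rw [hw0, dslope_same]; exact hd0
    · rw [dslope_of_ne _ hw0, slope_def_field, inv8_zero, sub_zero, sub_zero, inv8_of_ne f hw0]
      exact div_ne_zero (inv_ne_zero (hk w hw hw0).2) hw0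
  have hA : AnalyticAt ℂ (fun w => (dslope (inv8 f) 0 w)⁻¹) 0 :=
    (hslope.inv hne).analyticAt (ball_mem_nhds (0 : ℂ) hr)
  -- second slope
  set q : ℂ → ℂ := fun w => (dslope (inv8 f) 0 w)⁻¹ with hq
  have hqd : DifferentiableOn ℂ q (ball 0 r) := hslope.inv hne
  have hq1 : DifferentiableOn ℂ (dslope q 0) (ball 0 r) :=
    (Complex.differentiableOn_dslope (ball_mem_nhds (0 : ℂ) hr)).2 hqd
  have hq2 : DifferentiableOn ℂ (dslope (dslope q 0) 0) (ball 0 r) :=
    (Complex.differentiableOn_dslope (ball_mem_nhds (0 : ℂ) hr)).2 hq1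
  have hcq : ContinuousAt (dslope (dslope q 0) 0) 0 :=
    (hq2.differentiableAt (ball_mem_nhds (0 : ℂ) hr)).continuousAt
  obtain ⟨δ, hδ, hb⟩ := Metric.continuousAt_iff.1 hcq 1 one_pos
  set M : ℝ := ‖dslope (dslope q 0) 0 0‖ + 1 with hM
  have hρ : 0 < min δ r := lt_min hδ hr
  refine ⟨q 0, dslope q 0 0, ?_, M, (min δ r)⁻¹, inv_pos.2 hρ, ?_⟩
  · exact inv_ne_zero (hne 0 (mem_ball_self hr))
  · intro z hz
    have hz0 : 0 < ‖z‖ := lt_trans (inv_pos.2 hρ) hz
    have hzne : z ≠ 0 := norm_pos_iff.1 hz0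
    set w : ℂ := z⁻¹ with hw
    have hwne : w ≠ 0 := inv_ne_zero hzne
    have hwn : ‖w‖ < min δ r := by
      rw [hw, norm_inv]
      exact (inv_lt_comm₀ hρ hz0).1 hz
    have hwr : w ∈ ball (0 : ℂ) r := by
      rw [mem_ball_zero_iff]; exact lt_of_lt_of_le hwn (min_le_right _ _)
    have hzw : w⁻¹ = z := by rw [hw, inv_inv]
    have hfz : f z = q w * z := by
      have h1 : q w = (inv8 f w / w)⁻¹ := by
        rw [hq]
        simp only
        rw [dslope_of_ne _ hwne, slope_def_field, inv8_zero, sub_zero, sub_zero]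
      rw [h1, inv8_of_ne f hwne, hzw, inv_div, ← hzw]
      field_simp
    have hexp : q w = q 0 + w * dslope q 0 0 + w ^ 2 * dslope (dslope q 0) 0 w := by
      have e1 : dslope q 0 w = (q w - q 0) / w := by
        rw [dslope_of_ne _ hwne, slope_def_field, sub_zero]
      have e2 : dslope (dslope q 0) 0 w = (dslope q 0 w - dslope q 0 0) / w := by
        rw [dslope_of_ne _ hwne, slope_def_field, sub_zero]
      rw [e2, e1]
      field_simp
      ring
    refine ⟨hzw ▸ (hk w hwr hwne).1, ?_⟩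
    have hdiff : f z - (q 0 * z + dslope q 0 0) = w * dslope (dslope q 0) 0 w := by
      rw [hfz, hexp, ← hzw]
      field_simp
      ring
    rw [hdiff, norm_mul, hw, norm_inv, div_eq_inv_mul]
    refine mul_le_mul_of_nonneg_left ?_ (by positivity)
    have h6 : dist w 0 < δ := by
      rw [dist_zero_right]; exact lt_of_lt_of_le hwn (min_le_left _ _)
    have h7 := hb h6
    rw [dist_eq_norm] at h7
    have h8 := norm_sub_norm_le (dslope (dslope q 0) 0 w) (dslope (dslope q 0) 0 0)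
    rw [← hw]
    linarith

end Crest.Agent.R105.Red_828
end

-- ▼ part R105/Red2_828

/-!
# Row 105 (S0138, S0139): first reductions, part 2 (helper828)

* `exteriorDomain_image` : the image of an exterior domain under an injective holomorphic map
  tending to infinity at infinity is an exterior domain;
* `s0138_of` , `s0139_of` : the two statements from their normalised forms (`f z - z → 0`);
* `interior_compl_eq`, `compl_frontier_eq` : what `(frontier U)ᶜ` is for a circle domain.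
-/

set_option autoImplicit false

open Set Filter Metric Topology Bornology
open Crest.AnalysisR

namespace Crest.Agent.R105.Red_828

theorem exteriorDomain_image {U : Set ℂ} (hU : IsExteriorDomain U) {f : ℂ → ℂ}
    (hf : DifferentiableOn ℂ f U) (hinj : InjOn f U)
    (hinf : Tendsto f (cocompact ℂ) (cocompact ℂ)) : IsExteriorDomain (f '' U) := by
  refine ⟨Crest.Agent.Lib.isOpen_image_of_injOn hU.1 hf hinj,
    hU.2.1.image f hf.continuousOn, ?_⟩
  obtain ⟨r, hr, hd, hi, hk⟩ := inv8_spec hU hf hinj hinf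
  have hopen : IsOpen (inv8 f '' ball 0 r) :=
    Crest.Agent.Lib.isOpen_image_of_injOn isOpen_ball hd hi
  have h0 : (0 : ℂ) ∈ inv8 f '' ball 0 r := ⟨0, mem_ball_self hr, inv8_zero f⟩
  obtain ⟨ρ, hρ, hb⟩ := Metric.isOpen_iff.1 hopen 0 h0
  refine ⟨ρ⁻¹, fun w hw => ?_⟩
  have hw0 : 0 < ‖w‖ := lt_trans (inv_pos.2 hρ) hw
  have hwne : w ≠ 0 := norm_pos_iff.1 hw0
  have hwb : w⁻¹ ∈ ball (0 : ℂ) ρ := by
    rw [mem_ball_zero_iff, norm_inv]
    exact (inv_lt_comm₀ hρ hw0).1 hw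
  obtain ⟨v, hv, hvw⟩ := hb hwb
  have hvne : v ≠ 0 := by
    rintro rfl
    rw [inv8_zero] at hvw
    exact (inv_ne_zero hwne) hvw.symm
  rw [inv8_of_ne f hvne] at hvw
  exact ⟨v⁻¹, (hk v hv hvne).1, inv_injective hvw⟩

/-- a function at bounded distance from the identity near infinity tends to infinity -/
theorem tendsto_cocompact_of_bdd {g : ℂ → ℂ} {C R : ℝ}
    (h : ∀ z : ℂ, R < ‖z‖ → ‖g z - z‖ ≤ C) : Tendsto g (cocompact ℂ) (cocompact ℂ) := by
  rw [← cobounded_eq_cocompact, ← tendsto_norm_atTop_iff_cobounded]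
  have h1 : Tendsto (fun z : ℂ => ‖z‖ - C) (cobounded ℂ) atTop :=
    tendsto_atTop_add_const_right _ (-C) tendsto_norm_cobounded_atTop
  refine tendsto_atTop_mono' _ ?_ h1
  have h2 : ∀ᶠ z : ℂ in cobounded ℂ, R < ‖z‖ :=
    tendsto_norm_cobounded_atTop.eventually_gt_atTop R
  filter_upwards [h2] with z hz
  have h3 := h z hz
  have h4 := norm_sub_norm_le z (g z)
  rw [norm_sub_rev] at h4
  linarith

theorem tendsto_cocompact_of_tendsto_sub {g : ℂ → ℂ} {c : ℂ}
    (h : Tendsto (fun z => g z - z) (cocompact ℂ) (𝓝 c)) :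
    Tendsto g (cocompact ℂ) (cocompact ℂ) := by
  have h1 : ∀ᶠ z in cocompact ℂ, ‖g z - z‖ ≤ ‖c‖ + 1 := by
    have := h.norm.eventually (gt_mem_nhds (lt_add_one ‖c‖))
    filter_upwards [this] with z hz using hz.le
  rw [← cobounded_eq_cocompact] at h1
  obtain ⟨R, -, hR⟩ := (hasBasis_cobounded_norm (E := ℂ)).mem_iff.1 h1
  exact tendsto_cocompact_of_bdd (C := ‖c‖ + 1) (R := R) fun z hz => hR hz.le


/-- affine maps preserve circle domains -/
theorem circleDomain_affine {V : Set ℂ} (hV : IsCircleDomainFinitePart V) {a : ℂ} (ha : a ≠ 0)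
    (b : ℂ) : IsCircleDomainFinitePart ((fun w => a * w + b) '' V) := by
  set e : ℂ ≃ₜ ℂ := (Homeomorph.mulLeft₀ a ha).trans (Homeomorph.addRight b) with he
  have hev : ∀ w, e w = a * w + b := fun w => rfl
  have hdiff : DifferentiableOn ℂ (fun w : ℂ => a * w + b) V := by fun_prop
  have hinj : InjOn (fun w : ℂ => a * w + b) V := fun x _ y _ h => e.injective h
  have hinf : Tendsto (fun w : ℂ => a * w + b) (cocompact ℂ) (cocompact ℂ) :=
    e.isClosedEmbedding.tendsto_cocompact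
  refine ⟨exteriorDomain_image hV.1 hdiff hinj hinf, fun z hz => ?_⟩
  have hcompl : ((fun w => a * w + b) '' V)ᶜ = e '' Vᶜ := by
    rw [image_compl_eq e.bijective]; rfl
  have hz1 : z ∈ e '' Vᶜ := by rw [← hcompl]; exact hz
  obtain ⟨w, hw, rfl⟩ := hz1
  obtain ⟨c, r, hr, hc⟩ := hV.2 w hw
  refine ⟨a * c + b, ‖a‖ * r, by positivity, ?_⟩
  rw [hcompl]
  have h1 : e '' connectedComponentIn Vᶜ w = connectedComponentIn (e '' Vᶜ) (e w) :=
    e.image_connectedComponentIn hw
  rw [← h1, hc]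
  ext x
  constructor
  · rintro ⟨y, hy, rfl⟩
    rw [mem_closedBall, dist_eq_norm] at hy ⊢
    rw [hev]
    have : a * y + b - (a * c + b) = a * (y - c) := by ring
    rw [this, norm_mul]
    exact mul_le_mul_of_nonneg_left hy (norm_nonneg _)
  · intro hx
    refine ⟨(x - b) / a, ?_, ?_⟩
    · rw [mem_closedBall, dist_eq_norm] at hx ⊢
      have : (x - b) / a - c = (x - (a * c + b)) / a := by
        field_simp
        ring
      rw [this, norm_div]
      exact (div_le_iff₀' (norm_pos_iff.2 ha)).2 hx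
    · rw [hev]
      field_simp
      ring

/-- **S0139 from its normalised form** (`f z - z → 0` at infinity, conclusion `f = id` on `U`). -/
theorem s0139_of
    (H : ∀ U V : Set ℂ, IsCircleDomainFinitePart U → IsCircleDomainFinitePart V →
      IsConformallyRemovable (frontier U) → ∀ f : ℂ → ℂ, DifferentiableOn ℂ f U → InjOn f U →
      f '' U = V → Tendsto (fun z => f z - z) (cocompact ℂ) (𝓝 0) → ∀ z ∈ U, f z = z)
    (U V : Set ℂ) (hU : Crest.AnalysisR.IsCircleDomainFinitePart U)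
    (hV : Crest.AnalysisR.IsCircleDomainFinitePart V)
    (hE : Crest.AnalysisR.IsConformallyRemovable (frontier U)) (f : ℂ → ℂ)
    (hf : DifferentiableOn ℂ f U) (hinj : Set.InjOn f U) (hsurj : f '' U = V)
    (hinf : Filter.Tendsto f (Filter.cocompact ℂ) (Filter.cocompact ℂ)) :
    ∃ a b : ℂ, a ≠ 0 ∧ ∀ z ∈ U, f z = a * z + b := by
  obtain ⟨a, b, ha, C, R, hR, hexp⟩ := exists_expansion hU.1 hf hinj hinf
  refine ⟨a, b, ha, ?_⟩
  have hainv : a⁻¹ ≠ 0 := inv_ne_zero ha
  set g : ℂ → ℂ := fun z => a⁻¹ * f z + (-(a⁻¹ * b)) with hg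
  have hgV : g '' U = (fun w => a⁻¹ * w + (-(a⁻¹ * b))) '' V := by
    rw [← hsurj, image_image]
  have hV1 : IsCircleDomainFinitePart (g '' U) := hgV ▸ circleDomain_affine hV hainv _
  have hgd : DifferentiableOn ℂ g U := (hf.const_mul _).add_const _
  have hgi : InjOn g U := by
    intro x hx y hy hxy
    refine hinj hx hy ?_
    have h1 : a⁻¹ * f x = a⁻¹ * f y := add_right_cancel hxy
    exact mul_left_cancel₀ hainv h1
  have hgt : Tendsto (fun z => g z - z) (cocompact ℂ) (𝓝 0) := by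
    have h1 : Tendsto (fun z : ℂ => ‖a⁻¹‖ * (C / ‖z‖)) (cocompact ℂ) (𝓝 0) := by
      have h2 : Tendsto (fun z : ℂ => C / ‖z‖) (cocompact ℂ) (𝓝 0) :=
        (tendsto_norm_cocompact_atTop (E := ℂ)).const_div_atTop C
      simpa using h2.const_mul ‖a⁻¹‖
    refine squeeze_zero_norm' ?_ h1
    have h3 : ∀ᶠ z : ℂ in cocompact ℂ, R < ‖z‖ :=
      (tendsto_norm_cocompact_atTop (E := ℂ)).eventually_gt_atTop R
    filter_upwards [h3] with z hz
    have h4 := (hexp z hz).2
    have h5 : g z - z = a⁻¹ * (f z - (a * z + b)) := by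
      rw [hg]
      field_simp
      ring
    rw [h5, norm_mul]
    exact mul_le_mul_of_nonneg_left h4 (norm_nonneg _)
  have h := H U (g '' U) hU hV1 hE g hgd hgi rfl hgt
  intro z hz
  have h1 := h z hz
  rw [hg] at h1
  simp only at h1
  have h2 : f z = a * (a⁻¹ * f z + (-(a⁻¹ * b))) + b := by
    field_simp
    ring
  rw [h2, h1]




end Crest.Agent.R105.Red_828
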