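import Crest.Agent.R105.Sqr1_185
import Crest.Agent.R105.Top1_8
import Crest.Agent.R105.Tc1_808
import Crest.Agent.R105.Tra3_937
import Mathlib
import Crest.Agent.R193.Planar2
import Crest.Agent.R105.Thin1_12

-- ▼ part R105/Sqr2_185
section

/-!
# R105 SQR (2): the test function `θ(x)` above `K` and `b = const` (helper185)
-/

set_option autoImplicit false

open Set Filter Topology MeasureTheory Metric
open scoped ContDiff

namespace Crest.Agent.R105.Sqr_185

/-- the test function: `θ(x)` above `K`, `0` elsewhere -/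
noncomputable def up (K : Set ℂ) (θ : ℝ → ℝ) : ℂ → ℝ := (above K).indicator (fun p => θ p.re)

lemma up_of_above {K : Set ℂ} {θ : ℝ → ℝ} {p : ℂ} (h : p ∈ above K) : up K θ p = θ p.re :=
  indicator_of_mem h _

lemma up_of_not {K : Set ℂ} {θ : ℝ → ℝ} {p : ℂ} (h : p ∉ above K) : up K θ p = 0 :=
  indicator_of_notMem h _

lemma up_mem {K : Set ℂ} {θ : ℝ → ℝ} (p : ℂ) : up K θ p = θ p.re ∨ up K θ p = 0 := by
  by_cases h : p ∈ above K
  · exact Or.inl (up_of_above h)
  · exact Or.inr (up_of_not h)

lemma up_of_below {K : Set ℂ} {θ : ℝ → ℝ} {al be : ℝ}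
    (hne : ∀ t ∈ Ioo al be, (sec K t).Nonempty) (hθ : tsupport θ ⊆ Ioo al be) {p : ℂ}
    (h : p ∈ below K) : up K θ p = 0 := by
  by_cases hp : p.re ∈ Ioo al be
  · exact up_of_not (fun h1 => above_disjoint_below (hne p.re hp) h1 h)
  · rcases up_mem (K := K) (θ := θ) p with h1 | h1
    · rw [h1]
      exact image_eq_zero_of_notMem_tsupport (fun hc => hp (hθ hc))
    · exact h1

/-- off `K` the test function is locally either `θ ∘ re` or `0` -/
lemma up_local {K : Set ℂ} (hK : IsCompact K) (hs : ∀ t, OrdConnected (sec K t))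
    {θ : ℝ → ℝ} {al be : ℝ}
    (hne : ∀ t ∈ Ioo al be, (sec K t).Nonempty) (hθ : tsupport θ ⊆ Ioo al be) {p : ℂ}
    (hp : p ∉ K) :
    (p ∈ above K ∧ ∀ᶠ q in 𝓝 p, up K θ q = θ q.re) ∨ (p ∈ below K ∧ ∀ᶠ q in 𝓝 p, up K θ q = 0) := by
  rcases above_or_below hs hp with h | h
  · left
    refine ⟨h, ?_⟩
    filter_upwards [(isOpen_above hK).mem_nhds h] with q hq using up_of_above hq
  · right
    refine ⟨h, ?_⟩
    filter_upwards [(isOpen_below hK).mem_nhds h] with q hq using up_of_below hne hθ hq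

lemma contDiffAt_up {K : Set ℂ} (hK : IsCompact K) (hs : ∀ t, OrdConnected (sec K t))
    {θ : ℝ → ℝ} {al be : ℝ} {n : WithTop ℕ∞}
    (hne : ∀ t ∈ Ioo al be, (sec K t).Nonempty) (hθ : tsupport θ ⊆ Ioo al be)
    (hθs : ContDiff ℝ n θ) {p : ℂ} (hp : p ∉ K) : ContDiffAt ℝ n (up K θ) p := by
  rcases up_local hK hs hne hθ hp with ⟨_, h⟩ | ⟨_, h⟩
  · refine ContDiffAt.congr_of_eventuallyEq ?_ h
    exact (hθs.comp Complex.reCLM.contDiff).contDiffAt
  · exact ContDiffAt.congr_of_eventuallyEq contDiffAt_const h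

/-- the gradient of the test function off `K` -/
lemma fderiv_up {K : Set ℂ} (hK : IsCompact K) (hs : ∀ t, OrdConnected (sec K t))
    {θ : ℝ → ℝ} {al be : ℝ}
    (hne : ∀ t ∈ Ioo al be, (sec K t).Nonempty) (hθ : tsupport θ ⊆ Ioo al be)
    (hθd : Differentiable ℝ θ) {p : ℂ} (hp : p ∉ K) :
    fderiv ℝ (up K θ) p = (above K).indicator (fun q => deriv θ q.re • Complex.reCLM) p := by
  rcases up_local hK hs hne hθ hp with ⟨h0, h⟩ | ⟨h0, h⟩
  · rw [indicator_of_mem h0, Filter.EventuallyEq.fderiv_eq h]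
    have h1 : HasFDerivAt (fun q : ℂ => θ q.re) (deriv θ p.re • Complex.reCLM) p := by
      have h2 : HasDerivAt θ (deriv θ p.re) p.re := (hθd p.re).hasDerivAt
      exact h2.comp_hasFDerivAt p Complex.reCLM.hasFDerivAt
    exact h1.fderiv
  · have h3 : fderiv ℝ (up K θ) p = 0 := by
      rw [Filter.EventuallyEq.fderiv_eq (f := fun _ => (0 : ℝ)) h]
      simp
    rw [h3]
    by_cases hpa : p ∈ above K
    · rw [indicator_of_mem hpa]
      by_cases hp' : p.re ∈ Ioo al be
      · exact absurd h0 (fun h0 => above_disjoint_below (hne p.re hp') hpa h0)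
      · have h4 : deriv θ p.re = 0 := by
          have : p.re ∉ tsupport (deriv θ) := fun hc => hp' (hθ (tsupport_deriv_subset hc))
          exact image_eq_zero_of_notMem_tsupport this
        rw [h4, zero_smul]
    · rw [indicator_of_notMem hpa]

/-- on a component (or any connected compact set with interval sections) `L` disjoint from `K`
the test function is `θ ∘ re` or `0` throughout, and also near `L`. -/
theorem up_on_disjoint {K L : Set ℂ} (hK : IsCompact K) (hKs : ∀ t, OrdConnected (sec K t))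
    (hL : IsCompact L) (hLc : IsPreconnected L) (hLs : ∀ t, OrdConnected (sec L t))
    (hd : Disjoint K L) {θ : ℝ → ℝ} {al be : ℝ}
    (hne : ∀ t ∈ Ioo al be, (sec K t).Nonempty) (hθ : tsupport θ ⊆ Ioo al be) :
    (L ∩ Complex.re ⁻¹' (Ioo al be) ⊆ above K ∧ ∀ p ∈ L, ∀ᶠ q in 𝓝 p, up K θ q = θ q.re) ∨
    (L ∩ Complex.re ⁻¹' (Ioo al be) ⊆ below K ∧ ∀ p ∈ L, ∀ᶠ q in 𝓝 p, up K θ q = 0) := by
  have hout : ∀ p : ℂ, p.re ∉ Ioo al be → ∀ᶠ q in 𝓝 p, θ q.re = 0 := by
    intro p hp
    have h1 : p.re ∉ tsupport θ := fun hc => hp (hθ hc)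
    have h2 : ∀ᶠ r in 𝓝 p.re, θ r = 0 := by
      have := notMem_tsupport_iff_eventuallyEq.1 h1
      filter_upwards [this] with r hr using hr
    exact (Complex.continuous_re.tendsto p).eventually h2
  rcases side_of_disjoint hK hKs hL hLc hLs hd ordConnected_Ioo hne with h | h
  · left
    refine ⟨h, fun p hp => ?_⟩
    by_cases hpr : p.re ∈ Ioo al be
    · filter_upwards [(isOpen_above hK).mem_nhds (h ⟨hp, hpr⟩)] with q hq using up_of_above hq
    · filter_upwards [hout p hpr] with q hq
      rcases up_mem (K := K) (θ := θ) q with h1 | h1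
      · exact h1
      · rw [h1, hq]
  · right
    refine ⟨h, fun p hp => ?_⟩
    by_cases hpr : p.re ∈ Ioo al be
    · filter_upwards [(isOpen_below hK).mem_nhds (h ⟨hp, hpr⟩)] with q hq using
        up_of_below hne hθ hq
    · filter_upwards [hout p hpr] with q hq
      rcases up_mem (K := K) (θ := θ) q with h1 | h1
      · rw [h1, hq]
      · exact h1

/-- **du Bois-Reymond.** -/
theorem const_of_deriv {al be : ℝ} (hab : al < be) {f : ℝ → ℝ}
    (hf : IntegrableOn f (Ioo al be))
    (h : ∀ θ : ℝ → ℝ, ContDiff ℝ ∞ θ → HasCompactSupport θ → tsupport θ ⊆ Ioo al be →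
      ∫ t in Ioo al be, deriv θ t * f t = 0) :
    ∃ c : ℝ, ∀ᵐ t ∂(volume.restrict (Ioo al be)), f t = c := by
  -- a bump with integral one
  set m := (al + be) / 2 with hm
  have hball : closedBall m ((be - al) / 4) ⊆ Ioo al be := by
    intro t ht
    rw [Real.closedBall_eq_Icc] at ht
    constructor <;> [linarith [ht.1]; linarith [ht.2]]
  let η0 : ContDiffBump m := ⟨(be - al) / 8, (be - al) / 4, by linarith, by linarith⟩
  set η : ℝ → ℝ := η0.normed volume with hη
  have hηs : ContDiff ℝ ∞ η := η0.contDiff_normed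
  have hηt : tsupport η ⊆ Ioo al be := by
    rw [hη, η0.tsupport_normed_eq]
    exact hball
  have hηc : HasCompactSupport η := η0.hasCompactSupport_normed
  have hηi : ∫ t, η t = 1 := η0.integral_normed
  set c := ∫ t in Ioo al be, η t * f t with hc
  refine ⟨c, ?_⟩
  have hcont : ∀ g : ℝ → ℝ, ContDiff ℝ ∞ g → HasCompactSupport g → tsupport g ⊆ Ioo al be →
      ∫ t, g t = 0 → ∫ t in Ioo al be, g t * f t = 0 := by
    intro g hg hgc hgt hgi
    -- primitive
    set θ : ℝ → ℝ := fun x => ∫ t in al..x, g t with hθ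
    have hgcont : Continuous g := hg.continuous
    have hder : ∀ x, HasDerivAt θ (g x) x := fun x =>
      intervalIntegral.integral_hasDerivAt_right (hgcont.intervalIntegrable _ _)
        (hgcont.stronglyMeasurableAtFilter _ _) hgcont.continuousAt
    have hderiv : deriv θ = g := by
      ext x
      exact (hder x).deriv
    have hθs : ContDiff ℝ ∞ θ := by
      rw [contDiff_infty_iff_deriv] 
      · refine ⟨fun x => (hder x).differentiableAt, ?_⟩
        rw [hderiv]
        exact hg
    -- support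
    obtain ⟨a', b', ha', hb', hsub⟩ : ∃ a' b' : ℝ, al < a' ∧ b' < be ∧ tsupport g ⊆ Icc a' b' := by
      rcases (tsupport g).eq_empty_or_nonempty with he | hne
      · exact ⟨m, m, by rw [hm]; linarith, by rw [hm]; linarith, by rw [he]; exact empty_subset _⟩
      · have hcpt : IsCompact (tsupport g) := hgc
        obtain ⟨x1, hx1, h1⟩ := hcpt.exists_isLeast hne
        obtain ⟨x2, hx2, h2⟩ := hcpt.exists_isGreatest hne
        exact ⟨x1, x2, (hgt hx1).1, (hgt hx2).2, fun y hy => ⟨h1 hy, h2 hy⟩⟩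
    have hg0 : ∀ x, x ∉ Icc a' b' → g x = 0 := fun x hx =>
      image_eq_zero_of_notMem_tsupport (fun hc => hx (hsub hc))
    have hgI : Integrable g := hgcont.integrable_of_hasCompactSupport hgc
    have hθl : ∀ x, x < a' → θ x = 0 := by
      intro x hx
      have : ∀ t ∈ uIcc al x, g t = 0 := by
        intro t ht
        apply hg0
        intro hc
        have : t < a' := by
          rcases le_total al x with h' | h'
          · rw [uIcc_of_le h'] at ht; linarith [ht.2]
          · rw [uIcc_of_ge h'] at ht; linarith [ht.2]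
        linarith [hc.1]
      rw [hθ]
      simp only
      rw [intervalIntegral.integral_congr (g := fun _ => (0 : ℝ)) this]
      simp
    have hθr : ∀ x, b' < x → θ x = 0 := by
      intro x hx
      have h1 : ∫ t, g t = ∫ t in al..x, g t := by
        by_cases hax : al ≤ x
        · rw [intervalIntegral.integral_of_le hax]
          symm
          apply setIntegral_eq_integral_of_forall_compl_eq_zero
          intro t ht
          apply hg0
          intro hc
          exact ht ⟨by linarith [hc.1], by linarith [hc.2]⟩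
        · -- then x < al < a', and b' < x < a' so Icc empty, g = 0
          have hz : ∀ t, g t = 0 := by
            intro t
            apply hg0
            intro hc
            linarith [hc.1, hc.2]
          have h2 : g = fun _ => 0 := funext hz
          rw [h2]
          simp
      rw [hθ]
      simp only
      rw [← h1, hgi]
    have hθts : tsupport θ ⊆ Icc a' b' := by
      refine closure_minimal ?_ isClosed_Icc
      intro x hx
      rw [Function.mem_support] at hx
      by_contra hcon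
      rw [mem_Icc, not_and_or, not_le, not_le] at hcon
      rcases hcon with h' | h'
      · exact hx (hθl x h')
      · exact hx (hθr x h')
    have hθc : HasCompactSupport θ := HasCompactSupport.of_support_subset_isCompact isCompact_Icc
      ((subset_tsupport θ).trans hθts)
    have := h θ hθs hθc (hθts.trans (Icc_subset_Ioo ha' hb'))
    rw [hderiv] at this
    exact this
  -- for all g : ∫ g (f - c) = 0
  have hae := (isOpen_Ioo (a := al) (b := be)).ae_eq_zero_of_integral_contDiff_smul_eq_zero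
    (f := fun t => f t - c) (μ := volume) ?_ ?_
  · rw [ae_restrict_iff' measurableSet_Ioo]
    filter_upwards [hae] with t ht hmem
    have := ht hmem
    linarith [this]
  · have h1 : IntegrableOn (fun t => f t - c) (Ioo al be) :=
      hf.sub (integrableOn_const (by simp [Real.volume_Ioo]) (by simp))
    exact h1.locallyIntegrableOn
  · intro g hg hgc hgt
    have hgcont : Continuous g := hg.continuous
    have hgI : Integrable g := hgcont.integrable_of_hasCompactSupport hgc
    have hηcont : Continuous η := hηs.continuous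
    -- bounded
    obtain ⟨Cg, hCg⟩ := hgc.exists_bound_of_continuous hgcont
    obtain ⟨Cη, hCη⟩ := hηc.exists_bound_of_continuous hηcont
    have hI1 : IntegrableOn (fun t => g t * f t) (Ioo al be) :=
      hf.bdd_mul hgcont.aestronglyMeasurable (ae_of_all _ hCg)
    have hI2 : IntegrableOn (fun t => η t * f t) (Ioo al be) :=
      hf.bdd_mul hηcont.aestronglyMeasurable (ae_of_all _ hCη)
    have hk := hcont (fun t => g t - (∫ r, g r) * η t)
      (hg.sub (contDiff_const.mul hηs))
      (hgc.sub (hηc.mul_left))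
      ((tsupport_sub _ _).trans (union_subset hgt ((tsupport_mul_subset_right).trans hηt)))
      (by
        rw [integral_sub hgI ((hηcont.integrable_of_hasCompactSupport hηc).const_mul _),
          integral_const_mul, hηi]
        ring)
    have e1 : ∫ t in Ioo al be, (g t - (∫ r, g r) * η t) * f t
        = (∫ t in Ioo al be, g t * f t) - (∫ r, g r) * c := by
      rw [hc, ← integral_const_mul, ← integral_sub hI1 (hI2.const_mul _)]
      congr 1
      ext t
      ring
    rw [e1] at hk
    have e2 : ∫ t, g t • (f t - c) = (∫ t in Ioo al be, g t * f t) - (∫ r, g r) * c := by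
      have e3 : ∫ t, g t • (f t - c) = ∫ t in Ioo al be, g t • (f t - c) := by
        symm
        apply setIntegral_eq_integral_of_forall_compl_eq_zero
        intro t ht
        have : g t = 0 := image_eq_zero_of_notMem_tsupport (fun hc => ht (hgt hc))
        rw [this, zero_smul]
      have e4 : ∫ r, g r = ∫ t in Ioo al be, g t := by
        symm
        apply setIntegral_eq_integral_of_forall_compl_eq_zero
        intro t ht
        exact image_eq_zero_of_notMem_tsupport (fun hc => ht (hgt hc))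
      rw [e3, e4, ← integral_mul_const, ← integral_sub hI1 (hgI.integrableOn.mul_const _)]
      congr 1
      ext t
      simp only [smul_eq_mul]
      ring
    rw [e2]
    exact hk

end Crest.Agent.R105.Sqr_185
end

-- ▼ part R105/Sqr3_185
section

/-!
# R105 SQR (3): `b = const` from the first variation, exact squares (helper185)
-/

set_option autoImplicit false

open Set Filter Topology MeasureTheory Metric
open scoped ContDiff

namespace Crest.Agent.R105.Sqr_185

lemma measurableSet_sec {S : Set ℂ} (hS : MeasurableSet S) (t : ℝ) : MeasurableSet (sec S t) :=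
  (continuous_mk_right t).measurable hS

/-- Fubini for functions of the real part on a measurable set. -/
theorem integral_re {S : Set ℂ} (hS : MeasurableSet S) {g : ℝ → ℝ} 
    (hint : IntegrableOn (fun p : ℂ => g p.re) S) :
    (∫ p in S, g p.re = ∫ t, g t * (volume (sec S t)).toReal) ∧
      Integrable (fun t => g t * (volume (sec S t)).toReal) := by
  have hmp := Complex.volume_preserving_equiv_real_prod.symm
  have hI : Integrable (S.indicator fun p : ℂ => g p.re) := by
    rwa [integrable_indicator_iff hS]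
  have hI2 : Integrable (fun q : ℝ × ℝ =>
      (S.indicator fun p : ℂ => g p.re) (Complex.measurableEquivRealProd.symm q)) :=
    hmp.integrable_comp_of_integrable hI
  have h1 : ∫ p in S, g p.re = ∫ q : ℝ × ℝ,
      (S.indicator fun p : ℂ => g p.re) (Complex.measurableEquivRealProd.symm q) := by
    rw [← integral_indicator hS]
    exact (hmp.integral_comp Complex.measurableEquivRealProd.symm.measurableEmbedding _).symm
  have hin : ∀ t : ℝ, ∫ y : ℝ, (S.indicator fun p : ℂ => g p.re)
      (Complex.measurableEquivRealProd.symm (t, y)) = g t * (volume (sec S t)).toReal := by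
    intro t
    have h2 : (fun y : ℝ => (S.indicator fun p : ℂ => g p.re)
        (Complex.measurableEquivRealProd.symm (t, y))) = (sec S t).indicator (fun _ => g t) := by
      ext y
      by_cases hy : (⟨t, y⟩ : ℂ) ∈ S
      · have h3 : y ∈ sec S t := hy
        rw [indicator_of_mem h3]
        have h4 : (Complex.measurableEquivRealProd.symm (t, y) : ℂ) = ⟨t, y⟩ := rfl
        rw [h4, indicator_of_mem hy]
      · have h3 : y ∉ sec S t := hy
        rw [indicator_of_notMem h3]
        have h4 : (Complex.measurableEquivRealProd.symm (t, y) : ℂ) = ⟨t, y⟩ := rfl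
        rw [h4, indicator_of_notMem hy]
    rw [h2, integral_indicator (measurableSet_sec hS t), setIntegral_const, smul_eq_mul, mul_comm]
    rfl
  refine ⟨?_, ?_⟩
  · rw [h1, Measure.volume_eq_prod, integral_prod _ (by rwa [← Measure.volume_eq_prod])]
    exact integral_congr_ae (ae_of_all _ hin)
  · rw [Measure.volume_eq_prod] at hI2
    exact hI2.integral_prod_left.congr (ae_of_all _ hin)

/-- sum of an absolutely summable series of integrable functions -/
theorem integrable_tsum_real {ι : Type*} [Countable ι] {R : ι → ℝ → ℝ}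
    (hR : ∀ i, Integrable (R i) volume) (hs : Summable fun i => ∫ x, ‖R i x‖) :
    Integrable (fun x => ∑' i, R i x) volume := by
  have h0 : ∑' i, ∫⁻ x, ‖R i x‖ₑ ≠ ⊤ := by
    have h1 : ∀ i, ∫⁻ x, ‖R i x‖ₑ = ENNReal.ofReal (∫ x, ‖R i x‖) := fun i => by
      rw [ofReal_integral_norm_eq_lintegral_enorm (hR i)]
    simp only [h1]
    exact hs.tsum_ofReal_ne_top
  have h2 : ∫⁻ x, ∑' i, ‖R i x‖ₑ ≠ ⊤ := by
    rw [lintegral_tsum fun i => (hR i).1.enorm]
    exact h0
  have h3 : ∀ᵐ x ∂(volume : Measure ℝ), ∑' i, ‖R i x‖ₑ < ⊤ :=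
    ae_lt_top' (AEMeasurable.tsum fun i => (hR i).1.enorm) h2
  have h4 : ∀ᵐ x ∂(volume : Measure ℝ), HasSum (fun i => R i x) (∑' i, R i x) := by
    filter_upwards [h3] with x hx
    have h5 : Summable fun i => ‖R i x‖ := by
      have := ENNReal.summable_toReal hx.ne
      simpa using this
    exact h5.of_norm.hasSum
  have h6 : AEStronglyMeasurable (fun x => ∑' i, R i x) volume := by
    refine aestronglyMeasurable_of_tendsto_ae (Filter.atTop : Filter (Finset ι))
      (f := fun s x => ∑ i ∈ s, R i x) (fun s => ?_) ?_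
    · exact Finset.aestronglyMeasurable_fun_sum s fun i _ => (hR i).1
    · filter_upwards [h4] with x hx
      exact hx
  refine ⟨h6, ?_⟩
  refine lt_of_le_of_lt (lintegral_mono fun x => enorm_tsum_le_tsum_enorm) ?_
  exact h2.lt_top

/-- length of the part of the vertical line over `t` above `K` and below height `M` -/
noncomputable def upLen (K : Set ℂ) (M t : ℝ) : ℝ :=
  (volume {y : ℝ | (⟨t, y⟩ : ℂ) ∈ above K ∧ y < M}).toReal

lemma sec_above_Icc {K : Set ℂ} {t b c : ℝ} (hbc : b ≤ c) (h : sec K t = Icc b c) (M : ℝ) :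
    {y : ℝ | (⟨t, y⟩ : ℂ) ∈ above K ∧ y < M} = Ioo c M := by
  ext y
  simp only [above, mem_ofPred_eq, mem_Ioo, h]
  constructor
  · rintro ⟨h1, h2⟩
    exact ⟨h1 c ⟨hbc, le_rfl⟩, h2⟩
  · rintro ⟨h1, h2⟩
    exact ⟨fun z hz => lt_of_le_of_lt hz.2 h1, h2⟩

lemma upLen_eq {K : Set ℂ} {t b c M : ℝ} (hbc : b ≤ c) (h : sec K t = Icc b c) (hM : c ≤ M) :
    upLen K M t = M - c := by
  rw [upLen, sec_above_Icc hbc h, Real.volume_Ioo, ENNReal.toReal_ofReal (by linarith)]

/-- **`b` is constant**: if a.e. section of the compact set `K` over `(al, be)` is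
`[b t, b t + s]` and `∫ θ'(t) |{y < M above K_t}| dt = 0` for all test functions, then the
sections are all the same. -/
theorem b_const {K : Set ℂ} (hK : IsCompact K) {al be s M : ℝ} (hab : al < be) (hs : 0 ≤ s)
    (hM : ∀ p ∈ K, p.im ≤ M) {b : ℝ → ℝ}
    (hb : ∀ᵐ t ∂(volume.restrict (Ioo al be)), sec K t = Icc (b t) (b t + s))
    (hF : ∀ θ : ℝ → ℝ, ContDiff ℝ ∞ θ → HasCompactSupport θ → tsupport θ ⊆ Ioo al be →
      ∫ t in Ioo al be, deriv θ t * upLen K M t = 0) :
    ∃ b0 : ℝ, ∀ᵐ t ∂(volume.restrict (Ioo al be)), sec K t = Icc b0 (b0 + s) := by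
  obtain ⟨R, hR⟩ := hK.isBounded.exists_norm_le
  have hlen : ∀ᵐ t ∂(volume.restrict (Ioo al be)), upLen K M t = M - (b t + s) := by
    filter_upwards [hb] with t ht
    refine upLen_eq (by linarith) ht ?_
    exact hM ⟨t, b t + s⟩ (by
      have : b t + s ∈ sec K t := by rw [ht]; exact ⟨by linarith, le_rfl⟩
      exact this)
  have hmeas : Measurable (upLen K M) := by
    have hSm : MeasurableSet {q : ℝ × ℝ | (⟨q.1, q.2⟩ : ℂ) ∈ above K ∧ q.2 < M} :=
      (continuous_mk.measurable (isOpen_above hK).measurableSet).inter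
        (measurableSet_lt measurable_snd measurable_const)
    exact (measurable_measure_prodMk_left hSm).ennreal_toReal
  have hint : IntegrableOn (upLen K M) (Ioo al be) := by
    refine Measure.integrableOn_of_bounded (M := |M| + R) (by simp [Real.volume_Ioo])
      hmeas.aestronglyMeasurable ?_
    filter_upwards [hlen, hb] with t ht hbt
    have hmem : b t + s ∈ sec K t := by rw [hbt]; exact ⟨by linarith, le_rfl⟩
    have h1 : ‖(⟨t, b t + s⟩ : ℂ)‖ ≤ R := hR _ hmem
    have h2 : |b t + s| ≤ R := (Complex.abs_im_le_norm (⟨t, b t + s⟩ : ℂ)).trans h1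
    rw [ht, Real.norm_eq_abs]
    calc |M - (b t + s)| ≤ |M| + |b t + s| := abs_sub _ _
      _ ≤ |M| + R := by linarith
  obtain ⟨c, hc⟩ := const_of_deriv hab hint hF
  refine ⟨M - c - s, ?_⟩
  filter_upwards [hc, hlen, hb] with t h1 h2 h3
  have : b t = M - c - s := by linarith
  rw [h3, this]

/-- **first variation at the test function `θ(x)` above `K`** ==> the hypothesis of `b_const`.
`E` the whole complement, `L i` the solids with `|L i_t| = s i` for a.e. `t` in
`(α i, β i)` and `= 0` off `[α i, β i]`, the rest of `E` null on a.e. vertical line;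
`up` = the solids above `K` over `(al, be)`. -/
theorem hF_of_firstVariation {ι : Type*} [Countable ι] {E K : Set ℂ} (hE : IsCompact E)
    (hK : IsCompact K) (hKE : K ⊆ E) {al be M : ℝ} 
    (hKne : ∀ t ∈ Ioo al be, (sec K t).Nonempty)
    (L : ι → Set ℂ) (hLc : ∀ i, IsCompact (L i)) (hLE : ∀ i, L i ⊆ E)
    (hLd : Pairwise fun i j => Disjoint (L i) (L j))
    (α β : ι → ℝ) (hαβ : ∀ i, α i ≤ β i) (hsum : Summable fun i => (β i - α i) ^ 2)
    (hL : ∀ i, ∀ᵐ t : ℝ, volume (sec (L i) t) =
      (Ioo (α i) (β i)).indicator (fun _ => ENNReal.ofReal (β i - α i)) t)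
    (hrest : ∀ᵐ t ∂(volume.restrict (Ioo al be)), volume (sec (E \ (K ∪ ⋃ i, L i)) t) = 0)
    (up : Set ι) (hup : ∀ i ∈ up, L i ∩ Complex.re ⁻¹' (Ioo al be) ⊆ above K)
    (hdn : ∀ i ∉ up, L i ∩ Complex.re ⁻¹' (Ioo al be) ⊆ (above K)ᶜ)
    (hM : ∀ p ∈ E, p.im < M) {θ : ℝ → ℝ} (hθ : ContDiff ℝ ∞ θ) (hθc : HasCompactSupport θ)
    (hθs : tsupport θ ⊆ Ioo al be)
    (hFV : (∫ p in {p : ℂ | p ∉ E ∧ p ∈ above K ∧ p.re ∈ Ioo al be ∧ p.im < M}, deriv θ p.re)
      + ∑' i : ι, up.indicator (fun i => (β i - α i) * (θ (β i) - θ (α i))) i = 0) :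
    ∫ t in Ioo al be, deriv θ t * upLen K M t = 0 := by
  classical
  obtain ⟨R, hR⟩ := hE.isBounded.exists_norm_le
  have hθ'c : Continuous (deriv θ) := hθ.continuous_deriv (by simp)
  have hθ'cs : HasCompactSupport (deriv θ) := hθc.deriv
  obtain ⟨Cθ, hCθ⟩ := hθ'cs.exists_bound_of_continuous hθ'c
  have hCθ0 : 0 ≤ Cθ := (norm_nonneg _).trans (hCθ 0)
  set S : Set ℂ := {p : ℂ | p ∉ E ∧ p ∈ above K ∧ p.re ∈ Ioo al be ∧ p.im < M} with hS
  have hSm : MeasurableSet S := by
    have h1 : S = Eᶜ ∩ (above K ∩ (Complex.re ⁻¹' (Ioo al be) ∩ Complex.im ⁻¹' (Iio M))) := by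
      ext p; simp [hS]
    rw [h1]
    exact hE.isClosed.measurableSet.compl.inter ((isOpen_above hK).measurableSet.inter
      ((Complex.measurable_re measurableSet_Ioo).inter (Complex.measurable_im measurableSet_Iio)))
  -- S has finite volume
  have hSb : S ⊆ Complex.re ⁻¹' (Ioo al be) ∩ Complex.im ⁻¹' (Ioo (-R) M) := by
    rintro p ⟨_, h2, h3, h4⟩
    refine ⟨h3, ?_, h4⟩
    obtain ⟨y, hy⟩ := hKne p.re h3
    have h5 : y < p.im := h2 y hy
    have h6 : ‖(⟨p.re, y⟩ : ℂ)‖ ≤ R := hR _ (hKE hy)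
    have h7 : |y| ≤ R := (Complex.abs_im_le_norm (⟨p.re, y⟩ : ℂ)).trans h6
    have h8 := neg_le_of_abs_le h7
    show -R < p.im
    linarith
  have hSfin : volume S < ⊤ := by
    refine lt_of_le_of_lt (measure_mono hSb) ?_
    have h1 : volume (Complex.re ⁻¹' (Ioo al be) ∩ Complex.im ⁻¹' (Ioo (-R) M))
        = volume (Ioo al be) * volume (Ioo (-R) M) := by
      have h2 := Complex.volume_preserving_equiv_real_prod.measure_preimage
        (s := Ioo al be ×ˢ Ioo (-R) M) (measurableSet_Ioo.prod measurableSet_Ioo).nullMeasurableSet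
      rw [Measure.volume_eq_prod, Measure.prod_prod] at h2
      rw [← h2]
      rfl
    rw [h1, Real.volume_Ioo, Real.volume_Ioo]
    exact ENNReal.mul_lt_top ENNReal.ofReal_lt_top ENNReal.ofReal_lt_top
  have hSint : IntegrableOn (fun p : ℂ => deriv θ p.re) S :=
    Measure.integrableOn_of_bounded (M := Cθ) hSfin.ne
      (hθ'c.comp Complex.continuous_re).aestronglyMeasurable (ae_of_all _ fun p => hCθ p.re)
  obtain ⟨hf1, hf2⟩ := integral_re (g := deriv θ) hSm hSint
  -- derivative vanishes off Ioo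
  have hθ0 : ∀ t, t ∉ Ioo al be → deriv θ t = 0 := fun t ht =>
    image_eq_zero_of_notMem_tsupport (fun hc => ht (hθs (tsupport_deriv_subset hc)))
  -- the solid terms
  set ell : ι → ℝ → ℝ := fun i => (Ioo (α i) (β i)).indicator (fun _ => β i - α i) with hell
  have hellm : ∀ i, Measurable (ell i) := fun i =>
    measurable_const.indicator measurableSet_Ioo
  have hell0 : ∀ i t, 0 ≤ ell i t := fun i t => by
    simp only [hell]
    exact indicator_nonneg (fun _ _ => by linarith [hαβ i]) t
  have hellint : ∀ i, ∫ t, ‖deriv θ t * ell i t‖ ≤ Cθ * (β i - α i) ^ 2 := by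
    intro i
    have h1 : ∀ t, ‖deriv θ t * ell i t‖ ≤ (Ioo (α i) (β i)).indicator
        (fun _ => Cθ * (β i - α i)) t := by
      intro t
      by_cases ht : t ∈ Ioo (α i) (β i)
      · simp only [hell, indicator_of_mem ht, norm_mul]
        rw [Real.norm_of_nonneg (by linarith [hαβ i] : 0 ≤ β i - α i)]
        exact mul_le_mul_of_nonneg_right (hCθ t) (by linarith [hαβ i])
      · simp [hell, indicator_of_notMem ht]
    have h2 : ∫ t, ‖deriv θ t * ell i t‖
        ≤ ∫ t, (Ioo (α i) (β i)).indicator (fun _ => Cθ * (β i - α i)) t := by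
          refine integral_mono_of_nonneg (ae_of_all _ fun _ => norm_nonneg _) ?_ (ae_of_all _ h1)
          exact (integrable_indicator_iff measurableSet_Ioo).2
            (integrableOn_const (by simp [Real.volume_Ioo]))
    have h3 : ∫ t, (Ioo (α i) (β i)).indicator (fun _ => Cθ * (β i - α i)) t
        = Cθ * (β i - α i) ^ 2 := by
      rw [integral_indicator measurableSet_Ioo, setIntegral_const, smul_eq_mul,
        measureReal_def, Real.volume_Ioo, ENNReal.toReal_ofReal (by linarith [hαβ i])]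
      ring
    exact h2.trans h3.le
  have helli : ∀ i, Integrable (fun t => deriv θ t * ell i t) := by
    intro i
    have h1 : Integrable (ell i) := (integrable_indicator_iff measurableSet_Ioo).2
      (integrableOn_const (by simp [Real.volume_Ioo]) (by simp))
    exact h1.bdd_mul hθ'c.aestronglyMeasurable (ae_of_all _ hCθ)
  have hterm : ∀ i, ∫ t, deriv θ t * ell i t = (β i - α i) * (θ (β i) - θ (α i)) := by
    intro i
    have h1 : (fun t => deriv θ t * ell i t) = (Ioo (α i) (β i)).indicator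
        (fun t => deriv θ t * (β i - α i)) := by
      ext t
      by_cases ht : t ∈ Ioo (α i) (β i)
      · simp [hell, indicator_of_mem ht]
      · simp [hell, indicator_of_notMem ht]
    rw [h1, integral_indicator measurableSet_Ioo, ← integral_Ioc_eq_integral_Ioo,
      ← intervalIntegral.integral_of_le (hαβ i), intervalIntegral.integral_mul_const,
      intervalIntegral.integral_deriv_eq_sub (fun x _ => (hθ.differentiable (by simp)) x)
        (hθ'c.intervalIntegrable _ _)]
    ring
  -- sum over up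
  have hsumI : ∑' i : ι, up.indicator (fun i => (β i - α i) * (θ (β i) - θ (α i))) i
      = ∫ t, ∑' i : ι, up.indicator (fun i => deriv θ t * ell i t) i := by
    have h1 : ∀ i, Integrable (fun t => up.indicator (fun i => deriv θ t * ell i t) i) := by
      intro i
      by_cases hi : i ∈ up
      · simpa [indicator_of_mem hi] using helli i
      · simp [indicator_of_notMem hi]
    have h2 : Summable fun i => ∫ t, ‖up.indicator (fun i => deriv θ t * ell i t) i‖ := by
      refine Summable.of_nonneg_of_le (fun i => integral_nonneg fun _ => norm_nonneg _) ?_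
        (hsum.mul_left Cθ)
      intro i
      by_cases hi : i ∈ up
      · simpa [indicator_of_mem hi] using hellint i
      · simp only [indicator_of_notMem hi, norm_zero, integral_zero]
        positivity
    rw [← integral_tsum_of_summable_integral_norm h1 h2]
    congr 1
    ext i
    by_cases hi : i ∈ up
    · simp only [indicator_of_mem hi]
      exact (hterm i).symm
    · simp [indicator_of_notMem hi]
  -- a.e. identity
  have hae : ∀ᵐ t : ℝ, deriv θ t * upLen K M t * (Ioo al be).indicator 1 t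
      = deriv θ t * (volume (sec S t)).toReal
        + ∑' i : ι, up.indicator (fun i => deriv θ t * ell i t) i := by
    have hL' : ∀ᵐ t : ℝ, ∀ i, volume (sec (L i) t) =
      (Ioo (α i) (β i)).indicator (fun _ => ENNReal.ofReal (β i - α i)) t := ae_all_iff.2 hL
    rw [ae_restrict_iff' measurableSet_Ioo] at hrest
    filter_upwards [hL', hrest] with t h1 h2
    by_cases ht : t ∈ Ioo al be
    · rw [indicator_of_mem ht]
      simp only [Pi.one_apply, mul_one]
      have h3 : ∑' i : ι, up.indicator (fun i => deriv θ t * ell i t) i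
          = deriv θ t * ∑' i : ι, up.indicator (fun i => ell i t) i := by
        rw [← tsum_mul_left]
        congr 1
        ext i
        by_cases hi : i ∈ up
        · simp [indicator_of_mem hi]
        · simp [indicator_of_notMem hi]
      rw [h3, ← mul_add]
      congr 1
      -- decomposition of the line
      have hup' : ∀ i, up.indicator (fun i => ell i t) i
          = (volume (sec (L i) t ∩ {y | (⟨t, y⟩ : ℂ) ∈ above K})).toReal := by
        intro i
        have hv : (volume (sec (L i) t)).toReal = ell i t := by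
          rw [h1 i]
          by_cases hti : t ∈ Ioo (α i) (β i)
          · simp only [hell, indicator_of_mem hti]
            rw [ENNReal.toReal_ofReal (by linarith [hαβ i])]
          · simp [hell, indicator_of_notMem hti]
        by_cases hi : i ∈ up
        · rw [indicator_of_mem hi, ← hv]
          congr 2
          symm
          rw [inter_eq_left]
          intro y hy
          exact hup i hi ⟨hy, ht⟩
        · rw [indicator_of_notMem hi]
          have h5 : sec (L i) t ∩ {y | (⟨t, y⟩ : ℂ) ∈ above K} = ∅ := by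
            rw [eq_empty_iff_forall_notMem]
            rintro y ⟨hy, hya⟩
            exact hdn i hi ⟨hy, ht⟩ hya
          rw [h5]
          simp
      have hfinl : volume {y : ℝ | (⟨t, y⟩ : ℂ) ∈ above K ∧ y < M} < ⊤ := by
        have h5 : {y : ℝ | (⟨t, y⟩ : ℂ) ∈ above K ∧ y < M} ⊆ Ioo (-R) M := by
          rintro y ⟨hy, hyM⟩
          obtain ⟨z, hz⟩ := hKne t ht
          have h6 : z < y := hy z hz
          have h7 : |z| ≤ R := (Complex.abs_im_le_norm (⟨t, z⟩ : ℂ)).trans (hR _ (hKE hz))
          exact ⟨by linarith [neg_le_of_abs_le h7], hyM⟩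
        exact lt_of_le_of_lt (measure_mono h5) (by simp [Real.volume_Ioo])
      set P : Set ℝ := {y : ℝ | (⟨t, y⟩ : ℂ) ∈ above K} with hP
      have hPm : MeasurableSet P :=
        (continuous_mk_right t).measurable (isOpen_above hK).measurableSet
      have hset : {y : ℝ | (⟨t, y⟩ : ℂ) ∈ above K ∧ y < M}
          = sec S t ∪ ((⋃ i, sec (L i) t ∩ P) ∪ (sec (E \ (K ∪ ⋃ i, L i)) t ∩ P)) := by
        ext y
        constructor
        · rintro ⟨hy, hyM⟩
          by_cases hyE : (⟨t, y⟩ : ℂ) ∈ E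
          · right
            have hyK : (⟨t, y⟩ : ℂ) ∉ K := not_mem_of_above hy
            by_cases hyL : ∃ i, (⟨t, y⟩ : ℂ) ∈ L i
            · obtain ⟨i, hi⟩ := hyL
              exact Or.inl (mem_iUnion.2 ⟨i, hi, hy⟩)
            · right
              refine ⟨⟨hyE, ?_⟩, hy⟩
              rintro (h5 | h5)
              · exact hyK h5
              · obtain ⟨i, hi⟩ := mem_iUnion.1 h5
                exact hyL ⟨i, hi⟩
          · left
            exact ⟨hyE, hy, ht, hyM⟩
        · rintro (⟨_, h5, _, h6⟩ | h5 | ⟨h5, h6⟩)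
          · exact ⟨h5, h6⟩
          · obtain ⟨i, hi, hi2⟩ := mem_iUnion.1 h5
            exact ⟨hi2, hM _ (hLE i hi)⟩
          · exact ⟨h6, hM _ h5.1⟩
      have hLm : ∀ i, MeasurableSet (sec (L i) t ∩ P) := fun i =>
        (measurableSet_sec (hLc i).measurableSet t).inter hPm
      have hv0 : volume (sec (E \ (K ∪ ⋃ i, L i)) t ∩ P) = 0 :=
        measure_mono_null inter_subset_left (h2 ht)
      have hd1 : Disjoint (sec S t) (⋃ i, sec (L i) t ∩ P) := by
        rw [disjoint_left]
        rintro y hy hy2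
        obtain ⟨i, hi, _⟩ := mem_iUnion.1 hy2
        exact hy.1 (hLE i hi)
      have hv1 : volume {y : ℝ | (⟨t, y⟩ : ℂ) ∈ above K ∧ y < M}
          = volume (sec S t) + ∑' i, volume (sec (L i) t ∩ P) := by
        rw [hset, ← union_assoc]
        have h5 : volume (sec S t ∪ (⋃ i, sec (L i) t ∩ P) ∪ (sec (E \ (K ∪ ⋃ i, L i)) t ∩ P))
            = volume (sec S t ∪ (⋃ i, sec (L i) t ∩ P)) := by
          apply le_antisymm
          · refine (measure_union_le _ _).trans ?_
            rw [hv0, add_zero]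
          · exact measure_mono subset_union_left
        rw [h5, measure_union hd1 (MeasurableSet.iUnion hLm), measure_iUnion _ hLm]
        intro i j hij
        refine Disjoint.mono inter_subset_left inter_subset_left ?_
        rw [disjoint_left]
        intro y hy1 hy2
        exact disjoint_left.1 (hLd hij) hy1 hy2
      have hS1 : volume (sec S t) ≠ ⊤ := by
        have : volume (sec S t) ≤ volume {y : ℝ | (⟨t, y⟩ : ℂ) ∈ above K ∧ y < M} := by
          rw [hv1]; exact le_self_add
        exact (lt_of_le_of_lt this hfinl).ne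
      have hS2 : ∑' i, volume (sec (L i) t ∩ P) ≠ ⊤ := by
        have : ∑' i, volume (sec (L i) t ∩ P)
            ≤ volume {y : ℝ | (⟨t, y⟩ : ℂ) ∈ above K ∧ y < M} := by
          rw [hv1]; exact le_add_self
        exact (lt_of_le_of_lt this hfinl).ne
      rw [upLen, hv1, ENNReal.toReal_add hS1 hS2, ENNReal.tsum_toReal_eq (fun i =>
        ne_top_of_le_ne_top hS2 (ENNReal.le_tsum i))]
      congr 1
      exact tsum_congr fun i => (hup' i).symm
    · rw [indicator_of_notMem ht, hθ0 t ht]
      simp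
  -- conclude
  have hfin : ∫ t in Ioo al be, deriv θ t * upLen K M t
      = ∫ t, deriv θ t * upLen K M t * (Ioo al be).indicator 1 t := by
    rw [← integral_indicator measurableSet_Ioo]
    congr 1
    ext t
    by_cases ht : t ∈ Ioo al be
    · simp [indicator_of_mem ht]
    · simp [indicator_of_notMem ht]
  have hI3 : Integrable (fun t => ∑' i : ι, up.indicator (fun i => deriv θ t * ell i t) i) := by
    -- from the identity: difference of integrable functions is not available; use domination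
    have h1 : ∀ i, Integrable (fun t => up.indicator (fun i => deriv θ t * ell i t) i) := by
      intro i
      by_cases hi : i ∈ up
      · simpa [indicator_of_mem hi] using helli i
      · simp [indicator_of_notMem hi]
    have h2 : Summable fun i => ∫ t, ‖up.indicator (fun i => deriv θ t * ell i t) i‖ := by
      refine Summable.of_nonneg_of_le (fun i => integral_nonneg fun _ => norm_nonneg _) ?_
        (hsum.mul_left Cθ)
      intro i
      by_cases hi : i ∈ up
      · simpa [indicator_of_mem hi] using hellint i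
      · simp only [indicator_of_notMem hi, norm_zero, integral_zero]
        positivity
    exact integrable_tsum_real h1 h2
  rw [hfin, integral_congr_ae hae, integral_add hf2 hI3, ← hf1, ← hsumI]
  exact hFV

end Crest.Agent.R105.Sqr_185
end

-- ▼ part R105/Sqr4_185
section

/-!
# R105 SQR (4): exact squares, and the integral of the test function (helper185)

`SqK K al b s` : the compact set `K` is the closed square `[al, al+s] x [b, b+s]` plus vertical
pieces over a null set of abscissae.
-/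

set_option autoImplicit false

open Set Filter Topology MeasureTheory Metric
open scoped ContDiff

namespace Crest.Agent.R105.Sqr_185

/-- `K` = exact square + vertical pieces over a null set of `[al, al+s]` -/
structure SqK (K : Set ℂ) (al b s : ℝ) : Prop where
  re_mem : ∀ p ∈ K, p.re ∈ Icc al (al + s)
  sub : ∀ p : ℂ, p.re ∈ Icc al (al + s) → p.im ∈ Icc b (b + s) → p ∈ K
  ae : ∀ᵐ t : ℝ, t ∈ Icc al (al + s) → sec K t = Icc b (b + s)

theorem sqK_of_ae {K : Set ℂ} (hK : IsClosed K) {al b s : ℝ} (hs : 0 < s)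
    (hre : ∀ p ∈ K, p.re ∈ Icc al (al + s))
    (h : ∀ᵐ t ∂(volume.restrict (Ioo al (al + s))), sec K t = Icc b (b + s)) :
    SqK K al b s where
  re_mem := hre
  sub := fun p hp hq => by
    have h1 := rect_subset hK (by linarith : al < al + s) (b := b) (c := b + s)
      (h.mono fun t ht => ht.ge) p.re hp hq
    exact h1
  ae := by
    rw [ae_restrict_iff' measurableSet_Ioo] at h
    have h2 : ∀ᵐ t : ℝ, t ∉ ({al, al + s} : Set ℝ) :=
      measure_eq_zero_iff_ae_notMem.1 ((Set.toFinite _).measure_zero _)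
    filter_upwards [h, h2] with t h1 h2 ht
    refine h1 ⟨lt_of_le_of_ne ht.1 ?_, lt_of_le_of_ne ht.2 ?_⟩
    · rintro rfl; exact h2 (by simp)
    · rintro rfl; exact h2 (by simp)

/-- a compact set whose sections over `(al, al+s)` are a.e. intervals `[b t, b t + s]`, with the
first variation identity, is an exact square with attached vertical pieces -/
theorem sqK_of_firstVariation {K : Set ℂ} (hK : IsCompact K) {al s M : ℝ} (hs : 0 < s)
    (hre : ∀ p ∈ K, p.re ∈ Icc al (al + s)) (hM : ∀ p ∈ K, p.im ≤ M) {b : ℝ → ℝ}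
    (hb : ∀ᵐ t ∂(volume.restrict (Ioo al (al + s))), sec K t = Icc (b t) (b t + s))
    (hF : ∀ θ : ℝ → ℝ, ContDiff ℝ ∞ θ → HasCompactSupport θ → tsupport θ ⊆ Ioo al (al + s) →
      ∫ t in Ioo al (al + s), deriv θ t * upLen K M t = 0) :
    ∃ b0 : ℝ, SqK K al b0 s := by
  obtain ⟨b0, h⟩ := b_const hK (by linarith : al < al + s) hs.le hM hb hF
  exact ⟨b0, sqK_of_ae hK.isClosed hs hre h⟩

namespace SqK

variable {K : Set ℂ} {al b s : ℝ}





end SqK

/-- the integral of the `x`-derivative of `θ(x) κ(y)` above `K` -/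
theorem integral_up {E K : Set ℂ} (hE : IsCompact E) (hK : IsCompact K) (hKE : K ⊆ E)
    (hs : ∀ t, OrdConnected (sec K t)) {al be M R : ℝ}
    (hne : ∀ t ∈ Ioo al be, (sec K t).Nonempty) (hM : ∀ p ∈ E, p.im < M)
    (hR : ∀ p ∈ E, -R < p.im)
    {θ : ℝ → ℝ} (hθ : ContDiff ℝ ∞ θ) (hθc : HasCompactSupport θ) (hθs : tsupport θ ⊆ Ioo al be)
    {κ : ℝ → ℝ} (hκ : ContDiff ℝ ∞ κ) (hκc : HasCompactSupport κ)
    (hκ1 : ∀ y ∈ Icc (-R) M, κ y = 1) :
    ∫ w in Eᶜ, fderiv ℝ (fun w => up K θ w * κ w.im) w 1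
      = ∫ p in {p : ℂ | p ∉ E ∧ p ∈ above K ∧ p.re ∈ Ioo al be ∧ p.im < M}, deriv θ p.re := by
  have hθ'c : Continuous (deriv θ) := hθ.continuous_deriv (by simp)
  have hθ'cs : HasCompactSupport (deriv θ) := hθc.deriv
  have hθd : Differentiable ℝ θ := hθ.differentiable (by simp)
  have hκd : Differentiable ℝ κ := hκ.differentiable (by simp)
  have hθ0 : ∀ t, t ∉ Ioo al be → deriv θ t = 0 := fun t ht =>
    image_eq_zero_of_notMem_tsupport (fun hc => ht (hθs (tsupport_deriv_subset hc)))
  -- pointwise derivative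
  have hpt : ∀ w ∈ Eᶜ, fderiv ℝ (fun w => up K θ w * κ w.im) w 1
      = (above K ∩ Complex.re ⁻¹' (Ioo al be)).indicator (fun q => deriv θ q.re * κ q.im) w := by
    intro w hw
    have hwK : w ∉ K := fun h => hw (hKE h)
    have h1 : DifferentiableAt ℝ (up K θ) w :=
      (contDiffAt_up hK hs hne hθs hθ hwK).differentiableAt (by simp)
    have h2 : HasFDerivAt (fun w : ℂ => κ w.im) (deriv κ w.im • Complex.imCLM) w :=
      (hκd w.im).hasDerivAt.comp_hasFDerivAt w Complex.imCLM.hasFDerivAt
    have h3 := (h1.hasFDerivAt.mul h2).fderiv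
    have h3' : fderiv ℝ (fun w => up K θ w * κ w.im) w
        = up K θ w • deriv κ w.im • Complex.imCLM + κ w.im • fderiv ℝ (up K θ) w := h3
    rw [h3', fderiv_up hK hs hne hθs hθd hwK]
    simp only [_root_.add_apply, _root_.smul_apply, Complex.imCLM_apply,
      Complex.one_im, smul_eq_mul, mul_zero, zero_add]
    by_cases ha : w ∈ above K
    · by_cases hr : w.re ∈ Ioo al be
      · have hmem : w ∈ above K ∩ Complex.re ⁻¹' (Ioo al be) := ⟨ha, hr⟩
        rw [indicator_of_mem ha, indicator_of_mem hmem]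
        simp [mul_comm]
      · rw [indicator_of_mem ha, indicator_of_notMem (fun h => hr h.2), hθ0 _ hr]
        simp
    · rw [indicator_of_notMem ha, indicator_of_notMem (fun h => ha h.1)]
      simp
  have hEm : MeasurableSet Eᶜ := hE.isClosed.measurableSet.compl
  have hAm : MeasurableSet (above K ∩ Complex.re ⁻¹' (Ioo al be)) :=
    (isOpen_above hK).measurableSet.inter (Complex.measurable_re measurableSet_Ioo)
  rw [setIntegral_congr_fun hEm hpt, setIntegral_indicator hAm]
  -- split at height `M`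
  set S : Set ℂ := {p : ℂ | p ∉ E ∧ p ∈ above K ∧ p.re ∈ Ioo al be ∧ p.im < M} with hS
  set T : Set ℂ := {p : ℂ | p.re ∈ Ioo al be ∧ p.im ∈ Ici M} with hT
  have hTm : MeasurableSet T :=
    (Complex.measurable_re measurableSet_Ioo).inter (Complex.measurable_im measurableSet_Ici)
  have hSm : MeasurableSet S := by
    have h1 : S = Eᶜ ∩ (above K ∩ (Complex.re ⁻¹' (Ioo al be) ∩ Complex.im ⁻¹' (Iio M))) := by
      ext p; simp [hS]
    rw [h1]
    exact hE.isClosed.measurableSet.compl.inter ((isOpen_above hK).measurableSet.inter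
      ((Complex.measurable_re measurableSet_Ioo).inter (Complex.measurable_im measurableSet_Iio)))
  have hsplit : Eᶜ ∩ (above K ∩ Complex.re ⁻¹' (Ioo al be)) = S ∪ T := by
    ext p
    simp only [hS, hT, mem_inter_iff, mem_compl_iff, mem_preimage, mem_union, mem_ofPred_eq, mem_Ici]
    constructor
    · rintro ⟨h1, h2, h3⟩
      rcases lt_or_ge p.im M with h4 | h4
      · exact Or.inl ⟨h1, h2, h3, h4⟩
      · exact Or.inr ⟨h3, h4⟩
    · rintro (⟨h1, h2, h3, h4⟩ | ⟨h3, h4⟩)
      · exact ⟨h1, h2, h3⟩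
      · exact ⟨fun hc => absurd (hM p hc) (not_lt.2 h4),
          fun y hy => lt_of_lt_of_le (hM _ (hKE hy)) h4, h3⟩
  have hdisj : Disjoint S T := by
    rw [disjoint_left]
    rintro p ⟨-, -, -, h4⟩ ⟨-, h5⟩
    exact absurd h4 (not_lt.2 h5)
  -- integrability of `θ'(x) κ(y)` on the plane
  have hint : Integrable (fun q : ℂ => deriv θ q.re * κ q.im) := by
    have h1 : Integrable (fun q : ℝ × ℝ => deriv θ q.1 * κ q.2) := by
      rw [Measure.volume_eq_prod]
      exact (hθ'c.integrable_of_hasCompactSupport hθ'cs).mul_prod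
        (hκ.continuous.integrable_of_hasCompactSupport hκc)
    exact Complex.volume_preserving_equiv_real_prod.integrable_comp_of_integrable h1
  rw [hsplit, setIntegral_union hdisj hTm hint.integrableOn hint.integrableOn]
  have hT0 : ∫ q in T, deriv θ q.re * κ q.im = 0 := by
    have h1 := Complex.volume_preserving_equiv_real_prod.setIntegral_preimage_emb
      Complex.measurableEquivRealProd.measurableEmbedding
      (fun q : ℝ × ℝ => deriv θ q.1 * κ q.2) (Ioo al be ×ˢ Ici M)
    have h2 : Complex.measurableEquivRealProd ⁻¹' (Ioo al be ×ˢ Ici M) = T := by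
      ext p
      simp [hT, Complex.measurableEquivRealProd_apply]
    rw [h2] at h1
    have h3 : ∫ q in T, deriv θ q.re * κ q.im
        = ∫ x in T, (fun q : ℝ × ℝ => deriv θ q.1 * κ q.2) (Complex.measurableEquivRealProd x) := rfl
    rw [h3, h1, Measure.volume_eq_prod, setIntegral_prod_mul]
    have h4 : ∫ t in Ioo al be, deriv θ t = 0 := by
      have h5 : ∫ t in Ioo al be, deriv θ t = ∫ t, deriv θ t :=
        setIntegral_eq_integral_of_forall_compl_eq_zero hθ0
      rw [h5]
      exact integral_eq_zero_of_hasDerivAt_of_integrable (fun t => (hθd t).hasDerivAt)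
        (hθ'c.integrable_of_hasCompactSupport hθ'cs)
        (hθ.continuous.integrable_of_hasCompactSupport hθc)
    rw [h4, zero_mul]
  rw [hT0, add_zero]
  refine setIntegral_congr_fun hSm ?_
  rintro p ⟨h1, h2, h3, h4⟩
  simp only
  obtain ⟨y, hy⟩ := hne _ h3
  have h5 : -R < y := hR _ (hKE hy)
  have h6 : y < p.im := h2 y hy
  rw [hκ1 p.im ⟨by linarith, h4.le⟩, mul_one]

end Crest.Agent.R105.Sqr_185
end

-- ▼ part R105/Sqr5_185
section

/-!
# R105 SQR (5): oscillations of `re + τ f` at the components (helper185)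

`lo K`, `hi K` : min / max of `re` on the component `K`; `osc E re K = hi K - lo K`; for
`f = 1_{above K} θ(x) κ(y)` the oscillation of `re + τ f` at `L` is exactly `s_L + τ Δ_L`.
-/

set_option autoImplicit false

open Set Filter Topology MeasureTheory Metric
open scoped ContDiff NNReal

namespace Crest.Agent.R105.Sqr_185

open Tc_808

/-- left end of the projection -/
noncomputable def lo (K : Set ℂ) : ℝ := sInf (Complex.re '' K)
/-- right end of the projection -/
noncomputable def hi (K : Set ℂ) : ℝ := sSup (Complex.re '' K)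

section lohi
variable {K : Set ℂ}

lemma exists_lo (hK : IsCompact K) (hne : K.Nonempty) : ∃ p ∈ K, p.re = lo K := by
  have h := (hK.image Complex.continuous_re).sInf_mem (hne.image _)
  obtain ⟨p, hp, h1⟩ := h
  exact ⟨p, hp, h1⟩

lemma exists_hi (hK : IsCompact K) (hne : K.Nonempty) : ∃ p ∈ K, p.re = hi K := by
  have h := (hK.image Complex.continuous_re).sSup_mem (hne.image _)
  obtain ⟨p, hp, h1⟩ := h
  exact ⟨p, hp, h1⟩

lemma lo_le (hK : IsCompact K) {p : ℂ} (hp : p ∈ K) : lo K ≤ p.re :=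
  csInf_le (hK.image Complex.continuous_re).bddBelow (mem_image_of_mem _ hp)

lemma le_hi (hK : IsCompact K) {p : ℂ} (hp : p ∈ K) : p.re ≤ hi K :=
  le_csSup (hK.image Complex.continuous_re).bddAbove (mem_image_of_mem _ hp)

lemma lo_le_hi (hK : IsCompact K) (hne : K.Nonempty) : lo K ≤ hi K := by
  obtain ⟨p, hp⟩ := hne
  exact (lo_le hK hp).trans (le_hi hK hp)

lemma sec_nonempty (hK : IsCompact K) (hKc : IsPreconnected K) (hne : K.Nonempty) {t : ℝ}
    (ht : t ∈ Icc (lo K) (hi K)) : (sec K t).Nonempty := by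
  obtain ⟨p, hp, h1⟩ := exists_lo hK hne
  obtain ⟨q, hq, h2⟩ := exists_hi hK hne
  have h3 := (hKc.image _ Complex.continuous_re.continuousOn).ordConnected
  have h4 : t ∈ Complex.re '' K := h3.out ⟨p, hp, h1⟩ ⟨q, hq, h2⟩ ht
  obtain ⟨r, hr, rfl⟩ := h4
  exact ⟨r.im, hr⟩

end lohi

variable {E : Set ℂ}

/-- an extreme point of a component is a limit of points off `E` -/
lemma hi_mem_closure (K : Cmp E) {p : ℂ} (hp : p ∈ K.1) (h : ∀ q ∈ K.1, q.re ≤ p.re) :
    p ∈ closure Eᶜ := by
  rw [closure_compl]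
  intro hint
  obtain ⟨r, hr, hb⟩ := Metric.mem_nhds_iff.1 (mem_interior_iff_mem_nhds.1 hint)
  have h1 : ball p r ⊆ K.1 := by
    rw [K.eq_of_mem hp]
    exact (convex_ball p r).isPreconnected.subset_connectedComponentIn (mem_ball_self hr) hb
  have h2 : p + ((r / 2 : ℝ) : ℂ) ∈ ball p r := by
    rw [mem_ball, dist_eq_norm]
    simp only [add_sub_cancel_left, Complex.norm_real, Real.norm_eq_abs]
    rw [abs_of_pos (by linarith)]
    linarith
  have h3 := h _ (h1 h2)
  simp only [Complex.add_re, Complex.ofReal_re] at h3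
  linarith

lemma lo_mem_closure (K : Cmp E) {p : ℂ} (hp : p ∈ K.1) (h : ∀ q ∈ K.1, p.re ≤ q.re) :
    p ∈ closure Eᶜ := by
  rw [closure_compl]
  intro hint
  obtain ⟨r, hr, hb⟩ := Metric.mem_nhds_iff.1 (mem_interior_iff_mem_nhds.1 hint)
  have h1 : ball p r ⊆ K.1 := by
    rw [K.eq_of_mem hp]
    exact (convex_ball p r).isPreconnected.subset_connectedComponentIn (mem_ball_self hr) hb
  have h2 : p - ((r / 2 : ℝ) : ℂ) ∈ ball p r := by
    rw [mem_ball, dist_eq_norm]
    simp only [sub_sub_cancel_left, norm_neg, Complex.norm_real, Real.norm_eq_abs]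
    rw [abs_of_pos (by linarith)]
    linarith
  have h3 := h _ (h1 h2)
  simp only [Complex.sub_re, Complex.ofReal_re] at h3
  linarith

/-- computation of an oscillation from two attained cluster values -/
theorem osc_eq {g : ℂ → ℝ} {K : Set ℂ} {A B : ℝ} (hAB : A ≤ B) {p q : ℂ} (hp : p ∈ K) (hq : q ∈ K)
    (hpc : p ∈ closure Eᶜ) (hqc : q ∈ closure Eᶜ) (hgp : Tendsto g (𝓝[Eᶜ] p) (𝓝 A))
    (hgq : Tendsto g (𝓝[Eᶜ] q) (𝓝 B))
    (hub : ∀ ε > 0, ∃ O, IsOpen O ∧ K ⊆ O ∧ ∀ z ∈ O, z ∉ E → A - ε ≤ g z ∧ g z ≤ B + ε) :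
    osc E g K = B - A := by
  apply le_antisymm
  · refine osc_le_of_forall (by linarith) fun ε hε => ?_
    obtain ⟨O, hO, hKO, h⟩ := hub (ε / 2) (by linarith)
    refine ⟨O, hO, hKO, fun z hz hzE w hw hwE => ?_⟩
    have h1 := h z hz hzE
    have h2 := h w hw hwE
    rw [abs_le]
    constructor <;> linarith [h1.1, h1.2, h2.1, h2.2]
  · obtain ⟨O₁, hO₁, hKO₁, h₁⟩ := hub 1 one_pos
    -- replace `g` by a bounded function
    set g' : ℂ → ℝ := fun z => max (A - 1) (min (g z) (B + 1)) with hg'
    have hgg' : ∀ z ∈ O₁, z ∉ E → g z = g' z := by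
      intro z hz hzE
      have h := h₁ z hz hzE
      simp only [hg']
      rw [min_eq_left h.2, max_eq_right h.1]
    have hb : ∃ M, ∀ z, |g' z| ≤ M := by
      refine ⟨|A - 1| + |B + 1|, fun z => ?_⟩
      have h1 : A - 1 ≤ g' z := le_max_left _ _
      have h2 : g' z ≤ B + 1 := max_le (by linarith) (min_le_right _ _)
      have h3 := neg_abs_le (A - 1)
      have h4 := le_abs_self (B + 1)
      have h5 := abs_nonneg (A - 1)
      have h6 := abs_nonneg (B + 1)
      rw [abs_le]
      constructor <;> linarith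
    rw [osc_congr hO₁ hKO₁ hgg']
    by_contra hcon
    push Not at hcon
    obtain ⟨c, hc1, hc2⟩ := exists_between hcon
    obtain ⟨O, hO, hKO, h⟩ := exists_of_osc_lt hb hc1
    -- points near `p` and `q`
    have hd : 0 < (B - A - c) / 2 := by linarith
    have e1 : ∀ᶠ z in 𝓝[Eᶜ] p, z ∈ O ∧ z ∈ O₁ ∧ z ∉ E ∧ g z < A + (B - A - c) / 2 := by
      have i1 : ∀ᶠ z in 𝓝[Eᶜ] p, z ∈ O := mem_nhdsWithin_of_mem_nhds (hO.mem_nhds (hKO hp))
      have i2 : ∀ᶠ z in 𝓝[Eᶜ] p, z ∈ O₁ := mem_nhdsWithin_of_mem_nhds (hO₁.mem_nhds (hKO₁ hp))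
      have i3 : ∀ᶠ z in 𝓝[Eᶜ] p, z ∈ Eᶜ := self_mem_nhdsWithin
      have i4 := hgp.eventually (gt_mem_nhds (show A < A + (B - A - c) / 2 by linarith))
      filter_upwards [i1, i2, i3, i4] with z a1 a2 a3 a4 using ⟨a1, a2, a3, a4⟩
    have e2 : ∀ᶠ z in 𝓝[Eᶜ] q, z ∈ O ∧ z ∈ O₁ ∧ z ∉ E ∧ B - (B - A - c) / 2 < g z := by
      have i1 : ∀ᶠ z in 𝓝[Eᶜ] q, z ∈ O := mem_nhdsWithin_of_mem_nhds (hO.mem_nhds (hKO hq))
      have i2 : ∀ᶠ z in 𝓝[Eᶜ] q, z ∈ O₁ := mem_nhdsWithin_of_mem_nhds (hO₁.mem_nhds (hKO₁ hq))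
      have i3 : ∀ᶠ z in 𝓝[Eᶜ] q, z ∈ Eᶜ := self_mem_nhdsWithin
      have i4 := hgq.eventually (lt_mem_nhds (show B - (B - A - c) / 2 < B by linarith))
      filter_upwards [i1, i2, i3, i4] with z a1 a2 a3 a4 using ⟨a1, a2, a3, a4⟩
    have := mem_closure_iff_nhdsWithin_neBot.1 hpc
    have := mem_closure_iff_nhdsWithin_neBot.1 hqc
    obtain ⟨z, hz1, hz2, hz3, hz4⟩ := e1.exists
    obtain ⟨w, hw1, hw2, hw3, hw4⟩ := e2.exists
    have h5 := h w hw1 hw3 z hz1 hz3
    rw [← hgg' w hw2 hw3, ← hgg' z hz2 hz3] at h5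
    have h6 := le_abs_self (g w - g z)
    linarith

/-- `osc` of a monotone function of `re` near the component -/
theorem osc_mono_re (hE : IsCompact E) (K : Cmp E) {g : ℂ → ℝ} {h : ℝ → ℝ} (hm : Monotone h)
    (hc : Continuous h) (hg : ∀ p ∈ K.1, ∀ᶠ z in 𝓝 p, g z = h z.re) :
    osc E g K.1 = h (hi K.1) - h (lo K.1) := by
  have hK := K.isCompact hE
  obtain ⟨p, hp, h1⟩ := exists_lo hK K.nonempty
  obtain ⟨q, hq, h2⟩ := exists_hi hK K.nonempty
  have hcr : Continuous fun z : ℂ => h z.re := hc.comp Complex.continuous_re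
  have ht : ∀ r ∈ K.1, Tendsto g (𝓝[Eᶜ] r) (𝓝 (h r.re)) := by
    intro r hr
    have i1 : Tendsto (fun z : ℂ => h z.re) (𝓝 r) (𝓝 (h r.re)) := hcr.tendsto r
    have i2 : Tendsto g (𝓝 r) (𝓝 (h r.re)) :=
      i1.congr' ((hg r hr).mono fun z hz => hz.symm)
    exact i2.mono_left nhdsWithin_le_nhds
  refine osc_eq (hm (lo_le_hi hK K.nonempty)) hp hq
    (lo_mem_closure K hp fun r hr => by rw [h1]; exact lo_le hK hr)
    (hi_mem_closure K hq fun r hr => by rw [h2]; exact le_hi hK hr)
    (h1 ▸ ht p hp) (h2 ▸ ht q hq) fun ε hε => ?_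
  refine ⟨interior {z | g z = h z.re} ∩ {z | h (lo K.1) - ε < h z.re ∧ h z.re < h (hi K.1) + ε},
    isOpen_interior.inter ((isOpen_lt continuous_const hcr).inter (isOpen_lt hcr continuous_const)),
    fun z hz => ⟨mem_interior_iff_mem_nhds.2 (hg z hz), ?_, ?_⟩, fun z hz _ => ?_⟩
  · have := hm (lo_le hK hz)
    linarith
  · have := hm (le_hi hK hz)
    linarith
  · have h3 : g z = h z.re := by
      have := interior_subset hz.1
      exact this
    rw [h3]
    exact ⟨hz.2.1.le, hz.2.2.le⟩

/-- the width of the component is the oscillation of `re` -/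
theorem osc_re (hE : IsCompact E) (K : Cmp E) :
    osc E (fun z => z.re) K.1 = hi K.1 - lo K.1 :=
  osc_mono_re hE K (h := id) monotone_id continuous_id fun _ _ => Eventually.of_forall fun _ => rfl

/-- `t + τ θ(t)` is monotone for small `τ` -/
lemma monotone_shift {θ : ℝ → ℝ} (hθ : Differentiable ℝ θ) {C τ : ℝ} (hC : ∀ x, |deriv θ x| ≤ C)
    (hτ : |τ| * C ≤ 1) : Monotone fun t => t + τ * θ t := by
  refine monotone_of_deriv_nonneg (differentiable_id.add (hθ.const_mul τ)) fun x => ?_
  have h1 : HasDerivAt (fun t => t + τ * θ t) (1 + τ * deriv θ x) x :=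
    (hasDerivAt_id x).add ((hθ x).hasDerivAt.const_mul τ)
  rw [h1.deriv]
  have h2 : |τ * deriv θ x| ≤ 1 := by
    rw [abs_mul]
    exact (mul_le_mul_of_nonneg_left (hC x) (abs_nonneg τ)).trans hτ
  linarith [neg_abs_le (τ * deriv θ x)]

/-- `L` is above `K` over `(al, be)` (vacuous if `L` does not meet the strip) -/
def Up (K : Set ℂ) (al be : ℝ) (L : Set ℂ) : Prop :=
  L ∩ Complex.re ⁻¹' (Ioo al be) ⊆ above K

open Classical in
/-- the increment of the test function across `L` -/
noncomputable def Del (K : Set ℂ) (al be : ℝ) (θ : ℝ → ℝ) (L : Set ℂ) : ℝ :=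
  if Up K al be L then θ (hi L) - θ (lo L) else 0

lemma abs_Del_le {K : Set ℂ} {al be : ℝ} {θ : ℝ → ℝ} (hθ : Differentiable ℝ θ) {C : ℝ}
    (hC : ∀ x, |deriv θ x| ≤ C) {L : Set ℂ} (hL : lo L ≤ hi L) :
    |Del K al be θ L| ≤ C * (hi L - lo L) := by
  have hC0 : 0 ≤ C := (abs_nonneg _).trans (hC 0)
  unfold Del
  split_ifs
  · have h1 := (convex_univ (𝕜 := ℝ) (E := ℝ)).norm_image_sub_le_of_norm_deriv_le
      (f := θ) (C := C) (x := lo L) (y := hi L) (fun x _ => hθ x) (fun x _ => hC x)
      (mem_univ _) (mem_univ _)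
    rw [Real.norm_eq_abs, Real.norm_eq_abs, abs_of_nonneg (by linarith : 0 ≤ hi L - lo L)] at h1
    exact h1
  · rw [abs_zero]
    exact mul_nonneg hC0 (by linarith)

/-- the oscillation of `re + τ f` at the other components -/
theorem osc_other (hE : IsCompact E) {K : Set ℂ} (hK : IsCompact K)
    (hKs : ∀ t, OrdConnected (sec K t)) {al be : ℝ}
    (hne : ∀ t ∈ Ioo al be, (sec K t).Nonempty) {θ : ℝ → ℝ} (hθ : ContDiff ℝ ∞ θ)
    (hθs : tsupport θ ⊆ Ioo al be) {C τ : ℝ} (hC : ∀ x, |deriv θ x| ≤ C) (hτ : |τ| * C ≤ 1)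
    {κ : ℝ → ℝ} (hκ : ∀ p ∈ E, ∀ᶠ y in 𝓝 p.im, κ y = 1)
    (L : Cmp E) (hLs : ∀ t, OrdConnected (sec L.1 t)) (hd : Disjoint K L.1) :
    osc E (fun z => z.re + τ * (up K θ z * κ z.im)) L.1
      = (hi L.1 - lo L.1) + τ * Del K al be θ L.1 := by
  classical
  have hLc := L.isCompact hE
  have hκ' : ∀ p ∈ L.1, ∀ᶠ z in 𝓝 p, κ z.im = 1 := fun p hp =>
    (Complex.continuous_im.tendsto p).eventually (hκ p (L.subset hp))
  rcases up_on_disjoint hK hKs hLc L.preconn hLs hd hne hθs with ⟨h1, h2⟩ | ⟨h1, h2⟩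
  · have hup : Up K al be L.1 := h1
    rw [osc_mono_re hE L (monotone_shift (hθ.differentiable (by simp)) hC hτ)
      (continuous_id.add (continuous_const.mul hθ.continuous)) ?_]
    · rw [Del, if_pos hup]
      ring
    · intro p hp
      filter_upwards [h2 p hp, hκ' p hp] with z hz1 hz2
      rw [hz1, hz2]
      simp
  · have hD : Del K al be θ L.1 = 0 := by
      unfold Del
      split_ifs with hup
      · have hem : ∀ p ∈ L.1, p.re ∉ Ioo al be := by
          intro p hp hpr
          exact above_disjoint_below (hne _ hpr) (hup ⟨hp, hpr⟩) (h1 ⟨hp, hpr⟩)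
        obtain ⟨p, hp, h3⟩ := exists_lo hLc L.nonempty
        obtain ⟨q, hq, h4⟩ := exists_hi hLc L.nonempty
        rw [← h3, ← h4, image_eq_zero_of_notMem_tsupport (fun hc => hem p hp (hθs hc)),
          image_eq_zero_of_notMem_tsupport (fun hc => hem q hq (hθs hc)), sub_zero]
      · rfl
    rw [osc_mono_re hE L (h := id) monotone_id continuous_id ?_, hD]
    · simp
    · intro p hp
      filter_upwards [h2 p hp] with z hz1
      rw [hz1]
      simp

/-- the oscillation of `re + τ f` at `K` itself does not change -/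
theorem osc_self (hE : IsCompact E) (K : Cmp E) {al be : ℝ} (hal : lo K.1 ≤ al)
    (hbe : be ≤ hi K.1) {θ : ℝ → ℝ} (hθ : ContDiff ℝ ∞ θ)
    (hθs : tsupport θ ⊆ Ioo al be) {C τ : ℝ} (hC : ∀ x, |deriv θ x| ≤ C) (hτ : |τ| * C ≤ 1)
    {κ : ℝ → ℝ} (hκ : ∀ p ∈ E, ∀ᶠ y in 𝓝 p.im, κ y = 1) :
    osc E (fun z => z.re + τ * (up K.1 θ z * κ z.im)) K.1 = hi K.1 - lo K.1 := by
  have hK := K.isCompact hE
  have hm := monotone_shift (hθ.differentiable (by simp)) hC hτ
  have hκ' : ∀ p ∈ K.1, ∀ᶠ z in 𝓝 p, κ z.im = 1 := fun p hp =>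
    (Complex.continuous_im.tendsto p).eventually (hκ p (K.subset hp))
  have hz0 : ∀ t, t ∉ Ioo al be → ∀ᶠ r in 𝓝 t, θ r = 0 := by
    intro t ht
    have h1 : t ∉ tsupport θ := fun hc => ht (hθs hc)
    have := notMem_tsupport_iff_eventuallyEq.1 h1
    filter_upwards [this] with r hr using hr
  have hgt : ∀ p ∈ K.1, p.re ∉ Ioo al be →
      Tendsto (fun z : ℂ => z.re + τ * (up K.1 θ z * κ z.im)) (𝓝[Eᶜ] p) (𝓝 p.re) := by
    intro p hp hpr
    have h1 : ∀ᶠ z : ℂ in 𝓝 p, z.re = z.re + τ * (up K.1 θ z * κ z.im) := by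
      filter_upwards [(Complex.continuous_re.tendsto p).eventually (hz0 _ hpr)] with z hz
      have : up K.1 θ z = 0 := by
        rcases up_mem (K := K.1) (θ := θ) z with h | h
        · rw [h, hz]
        · exact h
      rw [this]; simp
    have h2 : Tendsto (fun z : ℂ => z.re) (𝓝 p) (𝓝 p.re) := Complex.continuous_re.tendsto p
    exact (h2.congr' h1).mono_left nhdsWithin_le_nhds
  obtain ⟨p, hp, h1⟩ := exists_lo hK K.nonempty
  obtain ⟨q, hq, h2⟩ := exists_hi hK K.nonempty
  have hp' : p.re ∉ Ioo al be := fun h => by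
    have := h.1
    linarith
  have hq' : q.re ∉ Ioo al be := fun h => by
    have := h.2
    linarith
  refine osc_eq (lo_le_hi hK K.nonempty) hp hq
    (lo_mem_closure K hp fun r hr => by rw [h1]; exact lo_le hK hr)
    (hi_mem_closure K hq fun r hr => by rw [h2]; exact le_hi hK hr)
    (h1 ▸ hgt p hp hp') (h2 ▸ hgt q hq hq') fun ε hε => ?_
  have hθlo : θ (lo K.1) = 0 := by
    rw [← h1]; exact (hz0 _ hp').self_of_nhds
  have hθhi : θ (hi K.1) = 0 := by
    rw [← h2]; exact (hz0 _ hq').self_of_nhds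
  refine ⟨interior {z | κ z.im = 1} ∩ {z | lo K.1 - ε < z.re ∧ z.re < hi K.1 + ε},
    isOpen_interior.inter ((isOpen_lt continuous_const Complex.continuous_re).inter
      (isOpen_lt Complex.continuous_re continuous_const)),
    fun z hz => ⟨mem_interior_iff_mem_nhds.2 (hκ' z hz), ?_, ?_⟩, fun z hz _ => ?_⟩
  · have := lo_le hK hz
    linarith
  · have := le_hi hK hz
    linarith
  · have h3 : κ z.im = 1 := by
      have := interior_subset hz.1
      exact this
    rw [h3, mul_one]
    obtain ⟨-, h4, h5⟩ := hz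
    rcases up_mem (K := K.1) (θ := θ) z with h | h
    · rw [h]
      constructor
      · rcases le_total z.re (lo K.1) with h6 | h6
        · have h7 : θ z.re = 0 := (hz0 _ (fun h => by have := h.1; linarith)).self_of_nhds
          rw [h7]; linarith
        · have h7 := hm h6
          simp only [hθlo, mul_zero, add_zero] at h7
          linarith
      · rcases le_total z.re (hi K.1) with h6 | h6
        · have h7 := hm h6
          simp only [hθhi, mul_zero, add_zero] at h7
          linarith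
        · have h7 : θ z.re = 0 := (hz0 _ (fun h => by have := h.2; linarith)).self_of_nhds
          rw [h7]; linarith
    · rw [h]
      constructor <;> linarith

end Crest.Agent.R105.Sqr_185
end

-- ▼ part R105/Sqr6_185
section

/-!
# R105 SQR (6): exact squares from the `T`-minimality in the picture (helper185)

`MINT E φ` : the `T`-functional at `re` does not decrease in the direction `φ`.
`exists_sqK` : every component of positive width is an exact square with attached vertical
pieces over a null set.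
-/

set_option autoImplicit false

open Set Filter Topology MeasureTheory Metric
open scoped ContDiff NNReal

namespace Crest.Agent.R105.Sqr_185

open Tc_808 Bd_775

/-- `T`-minimality of `re` in the direction `φ` (difference form) -/
def MINT (E : Set ℂ) (φ : ℂ → ℝ) : Prop :=
  0 ≤ 2 * (∫ w in Eᶜ, fderiv ℝ φ w 1) + (∫ w in Eᶜ, en φ w)
    + ∑' K : Cmp E, (osc E (fun w => w.re + φ w) K.1 ^ 2 - osc E (fun w => w.re) K.1 ^ 2)

/-- width of a component -/
noncomputable def wd (K : Set ℂ) : ℝ := hi K - lo K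

lemma linear_of_quadratic {A B δ : ℝ} (hδ : 0 < δ) (h : ∀ τ : ℝ, |τ| ≤ δ → 0 ≤ 2 * τ * A + τ ^ 2 * B) :
    A = 0 := by
  by_contra hA
  -- choose `τ` of sign opposite to `A`, small
  have hA0 : 0 < |A| := abs_pos.2 hA
  set t : ℝ := min δ (|A| / (|B| + 1)) with ht
  have ht0 : 0 < t := lt_min hδ (by positivity)
  have ht1 : t * (|B| + 1) ≤ |A| := by
    have h1 : t ≤ |A| / (|B| + 1) := min_le_right _ _
    rwa [le_div_iff₀ (by positivity)] at h1
  have hB : t ^ 2 * B ≤ t * |A| := by
    have h1 : t ^ 2 * B ≤ t ^ 2 * |B| := mul_le_mul_of_nonneg_left (le_abs_self B) (by positivity)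
    have h2 : t ^ 2 * |B| ≤ t * |A| := by nlinarith
    linarith
  rcases lt_or_gt_of_ne hA with h1 | h1
  · have h2 := h t (by rw [abs_of_pos ht0]; exact min_le_left _ _)
    rw [abs_of_neg h1] at hB
    nlinarith
  · have h2 := h (-t) (by rw [abs_neg, abs_of_pos ht0]; exact min_le_left _ _)
    rw [abs_of_pos h1] at hB
    nlinarith

variable {E : Set ℂ}

/-- first variation in the direction of `θ(x) κ(y)` above `K` -/
theorem firstVariation (hE : IsCompact E) (hs : ∀ L : Cmp E, ∀ t, OrdConnected (sec L.1 t))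
    (hsum : Summable fun L : Cmp E => wd L.1 ^ 2) (K : Cmp E) {al be : ℝ} (hal : lo K.1 ≤ al)
    (hbe : be ≤ hi K.1) {θ : ℝ → ℝ} (hθ : ContDiff ℝ ∞ θ) (hθc : HasCompactSupport θ)
    (hθs : tsupport θ ⊆ Ioo al be) {κ : ℝ → ℝ} (hκ : ∀ p ∈ E, ∀ᶠ y in 𝓝 p.im, κ y = 1)
    {δ : ℝ} (hδ : 0 < δ)
    (hmin : ∀ τ : ℝ, |τ| ≤ δ → MINT E (fun z => τ * (up K.1 θ z * κ z.im))) :
    (∫ w in Eᶜ, fderiv ℝ (fun w => up K.1 θ w * κ w.im) w 1)
      + ∑' L : Cmp E, wd L.1 * Del K.1 al be θ L.1 = 0 := by
  classical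
  have hK := K.isCompact hE
  have hne : ∀ t ∈ Ioo al be, (sec K.1 t).Nonempty := fun t ht =>
    sec_nonempty hK K.preconn K.nonempty ⟨by linarith [ht.1], by linarith [ht.2]⟩
  have hθ'c : Continuous (deriv θ) := hθ.continuous_deriv (by simp)
  obtain ⟨C, hC⟩ := hθc.deriv.exists_bound_of_continuous hθ'c
  have hC0 : 0 ≤ C := (norm_nonneg _).trans (hC 0)
  have hθd : Differentiable ℝ θ := hθ.differentiable (by simp)
  have hw0 : ∀ L : Cmp E, 0 ≤ wd L.1 := fun L => by
    have := lo_le_hi (L.isCompact hE) L.nonempty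
    simp only [wd]; linarith
  have hDel : ∀ L : Cmp E, |Del K.1 al be θ L.1| ≤ C * wd L.1 := fun L =>
    abs_Del_le hθd hC (by have := hw0 L; simp only [wd] at this; linarith)
  have hDK : Ioo al be = ∅ ∨ Del K.1 al be θ K.1 = 0 := by
    by_cases h : (Ioo al be).Nonempty
    · right
      obtain ⟨t, ht⟩ := h
      unfold Del
      split_ifs with hup
      · obtain ⟨y, hy⟩ := hne t ht
        exact absurd hy (not_mem_of_above (hup ⟨hy, ht⟩))
      · rfl
    · left; exact not_nonempty_iff_eq_empty.1 h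
  -- the oscillations
  have hosc : ∀ τ : ℝ, |τ| * C ≤ 1 → ∀ L : Cmp E,
      osc E (fun z => z.re + τ * (up K.1 θ z * κ z.im)) L.1 = wd L.1 + τ * Del K.1 al be θ L.1 := by
    intro τ hτ L
    by_cases hLK : L = K
    · subst hLK
      rw [osc_self hE L hal hbe hθ hθs hC hτ hκ]
      rcases hDK with h | h
      · have hθ0 : ∀ t, θ t = 0 := by
          intro t
          apply image_eq_zero_of_notMem_tsupport
          intro hc
          have := hθs hc
          rw [h] at this
          exact this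
        have : Del L.1 al be θ L.1 = 0 := by
          unfold Del
          split_ifs
          · rw [hθ0, hθ0, sub_zero]
          · rfl
        rw [this, mul_zero, add_zero]
        rfl
      · rw [h, mul_zero, add_zero]
        rfl
    · exact osc_other hE hK (hs K) hne hθ hθs hC hτ hκ L (hs L)
        (Cmp.disjoint (fun h => hLK h.symm))
  -- the sums
  have hS1 : Summable fun L : Cmp E => wd L.1 * Del K.1 al be θ L.1 := by
    refine Summable.of_norm_bounded (hsum.mul_left C) fun L => ?_
    rw [norm_mul, Real.norm_eq_abs, Real.norm_eq_abs, abs_of_nonneg (hw0 L)]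
    nlinarith [hDel L, hw0 L, abs_nonneg (Del K.1 al be θ L.1)]
  have hS2 : Summable fun L : Cmp E => Del K.1 al be θ L.1 ^ 2 := by
    refine Summable.of_nonneg_of_le (fun _ => sq_nonneg _) (fun L => ?_) (hsum.mul_left (C ^ 2))
    rw [← sq_abs, ← mul_pow]
    exact pow_le_pow_left₀ (abs_nonneg _) (hDel L) 2
  refine linear_of_quadratic (δ := min δ (1 / (C + 1))) (lt_min hδ (by positivity))
    (B := (∫ w in Eᶜ, en (fun w => up K.1 θ w * κ w.im) w)
      + ∑' L : Cmp E, Del K.1 al be θ L.1 ^ 2) fun τ hτ => ?_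
  have hτC : |τ| * C ≤ 1 := by
    have h1 : |τ| ≤ 1 / (C + 1) := hτ.trans (min_le_right _ _)
    rw [le_div_iff₀ (by positivity)] at h1
    nlinarith [abs_nonneg τ]
  have h := hmin τ (hτ.trans (min_le_left _ _))
  unfold MINT at h
  have e1 : ∀ w, fderiv ℝ (fun z => τ * (up K.1 θ z * κ z.im)) w
      = τ • fderiv ℝ (fun w => up K.1 θ w * κ w.im) w := by
    intro w
    have h1 := congrFun (fderiv_const_smul_field (𝕜 := ℝ) (f := fun w => up K.1 θ w * κ w.im) τ) w
    exact h1
  have e2 : ∫ w in Eᶜ, fderiv ℝ (fun z => τ * (up K.1 θ z * κ z.im)) w 1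
      = τ * ∫ w in Eᶜ, fderiv ℝ (fun w => up K.1 θ w * κ w.im) w 1 := by
    rw [← integral_const_mul]
    congr 1
    ext w
    rw [e1 w]
    rfl
  have e3 : ∫ w in Eᶜ, en (fun z => τ * (up K.1 θ z * κ z.im)) w
      = τ ^ 2 * ∫ w in Eᶜ, en (fun w => up K.1 θ w * κ w.im) w := by
    rw [← integral_const_mul]
    congr 1
    ext w
    simp only [en, gx, gy]
    rw [e1 w]
    simp only [_root_.smul_apply, smul_eq_mul]
    ring
  have e4 : ∀ L : Cmp E, osc E (fun z => z.re + τ * (up K.1 θ z * κ z.im)) L.1 ^ 2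
      - osc E (fun w => w.re) L.1 ^ 2
      = 2 * τ * (wd L.1 * Del K.1 al be θ L.1) + τ ^ 2 * Del K.1 al be θ L.1 ^ 2 := by
    intro L
    rw [hosc τ hτC L, osc_re hE L]
    simp only [wd]
    ring
  rw [e2, e3, tsum_congr e4, Summable.tsum_add (hS1.mul_left _) (hS2.mul_left _), tsum_mul_left,
    tsum_mul_left] at h
  nlinarith [h]

/-- compact sections which are intervals of known length -/
lemma sec_eq_Icc {K : Set ℂ} (hK : IsCompact K) {t s : ℝ} (hs : OrdConnected (sec K t))
    (h0 : 0 < s) (hv : volume (sec K t) = ENNReal.ofReal s) :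
    sec K t = Icc (sInf (sec K t)) (sInf (sec K t) + s) := by
  have hc := isCompact_sec hK t
  have hne : (sec K t).Nonempty := by
    rw [nonempty_iff_ne_empty]
    intro h
    rw [h, measure_empty] at hv
    exact absurd (ENNReal.ofReal_pos.2 h0) (by rw [← hv]; simp)
  have hlo := hc.sInf_mem hne
  have hhi := hc.sSup_mem hne
  have heq : sec K t = Icc (sInf (sec K t)) (sSup (sec K t)) :=
    Subset.antisymm (fun y hy => ⟨csInf_le hc.bddBelow hy, le_csSup hc.bddAbove hy⟩)
      (hs.out hlo hhi)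
  have hle : sInf (sec K t) ≤ sSup (sec K t) := csInf_le hc.bddBelow hhi
  have h2 : volume (sec K t) = ENNReal.ofReal (sSup (sec K t) - sInf (sec K t)) := by
    conv_lhs => rw [heq]
    rw [Real.volume_Icc]
  rw [h2] at hv
  have h3 : sSup (sec K t) - sInf (sec K t) = s := by
    have := congrArg ENNReal.toReal hv
    rwa [ENNReal.toReal_ofReal (by linarith), ENNReal.toReal_ofReal h0.le] at this
  have h4 : sSup (sec K t) = sInf (sec K t) + s := by linarith
  rw [← h4]
  exact heq

/-- **exact squares.** `E` compact, all vertical sections of the components are intervals, a.e.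
section of the component `L` over its projection has length `wd L` (and measure `0` elsewhere),
the components of width `0` are together null, `Σ wd² < ∞`, and the `T`-functional does not
decrease in the directions `τ θ(x) κ(y) 1_{above K}`. Then every component of positive width is
an exact square plus vertical pieces over a null set. -/
theorem exists_sqK (hE : IsCompact E) (hs : ∀ L : Cmp E, ∀ t, OrdConnected (sec L.1 t))
    (hsum : Summable fun L : Cmp E => wd L.1 ^ 2)
    (hvol : ∀ L : Cmp E, 0 < wd L.1 → ∀ᵐ t : ℝ, volume (sec L.1 t)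
      = (Icc (lo L.1) (hi L.1)).indicator (fun _ => ENNReal.ofReal (wd L.1)) t)
    (hrest : volume (E \ ⋃ L : {L : Cmp E // 0 < wd L.1}, L.1.1) = 0) (K : Cmp E)
    (hK0 : 0 < wd K.1)
    (hmin : ∀ θ : ℝ → ℝ, ContDiff ℝ ∞ θ → HasCompactSupport θ →
      tsupport θ ⊆ Ioo (lo K.1) (hi K.1) →
      ∀ κ : ℝ → ℝ, ContDiff ℝ ∞ κ → HasCompactSupport κ → (∀ p ∈ E, ∀ᶠ y in 𝓝 p.im, κ y = 1) →
      ∃ δ > 0, ∀ τ : ℝ, |τ| ≤ δ → MINT E (fun z => τ * (up K.1 θ z * κ z.im))) :
    ∃ b : ℝ, SqK K.1 (lo K.1) b (wd K.1) := by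
  classical
  have hK := K.isCompact hE
  have hw0 : ∀ L : Cmp E, 0 ≤ wd L.1 := fun L => by
    have := lo_le_hi (L.isCompact hE) L.nonempty
    simp only [wd]; linarith
  have hhi : hi K.1 = lo K.1 + wd K.1 := by simp only [wd]; ring
  have hlh : lo K.1 < hi K.1 := by simp only [wd] at hK0; linarith
  -- the index set is countable
  have hcnt : Countable {L : Cmp E // 0 < wd L.1} := by
    have h1 := hsum.countable_support
    refine (h1.mono ?_).to_subtype
    intro L hL
    have hL' : 0 < wd L.1 := hL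
    simp only [Function.mem_support]
    positivity
  obtain ⟨R₀, hR₀⟩ := hE.isBounded.exists_norm_le
  set R : ℝ := |R₀| + 1 with hR
  have hEb : ∀ p ∈ E, -R < p.im ∧ p.im < R := by
    intro p hp
    have h1 := (Complex.abs_im_le_norm p).trans (hR₀ p hp)
    have h2 := abs_le.1 (h1.trans (le_abs_self R₀))
    constructor
    · simp only [hR]; linarith [h2.1]
    · simp only [hR]; linarith [h2.2]
  -- cut-off in `y`
  obtain ⟨κ, hκc, hκ0, hκ1⟩ : ∃ κ : ℝ → ℝ, ContDiff ℝ ∞ κ ∧ HasCompactSupport κ ∧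
      ∀ y ∈ Icc (-R) R, κ y = 1 := by
    have hRpos : 0 < R := by positivity
    let B : ContDiffBump (0 : ℝ) := ⟨R, R + 1, hRpos, by linarith⟩
    refine ⟨B, B.contDiff, B.hasCompactSupport, fun y hy => B.one_of_mem_closedBall ?_⟩
    rw [mem_closedBall, Real.dist_eq, sub_zero, abs_le]
    exact hy
  have hκE : ∀ p ∈ E, ∀ᶠ y in 𝓝 p.im, κ y = 1 := by
    intro p hp
    have := hEb p hp
    filter_upwards [isOpen_Ioo.mem_nhds (⟨this.1, this.2⟩ : p.im ∈ Ioo (-R) R)] with y hy
    exact hκ1 y ⟨hy.1.le, hy.2.le⟩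
  have hne : ∀ t ∈ Ioo (lo K.1) (hi K.1), (sec K.1 t).Nonempty := fun t ht =>
    sec_nonempty hK K.preconn K.nonempty ⟨ht.1.le, ht.2.le⟩
  -- a.e. sections of `K`
  have hb : ∀ᵐ t ∂(volume.restrict (Ioo (lo K.1) (hi K.1))),
      sec K.1 t = Icc (sInf (sec K.1 t)) (sInf (sec K.1 t) + wd K.1) := by
    rw [ae_restrict_iff' measurableSet_Ioo]
    filter_upwards [hvol K hK0] with t ht htI
    have htI' : t ∈ Icc (lo K.1) (hi K.1) := ⟨htI.1.le, htI.2.le⟩
    rw [indicator_of_mem htI'] at ht
    exact sec_eq_Icc hK (hs K t) hK0 ht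
  rw [hhi] at hb hne
  refine sqK_of_firstVariation hK (M := R) hK0
    (fun p hp => ⟨lo_le hK hp, by rw [← hhi]; exact le_hi hK hp⟩)
    (fun p hp => (hEb p (K.subset hp)).2.le) (b := fun t => sInf (sec K.1 t)) hb ?_
  intro θ hθ hθc hθs
  rw [← hhi] at hθs hne ⊢
  obtain ⟨δ, hδ, hmin'⟩ := hmin θ hθ hθc hθs κ hκc hκ0 hκE
  have hFV := firstVariation hE hs hsum K le_rfl le_rfl hθ hθc hθs hκE hδ hmin'
  rw [integral_up hE hK K.subset (hs K) hne (fun p hp => (hEb p hp).2)
    (fun p hp => (hEb p hp).1) hθ hθc hθs hκc hκ0 hκ1] at hFV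
  -- index family
  set up' : Set {L : Cmp E // 0 < wd L.1} := {L | Up K.1 (lo K.1) (hi K.1) L.1.1} with hup'
  refine hF_of_firstVariation (ι := {L : Cmp E // 0 < wd L.1}) hE hK K.subset (al := lo K.1)
    (be := hi K.1) (M := R) hne
    (fun L => L.1.1) (fun L => L.1.isCompact hE) (fun L => L.1.subset)
    (fun L L' hLL => Cmp.disjoint fun h => hLL (Subtype.ext h))
    (fun L => lo L.1.1) (fun L => hi L.1.1) (fun L => lo_le_hi (L.1.isCompact hE) L.1.nonempty)
    (hsum.comp_injective Subtype.val_injective) ?_ ?_ up' (fun L hL => hL) ?_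
    (fun p hp => (hEb p hp).2) hθ hθc hθs ?_
  · -- sections of the solids
    intro L
    have h2 : ∀ᵐ t : ℝ, t ∉ ({lo L.1.1, hi L.1.1} : Set ℝ) :=
      measure_eq_zero_iff_ae_notMem.1 ((Set.toFinite _).measure_zero _)
    filter_upwards [hvol L.1 L.2, h2] with t h1 h2
    rw [h1]
    by_cases ht : t ∈ Ioo (lo L.1.1) (hi L.1.1)
    · have ht' : t ∈ Icc (lo L.1.1) (hi L.1.1) := ⟨ht.1.le, ht.2.le⟩
      rw [indicator_of_mem ht, indicator_of_mem ht']
      rfl
    · rw [indicator_of_notMem ht, indicator_of_notMem]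
      rintro ⟨h3, h4⟩
      refine ht ⟨lt_of_le_of_ne h3 ?_, lt_of_le_of_ne h4 ?_⟩
      · rintro rfl; exact h2 (by simp)
      · rintro rfl; exact h2 (by simp)
  · -- the rest is null on a.e. line
    have hm : MeasurableSet (E \ (K.1 ∪ ⋃ L : {L : Cmp E // 0 < wd L.1}, L.1.1)) :=
      hE.isClosed.measurableSet.diff (hK.isClosed.measurableSet.union
        (MeasurableSet.iUnion fun L => (L.1.isCompact hE).isClosed.measurableSet))
    have h0 : volume (E \ (K.1 ∪ ⋃ L : {L : Cmp E // 0 < wd L.1}, L.1.1)) = 0 := by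
      refine measure_mono_null ?_ hrest
      rintro p ⟨h1, h2⟩
      exact ⟨h1, fun h3 => h2 (Or.inr h3)⟩
    refine ae_restrict_of_ae ?_
    have h1 := Complex.volume_preserving_equiv_real_prod.symm.measure_preimage
      hm.nullMeasurableSet
    rw [h0, Measure.volume_eq_prod] at h1
    have h2 := (Measure.measure_prod_null
      (Complex.volume_preserving_equiv_real_prod.symm.measurable hm)).1 h1
    filter_upwards [h2] with t ht
    exact ht
  · -- not above
    intro L hL p hp hpa
    have hLK : L.1 ≠ K ∨ L.1 = K := (ne_or_eq _ _)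
    rcases hLK with h | h
    · rcases side_of_disjoint hK (hs K) (L.1.isCompact hE) L.1.preconn (hs L.1)
        (Cmp.disjoint (fun hc => h hc.symm)) ordConnected_Ioo hne with h1 | h1
      · exact hL h1
      · exact above_disjoint_below (hne _ hp.2) hpa (h1 hp)
    · have : p ∈ K.1 := by
        have := hp.1
        rw [h] at this
        exact this
      exact not_mem_of_above hpa this
  · -- the sum
    refine Eq.trans ?_ hFV
    congr 1
    have h1 : (fun L : Cmp E => wd L.1 * Del K.1 (lo K.1) (hi K.1) θ L.1).support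
        ⊆ {L : Cmp E | 0 < wd L.1} := by
      intro L hL
      rcases (hw0 L).lt_or_eq with h | h
      · exact h
      · exfalso
        apply hL
        simp only
        rw [← h, zero_mul]
    rw [← tsum_subtype_eq_of_support_subset h1]
    refine tsum_congr fun L => ?_
    by_cases hL : L ∈ up'
    · rw [indicator_of_mem hL]
      have hL' : Up K.1 (lo K.1) (hi K.1) L.1.1 := hL
      simp only [wd, Del]
      rw [if_pos hL']
    · rw [indicator_of_notMem hL]
      have hL' : ¬ Up K.1 (lo K.1) (hi K.1) L.1.1 := hL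
      simp only [wd, Del]
      rw [if_neg hL', mul_zero]

end Crest.Agent.R105.Sqr_185
end

-- ▼ part R105/Pct1_185
section

/-!
# R105 PIC-T (1): z-plane <-> picture plane with solids (helper185)

`U` exterior domain, `F` univalent on `U`, fixing infinity, `V = F '' U`.
* `eqv h : Cmp Uᶜ ≃ Cmp Vᶜ` with `map F (eK Uᶜ K) = eK Vᶜ (eqv K)`;
* `osc_pull`, `Jmp_pull`, `Q_pull`, `TT_pull`, `TF_pull`;
* `MINZ U x φ` : the `T`-functional at `x` does not decrease in the direction `φ`;
  `minz_iff : MINZ U x ψ ↔ MINT Vᶜ φ` for `x = re F`, `ψ = φ ∘ F` on `U`.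
-/

set_option autoImplicit false

open Set Filter MeasureTheory Metric
open scoped Topology ENNReal NNReal
open Crest.AnalysisR
open Crest.Agent.R105.Ends_897 (eF EndMap oscF)

namespace Crest.Agent.R105.Pct_185

open Tc_808 Sqr_185 Tra_937

noncomputable section

variable {U V : Set ℂ} {f : ℂ → ℂ}

/-! ### the correspondence of the components -/

lemma exists_toCmp (h : EndMap U V f) (K : Cmp Uᶜ) :
    ∃ L : Cmp Vᶜ, map f (eK Uᶜ K.1) = eK Vᶜ L.1 := by
  obtain ⟨K, z, hz, rfl⟩ := K
  obtain ⟨ζ, hζ, he⟩ := h.exists_end hz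
  refine ⟨⟨connectedComponentIn Vᶜ ζ, ζ, hζ, rfl⟩, ?_⟩
  rw [eK_eq_eF, eK_eq_eF]
  exact he

/-- the component of `Vᶜ` corresponding to the component `K` of `Uᶜ` -/
def toCmp (h : EndMap U V f) (K : Cmp Uᶜ) : Cmp Vᶜ := (exists_toCmp h K).choose

lemma toCmp_spec (h : EndMap U V f) (K : Cmp Uᶜ) :
    map f (eK Uᶜ K.1) = eK Vᶜ (toCmp h K).1 := (exists_toCmp h K).choose_spec

lemma eK_injective {V : Set ℂ} (hV : IsExteriorDomain V) {L L' : Cmp Vᶜ}
    (h : eK Vᶜ L.1 = eK Vᶜ L'.1) : L = L' := by
  obtain ⟨L, z, hz, rfl⟩ := L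
  obtain ⟨L', z', hz', rfl⟩ := L'
  rw [eK_eq_eF, eK_eq_eF] at h
  exact Cmp.ext (Ends_897.eF_injective hV hz h)

lemma toCmp_injective (h : EndMap U V f) : Function.Injective (toCmp h) := by
  intro K K' he
  have h1 := toCmp_spec h K
  have h2 := toCmp_spec h K'
  rw [he, ← h2] at h1
  obtain ⟨K, z, hz, rfl⟩ := K
  obtain ⟨K', z', hz', rfl⟩ := K'
  rw [eK_eq_eF, eK_eq_eF] at h1
  exact Cmp.ext (h.map_injective hz h1)

lemma toCmp_surjective (h : EndMap U V f) : Function.Surjective (toCmp h) := by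
  rintro ⟨L, ζ, hζ, rfl⟩
  obtain ⟨z, hz, he⟩ := h.exists_end' hζ
  let K : Cmp Uᶜ := ⟨connectedComponentIn Uᶜ z, z, hz, rfl⟩
  refine ⟨K, ?_⟩
  apply eK_injective h.hV
  refine (toCmp_spec h K).symm.trans ?_
  change map f (eK Uᶜ (connectedComponentIn Uᶜ z)) = eK Vᶜ (connectedComponentIn Vᶜ ζ)
  rw [eK_eq_eF, eK_eq_eF]
  exact he

/-- **the correspondence of the components** -/
def eqv (h : EndMap U V f) : Cmp Uᶜ ≃ Cmp Vᶜ :=
  Equiv.ofBijective (toCmp h) ⟨toCmp_injective h, toCmp_surjective h⟩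

lemma map_eK (h : EndMap U V f) (K : Cmp Uᶜ) : map f (eK Uᶜ K.1) = eK Vᶜ (eqv h K).1 :=
  toCmp_spec h K

/-- a neighbourhood of a component in the picture contains the image of a neighbourhood -/
lemma exists_nhd_of (h : EndMap U V f) (K : Cmp Uᶜ) {P : Set ℂ} (hP : IsOpen P)
    (hKP : (eqv h K).1 ⊆ P) : ∃ O, IsOpen O ∧ K.1 ⊆ O ∧ ∀ z ∈ O, z ∈ U → f z ∈ P := by
  have h1 : P ∩ V ∈ eK Vᶜ (eqv h K).1 := by
    rw [mem_eK]
    exact ⟨P, hP, hKP, fun z hz hzV => ⟨hz, not_not.1 hzV⟩⟩
  rw [← map_eK h K] at h1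
  obtain ⟨O, hO, hKO, hsub⟩ := mem_eK.1 (mem_map.1 h1)
  exact ⟨O, hO, hKO, fun z hz hzU => (hsub z hz (not_not.2 hzU)).1⟩

/-! ### transport of oscillations -/

/-- **osc transport** -/
theorem osc_pull (h : EndMap U V f) {u v : ℂ → ℝ} (huv : ∀ z ∈ U, v z = u (f z)) (K : Cmp Uᶜ) :
    osc Uᶜ v K.1 = osc Vᶜ u (eqv h K).1 := by
  have h1 : osc Uᶜ v K.1 = osc Uᶜ (u ∘ f) K.1 :=
    osc_congr isOpen_univ (subset_univ _) fun z _ hz => huv z (not_not.1 hz)
  rw [h1]
  unfold osc
  rw [Ends_897.oscF_comp, map_eK h K]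


theorem tsum_pull (h : EndMap U V f) {α : Type*} [AddCommMonoid α] [TopologicalSpace α] [T2Space α]
    {A : Cmp Uᶜ → α} {B : Cmp Vᶜ → α} (hAB : ∀ K, A K = B (eqv h K)) : ∑' K, A K = ∑' L, B L := by
  rw [← (eqv h).tsum_eq B]
  exact tsum_congr hAB

theorem summable_pull (h : EndMap U V f) {u v : ℂ → ℝ} (huv : ∀ z ∈ U, v z = u (f z)) :
    (Summable fun K : Cmp Uᶜ => osc Uᶜ v K.1 ^ 2) ↔ Summable fun L : Cmp Vᶜ => osc Vᶜ u L.1 ^ 2 := by
  rw [← (eqv h).summable_iff]
  refine summable_congr fun K => ?_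
  rw [osc_pull h huv K]
  rfl

/-! ### transport of the classes -/

variable {F : ℂ → ℂ}

theorem Q_pull (hF : Uni U F) {u v : ℂ → ℝ} (huv : ∀ z ∈ U, v z = u (F z))
    (hv : ∃ M, ∀ z, |v z| ≤ M) (hu : Bd_775.Q (F '' U)ᶜ u) : Bd_775.Q Uᶜ v := by
  have hE : EqOn (u ∘ F) v U := fun z hz => (huv z hz).symm
  have hL : LocallyLipschitzOn (F '' U) u := by
    have := hu.loc
    rwa [compl_compl] at this
  refine ⟨hv, ?_, ?_⟩
  · rw [compl_compl]
    exact locLip_congr hE (hF.locLip_comp hL)
  · rw [compl_compl]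
    have h0 := hu.fin
    rw [compl_compl] at h0
    have h1 := (hF.integrableOn_en hF.op.measurableSet subset_rfl (fun _ => 1)
      (ae_diff_of_locLip hF.isOpen_image hL)).2 (by simp only [one_mul]; exact h0)
    simp only [one_mul] at h1
    exact h1.congr_fun (en_congr hF.op hE) hF.op.measurableSet

theorem TT_pull (h : EndMap U (F '' U) F) (hF : Uni U F) {u v : ℂ → ℝ}
    (huv : ∀ z ∈ U, v z = u (F z)) (hv : ∃ M, ∀ z, |v z| ≤ M) (hu : TT (F '' U)ᶜ u) : TT Uᶜ v :=
  ⟨Q_pull hF huv hv hu.q, (summable_pull h huv).2 hu.sum⟩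


/-! ### transport of the minimality -/

/-- the `T`-functional at `x` does not decrease in the direction `φ` (z-plane) -/
def MINZ (U : Set ℂ) (x φ : ℂ → ℝ) : Prop :=
  0 ≤ 2 * (∫ z in U, dot x φ z) + (∫ z in U, en φ z)
    + ∑' K : Cmp Uᶜ, (osc Uᶜ (fun z => x z + φ z) K.1 ^ 2 - osc Uᶜ x K.1 ^ 2)

/-- **transport of the `T`-minimality** -/
theorem minz_iff (h : EndMap U (F '' U) F) (hF : Uni U F) {x φ ψ : ℂ → ℝ}
    (hx : ∀ z ∈ U, x z = (F z).re) (hφ : LocallyLipschitzOn (F '' U) φ)
    (hψ : ∀ z ∈ U, ψ z = φ (F z)) : MINZ U x ψ ↔ MINT (F '' U)ᶜ φ := by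
  have hEψ : EqOn ψ (φ ∘ F) U := hψ
  have hEx : EqOn x (fun z => (F z).re) U := hx
  have e1 : ∫ z in U, dot x ψ z = ∫ w in (F '' U)ᶜᶜ, fderiv ℝ φ w 1 := by
    have h1 := hF.integral_dot_re hF.op.measurableSet subset_rfl (fun _ => 1)
      (ae_diff_of_locLip hF.isOpen_image hφ)
    simp only [one_mul] at h1
    rw [compl_compl]
    refine Eq.trans ?_ h1
    exact setIntegral_congr_fun hF.op.measurableSet (dot_congr hF.op hEx hEψ)
  have e2 : ∫ z in U, en ψ z = ∫ w in (F '' U)ᶜᶜ, Bd_775.en φ w := by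
    have h1 := hF.integral_en hF.op.measurableSet subset_rfl (fun _ => 1)
      (ae_diff_of_locLip hF.isOpen_image hφ)
    simp only [one_mul] at h1
    rw [compl_compl]
    refine Eq.trans ?_ h1
    exact setIntegral_congr_fun hF.op.measurableSet (en_congr hF.op hEψ)
  have e3 : ∑' K : Cmp Uᶜ, (osc Uᶜ (fun z => x z + ψ z) K.1 ^ 2 - osc Uᶜ x K.1 ^ 2)
      = ∑' L : Cmp (F '' U)ᶜ, (osc (F '' U)ᶜ (fun w => w.re + φ w) L.1 ^ 2
          - osc (F '' U)ᶜ (fun w => w.re) L.1 ^ 2) := by
    refine tsum_pull h fun K => ?_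
    rw [osc_pull h (u := fun w => w.re + φ w) (fun z hz => by rw [hx z hz, hψ z hz]) K,
      osc_pull h (u := fun w => w.re) hx K]
  unfold MINZ MINT
  rw [e1, e2, e3]

/-- the oscillation of `x = re F` is the width in the picture -/
theorem osc_x (h : EndMap U (F '' U) F) {x : ℂ → ℝ} (hx : ∀ z ∈ U, x z = (F z).re) (K : Cmp Uᶜ) :
    osc Uᶜ x K.1 = wd (eqv h K).1 := by
  rw [osc_pull h (u := fun w => w.re) hx K,
    osc_re (Ends_897.isCompact_compl h.hV) (eqv h K)]
  rfl

theorem summable_wd (h : EndMap U (F '' U) F) {x : ℂ → ℝ} (hx : ∀ z ∈ U, x z = (F z).re)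
    (hs : Summable fun K : Cmp Uᶜ => osc Uᶜ x K.1 ^ 2) :
    Summable fun L : Cmp (F '' U)ᶜ => wd L.1 ^ 2 := by
  rw [← (eqv h).summable_iff]
  refine hs.congr fun K => ?_
  rw [osc_x h hx K]
  rfl


end

end Crest.Agent.R105.Pct_185
end

-- ▼ part R105/Sct1_636
section

/-!
# R105 (S0138, T-frame), SECT (helper636), part 1: vertical sections of components are intervals

`E ⊆ ℂ` compact.  If no component of `Eᶜ ∩ {t < re}` and of `Eᶜ ∩ {re < t}` is bounded, then the
section over `t` of every component of `E` is order connected.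
-/

namespace Crest.Agent.R105.Sct_636

open Set Topology

/-- the real coordinates -/
noncomputable def cr (z : ℂ) : ℝ × ℝ := (z.re, z.im)

theorem continuous_cr : Continuous cr := by
  unfold cr
  fun_prop

/-- From a point `z` of an open set `W` in an unbounded component one can reach points outside of
every ball by a compact connected subset of `W`. -/
theorem exists_continuum {W : Set ℂ} (hW : IsOpen W) {z : ℂ} (hz : z ∈ W)
    (hub : ¬ Bornology.IsBounded (connectedComponentIn W z)) (R : ℝ) :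
    ∃ (H : Set ℂ) (w : ℂ), IsCompact H ∧ IsPreconnected H ∧ H ⊆ W ∧ z ∈ H ∧ w ∈ H ∧ R < ‖w‖ := by
  have hex : ∃ w ∈ connectedComponentIn W z, R < ‖w‖ := by
    by_contra hcon
    push Not at hcon
    exact hub ((Metric.isBounded_iff_subset_closedBall 0).2
      ⟨R, fun w hw => by simpa [Metric.mem_closedBall, dist_eq_norm] using hcon w hw⟩)
  obtain ⟨w, hw, hRw⟩ := hex
  have hop : IsOpen (connectedComponentIn W z) := hW.connectedComponentIn
  have hcon : IsConnected (connectedComponentIn W z) :=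
    isConnected_connectedComponentIn_iff.2 hz
  have hpc : IsPathConnected (connectedComponentIn W z) := hop.isConnected_iff_isPathConnected.1 hcon
  have hj := hpc.joinedIn z (mem_connectedComponentIn hz) w hw
  obtain ⟨γ, hγ⟩ := hj
  refine ⟨range γ, w, isCompact_range γ.continuous, isPreconnected_range γ.continuous, ?_, ?_, ?_, hRw⟩
  · rintro _ ⟨s, rfl⟩
    exact connectedComponentIn_subset _ _ (hγ s)
  · exact ⟨0, γ.source⟩
  · exact ⟨1, γ.target⟩

/-- The horizontal segment. -/
theorem isPreconnected_hseg (a b y : ℝ) : IsPreconnected ((fun s : ℝ => ((s, y) : ℝ × ℝ)) '' Icc a b) :=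
  isPreconnected_Icc.image _ (by fun_prop)

theorem isPreconnected_vseg (x a b : ℝ) : IsPreconnected ((fun s : ℝ => ((x, s) : ℝ × ℝ)) '' Icc a b) :=
  isPreconnected_Icc.image _ (by fun_prop)

theorem isCompact_hseg (a b y : ℝ) : IsCompact ((fun s : ℝ => ((s, y) : ℝ × ℝ)) '' Icc a b) :=
  isCompact_Icc.image (by fun_prop)

theorem isCompact_vseg (x a b : ℝ) : IsCompact ((fun s : ℝ => ((x, s) : ℝ × ℝ)) '' Icc a b) :=
  isCompact_Icc.image (by fun_prop)

/-- **(S1).** -/
theorem sec_ordConnected {E : Set ℂ} (hE : IsCompact E) {t : ℝ}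
    (hR : ∀ z ∈ Eᶜ, t < z.re → ¬ Bornology.IsBounded (connectedComponentIn (Eᶜ ∩ {w | t < w.re}) z))
    (hL : ∀ z ∈ Eᶜ, z.re < t → ¬ Bornology.IsBounded (connectedComponentIn (Eᶜ ∩ {w | w.re < t}) z))
    (p : ℂ) : {y : ℝ | (⟨t, y⟩ : ℂ) ∈ connectedComponentIn E p}.OrdConnected := by
  set L := connectedComponentIn E p with hLdef
  have hLE : L ⊆ E := connectedComponentIn_subset _ _
  rw [ordConnected_iff]
  intro y1 hy1 y3 hy3 h13 y2 hy2
  simp only [mem_ofPred_eq] at hy1 hy3 ⊢
  by_contra hy2L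
  have hpE : p ∈ E := by
    by_contra h
    rw [hLdef, connectedComponentIn_eq_empty h] at hy1
    exact hy1
  have hLclosed : IsCompact L := by
    have h1 : IsClosed L := by
      apply isClosed_of_closure_subset
      apply isPreconnected_connectedComponentIn.closure.subset_connectedComponentIn
      · exact subset_closure (mem_connectedComponentIn hpE)
      · exact closure_minimal (connectedComponentIn_subset _ _) hE.isClosed
    exact hE.of_isClosed_subset h1 hLE
  -- a point of `V` in between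
  have hz0 : ∃ y0, y1 < y0 ∧ y0 < y3 ∧ (⟨t, y0⟩ : ℂ) ∉ E := by
    by_contra hcon
    push Not at hcon
    have hseg : ((fun s : ℝ => (⟨t, s⟩ : ℂ)) '' Icc y1 y3) ⊆ E := by
      rintro _ ⟨s, ⟨hs1, hs2⟩, rfl⟩
      rcases eq_or_lt_of_le hs1 with h | h
      · rw [← h]; exact hLE hy1
      rcases eq_or_lt_of_le hs2 with h' | h'
      · rw [h']; exact hLE hy3
      · exact hcon s h h'
    have hpc : IsPreconnected ((fun s : ℝ => (⟨t, s⟩ : ℂ)) '' Icc y1 y3) := by
      apply isPreconnected_Icc.image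
      have : (fun s : ℝ => (⟨t, s⟩ : ℂ)) = fun s : ℝ => (t : ℂ) + s * Complex.I := by
        funext s; apply Complex.ext <;> simp
      rw [this]; fun_prop
    have hsub := hpc.subset_connectedComponentIn (x := (⟨t, y1⟩ : ℂ)) ⟨y1, ⟨le_rfl, h13⟩, rfl⟩ hseg
    have heq : connectedComponentIn E (⟨t, y1⟩ : ℂ) = L := (connectedComponentIn_eq hy1).symm
    rw [heq] at hsub
    exact hy2L (hsub ⟨y2, hy2, rfl⟩)
  obtain ⟨y0, h10, h03, hz0E⟩ := hz0
  -- a small disc around z0 in V
  have hVo : IsOpen Eᶜ := hE.isClosed.isOpen_compl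
  obtain ⟨δ, hδ, hball⟩ := Metric.isOpen_iff.1 hVo _ hz0E
  set z0 : ℂ := ⟨t, y0⟩ with hz0def
  set e : ℝ := δ / 2 with he
  have he0 : 0 < e := by rw [he]; linarith
  have heδ : e < δ := by rw [he]; linarith
  -- bound of E
  obtain ⟨R, hRE⟩ : ∃ R : ℝ, ∀ z ∈ E, ‖z‖ ≤ R := by
    obtain ⟨R, hR⟩ := (Metric.isBounded_iff_subset_closedBall 0).1 hE.isBounded
    exact ⟨R, fun z hz => by simpa [Metric.mem_closedBall, dist_eq_norm] using hR hz⟩
  set B : ℝ := |R| + |t| + 1 with hB
  have hBR : R < B := by have := le_abs_self R; have := abs_nonneg t; linarith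
  have hBt : |t| < B := by have := abs_nonneg R; linarith
  have hball' : ∀ s : ℝ, |s - t| ≤ e → (⟨s, y0⟩ : ℂ) ∈ Eᶜ := by
    intro s hs
    apply hball
    rw [Metric.mem_ball, dist_eq_norm]
    have : (⟨s, y0⟩ : ℂ) - z0 = ((s - t : ℝ) : ℂ) := by
      apply Complex.ext <;> simp [hz0def]
    rw [this, Complex.norm_real, Real.norm_eq_abs]
    linarith
  -- the right continuum
  have hzR : (⟨t + e, y0⟩ : ℂ) ∈ Eᶜ ∩ {w : ℂ | t < w.re} :=
    ⟨hball' _ (by rw [add_sub_cancel_left, abs_of_pos he0]), by simp [he0]⟩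
  obtain ⟨HR, wR, hHRc, hHRp, hHRW, hzHR, hwHR, hwR⟩ :=
    exists_continuum (hVo.inter (isOpen_lt continuous_const Complex.continuous_re)) hzR
      (hR _ hzR.1 hzR.2) (2 * B)
  have hzL : (⟨t - e, y0⟩ : ℂ) ∈ Eᶜ ∩ {w : ℂ | w.re < t} :=
    ⟨hball' _ (by rw [sub_sub_cancel_left, abs_neg, abs_of_pos he0]), by simp [he0]⟩
  obtain ⟨HL, wL, hHLc, hHLp, hHLW, hzHL, hwHL, hwL⟩ :=
    exists_continuum (hVo.inter (isOpen_lt Complex.continuous_re continuous_const)) hzL
      (hL _ hzL.1 hzL.2) (2 * B)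
  -- bound of all
  obtain ⟨T0, hT0⟩ : ∃ T : ℝ, ∀ z ∈ HR ∪ HL, ‖z‖ ≤ T := by
    obtain ⟨R, hR⟩ := (Metric.isBounded_iff_subset_closedBall 0).1 (hHRc.union hHLc).isBounded
    exact ⟨R, fun z hz => by simpa [Metric.mem_closedBall, dist_eq_norm] using hR hz⟩
  set T : ℝ := |T0| + |y0| + |y1| + |y3| + 1 with hT
  have hT0T : T0 < T := by
    have := le_abs_self T0; have := abs_nonneg y0; have := abs_nonneg y1; have := abs_nonneg y3
    linarith
  have hy0T : |y0| < T := by
    have := abs_nonneg T0; have := abs_nonneg y1; have := abs_nonneg y3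
    linarith
  have hy1T : |y1| < T := by
    have := abs_nonneg T0; have := abs_nonneg y0; have := abs_nonneg y3
    linarith
  have hy3T : |y3| < T := by
    have := abs_nonneg T0; have := abs_nonneg y0; have := abs_nonneg y1
    linarith
  -- the horizontal continuum
  set M : Set (ℝ × ℝ) := (fun s : ℝ => ((s, y0) : ℝ × ℝ)) '' Icc (t - e) (t + e) with hM
  set AR : Set (ℝ × ℝ) := (fun s : ℝ => ((s, wR.im) : ℝ × ℝ)) '' Icc wR.re (max wR.re B) with hAR
  set AL : Set (ℝ × ℝ) := (fun s : ℝ => ((s, wL.im) : ℝ × ℝ)) '' Icc (min wL.re (-B)) wL.re with hAL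
  set H : Set (ℝ × ℝ) := ((M ∪ cr '' HR) ∪ cr '' HL) ∪ AR ∪ AL with hH
  set Vv : Set (ℝ × ℝ) := (cr '' L ∪ (fun s : ℝ => ((t, s) : ℝ × ℝ)) '' Icc y3 T) ∪
    (fun s : ℝ => ((t, s) : ℝ × ℝ)) '' Icc (-T) y1 with hVv
  have hHcomp : IsCompact H :=
    ((((isCompact_hseg _ _ _).union (hHRc.image continuous_cr)).union
      (hHLc.image continuous_cr)).union (isCompact_hseg _ _ _)).union (isCompact_hseg _ _ _)
  have hVcomp : IsCompact Vv :=
    ((hLclosed.image continuous_cr).union (isCompact_vseg _ _ _)).union (isCompact_vseg _ _ _)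
  have hHcon : IsPreconnected H := by
    have h1 : IsPreconnected (M ∪ cr '' HR) :=
      IsPreconnected.union (t + e, y0) ⟨t + e, ⟨by linarith, le_rfl⟩, rfl⟩
        ⟨_, hzHR, rfl⟩ (isPreconnected_hseg _ _ _) (hHRp.image _ continuous_cr.continuousOn)
    have h2 : IsPreconnected ((M ∪ cr '' HR) ∪ cr '' HL) :=
      IsPreconnected.union (t - e, y0) (Or.inl ⟨t - e, ⟨le_rfl, by linarith⟩, rfl⟩)
        ⟨_, hzHL, rfl⟩ h1 (hHLp.image _ continuous_cr.continuousOn)
    have h3 : IsPreconnected (((M ∪ cr '' HR) ∪ cr '' HL) ∪ AR) :=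
      IsPreconnected.union (wR.re, wR.im) (Or.inl (Or.inr ⟨wR, hwHR, rfl⟩))
        ⟨wR.re, ⟨le_rfl, le_max_left _ _⟩, rfl⟩ h2 (isPreconnected_hseg _ _ _)
    exact IsPreconnected.union (wL.re, wL.im) (Or.inl (Or.inr ⟨wL, hwHL, rfl⟩))
        ⟨wL.re, ⟨min_le_left _ _, le_rfl⟩, rfl⟩ h3 (isPreconnected_hseg _ _ _)
  have hVcon : IsPreconnected Vv := by
    have h1 : IsPreconnected (cr '' L ∪ (fun s : ℝ => ((t, s) : ℝ × ℝ)) '' Icc y3 T) :=
      IsPreconnected.union (t, y3) ⟨_, hy3, rfl⟩
        ⟨y3, ⟨le_rfl, by have := le_abs_self y3; linarith⟩, rfl⟩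
        (isPreconnected_connectedComponentIn.image _ continuous_cr.continuousOn)
        (isPreconnected_vseg _ _ _)
    exact IsPreconnected.union (t, y1) (Or.inl ⟨_, hy1, rfl⟩)
        ⟨y1, ⟨by have := neg_abs_le y1; linarith, le_rfl⟩, rfl⟩ h1 (isPreconnected_vseg _ _ _)
  have habs_re : ∀ z : ℂ, |z.re| ≤ ‖z‖ := Complex.abs_re_le_norm
  have habs_im : ∀ z : ℂ, |z.im| ≤ ‖z‖ := Complex.abs_im_le_norm
  have hcross := R193.Planar.continua_cross (a := -B) (b := B) (c := -T) (d := T)
    hHcomp hVcomp hHcon hVcon ?_ ?_ ?_ ?_ ?_ ?_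
  · obtain ⟨q, hqH, hqV⟩ := hcross
    -- points of the horizontal continuum are off E and off the rays
    have hoff : ∀ q ∈ H, (⟨q.1, q.2⟩ : ℂ) ∉ L ∧ (q.1 = t → q.2 = y0) := by
      rintro q ((((hq | hq) | hq) | hq) | hq)
      · obtain ⟨s, hs, rfl⟩ := hq
        refine ⟨fun h => hball' s ?_ (hLE h), fun _ => rfl⟩
        rw [abs_le]; constructor <;> linarith [hs.1, hs.2]
      · obtain ⟨z, hz, rfl⟩ := hq
        refine ⟨fun h => (hHRW hz).1 (hLE h), fun h => ?_⟩
        exfalso
        have h2 : t < z.re := (hHRW hz).2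
        have h3 : z.re = t := h
        linarith
      · obtain ⟨z, hz, rfl⟩ := hq
        refine ⟨fun h => (hHLW hz).1 (hLE h), fun h => ?_⟩
        exfalso
        have h2 : z.re < t := (hHLW hz).2
        have h3 : z.re = t := h
        linarith
      · obtain ⟨s, hs, rfl⟩ := hq
        have h2 : t < wR.re := (hHRW hwHR).2
        refine ⟨fun h => ?_, fun h => ?_⟩
        · by_cases hb : B ≤ wR.re
          · rw [max_eq_left hb] at hs
            have : s = wR.re := le_antisymm hs.2 hs.1
            rw [this] at h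
            exact (hHRW hwHR).1 (hLE h)
          · push Not at hb
            have h3 := hRE _ (hLE h)
            have h4 : |wR.im| ≤ R := (habs_im (⟨s, wR.im⟩ : ℂ)).trans h3
            have h5 : ‖wR‖ ≤ |wR.re| + |wR.im| := Complex.norm_le_abs_re_add_abs_im wR
            have h6 : |wR.re| < B := by
              rw [abs_lt]; constructor
              · have := neg_abs_le t; linarith
              · exact hb
            linarith
        · exfalso
          have h3 : s = t := h
          linarith [hs.1]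
      · obtain ⟨s, hs, rfl⟩ := hq
        have h2 : wL.re < t := (hHLW hwHL).2
        refine ⟨fun h => ?_, fun h => ?_⟩
        · by_cases hb : wL.re ≤ -B
          · rw [min_eq_left hb] at hs
            have : s = wL.re := le_antisymm hs.2 hs.1
            rw [this] at h
            exact (hHLW hwHL).1 (hLE h)
          · push Not at hb
            have h3 := hRE _ (hLE h)
            have h4 : |wL.im| ≤ R := (habs_im (⟨s, wL.im⟩ : ℂ)).trans h3
            have h5 : ‖wL‖ ≤ |wL.re| + |wL.im| := Complex.norm_le_abs_re_add_abs_im wL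
            have h6 : |wL.re| < B := by
              rw [abs_lt]; constructor
              · exact hb
              · have := le_abs_self t; linarith
            linarith
        · exfalso
          have h3 : s = t := h
          linarith [hs.2]
    obtain ⟨h1, h2⟩ := hoff q hqH
    rcases hqV with (hq | hq) | hq
    · obtain ⟨z, hz, rfl⟩ := hq
      exact h1 hz
    · obtain ⟨s, hs, rfl⟩ := hq
      have : s = y0 := h2 rfl
      linarith [hs.1]
    · obtain ⟨s, hs, rfl⟩ := hq
      have : s = y0 := h2 rfl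
      linarith [hs.2]
  · -- H in the strip
    rintro q ((((hq | hq) | hq) | hq) | hq)
    · obtain ⟨s, hs, rfl⟩ := hq
      exact ⟨by have := neg_abs_le y0; simp only; linarith, by have := le_abs_self y0; simp only; linarith⟩
    · obtain ⟨z, hz, rfl⟩ := hq
      have h1 := hT0 z (Or.inl hz)
      have h2 := abs_le.1 ((habs_im z).trans h1)
      exact ⟨by simp only [cr]; linarith, by simp only [cr]; linarith⟩
    · obtain ⟨z, hz, rfl⟩ := hq
      have h1 := hT0 z (Or.inr hz)
      have h2 := abs_le.1 ((habs_im z).trans h1)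
      exact ⟨by simp only [cr]; linarith, by simp only [cr]; linarith⟩
    · obtain ⟨s, hs, rfl⟩ := hq
      have h1 := hT0 wR (Or.inl hwHR)
      have h2 := abs_le.1 ((habs_im wR).trans h1)
      exact ⟨by simp only; linarith, by simp only; linarith⟩
    · obtain ⟨s, hs, rfl⟩ := hq
      have h1 := hT0 wL (Or.inr hwHL)
      have h2 := abs_le.1 ((habs_im wL).trans h1)
      exact ⟨by simp only; linarith, by simp only; linarith⟩
  · -- V in the strip
    have hBt' := abs_lt.1 hBt
    rintro q ((hq | hq) | hq)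
    · obtain ⟨z, hz, rfl⟩ := hq
      have h1 := hRE z (hLE hz)
      have h2 := abs_le.1 ((habs_re z).trans h1)
      exact ⟨by simp only [cr]; linarith, by simp only [cr]; linarith⟩
    · obtain ⟨s, hs, rfl⟩ := hq
      exact ⟨hBt'.1.le, hBt'.2.le⟩
    · obtain ⟨s, hs, rfl⟩ := hq
      exact ⟨hBt'.1.le, hBt'.2.le⟩
  · exact ⟨(min wL.re (-B), wL.im), Or.inr ⟨_, ⟨le_rfl, min_le_left _ _⟩, rfl⟩, min_le_right _ _⟩
  · exact ⟨(max wR.re B, wR.im), Or.inl (Or.inr ⟨_, ⟨le_max_left _ _, le_rfl⟩, rfl⟩), le_max_right _ _⟩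
  · exact ⟨(t, -T), Or.inr ⟨-T, ⟨le_rfl, by have := neg_abs_le y1; linarith⟩, rfl⟩, le_rfl⟩
  · exact ⟨(t, T), Or.inl (Or.inr ⟨T, ⟨by have := le_abs_self y3; linarith, le_rfl⟩, rfl⟩), le_rfl⟩

end Crest.Agent.R105.Sct_636
end

-- ▼ part R105/Sct2_636
section

/-!
# R105 (S0138, T-frame), SECT (helper636), part 2: areas from the Euler-Lagrange identity

`E ⊆ ℂ` compact, `z i ∈ E` representatives of countably many different components ("solids") with
`re (K i) ⊆ [α i, β i]`, `s i = β i - α i`.  Hypothesis = E-L of the picture function `x = re` for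
the test functions `G (re) * χ`, `χ` smooth with compact support and locally constant near `E`:
`∫_{Eᶜ} ∂x (G(re) χ) + ∑' s i χ(z i) (G(β i) - G(α i)) = 0`.
Conclusion: `∫_{K i} g(re) = s i ∫_{α i}^{β i} g`, the other components and the rest are null.
-/

namespace Crest.Agent.R105.Sct_636

open Set Topology MeasureTheory Filter
open scoped ContDiff

/-- smooth, compactly supported, locally constant near `E` -/
structure LCE (E : Set ℂ) (χ : ℂ → ℝ) : Prop where
  smooth : ContDiff ℝ ∞ χ
  supp : HasCompactSupport χ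
  lc : ∀ z ∈ E, ∀ᶠ w in 𝓝 z, χ w = χ z

/-- the E-L identity for the test functions `G(re) χ` -/
def ELId (E : Set ℂ) {ι : Type*} (z : ι → ℂ) (s α β : ι → ℝ) : Prop :=
  ∀ (G : ℝ → ℝ) (χ : ℂ → ℝ), ContDiff ℝ ∞ G → HasCompactSupport (deriv G) → LCE E χ →
    (∫ w in Eᶜ, fderiv ℝ (fun w => G w.re * χ w) w 1)
      + (∑' i, s i * χ (z i) * (G (β i) - G (α i))) = 0

theorem integral_fderiv_eq_zero {u : ℂ → ℝ} (hu : ContDiff ℝ ∞ u) (hs : HasCompactSupport u) (v : ℂ) :
    ∫ w, fderiv ℝ u w v = 0 := by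
  have hd : Continuous fun w => fderiv ℝ u w v :=
    (hu.continuous_fderiv (by simp)).clm_apply continuous_const
  have hds : HasCompactSupport fun w => fderiv ℝ u w v := hs.fderiv_apply (𝕜 := ℝ) v
  have h := integral_mul_fderiv_eq_neg_fderiv_mul_of_integrable (μ := (volume : Measure ℂ))
    (f := u) (g := fun _ => (1 : ℝ)) (v := v)
    (by simpa using hd.integrable_of_hasCompactSupport hds)
    (by simp)
    (by simpa using hu.continuous.integrable_of_hasCompactSupport hs)
    (fun x _ => (hu.differentiable (by simp)).differentiableAt)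
    (fun x _ => differentiableAt_const _)
  simp at h
  linarith

/-- cut-offs shrinking to a component -/
theorem exists_cutoff {E : Set ℂ} (hE : IsCompact E) {p : ℂ} (hp : p ∈ E) :
    ∃ χ : ℕ → ℂ → ℝ, (∀ n, LCE E (χ n)) ∧ (∀ n w, χ n w ∈ Icc (0 : ℝ) 1) ∧
      (∀ n, ∀ w ∈ connectedComponentIn E p, χ n w = 1) ∧
      ∀ w ∈ E, w ∉ connectedComponentIn E p → ∀ᶠ n in atTop, χ n w = 0 := by
  set K := connectedComponentIn E p with hK
  have hKc : IsCompact K := Thin_12.isCompact_cc hE p
  have hstep : ∀ n : ℕ, ∃ χ : ℂ → ℝ, LCE E χ ∧ (∀ w, χ w ∈ Icc (0 : ℝ) 1) ∧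
      (∀ w ∈ K, χ w = 1) ∧ ∀ w ∈ E, w ∉ Metric.thickening (1 / ((n : ℝ) + 1)) K → χ w = 0 := by
    intro n
    have hpos : (0 : ℝ) < 1 / ((n : ℝ) + 1) := by positivity
    obtain ⟨S, hSc, hTc, hSE, hKS, hSW⟩ := Thin_12.exists_clopen hE hp
      (W := Metric.thickening (1 / ((n : ℝ) + 1)) K) Metric.isOpen_thickening
      (Metric.self_subset_thickening hpos K)
    obtain ⟨δ, hδ, hdis⟩ := (disjoint_sdiff_right : Disjoint S (E \ S)).exists_cthickenings hSc
      hTc.isClosed
    obtain ⟨f, hf1, hf0, hf01⟩ := exists_contMDiffMap_one_nhds_of_subset_interior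
      (I := modelWithCornersSelf ℝ ℂ) (n := ⊤) (M := ℂ) (s := S) (t := Metric.cthickening δ S)
      hSc.isClosed ((Metric.self_subset_thickening hδ S).trans
        (interior_maximal (Metric.thickening_subset_cthickening _ _) Metric.isOpen_thickening))
    refine ⟨f, ⟨f.contMDiff.contDiff, ?_, ?_⟩, hf01, ?_, ?_⟩
    · exact HasCompactSupport.intro (hSc.cthickening (r := δ)) hf0
    · intro w hw
      by_cases hwS : w ∈ S
      · have h1 : ∀ᶠ x in 𝓝 w, f x = 1 := eventually_nhdsSet_iff_forall.1 hf1 w hwS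
        have h2 := h1.self_of_nhds
        filter_upwards [h1] with x hx
        rw [hx, h2]
      · have h3 : Metric.thickening δ (E \ S) ∈ 𝓝 w :=
          Metric.isOpen_thickening.mem_nhds (Metric.self_subset_thickening hδ _ ⟨hw, hwS⟩)
        have h4 : ∀ x ∈ Metric.thickening δ (E \ S), f x = 0 := fun x hx => hf0 x fun hx' =>
          disjoint_left.1 hdis hx' (Metric.thickening_subset_cthickening _ _ hx)
        have h5 := h4 w (mem_of_mem_nhds h3)
        filter_upwards [h3] with x hx
        rw [h4 x hx, h5]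
    · intro w hw
      exact (eventually_nhdsSet_iff_forall.1 hf1 w (hKS hw)).self_of_nhds
    · intro w hw hwt
      have hwS : w ∉ S := fun h => hwt (hSW h)
      have h3 : w ∈ Metric.thickening δ (E \ S) := Metric.self_subset_thickening hδ _ ⟨hw, hwS⟩
      exact hf0 w fun hx' => disjoint_left.1 hdis hx' (Metric.thickening_subset_cthickening _ _ h3)
  choose χ h1 h2 h3 h4 using hstep
  refine ⟨χ, h1, h2, h3, ?_⟩
  intro w hwE hwK
  have hKcl : IsClosed K := hKc.isClosed
  have hKne : K.Nonempty := ⟨p, mem_connectedComponentIn hp⟩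
  have hpos : 0 < Metric.infDist w K := (hKcl.notMem_iff_infDist_pos hKne).1 hwK
  have htend : Tendsto (fun n : ℕ => 1 / ((n : ℝ) + 1)) atTop (𝓝 0) :=
    tendsto_one_div_add_atTop_nhds_zero_nat
  filter_upwards [htend.eventually_lt_const hpos] with n hn
  apply h4 n w hwE
  intro hmem
  rw [Metric.mem_thickening_iff_infDist_lt hKne] at hmem
  linarith

section

variable {E : Set ℂ} {ι : Type*} {z : ι → ℂ} {s α β : ι → ℝ}

/-- the primitive of a smooth compactly supported function -/
theorem prim_smooth {g : ℝ → ℝ} (hg : ContDiff ℝ ∞ g) :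
    ContDiff ℝ ∞ (fun x => ∫ t in (0 : ℝ)..x, g t) ∧
      deriv (fun x => ∫ t in (0 : ℝ)..x, g t) = g := by
  have hd : ∀ x, HasDerivAt (fun x => ∫ t in (0 : ℝ)..x, g t) (g x) x := fun x =>
    intervalIntegral.integral_hasDerivAt_right (hg.continuous.intervalIntegrable _ _)
      (hg.continuous.stronglyMeasurableAtFilter _ _) hg.continuous.continuousAt
  have hderiv : deriv (fun x => ∫ t in (0 : ℝ)..x, g t) = g := funext fun x => (hd x).deriv
  refine ⟨?_, hderiv⟩
  rw [contDiff_infty_iff_deriv]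
  exact ⟨fun x => (hd x).differentiableAt, by rw [hderiv]; exact hg⟩

/-- (A) -/
theorem integral_E (hE : IsCompact E) (hEL : ELId E z s α β) {g : ℝ → ℝ} (hg : ContDiff ℝ ∞ g)
    (hgs : HasCompactSupport g) {χ : ℂ → ℝ} (hχ : LCE E χ) :
    ∫ w in E, g w.re * χ w = ∑' i, s i * χ (z i) * ∫ t in (α i)..(β i), g t := by
  set G : ℝ → ℝ := fun x => ∫ t in (0 : ℝ)..x, g t with hG
  obtain ⟨hG1, hG2⟩ := prim_smooth hg
  have hEL' := hEL G χ hG1 (by rw [hG2]; exact hgs) hχ
  have hGd : ∀ i, G (β i) - G (α i) = ∫ t in (α i)..(β i), g t := by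
    intro i
    simp only [hG]
    rw [intervalIntegral.integral_interval_sub_left (hg.continuous.intervalIntegrable _ _)
      (hg.continuous.intervalIntegrable _ _)]
  set u : ℂ → ℝ := fun w => G w.re * χ w with hu
  have hre : ContDiff ℝ ∞ (fun w : ℂ => w.re) := Complex.reCLM.contDiff
  have hu1 : ContDiff ℝ ∞ u := (hG1.comp hre).mul hχ.smooth
  have hus : HasCompactSupport u := hχ.supp.mul_left
  have h0 := integral_fderiv_eq_zero hu1 hus 1
  have hint : Integrable (fun w => fderiv ℝ u w 1) :=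
    ((hu1.continuous_fderiv (by simp)).clm_apply continuous_const).integrable_of_hasCompactSupport
      (hus.fderiv_apply (𝕜 := ℝ) 1)
  rw [← integral_add_compl hE.measurableSet hint] at h0
  have hon : ∫ w in E, fderiv ℝ u w 1 = ∫ w in E, g w.re * χ w := by
    apply setIntegral_congr_fun hE.measurableSet
    intro w hw
    have hχ' : HasFDerivAt χ (0 : ℂ →L[ℝ] ℝ) w := by
      have hev : χ =ᶠ[𝓝 w] fun _ => χ w := hχ.lc w hw
      exact (hasFDerivAt_const (χ w) w).congr_of_eventuallyEq hev
    have hGd' : HasDerivAt G (g w.re) w.re := by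
      have := (hG1.differentiable (by simp)).differentiableAt (x := w.re)
      have h2 := this.hasDerivAt
      rw [hG2] at h2
      exact h2
    have hGf : HasFDerivAt (fun w : ℂ => G w.re) (g w.re • Complex.reCLM) w :=
      hGd'.comp_hasFDerivAt w Complex.reCLM.hasFDerivAt
    have hmul := hGf.mul hχ'
    have hfd : fderiv ℝ u w = G w.re • (0 : ℂ →L[ℝ] ℝ) + χ w • g w.re • Complex.reCLM := hmul.fderiv
    simp only
    rw [hfd]
    simp [mul_comm]
  rw [hon] at h0
  have h5 : ∫ w in E, g w.re * χ w = - ∫ w in Eᶜ, fderiv ℝ u w 1 := eq_neg_of_add_eq_zero_left h0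
  have : ∑' i, s i * χ (z i) * ∫ t in (α i)..(β i), g t
      = ∑' i, s i * χ (z i) * (G (β i) - G (α i)) := by
    congr 1; funext i; rw [hGd]
  rw [this, h5]
  linarith

open Classical in
/-- (B) -/
theorem integral_component (hE : IsCompact E) (hzE : ∀ i, z i ∈ E) (hEL : ELId E z s α β)
    (hs : ∀ i, s i = β i - α i) (hs0 : ∀ i, 0 ≤ s i) (hsum : Summable fun i => s i ^ 2)
    {g : ℝ → ℝ} (hg : ContDiff ℝ ∞ g) (hgs : HasCompactSupport g) {p : ℂ} (hp : p ∈ E) :
    ∫ w in connectedComponentIn E p, g w.re =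
      ∑' i, s i * (if z i ∈ connectedComponentIn E p then 1 else 0) * ∫ t in (α i)..(β i), g t := by
  obtain ⟨χ, hχ1, hχ2, hχ3, hχ4⟩ := exists_cutoff hE hp
  set K := connectedComponentIn E p with hK
  have hKE : K ⊆ E := connectedComponentIn_subset _ _
  obtain ⟨C, hC⟩ := hgs.exists_bound_of_continuous hg.continuous
  have hC0 : 0 ≤ C := (norm_nonneg _).trans (hC 0)
  have hgre : Continuous fun w : ℂ => g w.re := hg.continuous.comp Complex.continuous_re
  -- left side
  have hl : Tendsto (fun n => ∫ w in E, g w.re * χ n w) atTop (𝓝 (∫ w in E, g w.re * (K.indicator 1 w))) := by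
    apply tendsto_integral_of_dominated_convergence (fun _ => C)
    · intro n
      exact (hgre.mul (hχ1 n).smooth.continuous).aestronglyMeasurable
    · exact integrable_const_iff.2 (Or.inr (by
        rw [isFiniteMeasure_restrict]; exact hE.measure_lt_top.ne))
    · intro n
      refine Eventually.of_forall fun w => ?_
      rw [norm_mul]
      calc ‖g w.re‖ * ‖χ n w‖ ≤ C * 1 := by
            apply mul_le_mul (hC _) _ (norm_nonneg _) hC0
            rw [Real.norm_eq_abs, abs_of_nonneg (hχ2 n w).1]; exact (hχ2 n w).2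
        _ = C := mul_one _
    · refine (ae_restrict_iff' hE.measurableSet).2 (Eventually.of_forall fun w hw => ?_)
      apply Tendsto.const_mul
      by_cases hwK : w ∈ K
      · simp only [indicator_of_mem hwK, Pi.one_apply]
        exact tendsto_const_nhds.congr fun n => (hχ3 n w hwK).symm
      · simp only [indicator_of_notMem hwK]
        exact tendsto_const_nhds.congr' ((hχ4 w hw hwK).mono fun n hn => hn.symm)
  have hl' : ∫ w in E, g w.re * (K.indicator 1 w) = ∫ w in K, g w.re := by
    have : (fun w => g w.re * (K.indicator (1 : ℂ → ℝ) w)) = K.indicator (fun w => g w.re) := by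
      funext w
      by_cases hwK : w ∈ K <;> simp [hwK]
    rw [this, setIntegral_indicator (Thin_12.isCompact_cc hE p).measurableSet,
      inter_eq_self_of_subset_right hKE]
  -- right side
  have hr : Tendsto (fun n => ∑' i, s i * χ n (z i) * ∫ t in (α i)..(β i), g t) atTop
      (𝓝 (∑' i, s i * (if z i ∈ K then 1 else 0) * ∫ t in (α i)..(β i), g t)) := by
    apply tendsto_tsum_of_dominated_convergence (bound := fun i => C * s i ^ 2)
      (hsum.mul_left C)
    · intro i
      apply Tendsto.mul_const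
      apply Tendsto.const_mul
      by_cases hwK : z i ∈ K
      · simp only [hwK, if_true]
        exact tendsto_const_nhds.congr fun n => (hχ3 n _ hwK).symm
      · simp only [hwK, if_false]
        exact tendsto_const_nhds.congr' ((hχ4 _ (hzE i) hwK).mono fun n hn => hn.symm)
    · refine Eventually.of_forall fun n i => ?_
      have h1 : ‖∫ t in (α i)..(β i), g t‖ ≤ C * s i := by
        have := intervalIntegral.norm_integral_le_of_norm_le_const (a := α i) (b := β i)
          (f := g) (C := C) (fun x _ => hC x)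
        rw [← hs i, abs_of_nonneg (hs0 i)] at this
        exact this
      have h2 : ‖χ n (z i)‖ ≤ 1 := by
        rw [Real.norm_eq_abs, abs_of_nonneg (hχ2 n _).1]; exact (hχ2 n _).2
      rw [norm_mul, norm_mul, Real.norm_eq_abs (s i), abs_of_nonneg (hs0 i)]
      calc s i * ‖χ n (z i)‖ * ‖∫ t in (α i)..(β i), g t‖ ≤ s i * 1 * (C * s i) := by
            apply mul_le_mul _ h1 (norm_nonneg _) (by nlinarith [hs0 i])
            exact mul_le_mul_of_nonneg_left h2 (hs0 i)
        _ = C * s i ^ 2 := by ring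
  have heq : ∀ n, ∫ w in E, g w.re * χ n w = ∑' i, s i * χ n (z i) * ∫ t in (α i)..(β i), g t :=
    fun n => integral_E hE hEL hg hgs (hχ1 n)
  rw [← hl']
  refine tendsto_nhds_unique hl ?_
  simp_rw [heq]
  exact hr

end

end Crest.Agent.R105.Sct_636
end

-- ▼ part R105/Sct3_636
section

/-!
# R105 (S0138, T-frame), SECT (helper636), part 3: section lengths, areas, sections are
`Icc (b t) (b t + s)`
-/

namespace Crest.Agent.R105.Sct_636

open Set Topology MeasureTheory Filter
open scoped ContDiff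

/-- vertical section -/
def sec (K : Set ℂ) (t : ℝ) : Set ℝ := {y : ℝ | (⟨t, y⟩ : ℂ) ∈ K}

/-- the set in real coordinates -/
def rp (K : Set ℂ) : Set (ℝ × ℝ) := Complex.measurableEquivRealProd.symm ⁻¹' K


theorem continuous_mk (t : ℝ) : Continuous fun y : ℝ => (⟨t, y⟩ : ℂ) := by
  have : (fun y : ℝ => (⟨t, y⟩ : ℂ)) = fun y : ℝ => (t : ℂ) + y * Complex.I := by
    funext s; apply Complex.ext <;> simp
  rw [this]; fun_prop

theorem isCompact_sec {K : Set ℂ} (hK : IsCompact K) (t : ℝ) : IsCompact (sec K t) := by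
  have hcl : IsClosed (sec K t) := hK.isClosed.preimage (continuous_mk t)
  obtain ⟨R, hR⟩ := (Metric.isBounded_iff_subset_closedBall 0).1 hK.isBounded
  refine (isCompact_Icc (a := -R) (b := R)).of_isClosed_subset hcl fun y hy => ?_
  have h1 : ‖(⟨t, y⟩ : ℂ)‖ ≤ R := by
    simpa [Metric.mem_closedBall, dist_eq_norm] using hR hy
  have h2 : |y| ≤ R := (Complex.abs_im_le_norm (⟨t, y⟩ : ℂ)).trans h1
  exact abs_le.1 h2

theorem measurableSet_rp {K : Set ℂ} (hK : MeasurableSet K) : MeasurableSet (rp K) :=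
  Complex.measurableEquivRealProd.symm.measurable hK

theorem volume_rp {K : Set ℂ} (hK : MeasurableSet K) : volume (rp K) = volume K := by
  have := Complex.volume_preserving_equiv_real_prod.symm.measure_preimage hK.nullMeasurableSet
  exact this

theorem volume_eq_lintegral_sec {K : Set ℂ} (hK : MeasurableSet K) :
    volume K = ∫⁻ t, volume (sec K t) := by
  rw [← volume_rp hK, Measure.volume_eq_prod, Measure.prod_apply (measurableSet_rp hK)]
  rfl

theorem measurable_volume_sec {K : Set ℂ} (hK : MeasurableSet K) :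
    Measurable fun t => volume (sec K t) :=
  measurable_measure_prodMk_left (measurableSet_rp hK)

theorem integral_re_eq {K : Set ℂ} (hK : IsCompact K) {g : ℝ → ℝ} (hg : Continuous g) :
    ∫ w in K, g w.re = ∫ t, g t * (volume (sec K t)).toReal := by
  have h1 : ∫ w in K, g w.re = ∫ q in rp K, g q.1 := by
    have := (Complex.volume_preserving_equiv_real_prod.symm).setIntegral_preimage_emb
      Complex.measurableEquivRealProd.symm.measurableEmbedding (fun w : ℂ => g w.re) K
    rw [← this]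
    rfl
  have hm := measurableSet_rp hK.measurableSet
  have hfin : volume (rp K) < ⊤ := by rw [volume_rp hK.measurableSet]; exact hK.measure_lt_top
  obtain ⟨R, hR⟩ := (Metric.isBounded_iff_subset_closedBall 0).1 hK.isBounded
  obtain ⟨C, hC⟩ := (isCompact_Icc (a := -R) (b := R)).exists_bound_of_continuousOn hg.continuousOn
  have hint : Integrable ((rp K).indicator fun q => g q.1) (volume.prod volume) := by
    rw [← Measure.volume_eq_prod, integrable_indicator_iff hm]
    apply Measure.integrableOn_of_bounded (M := C) hfin.ne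
    · exact (hg.comp continuous_fst).aestronglyMeasurable
    · refine (ae_restrict_iff' hm).2 (Eventually.of_forall fun q hq => ?_)
      apply hC
      have h1 : ‖(⟨q.1, q.2⟩ : ℂ)‖ ≤ R := by
        simpa [Metric.mem_closedBall, dist_eq_norm] using hR (show (⟨q.1, q.2⟩ : ℂ) ∈ K from hq)
      have h2 : |q.1| ≤ R := (Complex.abs_re_le_norm (⟨q.1, q.2⟩ : ℂ)).trans h1
      exact abs_le.1 h2
  rw [h1, ← integral_indicator hm, Measure.volume_eq_prod, integral_prod _ hint]
  congr 1
  funext t
  have : (fun y => (rp K).indicator (fun q : ℝ × ℝ => g q.1) (t, y)) =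
      (sec K t).indicator fun _ => g t := by
    funext y
    by_cases h : (⟨t, y⟩ : ℂ) ∈ K
    · rw [indicator_of_mem (show (t, y) ∈ rp K from h), indicator_of_mem (show y ∈ sec K t from h)]
    · rw [indicator_of_notMem (show (t, y) ∉ rp K from h),
        indicator_of_notMem (show y ∉ sec K t from h)]
  rw [this, integral_indicator_const _ (isCompact_sec hK t).measurableSet]
  simp [Measure.real, mul_comm]

theorem integrable_volume_sec {K : Set ℂ} (hK : IsCompact K) :
    Integrable fun t => (volume (sec K t)).toReal := by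
  refine integrable_toReal_of_lintegral_ne_top (measurable_volume_sec hK.measurableSet).aemeasurable ?_
  rw [← volume_eq_lintegral_sec hK.measurableSet]
  exact hK.measure_lt_top.ne

section

variable {E : Set ℂ} {ι : Type*} {z : ι → ℂ} {s α β : ι → ℝ}

/-- **lengths of the sections of a solid** -/
theorem volume_sec (hE : IsCompact E) (hzE : ∀ i, z i ∈ E)
    (hdist : ∀ i j, z j ∈ connectedComponentIn E (z i) → j = i) (hEL : ELId E z s α β)
    (hs : ∀ i, s i = β i - α i) (hs0 : ∀ i, 0 ≤ s i) (hsum : Summable fun i => s i ^ 2) (i : ι) :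
    ∀ᵐ t : ℝ, volume (sec (connectedComponentIn E (z i)) t) =
      (Icc (α i) (β i)).indicator (fun _ => ENNReal.ofReal (s i)) t := by
  classical
  set K := connectedComponentIn E (z i) with hK
  have hKc : IsCompact K := Thin_12.isCompact_cc hE _
  have hfin : ∀ t, volume (sec K t) ≠ ⊤ := fun t => (isCompact_sec hKc t).measure_lt_top.ne
  have h1 : ∀ᵐ t : ℝ, (volume (sec K t)).toReal = (Icc (α i) (β i)).indicator (fun _ => s i) t := by
    apply ae_eq_of_integral_contDiff_smul_eq
    · exact (integrable_volume_sec hKc).locallyIntegrable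
    · exact (integrable_indicator_iff measurableSet_Icc |>.2
        (integrableOn_const (by simp))).locallyIntegrable
    · intro g hg hgs
      have h2 := integral_component hE hzE hEL hs hs0 hsum hg hgs (hzE i)
      rw [integral_re_eq hKc hg.continuous, tsum_eq_single i] at h2
      · simp only [smul_eq_mul]
        rw [h2, if_pos (mem_connectedComponentIn (hzE i)), mul_one,
          intervalIntegral.integral_of_le (by linarith [hs0 i, hs i]), ← integral_Icc_eq_integral_Ioc,
          ← integral_const_mul, ← integral_indicator measurableSet_Icc]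
        congr 1
        funext t
        by_cases ht : t ∈ Icc (α i) (β i)
        · rw [indicator_of_mem ht, indicator_of_mem ht, mul_comm]
        · rw [indicator_of_notMem ht, indicator_of_notMem ht, mul_zero]
      · intro j hj
        have : z j ∉ K := fun h => hj (hdist i j h)
        rw [if_neg this]
        simp
  filter_upwards [h1] with t ht
  rw [← ENNReal.ofReal_toReal (hfin t), ht]
  by_cases h : t ∈ Icc (α i) (β i)
  · rw [indicator_of_mem h, indicator_of_mem h]
  · rw [indicator_of_notMem h, indicator_of_notMem h, ENNReal.ofReal_zero]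

/-- **area of a solid** -/
theorem volume_solid (hE : IsCompact E) (hzE : ∀ i, z i ∈ E)
    (hdist : ∀ i j, z j ∈ connectedComponentIn E (z i) → j = i) (hEL : ELId E z s α β)
    (hs : ∀ i, s i = β i - α i) (hs0 : ∀ i, 0 ≤ s i) (hsum : Summable fun i => s i ^ 2) (i : ι) :
    volume (connectedComponentIn E (z i)) = ENNReal.ofReal (s i ^ 2) := by
  have hKc : IsCompact (connectedComponentIn E (z i)) := Thin_12.isCompact_cc hE _
  rw [volume_eq_lintegral_sec hKc.measurableSet,
    lintegral_congr_ae (volume_sec hE hzE hdist hEL hs hs0 hsum i),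
    lintegral_indicator measurableSet_Icc, lintegral_const, Measure.restrict_apply_univ,
    Real.volume_Icc, ← hs, ← ENNReal.ofReal_mul (hs0 i), sq]


/-- **total area** -/
theorem volume_rest [Countable ι] (hE : IsCompact E) (hzE : ∀ i, z i ∈ E)
    (hdist : ∀ i j, z j ∈ connectedComponentIn E (z i) → j = i) (hEL : ELId E z s α β)
    (hs : ∀ i, s i = β i - α i) (hs0 : ∀ i, 0 ≤ s i) (hsum : Summable fun i => s i ^ 2) :
    volume (E \ ⋃ i, connectedComponentIn E (z i)) = 0 := by
  have hKc : ∀ i, IsCompact (connectedComponentIn E (z i)) := fun i => Thin_12.isCompact_cc hE _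
  have hdisj : Pairwise (Function.onFun Disjoint fun i => connectedComponentIn E (z i)) := by
    intro i j hij
    rw [Function.onFun, disjoint_left]
    intro w hw hw'
    apply hij
    have h1 := connectedComponentIn_eq hw
    have h2 := connectedComponentIn_eq hw'
    exact (hdist i j (by rw [h1, ← h2]; exact mem_connectedComponentIn (hzE j))).symm
  have hU : volume (⋃ i, connectedComponentIn E (z i)) = ENNReal.ofReal (∑' i, s i ^ 2) := by
    rw [measure_iUnion hdisj fun i => (hKc i).measurableSet,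
      ENNReal.ofReal_tsum_of_nonneg (fun i => sq_nonneg _) hsum]
    congr 1
    funext i
    exact volume_solid hE hzE hdist hEL hs hs0 hsum i
  -- upper bound for `volume E`
  have hEv : volume E ≤ ENNReal.ofReal (∑' i, s i ^ 2) := by
    -- a cut-off `= 1` near `E`
    obtain ⟨f, hf1, hf0, hf01⟩ := exists_contMDiffMap_one_nhds_of_subset_interior
      (I := modelWithCornersSelf ℝ ℂ) (n := ⊤) (M := ℂ) (s := E) (t := Metric.cthickening 1 E)
      hE.isClosed ((Metric.self_subset_thickening one_pos E).trans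
        (interior_maximal (Metric.thickening_subset_cthickening _ _) Metric.isOpen_thickening))
    have hχ : LCE E f := by
      refine ⟨f.contMDiff.contDiff, HasCompactSupport.intro (hE.cthickening (r := 1)) hf0, ?_⟩
      intro w hw
      have h1 : ∀ᶠ x in 𝓝 w, f x = 1 := eventually_nhdsSet_iff_forall.1 hf1 w hw
      have h2 := h1.self_of_nhds
      filter_upwards [h1] with x hx
      rw [hx, h2]
    have hfE : ∀ w ∈ E, f w = 1 := fun w hw =>
      (eventually_nhdsSet_iff_forall.1 hf1 w hw).self_of_nhds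
    have hreE : IsCompact (Complex.re '' E) := hE.image Complex.continuous_re
    obtain ⟨g, hg1, hg0, hg01⟩ := exists_contMDiffMap_one_nhds_of_subset_interior
      (I := modelWithCornersSelf ℝ ℝ) (n := ⊤) (M := ℝ) (s := Complex.re '' E)
      (t := Metric.cthickening 1 (Complex.re '' E))
      hreE.isClosed ((Metric.self_subset_thickening one_pos _).trans
        (interior_maximal (Metric.thickening_subset_cthickening _ _) Metric.isOpen_thickening))
    have hgs : HasCompactSupport g := HasCompactSupport.intro (hreE.cthickening (r := 1)) hg0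
    have hgc : ContDiff ℝ ∞ g := g.contMDiff.contDiff
    have hgE : ∀ w ∈ E, g w.re = 1 := fun w hw =>
      (eventually_nhdsSet_iff_forall.1 hg1 _ ⟨w, hw, rfl⟩).self_of_nhds
    have h1 := integral_E hE hEL hgc hgs hχ
    have h2 : ∫ w in E, g w.re * f w = (volume E).toReal := by
      rw [setIntegral_congr_fun hE.measurableSet (g := fun _ => (1 : ℝ))
        (fun w hw => by simp only; rw [hgE w hw, hfE w hw, one_mul])]
      simp [Measure.real]
    rw [h2] at h1
    rw [← ENNReal.ofReal_toReal hE.measure_lt_top.ne, h1]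
    apply ENNReal.ofReal_le_ofReal
    have hbd : ∀ i, s i * f (z i) * (∫ t in (α i)..(β i), g t) ≤ s i ^ 2 := by
      intro i
      rw [hfE _ (hzE i), mul_one, sq]
      apply mul_le_mul_of_nonneg_left _ (hs0 i)
      have hle : α i ≤ β i := by linarith [hs0 i, hs i]
      calc (∫ t in (α i)..(β i), g t) ≤ ∫ t in (α i)..(β i), (1 : ℝ) :=
            intervalIntegral.integral_mono_on hle (hgc.continuous.intervalIntegrable _ _)
              (continuous_const.intervalIntegrable _ _) fun t _ => (hg01 t).2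
        _ = s i := by rw [intervalIntegral.integral_const, hs i]; simp
    have hnn : ∀ i, 0 ≤ s i * f (z i) * (∫ t in (α i)..(β i), g t) := by
      intro i
      have hle : α i ≤ β i := by linarith [hs0 i, hs i]
      exact mul_nonneg (mul_nonneg (hs0 i) (hf01 _).1)
        (intervalIntegral.integral_nonneg hle fun t _ => (hg01 t).1)
    exact (Summable.of_nonneg_of_le hnn hbd hsum).tsum_le_tsum hbd hsum
  have hsub : (⋃ i, connectedComponentIn E (z i)) ⊆ E :=
    iUnion_subset fun i => connectedComponentIn_subset _ _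
  have hUm : MeasurableSet (⋃ i, connectedComponentIn E (z i)) :=
    MeasurableSet.iUnion fun i => (hKc i).measurableSet
  rw [measure_sdiff hsub hUm.nullMeasurableSet (by rw [hU]; exact ENNReal.ofReal_ne_top), hU]
  exact tsub_eq_zero_of_le hEv




end

end Crest.Agent.R105.Sct_636
end

-- ▼ part R105/Pct2_185

/-!
# R105 PIC-T (2): the picture with solids (helper185)

`PicT E` : all components of `E` are vertical segments (points) or exact squares with attached
vertical pieces, `|E \ squares| = 0`, `Σ wd² < ∞`.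
`picT_of_min` : from the `T`-minimality in the picture; `picT_of_minz` : from the z-plane.
-/

set_option autoImplicit false

open Set Filter MeasureTheory Metric
open scoped Topology ENNReal NNReal ContDiff
open Crest.AnalysisR
open Crest.Agent.R105.Ends_897 (eF EndMap oscF)

namespace Crest.Agent.R105.Pct_185

open Tc_808 Sqr_185 Tra_937
open Sct_636 (LCE ELId)

noncomputable section

variable {E : Set ℂ}

/-! ### the E-L identity of 636 from the minimality -/

lemma LCE.LC {χ : ℂ → ℝ} (h : LCE E χ) : Bd_775.LC E χ where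
  lip := (h.smooth.of_le (by simp : (1 : WithTop ℕ∞) ≤ ((⊤ : ℕ∞) : WithTop ℕ∞))).locallyLipschitz
  bdd := by
    obtain ⟨C, hC⟩ := h.supp.exists_bound_of_continuous h.smooth.continuous
    exact ⟨C, fun z => hC z⟩
  fin := by
    have hd : Continuous (fderiv ℝ χ) := h.smooth.continuous_fderiv (by simp)
    have h1 : Continuous (Bd_775.en χ) :=
      ((hd.clm_apply continuous_const).pow 2).add ((hd.clm_apply continuous_const).pow 2)
    refine h1.integrable_of_hasCompactSupport ?_
    refine (h.supp.fderiv (𝕜 := ℝ)).mono ?_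
    intro z hz hz0
    apply hz
    have h2 : fderiv ℝ χ z = 0 := hz0
    simp [Bd_775.en, Bd_775.gx, Bd_775.gy, h2]
  lc := h.lc

/-- first variation in the direction of `G(x) χ`, `χ` locally constant near `E` -/
theorem firstVariation_lc (hE : IsCompact E) (hsum : Summable fun L : Cmp E => wd L.1 ^ 2)
    {G : ℝ → ℝ} {χ : ℂ → ℝ} (hG : ContDiff ℝ ∞ G) (hG' : HasCompactSupport (deriv G))
    (hχ : LCE E χ) {z : Cmp E → ℂ} (hz : ∀ L, z L ∈ L.1) {δ : ℝ} (hδ : 0 < δ)
    (hmin : ∀ τ : ℝ, |τ| ≤ δ → MINT E (fun w => τ * (G w.re * χ w))) :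
    (∫ w in Eᶜ, fderiv ℝ (fun w => G w.re * χ w) w 1)
      + (∑' L : Cmp E, wd L.1 * (χ (z L) * (G (hi L.1) - G (lo L.1)))) = 0 := by
  have hGc : Continuous (deriv G) := hG.continuous_deriv (by simp)
  obtain ⟨C, hC⟩ := hG'.exists_bound_of_continuous hGc
  have hC0 : 0 ≤ C := (norm_nonneg _).trans (hC 0)
  have hGd : Differentiable ℝ G := hG.differentiable (by simp)
  obtain ⟨X, hX⟩ := hχ.supp.exists_bound_of_continuous hχ.smooth.continuous
  have hX0 : 0 ≤ X := (norm_nonneg _).trans (hX 0)
  have hw0 : ∀ L : Cmp E, 0 ≤ wd L.1 := fun L => by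
    have := lo_le_hi (L.isCompact hE) L.nonempty
    simp only [wd]; linarith
  -- `χ` is constant near `L`
  have hconst : ∀ L : Cmp E, ∀ p ∈ L.1, ∀ᶠ w in 𝓝 p, χ w = χ (z L) := by
    intro L p hp
    obtain ⟨c, O, hO, hLO, hc⟩ := Tc_808.LC.const_near (LCE.LC hχ) L.preconn L.subset
    have h1 : χ (z L) = c := hc _ (hLO (hz L))
    filter_upwards [hO.mem_nhds (hLO hp)] with w hw
    rw [h1, hc w hw]
  have hosc : ∀ τ : ℝ, |τ| * (C * X) ≤ 1 → ∀ L : Cmp E,
      osc E (fun w => w.re + τ * (G w.re * χ w)) L.1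
        = wd L.1 + τ * (χ (z L) * (G (hi L.1) - G (lo L.1))) := by
    intro τ hτ L
    have hm : Monotone fun t => t + (τ * χ (z L)) * G t := by
      refine monotone_shift hGd hC ?_
      rw [abs_mul]
      have h1 : |χ (z L)| ≤ X := hX _
      calc |τ| * |χ (z L)| * C ≤ |τ| * X * C := by gcongr
        _ = |τ| * (C * X) := by ring
        _ ≤ 1 := hτ
    rw [osc_mono_re hE L hm (continuous_id.add (continuous_const.mul hG.continuous)) ?_]
    · simp only [wd]
      ring
    · intro p hp
      filter_upwards [hconst L p hp] with w hw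
      rw [hw]
      ring
  have hDel : ∀ L : Cmp E, |χ (z L) * (G (hi L.1) - G (lo L.1))| ≤ (C * X) * wd L.1 := by
    intro L
    rw [abs_mul]
    have h1 := (convex_univ (𝕜 := ℝ) (E := ℝ)).norm_image_sub_le_of_norm_deriv_le
      (f := G) (C := C) (x := lo L.1) (y := hi L.1) (fun x _ => hGd x) (fun x _ => hC x)
      (mem_univ _) (mem_univ _)
    have h2 : |hi L.1 - lo L.1| = wd L.1 := abs_of_nonneg (hw0 L)
    rw [Real.norm_eq_abs, Real.norm_eq_abs, h2] at h1
    calc |χ (z L)| * |G (hi L.1) - G (lo L.1)| ≤ X * (C * wd L.1) :=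
          mul_le_mul (hX _) h1 (abs_nonneg _) hX0
      _ = (C * X) * wd L.1 := by ring
  have hS1 : Summable fun L : Cmp E => wd L.1 * (χ (z L) * (G (hi L.1) - G (lo L.1))) := by
    refine Summable.of_norm_bounded (hsum.mul_left (C * X)) fun L => ?_
    rw [norm_mul, Real.norm_eq_abs, Real.norm_eq_abs, abs_of_nonneg (hw0 L)]
    nlinarith [hDel L, hw0 L]
  have hS2 : Summable fun L : Cmp E => (χ (z L) * (G (hi L.1) - G (lo L.1))) ^ 2 := by
    refine Summable.of_nonneg_of_le (fun _ => sq_nonneg _) (fun L => ?_)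
      (hsum.mul_left ((C * X) ^ 2))
    rw [← sq_abs, ← mul_pow]
    exact pow_le_pow_left₀ (abs_nonneg _) (hDel L) 2
  have hCX : 0 ≤ C * X := mul_nonneg hC0 hX0
  refine linear_of_quadratic (δ := min δ (1 / (C * X + 1))) (lt_min hδ (by positivity))
    (B := (∫ w in Eᶜ, Bd_775.en (fun w => G w.re * χ w) w)
      + ∑' L : Cmp E, (χ (z L) * (G (hi L.1) - G (lo L.1))) ^ 2) fun τ hτ => ?_
  have hτC : |τ| * (C * X) ≤ 1 := by
    have h1 : |τ| ≤ 1 / (C * X + 1) := hτ.trans (min_le_right _ _)
    rw [le_div_iff₀ (by positivity)] at h1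
    nlinarith [abs_nonneg τ]
  have h := hmin τ (hτ.trans (min_le_left _ _))
  unfold MINT at h
  have e1 : ∀ w, fderiv ℝ (fun w => τ * (G w.re * χ w)) w
      = τ • fderiv ℝ (fun w => G w.re * χ w) w := by
    intro w
    have h1 := congrFun (fderiv_const_smul_field (𝕜 := ℝ) (f := fun w : ℂ => G w.re * χ w) τ) w
    exact h1
  have e2 : ∫ w in Eᶜ, fderiv ℝ (fun w => τ * (G w.re * χ w)) w 1
      = τ * ∫ w in Eᶜ, fderiv ℝ (fun w => G w.re * χ w) w 1 := by
    rw [← integral_const_mul]
    congr 1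
    ext w
    rw [e1 w]
    rfl
  have e3 : ∫ w in Eᶜ, Bd_775.en (fun w => τ * (G w.re * χ w)) w
      = τ ^ 2 * ∫ w in Eᶜ, Bd_775.en (fun w => G w.re * χ w) w := by
    rw [← integral_const_mul]
    congr 1
    ext w
    simp only [Bd_775.en, Bd_775.gx, Bd_775.gy]
    rw [e1 w]
    simp only [_root_.smul_apply, smul_eq_mul]
    ring
  have e4 : ∀ L : Cmp E, osc E (fun w => w.re + τ * (G w.re * χ w)) L.1 ^ 2
      - osc E (fun w => w.re) L.1 ^ 2
      = 2 * τ * (wd L.1 * (χ (z L) * (G (hi L.1) - G (lo L.1))))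
        + τ ^ 2 * (χ (z L) * (G (hi L.1) - G (lo L.1))) ^ 2 := by
    intro L
    rw [hosc τ hτC L, osc_re hE L]
    simp only [wd]
    ring
  rw [e2, e3, tsum_congr e4, Summable.tsum_add (hS1.mul_left _) (hS2.mul_left _), tsum_mul_left,
    tsum_mul_left] at h
  nlinarith [h]

/-- the solids, as an index type -/
abbrev Sol (E : Set ℂ) := {L : Cmp E // 0 < wd L.1}

/-- a point of a component -/
def pt (L : Cmp E) : ℂ := L.nonempty.choose

lemma pt_mem (L : Cmp E) : pt L ∈ L.1 := L.nonempty.choose_spec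

lemma cc_pt (L : Cmp E) : connectedComponentIn E (pt L) = L.1 := by
  have h := L.eq_of_mem (pt_mem L)
  exact (congrArg Subtype.val h).symm

/-- **636's E-L identity** -/
theorem elId_of_min (hE : IsCompact E) (hsum : Summable fun L : Cmp E => wd L.1 ^ 2)
    (hmin : ∀ (G : ℝ → ℝ) (χ : ℂ → ℝ), ContDiff ℝ ∞ G → HasCompactSupport (deriv G) → LCE E χ →
      ∃ δ > 0, ∀ τ : ℝ, |τ| ≤ δ → MINT E (fun w => τ * (G w.re * χ w))) :
    ELId E (fun L : Sol E => pt L.1) (fun L => wd L.1.1) (fun L => lo L.1.1)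
      (fun L => hi L.1.1) := by
  intro G χ hG hG' hχ
  obtain ⟨δ, hδ, hm⟩ := hmin G χ hG hG' hχ
  have h := firstVariation_lc hE hsum hG hG' hχ (z := pt) pt_mem hδ hm
  refine Eq.trans ?_ h
  congr 1
  have hw0 : ∀ L : Cmp E, 0 ≤ wd L.1 := fun L => by
    have := lo_le_hi (L.isCompact hE) L.nonempty
    simp only [wd]; linarith
  have h1 : (fun L : Cmp E => wd L.1 * (χ (pt L) * (G (hi L.1) - G (lo L.1)))).support
      ⊆ {L : Cmp E | 0 < wd L.1} := by
    intro L hL
    rcases (hw0 L).lt_or_eq with h | h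
    · exact h
    · exfalso
      apply hL
      simp only
      rw [← h, zero_mul]
  rw [← tsum_subtype_eq_of_support_subset h1]
  refine tsum_congr fun L => ?_
  rw [mul_assoc]

/-! ### the picture theorem -/

/-- **the picture with solids** -/
structure PicT (E : Set ℂ) : Prop where
  cpt : IsCompact E
  ord : ∀ L : Cmp E, ∀ t, OrdConnected (sec L.1 t)
  sum : Summable fun L : Cmp E => wd L.1 ^ 2
  vol : ∀ L : Cmp E, 0 < wd L.1 → ∀ᵐ t : ℝ, volume (sec L.1 t)
      = (Icc (lo L.1) (hi L.1)).indicator (fun _ => ENNReal.ofReal (wd L.1)) t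
  null : volume (E \ ⋃ L : Sol E, L.1.1) = 0
  sq : ∀ L : Cmp E, 0 < wd L.1 → ∃ b : ℝ, SqK L.1 (lo L.1) b (wd L.1)

theorem countable_sol (hsum : Summable fun L : Cmp E => wd L.1 ^ 2) : Countable (Sol E) := by
  have h1 := hsum.countable_support
  refine (h1.mono ?_).to_subtype
  intro L hL
  have hL' : 0 < wd L.1 := hL
  simp only [Function.mem_support]
  positivity

/-- sections and areas -/
theorem sections_of_el (hE : IsCompact E) (hsum : Summable fun L : Cmp E => wd L.1 ^ 2)
    (hEL : ELId E (fun L : Sol E => pt L.1) (fun L => wd L.1.1) (fun L => lo L.1.1)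
      (fun L => hi L.1.1)) :
    (∀ L : Cmp E, 0 < wd L.1 → ∀ᵐ t : ℝ, volume (sec L.1 t)
      = (Icc (lo L.1) (hi L.1)).indicator (fun _ => ENNReal.ofReal (wd L.1)) t) ∧
    volume (E \ ⋃ L : Sol E, L.1.1) = 0 := by
  have hcnt := countable_sol hsum
  have hzE : ∀ L : Sol E, pt L.1 ∈ E := fun L => L.1.subset (pt_mem L.1)
  have hdist : ∀ L L' : Sol E, pt L'.1 ∈ connectedComponentIn E (pt L.1) → L' = L := by
    intro L L' h
    rw [cc_pt] at h
    apply Subtype.ext
    by_contra hne
    exact disjoint_left.1 (Cmp.disjoint hne) (pt_mem L'.1) h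
  have hs2 : Summable fun L : Sol E => wd L.1.1 ^ 2 := hsum.comp_injective Subtype.val_injective
  constructor
  · intro L hL
    have h := Sct_636.volume_sec hE hzE hdist hEL (fun _ => rfl) (fun L => L.2.le) hs2 ⟨L, hL⟩
    simp only [cc_pt] at h
    exact h
  · have h := Sct_636.volume_rest hE hzE hdist hEL (fun _ => rfl) (fun L => L.2.le) hs2
    simp only [cc_pt] at h
    exact h

/-- **the picture theorem**, from minimality in the picture -/
theorem picT_of_min (hE : IsCompact E) (hsum : Summable fun L : Cmp E => wd L.1 ^ 2)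
    (hR : ∀ t : ℝ, ∀ z ∈ Eᶜ, t < z.re →
      ¬ Bornology.IsBounded (connectedComponentIn (Eᶜ ∩ {w | t < w.re}) z))
    (hL : ∀ t : ℝ, ∀ z ∈ Eᶜ, z.re < t →
      ¬ Bornology.IsBounded (connectedComponentIn (Eᶜ ∩ {w | w.re < t}) z))
    (hminA : ∀ (G : ℝ → ℝ) (χ : ℂ → ℝ), ContDiff ℝ ∞ G → HasCompactSupport (deriv G) →
      LCE E χ → ∃ δ > 0, ∀ τ : ℝ, |τ| ≤ δ → MINT E (fun w => τ * (G w.re * χ w)))
    (hminB : ∀ K : Cmp E, 0 < wd K.1 → (∀ t, OrdConnected (sec K.1 t)) →
      ∀ θ : ℝ → ℝ, ContDiff ℝ ∞ θ → HasCompactSupport θ → tsupport θ ⊆ Ioo (lo K.1) (hi K.1) →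
      ∀ κ : ℝ → ℝ, ContDiff ℝ ∞ κ → HasCompactSupport κ → (∀ p ∈ E, ∀ᶠ y in 𝓝 p.im, κ y = 1) →
      ∃ δ > 0, ∀ τ : ℝ, |τ| ≤ δ → MINT E (fun z => τ * (up K.1 θ z * κ z.im))) : PicT E := by
  have hord : ∀ L : Cmp E, ∀ t, OrdConnected (sec L.1 t) := by
    intro L t
    have h := Sct_636.sec_ordConnected hE (t := t) (hR t) (hL t) (pt L)
    rw [cc_pt] at h
    exact h
  obtain ⟨h1, h2⟩ := sections_of_el hE hsum (elId_of_min hE hsum hminA)
  exact ⟨hE, hord, hsum, h1, h2, fun L hL0 =>
    exists_sqK hE hord hsum h1 h2 L hL0 (hminB L hL0 (hord L))⟩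



end

end Crest.Agent.R105.Pct_185
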