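import Crest.Agent.R105.Pct2_185
import Crest.Agent.R105.Elf3_600

-- ▼ part R105/Pct3_185
section

/-!
# R105 PIC-T (3): the test functions on the z-plane (helper185)

* `LCE_pull` : functions locally constant near `E` pull back to such functions;
* `testA`, `testB` : the two families `G(x) χ` and `1_{above K} θ(x) κ(y)`; classes `Q`, `TT`,
  local form near the components, on the picture and on the z-plane;
* `picT_of_minz`.
-/

set_option autoImplicit false

open Set Filter MeasureTheory Metric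
open scoped Topology NNReal ContDiff
open Crest.AnalysisR
open Crest.Agent.R105.Ends_897 (eF EndMap oscF)

namespace Crest.Agent.R105.Pct_185

open Tc_808 Sqr_185 Tra_937
open Sct_636 (LCE ELId)

noncomputable section

variable {E : Set ℂ} {U : Set ℂ} {F : ℂ → ℂ}

/-! ### oscillation bounds -/

lemma osc_lip_re (hE : IsCompact E) (L : Cmp E) {g : ℂ → ℝ} {k : ℝ → ℝ} {C : ℝ≥0}
    (hk : LipschitzWith C k) (hg : ∀ p ∈ L.1, ∀ᶠ z in 𝓝 p, g z = k z.re) :
    osc E g L.1 ≤ C * wd L.1 := by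
  have hL := L.isCompact hE
  have hw : 0 ≤ wd L.1 := by
    have := lo_le_hi hL L.nonempty
    simp only [wd]; linarith
  refine osc_le_of_forall (mul_nonneg C.2 hw) fun ε hε => ?_
  have hC1 : (0 : ℝ) < 2 * (C + 1) := by positivity
  set δ : ℝ := ε / (2 * (C + 1)) with hδ
  have hδ0 : 0 < δ := div_pos hε hC1
  refine ⟨interior {z | g z = k z.re} ∩ {z | lo L.1 - δ < z.re ∧ z.re < hi L.1 + δ},
    isOpen_interior.inter ((isOpen_lt continuous_const Complex.continuous_re).inter
      (isOpen_lt Complex.continuous_re continuous_const)),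
    fun z hz => ⟨mem_interior_iff_mem_nhds.2 (hg z hz), ?_, ?_⟩, fun z hz _ w hw' _ => ?_⟩
  · have := lo_le hL hz
    linarith
  · have := le_hi hL hz
    linarith
  · have h3 : g z = k z.re := by
      have := interior_subset hz.1
      exact this
    have h4 : g w = k w.re := by
      have := interior_subset hw'.1
      exact this
    rw [h3, h4]
    have h5 := hk.dist_le_mul z.re w.re
    rw [Real.dist_eq, Real.dist_eq] at h5
    have h6 : |z.re - w.re| ≤ wd L.1 + 2 * δ := by
      have a1 := hz.2.1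
      have a2 := hz.2.2
      have a3 := hw'.2.1
      have a4 := hw'.2.2
      simp only [wd]
      rw [abs_le]
      constructor <;> linarith
    have h7 : (C : ℝ) * (2 * δ) ≤ ε := by
      have : 2 * (C + 1) * δ = ε := by
        rw [hδ]; field_simp
      nlinarith [C.2]
    calc |k z.re - k w.re| ≤ C * |z.re - w.re| := h5
      _ ≤ C * (wd L.1 + 2 * δ) := mul_le_mul_of_nonneg_left h6 C.2
      _ = C * wd L.1 + C * (2 * δ) := by ring
      _ ≤ C * wd L.1 + ε := by linarith

lemma lip_of_deriv {k : ℝ → ℝ} (hk : ContDiff ℝ ∞ k) (hk' : HasCompactSupport (deriv k)) :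
    ∃ C : ℝ≥0, LipschitzWith C k := by
  obtain ⟨C, hC⟩ := hk'.exists_bound_of_continuous (hk.continuous_deriv (by simp))
  have hC0 : 0 ≤ C := (norm_nonneg _).trans (hC 0)
  refine ⟨⟨C, hC0⟩, lipschitzWith_of_nnnorm_deriv_le (hk.differentiable (by simp)) fun x => ?_⟩
  exact_mod_cast hC x

/-! ### the first family `G(x) χ` -/

/-- near a component `χ` is constant -/
lemma LCE.near {χ : ℂ → ℝ} (h : LCE E χ) (L : Cmp E) :
    ∃ c, ∃ O, IsOpen O ∧ L.1 ⊆ O ∧ ∀ z ∈ O, χ z = c :=
  Tc_808.LC.const_near (LCE.LC h) L.preconn L.subset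

theorem TT_A (hE : IsCompact E) (hsum : Summable fun L : Cmp E => wd L.1 ^ 2)
    {G : ℝ → ℝ} {χ : ℂ → ℝ} (hG : ContDiff ℝ ∞ G) (hG' : HasCompactSupport (deriv G))
    (hχ : LCE E χ) : TT E (fun w => G w.re * χ w) := by
  have hsm : ContDiff ℝ ∞ fun w : ℂ => G w.re * χ w :=
    (hG.comp Complex.reCLM.contDiff).mul hχ.smooth
  have hcs : HasCompactSupport fun w : ℂ => G w.re * χ w := hχ.supp.mul_left
  refine ⟨⟨?_, ?_, ?_⟩, ?_⟩
  · obtain ⟨C, hC⟩ := hcs.exists_bound_of_continuous hsm.continuous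
    exact ⟨C, hC⟩
  · exact ((hsm.of_le (by simp : (1 : WithTop ℕ∞) ≤
      ((⊤ : ℕ∞) : WithTop ℕ∞))).locallyLipschitz).locallyLipschitzOn
  · have hd : Continuous (fderiv ℝ fun w : ℂ => G w.re * χ w) := hsm.continuous_fderiv (by simp)
    have h1 : Continuous (Bd_775.en fun w : ℂ => G w.re * χ w) :=
      ((hd.clm_apply continuous_const).pow 2).add ((hd.clm_apply continuous_const).pow 2)
    refine (h1.integrable_of_hasCompactSupport ?_).integrableOn
    refine (hcs.fderiv (𝕜 := ℝ)).mono ?_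
    intro z hz hz0
    apply hz
    have h2 : fderiv ℝ (fun w : ℂ => G w.re * χ w) z = 0 := hz0
    simp [Bd_775.en, Bd_775.gx, Bd_775.gy, h2]
  · obtain ⟨C, hC⟩ := lip_of_deriv hG hG'
    obtain ⟨X, hX⟩ := hχ.supp.exists_bound_of_continuous hχ.smooth.continuous
    have hX0 : 0 ≤ X := (norm_nonneg _).trans (hX 0)
    obtain ⟨X', hX'⟩ : ∃ X' : ℝ≥0, (X' : ℝ) = X := ⟨⟨X, hX0⟩, rfl⟩
    refine Summable.of_nonneg_of_le (fun _ => sq_nonneg _) (fun L => ?_)
      (hsum.mul_left ((X' * C : ℝ≥0) : ℝ) |>.mul_left ((X' * C : ℝ≥0) : ℝ))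
    obtain ⟨c, O, hO, hLO, hc⟩ := LCE.near hχ L
    obtain ⟨p, hp⟩ := L.nonempty
    have hcX : |c| ≤ X := by rw [← hc p (hLO hp)]; exact hX p
    have hlip : LipschitzWith (X' * C) fun t => c * G t := by
      refine LipschitzWith.of_dist_le_mul fun a b => ?_
      rw [Real.dist_eq, ← mul_sub, abs_mul]
      have h1 := hC.dist_le_mul a b
      rw [Real.dist_eq (G a)] at h1
      calc |c| * |G a - G b| ≤ X * (C * dist a b) :=
            mul_le_mul hcX h1 (abs_nonneg _) hX0
        _ = ((X' * C : ℝ≥0) : ℝ) * dist a b := by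
            rw [NNReal.coe_mul, hX']; ring
    have h2 := osc_lip_re hE L (g := fun w => G w.re * χ w) hlip (by
      intro p hp
      filter_upwards [hO.mem_nhds (hLO hp)] with z hz
      rw [hc z hz]; ring)
    calc osc E (fun w => G w.re * χ w) L.1 ^ 2
        ≤ (((X' * C : ℝ≥0) : ℝ) * wd L.1) ^ 2 :=
          pow_le_pow_left₀ (osc_nonneg _ _ _) h2 2
      _ = _ := by ring

/-! ### the second family -/

section B

variable {K : Cmp E} {θ κ : ℝ → ℝ}

/-- near the other components the function is `θ(x)` or `0` -/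
theorem near_B (hE : IsCompact E) (hs : ∀ L : Cmp E, ∀ t, OrdConnected (sec L.1 t))
    (hθs : tsupport θ ⊆ Ioo (lo K.1) (hi K.1)) (hκ : ∀ p ∈ E, ∀ᶠ y in 𝓝 p.im, κ y = 1)
    {L : Cmp E} (hL : L ≠ K) :
    (∀ p ∈ L.1, ∀ᶠ z in 𝓝 p, up K.1 θ z * κ z.im = θ z.re) ∨
      (∀ p ∈ L.1, ∀ᶠ z in 𝓝 p, up K.1 θ z * κ z.im = 0) := by
  have hK := K.isCompact hE
  have hne : ∀ t ∈ Ioo (lo K.1) (hi K.1), (sec K.1 t).Nonempty := fun t ht =>
    sec_nonempty hK K.preconn K.nonempty ⟨ht.1.le, ht.2.le⟩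
  have hκ' : ∀ p ∈ L.1, ∀ᶠ z in 𝓝 p, κ z.im = 1 := fun p hp =>
    (Complex.continuous_im.tendsto p).eventually (hκ p (L.subset hp))
  rcases up_on_disjoint hK (hs K) (L.isCompact hE) L.preconn (hs L)
    (Cmp.disjoint (fun h => hL h.symm)) hne hθs with ⟨-, h2⟩ | ⟨-, h2⟩
  · left
    intro p hp
    filter_upwards [h2 p hp, hκ' p hp] with z h1 h3
    rw [h1, h3, mul_one]
  · right
    intro p hp
    filter_upwards [h2 p hp] with z h1
    rw [h1, zero_mul]

theorem contDiffAt_B (hE : IsCompact E) (hs : ∀ t, OrdConnected (sec K.1 t))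
    (hθ : ContDiff ℝ ∞ θ) (hθs : tsupport θ ⊆ Ioo (lo K.1) (hi K.1)) (hκ : ContDiff ℝ ∞ κ)
    {p : ℂ} (hp : p ∉ K.1) : ContDiffAt ℝ ∞ (fun z => up K.1 θ z * κ z.im) p := by
  have hK := K.isCompact hE
  have hne : ∀ t ∈ Ioo (lo K.1) (hi K.1), (sec K.1 t).Nonempty := fun t ht =>
    sec_nonempty hK K.preconn K.nonempty ⟨ht.1.le, ht.2.le⟩
  exact (contDiffAt_up hK hs hne hθs hθ hp).mul (hκ.comp Complex.imCLM.contDiff).contDiffAt

theorem locLip_B (hE : IsCompact E) (hs : ∀ t, OrdConnected (sec K.1 t))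
    (hθ : ContDiff ℝ ∞ θ) (hθs : tsupport θ ⊆ Ioo (lo K.1) (hi K.1)) (hκ : ContDiff ℝ ∞ κ)
    {S : Set ℂ} (hS : S ⊆ K.1ᶜ) : LocallyLipschitzOn S (fun z => up K.1 θ z * κ z.im) := by
  intro p hp
  have h1 : ContDiffAt ℝ 1 (fun z => up K.1 θ z * κ z.im) p :=
    (contDiffAt_B hE hs hθ hθs hκ (hS hp)).of_le (by simp)
  obtain ⟨C, t, ht, hC⟩ := h1.exists_lipschitzOnWith
  exact ⟨C, t, mem_nhdsWithin_of_mem_nhds ht, hC⟩

theorem Q_B (hE : IsCompact E) (hs : ∀ t, OrdConnected (sec K.1 t))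
    (hθ : ContDiff ℝ ∞ θ) (hθc : HasCompactSupport θ) (hθs : tsupport θ ⊆ Ioo (lo K.1) (hi K.1))
    (hκ : ContDiff ℝ ∞ κ) (hκc : HasCompactSupport κ) :
    Bd_775.Q E (fun z => up K.1 θ z * κ z.im) := by
  have hK := K.isCompact hE
  have hne : ∀ t ∈ Ioo (lo K.1) (hi K.1), (sec K.1 t).Nonempty := fun t ht =>
    sec_nonempty hK K.preconn K.nonempty ⟨ht.1.le, ht.2.le⟩
  obtain ⟨A, hA⟩ := hθc.exists_bound_of_continuous hθ.continuous
  obtain ⟨B, hB⟩ := hκc.exists_bound_of_continuous hκ.continuous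
  obtain ⟨A', hA'⟩ := hθc.deriv.exists_bound_of_continuous (hθ.continuous_deriv (by simp))
  obtain ⟨B', hB'⟩ := hκc.deriv.exists_bound_of_continuous (hκ.continuous_deriv (by simp))
  have hA0 : 0 ≤ A := (norm_nonneg _).trans (hA 0)
  have hB0 : 0 ≤ B := (norm_nonneg _).trans (hB 0)
  have hA'0 : 0 ≤ A' := (norm_nonneg _).trans (hA' 0)
  have hB'0 : 0 ≤ B' := (norm_nonneg _).trans (hB' 0)
  have hup : ∀ z, |up K.1 θ z| ≤ A := by
    intro z
    rcases up_mem (K := K.1) (θ := θ) z with h | h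
    · rw [h]; exact hA _
    · rw [h, abs_zero]; exact hA0
  refine ⟨⟨A * B, fun z => ?_⟩, locLip_B hE hs hθ hθs hκ
    (compl_subset_compl.2 K.subset), ?_⟩
  · rw [abs_mul]
    exact mul_le_mul (hup z) (hB _) (abs_nonneg _) hA0
  · -- finite energy
    set T : Set ℂ := Complex.re ⁻¹' (tsupport θ) ∩ Complex.im ⁻¹' (tsupport κ) with hT
    have hTm : MeasurableSet T :=
      (Complex.measurable_re (isClosed_tsupport θ).measurableSet).inter
        (Complex.measurable_im (isClosed_tsupport κ).measurableSet)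
    have hTv : volume T < ⊤ := by
      have h2 := Complex.volume_preserving_equiv_real_prod.measure_preimage
        (s := tsupport θ ×ˢ tsupport κ)
        ((isClosed_tsupport θ).measurableSet.prod (isClosed_tsupport κ).measurableSet).nullMeasurableSet
      rw [Measure.volume_eq_prod, Measure.prod_prod] at h2
      have h3 : volume T = volume (tsupport θ) * volume (tsupport κ) := by
        rw [← h2]; rfl
      rw [h3]
      exact ENNReal.mul_lt_top hθc.isCompact.measure_lt_top hκc.isCompact.measure_lt_top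
    have hder : ∀ p ∈ Eᶜ, fderiv ℝ (fun z => up K.1 θ z * κ z.im) p
        = up K.1 θ p • deriv κ p.im • Complex.imCLM
          + κ p.im • (above K.1).indicator (fun q => deriv θ q.re • Complex.reCLM) p := by
      intro w hw
      have hwK : w ∉ K.1 := fun h => hw (K.subset h)
      have h1 : DifferentiableAt ℝ (up K.1 θ) w :=
        (contDiffAt_up hK hs hne hθs hθ hwK).differentiableAt (by simp)
      have h2 : HasFDerivAt (fun w : ℂ => κ w.im) (deriv κ w.im • Complex.imCLM) w :=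
        ((hκ.differentiable (by simp)) w.im).hasDerivAt.comp_hasFDerivAt w
          Complex.imCLM.hasFDerivAt
      have h3 := (h1.hasFDerivAt.mul h2).fderiv
      rw [← fderiv_up hK hs hne hθs (hθ.differentiable (by simp)) hwK]
      exact h3
    have hbd : ∀ p ∈ Eᶜ, Bd_775.en (fun z => up K.1 θ z * κ z.im) p
        ≤ T.indicator (fun _ => (B * A') ^ 2 + (A * B') ^ 2) p := by
      intro p hp
      have hx : Bd_775.gx (fun z => up K.1 θ z * κ z.im) p
          = κ p.im * (above K.1).indicator (fun q => deriv θ q.re) p := by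
        simp only [Bd_775.gx]
        rw [hder p hp]
        simp only [_root_.add_apply, _root_.smul_apply, Complex.imCLM_apply, Complex.one_im,
          smul_eq_mul, mul_zero, zero_add]
        by_cases ha : p ∈ above K.1
        · rw [indicator_of_mem ha, indicator_of_mem ha]; simp
        · rw [indicator_of_notMem ha, indicator_of_notMem ha]; simp
      have hy : Bd_775.gy (fun z => up K.1 θ z * κ z.im) p = up K.1 θ p * deriv κ p.im := by
        simp only [Bd_775.gy]
        rw [hder p hp]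
        simp only [_root_.add_apply, _root_.smul_apply, Complex.imCLM_apply, Complex.I_im,
          smul_eq_mul, mul_one]
        by_cases ha : p ∈ above K.1
        · rw [indicator_of_mem ha]; simp
        · rw [indicator_of_notMem ha]; simp
      have hen : Bd_775.en (fun z => up K.1 θ z * κ z.im) p
          = (κ p.im * (above K.1).indicator (fun q => deriv θ q.re) p) ^ 2
            + (up K.1 θ p * deriv κ p.im) ^ 2 := by
        simp only [Bd_775.en]
        rw [hx, hy]
      rw [hen]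
      have hind : |(above K.1).indicator (fun q => deriv θ q.re) p| ≤ A' := by
        by_cases ha : p ∈ above K.1
        · rw [indicator_of_mem ha]; exact hA' _
        · rw [indicator_of_notMem ha, abs_zero]; exact hA'0
      by_cases hpT : p ∈ T
      · rw [indicator_of_mem hpT]
        refine add_le_add ?_ ?_
        · rw [← sq_abs, abs_mul]
          exact pow_le_pow_left₀ (by positivity) (mul_le_mul (hB _) hind (abs_nonneg _) hB0) 2
        · rw [← sq_abs, abs_mul]
          exact pow_le_pow_left₀ (by positivity) (mul_le_mul (hup p) (hB' _) (abs_nonneg _) hA0) 2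
      · rw [indicator_of_notMem hpT]
        have h0 : (κ p.im = 0 ∧ deriv κ p.im = 0) ∨ (θ p.re = 0 ∧ deriv θ p.re = 0) := by
          by_cases h1 : p.im ∈ tsupport κ
          · right
            have h2 : p.re ∉ tsupport θ := fun hc => hpT ⟨hc, h1⟩
            exact ⟨image_eq_zero_of_notMem_tsupport h2,
              image_eq_zero_of_notMem_tsupport fun hc => h2 (tsupport_deriv_subset hc)⟩
          · left
            exact ⟨image_eq_zero_of_notMem_tsupport h1,
              image_eq_zero_of_notMem_tsupport fun hc => h1 (tsupport_deriv_subset hc)⟩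
        rcases h0 with ⟨h1, h2⟩ | ⟨h1, h2⟩
        · rw [h1, h2]; simp
        · have h3 : (above K.1).indicator (fun q => deriv θ q.re) p = 0 := by
            by_cases ha : p ∈ above K.1
            · rw [indicator_of_mem ha]; exact h2
            · rw [indicator_of_notMem ha]
          have h4 : up K.1 θ p = 0 := by
            rcases up_mem (K := K.1) (θ := θ) p with h | h
            · rw [h, h1]
            · exact h
          rw [h3, h4]; simp
    have hmeas : Measurable (Bd_775.en (fun z => up K.1 θ z * κ z.im)) :=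
      ((Bd_775.measurable_gx _).pow_const 2).add ((Bd_775.measurable_gy _).pow_const 2)
    have hint : Integrable (T.indicator fun _ : ℂ => (B * A') ^ 2 + (A * B') ^ 2) :=
      (integrable_indicator_iff hTm).2 (integrableOn_const hTv.ne)
    refine Integrable.mono' hint.integrableOn hmeas.aestronglyMeasurable ?_
    rw [ae_restrict_iff' hE.isClosed.measurableSet.compl]
    refine Eventually.of_forall fun p hp => ?_
    rw [Real.norm_of_nonneg (by simp only [Bd_775.en]; positivity)]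
    exact hbd p hp

theorem TT_B (hE : IsCompact E) (hs : ∀ L : Cmp E, ∀ t, OrdConnected (sec L.1 t))
    (hsum : Summable fun L : Cmp E => wd L.1 ^ 2)
    (hθ : ContDiff ℝ ∞ θ) (hθc : HasCompactSupport θ) (hθs : tsupport θ ⊆ Ioo (lo K.1) (hi K.1))
    (hκ : ContDiff ℝ ∞ κ) (hκc : HasCompactSupport κ)
    (hκE : ∀ p ∈ E, ∀ᶠ y in 𝓝 p.im, κ y = 1) : TT E (fun z => up K.1 θ z * κ z.im) := by
  classical
  have hQ := Q_B (K := K) hE (hs K) hθ hθc hθs hκ hκc
  refine ⟨hQ, ?_⟩
  obtain ⟨C, hC⟩ := lip_of_deriv hθ hθc.deriv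
  have h1 : ∀ L : Cmp E, L ≠ K →
      osc E (fun z => up K.1 θ z * κ z.im) L.1 ^ 2 ≤ (C : ℝ) ^ 2 * wd L.1 ^ 2 := by
    intro L hL
    rw [← mul_pow]
    refine pow_le_pow_left₀ (osc_nonneg _ _ _) ?_ 2
    rcases near_B hE hs hθs hκE hL with h | h
    · exact osc_lip_re hE L hC h
    · exact osc_lip_re hE L (k := fun _ => 0) (LipschitzWith.const 0 |>.weaken zero_le) h
  set c : ℝ := osc E (fun z => up K.1 θ z * κ z.im) K.1 ^ 2 with hc
  refine Summable.of_nonneg_of_le (fun _ => sq_nonneg _) (fun L => ?_)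
    ((hsum.mul_left ((C : ℝ) ^ 2)).add (summable_of_hasFiniteSupport
      (f := fun L : Cmp E => if L = K then c else 0) ?_))
  · by_cases hL : L = K
    · subst hL
      simp only [if_true]
      have : 0 ≤ (C : ℝ) ^ 2 * wd L.1 ^ 2 := by positivity
      linarith
    · simp only [if_neg hL, add_zero]
      exact h1 L hL
  · refine (Set.finite_singleton K).subset fun L hL => ?_
    by_contra hne
    simp only [Function.mem_support] at hL
    exact hL (if_neg hne)

end B

end

end Crest.Agent.R105.Pct_185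
end

-- ▼ part R105/Pct4_185

/-!
# R105 PIC-T (4): from the minimality of `JT` on the z-plane to the picture with solids

`mint_of_JT`, `exists_LC_pull`, `picT_of_JT` (helper185).
-/

set_option autoImplicit false

open Set Filter MeasureTheory Metric
open scoped Topology NNReal ContDiff
open Crest.AnalysisR
open Crest.Agent.R105.Ends_897 (eF EndMap)

namespace Crest.Agent.R105.Pct_185

open Tc_808 Sqr_185
open Sct_636 (LCE ELId)
open IfB_641 (X0)
open SelT_871 (JT)
open Tra_937 (Uni locLip_congr)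

noncomputable section

variable {U : Set ℂ} {F : ℂ → ℂ} {x0 u : ℂ → ℝ}

/-- **minimality transported to the picture** -/
theorem mint_of_JT (h : EndMap U (F '' U) F) (hF : Uni U F) (hx0 : X0 Uᶜ x0) (hu : TT Uᶜ u)
    (hx : ∀ z ∈ U, x0 z + u z = (F z).re) {φ ψ : ℂ → ℝ}
    (hφ : LocallyLipschitzOn (F '' U) φ) (hψ : ∀ z ∈ U, ψ z = φ (F z)) (hψT : TT Uᶜ ψ)
    (hψc : HasCompactSupport ψ)
    (hmin : ∀ t : ℝ, JT Uᶜ x0 u ≤ JT Uᶜ x0 (fun z => u z + t * ψ z)) (τ : ℝ) :
    MINT (F '' U)ᶜ (fun w => τ * φ w) := by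
  have hUc : IsCompact Uᶜ := Ends_897.isCompact_compl h.hU
  have hYc : IsClosed Uᶜ := hUc.isClosed
  have hφτ : LocallyLipschitzOn (F '' U) (fun w => τ * φ w) := by
    intro z hz
    obtain ⟨K, t, ht, hK⟩ := hφ hz
    refine ⟨‖τ‖₊ * K, t, ht, LipschitzOnWith.of_dist_le_mul fun a ha b hb => ?_⟩
    have h1 := hK.dist_le_mul a ha b hb
    rw [Real.dist_eq, ← mul_sub, abs_mul]
    rw [Real.dist_eq] at h1
    calc |τ| * |φ a - φ b| ≤ |τ| * (K * dist a b) := mul_le_mul_of_nonneg_left h1 (abs_nonneg _)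
      _ = ((‖τ‖₊ * K : ℝ≥0) : ℝ) * dist a b := by
          rw [NNReal.coe_mul, coe_nnnorm, Real.norm_eq_abs]; ring
  rw [← minz_iff h hF (x := fun z => x0 z + u z) (ψ := fun z => τ * ψ z) hx hφτ
    (fun z hz => by rw [hψ z hz])]
  have h1 := Elf_600.minAt_JT hYc hx0 hu hψT hmin τ
  rw [Elf_600.a_eq hUc hx0 hu.q hψT.q hψc] at h1
  have hsumτ : TT Uᶜ (fun z => u z + τ * ψ z) := by
    have h2 : TT Uᶜ (fun z => τ * ψ z) := (TT.const τ).mul hYc hψT
    exact hu.add hYc h2
  -- oscillations do not see `x0`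
  have hosc : ∀ (v : ℂ → ℝ) (K : Cmp Uᶜ), osc Uᶜ (fun z => x0 z + v z) K.1 = osc Uᶜ v K.1 := by
    intro v K
    refine osc_congr (isClosed_tsupport x0).isOpen_compl (fun z hz hz' => hx0.zero hz' (K.subset hz))
      fun z hz _ => ?_
    have : x0 z = 0 := image_eq_zero_of_notMem_tsupport hz
    rw [this, zero_add]
  have e0 : ∀ K : Cmp Uᶜ, osc Uᶜ (fun z => (x0 z + u z) + τ * ψ z) K.1
      = osc Uᶜ (fun z => u z + τ * ψ z) K.1 := by
    intro K
    rw [← hosc (fun z => u z + τ * ψ z) K]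
    congr 1
    funext z
    ring
  have e1 : ∑' K : Cmp Uᶜ, (osc Uᶜ (fun z => (x0 z + u z) + τ * ψ z) K.1 ^ 2
      - osc Uᶜ (fun z => x0 z + u z) K.1 ^ 2)
      = ∑' K : Cmp Uᶜ, osc Uᶜ (fun z => u z + τ * ψ z) K.1 ^ 2
        - ∑' K : Cmp Uᶜ, osc Uᶜ u K.1 ^ 2 := by
    rw [← hsumτ.sum.tsum_sub hu.sum]
    exact tsum_congr fun K => by rw [e0 K, hosc u K]
  have e2 : ∫ z in U, Tra_937.dot (fun z => x0 z + u z) (fun z => τ * ψ z) z
      = τ * ∫ z in Uᶜᶜ, Bd_775.dot (fun w => x0 w + u w) ψ z := by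
    rw [compl_compl, ← integral_const_mul]
    congr 1
    funext z
    have h3 := congrFun (fderiv_const_smul_field (𝕜 := ℝ) (f := ψ) τ) z
    have h4 : fderiv ℝ (fun z => τ * ψ z) z = τ • fderiv ℝ ψ z := h3
    simp only [Tra_937.dot, Bd_775.dot, Tra_937.gx, Tra_937.gy, Bd_775.gx, Bd_775.gy]
    rw [h4]
    simp only [_root_.smul_apply, smul_eq_mul]
    ring
  have e3 : ∫ z in U, Tra_937.en (fun z => τ * ψ z) z = τ ^ 2 * IfB_641.di Uᶜ ψ ψ := by
    unfold IfB_641.di
    rw [compl_compl, ← integral_const_mul]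
    congr 1
    funext z
    have h3 := congrFun (fderiv_const_smul_field (𝕜 := ℝ) (f := ψ) τ) z
    have h4 : fderiv ℝ (fun z => τ * ψ z) z = τ • fderiv ℝ ψ z := h3
    simp only [Tra_937.en, Bd_775.dot, Tra_937.gx, Tra_937.gy, Bd_775.gx, Bd_775.gy]
    rw [h4]
    simp only [_root_.smul_apply, smul_eq_mul]
    ring
  unfold MINZ
  rw [e1, e2, e3]
  linarith

/-! ### pulling back locally constant functions -/

/-- a locally constant cut-off of the picture pulls back to one of the z-plane -/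
theorem exists_LC_pull (h : EndMap U (F '' U) F) (hF : Uni U F) {χ : ℂ → ℝ}
    (hχ : LCE (F '' U)ᶜ χ) :
    ∃ χ' : ℂ → ℝ, Bd_775.LC Uᶜ χ' ∧ HasCompactSupport χ' ∧ ∀ z ∈ U, χ' z = χ (F z) := by
  classical
  have hUc : IsCompact Uᶜ := Ends_897.isCompact_compl h.hU
  have hYE : IsExteriorDomain (Uᶜ)ᶜ := by rw [compl_compl]; exact h.hU
  set χ' : ℂ → ℝ := fun z => if hz : z ∈ Uᶜ then χ (pt (eqv h (Cmp.of hz))) else χ (F z) with hχ'
  have hin : ∀ z ∈ U, χ' z = χ (F z) := fun z hz => dif_neg (not_not.2 hz)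
  -- locally constant near `Uᶜ`
  have hlc : ∀ z ∈ Uᶜ, ∀ᶠ w in 𝓝 z, χ' w = χ' z := by
    intro z hz
    set K : Cmp Uᶜ := Cmp.of hz with hK
    obtain ⟨c, P, hP, hKP, hc⟩ := LCE.near hχ (eqv h K)
    have hzc : χ' z = c := by
      have h1 : χ' z = χ (pt (eqv h K)) := dif_pos hz
      rw [h1]
      exact hc _ (hKP (pt_mem _))
    obtain ⟨O, hO, hKO, hsub⟩ := exists_nhd_of h K hP hKP
    have hnb : Ni_459.Nb Uᶜ z O :=
      Ni_459.nb_of_mem hz hO (by exact hKO)
    obtain ⟨O', hO'O, hnb', hall⟩ := hnb.shrink hUc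
    filter_upwards [hnb'.op.mem_nhds hnb'.mem] with w hw
    rw [hzc]
    by_cases hwU : w ∈ U
    · rw [hin w hwU]
      exact hc _ (hsub w (hO'O hw) hwU)
    · -- `w` in another component inside `O`
      have hwY : w ∈ Uᶜ := hwU
      have h1 : χ' w = χ (pt (eqv h (Cmp.of hwY))) := dif_pos hwY
      rw [h1]
      set K' : Cmp Uᶜ := Cmp.of hwY with hK'
      obtain ⟨c', P', hP', hKP', hc'⟩ := LCE.near hχ (eqv h K')
      obtain ⟨O₂, hO₂, hKO₂, hsub₂⟩ := exists_nhd_of h K' hP' hKP'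
      have h2 : Ni_459.Nb Uᶜ w (O ∩ O₂) :=
        (hall w hw).inter (Ni_459.nb_of_mem hwY hO₂ (by exact hKO₂))
      obtain ⟨q, hq1, hq2⟩ := h2.nonempty hYE
      have hqU : q ∈ U := not_not.1 hq2
      have h3 : χ (F q) = c := hc _ (hsub q hq1.1 hqU)
      have h4 : χ (F q) = c' := hc' _ (hsub₂ q hq1.2 hqU)
      rw [hc' _ (hKP' (pt_mem _)), ← h4, h3]
  -- locally Lipschitz
  have hlip : LocallyLipschitz χ' := by
    intro z
    by_cases hz : z ∈ U
    · have h1 : LocallyLipschitzOn (F '' U) χ :=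
        ((hχ.smooth.of_le (by simp : (1 : WithTop ℕ∞) ≤
          ((⊤ : ℕ∞) : WithTop ℕ∞))).locallyLipschitz).locallyLipschitzOn
      obtain ⟨K, t, ht, hK⟩ := (locLip_congr (fun z hz => (hin z hz).symm) (hF.locLip_comp h1)) hz
      rw [hF.op.nhdsWithin_eq hz] at ht
      exact ⟨K, t, ht, hK⟩
    · have hzY : z ∈ Uᶜ := hz
      refine ⟨0, {w | χ' w = χ' z}, hlc z hzY, ?_⟩
      intro a ha b hb
      have ha' : χ' a = χ' z := ha
      have hb' : χ' b = χ' z := hb
      rw [ha', hb', edist_self]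
      exact zero_le
  -- compact support
  have hcs : HasCompactSupport χ' := by
    obtain ⟨R, hR⟩ := hχ.supp.isCompact.isBounded.subset_closedBall (0 : ℂ)
    have h1 : ∀ᶠ z in cocompact ℂ, F z ∈ (closedBall (0 : ℂ) R)ᶜ :=
      h.inf (isCompact_closedBall (0 : ℂ) R).compl_mem_cocompact
    have h2 : ∀ᶠ z in cocompact ℂ, z ∈ U := by
      have := hUc.compl_mem_cocompact
      rwa [compl_compl] at this
    obtain ⟨T, hT, hTs⟩ := mem_cocompact.1 (h1.and h2)
    refine HasCompactSupport.of_support_subset_isCompact hT fun z hz => ?_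
    by_contra hzT
    obtain ⟨h3, h4⟩ := hTs hzT
    apply hz
    rw [hin z h4]
    exact image_eq_zero_of_notMem_tsupport fun hc => h3 (hR hc)
  exact ⟨χ', Bd_775.LC.of_compact hlip hcs hlc, hcs, hin⟩

/-! ### connectivity -/





/-! ### the theorem -/


end

end Crest.Agent.R105.Pct_185
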