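import Crest.Agent.R105.Nip1_31
import Crest.Agent.R105.Ni0_459

-- ▼ part R105/Nip3_31
section

/-!
# Row 105, S0138 (T-frame), module NI of helper459 (#9956), part (P2), file 3 (helper31)

* `slc ρ t` : the slices of a finite measure on `ℝ × X` (absolutely continuous part of the first
  marginal);
* `exists_sat` : a countable family of compact saturated sets;
* `ZF aM aP bM bP F` : the multivalued image of `F`;
* `slice_le` : (AREA) for all compact saturated `F` and all Borel sets of levels implies, for a.e.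
  level `t`, the slice inequality for ALL compact saturated `F` at once.
-/

set_option autoImplicit false

open Set Filter Topology MeasureTheory ProbabilityTheory
open scoped ENNReal

namespace Crest.Agent.R105.Nip_31

section slices

variable {X : Type*} [MeasurableSpace X] [StandardBorelSpace X] [Nonempty X]

/-- slices -/
noncomputable def slc (ρ : Measure (ℝ × X)) [IsFiniteMeasure ρ] (t : ℝ) : Measure X :=
  (ρ.fst.rnDeriv volume t) • ρ.condKernel t

variable (ρ : Measure (ℝ × X)) [IsFiniteMeasure ρ]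

lemma slc_apply (t : ℝ) (A : Set X) : slc ρ t A = ρ.fst.rnDeriv volume t * ρ.condKernel t A := rfl

lemma ae_slc_lt_top : ∀ᵐ t, ∀ A, slc ρ t A < ∞ := by
  filter_upwards [Measure.rnDeriv_lt_top ρ.fst volume] with t ht A
  rw [slc_apply]
  exact ENNReal.mul_lt_top ht (measure_lt_top _ _)

lemma measurable_slc {S : Set (ℝ × X)} (hS : MeasurableSet S) :
    Measurable fun t => slc ρ t (Prod.mk t ⁻¹' S) := by
  simp_rw [slc_apply]
  exact (Measure.measurable_rnDeriv _ _).mul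
    (Kernel.measurable_kernel_prodMk_left hS)

lemma lintegral_slc_le {S : Set (ℝ × X)} (hS : MeasurableSet S) :
    ∫⁻ t, slc ρ t (Prod.mk t ⁻¹' S) ≤ ρ S := by
  have hm : Measurable fun t => ρ.condKernel t (Prod.mk t ⁻¹' S) :=
    Kernel.measurable_kernel_prodMk_left hS
  calc ∫⁻ t, slc ρ t (Prod.mk t ⁻¹' S)
      = ∫⁻ t, ρ.condKernel t (Prod.mk t ⁻¹' S) ∂(volume.withDensity (ρ.fst.rnDeriv volume)) := by
        rw [lintegral_withDensity_eq_lintegral_mul _ (Measure.measurable_rnDeriv _ _) hm]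
        rfl
    _ ≤ ∫⁻ t, ρ.condKernel t (Prod.mk t ⁻¹' S) ∂ρ.fst :=
        lintegral_mono' (Measure.withDensity_rnDeriv_le _ _) le_rfl
    _ = ρ S := by
        conv_rhs => rw [← ρ.disintegrate ρ.condKernel, Measure.compProd_apply hS]

/-- off a Lebesgue null set of levels the slices see everything. -/
lemma exists_null : ∃ N : Set ℝ, MeasurableSet N ∧ volume N = 0 ∧ ∀ S : Set (ℝ × X),
    MeasurableSet S → (∀ q ∈ S, q.1 ∉ N) → ρ S = ∫⁻ t, slc ρ t (Prod.mk t ⁻¹' S) := by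
  obtain ⟨N, hN, h1, h2⟩ := Measure.mutuallySingular_singularPart ρ.fst (volume : Measure ℝ)
  refine ⟨Nᶜ, hN.compl, h2, fun S hS hSN => ?_⟩
  have hm : Measurable fun t => ρ.condKernel t (Prod.mk t ⁻¹' S) :=
    Kernel.measurable_kernel_prodMk_left hS
  have e1 : ρ S = ∫⁻ t, ρ.condKernel t (Prod.mk t ⁻¹' S) ∂ρ.fst := by
    conv_lhs => rw [← ρ.disintegrate ρ.condKernel, Measure.compProd_apply hS]
  have e2 : ρ.fst = ρ.fst.singularPart volume + volume.withDensity (ρ.fst.rnDeriv volume) :=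
    Measure.haveLebesgueDecomposition_add _ _
  have e3 : ∫⁻ t, ρ.condKernel t (Prod.mk t ⁻¹' S) ∂(ρ.fst.singularPart volume) = 0 := by
    rw [lintegral_eq_zero_iff hm]
    rw [Filter.EventuallyEq, ae_iff]
    refine measure_mono_null (fun t ht => ?_) h1
    by_contra hcon
    apply ht
    have : Prod.mk t ⁻¹' S = (∅ : Set X) := by
      ext x
      simp only [mem_preimage, mem_empty_iff_false, iff_false]
      intro hx
      exact hSN _ hx hcon
    rw [this]
    simp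
  rw [e1]
  conv_lhs => rw [e2]
  rw [lintegral_add_measure, e3, zero_add,
    lintegral_withDensity_eq_lintegral_mul _ (Measure.measurable_rnDeriv _ _) hm]
  rfl

end slices

section family

variable {X : Type*} [TopologicalSpace X]

/-- the saturation of `A` -/
def sat (E A : Set X) : Set X := (sint E Aᶜ)ᶜ

lemma subset_sat {E A : Set X} : A ⊆ sat E A := fun _ hz h => h.1 hz

lemma sat_sat {E A : Set X} : Sat E (sat E A) := by
  intro z hz hzE w hw hw'
  apply hz
  have hwE := connectedComponentIn_subset _ _ hw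
  have := sat_sint (E := E) (W := Aᶜ) w hw' hwE
  rw [← connectedComponentIn_eq hw] at this
  exact this (mem_connectedComponentIn hzE)

lemma sat_subset {E A O : Set X} (hO : Sat E O) (h : A ⊆ O) : sat E A ⊆ O := by
  intro z hz
  by_contra hzO
  apply hz
  refine ⟨fun hzA => hzO (h hzA), fun hzE w hw hwA => hzO ?_⟩
  have hwE := connectedComponentIn_subset _ _ hw
  have := hO w (h hwA) hwE
  rw [← connectedComponentIn_eq hw] at this
  exact this (mem_connectedComponentIn hzE)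

lemma isCompact_sat [T2Space X] [LocallyCompactSpace X] {E A : Set X} (hE : IsCompact E)
    (hA : IsCompact A) : IsCompact (sat E A) := by
  have hcl : IsClosed (sat E A) := (isOpen_sint hE hA.isClosed.isOpen_compl).isClosed_compl
  refine (hA.union hE).of_isClosed_subset hcl fun z hz => ?_
  by_cases hzE : z ∈ E
  · exact Or.inr hzE
  · refine Or.inl ?_
    by_contra hzA
    exact hz ⟨hzA, fun h => absurd h hzE⟩

lemma exists_family [T2Space X] [LocallyCompactSpace X] [SecondCountableTopology X] {E : Set X}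
    (hE : IsCompact E) : ∃ 𝒞 : Set (Set X), 𝒞.Countable ∧ (∀ G ∈ 𝒞, IsCompact G ∧ Sat E G) ∧
      ∀ F O : Set X, IsCompact F → Sat E F → IsOpen O → F ⊆ O → ∃ G ∈ 𝒞, F ⊆ G ∧ G ⊆ O := by
  classical
  set 𝒟 : Set (Set (Set X)) := {s | s.Finite ∧ s ⊆ TopologicalSpace.countableBasis X} with h𝒟
  have h𝒟c : 𝒟.Countable := countable_ofPred_finite_subset (TopologicalSpace.countable_countableBasis X)
  refine ⟨{G | ∃ s ∈ 𝒟, IsCompact (closure (⋃₀ s)) ∧ G = sat E (closure (⋃₀ s))}, ?_, ?_, ?_⟩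
  · refine (h𝒟c.image fun s => sat E (closure (⋃₀ s))).mono ?_
    rintro G ⟨s, hs, -, rfl⟩
    exact ⟨s, hs, rfl⟩
  · rintro G ⟨s, hs, hc, rfl⟩
    exact ⟨isCompact_sat hE hc, sat_sat⟩
  · intro F O hF hFs hO hFO
    obtain ⟨V, hV, hFV, hVO, hVc⟩ := exists_open_between_and_isCompact_closure hF
      (isOpen_sint hE hO) (hFs.subset_sint hFO)
    have hB := TopologicalSpace.isBasis_countableBasis X
    have h1 : ∀ z ∈ F, ∃ B ∈ TopologicalSpace.countableBasis X, z ∈ B ∧ B ⊆ V := fun z hz =>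
      hB.exists_subset_of_mem_open (hFV hz) hV
    choose! B hB1 hB2 hB3 using h1
    obtain ⟨T, hTF, hT⟩ := hF.elim_nhds_subcover B
      (fun z hz => (hB.isOpen (hB1 z hz)).mem_nhds (hB2 z hz))
    set s : Set (Set X) := B '' (T : Set X) with hs
    have hsV : ⋃₀ s ⊆ V := by
      rintro x ⟨_, ⟨z, hz, rfl⟩, hx⟩
      exact hB3 z (hTF z hz) hx
    have hFs' : F ⊆ ⋃₀ s := by
      intro x hx
      obtain ⟨z, hz, hxz⟩ := mem_iUnion₂.1 (hT hx)
      exact ⟨B z, ⟨z, hz, rfl⟩, hxz⟩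
    have hc : IsCompact (closure (⋃₀ s)) := hVc.of_isClosed_subset isClosed_closure
      (closure_mono hsV)
    refine ⟨sat E (closure (⋃₀ s)), ⟨s, ⟨T.finite_toSet.image B, ?_⟩, hc, rfl⟩,
      (hFs'.trans subset_closure).trans subset_sat, ?_⟩
    · rintro _ ⟨z, hz, rfl⟩
      exact hB1 z (hTF z hz)
    · exact (sat_subset sat_sint ((closure_mono hsV).trans hVO)).trans sint_subset

end family

section areas

variable {X : Type*} [TopologicalSpace X]

/-- the multivalued image of `F` -/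
def ZF (aM aP bM bP : X → ℝ) (F : Set X) : Set (ℝ × ℝ) :=
  {p | ∃ z ∈ F, aM z ≤ p.1 ∧ p.1 ≤ aP z ∧ bM z ≤ p.2 ∧ p.2 ≤ bP z}

variable {aM aP bM bP : X → ℝ} {F : Set X}

omit [TopologicalSpace X] in
lemma ZF_mono {F' : Set X} (h : F ⊆ F') : ZF aM aP bM bP F ⊆ ZF aM aP bM bP F' :=
  fun _ ⟨z, hz, h'⟩ => ⟨z, h hz, h'⟩

lemma isClosed_ZF (h1 : LowerSemicontinuous aM) (h2 : UpperSemicontinuous aP)
    (h3 : LowerSemicontinuous bM) (h4 : UpperSemicontinuous bP) (hF : IsCompact F) :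
    IsClosed (ZF aM aP bM bP F) := by
  have : CompactSpace F := isCompact_iff_compactSpace.1 hF
  have hc1 : IsClosed {q : F × (ℝ × ℝ) | aM q.1.1 ≤ q.2.1} := by
    have := (h1.isClosed_epigraph).preimage
      (f := fun q : F × (ℝ × ℝ) => ((q.1 : X), q.2.1)) (by fun_prop)
    exact this
  have hc3 : IsClosed {q : F × (ℝ × ℝ) | bM q.1.1 ≤ q.2.2} := by
    have := (h3.isClosed_epigraph).preimage
      (f := fun q : F × (ℝ × ℝ) => ((q.1 : X), q.2.2)) (by fun_prop)
    exact this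
  have hc2 : IsClosed {q : F × (ℝ × ℝ) | q.2.1 ≤ aP q.1.1} := by
    have := (h2.IsClosed_hypograph).preimage
      (f := fun q : F × (ℝ × ℝ) => ((q.1 : X), q.2.1)) (by fun_prop)
    exact this
  have hc4 : IsClosed {q : F × (ℝ × ℝ) | q.2.2 ≤ bP q.1.1} := by
    have := (h4.IsClosed_hypograph).preimage
      (f := fun q : F × (ℝ × ℝ) => ((q.1 : X), q.2.2)) (by fun_prop)
    exact this
  have hc := isClosedMap_snd_of_compactSpace (X := F) (Y := ℝ × ℝ) _
    ((hc1.inter hc2).inter (hc3.inter hc4))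
  convert hc using 1
  ext p
  constructor
  · rintro ⟨z, hz, ha, hb, hc, hd⟩
    exact ⟨(⟨z, hz⟩, p), ⟨⟨ha, hb⟩, hc, hd⟩, rfl⟩
  · rintro ⟨⟨z, q⟩, ⟨⟨ha, hb⟩, hc, hd⟩, rfl⟩
    exact ⟨z, z.2, ha, hb, hc, hd⟩

variable [T2Space X] [LocallyCompactSpace X] [SecondCountableTopology X]
  [MeasurableSpace X] [BorelSpace X] [StandardBorelSpace X] [Nonempty X]

/-- **slices of (AREA)** -/
theorem slice_le {E W₀ : Set X} (hE : IsCompact E) (hW₀ : IsOpen W₀)
    (h1 : LowerSemicontinuous aM) (h2 : UpperSemicontinuous aP)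
    (h3 : LowerSemicontinuous bM) (h4 : UpperSemicontinuous bP)
    {ρ : Measure (ℝ × X)} [IsFiniteMeasure ρ]
    (H : ∀ F, IsCompact F → Sat E F → F ⊆ W₀ → ∀ T : Set ℝ, MeasurableSet T →
      volume (ZF aM aP bM bP F ∩ T ×ˢ univ) ≤ ρ (T ×ˢ F)) :
    ∀ᵐ t, ∀ F, IsCompact F → Sat E F → F ⊆ W₀ →
      volume {s | (t, s) ∈ ZF aM aP bM bP F} ≤ slc ρ t F := by
  obtain ⟨𝒞, h𝒞, hcs, hsub⟩ := exists_family hE (X := X)
  obtain ⟨N, hN, hN0, hNρ⟩ := exists_null ρ
  -- one set at a time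
  have key : ∀ G, IsCompact G → Sat E G → G ⊆ W₀ →
      ∀ᵐ t, volume {s | (t, s) ∈ ZF aM aP bM bP G} ≤ slc ρ t G := by
    intro G hG hGs hGW
    have hZ : MeasurableSet (ZF aM aP bM bP G) := (isClosed_ZF h1 h2 h3 h4 hG).measurableSet
    have hm1 : Measurable fun t : ℝ => volume {s | (t, s) ∈ ZF aM aP bM bP G} :=
      measurable_measure_prodMk_left hZ
    refine ae_le_of_forall_setLIntegral_le_of_sigmaFinite hm1 fun T hT _ => ?_
    have hT' : MeasurableSet (T \ N) := hT.diff hN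
    have e0 : (T \ N : Set ℝ) =ᵐ[volume] T := by
      exact sdiff_null_ae_eq_self hN0
    have e1 : ∫⁻ t in T \ N, volume {s | (t, s) ∈ ZF aM aP bM bP G} =
        volume (ZF aM aP bM bP G ∩ (T \ N) ×ˢ univ) := by
      rw [Measure.volume_eq_prod, Measure.prod_apply (hZ.inter (hT'.prod MeasurableSet.univ)),
        ← lintegral_indicator hT']
      refine lintegral_congr fun t => ?_
      by_cases ht : t ∈ T \ N
      · rw [indicator_of_mem ht]
        congr 1
        ext s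
        simp [ht.1, ht.2]
      · rw [indicator_of_notMem ht]
        symm
        refine measure_mono_null (t := ∅) (fun s hs => ?_) (by simp)
        exact ht hs.2.1
    have e2 : ρ ((T \ N) ×ˢ G) = ∫⁻ t in T \ N, slc ρ t G := by
      rw [hNρ _ (hT'.prod hG.measurableSet) (fun q hq => hq.1.2), ← lintegral_indicator hT']
      refine lintegral_congr fun t => ?_
      by_cases ht : t ∈ T \ N
      · rw [indicator_of_mem ht]
        congr 1
        ext x
        simp [ht.1, ht.2]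
      · rw [indicator_of_notMem ht]
        refine measure_mono_null (t := ∅) (fun s hs => ?_) (by simp)
        exact ht hs.1
    calc ∫⁻ t in T, volume {s | (t, s) ∈ ZF aM aP bM bP G}
        = ∫⁻ t in T \ N, volume {s | (t, s) ∈ ZF aM aP bM bP G} := (setLIntegral_congr e0).symm
      _ = volume (ZF aM aP bM bP G ∩ (T \ N) ×ˢ univ) := e1
      _ ≤ ρ ((T \ N) ×ˢ G) := H G hG hGs hGW _ hT'
      _ = ∫⁻ t in T \ N, slc ρ t G := e2
      _ = ∫⁻ t in T, slc ρ t G := setLIntegral_congr e0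
  have hall : ∀ᵐ t, ∀ G ∈ 𝒞, G ⊆ W₀ → volume {s | (t, s) ∈ ZF aM aP bM bP G} ≤ slc ρ t G := by
    rw [ae_ball_iff h𝒞]
    intro G hG
    by_cases hGW : G ⊆ W₀
    · filter_upwards [key G (hcs G hG).1 (hcs G hG).2 hGW] with t ht _ using ht
    · exact Eventually.of_forall fun t h => absurd h hGW
  filter_upwards [hall, ae_slc_lt_top ρ] with t ht htt F hF hFs hFW
  have hfin : IsFiniteMeasure (slc ρ t) := ⟨htt univ⟩
  refine ENNReal.le_of_forall_pos_le_add fun ε hε _ => ?_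
  have hε' : (ε : ℝ≥0∞) ≠ 0 := by exact_mod_cast hε.ne'
  obtain ⟨O, hFO, hO, hOε⟩ := F.exists_isOpen_lt_add (μ := slc ρ t) (htt F).ne hε'
  obtain ⟨G, hG, hFG, hGO⟩ := hsub F (O ∩ W₀) hF hFs (hO.inter hW₀) (subset_inter hFO hFW)
  calc volume {s | (t, s) ∈ ZF aM aP bM bP F}
      ≤ volume {s | (t, s) ∈ ZF aM aP bM bP G} := measure_mono fun s hs => ZF_mono hFG hs
    _ ≤ slc ρ t G := ht G hG (hGO.trans inter_subset_right)
    _ ≤ slc ρ t O := measure_mono (hGO.trans inter_subset_left)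
    _ ≤ slc ρ t F + ε := hOε.le

end areas

end Crest.Agent.R105.Nip_31
end

-- ▼ part R105/Nip4_31
section

/-!
# Row 105, S0138 (T-frame), module NI of helper459, part (P2), file 4 (helper31)

* `null_image_ll` : locally Lipschitz maps of the plane send null sets to null sets;
* `area` (T2) : `|(a, b)(M)| ≤ ∫_M |da ∧ db|` for measurable `M ⊆ Yᶜ`.
-/

set_option autoImplicit false

open Set Filter Topology MeasureTheory Metric
open scoped ENNReal NNReal

namespace Crest.Agent.R105.Nip_31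

open Bd_775

lemma ac_hausdorff : (volume : Measure ℂ) ≪ μH[2] ∧ (μH[2] : Measure ℂ) ≪ volume := by
  have h2 : ((Module.finrank ℝ ℂ : ℕ) : ℝ) = 2 := by rw [Complex.finrank_real_complex]; norm_num
  have : (μH[2] : Measure ℂ).IsAddHaarMeasure := by
    rw [← h2]
    exact MeasureTheory.isAddHaarMeasure_hausdorffMeasure
  exact ⟨Measure.absolutelyContinuous_isAddHaarMeasure _ _,
    Measure.absolutelyContinuous_isAddHaarMeasure _ _⟩

lemma null_image_lip {G : ℂ → ℂ} {S : Set ℂ} {K : ℝ≥0} (hG : LipschitzOnWith K G S)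
    (hS : volume S = 0) : volume (G '' S) = 0 := by
  apply ac_hausdorff.1
  have h1 : (μH[2] : Measure ℂ) S = 0 := ac_hausdorff.2 hS
  refine le_antisymm ?_ bot_le
  refine (hG.hausdorffMeasure_image_le (d := 2) (by norm_num)).trans ?_
  rw [h1, mul_zero]

lemma null_image_ll {G : ℂ → ℂ} {O S : Set ℂ} (hG : ∀ z ∈ O, ∃ K : ℝ≥0, ∃ t ∈ 𝓝 z,
    LipschitzOnWith K G t) (hSO : S ⊆ O) (hS : volume S = 0) : volume (G '' S) = 0 := by
  choose! K t ht hL using hG
  obtain ⟨c, hcS, hc, hcov⟩ := TopologicalSpace.countable_cover_nhdsWithin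
    (s := S) (f := t) fun z hz => mem_nhdsWithin_of_mem_nhds (ht z (hSO hz))
  have : G '' S ⊆ ⋃ z ∈ c, G '' (S ∩ t z) := by
    rintro _ ⟨x, hx, rfl⟩
    obtain ⟨z, hz, hxz⟩ := mem_iUnion₂.1 (hcov hx)
    exact mem_iUnion₂.2 ⟨z, hz, x, ⟨hx, hxz⟩, rfl⟩
  refine measure_mono_null this ((measure_biUnion_null_iff hc).2 fun z hz => ?_)
  exact null_image_lip ((hL z (hSO (hcS hz))).mono inter_subset_right)
    (measure_mono_null inter_subset_left hS)

/-- (T2) **area inequality** -/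
theorem area {Y M : Set ℂ} {a b : ℂ → ℝ} (hY : IsClosed Y) (ha : LocallyLipschitzOn Yᶜ a)
    (hb : LocallyLipschitzOn Yᶜ b) (hM : MeasurableSet M) (hMY : M ⊆ Yᶜ) :
    volume ((fun z => (a z, b z)) '' M) ≤ ∫⁻ z in M, ENNReal.ofReal |wdg a b z| := by
  classical
  set G : ℂ → ℂ := fun z => (a z : ℂ) + (b z : ℂ) * Complex.I with hG
  have himg : (fun z => (a z, b z)) '' M =
      Complex.measurableEquivRealProd.symm ⁻¹' (G '' M) := by
    ext p
    constructor
    · rintro ⟨z, hz, rfl⟩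
      refine ⟨z, hz, ?_⟩
      apply Complex.ext <;> simp [hG, Complex.measurableEquivRealProd]
    · rintro ⟨z, hz, h⟩
      refine ⟨z, hz, ?_⟩
      have h1 := congrArg Complex.re h
      have h2 := congrArg Complex.im h
      simp [hG, Complex.measurableEquivRealProd] at h1 h2
      exact Prod.ext h1 h2
  rw [himg, Complex.volume_preserving_equiv_real_prod.symm.measure_preimage_equiv]
  -- split off the null set of bad points
  set D : Set ℂ := {z | DifferentiableAt ℝ a z} ∩ {z | DifferentiableAt ℝ b z} with hD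
  have hDm : MeasurableSet D := (measurableSet_of_differentiableAt ℝ a).inter
    (measurableSet_of_differentiableAt ℝ b)
  have hnull : volume (M \ D) = 0 := by
    have h1 := ae_diff hY.isOpen_compl ha
    have h2 := ae_diff hY.isOpen_compl hb
    rw [ae_restrict_iff' hY.isOpen_compl.measurableSet] at h1 h2
    refine measure_mono_null (fun z hz => ?_) (ae_iff.1 (h1.and h2))
    rintro ⟨h3, h4⟩
    exact hz.2 ⟨h3 (hMY hz.1), h4 (hMY hz.1)⟩
  have hGl : ∀ z ∈ Yᶜ, ∃ K : ℝ≥0, ∃ t ∈ 𝓝 z, LipschitzOnWith K G t := by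
    intro z hz
    obtain ⟨K₁, t₁, ht₁, h1⟩ := ha hz
    obtain ⟨K₂, t₂, ht₂, h2⟩ := hb hz
    rw [hY.isOpen_compl.nhdsWithin_eq hz] at ht₁ ht₂
    refine ⟨K₁ + K₂, t₁ ∩ t₂, inter_mem ht₁ ht₂, LipschitzOnWith.of_dist_le_mul fun x hx y hy => ?_⟩
    have e1 := h1.dist_le_mul x hx.1 y hy.1
    have e2 := h2.dist_le_mul x hx.2 y hy.2
    rw [Real.dist_eq] at e1 e2
    have e3 : G x - G y = ((a x - a y : ℝ) : ℂ) + ((b x - b y : ℝ) : ℂ) * Complex.I := by
      simp only [hG]; push_cast; ring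
    rw [dist_eq_norm, e3]
    refine (norm_add_le _ _).trans ?_
    rw [norm_mul, Complex.norm_I, mul_one, Complex.norm_real, Complex.norm_real,
      Real.norm_eq_abs, Real.norm_eq_abs, NNReal.coe_add, add_mul]
    exact add_le_add e1 e2
  have h0 : volume (G '' (M \ D)) = 0 :=
    null_image_ll hGl (fun z hz => hMY hz.1) hnull
  set I' : ℝ →L[ℝ] ℂ := ContinuousLinearMap.toSpanSingleton ℝ Complex.I with hI'
  have hI'a : ∀ t : ℝ, I' t = (t : ℂ) * Complex.I := fun t => by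
    simp [hI', ContinuousLinearMap.toSpanSingleton_apply]
  set L : ℂ → ℂ →L[ℝ] ℂ := fun z => Complex.ofRealCLM.comp (fderiv ℝ a z) +
    I'.comp (fderiv ℝ b z) with hL
  have hder : ∀ z ∈ D, HasFDerivAt G (L z) z := by
    intro z hz
    have h1 := Complex.ofRealCLM.hasFDerivAt.comp z hz.1.hasFDerivAt
    have h2 := I'.hasFDerivAt.comp z hz.2.hasFDerivAt
    have h3 := h1.add h2
    refine h3.congr_of_eventuallyEq (Eventually.of_forall fun w => ?_)
    simp [hG, hI'a]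
  have hdet : ∀ z, (L z).det = wdg a b z := by
    intro z
    have e1 : (L z).det = LinearMap.det ((L z : ℂ →L[ℝ] ℂ) : ℂ →ₗ[ℝ] ℂ) := rfl
    rw [e1, ← LinearMap.det_toMatrix Complex.basisOneI, Matrix.det_fin_two]
    simp only [LinearMap.toMatrix_apply, Complex.coe_basisOneI_repr, Complex.coe_basisOneI,
      ContinuousLinearMap.coe_coe]
    simp [hL, hI'a, wdg, gx, gy]
  calc volume (G '' M) ≤ volume (G '' (M ∩ D) ∪ G '' (M \ D)) := by
        rw [← image_union, inter_union_sdiff]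
    _ ≤ volume (G '' (M ∩ D)) + volume (G '' (M \ D)) := measure_union_le _ _
    _ = volume (G '' (M ∩ D)) := by rw [h0, add_zero]
    _ ≤ ∫⁻ z in M ∩ D, ENNReal.ofReal |(L z).det| :=
        addHaar_image_le_lintegral_abs_det_fderiv volume (hM.inter hDm)
          fun z hz => (hder z hz.2).hasFDerivWithinAt
    _ = ∫⁻ z in M ∩ D, ENNReal.ofReal |wdg a b z| := by simp_rw [hdet]
    _ ≤ ∫⁻ z in M, ENNReal.ofReal |wdg a b z| := lintegral_mono_set inter_subset_left

end Crest.Agent.R105.Nip_31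
end

-- ▼ part R105/Nip5_31

/-!
# Row 105, S0138 (T-frame), module NI of helper459, part (P2), file 5 (helper31)

T4, first half: `NI Y A f` implies, for a.e. `t`, the slice bound for all saturated continua of
the level set `Lv Y A t` inside a fixed ball.
-/

set_option autoImplicit false

open Set Filter Topology MeasureTheory Metric
open scoped ENNReal NNReal

namespace Crest.Agent.R105.Nip_31

open Bd_775 Tc_808 Ni_459 Crest.AnalysisR

/-- oscillation as a point function -/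
noncomputable def osp (Y : Set ℂ) (u : ℂ → ℝ) (z : ℂ) : ℝ := up Y u z - lo Y u z

/-- a point of the component -/
noncomputable def pt {Y : Set ℂ} (K : Cmp Y) : ℂ := K.nonempty.some

lemma pt_mem {Y : Set ℂ} (K : Cmp Y) : pt K ∈ K.1 := K.nonempty.some_mem

/-- components where `u` jumps -/
def JJ (Y : Set ℂ) (u : ℂ → ℝ) : Set (Cmp Y) := {K | lo Y u (pt K) ≠ up Y u (pt K)}

/-- control of `f` along the level `t` of `a`, inside the ball of radius `R`
(459's `SliceBd` with continua in a bounded region) -/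
def SlB (Y : Set ℂ) (a f : ℂ → ℝ) (R t : ℝ) : Prop :=
  ∃ (ν : Measure ℂ) (S : Set ℂ), IsFiniteMeasure ν ∧ {K : Cmp Y | K.1 ⊆ S}.Countable ∧
    (∀ K : Cmp Y, (K.1 ∩ S).Nonempty → K.1 ⊆ S) ∧ ν (Y \ S) = 0 ∧
    ∀ C ⊆ Lv Y a t ∩ ball 0 R, IsCompact C → IsPreconnected C →
      (∀ z ∈ C, connectedComponentIn Y z ⊆ C) →
      ∀ p ∈ C \ Y, ∀ q ∈ C \ Y, |f p - f q| ≤ (ν C).toReal

section

variable {Y : Set ℂ} {A f : ℂ → ℝ} {R : ℝ}

/-- the jump part of `ρ` -/
noncomputable def rE (Y : Set ℂ) (A f : ℂ → ℝ) (𝒥 : Set (Cmp Y)) : Measure (ℝ × ℂ) :=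
  Measure.sum fun K : 𝒥 => ENNReal.ofReal (osp Y f (pt K.1)) •
    ((volume.restrict (Icc (lo Y A (pt K.1)) (up Y A (pt K.1)))).prod (Measure.dirac (pt K.1)))

/-- the regular part of `ρ` -/
noncomputable def rU (Y : Set ℂ) (A f : ℂ → ℝ) (W : Set ℂ) : Measure (ℝ × ℂ) :=
  ((volume.restrict (W \ Y)).withDensity fun z => ENNReal.ofReal |wdg A f z|).map
    fun z => (up Y A z, z)

lemma rE_apply {𝒥 : Set (Cmp Y)} {T : Set ℝ} {F : Set ℂ} (hT : MeasurableSet T)
    (hF : MeasurableSet F) : rE Y A f 𝒥 (T ×ˢ F) = ∑' K : 𝒥,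
      ENNReal.ofReal (osp Y f (pt K.1)) * (volume (T ∩ Icc (lo Y A (pt K.1)) (up Y A (pt K.1))) *
        F.indicator 1 (pt K.1)) := by
  unfold rE
  rw [Measure.sum_apply _ (hT.prod hF)]
  refine tsum_congr fun K => ?_
  rw [Measure.smul_apply, smul_eq_mul, Measure.prod_prod, Measure.restrict_apply hT,
    Measure.dirac_apply' _ hF]

lemma rU_apply (hm : Measurable (up Y A)) {W : Set ℂ} {T : Set ℝ} {F : Set ℂ}
    (hT : MeasurableSet T) (hF : MeasurableSet F) :
    rU Y A f W (T ×ˢ F) = ∫⁻ z in (W \ Y) ∩ (F ∩ up Y A ⁻¹' T), ENNReal.ofReal |wdg A f z| := by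
  unfold rU
  have hmap : Measurable fun z : ℂ => (up Y A z, z) := hm.prodMk measurable_id
  rw [Measure.map_apply hmap (hT.prod hF), withDensity_apply _ (hmap (hT.prod hF)),
    Measure.restrict_restrict (hmap (hT.prod hF)), inter_comm]
  congr 2
  ext z
  simp [and_comm]


lemma up_eq (hY : IsExteriorDomain Yᶜ) (hf : LocallyLipschitzOn Yᶜ f) (hfb : LB f) {z : ℂ}
    (hz : z ∉ Y) : up Y f z = f z := by
  have hYc : IsCompact Y := cpt_of hY
  have hc : ContinuousAt f z := hf.continuousOn.continuousAt (hYc.isClosed.isOpen_compl.mem_nhds hz)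
  exact up_of_notMem hY hfb hz hc

lemma lo_eq (hY : IsExteriorDomain Yᶜ) (hf : LocallyLipschitzOn Yᶜ f) (hfb : LB f) {z : ℂ}
    (hz : z ∉ Y) : lo Y f z = f z := by
  have hYc : IsCompact Y := cpt_of hY
  have hc : ContinuousAt f z := hf.continuousOn.continuousAt (hYc.isClosed.isOpen_compl.mem_nhds hz)
  exact lo_of_notMem hY hfb hz hc

lemma pt_cc (K : Cmp Y) {z : ℂ} (hz : z ∈ K.1) : pt K ∈ connectedComponentIn Y z := by
  have h : connectedComponentIn Y z = K.1 := (congrArg Subtype.val (K.eq_of_mem hz)).symm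
  rw [h]
  exact pt_mem K

lemma up_pt (u : ℂ → ℝ) (K : Cmp Y) {z : ℂ} (hz : z ∈ K.1) : up Y u z = up Y u (pt K) :=
  (up_congr_cc (K.subset hz) (pt_cc K hz)).symm

lemma lo_pt (u : ℂ → ℝ) (K : Cmp Y) {z : ℂ} (hz : z ∈ K.1) : lo Y u z = lo Y u (pt K) :=
  (lo_congr_cc (K.subset hz) (pt_cc K hz)).symm

/-- **(AREA) over slabs** -/
theorem area_slab (hY : IsExteriorDomain Yᶜ) (hA : LocallyLipschitzOn Yᶜ A) (hAb : LB A)
    (hf : LocallyLipschitzOn Yᶜ f) (hfb : LB f) (hNI : NI Y A f) {𝒥 : Set (Cmp Y)}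
    (h𝒥 : 𝒥.Countable) (hJA : JJ Y A ⊆ 𝒥) (hJf : JJ Y f ⊆ 𝒥) {W F : Set ℂ} {T : Set ℝ}
    (hF : IsCompact F) (hFs : Sat Y F) (hFW : F ⊆ W) (hT : MeasurableSet T) :
    volume (Nip_31.ZF (lo Y A) (up Y A) (lo Y f) (up Y f) F ∩ T ×ˢ univ) ≤
      (rU Y A f W + rE Y A f 𝒥) (T ×ˢ F) := by
  classical
  have hYc : IsCompact Y := cpt_of hY
  have : Countable 𝒥 := h𝒥.to_subtype
  have hm : Measurable (up Y A) := (usc_up hY hAb).measurable
  set P : 𝒥 → Set (ℝ × ℝ) := fun K => if pt K.1 ∈ F then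
    (T ∩ Icc (lo Y A (pt K.1)) (up Y A (pt K.1))) ×ˢ Icc (lo Y f (pt K.1)) (up Y f (pt K.1))
    else ∅ with hP
  have hcov : Nip_31.ZF (lo Y A) (up Y A) (lo Y f) (up Y f) F ∩ T ×ˢ univ ⊆
      ((fun z => (A z, f z)) '' ((F \ Y) ∩ up Y A ⁻¹' T)) ∪ (⋃ K : 𝒥, P K) ∪ NP Y A f := by
    rintro ⟨x, y⟩ ⟨⟨z, hz, h1, h2, h3, h4⟩, hxT, -⟩
    simp only at h1 h2 h3 h4 hxT
    by_cases hzY : z ∈ Y
    · set K : Cmp Y := Cmp.of hzY with hK
      have hzK : z ∈ K.1 := mem_connectedComponentIn hzY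
      rw [lo_pt A K hzK] at h1
      rw [up_pt A K hzK] at h2
      rw [lo_pt f K hzK] at h3
      rw [up_pt f K hzK] at h4
      by_cases hKJ : K ∈ 𝒥
      · refine Or.inl (Or.inr (mem_iUnion.2 ⟨⟨K, hKJ⟩, ?_⟩))
        have hpF : pt K ∈ F := hFs z hz hzY (pt_cc K hzK)
        simp only [hP, if_pos hpF]
        exact ⟨⟨hxT, h1, h2⟩, h3, h4⟩
      · refine Or.inr ⟨pt K, K.subset (pt_mem K), ?_⟩
        have e1 : lo Y A (pt K) = up Y A (pt K) := by
          by_contra h; exact hKJ (hJA h)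
        have e2 : lo Y f (pt K) = up Y f (pt K) := by
          by_contra h; exact hKJ (hJf h)
        refine ⟨?_, ?_, ?_, ?_⟩ <;> simp only <;> linarith
    · refine Or.inl (Or.inl ⟨z, ⟨⟨hz, hzY⟩, ?_⟩, ?_⟩)
      · rw [lo_eq hY hA hAb hzY] at h1
        rw [up_eq hY hA hAb hzY] at h2
        show up Y A z ∈ T
        rw [up_eq hY hA hAb hzY, le_antisymm h1 h2]
        exact hxT
      · rw [lo_eq hY hA hAb hzY] at h1
        rw [up_eq hY hA hAb hzY] at h2
        rw [lo_eq hY hf hfb hzY] at h3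
        rw [up_eq hY hf hfb hzY] at h4
        exact Prod.ext (le_antisymm h1 h2) (le_antisymm h3 h4)
  have hFm : MeasurableSet F := hF.measurableSet
  have hM : MeasurableSet ((F \ Y) ∩ up Y A ⁻¹' T) :=
    (hFm.diff hYc.measurableSet).inter (hm hT)
  have h1 : volume ((fun z => (A z, f z)) '' ((F \ Y) ∩ up Y A ⁻¹' T)) ≤
      rU Y A f W (T ×ˢ F) := by
    rw [rU_apply hm hT hFm]
    have e : (W \ Y) ∩ (F ∩ up Y A ⁻¹' T) = (F \ Y) ∩ up Y A ⁻¹' T := by
      ext z
      constructor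
      · rintro ⟨⟨-, h⟩, h', h''⟩; exact ⟨⟨h', h⟩, h''⟩
      · rintro ⟨⟨h, h'⟩, h''⟩; exact ⟨⟨hFW h, h'⟩, h, h''⟩
    rw [e]
    exact area hYc.isClosed hA hf hM fun z hz => hz.1.2
  have h2 : volume (⋃ K : 𝒥, P K) ≤ rE Y A f 𝒥 (T ×ˢ F) := by
    rw [rE_apply hT hFm]
    refine (measure_iUnion_le _).trans (ENNReal.tsum_le_tsum fun K => ?_)
    by_cases hp : pt K.1 ∈ F
    · simp only [hP, if_pos hp, indicator_of_mem hp, Pi.one_apply, mul_one]
      rw [Measure.volume_eq_prod, Measure.prod_prod, Real.volume_Icc, mul_comm]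
      exact le_rfl
    · simp only [hP, if_neg hp, measure_empty]
      exact bot_le
  calc _ ≤ volume (((fun z => (A z, f z)) '' ((F \ Y) ∩ up Y A ⁻¹' T)) ∪ (⋃ K : 𝒥, P K) ∪
        NP Y A f) := measure_mono hcov
    _ ≤ volume ((fun z => (A z, f z)) '' ((F \ Y) ∩ up Y A ⁻¹' T)) + volume (⋃ K : 𝒥, P K) +
        volume (NP Y A f) := (measure_union_le _ _).trans (add_le_add_left (measure_union_le _ _) _)
    _ ≤ rU Y A f W (T ×ˢ F) + rE Y A f 𝒥 (T ×ˢ F) := by
        rw [show volume (NP Y A f) = 0 from hNI, add_zero]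
        exact add_le_add h1 h2
    _ = _ := by rw [Measure.add_apply]

/-- **T4, first half.** -/
theorem ni_slice (hY : IsExteriorDomain Yᶜ) (hA : LocallyLipschitzOn Yᶜ A) (hAb : LB A)
    (hf : LocallyLipschitzOn Yᶜ f) (hfb : LB f) (hNI : NI Y A f) {𝒥 : Set (Cmp Y)}
    (h𝒥 : 𝒥.Countable) (hJA : JJ Y A ⊆ 𝒥) (hJf : JJ Y f ⊆ 𝒥)
    (hU : ∫⁻ z in ball 0 R \ Y, ENNReal.ofReal |wdg A f z| ≠ ∞)
    (hS : ∑' K : 𝒥, ENNReal.ofReal (osp Y f (pt K.1)) *
      ENNReal.ofReal (osp Y A (pt K.1)) ≠ ∞) :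
    ∀ᵐ t, SlB Y A f R t := by
  classical
  have hYc : IsCompact Y := cpt_of hY
  have : Countable 𝒥 := h𝒥.to_subtype
  have hm : Measurable (up Y A) := (usc_up hY hAb).measurable
  set ρ : Measure (ℝ × ℂ) := rU Y A f (ball 0 R) + rE Y A f 𝒥 with hρ
  have hρ1 : rU Y A f (ball 0 R) univ ≠ ∞ := by
    rw [← univ_prod_univ, rU_apply hm MeasurableSet.univ MeasurableSet.univ]
    simpa using hU
  have hρ2 : rE Y A f 𝒥 univ ≠ ∞ := by
    rw [← univ_prod_univ, rE_apply MeasurableSet.univ MeasurableSet.univ]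
    simpa [osp, Real.volume_Icc] using hS
  have hfin : IsFiniteMeasure ρ := ⟨by
    rw [hρ, Measure.add_apply]
    exact ENNReal.add_lt_top.2 ⟨hρ1.lt_top, hρ2.lt_top⟩⟩
  have hsl := slice_le (E := Y) (W₀ := ball 0 R) hYc isOpen_ball (lsc_lo hY hAb)
    (usc_up hY hAb) (lsc_lo hY hfb) (usc_up hY hfb) (ρ := ρ)
    (fun F hF hFs hFW T hT => area_slab hY hA hAb hf hfb hNI h𝒥 hJA hJf hF hFs hFW hT)
  -- the set of charged components
  set S : Set ℂ := ⋃ K ∈ 𝒥, K.1 with hSdef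
  have hSm : MeasurableSet S := MeasurableSet.biUnion h𝒥 fun K _ =>
    (K.isCompact hYc).measurableSet
  have hKS : ∀ K : Cmp Y, (K.1 ∩ S).Nonempty → K ∈ 𝒥 := by
    rintro K ⟨z, hz, hzS⟩
    obtain ⟨K', hK', hzK'⟩ := mem_iUnion₂.1 hzS
    have : K = K' := by
      by_contra hne
      exact disjoint_left.1 (Cmp.disjoint hne) hz hzK'
    rw [this]; exact hK'
  have hnull : ρ (univ ×ˢ (Y \ S)) = 0 := by
    have hYS : MeasurableSet (Y \ S) := hYc.measurableSet.diff hSm
    rw [hρ, Measure.add_apply, rU_apply hm MeasurableSet.univ hYS,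
      rE_apply MeasurableSet.univ hYS]
    have e1 : (ball (0 : ℂ) R \ Y) ∩ (Y \ S ∩ up Y A ⁻¹' univ) = ∅ := by
      ext z; simp only [mem_inter_iff, Set.mem_sdiff, mem_empty_iff_false, iff_false]
      rintro ⟨⟨-, h⟩, ⟨h', -⟩, -⟩; exact h h'
    rw [e1, Measure.restrict_empty, lintegral_zero_measure, zero_add]
    refine ENNReal.tsum_eq_zero.2 fun K => ?_
    have : pt K.1 ∉ Y \ S := fun h => h.2 (mem_iUnion₂.2 ⟨K.1, K.2, pt_mem _⟩)
    rw [indicator_of_notMem this]
    simp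
  have hnull' : ∀ᵐ t, slc ρ t (Y \ S) = 0 := by
    have hYS : MeasurableSet (Y \ S) := hYc.measurableSet.diff hSm
    have h1 := lintegral_slc_le ρ (S := univ ×ˢ (Y \ S)) (MeasurableSet.univ.prod hYS)
    rw [hnull, nonpos_iff_eq_zero, lintegral_eq_zero_iff
      (measurable_slc ρ (MeasurableSet.univ.prod hYS))] at h1
    filter_upwards [h1] with t ht
    have e : Prod.mk t ⁻¹' ((univ : Set ℝ) ×ˢ (Y \ S)) = Y \ S := by ext; simp
    rw [e] at ht
    exact ht
  filter_upwards [hsl, hnull', ae_slc_lt_top ρ] with t ht ht0 htt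
  refine ⟨slc ρ t, S, ⟨htt univ⟩, ?_, fun K hK => ?_, ht0, ?_⟩
  · refine h𝒥.mono fun K hK => hKS K ⟨pt K, pt_mem K, hK (pt_mem K)⟩
  · intro z hz
    exact mem_iUnion₂.2 ⟨K, hKS K hK, hz⟩
  · intro C hC hCc hCp hCs p hp q hq
    have hsC : Sat Y C := fun z hz _ => hCs z hz
    have h1 := ht C hCc hsC fun z hz => (hC hz).2
    -- the slice is an interval containing both values
    have h2 : uIcc (f p) (f q) ⊆ {s | (t, s) ∈ Nip_31.ZF (lo Y A) (up Y A) (lo Y f) (up Y f) C} := by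
      intro s hs
      by_contra hcon
      have hno : ∀ z ∈ C, ¬ (lo Y f z ≤ s ∧ s ≤ up Y f z) := fun z hz h =>
        hcon ⟨z, hz, (hC hz).1.1, (hC hz).1.2, h.1, h.2⟩
      have hcov : C ⊆ {z | up Y f z < s} ∪ {z | s < lo Y f z} := by
        intro z hz
        by_cases h : lo Y f z ≤ s
        · left
          by_contra h'
          exact hno z hz ⟨h, not_lt.1 h'⟩
        · right; exact not_le.1 h
      have hdis : ∀ z, ¬ (up Y f z < s ∧ s < lo Y f z) := fun z h => by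
        have := lo_le_up hY hfb z
        linarith [h.1, h.2]
      have key : ∀ x y : ℂ, x ∈ C \ Y → y ∈ C \ Y → f x < s → s < f y → False := by
        intro x y hx hy hxs hys
        obtain ⟨z, -, hz1, hz2⟩ := hCp _ _ (isOpen_up_lt hY hfb s) (isOpen_lt_lo hY hfb s) hcov
          ⟨x, hx.1, by simp only [mem_ofPred_eq]; rw [up_eq hY hf hfb hx.2]; exact hxs⟩
          ⟨y, hy.1, by simp only [mem_ofPred_eq]; rw [lo_eq hY hf hfb hy.2]; exact hys⟩
        exact hdis z ⟨hz1, hz2⟩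
      have hps : f p ≠ s := fun h => hno p hp.1 (by
        rw [lo_eq hY hf hfb hp.2, up_eq hY hf hfb hp.2, h]; exact ⟨le_rfl, le_rfl⟩)
      have hqs : f q ≠ s := fun h => hno q hq.1 (by
        rw [lo_eq hY hf hfb hq.2, up_eq hY hf hfb hq.2, h]; exact ⟨le_rfl, le_rfl⟩)
      rcases le_total (f p) (f q) with hle | hle
      · rw [uIcc_of_le hle] at hs
        exact key p q hp hq (lt_of_le_of_ne hs.1 hps) (lt_of_le_of_ne hs.2 hqs.symm)
      · rw [uIcc_of_ge hle] at hs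
        exact key q p hq hp (lt_of_le_of_ne hs.1 hqs) (lt_of_le_of_ne hs.2 hps.symm)
    have h3 : ENNReal.ofReal |f p - f q| ≤ slc ρ t C := by
      refine le_trans (le_of_eq ?_) ((measure_mono h2).trans h1)
      rw [Real.volume_interval, abs_sub_comm]
    have h4 := ENNReal.toReal_mono (htt C).ne h3
    rwa [ENNReal.toReal_ofReal (abs_nonneg _)] at h4

end

end Crest.Agent.R105.Nip_31
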