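import Crest.Agent.R105.Yv4_319
import Crest.Agent.R105.Ta2_937
import Crest.Agent.R105.Elf4_600
import Crest.Agent.R105.Pct4_185
import Crest.Agent.R105.Vb1_818
import Crest.Agent.R105.Pct2_185
import Crest.Agent.R105.Nip9_31
import Crest.Agent.R105.Uw6_913
import Crest.Agent.R105.N8b_602
import Crest.Agent.R105.Ni3_459

-- ▼ part R105/Yv5_319
section

/-!
# R105 (S0138, NI frame): LEMMA Y, adapter (helper319)

`P` univalent on `U` with `Re P = x0 + X` (picture of the extremal anchor `X`), `F` the completion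
of the final minimiser, `Re F = x0 + φ`, minimality against the tests `χ G(x0 + X)`:
`y = Im F` pushed to the picture of `P` satisfies `YD` and `ELY` with charges `osc φ`.
-/

set_option autoImplicit false

open Set Filter MeasureTheory Metric
open scoped Topology NNReal ContDiff ENNReal

namespace Crest.Agent.R105.Yv_319

open Tc_808 Bd_775 Sqr_185 Ends_897
open Sct_636 (LCE)
open Pct_185 (Sol pt pt_mem)
open Crest.AnalysisR (IsExteriorDomain)
open IfB_641 (X0 Cpl)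
open Tra_937 (Uni)
open Ta_937 (corE osc_comp int_wdg ae_of_loc)

noncomputable section

variable {U : Set ℂ} {P F : ℂ → ℂ} {x0 X φ : ℂ → ℝ}

/-- the conjugate function in the picture of `P` -/
def yP (h : EndMap U (P '' U) P) (F : ℂ → ℂ) : ℂ → ℝ :=
  (P '' U).indicator fun w => (F (h.inv w)).im

theorem yP_apply (h : EndMap U (P '' U) P) {z : ℂ} (hz : z ∈ U) : yP h F (P z) = (F z).im := by
  unfold yP
  rw [indicator_of_mem (mem_image_of_mem P hz), h.inv_left hz]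

theorem locLip_im (hU : IsOpen U) (hF : DifferentiableOn ℂ F U) :
    LocallyLipschitzOn U fun z => (F z).im := by
  intro z hz
  have h1 : ContDiffAt ℝ 1 F z := ((hF.analyticAt (hU.mem_nhds hz)).restrictScalars).contDiffAt
  have h2 : ContDiffAt ℝ 1 (fun w => (F w).im) z :=
    (Complex.imCLM.contDiff.contDiffAt).comp z h1
  obtain ⟨K, t, ht, hK⟩ := h2.exists_lipschitzOnWith
  exact ⟨K, t, mem_nhdsWithin_of_mem_nhds ht, hK⟩

theorem loc_yP (h : EndMap U (P '' U) P) (hP : Uni U P) (hF : DifferentiableOn ℂ F U) :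
    LocallyLipschitzOn (P '' U) (yP h F) := by
  rw [← hP.locLip_comp_iff]
  exact Tra_937.locLip_congr (u := fun z => (F z).im) (fun z hz => (yP_apply h hz).symm)
    (locLip_im hP.op hF)

/-- the data of the conjugate function -/
theorem yd_yP (h : EndMap U (P '' U) P) (hP : Uni U P) (hF : DifferentiableOn ℂ F U)
    (hb : ∀ R : ℝ, ∃ ρ : ℝ, ∀ z ∈ U, ‖z‖ ≤ R → ‖F z‖ ≤ ρ)
    (hen : ∀ R : ℝ, IntegrableOn (fun z => ‖deriv F z‖ ^ 2) (U ∩ ball 0 R)) :
    YD (P '' U)ᶜ (yP h F) := by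
  have hl := loc_yP h hP hF
  refine ⟨by rw [compl_compl]; exact hl, ?_, ?_⟩
  · intro R
    obtain ⟨ρ, hρ⟩ := h.symm.bdd R
    obtain ⟨M, hM⟩ := hb ρ
    refine ⟨max M 0, fun z hz => ?_⟩
    by_cases hzV : z ∈ P '' U
    · unfold yP
      rw [indicator_of_mem hzV]
      exact ((Complex.abs_im_le_norm _).trans (hM _ (h.inv_mem hzV) (hρ z hzV hz))).trans
        (le_max_left _ _)
    · unfold yP
      rw [indicator_of_notMem hzV, abs_zero]
      exact le_max_right _ _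
  · intro R
    rw [compl_compl]
    obtain ⟨ρ, hρ⟩ := h.symm.bdd R
    set S : Set ℂ := U ∩ ball 0 (ρ + 1) with hS
    have hSm : MeasurableSet S := hP.op.measurableSet.inter measurableSet_ball
    have hSU : S ⊆ U := inter_subset_left
    have h1 : IntegrableOn (en (yP h F ∘ P)) S := by
      refine IntegrableOn.congr_fun (hen (ρ + 1)) (fun z hz => ?_) hSm
      have hzU : z ∈ U := hz.1
      have e1 : en (yP h F ∘ P) z = en (fun w => (F w).im) z :=
        Tra_937.en_congr hP.op (u := yP h F ∘ P) (w := fun w => (F w).im)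
          (fun w hw => yP_apply h hw) hzU
      obtain ⟨-, -, g3, g4⟩ := Elf_600.grad_re_im (p := F)
        ((hF z hzU).differentiableAt (hP.op.mem_nhds hzU))
      rw [e1]
      unfold en
      rw [g3, g4, ← Complex.normSq_eq_norm_sq, Complex.normSq_apply]
      ring
    have h2 := (hP.integrableOn_en hSm hSU (fun _ => 1) (u := yP h F)
      (ae_of_loc h hl)).1 (by simp only [one_mul]; exact h1)
    simp only [one_mul] at h2
    refine IntegrableOn.mono_set h2 ?_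
    rintro w ⟨hwV, hwR⟩
    refine ⟨h.inv w, ⟨h.inv_mem hwV, ?_⟩, h.inv_right hwV⟩
    rw [mem_closedBall_zero_iff] at hwR
    rw [mem_ball_zero_iff]
    linarith [hρ w hwV hwR]

/-- charges: oscillation of the final minimiser at the corresponding component -/
def sP (h : EndMap U (P '' U) P) (φ : ℂ → ℝ) (L : Cmp (P '' U)ᶜ) : ℝ :=
  Tc_808.osc Uᶜ φ ((corE h).symm L).1

theorem sP_nonneg (h : EndMap U (P '' U) P) (L : Cmp (P '' U)ᶜ) : 0 ≤ sP h φ L :=
  Tc_808.osc_nonneg _ _ _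

theorem sP_summable (h : EndMap U (P '' U) P) (hφ : TT Uᶜ φ) :
    Summable fun L => sP h φ L ^ 2 :=
  ((corE h).symm.summable_iff (f := fun K : Cmp Uᶜ => Tc_808.osc Uᶜ φ K.1 ^ 2)).2 hφ.sum

/-- `w ↦ G (re w) * χ w` is locally Lipschitz -/
theorem locLip_Gχ {V : Set ℂ} {χ : ℂ → ℝ} {E : Set ℂ} (hχ : LCE E χ) {G : ℝ → ℝ}
    (hG : ContDiff ℝ ∞ G) : LocallyLipschitzOn V fun w : ℂ => G w.re * χ w := by
  have h1 : ContDiff ℝ 1 fun w : ℂ => G w.re * χ w :=
    ((hG.of_le (by simp)).comp Complex.reCLM.contDiff).mul (hχ.smooth.of_le (by simp))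
  exact h1.locallyLipschitz.locallyLipschitzOn

/-- **Euler-Lagrange in the picture of the anchor** -/
theorem ely_yP (h : EndMap U (P '' U) P) (hP : Uni U P) (hx : X0 Uᶜ x0) (hX : TT Uᶜ X)
    (hre : ∀ z ∈ U, x0 z + X z = (P z).re) (hφ : TT Uᶜ φ) (hF : DifferentiableOn ℂ F U)
    (hFre : ∀ z ∈ U, (F z).re = x0 z + φ z)
    (hmin : ∀ (χ : ℂ → ℝ) (G : ℝ → ℝ) (Λ : ℝ≥0), LC Uᶜ χ → HasCompactSupport χ →
      LipschitzWith Λ G → ∀ t : ℝ,
        SelT_871.JT Uᶜ x0 φ ≤ SelT_871.JT Uᶜ x0 (fun z => φ z + t * (χ z * G (x0 z + X z)))) :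
    ELY (P '' U)ᶜ (sP h φ) (yP h F) := by
  intro G χ hG hG' hG0 hχ hχ01
  have hUc : IsCompact Uᶜ := isCompact_compl h.hU
  have hY : IsExteriorDomain (Uᶜ)ᶜ := by rw [compl_compl]; exact h.hU
  obtain ⟨χ', h1, h2, h3⟩ := Pct_185.exists_LC_pull h hP hχ
  obtain ⟨Λ, hΛ⟩ := Pct_185.lip_of_deriv hG hG'
  set Φ : ℂ → ℝ := fun w => G w.re * χ w with hΦ
  set ψ : ℂ → ℝ := fun z => χ' z * G (x0 z + X z) with hψ
  obtain ⟨t1, t2, -⟩ := Elf_600.test_chiG hUc hx hX h1 h2 hΛ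
  have hψΦ : EqOn ψ (Φ ∘ P) U := by
    intro z hz
    simp only [hψ, hΦ, Function.comp_apply]
    rw [h3 z hz, hre z hz]; ring
  have h4 := Elf_600.el_crude_x hY hx hφ t1 t2 (hmin χ' G Λ h1 h2 hΛ)
  rw [compl_compl] at h4 ⊢
  -- the integral
  have e1 : ∫ z in U, dot (fun w => x0 w + φ w) ψ z
      = ∫ z in U, wdg (Φ ∘ P) (yP h F ∘ P) z := by
    refine setIntegral_congr_fun hP.op.measurableSet fun z hz => ?_
    have hF' : DifferentiableOn ℂ F (Uᶜ)ᶜ := by rw [compl_compl]; exact hF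
    have e2 := Elf_600.wdg_eq_dot (x := fun w => x0 w + φ w) hF' hUc.isClosed
      (fun z hz => hFre z (not_not.1 hz)) ψ (z := z) (not_not.2 hz)
    rw [← e2]
    refine Tra_937.wdg_congr hP.op hψΦ (fun w hw => ?_) hz
    exact (yP_apply h hw).symm
  have e3 : ∫ z in U, wdg (Φ ∘ P) (yP h F ∘ P) z = ∫ w in P '' U, wdg Φ (yP h F) w :=
    int_wdg h hP (locLip_Gχ hχ hG) (loc_yP h hP hF)
  rw [e1, e3] at h4
  refine h4.trans (le_of_eq ?_)
  rw [← (corE h).tsum_eq]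
  refine tsum_congr fun K => ?_
  unfold sP
  rw [Equiv.symm_apply_apply, ← osc_comp h]
  congr 1
  exact osc_congr isOpen_univ (subset_univ _) fun z _ hz => hψΦ (not_not.1 hz)

end

end Crest.Agent.R105.Yv_319
end

-- ▼ part R105/Vb3_818
section

/-!
# Row 105, S0138 (NI frame): slice bounds, part 3 (helper818)

`LY` = the conclusion of 319's `lemmaY` at the level `t` (literal);
`lineBd_of_ly : LY → LineBd`;  `slb_anchor` : slice bounds along the levels of an anchor with a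
picture, in the `z`-plane.
-/

set_option autoImplicit false

open MeasureTheory Set Filter Topology Metric
open scoped NNReal ENNReal Classical

namespace Crest.Agent.R105.Vb_818

open Ends_897 Tc_808 Ni_459 Ta_937 Nip_31 Crest.AnalysisR Bd_775

noncomputable section

/-- conclusion of 319's `lemmaY` at the level `t` -/
def LY (E : Set ℂ) (y : ℂ → ℝ) (s : Cmp E → ℝ) (t : ℝ) : Prop :=
  (Summable fun L : Pct_185.Sol E =>
    (Icc (Sqr_185.lo L.1.1) (Sqr_185.hi L.1.1)).indicator (fun _ => s L.1) t) ∧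
  ∀ c d : ℝ, c ≤ d → (⟨t, c⟩ : ℂ) ∉ E → (⟨t, d⟩ : ℂ) ∉ E →
    IntervalIntegrable (fun v => Eᶜ.indicator (gy y) ⟨t, v⟩) volume c d ∧
    |y ⟨t, d⟩ - y ⟨t, c⟩ - ∫ v in c..d, Eᶜ.indicator (gy y) ⟨t, v⟩| ≤
      ∑' L : Pct_185.Sol E, if t ∈ Icc (Sqr_185.lo L.1.1) (Sqr_185.hi L.1.1) ∧
        (Sqr_185.sec L.1.1 t ∩ Icc c d).Nonempty then s L.1 else 0

/-- the charges on the line `t` -/
def wl (E : Set ℂ) (s : Cmp E → ℝ) (t : ℝ) (K : Cmp E) : ℝ≥0∞ :=
  if 0 < Sqr_185.wd K.1 ∧ t ∈ Icc (Sqr_185.lo K.1) (Sqr_185.hi K.1) then ENNReal.ofReal (s K) else 0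

/-- the density on the line `t` -/
def ml (E : Set ℂ) (y : ℂ → ℝ) (t : ℝ) (v : ℝ) : ℝ≥0∞ := ‖Eᶜ.indicator (gy y) (⟨t, v⟩ : ℂ)‖ₑ

theorem lineBd_of_ly {E : Set ℂ} {y : ℂ → ℝ} {s : Cmp E → ℝ} {t : ℝ} (hE : IsCompact E)
    (hs0 : ∀ L, 0 ≤ s L) (h : LY E y s t) : LineBd E y t (ml E y t) (wl E s t) := by
  classical
  obtain ⟨hsum, hbd⟩ := h
  have hEm : MeasurableSet E := hE.isClosed.measurableSet
  have hgm : Measurable (gy y) := by
    unfold gy; exact measurable_fderiv_apply_const ℝ y _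
  have hmeas : Measurable (ml E y t) :=
    ((hgm.indicator hEm.compl).comp (measurable_mk t)).enorm
  -- the sum in `ENNReal`
  have hterm : ∀ L : Pct_185.Sol E,
      ENNReal.ofReal ((Icc (Sqr_185.lo L.1.1) (Sqr_185.hi L.1.1)).indicator (fun _ => s L.1) t) =
        wl E s t L.1 := by
    intro L
    unfold wl
    by_cases ht : t ∈ Icc (Sqr_185.lo L.1.1) (Sqr_185.hi L.1.1)
    · rw [indicator_of_mem ht, if_pos ⟨L.2, ht⟩]
    · rw [indicator_of_notMem ht, if_neg fun hh => ht hh.2, ENNReal.ofReal_zero]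
  have hsubE : ∑' K : Cmp E, wl E s t K = ∑' L : Pct_185.Sol E, wl E s t L.1 := by
    refine (tsum_subtype_eq_of_support_subset (s := {K : Cmp E | 0 < Sqr_185.wd K.1}) ?_).symm
    intro K hK
    by_contra hcon
    exact hK (if_neg fun hh => hcon hh.1)
  have hsumE : ∑' K : Cmp E, wl E s t K ≠ ∞ := by
    rw [hsubE]
    simp_rw [← hterm]
    rw [← ENNReal.ofReal_tsum_of_nonneg (fun L => indicator_nonneg (fun _ _ => hs0 _) _) hsum]
    exact ENNReal.ofReal_ne_top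
  refine ⟨hmeas, ?_, hsumE, ?_⟩
  · intro R
    obtain ⟨R0, hR0⟩ := hE.isBounded.exists_norm_le
    set M : ℝ := |R| + |R0| + 1 with hM
    have hM0 : 0 < M := by positivity
    have hout : ∀ v : ℝ, |R0| < |v| → (⟨t, v⟩ : ℂ) ∉ E := by
      intro v hv hm
      have h1 := hR0 _ hm
      have h2 : |v| ≤ ‖(⟨t, v⟩ : ℂ)‖ := Complex.abs_im_le_norm ⟨t, v⟩
      linarith [le_abs_self R0]
    have hMabs : |R0| < |M| := by rw [abs_of_pos hM0, hM]; linarith [abs_nonneg R]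
    have h1 := (hbd (-M) M (by linarith) (hout _ (by rw [abs_neg]; exact hMabs)) (hout _ hMabs)).1
    have h2 : IntegrableOn (fun v => Eᶜ.indicator (gy y) ⟨t, v⟩) (Ioc (-M) M) :=
      (intervalIntegrable_iff_integrableOn_Ioc_of_le (by linarith)).1 h1
    have h3 : ∫⁻ v in Ioc (-M) M, ml E y t v < ∞ := h2.2
    refine ne_top_of_le_ne_top h3.ne (lintegral_mono_set ?_)
    rintro v ⟨hv, -⟩
    have := le_abs_self R
    exact ⟨by linarith [hv.1, abs_nonneg R0], by linarith [hv.2, abs_nonneg R0]⟩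
  · intro c d hcd hc hd
    obtain ⟨h1, h2⟩ := hbd c d hcd.le hc hd
    set I : ℝ := ∫ v in c..d, Eᶜ.indicator (gy y) ⟨t, v⟩ with hI
    set Sg : ℝ := ∑' L : Pct_185.Sol E, if t ∈ Icc (Sqr_185.lo L.1.1) (Sqr_185.hi L.1.1) ∧
        (Sqr_185.sec L.1.1 t ∩ Icc c d).Nonempty then s L.1 else 0 with hT1
    have h3 : |y ⟨t, d⟩ - y ⟨t, c⟩| ≤ |I| + Sg := by
      have e : y ⟨t, d⟩ - y ⟨t, c⟩ = I + (y ⟨t, d⟩ - y ⟨t, c⟩ - I) := by ring
      rw [e]
      exact (abs_add_le _ _).trans (add_le_add le_rfl h2)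
    have hI' : ENNReal.ofReal |I| ≤ ∫⁻ v in Ioo c d ∩ {v | (⟨t, v⟩ : ℂ) ∉ E}, ml E y t v := by
      have e1 : ENNReal.ofReal |I| = ‖I‖ₑ := by
        rw [Real.enorm_eq_ofReal_abs]
      rw [e1, hI, intervalIntegral.integral_of_le hcd.le]
      refine (enorm_integral_le_lintegral_enorm _).trans ?_
      rw [← restrict_Ioo_eq_restrict_Ioc]
      have e2 : ∀ v, ‖Eᶜ.indicator (gy y) (⟨t, v⟩ : ℂ)‖ₑ =
          {v : ℝ | (⟨t, v⟩ : ℂ) ∉ E}.indicator (ml E y t) v := by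
        intro v
        by_cases hv : (⟨t, v⟩ : ℂ) ∈ E
        · rw [indicator_of_notMem (show v ∉ {v : ℝ | (⟨t, v⟩ : ℂ) ∉ E} from fun hh => hh hv),
            indicator_of_notMem (show (⟨t, v⟩ : ℂ) ∉ Eᶜ from fun hh => hh hv), enorm_zero]
        · rw [indicator_of_mem (show v ∈ {v : ℝ | (⟨t, v⟩ : ℂ) ∉ E} from hv)]
          rfl
      have hVm : MeasurableSet {v : ℝ | (⟨t, v⟩ : ℂ) ∉ E} := measurable_mk t hEm.compl
      rw [lintegral_congr e2, lintegral_indicator hVm, Measure.restrict_restrict hVm, inter_comm]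
    have hT0 : ∀ L : Pct_185.Sol E, 0 ≤ (if t ∈ Icc (Sqr_185.lo L.1.1) (Sqr_185.hi L.1.1) ∧
        (Sqr_185.sec L.1.1 t ∩ Icc c d).Nonempty then s L.1 else 0) := by
      intro L
      split_ifs
      · exact hs0 _
      · exact le_rfl
    have hTs : Summable fun L : Pct_185.Sol E =>
        (if t ∈ Icc (Sqr_185.lo L.1.1) (Sqr_185.hi L.1.1) ∧
          (Sqr_185.sec L.1.1 t ∩ Icc c d).Nonempty then s L.1 else 0) := by
      refine Summable.of_nonneg_of_le hT0 (fun L => ?_) hsum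
      by_cases ht : t ∈ Icc (Sqr_185.lo L.1.1) (Sqr_185.hi L.1.1)
      · rw [indicator_of_mem ht]
        split_ifs
        · exact le_rfl
        · exact hs0 _
      · rw [indicator_of_notMem ht, if_neg fun hh => ht hh.1]
    have hSg : ENNReal.ofReal Sg ≤
        ∑' K : {K : Cmp E // ∃ v ∈ Ioo c d, (⟨t, v⟩ : ℂ) ∈ K.1}, wl E s t K.1 := by
      rw [hT1, ENNReal.ofReal_tsum_of_nonneg hT0 hTs]
      have e3 : ∀ L : Pct_185.Sol E,
          ENNReal.ofReal (if t ∈ Icc (Sqr_185.lo L.1.1) (Sqr_185.hi L.1.1) ∧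
            (Sqr_185.sec L.1.1 t ∩ Icc c d).Nonempty then s L.1 else 0) ≤
          {K : Cmp E | ∃ v ∈ Ioo c d, (⟨t, v⟩ : ℂ) ∈ K.1}.indicator (wl E s t) L.1 := by
        intro L
        split_ifs with hh
        · obtain ⟨ht, v, hv, hvI⟩ := hh
          have hvE : (⟨t, v⟩ : ℂ) ∈ L.1.1 := hv
          have hvc : v ≠ c := fun e => hc (e ▸ L.1.subset hvE)
          have hvd : v ≠ d := fun e => hd (e ▸ L.1.subset hvE)
          have hmem : L.1 ∈ {K : Cmp E | ∃ v ∈ Ioo c d, (⟨t, v⟩ : ℂ) ∈ K.1} :=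
            ⟨v, ⟨lt_of_le_of_ne hvI.1 hvc.symm, lt_of_le_of_ne hvI.2 hvd⟩, hvE⟩
          rw [indicator_of_mem hmem, wl, if_pos ⟨L.2, ht⟩]
        · rw [ENNReal.ofReal_zero]; exact zero_le
      calc _ ≤ ∑' L : Pct_185.Sol E,
            {K : Cmp E | ∃ v ∈ Ioo c d, (⟨t, v⟩ : ℂ) ∈ K.1}.indicator (wl E s t) L.1 :=
            ENNReal.tsum_le_tsum e3
        _ ≤ ∑' K : Cmp E, {K : Cmp E | ∃ v ∈ Ioo c d, (⟨t, v⟩ : ℂ) ∈ K.1}.indicator (wl E s t) K :=
            ENNReal.tsum_comp_le_tsum_of_injective Subtype.val_injective _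
        _ = _ := (tsum_subtype _ _).symm
    calc ENNReal.ofReal |y ⟨t, d⟩ - y ⟨t, c⟩| ≤ ENNReal.ofReal (|I| + Sg) :=
          ENNReal.ofReal_le_ofReal h3
      _ ≤ ENNReal.ofReal |I| + ENNReal.ofReal Sg := ENNReal.ofReal_add_le
      _ ≤ _ := add_le_add hI' hSg


end

end Crest.Agent.R105.Vb_818
end

-- ▼ part R105/Yv6_319

/-!
# R105 (S0138, NI frame): LEMMA Y for extremal anchors, over 8's package (helper319)

* `min_test`  : minimality against `χ G(x0 + a i)` (31's `linG`, 602's `ni_test`)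
* `slb_im`    : `∀ᵐ t, ∀ R, SlB Y (x0 + a i) (Im F) R t` for an extremal anchor `a i`
* `slb_re`    : `∀ᵐ t, ∀ R, SlB Y (x0 + a i) (Re F) R t` (any anchor, from `NI`)
* `lemY_ext`  : both, for all anchors
* `acv_ext`   : `ACV` of `Re F` and `Im F` along a.e. level
-/

set_option autoImplicit false

open Set Filter MeasureTheory Metric
open scoped Topology NNReal ContDiff ENNReal

namespace Crest.Agent.R105.Yv_319

open Tc_808 Bd_775 Sqr_185 Ends_897
open Crest.AnalysisR (IsExteriorDomain)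
open IfB_641 (X0 Cpl)
open Ni_459 (NI Swd LB Lv cpt_of)
open Nip_31 (SlB ll_x0 lb_x0 ni_x0 jj_x0 jj_countable osp_x0 tt_sum tt_lb en_x0_fin)

variable {Y : Set ℂ} {x0 φ X : ℂ → ℝ} {a : ℕ → ℂ → ℝ} {F P : ℂ → ℂ}

/-- an extremal anchor: minimiser over the commutant of a family of anchors -/
def ExtA (Y : Set ℂ) (x0 X : ℂ → ℝ) : Prop :=
  ∃ (b : ℕ → ℂ → ℝ) (P : ℂ → ℂ), SkA_8.Pk Y x0 b X P

/-- the final minimiser is minimal against `χ G (x0 + a i)` -/
theorem min_test (h : SkA_8.Pk Y x0 a φ F) (i : ℕ) (χ : ℂ → ℝ) (G : ℝ → ℝ) (Λ : ℝ≥0)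
    (hχ : LC Y χ) (hχc : HasCompactSupport χ) (hG : LipschitzWith Λ G) (t : ℝ) :
    SelT_871.JT Y x0 φ ≤ SelT_871.JT Y x0 (fun z => φ z + t * (χ z * G (x0 z + a i z))) := by
  have hYc := cpt_of h.hY
  have h1 : TT Y (fun z => χ z * G (x0 z + a i z)) :=
    (Elf_600.test_chiG hYc h.hx (h.tta i) hχ hχc hG).1
  have h2 : TT Y (fun z => φ z + t * (χ z * G (x0 z + a i z))) :=
    h.tt.add hYc.isClosed ((TT.const t).mul hYc.isClosed h1)
  refine h.min _ h2 fun j => ?_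
  have h3 := N8_602.ni_test h.hY h.hx (h.tta i) hχ hχc hG (h.ni j i)
  have h4 := Nip_31.linG h.hY h.hx (h.tta j) (h.swd j) h.tt h1 (h.com j) h3 1 t
  simpa only [one_mul] using h4

theorem uni_of_pk (h : SkA_8.Pk Y x0 a φ F) : Tra_937.Uni Yᶜ F :=
  ⟨h.hY.1, h.hol, (Uw6_913.picT h).1⟩

theorem energy_of_pk (h : SkA_8.Pk Y x0 a φ F) (R : ℝ) :
    IntegrableOn (fun z => ‖deriv F z‖ ^ 2) (Yᶜ ∩ ball 0 R) :=
  N8_602.energy (Uw5_913.pkT h) (Uw5_913.cpl h) R

/-- the line inequality in the picture of an extremal anchor -/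
theorem line_im {b : ℕ → ℂ → ℝ} (h : SkA_8.Pk Y x0 a φ F) {i : ℕ}
    (hi : SkA_8.Pk Y x0 b (a i) P) :
    ∀ᵐ t : ℝ, Vb_818.LY (P '' Yᶜ)ᶜ (yP (Uw6_913.endMap hi) F) (sP (Uw6_913.endMap hi) φ) t := by
  have e : Yᶜᶜ = Y := compl_compl Y
  have hE := Uw6_913.endMap hi
  have hPic := (Uw6_913.picT hi).2
  have hP := uni_of_pk hi
  have hx : X0 Yᶜᶜ x0 := by rw [e]; exact h.hx
  have hX : TT Yᶜᶜ (a i) := by rw [e]; exact h.tta i
  have hφ : TT Yᶜᶜ φ := by rw [e]; exact h.tt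
  have hyd := yd_yP hE hP h.hol (Uw6_913.endMap h).bdd (energy_of_pk h)
  have hel : ELY (P '' Yᶜ)ᶜ (sP hE φ) (yP hE F) := by
    refine ely_yP hE hP hx hX (fun z hz => (hi.re z hz).symm) hφ h.hol h.re ?_
    rw [e]
    exact min_test h i
  exact lemmaY hPic.cpt hPic.ord hPic.sum (sP_nonneg hE) (sP_summable hE hφ) hyd hel





end Crest.Agent.R105.Yv_319
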