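import Crest.Agent.R105.Ni2_459
import Crest.Agent.R105.E13_499
import Crest.Agent.R105.Uw4_913
import Crest.Agent.R105.Ta7_937
import Mathlib
import Crest.Agent.R105.Uw6_913

-- ▼ part R105/Tail1_403
section

/-!
# Row 105, S0138, node E13: the TAIL LEMMA (helper403)

`E` compact, `p ∈ E`, a straight segment `p + r v`, `0 < r < η0`, off the component of `p`.
If `f > c` (every `c < x`) at the points of the segment off `E` near `p`, then `lo E f > σ`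
(`σ < x`) at ALL points of the segment near `p`, in particular at the components of `E` which it
meets.  Hence the segment near `p` lies in ONE component of `{t1 < lo E re} ∩ {σ < lo E f}`.
-/

set_option autoImplicit false

open MeasureTheory Set Filter Topology Metric
open scoped NNReal ENNReal

namespace Crest.Agent.R105.Tail_403

open Crest.AnalysisR Tc_808 Ni_459

variable {E : Set ℂ} {f g : ℂ → ℝ} {p v : ℂ} {η0 x : ℝ}

/-- points of the segment off `E` accumulate at every component which the segment meets -/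
theorem exists_off (hE : IsCompact E) (hp : p ∈ E) {r : ℝ} (hr : 0 < r)
    (hw : p + r • v ∈ E) (hoff : p + r • v ∉ connectedComponentIn E p) {O : Set ℂ}
    (hO : Nb E (p + r • v) O) : ∃ r' ∈ Ioo 0 r, p + r' • v ∉ E ∧ p + r' • v ∈ O := by
  have hcont : Continuous fun r' : ℝ => p + r' • v := by fun_prop
  set S : Set ℝ := {r' | r' ∈ Icc 0 r ∧ p + r' • v ∉ E} with hS
  have hSne : S.Nonempty := by
    by_contra hemp
    rw [not_nonempty_iff_eq_empty] at hemp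
    apply hoff
    have h1 : (fun r' : ℝ => p + r' • v) '' Icc 0 r ⊆ E := by
      rintro _ ⟨r', hr', rfl⟩
      by_contra hcon
      have : r' ∈ S := ⟨hr', hcon⟩
      rw [hemp] at this; exact this
    have h2 : IsPreconnected ((fun r' : ℝ => p + r' • v) '' Icc 0 r) :=
      isPreconnected_Icc.image _ hcont.continuousOn
    refine h2.subset_connectedComponentIn ?_ h1 ⟨r, ⟨hr.le, le_rfl⟩, rfl⟩
    exact ⟨0, ⟨le_rfl, hr.le⟩, by simp⟩
  have hSb : BddAbove S := ⟨r, fun r' hr' => hr'.1.2⟩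
  set m := sSup S with hm
  have hmr : m ≤ r := csSup_le hSne fun r' hr' => hr'.1.2
  have hm0 : 0 ≤ m := by
    obtain ⟨r', hr'⟩ := hSne
    exact hr'.1.1.trans (le_csSup hSb hr')
  have hgt : ∀ r' ∈ Ioc m r, p + r' • v ∈ E := by
    intro r' hr'
    by_contra hcon
    have : r' ∈ S := ⟨⟨hm0.trans hr'.1.le, hr'.2⟩, hcon⟩
    exact absurd (le_csSup hSb this) (not_le.2 hr'.1)
  have hmE : p + m • v ∈ E := by
    rcases hmr.eq_or_lt with h | h
    · rw [h]; exact hw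
    · have hcl : IsClosed {r' : ℝ | p + r' • v ∈ E} := hE.isClosed.preimage hcont
      have hsub : closure (Ioc m r) ⊆ {r' : ℝ | p + r' • v ∈ E} :=
        closure_minimal hgt hcl
      rw [closure_Ioc h.ne] at hsub
      exact hsub ⟨le_rfl, h.le⟩
  have hmem : p + m • v ∈ connectedComponentIn E (p + r • v) := by
    have h1 : (fun r' : ℝ => p + r' • v) '' Icc m r ⊆ E := by
      rintro _ ⟨r', hr', rfl⟩
      rcases hr'.1.eq_or_lt with h | h
      · rw [← h]; exact hmE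
      · exact hgt r' ⟨h, hr'.2⟩
    have h2 : IsPreconnected ((fun r' : ℝ => p + r' • v) '' Icc m r) :=
      isPreconnected_Icc.image _ hcont.continuousOn
    exact h2.subset_connectedComponentIn ⟨r, ⟨hmr, le_rfl⟩, rfl⟩ h1 ⟨m, ⟨le_rfl, hmr⟩, rfl⟩
  have hmO : p + m • v ∈ O := hO.sub hmem
  have hOo : IsOpen {r' : ℝ | p + r' • v ∈ O} := hO.op.preimage hcont
  obtain ⟨δ, hδ, hball⟩ := Metric.isOpen_iff.1 hOo m hmO
  obtain ⟨r', hr'S, hr'm⟩ := exists_lt_of_lt_csSup hSne (show m - δ < sSup S by linarith)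
  have hr'le : r' ≤ m := le_csSup hSb hr'S
  have hr'O : p + r' • v ∈ O := hball (by rw [mem_ball, Real.dist_eq, abs_lt]; constructor <;> linarith)
  refine ⟨r', ⟨?_, ?_⟩, hr'S.2, hr'O⟩
  · rcases hr'S.1.1.eq_or_lt with h | h
    · exfalso; apply hr'S.2; rw [← h]; simpa using hp
    · exact h
  · rcases hr'S.1.2.eq_or_lt with h | h
    · exfalso; apply hr'S.2; rw [h]; exact hw
    · exact h

/-- **the tail lemma** -/
theorem tail_lo (hE : IsExteriorDomain Eᶜ) (hf : LB f) (hc : ∀ w ∉ E, ContinuousAt f w)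
    (hs : Summable fun K : Cmp E => osc E f K.1 ^ 2) (hp : p ∈ E) (h0 : 0 < η0)
    (hoff : ∀ r ∈ Ioo (0 : ℝ) η0, p + r • v ∉ connectedComponentIn E p)
    (hlim : ∀ c < x, ∃ η > 0, ∀ r ∈ Ioo (0 : ℝ) η, p + r • v ∉ E → c < f (p + r • v))
    {σ : ℝ} (hσ : σ < x) : ∃ η > 0, ∀ r ∈ Ioo (0 : ℝ) η, σ < lo E f (p + r • v) := by
  classical
  have hEc : IsCompact E := cpt_of hE
  set δ : ℝ := (x - σ) / 2 with hδ
  have hδ0 : 0 < δ := by rw [hδ]; linarith
  obtain ⟨η1, hη1, h1⟩ := hlim (x - δ) (by linarith)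
  -- finitely many components with large oscillation
  have hfin : {K : Cmp E | δ ≤ osc E f K.1}.Finite := by
    have h2 := hs.tendsto_cofinite_zero.eventually (gt_mem_nhds (show (0 : ℝ) < δ ^ 2 by positivity))
    rw [Filter.eventually_cofinite] at h2
    refine h2.subset fun K hK => ?_
    simp only [mem_ofPred_eq, not_lt] at hK ⊢
    exact pow_le_pow_left₀ hδ0.le hK 2
  set 𝓕 : Set (Cmp E) := {K : Cmp E | δ ≤ osc E f K.1 ∧ p ∉ K.1} with h𝓕
  have h𝓕f : 𝓕.Finite := hfin.subset fun K hK => hK.1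
  have hCcl : IsClosed (⋃ K ∈ 𝓕, K.1) :=
    h𝓕f.isClosed_biUnion fun K _ => (K.isCompact hEc).isClosed
  have hpC : p ∉ ⋃ K ∈ 𝓕, K.1 := by
    intro h
    obtain ⟨K, hK, hpK⟩ := mem_iUnion₂.1 h
    exact hK.2 hpK
  obtain ⟨ρ, hρ, hball⟩ := Metric.isOpen_iff.1 hCcl.isOpen_compl p hpC
  set η2 : ℝ := ρ / (‖v‖ + 1) with hη2
  have hη20 : 0 < η2 := by positivity
  refine ⟨min η0 (min η1 η2), lt_min h0 (lt_min hη1 hη20), fun r hr => ?_⟩
  have hr0 : 0 < r := hr.1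
  have hrη0 : r < η0 := hr.2.trans_le (min_le_left _ _)
  have hrη1 : r < η1 := hr.2.trans_le ((min_le_right _ _).trans (min_le_left _ _))
  have hrη2 : r < η2 := hr.2.trans_le ((min_le_right _ _).trans (min_le_right _ _))
  by_cases hwE : p + r • v ∈ E
  · have hoffr := hoff r ⟨hr0, hrη0⟩
    -- small oscillation
    have hK : osc E f (connectedComponentIn E (p + r • v)) < δ := by
      by_contra hcon
      push Not at hcon
      have hpK : p ∉ (Cmp.of hwE).1 := by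
        intro hpK
        apply hoffr
        have h3 : connectedComponentIn E (p + r • v) = connectedComponentIn E p :=
          connectedComponentIn_eq hpK
        rw [← h3]
        exact mem_connectedComponentIn hwE
      have hmem : p + r • v ∈ ⋃ K ∈ 𝓕, K.1 :=
        mem_iUnion₂.2 ⟨Cmp.of hwE, ⟨hcon, hpK⟩, mem_connectedComponentIn hwE⟩
      have hin : p + r • v ∈ ball p ρ := by
        rw [mem_ball, dist_eq_norm, add_sub_cancel_left, norm_smul, Real.norm_eq_abs,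
          abs_of_pos hr0]
        calc r * ‖v‖ ≤ r * (‖v‖ + 1) := by nlinarith [norm_nonneg v]
          _ < η2 * (‖v‖ + 1) := by
              apply mul_lt_mul_of_pos_right hrη2; positivity
          _ = ρ := by rw [hη2]; field_simp
      exact hball hin hmem
    -- the upper envelope
    have hup : x - δ ≤ up E f (p + r • v) := by
      by_contra hcon
      push Not at hcon
      obtain ⟨O, hO, hOl⟩ := exists_lt_of_up_lt hE hf hcon
      obtain ⟨r', hr', hr'E, hr'O⟩ := exists_off hEc hp hr0 hwE hoffr hO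
      have h4 := h1 r' ⟨hr'.1, hr'.2.trans hrη1⟩ hr'E
      exact lt_asymm h4 (hOl _ hr'O hr'E)
    have hosc := osc_eq' hE hf hwE
    rw [hosc] at hK
    have : x - δ - δ = σ := by rw [hδ]; ring
    linarith
  · rw [lo_of_notMem hE hf hwE (hc _ hwE)]
    have h4 := h1 r ⟨hr0, hrη1⟩ hwE
    have : x - δ = σ + δ := by rw [hδ]; ring
    linarith

/-- mirror form -/
theorem tail_up (hE : IsExteriorDomain Eᶜ) (hf : LB f) (hc : ∀ w ∉ E, ContinuousAt f w)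
    (hs : Summable fun K : Cmp E => osc E f K.1 ^ 2) (hp : p ∈ E) (h0 : 0 < η0)
    (hoff : ∀ r ∈ Ioo (0 : ℝ) η0, p + r • v ∉ connectedComponentIn E p)
    (hlim : ∀ c > x, ∃ η > 0, ∀ r ∈ Ioo (0 : ℝ) η, p + r • v ∉ E → f (p + r • v) < c)
    {σ : ℝ} (hσ : x < σ) : ∃ η > 0, ∀ r ∈ Ioo (0 : ℝ) η, up E f (p + r • v) < σ := by
  have hs' : Summable fun K : Cmp E => osc E (fun z => - f z) K.1 ^ 2 := by
    refine hs.congr fun K => ?_
    obtain ⟨z, hz⟩ := K.nonempty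
    have hzE := K.subset hz
    rw [← Ni_459.Cmp.cc_eq K hz, osc_eq' hE hf hzE, osc_eq' hE hf.neg hzE]
    unfold lo
    simp only [neg_neg]
    ring
  obtain ⟨η, hη, h⟩ := tail_lo (f := fun z => - f z) (x := -x) hE hf.neg (fun w hw => (hc w hw).neg)
    hs' hp h0 hoff (fun c hcx => by
      obtain ⟨η, hη, h⟩ := hlim (-c) (by linarith)
      exact ⟨η, hη, fun r hr hrE => by have := h r hr hrE; linarith⟩) (σ := -σ) (by linarith)
  refine ⟨η, hη, fun r hr => ?_⟩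
  have := h r hr
  unfold lo at this
  simp only [neg_neg] at this
  linarith


end Crest.Agent.R105.Tail_403
end

-- ▼ part R105/Atl1_948
section

/-!
# Row 105, S0138, node E13: ATNE from PTW, part 1: regions (helper948)

* `Wr E L m = {ζ ∉ L, 0 < lo E m ζ}`, `Rg E L m r` = its component of `r` : open, connected,
  saturated; `Rg \ E` is connected
* `uc_of` : the trace of `Rg` on the domain is 499's `Uc`
* `tail_Wr` : the end germ of a segment lies in the region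
-/

set_option autoImplicit false

open MeasureTheory Set Filter Topology Metric
open scoped NNReal ENNReal ContDiff

namespace Crest.Agent.R105.Atl_948

open Crest.AnalysisR (IsExteriorDomain)
open Ni_459 (LB Nb nb_of_mem nb_of_notMem isOpen_lt_lo lo_congr_cc lo_of_notMem le_lo
  exists_gt_of_lt_lo exists_lt_of_up_lt cpt_of)
open Tc_808 Bd_775 Ends_897
open Ta_937 (corE map_corE eK_mem)

/-- the region in a picture -/
def Wr (E L : Set ℂ) (m : ℂ → ℝ) : Set ℂ := {ζ | ζ ∉ L ∧ 0 < Ni_459.lo E m ζ}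

/-- a component of the region -/
def Rg (E L : Set ℂ) (m : ℂ → ℝ) (r : ℂ) : Set ℂ := connectedComponentIn (Wr E L m) r

variable {E : Set ℂ} {m : ℂ → ℝ}

theorem isOpen_Wr (hE : IsExteriorDomain Eᶜ) (hm : LB m) (L : Cmp E) : IsOpen (Wr E L.1 m) :=
  (L.isCompact (cpt_of hE)).isClosed.isOpen_compl.inter (isOpen_lt_lo hE hm 0)

theorem Wr_sat (L : Cmp E) {ζ : ℂ} (h : ζ ∈ Wr E L.1 m) :
    connectedComponentIn E ζ ⊆ Wr E L.1 m := by
  intro w hw
  have hζE : ζ ∈ E := connectedComponentIn_nonempty_iff.1 ⟨w, hw⟩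
  refine ⟨fun hwL => ?_, ?_⟩
  · have h1 : connectedComponentIn E w = L.1 := Ni_459.Cmp.cc_eq L hwL
    have h2 : connectedComponentIn E ζ = connectedComponentIn E w := connectedComponentIn_eq hw
    exact h.1 (h1 ▸ h2 ▸ mem_connectedComponentIn hζE)
  · show 0 < Ni_459.lo E m w
    rw [lo_congr_cc hζE hw]
    exact h.2

theorem isOpen_Rg (hE : IsExteriorDomain Eᶜ) (hm : LB m) (L : Cmp E) (r : ℂ) :
    IsOpen (Rg E L.1 m r) := (isOpen_Wr hE hm L).connectedComponentIn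

theorem preconn_Rg (L : Set ℂ) (r : ℂ) : IsPreconnected (Rg E L m r) :=
  isPreconnected_connectedComponentIn

theorem Rg_sub (L : Set ℂ) (r : ℂ) : Rg E L m r ⊆ Wr E L m := connectedComponentIn_subset _ _

theorem Rg_eq {L : Set ℂ} {r ζ : ℂ} (h : ζ ∈ Rg E L m r) : Rg E L m r = Rg E L m ζ :=
  connectedComponentIn_eq h

/-- a connected subset of the region which meets `Rg` lies in `Rg` -/
theorem sub_Rg {L S : Set ℂ} {r ζ : ℂ} (hS : IsPreconnected S) (hSW : S ⊆ Wr E L m)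
    (hζ : ζ ∈ S) (h : ζ ∈ Rg E L m r) : S ⊆ Rg E L m r := by
  rw [Rg_eq h]
  exact hS.subset_connectedComponentIn hζ hSW

theorem Rg_sat (L : Cmp E) {r ζ : ℂ} (h : ζ ∈ Rg E L.1 m r) :
    connectedComponentIn E ζ ⊆ Rg E L.1 m r := by
  intro w hw
  have hζE : ζ ∈ E := connectedComponentIn_nonempty_iff.1 ⟨w, hw⟩
  exact sub_Rg isPreconnected_connectedComponentIn (Wr_sat L (Rg_sub _ _ h))
    (mem_connectedComponentIn hζE) h hw

theorem preconn_Rg_diff (hE : IsExteriorDomain Eᶜ) (hm : LB m) (L : Cmp E) (r : ℂ) :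
    IsPreconnected (Rg E L.1 m r \ E) :=
  Uw_913.preconn_sdiff hE (isOpen_Rg hE hm L r) (preconn_Rg _ _) fun _ hz => Rg_sat L hz

/-- a dense countable set of base points is enough -/
theorem exists_base (hE : IsExteriorDomain Eᶜ) (hm : LB m) (L : Cmp E) {D : Set ℂ} (hD : Dense D)
    {ζ : ℂ} (hζ : ζ ∈ Wr E L.1 m) : ∃ r ∈ D, ζ ∈ Rg E L.1 m r := by
  obtain ⟨r, hr1, hr2⟩ := hD.exists_mem_open (isOpen_Rg hE hm L ζ)
    ⟨ζ, mem_connectedComponentIn hζ⟩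
  refine ⟨r, hr1, ?_⟩
  rw [← Rg_eq hr2]
  exact mem_connectedComponentIn hζ

/-- lower envelope at a component -/
theorem le_lo_of_ev (hE : IsExteriorDomain Eᶜ) (hm : LB m) (L : Cmp E) {c : ℝ}
    (h : ∀ᶠ w in eK E L.1, c ≤ m w) : ∀ ζ ∈ L.1, c ≤ Ni_459.lo E m ζ := by
  intro ζ hζ
  obtain ⟨O, hO, hLO, hOm⟩ := mem_eK.1 h
  refine le_lo hE hm (nb_of_mem (L.subset hζ) hO ?_) fun w hw hwE => hOm w hw hwE
  rw [Ni_459.Cmp.cc_eq L hζ]
  exact hLO

/-- values off `E` -/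
theorem Wr_off (hE : IsExteriorDomain Eᶜ) (hm : LB m) (hc : ContinuousOn m Eᶜ) {L : Set ℂ} {ζ : ℂ}
    (hζ : ζ ∉ E) (h : ζ ∈ Wr E L m) : 0 < m ζ := by
  have h1 := h.2
  rwa [lo_of_notMem hE hm hζ (hc.continuousAt (hE.1.mem_nhds hζ))] at h1

theorem mem_Wr_off (hE : IsExteriorDomain Eᶜ) (hm : LB m) (hc : ContinuousOn m Eᶜ) {L : Cmp E}
    {ζ : ℂ} (hζ : ζ ∉ E) (h : 0 < m ζ) : ζ ∈ Wr E L.1 m := by
  refine ⟨fun hL => hζ (L.subset hL), ?_⟩
  rwa [lo_of_notMem hE hm hζ (hc.continuousAt (hE.1.mem_nhds hζ))]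

/-- **the trace of a component of the region is `Uc`** -/
theorem uc_of {Y V : Set ℂ} {P : ℂ → ℂ} (hP : EndMap Yᶜ V P) (K : Cmp Yᶜᶜ) {m mP : ℂ → ℝ}
    (hmP : ∀ z, z ∉ Y → mP (P z) = m z) (hlb : LB mP) (hc : ContinuousOn mP V) (r : ℂ) :
    E13_499.Uc Y K.1 m {z | z ∉ Y ∧ P z ∈ Rg Vᶜ (corE hP K).1 mP r} := by
  have hE : IsExteriorDomain Vᶜᶜ := by rw [compl_compl]; exact hP.hV
  have hc' : ContinuousOn mP Vᶜᶜ := by rw [compl_compl]; exact hc
  have hPV : ∀ z, z ∉ Y → P z ∉ Vᶜ := fun z hz h => h (hP.mapsTo hz)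
  have hcP : ∀ z, z ∉ Y → ContinuousAt P z := fun z hz =>
    hP.cont.continuousAt (hP.hU.1.mem_nhds hz)
  have hRo := isOpen_Rg hE hlb (corE hP K) r
  refine ⟨?_, ?_, ?_, ?_⟩
  · exact hP.cont.isOpen_inter_preimage hP.hU.1 hRo
  · rintro z ⟨hz, hzR⟩
    refine ⟨hz, ?_⟩
    rw [← hmP z hz]
    exact Wr_off hE hlb hc' (hPV z hz) (Rg_sub _ _ hzR)
  · intro z hz hmz hzO
    rw [← hmP z hz] at hmz
    have h1 : P z ∈ Wr Vᶜ (corE hP K).1 mP := mem_Wr_off hE hlb hc' (hPV z hz) hmz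
    have h2 : Rg Vᶜ (corE hP K).1 mP (P z) ∈ 𝓝 (P z) :=
      (isOpen_Rg hE hlb (corE hP K) (P z)).mem_nhds (mem_connectedComponentIn h1)
    filter_upwards [(hcP z hz).preimage_mem_nhds h2] with w hw hwO
    refine hzO ⟨hz, ?_⟩
    have h3 : Rg Vᶜ (corE hP K).1 mP (P z) = Rg Vᶜ (corE hP K).1 mP (P w) := Rg_eq hw
    rw [Rg_eq hwO.2, ← h3]
    exact mem_connectedComponentIn h1
  · rintro K' hK' ⟨c, hc0, hev⟩
    have e : Yᶜᶜ = Y := compl_compl Y
    obtain ⟨K'', hK''⟩ : ∃ K'' : Cmp Yᶜᶜ, K''.1 = K'.1 := by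
      refine ⟨⟨K'.1, ?_⟩, rfl⟩
      obtain ⟨z, hz, he⟩ := K'.2
      exact ⟨z, by rwa [e], by rw [e]; exact he⟩
    have hne : corE hP K'' ≠ corE hP K := by
      intro h
      have := (corE hP).injective h
      exact hK' (by rw [← hK'', this])
    have hmap := map_corE hP K''
    have hee : ∀ S : Set ℂ, eK Yᶜᶜ S = eK Y S := fun S => by rw [e]
    rw [hK'', hee] at hmap
    have hev' : ∀ᶠ w in eK Vᶜ (corE hP K'').1, c ≤ mP w := by
      rw [← hmap, eventually_map]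
      have h1 : ∀ᶠ w in eK Y K'.1, w ∉ Y := mem_inf_of_right (mem_principal_self _)
      filter_upwards [hev, h1] with w hw hwY
      rw [hmP w hwY]; exact hw
    have hsub : (corE hP K'').1 ⊆ Wr Vᶜ (corE hP K).1 mP := by
      intro ζ hζ
      refine ⟨fun hζ' => disjoint_left.1 (Cmp.disjoint hne) hζ hζ', ?_⟩
      exact hc0.trans_le (le_lo_of_ev hE hlb _ hev' ζ hζ)
    obtain ⟨ζ0, hζ0⟩ := (corE hP K'').nonempty
    have h0 : (corE hP K'').1 ⊆ Rg Vᶜ (corE hP K).1 mP ζ0 :=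
      (corE hP K'').preconn.subset_connectedComponentIn hζ0 hsub
    have hR0 : ∀ᶠ w in eK Y K'.1, w ∉ Y ∧ P w ∈ Rg Vᶜ (corE hP K).1 mP ζ0 := by
      have h2 : ∀ᶠ w in eK Vᶜ (corE hP K'').1, w ∈ Rg Vᶜ (corE hP K).1 mP ζ0 :=
        mem_inf_of_left ((isOpen_Rg hE hlb (corE hP K) ζ0).mem_nhdsSet.2 h0)
      rw [← hmap, eventually_map] at h2
      have h1 : ∀ᶠ w in eK Y K'.1, w ∉ Y := mem_inf_of_right (mem_principal_self _)
      exact h1.and h2
    by_cases hm : ζ0 ∈ Rg Vᶜ (corE hP K).1 mP r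
    · left
      rw [← Rg_eq hm] at hR0
      exact hR0
    · right
      filter_upwards [hR0] with w hw hwO
      apply hm
      rw [Rg_eq hwO.2, ← Rg_eq hw.2]
      exact mem_connectedComponentIn (hsub hζ0)

/-! ### the tail -/

/-- limit of `f` at the end `p` of the segment `p + r v`, through the points off `E` -/
def Lm (E : Set ℂ) (f : ℂ → ℝ) (p v : ℂ) (x : ℝ) : Prop :=
  ∀ ε > 0, ∃ η > 0, ∀ r ∈ Ioo (0 : ℝ) η, p + r • v ∉ E → |f (p + r • v) - x| < ε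

theorem env_near (hE : IsExteriorDomain Eᶜ) {f : ℂ → ℝ} (hf : LB f)
    (hc : ∀ w ∉ E, ContinuousAt f w) (hs : Summable fun K : Cmp E => osc E f K.1 ^ 2) {p v : ℂ}
    {η0 x : ℝ} (hp : p ∈ E) (h0 : 0 < η0)
    (hoff : ∀ r ∈ Ioo (0 : ℝ) η0, p + r • v ∉ connectedComponentIn E p) (hl : Lm E f p v x)
    {ε : ℝ} (hε : 0 < ε) : ∃ η > 0, ∀ r ∈ Ioo (0 : ℝ) η, ∃ O, Nb E (p + r • v) O ∧
      ∀ w ∈ O, w ∉ E → |f w - x| < ε := by
  obtain ⟨η1, hη1, g1⟩ := Tail_403.tail_lo (x := x) hE hf hc hs hp h0 hoff (fun c hcx => by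
    obtain ⟨η, hη, h⟩ := hl (x - c) (by linarith)
    exact ⟨η, hη, fun r hr hrE => by have := (abs_lt.1 (h r hr hrE)).1; linarith⟩)
    (σ := x - ε) (by linarith)
  obtain ⟨η2, hη2, g2⟩ := Tail_403.tail_up (x := x) hE hf hc hs hp h0 hoff (fun c hcx => by
    obtain ⟨η, hη, h⟩ := hl (c - x) (by linarith)
    exact ⟨η, hη, fun r hr hrE => by have := (abs_lt.1 (h r hr hrE)).2; linarith⟩)
    (σ := x + ε) (by linarith)
  refine ⟨min η1 η2, lt_min hη1 hη2, fun r hr => ?_⟩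
  obtain ⟨O1, hO1, h1⟩ := exists_gt_of_lt_lo hE hf
    (g1 r ⟨hr.1, hr.2.trans_le (min_le_left _ _)⟩)
  obtain ⟨O2, hO2, h2⟩ := exists_lt_of_up_lt hE hf
    (g2 r ⟨hr.1, hr.2.trans_le (min_le_right _ _)⟩)
  refine ⟨O1 ∩ O2, hO1.inter hO2, fun w hw hwE => ?_⟩
  have := h1 w hw.1 hwE
  have := h2 w hw.2 hwE
  rw [abs_lt]
  constructor <;> linarith

/-- **the end germ lies in the region** -/
theorem tail_Wr (hE : IsExteriorDomain Eᶜ) {f1 f2 : ℂ → ℝ} (hf1 : LB f1) (hf2 : LB f2)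
    (hc1 : ∀ w ∉ E, ContinuousAt f1 w) (hc2 : ∀ w ∉ E, ContinuousAt f2 w)
    (hs1 : Summable fun K : Cmp E => osc E f1 K.1 ^ 2)
    (hs2 : Summable fun K : Cmp E => osc E f2 K.1 ^ 2) (L : Cmp E) {p v : ℂ} {η0 x1 x2 : ℝ}
    (hp : p ∈ L.1) (h0 : 0 < η0) (hoff : ∀ r ∈ Ioo (0 : ℝ) η0, p + r • v ∉ L.1)
    (hl1 : Lm E f1 p v x1) (hl2 : Lm E f2 p v x2) {m : ℂ → ℝ} (hm : LB m) {ε g0 : ℝ} (hε : 0 < ε)
    (hg0 : 0 < g0) (hG : ∀ w, w ∉ E → |f1 w - x1| < ε → |f2 w - x2| < ε → g0 ≤ m w) :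
    ∃ η > 0, ∀ r ∈ Ioo (0 : ℝ) η, p + r • v ∈ Wr E L.1 m := by
  have hcc : connectedComponentIn E p = L.1 := Ni_459.Cmp.cc_eq L hp
  obtain ⟨η1, hη1, g1⟩ := env_near hE hf1 hc1 hs1 (L.subset hp) h0 (by rwa [hcc]) hl1 hε
  obtain ⟨η2, hη2, g2⟩ := env_near hE hf2 hc2 hs2 (L.subset hp) h0 (by rwa [hcc]) hl2 hε
  refine ⟨min η0 (min η1 η2), lt_min h0 (lt_min hη1 hη2), fun r hr => ⟨?_, ?_⟩⟩
  · exact hoff r ⟨hr.1, hr.2.trans_le (min_le_left _ _)⟩
  · obtain ⟨O1, hO1, h1⟩ := g1 r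
      ⟨hr.1, hr.2.trans_le ((min_le_right _ _).trans (min_le_left _ _))⟩
    obtain ⟨O2, hO2, h2⟩ := g2 r
      ⟨hr.1, hr.2.trans_le ((min_le_right _ _).trans (min_le_right _ _))⟩
    exact hg0.trans_le (le_lo hE hm (hO1.inter hO2) fun w hw hwE =>
      hG w hwE (h1 w hw.1 hwE) (h2 w hw.2 hwE))

end Crest.Agent.R105.Atl_948
end

-- ▼ part R105/Wnd1_41
section

/-!
# R105 (helper41): the winding lemma `wind` used for node E13 (ATN)

A connected unbounded set which contains `p` meets every union `K₁ ∪ K₂` of two continua with two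
common points `a` (above `p`) and `b` (below `p`), such that `K₁` misses the half line from `p` to
the left and `K₂` misses the half line from `p` to the right.
-/

set_option autoImplicit false

open Set Complex Filter Topology

namespace Crest.Agent.R105.Wnd_41

/-- `z - q` has a continuous logarithm on `K` -/
def HasLog (K : Set ℂ) (q : ℂ) : Prop :=
  ∃ g : ℂ → ℂ, ContinuousOn g K ∧ ∀ z ∈ K, exp (g z) = z - q

lemma mem_slit_of_norm_lt {w : ℂ} (h : ‖w‖ < 1) : 1 + w ∈ slitPlane := by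
  have h1 : |w.re| ≤ ‖w‖ := abs_re_le_norm w
  left
  have := (abs_le.1 h1).1
  simp only [add_re, one_re]
  linarith

lemma HasLog.step {K : Set ℂ} {p q : ℂ} (hp : HasLog K p) (h : ∀ z ∈ K, ‖q - p‖ < ‖z - p‖) :
    HasLog K q := by
  obtain ⟨g, hg, hge⟩ := hp
  have hne : ∀ z ∈ K, z - p ≠ 0 := by
    intro z hz h0
    have := h z hz
    rw [h0, norm_zero] at this
    exact absurd this (not_lt.2 (norm_nonneg _))
  have hsl : ∀ z ∈ K, 1 + (p - q) / (z - p) ∈ slitPlane := by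
    intro z hz
    apply mem_slit_of_norm_lt
    rw [norm_div, div_lt_one (norm_pos_iff.2 (hne z hz)), norm_sub_rev]
    exact h z hz
  refine ⟨fun z => g z + log (1 + (p - q) / (z - p)), ?_, ?_⟩
  · refine hg.add (ContinuousOn.clog ?_ hsl)
    refine continuousOn_const.add (continuousOn_const.div ?_ hne)
    exact continuousOn_id.sub continuousOn_const
  · intro z hz
    rw [exp_add, hge z hz, exp_log (slitPlane_ne_zero (hsl z hz))]
    have := hne z hz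
    field_simp
    ring

lemma hasLog_far {K : Set ℂ} {q : ℂ} (h : ∀ z ∈ K, ‖z‖ < ‖q‖) (hne : K.Nonempty) :
    HasLog K q := by
  obtain ⟨z0, hz0⟩ := hne
  have hq : q ≠ 0 := by
    rintro rfl
    have := h z0 hz0
    rw [norm_zero] at this
    exact absurd this (not_lt.2 (norm_nonneg _))
  have hsl : ∀ z ∈ K, 1 + (-z / q) ∈ slitPlane := by
    intro z hz
    apply mem_slit_of_norm_lt
    rw [norm_div, norm_neg, div_lt_one (norm_pos_iff.2 hq)]
    exact h z hz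
  refine ⟨fun z => log (-q) + log (1 + (-z / q)), ?_, ?_⟩
  · refine continuousOn_const.add (ContinuousOn.clog ?_ hsl)
    refine continuousOn_const.add (ContinuousOn.div_const ?_ _)
    exact continuousOn_id.neg
  · intro z hz
    rw [exp_add, exp_log (neg_ne_zero.2 hq), exp_log (slitPlane_ne_zero (hsl z hz))]
    field_simp
    ring

/-- the set of the points with a logarithm is clopen off `K` -/
lemma hasLog_of_preconnected {K M : Set ℂ} (hK : IsCompact K) (hne : K.Nonempty)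
    (hM : IsPreconnected M) (hd : Disjoint M K) (hunb : ¬ Bornology.IsBounded M) {p : ℂ}
    (hp : p ∈ M) : HasLog K p := by
  have hKc : IsClosed K := hK.isClosed
  -- distance
  have hdist : ∀ q ∉ K, 0 < Metric.infDist q K := fun q hq =>
    (hKc.notMem_iff_infDist_pos hne).1 hq
  have hle : ∀ q, ∀ z ∈ K, Metric.infDist q K ≤ ‖z - q‖ := by
    intro q z hz
    have := Metric.infDist_le_dist_of_mem (x := q) hz
    rwa [dist_comm, dist_eq_norm] at this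
  let U : Set ℂ := {q | q ∉ K ∧ HasLog K q}
  let V : Set ℂ := {q | q ∉ K ∧ ¬ HasLog K q}
  have hU : IsOpen U := by
    rw [Metric.isOpen_iff]
    rintro q ⟨hq, hq'⟩
    refine ⟨Metric.infDist q K, hdist q hq, ?_⟩
    intro q' h'
    rw [Metric.mem_ball, dist_eq_norm] at h'
    refine ⟨fun hK' => ?_, hq'.step fun z hz => lt_of_lt_of_le h' (hle q z hz)⟩
    exact absurd (hle q q' hK') (not_le.2 h')
  have hV : IsOpen V := by
    rw [Metric.isOpen_iff]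
    rintro q ⟨hq, hq'⟩
    refine ⟨Metric.infDist q K / 2, half_pos (hdist q hq), ?_⟩
    intro q' h'
    rw [Metric.mem_ball, dist_eq_norm] at h'
    have h0 := hdist q hq
    refine ⟨fun hK' => ?_, fun hl => hq' (hl.step fun z hz => ?_)⟩
    · exact absurd (hle q q' hK') (not_le.2 (by linarith))
    · have h1 := hle q z hz
      have h2 : ‖z - q‖ ≤ ‖z - q'‖ + ‖q' - q‖ := by
        calc ‖z - q‖ = ‖(z - q') + (q' - q)‖ := by ring_nf
          _ ≤ _ := norm_add_le _ _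
      rw [norm_sub_rev q q']
      linarith
  have hUV : Disjoint U V := by
    rw [Set.disjoint_left]
    rintro q ⟨_, h1⟩ ⟨_, h2⟩
    exact h2 h1
  have hsub : M ⊆ U ∪ V := by
    intro q hq
    have hqK : q ∉ K := Set.disjoint_left.1 hd hq
    by_cases h : HasLog K q
    · exact Or.inl ⟨hqK, h⟩
    · exact Or.inr ⟨hqK, h⟩
  -- a far point
  obtain ⟨R, hR⟩ := hK.isBounded.exists_norm_le
  have : ∃ q ∈ M, R < ‖q‖ := by
    by_contra hcon
    push Not at hcon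
    exact hunb (isBounded_iff_forall_norm_le.2 ⟨R, hcon⟩)
  obtain ⟨q, hqM, hqR⟩ := this
  have hfar : HasLog K q := hasLog_far (fun z hz => lt_of_le_of_lt (hR z hz) hqR) hne
  have := hM.subset_left_of_subset_union hU hV hUV hsub
    ⟨q, hqM, Set.disjoint_left.1 hd hqM, hfar⟩
  exact (this hp).2

/-- integer valued continuous functions -/
lemma const_of_exp_one {K : Set ℂ} (hK : IsPreconnected K) {f : ℂ → ℂ} (hf : ContinuousOn f K)
    {c : ℂ} (hc : ∀ z ∈ K, exp (f z) = c) {a b : ℂ} (ha : a ∈ K) (hb : b ∈ K) : f a = f b := by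
  -- `f z - f a` is in `2 π i ℤ`
  have h1 : ∀ z ∈ K, ∃ n : ℤ, f z = f a + n * (2 * Real.pi * I) := by
    intro z hz
    exact exp_eq_exp_iff_exists_int.1 ((hc z hz).trans (hc a ha).symm)
  let φ : ℂ → ℝ := fun z => ((f z).im - (f a).im) / (2 * Real.pi)
  have hφ : ContinuousOn φ K :=
    ((continuous_im.comp_continuousOn hf).sub continuousOn_const).div_const _
  have hφv : ∀ z ∈ K, ∃ n : ℤ, φ z = n ∧ f z = f a + n * (2 * Real.pi * I) := by
    intro z hz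
    obtain ⟨n, hn⟩ := h1 z hz
    refine ⟨n, ?_, hn⟩
    simp only [φ]
    rw [hn]
    have : (2 * Real.pi) ≠ 0 := by positivity
    field_simp
    simp
    ring
  -- the image is preconnected and integer valued
  have him : IsPreconnected (φ '' K) := hK.image _ hφ
  have hφa : φ a = 0 := by simp [φ]
  obtain ⟨n, hn, hfb⟩ := hφv b hb
  have hn0 : n = 0 := by
    by_contra hne
    -- the value 1/2 or -1/2 is attained
    have hoc := him.ordConnected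
    have h0 : (0 : ℝ) ∈ φ '' K := ⟨a, ha, hφa⟩
    have hnm : (n : ℝ) ∈ φ '' K := ⟨b, hb, hn⟩
    rcases lt_or_gt_of_ne hne with h | h
    · have hle : (n : ℝ) ≤ -1 := by exact_mod_cast (by omega : n ≤ -1)
      have : (-(1/2) : ℝ) ∈ φ '' K := hoc.out hnm h0 ⟨by linarith, by norm_num⟩
      obtain ⟨z, hz, hzv⟩ := this
      obtain ⟨m, hm, _⟩ := hφv z hz
      rw [hzv] at hm
      have : (2 * m : ℝ) = -1 := by linarith
      have : (2 * m : ℤ) = -1 := by exact_mod_cast this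
      omega
    · have hle : (1 : ℝ) ≤ n := by exact_mod_cast (by omega : 1 ≤ n)
      have : ((1/2) : ℝ) ∈ φ '' K := hoc.out h0 hnm ⟨by norm_num, by linarith⟩
      obtain ⟨z, hz, hzv⟩ := this
      obtain ⟨m, hm, _⟩ := hφv z hz
      rw [hzv] at hm
      have : (2 * m : ℝ) = 1 := by linarith
      have : (2 * m : ℤ) = 1 := by exact_mod_cast this
      omega
  rw [hfb, hn0]
  simp

/-- **The winding lemma.** -/
theorem wind {K₁ K₂ M : Set ℂ} {p a b : ℂ} (hK₁ : IsCompact K₁) (hK₂ : IsCompact K₂)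
    (hc₁ : IsPreconnected K₁) (hc₂ : IsPreconnected K₂)
    (h1 : ∀ z ∈ K₁, z.im = p.im → p.re < z.re) (h2 : ∀ z ∈ K₂, z.im = p.im → z.re < p.re)
    (ha : a ∈ K₁ ∩ K₂) (hb : b ∈ K₁ ∩ K₂) (har : a.re = p.re) (hbr : b.re = p.re)
    (hai : p.im < a.im) (hbi : b.im < p.im) (hM : IsPreconnected M) (hp : p ∈ M)
    (hunb : ¬ Bornology.IsBounded M) (hd : Disjoint M (K₁ ∪ K₂)) : False := by
  obtain ⟨g, hg, hge⟩ := hasLog_of_preconnected (hK₁.union hK₂) ⟨a, Or.inl ha.1⟩ hM hd hunb hp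
  have hs1 : ∀ z ∈ K₁, z - p ∈ slitPlane := by
    intro z hz
    by_cases h : z.im = p.im
    · left
      have := h1 z hz h
      simp only [sub_re]
      linarith
    · right
      simp only [sub_im]
      exact sub_ne_zero.2 h
  have hs2 : ∀ z ∈ K₂, p - z ∈ slitPlane := by
    intro z hz
    by_cases h : z.im = p.im
    · left
      have := h2 z hz h
      simp only [sub_re]
      linarith
    · right
      simp only [sub_im]
      exact sub_ne_zero.2 (Ne.symm h)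
  -- on `K₁`
  have e1 : g a - log (a - p) = g b - log (b - p) := by
    refine const_of_exp_one (c := 1) hc₁ (f := fun z => g z - log (z - p)) ?_ ?_ ha.1 hb.1
    · refine (hg.mono subset_union_left).sub (ContinuousOn.clog ?_ hs1)
      exact continuousOn_id.sub continuousOn_const
    · intro z hz
      have hz0 := slitPlane_ne_zero (hs1 z hz)
      rw [exp_sub, exp_log hz0, hge z (Or.inl hz), div_self hz0]
  have e2 : g a - log (p - a) = g b - log (p - b) := by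
    refine const_of_exp_one (c := -1) hc₂ (f := fun z => g z - log (p - z)) ?_ ?_ ha.2 hb.2
    · refine (hg.mono subset_union_right).sub (ContinuousOn.clog ?_ hs2)
      exact continuousOn_const.sub continuousOn_id
    · intro z hz
      have hz0 := slitPlane_ne_zero (hs2 z hz)
      rw [exp_sub, exp_log hz0, hge z (Or.inr hz), ← neg_sub p z, neg_div, div_self hz0]
  have a1 : arg (a - p) = Real.pi / 2 := by
    rw [arg_eq_pi_div_two_iff]
    simp only [sub_re, sub_im]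
    exact ⟨by linarith, by linarith⟩
  have a2 : arg (b - p) = -(Real.pi / 2) := by
    rw [arg_eq_neg_pi_div_two_iff]
    simp only [sub_re, sub_im]
    exact ⟨by linarith, by linarith⟩
  have a3 : arg (p - a) = -(Real.pi / 2) := by
    rw [arg_eq_neg_pi_div_two_iff]
    simp only [sub_re, sub_im]
    exact ⟨by linarith, by linarith⟩
  have a4 : arg (p - b) = Real.pi / 2 := by
    rw [arg_eq_pi_div_two_iff]
    simp only [sub_re, sub_im]
    exact ⟨by linarith, by linarith⟩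
  have f1 := congrArg Complex.im e1
  have f2 := congrArg Complex.im e2
  simp only [sub_im, log_im, a1, a2, a3, a4] at f1 f2
  have := Real.pi_pos
  linarith

end Crest.Agent.R105.Wnd_41
end

-- ▼ part R105/Lop2_948
section

/-!
# Row 105, S0138, node E13 (ATN): `not_both` (helper948)

* `not_both_plane` : plane form, over 41's winding lemma
* `not_both_map`   : through an `EndMap`
* `conn_side`, `side_unbounded` : `{t < σ Re F}` is preconnected and unbounded in `U`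
* `not_both` : the two regions `O₁`, `O₂` at a point of a line through the solid `K0` of the picture
  of an anchor cannot both come back on the other side of `K0`
-/

set_option autoImplicit false

open MeasureTheory Set Filter Topology Metric
open scoped NNReal ENNReal ContDiff

namespace Crest.Agent.R105.Lop2_948

open Crest.AnalysisR Bd_775 IfB_641 Tc_808 Ni_459
open Crest.Agent.R105.Ends_897 (EndMap eF)
open Crest.Agent.R105.Sqr_185 (SqK)

/-- a connected open set contains a continuum through two given points -/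
theorem exists_cont {O : Set ℂ} (ho : IsOpen O) (hc : IsPreconnected O) {a b : ℂ} (ha : a ∈ O)
    (hb : b ∈ O) : ∃ K ⊆ O, IsCompact K ∧ IsPreconnected K ∧ a ∈ K ∧ b ∈ K := by
  have h1 : IsPathConnected O := (ho.isConnected_iff_isPathConnected).1 ⟨⟨a, ha⟩, hc⟩
  obtain ⟨γ, hγ⟩ := h1.joinedIn a ha b hb
  refine ⟨range γ, ?_, isCompact_range γ.continuous, isPreconnected_range γ.continuous,
    ⟨0, γ.source⟩, ⟨1, γ.target⟩⟩
  rintro _ ⟨s, rfl⟩
  exact hγ s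

/-- **plane form** -/
theorem not_both_plane {O₁ O₂ M K : Set ℂ} {p a b : ℂ} (ho₁ : IsOpen O₁) (hc₁ : IsPreconnected O₁)
    (ho₂ : IsOpen O₂) (hc₂ : IsPreconnected O₂)
    (h1 : ∀ z ∈ O₁, z.im = p.im → p.re < z.re) (h2 : ∀ z ∈ O₂, z.im = p.im → z.re < p.re)
    (ha₁ : a ∈ O₁) (ha₂ : a ∈ O₂) (hb₁ : b ∈ O₁) (hb₂ : b ∈ O₂)
    (har : a.re = p.re) (hbr : b.re = p.re) (hai : p.im < a.im) (hbi : b.im < p.im)
    (hK : IsPreconnected K) (hp : p ∈ K) (hM : IsPreconnected M)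
    (hMu : ¬ Bornology.IsBounded M) (hMK : (K ∩ closure M).Nonempty)
    (hK₁ : Disjoint K O₁) (hK₂ : Disjoint K O₂) (hM₁ : Disjoint M O₁) (hM₂ : Disjoint M O₂) :
    False := by
  obtain ⟨K₁, hs₁, hk₁, hp₁, haK₁, hbK₁⟩ := exists_cont ho₁ hc₁ ha₁ hb₁
  obtain ⟨K₂, hs₂, hk₂, hp₂, haK₂, hbK₂⟩ := exists_cont ho₂ hc₂ ha₂ hb₂
  obtain ⟨q, hqK, hqM⟩ := hMK
  have hM' : IsPreconnected (insert q M) :=
    hM.subset_closure (subset_insert q M) (insert_subset hqM subset_closure)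
  have hC : IsPreconnected (K ∪ insert q M) := hK.union q hqK (mem_insert q M) hM'
  refine Wnd_41.wind (M := K ∪ insert q M) hk₁ hk₂ hp₁ hp₂ (fun z hz => h1 z (hs₁ hz))
    (fun z hz => h2 z (hs₂ hz)) ⟨haK₁, haK₂⟩ ⟨hbK₁, hbK₂⟩ har hbr hai hbi hC (Or.inl hp)
    (fun hb => hMu (hb.subset ((subset_insert q M).trans subset_union_right))) ?_
  rw [disjoint_left]
  have hq₁ : ∀ z ∈ K ∪ insert q M, z ∉ O₁ := by
    rintro z (hz | hz | hz)
    · exact disjoint_left.1 hK₁ hz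
    · rw [hz]; exact disjoint_left.1 hK₁ hqK
    · exact disjoint_left.1 hM₁ hz
  have hq₂ : ∀ z ∈ K ∪ insert q M, z ∉ O₂ := by
    rintro z (hz | hz | hz)
    · exact disjoint_left.1 hK₂ hz
    · rw [hz]; exact disjoint_left.1 hK₂ hqK
    · exact disjoint_left.1 hM₂ hz
  rintro z hz (hz' | hz')
  · exact hq₁ z hz (hs₁ hz')
  · exact hq₂ z hz (hs₂ hz')

/-- accumulation goes through an `EndMap` -/
theorem closure_of_freq {U V : Set ℂ} {P : ℂ → ℂ} {z₀ p : ℂ}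
    (ht : Tendsto P (eF U z₀) (eF V p)) {M : Set ℂ} (hMf : ∃ᶠ z in eF U z₀, z ∈ M) :
    (connectedComponentIn Vᶜ p ∩ closure (P '' M)).Nonempty := by
  by_contra hcon
  rw [not_nonempty_iff_eq_empty, ← disjoint_iff_inter_eq_empty] at hcon
  have h1 : (closure (P '' M))ᶜ ∈ 𝓝ˢ (connectedComponentIn Vᶜ p) :=
    isClosed_closure.isOpen_compl.mem_nhdsSet.2 fun z hz hz' => disjoint_left.1 hcon hz hz'
  have h2 : ∀ᶠ w in eF V p, w ∈ (closure (P '' M))ᶜ := mem_inf_of_left h1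
  have h3 := ht.eventually h2
  exact hMf (h3.mono fun z hz hzM => hz (subset_closure (mem_image_of_mem P hzM)))

theorem unbounded_image {U V : Set ℂ} {P : ℂ → ℂ} (hP : EndMap U V P) {M : Set ℂ} (hMU : M ⊆ U)
    (hMu : ¬ Bornology.IsBounded M) : ¬ Bornology.IsBounded (P '' M) := by
  intro hb
  obtain ⟨R, hR⟩ := hb.exists_norm_le
  obtain ⟨ρ, hρ⟩ := hP.symm.bdd R
  refine hMu ((isBounded_closedBall (x := (0 : ℂ)) (r := ρ)).subset fun z hz => ?_)
  rw [mem_closedBall_zero_iff]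
  have h1 := hρ (P z) (hP.mapsTo (hMU hz)) (hR _ (mem_image_of_mem P hz))
  rwa [hP.inv_left (hMU hz)] at h1

/-- **through an `EndMap`**: `M ⊆ U` connected, unbounded, accumulating at the component of `z₀`;
`O₁`, `O₂` are open connected sets of the `P`-plane off the component of `p` -/
theorem not_both_map {U V : Set ℂ} {P : ℂ → ℂ} (hP : EndMap U V P) {z₀ p : ℂ} (hp : p ∉ V)
    (ht : Tendsto P (eF U z₀) (eF V p)) {M : Set ℂ} (hMU : M ⊆ U) (hM : IsPreconnected M)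
    (hMu : ¬ Bornology.IsBounded M) (hMf : ∃ᶠ z in eF U z₀, z ∈ M)
    {O₁ O₂ : Set ℂ} {a b : ℂ} (ho₁ : IsOpen O₁) (hc₁ : IsPreconnected O₁)
    (ho₂ : IsOpen O₂) (hc₂ : IsPreconnected O₂)
    (h1 : ∀ z ∈ O₁, z.im = p.im → p.re < z.re) (h2 : ∀ z ∈ O₂, z.im = p.im → z.re < p.re)
    (ha₁ : a ∈ O₁) (ha₂ : a ∈ O₂) (hb₁ : b ∈ O₁) (hb₂ : b ∈ O₂)
    (har : a.re = p.re) (hbr : b.re = p.re) (hai : p.im < a.im) (hbi : b.im < p.im)
    (hK₁ : Disjoint (connectedComponentIn Vᶜ p) O₁)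
    (hK₂ : Disjoint (connectedComponentIn Vᶜ p) O₂)
    (hM₁ : Disjoint (P '' M) O₁) (hM₂ : Disjoint (P '' M) O₂) : False :=
  not_both_plane ho₁ hc₁ ho₂ hc₂ h1 h2 ha₁ ha₂ hb₁ hb₂ har hbr hai hbi
    isPreconnected_connectedComponentIn (mem_connectedComponentIn hp)
    (hM.image P (hP.cont.mono hMU)) (unbounded_image hP hMU hMu) (closure_of_freq ht hMf)
    hK₁ hK₂ hM₁ hM₂

/-- the position of `O₁`, `O₂` with respect to the square -/
theorem pos_of_sq {K : Set ℂ} {A B S : ℝ} (hQ : SqK K A B S) {p : ℂ} (hp1 : A ≤ p.re)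
    (hp2 : p.re ≤ A + S) (hp3 : p.im ∈ Icc B (B + S)) {O₁ O₂ : Set ℂ} (hK₁ : Disjoint K O₁)
    (hK₂ : Disjoint K O₂) (hr₁ : ∀ z ∈ O₁, A ≤ z.re) (hr₂ : ∀ z ∈ O₂, z.re ≤ A + S) :
    (∀ z ∈ O₁, z.im = p.im → p.re < z.re) ∧ ∀ z ∈ O₂, z.im = p.im → z.re < p.re := by
  constructor
  · intro z hz hzp
    by_contra hcon
    refine disjoint_left.1 hK₁ (hQ.sub z ⟨hr₁ z hz, ?_⟩ (hzp ▸ hp3)) hz
    exact (not_lt.1 hcon).trans hp2
  · intro z hz hzp
    by_contra hcon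
    refine disjoint_left.1 hK₂ (hQ.sub z ⟨?_, hr₂ z hz⟩ (hzp ▸ hp3)) hz
    exact hp1.trans (not_lt.1 hcon)

/-! ### the sides of the final map -/

section sides

variable {Y : Set ℂ} {x0 φ : ℂ → ℝ} {a : ℕ → ℂ → ℝ} {F : ℂ → ℂ}

/-- `{t < σ Re F}` is connected -/
theorem conn_side (h : SkA_8.Pk Y x0 a φ F) {σ : ℝ} (hσ : σ = 1 ∨ σ = -1) (t : ℝ) :
    IsPreconnected {z | z ∈ Yᶜ ∧ t < σ * (F z).re} := by
  refine Uw_913.preconn_of_unbounded h.hY.1 ?_ h.hol h.inf hσ fun z hz ht =>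
    Uw6_913.unbounded h hσ hz ht
  exact (Ends_897.isCompact_compl h.hY).isBounded

/-- `{t < σ Re F}` is unbounded -/
theorem unb_side (h : SkA_8.Pk Y x0 a φ F) {σ : ℝ} (hσ : σ = 1 ∨ σ = -1) {t : ℝ}
    (hne : ∃ z ∈ Yᶜ, t < σ * (F z).re) :
    ¬ Bornology.IsBounded {z | z ∈ Yᶜ ∧ t < σ * (F z).re} := by
  obtain ⟨z, hz, ht⟩ := hne
  exact fun hb => Uw6_913.unbounded h hσ hz ht (hb.subset (connectedComponentIn_subset _ _))

end sides


/-- **`not_both`**: `K0` = component of `p` in the picture of the anchor (`P`-plane), `[A,A+S] x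
[B,B+S]` its square, `p` a point of the square; `F` final map, `Re F < σ t` somewhere arbitrarily
near the solid; `O₁`, `O₂` open connected sets of the `P`-plane off `K0` and off
`{t < σ Re F}`, `O₁` in `{A ≤ re}`, `O₂` in `{re ≤ A + S}`. They cannot both contain a point
`a` above `p` and a point `b` below `p` on the line `re = re p`. -/
theorem not_both {Y : Set ℂ} {x0 φ : ℂ → ℝ} {a : ℕ → ℂ → ℝ} {F P : ℂ → ℂ} {V : Set ℂ}
    (h : SkA_8.Pk Y x0 a φ F) (hP : EndMap Yᶜ V P) {z₀ p : ℂ} (hp : p ∉ V)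
    (ht : Tendsto P (eF Yᶜ z₀) (eF V p)) {A B S : ℝ}
    (hQ : SqK (connectedComponentIn Vᶜ p) A B S) (hp1 : A ≤ p.re)
    (hp2 : p.re ≤ A + S) (hp3 : p.im ∈ Icc B (B + S)) {σ t : ℝ} (hσ : σ = 1 ∨ σ = -1)
    (hMf : ∃ᶠ z in eF Yᶜ z₀, t < σ * (F z).re)
    {O₁ O₂ : Set ℂ} {c d : ℂ} (ho₁ : IsOpen O₁) (hc₁ : IsPreconnected O₁)
    (ho₂ : IsOpen O₂) (hc₂ : IsPreconnected O₂)
    (hr₁ : ∀ z ∈ O₁, A ≤ z.re) (hr₂ : ∀ z ∈ O₂, z.re ≤ A + S)
    (ha₁ : c ∈ O₁) (ha₂ : c ∈ O₂) (hb₁ : d ∈ O₁) (hb₂ : d ∈ O₂)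
    (har : c.re = p.re) (hbr : d.re = p.re) (hai : p.im < c.im) (hbi : d.im < p.im)
    (hK₁ : Disjoint (connectedComponentIn Vᶜ p) O₁)
    (hK₂ : Disjoint (connectedComponentIn Vᶜ p) O₂)
    (hM₁ : ∀ z ∈ Yᶜ, t < σ * (F z).re → P z ∉ O₁)
    (hM₂ : ∀ z ∈ Yᶜ, t < σ * (F z).re → P z ∉ O₂) : False := by
  obtain ⟨h1, h2⟩ := pos_of_sq hQ hp1 hp2 hp3 hK₁ hK₂ hr₁ hr₂
  have hMf' : ∃ᶠ z in eF Yᶜ z₀, z ∈ {z | z ∈ Yᶜ ∧ t < σ * (F z).re} := by
    have h3 : ∀ᶠ z in eF Yᶜ z₀, z ∈ Yᶜ := mem_inf_of_right (mem_principal_self _)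
    exact (hMf.and_eventually h3).mono fun z hz => ⟨hz.2, hz.1⟩
  obtain ⟨z, hz⟩ := hMf'.exists
  refine not_both_map hP hp ht (M := {z | z ∈ Yᶜ ∧ t < σ * (F z).re}) (fun z hz => hz.1)
    (conn_side h hσ t) (unb_side h hσ ⟨z, hz.1, hz.2⟩) hMf' ho₁ hc₁ ho₂ hc₂ h1 h2 ha₁ ha₂ hb₁ hb₂
    har hbr hai hbi hK₁ hK₂ ?_ ?_
  · rw [disjoint_left]
    rintro _ ⟨z, hz, rfl⟩
    exact hM₁ z hz.1 hz.2
  · rw [disjoint_left]
    rintro _ ⟨z, hz, rfl⟩
    exact hM₂ z hz.1 hz.2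



end Crest.Agent.R105.Lop2_948
end

-- ▼ part R105/Atl2_948
section

/-!
# Row 105, S0138, node E13: ATNE from PTW, part 2: the data of the two pictures (helper948)

* `Th ex q1 q2` : the step, `rmp_Th : Rmp`
* `xP` : `Re F` in the picture of the anchor; `LB`, continuity, `Σ osc²`
* `mz`, `mP` : the function of the quadrant in the two planes
* `neBot_top`, `neBot_bot` : the ends are real ends
* `freq_side` : points of `{ex Re F < ex q}` near the solid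
-/

set_option autoImplicit false

open MeasureTheory Set Filter Topology Metric
open scoped NNReal ENNReal ContDiff

namespace Crest.Agent.R105.Atl_948

open Crest.AnalysisR (IsExteriorDomain)
open Ni_459 (LB Nb nb_of_mem nb_of_notMem isOpen_lt_lo lo_congr_cc lo_of_notMem le_lo
  exists_gt_of_lt_lo exists_lt_of_up_lt cpt_of)
open Tc_808 Bd_775 Ends_897
open Pct_185 (PicT)
open Sqr_185 (sec SqK)
open Ta_937 (corE map_corE eK_mem)
open E13_499 (Stp Rmp cF pu TopF BotF)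

/-! ### the step -/

/-- the step: `0 → 1` (`ex = 1`) or `1 → 0` (`ex = -1`) on `[q1, q2]` -/
noncomputable def Th (ex q1 q2 x : ℝ) : ℝ :=
  Real.smoothTransition (1 / 2 + ex * (x - (q1 + q2) / 2) / (q2 - q1))

section Th
variable {ex q1 q2 x : ℝ}

theorem Th_mem (ex q1 q2 x : ℝ) : 0 ≤ Th ex q1 q2 x ∧ Th ex q1 q2 x ≤ 1 :=
  ⟨Real.smoothTransition.nonneg _, Real.smoothTransition.le_one _⟩

theorem Th_smooth (ex q1 q2 : ℝ) : ContDiff ℝ (⊤ : ℕ∞) (Th ex q1 q2) := by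
  unfold Th
  refine Real.smoothTransition.contDiff.comp ?_
  fun_prop

theorem Th_arg (hq : q1 < q2) :
    1 / 2 + ex * (x - (q1 + q2) / 2) / (q2 - q1) =
      (ex * x + ((q2 - q1) - ex * (q1 + q2)) / 2) / (q2 - q1) := by
  have : q2 - q1 ≠ 0 := by linarith [sub_pos.2 hq]
  field_simp
  ring

theorem Th_one_pos (hq : q1 < q2) : (0 < Th 1 q1 q2 x → q1 < x) ∧ (x ≤ q1 → Th 1 q1 q2 x = 0) ∧
    (q2 ≤ x → Th 1 q1 q2 x = 1) := by
  have h0 : 0 < q2 - q1 := sub_pos.2 hq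
  have harg : 1 / 2 + 1 * (x - (q1 + q2) / 2) / (q2 - q1) = (x - q1) / (q2 - q1) := by
    rw [Th_arg hq]; congr 1; ring
  have h1 : x ≤ q1 → Th 1 q1 q2 x = 0 := by
    intro h
    unfold Th
    rw [harg]
    exact Real.smoothTransition.zero_of_nonpos (div_nonpos_of_nonpos_of_nonneg (by linarith) h0.le)
  refine ⟨fun h => ?_, h1, fun h => ?_⟩
  · by_contra hcon
    rw [h1 (not_lt.1 hcon)] at h
    exact lt_irrefl _ h
  · unfold Th
    rw [harg]
    exact Real.smoothTransition.one_of_one_le ((one_le_div h0).2 (by linarith))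

theorem Th_neg_pos (hq : q1 < q2) : (0 < Th (-1) q1 q2 x → x < q2) ∧
    (q2 ≤ x → Th (-1) q1 q2 x = 0) ∧ (x ≤ q1 → Th (-1) q1 q2 x = 1) := by
  have h0 : 0 < q2 - q1 := sub_pos.2 hq
  have harg : 1 / 2 + (-1) * (x - (q1 + q2) / 2) / (q2 - q1) = (q2 - x) / (q2 - q1) := by
    rw [Th_arg hq]; congr 1; ring
  have h1 : q2 ≤ x → Th (-1) q1 q2 x = 0 := by
    intro h
    unfold Th
    rw [harg]
    exact Real.smoothTransition.zero_of_nonpos (div_nonpos_of_nonpos_of_nonneg (by linarith) h0.le)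
  refine ⟨fun h => ?_, h1, fun h => ?_⟩
  · by_contra hcon
    rw [h1 (not_lt.1 hcon)] at h
    exact lt_irrefl _ h
  · unfold Th
    rw [harg]
    exact Real.smoothTransition.one_of_one_le ((one_le_div h0).2 (by linarith))


theorem Th_mono (hq : q1 < q2) : Monotone (Th 1 q1 q2) := by
  intro x y hxy
  unfold Th
  refine Real.smoothTransition.monotone ?_
  have h0 : 0 < q2 - q1 := sub_pos.2 hq
  have : 1 * (x - (q1 + q2) / 2) / (q2 - q1) ≤ 1 * (y - (q1 + q2) / 2) / (q2 - q1) := by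
    apply div_le_div_of_nonneg_right _ h0.le
    linarith
  linarith

theorem Th_anti (hq : q1 < q2) : Antitone (Th (-1) q1 q2) := by
  intro x y hxy
  unfold Th
  refine Real.smoothTransition.monotone ?_
  have h0 : 0 < q2 - q1 := sub_pos.2 hq
  have : (-1) * (y - (q1 + q2) / 2) / (q2 - q1) ≤ (-1) * (x - (q1 + q2) / 2) / (q2 - q1) := by
    apply div_le_div_of_nonneg_right _ h0.le
    linarith
  linarith

/-- off `[q1, q2]` the derivative vanishes -/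
theorem Th_deriv (hex : ex = 1 ∨ ex = -1) (hq : q1 < q2) (hx : x ∉ Icc q1 q2) :
    deriv (Th ex q1 q2) x = 0 := by
  have key : ∀ c, (∀ᶠ y in 𝓝 x, Th ex q1 q2 y = c) → deriv (Th ex q1 q2) x = 0 := by
    intro c hc
    have : Th ex q1 q2 =ᶠ[𝓝 x] fun _ => c := hc
    rw [this.deriv_eq, deriv_const]
  rcases lt_or_ge x q1 with h | h
  · have h1 : ∀ᶠ y in 𝓝 x, y < q1 := gt_mem_nhds h
    rcases hex with rfl | rfl
    · exact key 0 (h1.mono fun y hy => (Th_one_pos hq).2.1 hy.le)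
    · exact key 1 (h1.mono fun y hy => (Th_neg_pos hq).2.2 hy.le)
  · have h2 : q2 < x := by
      by_contra hcon
      exact hx ⟨h, not_lt.1 hcon⟩
    have h1 : ∀ᶠ y in 𝓝 x, q2 < y := lt_mem_nhds h2
    rcases hex with rfl | rfl
    · exact key 1 (h1.mono fun y hy => (Th_one_pos hq).2.2 hy.le)
    · exact key 0 (h1.mono fun y hy => (Th_neg_pos hq).2.1 hy.le)

theorem stp_Th (hex : ex = 1 ∨ ex = -1) (hq : q1 < q2) : Stp (Th ex q1 q2) where
  smooth := Th_smooth ex q1 q2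
  rg := Th_mem ex q1 q2
  supp := HasCompactSupport.intro (isCompact_Icc (a := q1) (b := q2)) fun _ hx =>
    Th_deriv hex hq hx

theorem rmp_Th {l h : ℝ} (hex : ex = 1 ∨ ex = -1) (hq : q1 < q2) (hl : l < q1) (hh : q2 < h) :
    Rmp (Th ex q1 q2) l h ex where
  st := stp_Th hex hq
  mono := by
    intro σ
    rcases hex with rfl | rfl
    · rw [one_mul]; exact (Th_mono hq).deriv_nonneg
    · have h1 : Monotone fun x => - Th (-1) q1 q2 x := fun x y hxy => neg_le_neg (Th_anti hq hxy)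
      have h2 := h1.deriv_nonneg (x := σ)
      rw [deriv.fun_neg] at h2
      linarith
  supp := by
    intro σ hσ
    by_contra hcon
    apply hσ
    refine Th_deriv hex hq fun h1 => hcon ⟨?_, ?_⟩
    · linarith [h1.1]
    · linarith [h1.2]
  sg := by
    rcases hex with rfl | rfl
    · exact Or.inl ⟨rfl, (Th_one_pos hq).2.1 hl.le, (Th_one_pos hq).2.2 hh.le⟩
    · exact Or.inr ⟨rfl, (Th_neg_pos hq).2.2 hl.le, (Th_neg_pos hq).2.1 hh.le⟩

end Th

/-! ### `Re F` in the picture of the anchor -/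

section pic

variable {Y : Set ℂ} {x0 φ A : ℂ → ℝ} {a b : ℕ → ℂ → ℝ} {F P : ℂ → ℂ}

/-- `Re F` in the picture `P` -/
noncomputable def xP (hi : SkA_8.Pk Y x0 b A P) (F : ℂ → ℂ) : ℂ → ℝ :=
  (P '' Yᶜ).indicator fun ζ => (F ((Uw6_913.endMap hi).inv ζ)).re

theorem xP_apply (hi : SkA_8.Pk Y x0 b A P) (F : ℂ → ℂ) {z : ℂ} (hz : z ∉ Y) :
    xP hi F (P z) = (F z).re := by
  unfold xP
  rw [indicator_of_mem (mem_image_of_mem P hz), (Uw6_913.endMap hi).inv_left hz]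

theorem xP_pu (hi : SkA_8.Pk Y x0 b A P) (F : ℂ → ℂ) {ζ : ℂ} (hζ : ζ ∉ (P '' Yᶜ)ᶜ) :
    xP hi F ζ = pu hi (fun z => (F z).re) ζ := by
  unfold xP
  rw [indicator_of_mem (not_not.1 hζ)]
  rfl

theorem lb_xP (h : SkA_8.Pk Y x0 a φ F) (hi : SkA_8.Pk Y x0 b A P) : LB (xP hi F) := by
  intro R
  obtain ⟨ρ, hρ⟩ := (Uw6_913.endMap hi).symm.bdd R
  obtain ⟨ρ', hρ'⟩ := (Uw6_913.endMap h).bdd ρ
  refine ⟨max ρ' 0, fun ζ hζ => ?_⟩
  by_cases hV : ζ ∈ P '' Yᶜ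
  · unfold xP
    rw [indicator_of_mem hV]
    refine (Complex.abs_re_le_norm _).trans ((hρ' _ ?_ ?_).trans (le_max_left _ _))
    · exact (Uw6_913.endMap hi).inv_mem hV
    · exact hρ ζ hV hζ
  · unfold xP
    rw [indicator_of_notMem hV, abs_zero]
    exact le_max_right _ _

theorem cont_xP (h : SkA_8.Pk Y x0 a φ F) (hi : SkA_8.Pk Y x0 b A P) :
    ContinuousOn (xP hi F) (P '' Yᶜ) := by
  have h1 : ContinuousOn (fun ζ => (F ((Uw6_913.endMap hi).inv ζ)).re) (P '' Yᶜ) := by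
    refine Complex.continuous_re.comp_continuousOn ?_
    exact h.hol.continuousOn.comp (Uw6_913.endMap hi).symm.cont
      fun ζ hζ => (Uw6_913.endMap hi).inv_mem hζ
  refine h1.congr fun ζ hζ => ?_
  unfold xP
  rw [indicator_of_mem hζ]

/-- `osc` of `Re F` in the picture -/
theorem osc_xP (h : SkA_8.Pk Y x0 a φ F) (hi : SkA_8.Pk Y x0 b A P) (K : Cmp Yᶜᶜ) :
    osc (P '' Yᶜ)ᶜ (xP hi F) (corE (Uw6_913.endMap hi) K).1 = osc Yᶜᶜ φ K.1 := by
  rw [← Ta_937.osc_comp]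
  have hKY : K.1 ⊆ Y := K.subset.trans (compl_compl Y).subset
  refine osc_congr (O := (tsupport x0)ᶜ) (isClosed_tsupport x0).isOpen_compl
    (fun z hz hc => h.hx.zero hc (hKY hz)) fun z hz hzU => ?_
  have hzY : z ∉ Y := by rwa [compl_compl] at hzU
  show xP hi F (P z) = φ z
  rw [xP_apply hi F hzY, h.re z hzY, image_eq_zero_of_notMem_tsupport hz, zero_add]

theorem sum_of_cor {E' : Set ℂ} {U V : Set ℂ} {f : ℂ → ℂ} (hP : EndMap U V f) {u v : ℂ → ℝ}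
    (hE' : E' = Uᶜ) (hs : Summable fun K : Cmp E' => osc E' v K.1 ^ 2)
    (ho : ∀ K : Cmp Uᶜ, osc Vᶜ u (corE hP K).1 = osc Uᶜ v K.1) :
    Summable fun L : Cmp Vᶜ => osc Vᶜ u L.1 ^ 2 := by
  subst hE'
  rw [← (corE hP).summable_iff]
  refine hs.congr fun K => ?_
  simp only [Function.comp]
  rw [ho K]

theorem sum_xP (h : SkA_8.Pk Y x0 a φ F) (hi : SkA_8.Pk Y x0 b A P) :
    Summable fun L : Cmp (P '' Yᶜ)ᶜ => osc (P '' Yᶜ)ᶜ (xP hi F) L.1 ^ 2 :=
  sum_of_cor (Uw6_913.endMap hi) (compl_compl Y).symm h.tt.sum (osc_xP h hi)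

theorem sum_re (hi : SkA_8.Pk Y x0 b A P) :
    Summable fun L : Cmp (P '' Yᶜ)ᶜ => osc (P '' Yᶜ)ᶜ (fun w => w.re) L.1 ^ 2 := by
  have h1 := (Uw6_913.picT hi).2
  refine h1.sum.congr fun L => ?_
  rw [Sqr_185.osc_re h1.cpt]
  rfl

/-! ### the function of the quadrant -/

/-- in the `z`-plane -/
noncomputable def mz (x0 A φ : ℂ → ℝ) (eu t0 : ℝ) (θ : ℝ → ℝ) (z : ℂ) : ℝ :=
  min (eu * (x0 z + A z - t0)) (θ (x0 z + φ z))

/-- in the picture of the anchor -/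
noncomputable def mP (hi : SkA_8.Pk Y x0 b A P) (F : ℂ → ℂ) (eu t0 : ℝ) (θ : ℝ → ℝ) (ζ : ℂ) : ℝ :=
  min (eu * (ζ.re - t0)) (θ (xP hi F ζ))

theorem mP_apply (h : SkA_8.Pk Y x0 a φ F) (hi : SkA_8.Pk Y x0 b A P) (eu t0 : ℝ) (θ : ℝ → ℝ)
    {z : ℂ} (hz : z ∉ Y) : mP hi F eu t0 θ (P z) = mz x0 A φ eu t0 θ z := by
  unfold mP mz
  rw [xP_apply hi F hz, h.re z hz, hi.re z hz]

theorem lb_mP (hi : SkA_8.Pk Y x0 b A P) (F : ℂ → ℂ) (eu t0 : ℝ) {θ : ℝ → ℝ}
    (hθ : ∀ t, 0 ≤ θ t ∧ θ t ≤ 1) : LB (mP hi F eu t0 θ) := by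
  intro R
  refine ⟨|eu| * (R + |t0|) + 1, fun ζ hζ => ?_⟩
  unfold mP
  have h1 : |eu * (ζ.re - t0)| ≤ |eu| * (R + |t0|) := by
    rw [abs_mul]
    refine mul_le_mul_of_nonneg_left ?_ (abs_nonneg _)
    have h2 := abs_sub ζ.re t0
    have h3 := (Complex.abs_re_le_norm ζ).trans hζ
    linarith
  have h4 := hθ (xP hi F ζ)
  have h5 := abs_le.1 h1
  rw [abs_le]
  rcases min_cases (eu * (ζ.re - t0)) (θ (xP hi F ζ)) with ⟨h6, h7⟩ | ⟨h6, h7⟩
  · rw [h6]; constructor <;> linarith [h5.1, h5.2]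
  · rw [h6]; constructor <;> linarith [h5.1, h5.2, h4.1, h4.2]

theorem cont_mP (h : SkA_8.Pk Y x0 a φ F) (hi : SkA_8.Pk Y x0 b A P) (eu t0 : ℝ) {θ : ℝ → ℝ}
    (hθ : Continuous θ) : ContinuousOn (mP hi F eu t0 θ) (P '' Yᶜ) := by
  have h1 : ContinuousOn (fun ζ : ℂ => eu * (ζ.re - t0)) (P '' Yᶜ) :=
    (continuous_const.mul (Complex.continuous_re.sub continuous_const)).continuousOn
  have h2 : ContinuousOn (fun ζ : ℂ => θ (xP hi F ζ)) (P '' Yᶜ) :=
    hθ.comp_continuousOn (cont_xP h hi)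
  exact continuous_min.comp_continuousOn (h1.prodMk h2)

end pic

/-! ### the ends are real ends -/

theorem exists_off_top {E : Set ℂ} (hE : IsCompact E) (L : Cmp E) {t : ℝ}
    (hne : (sec L.1 t).Nonempty) {η : ℝ} (hη : 0 < η) :
    ∃ v ∈ Ioo (sSup (sec L.1 t)) (sSup (sec L.1 t) + η), (⟨t, v⟩ : ℂ) ∉ E := by
  by_contra hcon
  push Not at hcon
  have hc := Sqr_185.isCompact_sec (L.isCompact hE) t
  have hm : sSup (sec L.1 t) ∈ sec L.1 t := hc.sSup_mem hne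
  have hcont : Continuous fun y : ℝ => (⟨t, y⟩ : ℂ) := Sqr_185.continuous_mk_right t
  have h1 : IsPreconnected ((fun y : ℝ => (⟨t, y⟩ : ℂ)) ''
      Ico (sSup (sec L.1 t)) (sSup (sec L.1 t) + η)) :=
    isPreconnected_Ico.image _ hcont.continuousOn
  have h2 : (fun y : ℝ => (⟨t, y⟩ : ℂ)) '' Ico (sSup (sec L.1 t)) (sSup (sec L.1 t) + η) ⊆ E := by
    rintro _ ⟨y, hy, rfl⟩
    rcases hy.1.eq_or_lt with h | h
    · rw [← h]; exact L.subset hm
    · exact hcon y ⟨h, hy.2⟩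
  have h3 := h1.subset_connectedComponentIn (x := (⟨t, sSup (sec L.1 t)⟩ : ℂ))
    ⟨sSup (sec L.1 t), ⟨le_rfl, by linarith⟩, rfl⟩ h2
  rw [Ni_459.Cmp.cc_eq L hm] at h3
  have h4 : sSup (sec L.1 t) + η / 2 ∈ sec L.1 t :=
    h3 ⟨_, ⟨by linarith, by linarith⟩, rfl⟩
  have := le_csSup hc.bddAbove h4
  linarith

theorem exists_off_bot {E : Set ℂ} (hE : IsCompact E) (L : Cmp E) {t : ℝ}
    (hne : (sec L.1 t).Nonempty) {η : ℝ} (hη : 0 < η) :
    ∃ v ∈ Ioo (sInf (sec L.1 t) - η) (sInf (sec L.1 t)), (⟨t, v⟩ : ℂ) ∉ E := by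
  by_contra hcon
  push Not at hcon
  have hc := Sqr_185.isCompact_sec (L.isCompact hE) t
  have hm : sInf (sec L.1 t) ∈ sec L.1 t := hc.sInf_mem hne
  have hcont : Continuous fun y : ℝ => (⟨t, y⟩ : ℂ) := Sqr_185.continuous_mk_right t
  have h1 : IsPreconnected ((fun y : ℝ => (⟨t, y⟩ : ℂ)) ''
      Ioc (sInf (sec L.1 t) - η) (sInf (sec L.1 t))) :=
    isPreconnected_Ioc.image _ hcont.continuousOn
  have h2 : (fun y : ℝ => (⟨t, y⟩ : ℂ)) '' Ioc (sInf (sec L.1 t) - η) (sInf (sec L.1 t)) ⊆ E := by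
    rintro _ ⟨y, hy, rfl⟩
    rcases hy.2.eq_or_lt with h | h
    · rw [h]; exact L.subset hm
    · exact hcon y ⟨hy.1, h⟩
  have h3 := h1.subset_connectedComponentIn (x := (⟨t, sInf (sec L.1 t)⟩ : ℂ))
    ⟨sInf (sec L.1 t), ⟨by linarith, le_rfl⟩, rfl⟩ h2
  rw [Ni_459.Cmp.cc_eq L hm] at h3
  have h4 : sInf (sec L.1 t) - η / 2 ∈ sec L.1 t :=
    h3 ⟨_, ⟨by linarith, by linarith⟩, rfl⟩
  have := csInf_le hc.bddBelow h4
  linarith

theorem neBot_top {E : Set ℂ} (hE : IsCompact E) (L : Cmp E) {t : ℝ}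
    (hne : (sec L.1 t).Nonempty) : (TopF E L.1 t).NeBot := by
  unfold TopF
  rw [← mem_closure_iff_nhdsWithin_neBot, Metric.mem_closure_iff]
  intro ε hε
  obtain ⟨v, hv, hvE⟩ := exists_off_top hE L hne hε
  refine ⟨v, ⟨hvE, hv.1⟩, ?_⟩
  rw [Real.dist_eq, abs_lt]
  constructor <;> linarith [hv.1, hv.2]

theorem neBot_bot {E : Set ℂ} (hE : IsCompact E) (L : Cmp E) {t : ℝ}
    (hne : (sec L.1 t).Nonempty) : (BotF E L.1 t).NeBot := by
  unfold BotF
  rw [← mem_closure_iff_nhdsWithin_neBot, Metric.mem_closure_iff]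
  intro ε hε
  obtain ⟨v, hv, hvE⟩ := exists_off_bot hE L hne hε
  refine ⟨v, ⟨hvE, hv.2⟩, ?_⟩
  rw [Real.dist_eq, abs_lt]
  constructor <;> linarith [hv.1, hv.2]

/-! ### points of a side near the solid -/

/-- near a component of a picture there are points on each side of an interior abscissa -/
theorem freq_pic {E : Set ℂ} (L : Cmp E) {p : ℂ} (hp : p ∈ L.1) (hcl : p ∈ closure Eᶜ) {ex q : ℝ}
    (hpq : ex * p.re < ex * q) : ∃ᶠ w in eK E L.1, ex * w.re < ex * q := by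
  intro hcon
  obtain ⟨O, hO, hLO, h1⟩ := mem_eK.1 hcon
  have hop : IsOpen (O ∩ {w : ℂ | ex * w.re < ex * q}) :=
    hO.inter (isOpen_lt (continuous_const.mul Complex.continuous_re) continuous_const)
  obtain ⟨w, ⟨hw1, hw2⟩, hw3⟩ := mem_closure_iff.1 hcl _ hop ⟨hLO hp, hpq⟩
  exact h1 w hw1 hw3 hw2

theorem freq_side {Y : Set ℂ} {x0 φ : ℂ → ℝ} {a : ℕ → ℂ → ℝ} {F : ℂ → ℂ}
    (h : SkA_8.Pk Y x0 a φ F) (K : Cmp Yᶜᶜ) {ex q : ℝ} (hex : ex = 1 ∨ ex = -1)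
    (hl : Sqr_185.lo (cF h K).1 < q) (hh : q < Sqr_185.hi (cF h K).1) :
    ∃ᶠ z in eK Yᶜᶜ K.1, ex * (F z).re < ex * q := by
  have hE : IsCompact (F '' Yᶜ)ᶜ := (Uw6_913.picT h).2.cpt
  have hc := (cF h K).isCompact hE
  have key : ∃ᶠ w in eK (F '' Yᶜ)ᶜ (cF h K).1, ex * w.re < ex * q := by
    rcases hex with rfl | rfl
    · obtain ⟨p, hp, h1⟩ := Sqr_185.exists_lo hc (cF h K).nonempty
      refine freq_pic _ hp (Sqr_185.lo_mem_closure _ hp fun w hw => ?_) (by linarith)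
      rw [h1]; exact Sqr_185.lo_le hc hw
    · obtain ⟨p, hp, h1⟩ := Sqr_185.exists_hi hc (cF h K).nonempty
      refine freq_pic _ hp (Sqr_185.hi_mem_closure _ hp fun w hw => ?_) (by linarith)
      rw [h1]; exact Sqr_185.le_hi hc hw
  unfold cF at key
  rwa [← map_corE, frequently_map] at key

end Crest.Agent.R105.Atl_948
end

-- ▼ part R105/Atl3_948

/-!
# Row 105, S0138, node E13: ATNE from PTW, part 3: the logic (helper948)

`atne (hPTW : E13_499.PTW) : E13_499.ATNE`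
-/

set_option autoImplicit false

open MeasureTheory Set Filter Topology Metric
open scoped NNReal ENNReal ContDiff

namespace Crest.Agent.R105.Atl_948

open Crest.AnalysisR (IsExteriorDomain)
open Ni_459 (LB Nb nb_of_mem nb_of_notMem isOpen_lt_lo lo_congr_cc lo_of_notMem le_lo
  exists_gt_of_lt_lo exists_lt_of_up_lt cpt_of)
open Tc_808 Bd_775 Ends_897
open Pct_185 (PicT)
open Sqr_185 (sec SqK)
open Ta_937 (corE map_corE eK_mem)
open E13_499 (Stp Rmp cF pu TopF BotF InT InB PTW ATNE Ed Uc)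

/-! ### elementary -/

theorem arith_one {e y be s lT lB n m y' : ℝ} (he : e = 1 ∨ e = -1) (hT : lT ∈ Icc (0 : ℝ) 1)
    (hB : lB ∈ Icc (0 : ℝ) 1) (hn : n = 1) (hm : m = 0)
    (h1 : e * (n - m) + lT - lB = 0)
    (h2 : e * (n * y - m * y') + lT * (be + s) - lB * be ∈ Icc 0 s) : y ∈ Icc be (be + s) := by
  subst hn hm
  obtain ⟨h3, h4⟩ := h2
  rcases he with rfl | rfl
  · have hB1 : lB = 1 := by linarith [hT.1, hB.2]
    have hT0 : lT = 0 := by linarith [hT.1, hB.2]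
    subst hB1 hT0
    constructor <;> linarith
  · have hT1 : lT = 1 := by linarith [hT.2, hB.1]
    have hB0 : lB = 0 := by linarith [hT.2, hB.1]
    subst hT1 hB0
    constructor <;> linarith

theorem arith_two {e y be s lT lB n m y' : ℝ} (he : e = 1 ∨ e = -1) (hT : lT ∈ Icc (0 : ℝ) 1)
    (hB : lB ∈ Icc (0 : ℝ) 1) (hn : n = 1) (hm : m = 0)
    (h1 : e * (m - n) + lT - lB = 0)
    (h2 : e * (m * y' - n * y) + lT * (be + s) - lB * be ∈ Icc 0 s) : y ∈ Icc be (be + s) := by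
  refine arith_one (e := -e) (y' := y') (n := n) (m := m) ?_ hT hB hn hm ?_ ?_
  · rcases he with rfl | rfl <;> norm_num
  · linear_combination h1
  · have h3 : -e * (n * y - m * y') + lT * (be + s) - lB * be =
        e * (m * y' - n * y) + lT * (be + s) - lB * be := by ring
    rw [h3]; exact h2

/-- choice of the step -/
theorem choose_step {l h x x' : ℝ} (hlh : l < h) : ∃ ex : ℝ, (ex = 1 ∨ ex = -1) ∧ ∃ q1 q2 : ℚ,
    (q1 : ℝ) < q2 ∧ l < q1 ∧ (q2 : ℝ) < h ∧ Th ex q1 q2 x = 1 ∧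
    (Th ex q1 q2 x' = 0 ∨ Th ex q1 q2 x' = 1) := by
  rcases lt_or_ge l x with hx | hx
  · have hc : l < min x h := lt_min hx hlh
    by_cases h1 : l < x' ∧ x' < min x h
    · obtain ⟨q1, hq1, hq1'⟩ := exists_rat_btwn h1.2
      obtain ⟨q2, hq2, hq2'⟩ := exists_rat_btwn hq1'
      refine ⟨1, Or.inl rfl, q1, q2, hq2, h1.1.trans hq1, hq2'.trans_le (min_le_right _ _), ?_,
        Or.inl ?_⟩
      · exact (Th_one_pos hq2).2.2 (hq2'.trans_le (min_le_left _ _)).le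
      · exact (Th_one_pos hq2).2.1 hq1.le
    · obtain ⟨q1, hq1, hq1'⟩ := exists_rat_btwn hc
      obtain ⟨q2, hq2, hq2'⟩ := exists_rat_btwn hq1'
      refine ⟨1, Or.inl rfl, q1, q2, hq2, hq1, hq2'.trans_le (min_le_right _ _), ?_, ?_⟩
      · exact (Th_one_pos hq2).2.2 (hq2'.trans_le (min_le_left _ _)).le
      · rcases le_or_gt x' l with h2 | h2
        · exact Or.inl ((Th_one_pos hq2).2.1 (h2.trans hq1.le))
        · refine Or.inr ((Th_one_pos hq2).2.2 (hq2'.le.trans ?_))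
          by_contra hcon
          exact h1 ⟨h2, not_le.1 hcon⟩
  · have hc : max x l < h := max_lt (hx.trans_lt hlh) hlh
    by_cases h1 : max x l < x' ∧ x' < h
    · obtain ⟨q1, hq1, hq1'⟩ := exists_rat_btwn h1.1
      obtain ⟨q2, hq2, hq2'⟩ := exists_rat_btwn hq1'
      refine ⟨-1, Or.inr rfl, q1, q2, hq2, (le_max_right _ _).trans_lt hq1, hq2'.trans h1.2, ?_,
        Or.inl ?_⟩
      · exact (Th_neg_pos hq2).2.2 ((le_max_left _ _).trans hq1.le)
      · exact (Th_neg_pos hq2).2.1 hq2'.le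
    · obtain ⟨q1, hq1, hq1'⟩ := exists_rat_btwn hc
      obtain ⟨q2, hq2, hq2'⟩ := exists_rat_btwn hq1'
      refine ⟨-1, Or.inr rfl, q1, q2, hq2, (le_max_right _ _).trans_lt hq1, hq2', ?_, ?_⟩
      · exact (Th_neg_pos hq2).2.2 ((le_max_left _ _).trans hq1.le)
      · rcases le_or_gt h x' with h2 | h2
        · exact Or.inl ((Th_neg_pos hq2).2.1 (hq2'.le.trans h2))
        · refine Or.inr ((Th_neg_pos hq2).2.2 (le_trans ?_ hq1.le))
          by_contra hcon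
          exact h1 ⟨not_le.1 hcon, h2⟩

theorem Th_pos_side {ex q1 q2 : ℝ} (hex : ex = 1 ∨ ex = -1) (hq : q1 < q2) :
    ∃ q0 ∈ Icc q1 q2, ∀ x, 0 < Th ex q1 q2 x → ex * q0 < ex * x := by
  rcases hex with rfl | rfl
  · refine ⟨q1, ⟨le_rfl, hq.le⟩, fun x hx => ?_⟩
    have := (Th_one_pos hq).1 hx
    linarith
  · refine ⟨q2, ⟨hq.le, le_rfl⟩, fun x hx => ?_⟩
    have := (Th_neg_pos hq).1 hx
    linarith

/-! ### the two pictures -/

section

variable {Y : Set ℂ} {x0 φ : ℂ → ℝ} {a b : ℕ → ℂ → ℝ} {F P : ℂ → ℂ} {i : ℕ}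

/-- the trace of a component of the quadrant region -/
def Oz (hi : SkA_8.Pk Y x0 b (a i) P) (F : ℂ → ℂ) (K : Cmp Yᶜᶜ) (eu t0 : ℝ) (θ : ℝ → ℝ) (r : ℂ) :
    Set ℂ := {z | z ∉ Y ∧ P z ∈ Rg (P '' Yᶜ)ᶜ (cF hi K).1 (mP hi F eu t0 θ) r}

open Classical in
/-- the conclusion of `PTW` -/
def Bl (hi : SkA_8.Pk Y x0 b (a i) P) (K : Cmp Yᶜᶜ) (be s ex eu : ℝ) (θ : ℝ → ℝ) (O : Set ℂ)
    (xT xB yT yB : ℝ → ℝ) (t : ℝ) : Prop :=
  ∃ lT ∈ Icc (0 : ℝ) 1, ∃ lB ∈ Icc (0 : ℝ) 1,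
      eu * ex * ((if InT hi K O t then θ (xT t) ^ 2 else 0) -
        (if InB hi K O t then θ (xB t) ^ 2 else 0)) + lT - lB = 0 ∧
      eu * ex * ((if InT hi K O t then θ (xT t) ^ 2 else 0) * yT t -
        (if InB hi K O t then θ (xB t) ^ 2 else 0) * yB t) + lT * (be + s) - lB * be ∈ Icc 0 s

variable (h : SkA_8.Pk Y x0 a φ F) (hi : SkA_8.Pk Y x0 b (a i) P) (K : Cmp Yᶜᶜ)

include hi in
theorem extE : IsExteriorDomain (P '' Yᶜ)ᶜᶜ := by
  rw [compl_compl]; exact (Uw6_913.endMap hi).hV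

include h in
theorem uc_Oz (eu t0 ex q1 q2 : ℝ) (r : ℂ) :
    Uc Y K.1 (fun z => min (eu * (x0 z + a i z - t0)) (Th ex q1 q2 (x0 z + φ z)))
      (Oz hi F K eu t0 (Th ex q1 q2) r) :=
  uc_of (Uw6_913.endMap hi) K (m := mz x0 (a i) φ eu t0 (Th ex q1 q2))
    (fun _ hz => mP_apply h hi eu t0 _ hz) (lb_mP hi F eu t0 (Th_mem ex q1 q2))
    (cont_mP h hi eu t0 (Th_smooth ex q1 q2).continuous) r

/-- membership of the inverse image -/
theorem inv_mem_Oz {eu t0 : ℝ} {θ : ℝ → ℝ} {r ζ : ℂ} (hζ : ζ ∉ (P '' Yᶜ)ᶜ) :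
    (Uw6_913.endMap hi).inv ζ ∈ Oz hi F K eu t0 θ r ↔
      ζ ∈ Rg (P '' Yᶜ)ᶜ (cF hi K).1 (mP hi F eu t0 θ) r := by
  have hV : ζ ∈ P '' Yᶜ := not_not.1 hζ
  unfold Oz
  rw [mem_ofPred_eq, (Uw6_913.endMap hi).inv_right hV]
  exact ⟨fun h => h.2, fun h => ⟨(Uw6_913.endMap hi).inv_mem hV, h⟩⟩

/-- all PTW instances which are needed -/
theorem ae_bl (hPTW : PTW) {be s : ℝ} {xT xB yT yB vT vB : ℝ → ℝ} (hs : 0 < s)
    (hsq : SqK (cF h K).1 (Sqr_185.lo (cF h K).1) be s) (hwd : s = Sqr_185.wd (cF h K).1)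
    (hEd : Ed h hi K xT xB yT yB vT vB) {ex eu : ℝ} (hex : ex = 1 ∨ ex = -1)
    (heu : eu = 1 ∨ eu = -1) :
    ∀ᵐ t : ℝ, ∀ q1 q2 t0 : ℚ, ∀ n : ℕ, (q1 : ℝ) < q2 → Sqr_185.lo (cF h K).1 < q1 →
      (q2 : ℝ) < Sqr_185.hi (cF h K).1 →
      (t0 : ℝ) ∈ Icc (Sqr_185.lo (cF hi K).1) (Sqr_185.hi (cF hi K).1) →
      t ∈ Ioo (Sqr_185.lo (cF hi K).1) (Sqr_185.hi (cF hi K).1) → 0 < eu * (t - t0) →
      Bl hi K be s ex eu (Th ex q1 q2)
        (Oz hi F K eu t0 (Th ex q1 q2) (TopologicalSpace.denseSeq ℂ n)) xT xB yT yB t := by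
  rw [ae_all_iff]; intro q1
  rw [ae_all_iff]; intro q2
  rw [ae_all_iff]; intro t0
  rw [ae_all_iff]; intro n
  by_cases hq : (q1 : ℝ) < q2
  swap
  · exact Eventually.of_forall fun t h1 => absurd h1 hq
  by_cases hl : Sqr_185.lo (cF h K).1 < q1
  swap
  · exact Eventually.of_forall fun t _ h1 => absurd h1 hl
  by_cases hh : (q2 : ℝ) < Sqr_185.hi (cF h K).1
  swap
  · exact Eventually.of_forall fun t _ _ h1 => absurd h1 hh
  by_cases ht0 : (t0 : ℝ) ∈ Icc (Sqr_185.lo (cF hi K).1) (Sqr_185.hi (cF hi K).1)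
  swap
  · exact Eventually.of_forall fun t _ _ _ h1 => absurd h1 ht0
  have h1 := hPTW Y x0 φ a b F P i K (Th ex q1 q2)
    (Oz hi F K eu t0 (Th ex q1 q2) (TopologicalSpace.denseSeq ℂ n)) h hi be s ex eu t0
    xT xB yT yB vT vB hs hsq hwd hEd (rmp_Th hex hq hl hh) heu ht0 (uc_Oz h hi K eu t0 ex q1 q2 _)
  filter_upwards [h1] with t ht _ _ _ _ ht1 ht2
  exact ht ht1 ht2

/-- the neighbourhood of the value -/
theorem exists_g0 {eu t t0 x : ℝ} {θ : ℝ → ℝ} (heu : eu = 1 ∨ eu = -1) (ht : 0 < eu * (t - t0))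
    (hθ : Continuous θ) (hx : θ x = 1) : ∃ ε > 0, ∃ g0 > 0, ∀ u x', |u - t| < ε → |x' - x| < ε →
      g0 ≤ min (eu * (u - t0)) (θ x') := by
  have h1 : ∀ᶠ x' in 𝓝 x, 1 / 2 < θ x' :=
    hθ.continuousAt.eventually (lt_mem_nhds (by rw [hx]; norm_num))
  obtain ⟨ε, hε, h2⟩ := Metric.eventually_nhds_iff.1 h1
  refine ⟨min ε (eu * (t - t0) / 2), lt_min hε (by linarith), min (1 / 2) (eu * (t - t0) / 2),
    lt_min (by norm_num) (by linarith), fun u x' hu hx' => le_min ?_ ?_⟩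
  · refine (min_le_right _ _).trans ?_
    have h3 := hu.trans_le (min_le_right _ _)
    rcases heu with rfl | rfl
    · have := (abs_lt.1 h3).1; linarith
    · have := (abs_lt.1 h3).2; linarith
  · have h3 : |x' - x| < ε := hx'.trans_le (min_le_left _ _)
    have h4 : 1 / 2 < θ x' := h2 (y := x') (by rw [Real.dist_eq]; exact h3)
    exact (min_le_left _ _).trans h4.le

theorem mk_add_I (t y r : ℝ) : (⟨t, y⟩ : ℂ) + r • Complex.I = ⟨t, y + r⟩ := by
  apply Complex.ext <;> simp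

theorem mk_sub_I (t y r : ℝ) : (⟨t, y⟩ : ℂ) + r • (-Complex.I) = ⟨t, y - r⟩ := by
  apply Complex.ext <;> simp [sub_eq_add_neg]

include h in
/-- the end germ of a segment lies in one component of the region -/
theorem germ_gen {eu t0 t x η0 : ℝ} {ex q1 q2 : ℝ} {p v : ℂ} (heu : eu = 1 ∨ eu = -1)
    (ht : 0 < eu * (t - t0)) (hx : Th ex q1 q2 x = 1) (hp : p ∈ (cF hi K).1) (h0 : 0 < η0)
    (hoff : ∀ r ∈ Ioo (0 : ℝ) η0, p + r • v ∉ (cF hi K).1) (hre : ∀ r : ℝ, (p + r • v).re = t)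
    (hl : Lm (P '' Yᶜ)ᶜ (xP hi F) p v x) :
    ∃ η > 0, ∃ n : ℕ, ∀ r ∈ Ioo (0 : ℝ) η, p + r • v ∈
      Rg (P '' Yᶜ)ᶜ (cF hi K).1 (mP hi F eu t0 (Th ex q1 q2)) (TopologicalSpace.denseSeq ℂ n) := by
  have hE := extE hi
  have hEo : IsOpen (P '' Yᶜ) := (Uw6_913.endMap hi).hV.1
  obtain ⟨ε, hε, g0, hg0, hG⟩ := exists_g0 heu ht (Th_smooth ex q1 q2).continuous hx
  obtain ⟨η, hη, h1⟩ := tail_Wr (m := mP hi F eu t0 (Th ex q1 q2)) hE (f1 := fun w => w.re)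
    (LB.of_cont Complex.continuous_re) (lb_xP h hi)
    (fun w _ => Complex.continuous_re.continuousAt)
    (fun w hw => (cont_xP h hi).continuousAt (hEo.mem_nhds (not_not.1 hw))) (sum_re hi)
    (sum_xP h hi) (cF hi K) hp h0 hoff
    (x1 := t) (x2 := x) (fun ε hε => ⟨1, one_pos, fun r _ _ => by
      show |(p + r • v).re - t| < ε
      rw [hre r, sub_self, abs_zero]; exact hε⟩) hl (lb_mP hi F eu t0 (Th_mem ex q1 q2)) hε hg0
    (fun w _ h2 h3 => hG _ _ h2 h3)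
  have hmem := h1 (η / 2) ⟨by linarith, by linarith⟩
  obtain ⟨r0, ⟨n, rfl⟩, hn⟩ := exists_base hE (lb_mP hi F eu t0 (Th_mem ex q1 q2)) (cF hi K)
    (TopologicalSpace.denseRange_denseSeq ℂ) hmem
  refine ⟨η, hη, n, fun r hr => ?_⟩
  have hcont : Continuous fun r' : ℝ => p + r' • v := by fun_prop
  have h2 : IsPreconnected ((fun r' : ℝ => p + r' • v) '' Ioo 0 η) :=
    isPreconnected_Ioo.image _ hcont.continuousOn
  refine sub_Rg h2 ?_ ⟨η / 2, ⟨by linarith, by linarith⟩, rfl⟩ hn ⟨r, hr, rfl⟩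
  rintro _ ⟨r', hr', rfl⟩
  exact h1 r' hr'

include h in
theorem germ_top {eu t0 t x : ℝ} {ex q1 q2 : ℝ} (heu : eu = 1 ∨ eu = -1)
    (ht : 0 < eu * (t - t0)) (hx : Th ex q1 q2 x = 1) (hne : (sec (cF hi K).1 t).Nonempty)
    (hl : Tendsto (fun v : ℝ => pu hi (fun z => (F z).re) ⟨t, v⟩)
      (TopF (P '' Yᶜ)ᶜ (cF hi K).1 t) (𝓝 x)) :
    ∃ n : ℕ, InT hi K (Oz hi F K eu t0 (Th ex q1 q2) (TopologicalSpace.denseSeq ℂ n)) t := by
  have hEc : IsCompact (P '' Yᶜ)ᶜ := (Uw6_913.picT hi).2.cpt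
  have hc := Sqr_185.isCompact_sec ((cF hi K).isCompact hEc) t
  have hm : sSup (sec (cF hi K).1 t) ∈ sec (cF hi K).1 t := hc.sSup_mem hne
  obtain ⟨η, hη, n, h1⟩ := germ_gen h hi K (p := ⟨t, sSup (sec (cF hi K).1 t)⟩) (v := Complex.I)
    (η0 := 1) heu ht hx hm one_pos (fun r hr hmem => by
      rw [mk_add_I] at hmem
      have := le_csSup hc.bddAbove (show _ ∈ sec (cF hi K).1 t from hmem)
      linarith [hr.1]) (fun r => by rw [mk_add_I]) (by
      intro ε hε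
      have h2 := hl.eventually (Metric.ball_mem_nhds x hε)
      unfold TopF at h2
      rw [eventually_nhdsWithin_iff, Metric.eventually_nhds_iff] at h2
      obtain ⟨δ, hδ, h3⟩ := h2
      refine ⟨δ, hδ, fun r hr hrE => ?_⟩
      rw [mk_add_I] at hrE ⊢
      rw [xP_pu hi F hrE]
      have h4 := h3 (y := sSup (sec (cF hi K).1 t) + r) (by
        rw [Real.dist_eq, abs_lt]; constructor <;> linarith [hr.1, hr.2])
        ⟨hrE, by linarith [hr.1]⟩
      rwa [Real.dist_eq] at h4)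
  refine ⟨n, ?_⟩
  unfold InT TopF
  rw [eventually_nhdsWithin_iff, Metric.eventually_nhds_iff]
  refine ⟨η, hη, fun v hv hvS => ?_⟩
  rw [inv_mem_Oz hi K hvS.1]
  have h2 := h1 (v - sSup (sec (cF hi K).1 t)) (by
    rw [Real.dist_eq, abs_lt] at hv
    have := hvS.2
    constructor <;> linarith [hv.2])
  rwa [mk_add_I, add_sub_cancel] at h2

include h in
theorem germ_bot {eu t0 t x : ℝ} {ex q1 q2 : ℝ} (heu : eu = 1 ∨ eu = -1)
    (ht : 0 < eu * (t - t0)) (hx : Th ex q1 q2 x = 1) (hne : (sec (cF hi K).1 t).Nonempty)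
    (hl : Tendsto (fun v : ℝ => pu hi (fun z => (F z).re) ⟨t, v⟩)
      (BotF (P '' Yᶜ)ᶜ (cF hi K).1 t) (𝓝 x)) :
    ∃ n : ℕ, InB hi K (Oz hi F K eu t0 (Th ex q1 q2) (TopologicalSpace.denseSeq ℂ n)) t := by
  have hEc : IsCompact (P '' Yᶜ)ᶜ := (Uw6_913.picT hi).2.cpt
  have hc := Sqr_185.isCompact_sec ((cF hi K).isCompact hEc) t
  have hm : sInf (sec (cF hi K).1 t) ∈ sec (cF hi K).1 t := hc.sInf_mem hne
  obtain ⟨η, hη, n, h1⟩ := germ_gen h hi K (p := ⟨t, sInf (sec (cF hi K).1 t)⟩)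
    (v := -Complex.I) (η0 := 1) heu ht hx hm one_pos (fun r hr hmem => by
      rw [mk_sub_I] at hmem
      have := csInf_le hc.bddBelow (show _ ∈ sec (cF hi K).1 t from hmem)
      linarith [hr.1]) (fun r => by rw [mk_sub_I]) (by
      intro ε hε
      have h2 := hl.eventually (Metric.ball_mem_nhds x hε)
      unfold BotF at h2
      rw [eventually_nhdsWithin_iff, Metric.eventually_nhds_iff] at h2
      obtain ⟨δ, hδ, h3⟩ := h2
      refine ⟨δ, hδ, fun r hr hrE => ?_⟩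
      rw [mk_sub_I] at hrE ⊢
      rw [xP_pu hi F hrE]
      have h4 := h3 (y := sInf (sec (cF hi K).1 t) - r) (by
        rw [Real.dist_eq, abs_lt]; constructor <;> linarith [hr.1, hr.2])
        ⟨hrE, by linarith [hr.1]⟩
      rwa [Real.dist_eq] at h4)
  refine ⟨n, ?_⟩
  unfold InB BotF
  rw [eventually_nhdsWithin_iff, Metric.eventually_nhds_iff]
  refine ⟨η, hη, fun v hv hvS => ?_⟩
  rw [inv_mem_Oz hi K hvS.1]
  have h2 := h1 (sInf (sec (cF hi K).1 t) - v) (by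
    rw [Real.dist_eq, abs_lt] at hv
    have := hvS.2
    constructor <;> linarith [hv.1])
  rwa [mk_sub_I, sub_sub_cancel] at h2

include h in
/-- **no two ends on both sides** -/
theorem clash {t t1 t2 : ℝ} {ex q1 q2 : ℝ} {r1 r2 : ℂ} (hex : ex = 1 ∨ ex = -1) (hq : q1 < q2)
    (hl : Sqr_185.lo (cF h K).1 < q1) (hh : q2 < Sqr_185.hi (cF h K).1)
    (ht : t ∈ Ioo (Sqr_185.lo (cF hi K).1) (Sqr_185.hi (cF hi K).1))
    (ht1 : Sqr_185.lo (cF hi K).1 ≤ t1) (ht2 : t2 ≤ Sqr_185.hi (cF hi K).1)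
    (hT1 : InT hi K (Oz hi F K 1 t1 (Th ex q1 q2) r1) t)
    (hB1 : InB hi K (Oz hi F K 1 t1 (Th ex q1 q2) r1) t)
    (hT2 : InT hi K (Oz hi F K (-1) t2 (Th ex q1 q2) r2) t)
    (hB2 : InB hi K (Oz hi F K (-1) t2 (Th ex q1 q2) r2) t) : False := by
  have hpic := (Uw6_913.picT hi).2
  have hEc : IsCompact (P '' Yᶜ)ᶜ := hpic.cpt
  have hE := extE hi
  have hLc := (cF hi K).isCompact hEc
  have hne : (sec (cF hi K).1 t).Nonempty := Sqr_185.sec_nonempty hLc (cF hi K).preconn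
    (cF hi K).nonempty ⟨ht.1.le, ht.2.le⟩
  have hc := Sqr_185.isCompact_sec hLc t
  -- the points `c`, `d`
  obtain ⟨v1, ⟨h1a, h1b⟩, h1E, h1v⟩ : ∃ v1, ((Uw6_913.endMap hi).inv ⟨t, v1⟩ ∈
      Oz hi F K 1 t1 (Th ex q1 q2) r1 ∧ (Uw6_913.endMap hi).inv ⟨t, v1⟩ ∈
      Oz hi F K (-1) t2 (Th ex q1 q2) r2) ∧ (⟨t, v1⟩ : ℂ) ∉ (P '' Yᶜ)ᶜ ∧
      sSup (sec (cF hi K).1 t) < v1 := by
    have := neBot_top hEc (cF hi K) hne
    have h3 : ∀ᶠ v in TopF (P '' Yᶜ)ᶜ (cF hi K).1 t, (⟨t, v⟩ : ℂ) ∉ (P '' Yᶜ)ᶜ ∧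
        sSup (sec (cF hi K).1 t) < v := self_mem_nhdsWithin
    exact ((hT1.and hT2).and h3).exists
  obtain ⟨v2, ⟨h2a, h2b⟩, h2E, h2v⟩ : ∃ v2, ((Uw6_913.endMap hi).inv ⟨t, v2⟩ ∈
      Oz hi F K 1 t1 (Th ex q1 q2) r1 ∧ (Uw6_913.endMap hi).inv ⟨t, v2⟩ ∈
      Oz hi F K (-1) t2 (Th ex q1 q2) r2) ∧ (⟨t, v2⟩ : ℂ) ∉ (P '' Yᶜ)ᶜ ∧
      v2 < sInf (sec (cF hi K).1 t) := by
    have := neBot_bot hEc (cF hi K) hne
    have h3 : ∀ᶠ v in BotF (P '' Yᶜ)ᶜ (cF hi K).1 t, (⟨t, v⟩ : ℂ) ∉ (P '' Yᶜ)ᶜ ∧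
        v < sInf (sec (cF hi K).1 t) := self_mem_nhdsWithin
    exact ((hB1.and hB2).and h3).exists
  rw [inv_mem_Oz hi K h1E] at h1a h1b
  rw [inv_mem_Oz hi K h2E] at h2a h2b
  -- the square
  have hw : 0 < Sqr_185.wd (cF hi K).1 := by
    unfold Sqr_185.wd; linarith [ht.1.trans ht.2]
  obtain ⟨B, hB⟩ := hpic.sq (cF hi K) hw
  have hAS : Sqr_185.lo (cF hi K).1 + Sqr_185.wd (cF hi K).1 = Sqr_185.hi (cF hi K).1 := by
    unfold Sqr_185.wd; ring
  have htI : t ∈ Icc (Sqr_185.lo (cF hi K).1)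
      (Sqr_185.lo (cF hi K).1 + Sqr_185.wd (cF hi K).1) := by
    rw [hAS]; exact ⟨ht.1.le, ht.2.le⟩
  have hpL : (⟨t, B + Sqr_185.wd (cF hi K).1 / 2⟩ : ℂ) ∈ (cF hi K).1 :=
    hB.sub _ htI ⟨by simp only; linarith, by simp only; linarith⟩
  have htop : B + Sqr_185.wd (cF hi K).1 ≤ sSup (sec (cF hi K).1 t) :=
    le_csSup hc.bddAbove (show (⟨t, B + Sqr_185.wd (cF hi K).1⟩ : ℂ) ∈ (cF hi K).1 from
      hB.sub _ htI ⟨by simp only; linarith, by simp only; linarith⟩)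
  have hbot : sInf (sec (cF hi K).1 t) ≤ B :=
    csInf_le hc.bddBelow (show (⟨t, B⟩ : ℂ) ∈ (cF hi K).1 from
      hB.sub _ htI ⟨by simp only; linarith, by simp only; linarith⟩)
  have hcc : connectedComponentIn (P '' Yᶜ)ᶜ (⟨t, B + Sqr_185.wd (cF hi K).1 / 2⟩ : ℂ) =
      (cF hi K).1 := Ni_459.Cmp.cc_eq (cF hi K) hpL
  have hpV : (⟨t, B + Sqr_185.wd (cF hi K).1 / 2⟩ : ℂ) ∉ P '' Yᶜ := (cF hi K).subset hpL
  obtain ⟨z₀, hz₀, hKz⟩ := K.2
  have hKz' : connectedComponentIn Yᶜᶜ z₀ = K.1 := hKz.symm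
  have htend : Tendsto P (eF Yᶜ z₀)
      (eF (P '' Yᶜ) (⟨t, B + Sqr_185.wd (cF hi K).1 / 2⟩ : ℂ)) := by
    rw [← eK_eq_eF, ← eK_eq_eF, hcc, hKz']
    exact Ta_937.tendsto_corE (Uw6_913.endMap hi) K
  obtain ⟨q0, hq0, hside⟩ := Th_pos_side hex hq
  have hfreq := freq_side h K hex (hl.trans_le hq0.1) (hq0.2.trans_lt hh)
  have hm : ∀ (eu t0 : ℝ) (r : ℂ), ∀ z ∈ Yᶜ, -(ex * q0) < (-ex) * (F z).re →
      P z ∉ Rg (P '' Yᶜ)ᶜ (cF hi K).1 (mP hi F eu t0 (Th ex q1 q2)) r \ (P '' Yᶜ)ᶜ := by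
    intro eu t0 r z hz hzq hzR
    have h3 := Wr_off hE (lb_mP hi F eu t0 (Th_mem ex q1 q2)) (by
      rw [compl_compl]; exact cont_mP h hi eu t0 (Th_smooth ex q1 q2).continuous) hzR.2
      (Rg_sub _ _ hzR.1)
    rw [mP_apply h hi eu t0 _ hz] at h3
    have h4 := (lt_min_iff.1 h3).2
    rw [← h.re z hz] at h4
    have := hside _ h4
    linarith
  refine Lop2_948.not_both h (Uw6_913.endMap hi) hpV htend
    (A := Sqr_185.lo (cF hi K).1) (B := B) (S := Sqr_185.wd (cF hi K).1) (by rw [hcc]; exact hB)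
    htI.1 htI.2 ⟨by simp only; linarith, by simp only; linarith⟩
    (σ := -ex) (t := -(ex * q0)) (by rcases hex with rfl | rfl <;> simp)
    (by
      rw [← eK_eq_eF, hKz']
      exact hfreq.mono fun z hz => by linarith)
    (O₁ := Rg (P '' Yᶜ)ᶜ (cF hi K).1 (mP hi F 1 t1 (Th ex q1 q2)) r1 \ (P '' Yᶜ)ᶜ)
    (O₂ := Rg (P '' Yᶜ)ᶜ (cF hi K).1 (mP hi F (-1) t2 (Th ex q1 q2)) r2 \ (P '' Yᶜ)ᶜ)
    (c := ⟨t, v1⟩) (d := ⟨t, v2⟩)
    ((isOpen_Rg hE (lb_mP hi F _ _ (Th_mem ex q1 q2)) _ _).sdiff hEc.isClosed)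
    (preconn_Rg_diff hE (lb_mP hi F _ _ (Th_mem ex q1 q2)) _ _)
    ((isOpen_Rg hE (lb_mP hi F _ _ (Th_mem ex q1 q2)) _ _).sdiff hEc.isClosed)
    (preconn_Rg_diff hE (lb_mP hi F _ _ (Th_mem ex q1 q2)) _ _) ?_ ?_
    ⟨h1a, h1E⟩ ⟨h1b, h1E⟩ ⟨h2a, h2E⟩ ⟨h2b, h2E⟩ rfl rfl (by simp only; linarith)
    (by simp only; linarith) ?_ ?_ (hm _ _ _) (hm _ _ _)
  · intro z hz
    have h3 := Wr_off hE (lb_mP hi F 1 t1 (Th_mem ex q1 q2)) (by
      rw [compl_compl]; exact cont_mP h hi 1 t1 (Th_smooth ex q1 q2).continuous) hz.2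
      (Rg_sub _ _ hz.1)
    have h4 := (lt_min_iff.1 h3).1
    linarith
  · intro z hz
    have h3 := Wr_off hE (lb_mP hi F (-1) t2 (Th_mem ex q1 q2)) (by
      rw [compl_compl]; exact cont_mP h hi (-1) t2 (Th_smooth ex q1 q2).continuous) hz.2
      (Rg_sub _ _ hz.1)
    have h4 := (lt_min_iff.1 h3).1
    linarith
  · rw [disjoint_left]
    exact fun z hz hz' => hz'.2 (connectedComponentIn_subset _ _ hz)
  · rw [disjoint_left]
    exact fun z hz hz' => hz'.2 (connectedComponentIn_subset _ _ hz)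

end

/-- **ATNE from PTW** -/
theorem atne (hPTW : PTW) : ATNE := by
  intro Y x0 φ a b F P i K h hi be s xT xB yT yB vT vB hs hsq hwd hEd
  have hlh : Sqr_185.lo (cF h K).1 < Sqr_185.hi (cF h K).1 := by
    unfold Sqr_185.wd at hwd; linarith
  have A := fun (ex eu : ℝ) (hex : ex = 1 ∨ ex = -1) (heu : eu = 1 ∨ eu = -1) =>
    ae_bl h hi K hPTW hs hsq hwd hEd hex heu
  filter_upwards [hEd.x, A 1 1 (Or.inl rfl) (Or.inl rfl), A 1 (-1) (Or.inl rfl) (Or.inr rfl),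
    A (-1) 1 (Or.inr rfl) (Or.inl rfl), A (-1) (-1) (Or.inr rfl) (Or.inr rfl)]
    with t hx h11 h12 h21 h22 ht
  obtain ⟨hxT, hxB⟩ := hx ht
  have hBl : ∀ ex eu : ℝ, (ex = 1 ∨ ex = -1) → (eu = 1 ∨ eu = -1) →
      ∀ q1 q2 t0 : ℚ, ∀ n : ℕ, (q1 : ℝ) < q2 → Sqr_185.lo (cF h K).1 < q1 →
      (q2 : ℝ) < Sqr_185.hi (cF h K).1 →
      (t0 : ℝ) ∈ Icc (Sqr_185.lo (cF hi K).1) (Sqr_185.hi (cF hi K).1) →
      t ∈ Ioo (Sqr_185.lo (cF hi K).1) (Sqr_185.hi (cF hi K).1) → 0 < eu * (t - t0) →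
      Bl hi K be s ex eu (Th ex q1 q2)
        (Oz hi F K eu t0 (Th ex q1 q2) (TopologicalSpace.denseSeq ℂ n)) xT xB yT yB t := by
    rintro ex eu (rfl | rfl) (rfl | rfl)
    exacts [h11, h12, h21, h22]
  have hpic := (Uw6_913.picT hi).2
  have hne : (sec (cF hi K).1 t).Nonempty := Sqr_185.sec_nonempty
    ((cF hi K).isCompact hpic.cpt) (cF hi K).preconn (cF hi K).nonempty ⟨ht.1.le, ht.2.le⟩
  obtain ⟨t1, ht1, ht1'⟩ := exists_rat_btwn ht.1
  obtain ⟨t2, ht2, ht2'⟩ := exists_rat_btwn ht.2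
  constructor
  · obtain ⟨ex, hex, q1, q2, hq, hl, hh, hθT, hθB⟩ := choose_step (x := xT t) (x' := xB t) hlh
    obtain ⟨n1, hn1⟩ := germ_top h hi K (eu := 1) (t0 := t1) (Or.inl rfl) (by linarith) hθT hne hxT
    obtain ⟨n2, hn2⟩ := germ_top h hi K (eu := -1) (t0 := t2) (Or.inr rfl) (by linarith) hθT hne
      hxT
    have key : ∀ (eu : ℝ) (O : Set ℂ), (eu = 1 ∨ eu = -1) → InT hi K O t →
        Bl hi K be s ex eu (Th ex q1 q2) O xT xB yT yB t →
        ¬ (InB hi K O t ∧ Th ex q1 q2 (xB t) = 1) → yT t ∈ Icc be (be + s) := by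
      rintro eu O heu hT ⟨lT, hlT, lB, hlB, g1, g2⟩ hnot
      refine arith_one (e := eu * ex) ?_ hlT hlB ?_ ?_ g1 g2
      · rcases heu with rfl | rfl <;> rcases hex with rfl | rfl <;> norm_num
      · rw [if_pos hT, hθT, one_pow]
      · split_ifs with hB
        · rcases hθB with h0 | h0
          · rw [h0]; norm_num
          · exact absurd ⟨hB, h0⟩ hnot
        · rfl
    by_cases c1 : InB hi K (Oz hi F K 1 t1 (Th ex q1 q2) (TopologicalSpace.denseSeq ℂ n1)) t ∧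
        Th ex q1 q2 (xB t) = 1
    · by_cases c2 : InB hi K (Oz hi F K (-1) t2 (Th ex q1 q2) (TopologicalSpace.denseSeq ℂ n2)) t ∧
        Th ex q1 q2 (xB t) = 1
      · exact (clash h hi K hex hq hl hh ht ht1.le ht2'.le hn1 c1.1 hn2 c2.1).elim
      · exact key (-1) _ (Or.inr rfl) hn2 (hBl ex (-1) hex (Or.inr rfl) q1 q2 t2 n2 hq hl hh
          ⟨(ht.1.trans ht2).le, ht2'.le⟩ ht (by linarith)) c2
    · exact key 1 _ (Or.inl rfl) hn1 (hBl ex 1 hex (Or.inl rfl) q1 q2 t1 n1 hq hl hh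
        ⟨ht1.le, (ht1'.trans ht.2).le⟩ ht (by linarith)) c1
  · obtain ⟨ex, hex, q1, q2, hq, hl, hh, hθB, hθT⟩ := choose_step (x := xB t) (x' := xT t) hlh
    obtain ⟨n1, hn1⟩ := germ_bot h hi K (eu := 1) (t0 := t1) (Or.inl rfl) (by linarith) hθB hne hxB
    obtain ⟨n2, hn2⟩ := germ_bot h hi K (eu := -1) (t0 := t2) (Or.inr rfl) (by linarith) hθB hne
      hxB
    have key : ∀ (eu : ℝ) (O : Set ℂ), (eu = 1 ∨ eu = -1) → InB hi K O t →
        Bl hi K be s ex eu (Th ex q1 q2) O xT xB yT yB t →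
        ¬ (InT hi K O t ∧ Th ex q1 q2 (xT t) = 1) → yB t ∈ Icc be (be + s) := by
      rintro eu O heu hB ⟨lT, hlT, lB, hlB, g1, g2⟩ hnot
      refine arith_two (e := eu * ex) ?_ hlT hlB ?_ ?_ g1 g2
      · rcases heu with rfl | rfl <;> rcases hex with rfl | rfl <;> norm_num
      · rw [if_pos hB, hθB, one_pow]
      · split_ifs with hT
        · rcases hθT with h0 | h0
          · rw [h0]; norm_num
          · exact absurd ⟨hT, h0⟩ hnot
        · rfl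
    by_cases c1 : InT hi K (Oz hi F K 1 t1 (Th ex q1 q2) (TopologicalSpace.denseSeq ℂ n1)) t ∧
        Th ex q1 q2 (xT t) = 1
    · by_cases c2 : InT hi K (Oz hi F K (-1) t2 (Th ex q1 q2) (TopologicalSpace.denseSeq ℂ n2)) t ∧
        Th ex q1 q2 (xT t) = 1
      · exact (clash h hi K hex hq hl hh ht ht1.le ht2'.le c1.1 hn1 c2.1 hn2).elim
      · exact key (-1) _ (Or.inr rfl) hn2 (hBl ex (-1) hex (Or.inr rfl) q1 q2 t2 n2 hq hl hh
          ⟨(ht.1.trans ht2).le, ht2'.le⟩ ht (by linarith)) c2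
    · exact key 1 _ (Or.inl rfl) hn1 (hBl ex 1 hex (Or.inl rfl) q1 q2 t1 n1 hq hl hh
        ⟨ht1.le, (ht1'.trans ht.2).le⟩ ht (by linarith)) c1

end Crest.Agent.R105.Atl_948
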