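import Crest.Agent.R105.Bvl1_31
import Crest.Agent.R105.Vb1_818
import Crest.Agent.R105.Nip5_31
import Crest.Agent.R105.Yv6_319
import Crest.Agent.R105.Grd3_782

-- ▼ part R105/Bvl2_31
section

/-!
# Row 105, S0138, node E13 (499 #11166 (2a)), helper31, part 2: in the plane of a picture with
order connected sections, `NI E re w` implies `BVL E w`.

* `ni_slice_int` : `Nip5_31.ni_slice` with the slice measures and their integrable total mass;
* `st_Lv` : the saturation of a piece of the line `re = t` lies in the level set of `re`;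
* `bvl_ni` : `NI E re w` + local finiteness of `|dre ∧ dw|` + summable jumps ⟹ `BVL E w`.
-/

set_option autoImplicit false

open MeasureTheory Set Filter Topology Metric
open scoped ENNReal NNReal

namespace Crest.Agent.R105.Bvl_31

open Bd_775 Tc_808 Ni_459 Nip_31 Crest.AnalysisR

section

variable {Y : Set ℂ} {A f : ℂ → ℝ} {R : ℝ}

/-- **T4 with integrable total mass** -/
theorem ni_slice_int (hY : IsExteriorDomain Yᶜ) (hA : LocallyLipschitzOn Yᶜ A) (hAb : LB A)
    (hf : LocallyLipschitzOn Yᶜ f) (hfb : LB f) (hNI : NI Y A f) {𝒥 : Set (Cmp Y)}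
    (h𝒥 : 𝒥.Countable) (hJA : JJ Y A ⊆ 𝒥) (hJf : JJ Y f ⊆ 𝒥)
    (hU : ∫⁻ z in ball 0 R \ Y, ENNReal.ofReal |wdg A f z| ≠ ∞)
    (hS : ∑' K : 𝒥, ENNReal.ofReal (osp Y f (pt K.1)) *
      ENNReal.ofReal (osp Y A (pt K.1)) ≠ ∞) :
    ∃ ν : ℝ → Measure ℂ, (Measurable fun t => ν t univ) ∧ (∫⁻ t, ν t univ) ≠ ∞ ∧
      ∀ᵐ t, ∀ C ⊆ Lv Y A t ∩ ball 0 R, IsCompact C → IsPreconnected C →
        (∀ z ∈ C, connectedComponentIn Y z ⊆ C) →
        ∀ p ∈ C \ Y, ∀ q ∈ C \ Y, ENNReal.ofReal |f p - f q| ≤ ν t C := by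
  classical
  have hYc : IsCompact Y := cpt_of hY
  have : Countable 𝒥 := h𝒥.to_subtype
  have hm : Measurable (up Y A) := (usc_up hY hAb).measurable
  set ρ : Measure (ℝ × ℂ) := rU Y A f (ball 0 R) + rE Y A f 𝒥 with hρ
  have hρ1 : rU Y A f (ball 0 R) univ ≠ ∞ := by
    rw [← univ_prod_univ, rU_apply hm MeasurableSet.univ MeasurableSet.univ]
    simpa using hU
  have hρ2 : rE Y A f 𝒥 univ ≠ ∞ := by
    rw [← univ_prod_univ, rE_apply MeasurableSet.univ MeasurableSet.univ]
    simpa [osp, Real.volume_Icc] using hS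
  have hfin : IsFiniteMeasure ρ := ⟨by
    rw [hρ, Measure.add_apply]
    exact ENNReal.add_lt_top.2 ⟨hρ1.lt_top, hρ2.lt_top⟩⟩
  have hsl := slice_le (E := Y) (W₀ := ball 0 R) hYc isOpen_ball (lsc_lo hY hAb)
    (usc_up hY hAb) (lsc_lo hY hfb) (usc_up hY hfb) (ρ := ρ)
    (fun F hF hFs hFW T hT => area_slab hY hA hAb hf hfb hNI h𝒥 hJA hJf hF hFs hFW hT)
  have e : ∀ t : ℝ, Prod.mk t ⁻¹' (univ : Set (ℝ × ℂ)) = univ := fun t => by simp
  have hmeas : Measurable fun t => slc ρ t univ := by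
    have h := measurable_slc ρ (S := (univ : Set (ℝ × ℂ))) MeasurableSet.univ
    simpa only [e] using h
  have hint : (∫⁻ t, slc ρ t univ) ≠ ∞ := by
    have h := lintegral_slc_le ρ (S := (univ : Set (ℝ × ℂ))) MeasurableSet.univ
    simp only [e] at h
    exact (h.trans_lt (measure_lt_top ρ _)).ne
  refine ⟨slc ρ, hmeas, hint, ?_⟩
  filter_upwards [hsl] with t ht C hC hCc hCp hCs p hp q hq
  have hsC : Sat Y C := fun z hz _ => hCs z hz
  have h1 := ht C hCc hsC fun z hz => (hC hz).2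
  -- the slice is an interval containing both values
  have h2 : uIcc (f p) (f q) ⊆ {s | (t, s) ∈ Nip_31.ZF (lo Y A) (up Y A) (lo Y f) (up Y f) C} := by
    intro s hs
    by_contra hcon
    have hno : ∀ z ∈ C, ¬ (lo Y f z ≤ s ∧ s ≤ up Y f z) := fun z hz h =>
      hcon ⟨z, hz, (hC hz).1.1, (hC hz).1.2, h.1, h.2⟩
    have hcov : C ⊆ {z | up Y f z < s} ∪ {z | s < lo Y f z} := by
      intro z hz
      by_cases h : lo Y f z ≤ s
      · left
        by_contra h'
        exact hno z hz ⟨h, not_lt.1 h'⟩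
      · right; exact not_le.1 h
    have hdis : ∀ z, ¬ (up Y f z < s ∧ s < lo Y f z) := fun z h => by
      have := lo_le_up hY hfb z
      linarith [h.1, h.2]
    have key : ∀ x y : ℂ, x ∈ C \ Y → y ∈ C \ Y → f x < s → s < f y → False := by
      intro x y hx hy hxs hys
      obtain ⟨z, -, hz1, hz2⟩ := hCp _ _ (isOpen_up_lt hY hfb s) (isOpen_lt_lo hY hfb s) hcov
        ⟨x, hx.1, by simp only [mem_ofPred_eq]; rw [up_eq hY hf hfb hx.2]; exact hxs⟩
        ⟨y, hy.1, by simp only [mem_ofPred_eq]; rw [lo_eq hY hf hfb hy.2]; exact hys⟩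
      exact hdis z ⟨hz1, hz2⟩
    have hps : f p ≠ s := fun h => hno p hp.1 (by
      rw [lo_eq hY hf hfb hp.2, up_eq hY hf hfb hp.2, h]; exact ⟨le_rfl, le_rfl⟩)
    have hqs : f q ≠ s := fun h => hno q hq.1 (by
      rw [lo_eq hY hf hfb hq.2, up_eq hY hf hfb hq.2, h]; exact ⟨le_rfl, le_rfl⟩)
    rcases le_total (f p) (f q) with hle | hle
    · rw [uIcc_of_le hle] at hs
      exact key p q hp hq (lt_of_le_of_ne hs.1 hps) (lt_of_le_of_ne hs.2 hqs.symm)
    · rw [uIcc_of_ge hle] at hs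
      exact key q p hq hp (lt_of_le_of_ne hs.1 hqs) (lt_of_le_of_ne hs.2 hps.symm)
  refine le_trans (le_of_eq ?_) ((measure_mono h2).trans h1)
  rw [Real.volume_interval, abs_sub_comm]

end

section pic

variable {E : Set ℂ}

theorem lo_re_le (hE : IsExteriorDomain Eᶜ) {z x : ℂ} (_hz : z ∈ E)
    (hx : x ∈ connectedComponentIn E z) : lo E (fun w => w.re) z ≤ x.re := by
  by_contra hcon
  obtain ⟨c, hc1, hc2⟩ := exists_between (not_le.1 hcon)
  obtain ⟨O, hO, hOc⟩ := exists_gt_of_lt_lo hE Vb_818.lb_re hc2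
  have hEc : IsCompact E := cpt_of hE
  have hKc : IsCompact (connectedComponentIn E z) := Ends_897.isCompact_cc hEc z
  obtain ⟨k, hk, hmin⟩ := hKc.exists_isMinOn ⟨x, hx⟩ Complex.continuous_re.continuousOn
  have hkc : k.re < c := lt_of_le_of_lt (hmin hx) hc1
  have hkO : k ∈ O := hO.sub hk
  have hop : IsOpen (O ∩ {w : ℂ | w.re < c}) :=
    hO.op.inter (isOpen_lt Complex.continuous_re continuous_const)
  obtain ⟨r, hr, hball⟩ := Metric.isOpen_iff.1 hop k ⟨hkO, hkc⟩
  have hsub : ball k r ⊆ E := by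
    intro w hw
    by_contra hwE
    have h1 := hball hw
    have h2 : c < w.re := hOc w h1.1 hwE
    exact lt_asymm h2 h1.2
  have hkE : k ∈ E := connectedComponentIn_subset _ _ hk
  have h3 : ball k r ⊆ connectedComponentIn E k :=
    (convex_ball k r).isPreconnected.subset_connectedComponentIn (mem_ball_self hr) hsub
  rw [← connectedComponentIn_eq hk] at h3
  have h4 : k - ((r / 2 : ℝ) : ℂ) ∈ ball k r := by
    rw [mem_ball, dist_eq_norm]
    have : k - ((r / 2 : ℝ) : ℂ) - k = -((r / 2 : ℝ) : ℂ) := by ring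
    rw [this, norm_neg, Complex.norm_real, Real.norm_eq_abs, abs_of_pos (by linarith)]
    linarith
  have h5 : k.re ≤ (k - ((r / 2 : ℝ) : ℂ)).re := hmin (h3 h4)
  simp only [Complex.sub_re, Complex.ofReal_re] at h5
  linarith

theorem le_up_re (hE : IsExteriorDomain Eᶜ) {z x : ℂ} (_hz : z ∈ E)
    (hx : x ∈ connectedComponentIn E z) : x.re ≤ up E (fun w => w.re) z := by
  by_contra hcon
  obtain ⟨c, hc1, hc2⟩ := exists_between (not_le.1 hcon)
  obtain ⟨O, hO, hOc⟩ := exists_lt_of_up_lt hE Vb_818.lb_re hc1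
  have hEc : IsCompact E := cpt_of hE
  have hKc : IsCompact (connectedComponentIn E z) := Ends_897.isCompact_cc hEc z
  obtain ⟨k, hk, hmax⟩ := hKc.exists_isMaxOn ⟨x, hx⟩ Complex.continuous_re.continuousOn
  have hkc : c < k.re := lt_of_lt_of_le hc2 (hmax hx)
  have hkO : k ∈ O := hO.sub hk
  have hop : IsOpen (O ∩ {w : ℂ | c < w.re}) :=
    hO.op.inter (isOpen_lt continuous_const Complex.continuous_re)
  obtain ⟨r, hr, hball⟩ := Metric.isOpen_iff.1 hop k ⟨hkO, hkc⟩
  have hsub : ball k r ⊆ E := by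
    intro w hw
    by_contra hwE
    have h1 := hball hw
    have h2 : w.re < c := hOc w h1.1 hwE
    exact lt_asymm h2 h1.2
  have h3 : ball k r ⊆ connectedComponentIn E k :=
    (convex_ball k r).isPreconnected.subset_connectedComponentIn (mem_ball_self hr) hsub
  rw [← connectedComponentIn_eq hk] at h3
  have h4 : k + ((r / 2 : ℝ) : ℂ) ∈ ball k r := by
    rw [mem_ball, dist_eq_norm]
    have : k + ((r / 2 : ℝ) : ℂ) - k = ((r / 2 : ℝ) : ℂ) := by ring
    rw [this, Complex.norm_real, Real.norm_eq_abs, abs_of_pos (by linarith)]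
    linarith
  have h5 : (k + ((r / 2 : ℝ) : ℂ)).re ≤ k.re := hmax (h3 h4)
  simp only [Complex.add_re, Complex.ofReal_re] at h5
  linarith

/-- closed vertical segment -/
def sg (t p q : ℝ) : Set ℂ := {z | z.re = t ∧ p ≤ z.im ∧ z.im ≤ q}

theorem isClosed_sg (t p q : ℝ) : IsClosed (sg t p q) :=
  (isClosed_eq Complex.continuous_re continuous_const).inter
    ((isClosed_le continuous_const Complex.continuous_im).inter
      (isClosed_le Complex.continuous_im continuous_const))

theorem isPreconnected_sg (t p q : ℝ) : IsPreconnected (sg t p q) := by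
  have h : sg t p q = (fun v : ℝ => (⟨t, v⟩ : ℂ)) '' Icc p q := by
    ext z
    constructor
    · rintro ⟨h1, h2, h3⟩
      exact ⟨z.im, ⟨h2, h3⟩, Complex.ext h1.symm rfl⟩
    · rintro ⟨v, hv, rfl⟩
      exact ⟨rfl, hv.1, hv.2⟩
  rw [h]
  refine isPreconnected_Icc.image _ (Continuous.continuousOn ?_)
  have : (fun y : ℝ => (⟨t, y⟩ : ℂ)) = fun y : ℝ => (t : ℂ) + y * Complex.I := by
    ext y; apply Complex.ext <;> simp
  rw [this]; fun_prop

/-- saturation of the segment -/
def Cs (E : Set ℂ) (t p q : ℝ) : Set ℂ := Vb_818.St E (sg t p q)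

theorem Cs_sat (t p q : ℝ) : ∀ z ∈ Cs E t p q, connectedComponentIn E z ⊆ Cs E t p q := by
  intro z hz w hw
  have e : connectedComponentIn E z = connectedComponentIn E w := connectedComponentIn_eq hw
  rcases hz with h | ⟨x, hx, hxs⟩
  · by_cases hzE : z ∈ E
    · exact Or.inr ⟨z, by rw [← e]; exact mem_connectedComponentIn hzE, h⟩
    · rw [connectedComponentIn_eq_empty hzE] at hw; exact hw.elim
  · exact Or.inr ⟨x, by rw [← e]; exact hx, hxs⟩

theorem Cs_preconn {t p q : ℝ} (hpq : p ≤ q) : IsPreconnected (Cs E t p q) := by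
  have h0 : (⟨t, p⟩ : ℂ) ∈ sg t p q := ⟨rfl, le_rfl, hpq⟩
  refine isPreconnected_of_forall (⟨t, p⟩ : ℂ) fun y hy => ?_
  rcases hy with h | ⟨x, hx, hxs⟩
  · exact ⟨sg t p q, fun z hz => Or.inl hz, h0, h, isPreconnected_sg t p q⟩
  · have hyE : y ∈ E := by
      by_contra hyE
      rw [connectedComponentIn_eq_empty hyE] at hx; exact hx.elim
    refine ⟨sg t p q ∪ connectedComponentIn E y, ?_, Or.inl h0,
      Or.inr (mem_connectedComponentIn hyE), ?_⟩
    · refine union_subset (fun z hz => Or.inl hz) fun z hz => ?_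
      exact Or.inr ⟨x, by rw [← connectedComponentIn_eq hz]; exact hx, hxs⟩
    · exact (isPreconnected_sg t p q).union x hxs hx isPreconnected_connectedComponentIn

theorem Cs_Lv (hE : IsExteriorDomain Eᶜ) (t p q : ℝ) :
    Cs E t p q ⊆ Lv E (fun w => w.re) t := by
  intro z hz
  by_cases hzE : z ∈ E
  · obtain ⟨x, hx, hxs⟩ : ∃ x ∈ connectedComponentIn E z, x ∈ sg t p q := by
      rcases hz with h | ⟨x, hx, hxs⟩
      · exact ⟨z, mem_connectedComponentIn hzE, h⟩
      · exact ⟨x, hx, hxs⟩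
    have h1 := lo_re_le hE hzE hx
    have h2 := le_up_re hE hzE hx
    rw [hxs.1] at h1 h2
    exact ⟨h1, h2⟩
  · have h : z.re = t := by
      rcases hz with h | ⟨x, hx, -⟩
      · exact h.1
      · rw [connectedComponentIn_eq_empty hzE] at hx; exact hx.elim
    have hc : ContinuousAt (fun w : ℂ => w.re) z := Complex.continuous_re.continuousAt
    have h1 := lo_of_notMem hE Vb_818.lb_re hzE hc
    have h2 := up_of_notMem hE Vb_818.lb_re hzE hc
    exact ⟨by rw [h1]; exact h.le, by rw [h2]; exact h.ge⟩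

/-- **picture plane: `NI E re w` implies `BVL E w`** -/
theorem bvl_ni (hE : IsExteriorDomain Eᶜ) (sec : Vb_818.Sec E) {w : ℂ → ℝ}
    (hw : LocallyLipschitzOn Eᶜ w) (hwb : LB w) (hNI : NI E (fun z => z.re) w) {𝒥 : Set (Cmp E)}
    (h𝒥 : 𝒥.Countable) (hJA : JJ E (fun z => z.re) ⊆ 𝒥) (hJf : JJ E w ⊆ 𝒥)
    (hU : ∀ R : ℝ, ∫⁻ z in ball 0 R \ E, ENNReal.ofReal |wdg (fun z => z.re) w z| ≠ ∞)
    (hS : ∑' K : 𝒥, ENNReal.ofReal (osp E w (pt K.1)) *
      ENNReal.ofReal (osp E (fun z => z.re) (pt K.1)) ≠ ∞) : BVL E w := by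
  classical
  have hEc : IsCompact E := cpt_of hE
  obtain ⟨RE, hRE⟩ := hEc.isBounded.exists_norm_le
  have hre : LocallyLipschitzOn Eᶜ (fun z : ℂ => z.re) := by
    have : LipschitzWith 1 (fun z : ℂ => z.re) := by
      refine LipschitzWith.of_dist_le_mul fun x y => ?_
      rw [Real.dist_eq, NNReal.coe_one, one_mul, dist_eq_norm, ← Complex.sub_re]
      exact Complex.abs_re_le_norm _
    exact this.locallyLipschitz.locallyLipschitzOn
  refine BVL.mk' fun R => ?_
  obtain ⟨ν, hν1, hν2, hν3⟩ := ni_slice_int (R := |RE| + 2 * |R| + 1) hE hre Vb_818.lb_re hw hwb hNI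
    h𝒥 hJA hJf (hU _) hS
  refine ⟨fun t => 2 * ν t univ, hν1.const_mul 2, ?_, ?_⟩
  · rw [lintegral_const_mul _ hν1]
    refine ENNReal.mul_ne_top ENNReal.ofNat_ne_top ?_
    exact ((setLIntegral_le_lintegral _ _).trans_lt hν2.lt_top).ne
  filter_upwards [hν3] with t ht htR
  -- one step
  have step : ∀ p q : ℝ, p ∈ ln E R t → q ∈ ln E R t → p ≤ q →
      edist (w ⟨t, q⟩) (w ⟨t, p⟩) ≤ ν t (Cs E t p q) := by
    intro p q hp hq hpq
    have hcl : IsClosed (Cs E t p q) := Vb_818.isClosed_St hEc (isClosed_sg t p q)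
    have hbd : ∀ z ∈ Cs E t p q, ‖z‖ ≤ |RE| + 2 * |R| := by
      intro z hz
      by_cases hzE : z ∈ E
      · have h1 := hRE z hzE
        have h2 := le_abs_self RE
        have h3 := abs_nonneg R
        linarith
      · rcases hz with h | ⟨x, hx, -⟩
        · have h1 : ‖z‖ ≤ |z.re| + |z.im| := Complex.norm_le_abs_re_add_abs_im z
          have h2 : |z.re| ≤ R := by rw [h.1]; exact htR
          have h3 : |z.im| ≤ R := abs_le.2 ⟨(abs_le.1 hp.2).1.trans h.2.1,
            h.2.2.trans (abs_le.1 hq.2).2⟩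
          have h4 := le_abs_self R
          have h5 := abs_nonneg RE
          linarith
        · rw [connectedComponentIn_eq_empty hzE] at hx; exact hx.elim
    have hcpt : IsCompact (Cs E t p q) :=
      Metric.isCompact_of_isClosed_isBounded hcl
        ((isBounded_iff_forall_norm_le).2 ⟨_, hbd⟩)
    have h := ht (Cs E t p q) (fun z hz => ⟨Cs_Lv hE t p q hz, by
      rw [mem_ball_zero_iff]; linarith [hbd z hz]⟩) hcpt (Cs_preconn hpq) (Cs_sat t p q)
      ⟨t, q⟩ ⟨Or.inl ⟨rfl, hpq, le_rfl⟩, hq.1⟩ ⟨t, p⟩ ⟨Or.inl ⟨rfl, le_rfl, hpq⟩, hp.1⟩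
    rw [edist_dist, Real.dist_eq]
    exact h
  refine iSup_le fun pr => ?_
  obtain ⟨n, u, hu, hus⟩ := pr
  simp only
  set s : Finset ℕ := (Finset.range n).filter fun i => u i < u (i + 1) with hs
  set D : ℕ → Set ℂ := fun i => Cs E t (u i) (u (i + 1)) \ {(⟨t, u i⟩ : ℂ)} with hD
  have hDm : ∀ i, MeasurableSet (D i) := fun i =>
    (Vb_818.isClosed_St hEc (isClosed_sg _ _ _)).measurableSet.diff (measurableSet_singleton _)
  have hdis : ∀ i j, i < j → Disjoint (D i) (D j) := by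
    intro i j hij
    rw [Set.disjoint_left]
    rintro z ⟨hzi, -⟩ ⟨hzj, hzj'⟩
    have hmono : u (i + 1) ≤ u j := hu hij
    by_cases hzE : z ∈ E
    · have key : ∀ {k : ℕ}, z ∈ Cs E t (u k) (u (k + 1)) →
          ∃ x ∈ connectedComponentIn E z, x ∈ sg t (u k) (u (k + 1)) := by
        intro k h
        rcases h with h | ⟨x, hx, hxR⟩
        · exact ⟨z, mem_connectedComponentIn hzE, h⟩
        · exact ⟨x, hx, hxR⟩
      obtain ⟨x, hx, hx1, hx2, hx3⟩ := key hzi
      obtain ⟨y, hy, hy1, hy2, hy3⟩ := key hzj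
      have h1 : u (i + 1) ∈ {v : ℝ | (⟨t, v⟩ : ℂ) ∈ connectedComponentIn E z} := by
        refine (sec z hzE t).out (x := x.im) (y := y.im) ?_ ?_ ⟨hx3, hmono.trans hy2⟩
        · change (⟨t, x.im⟩ : ℂ) ∈ connectedComponentIn E z
          rw [← hx1]; exact hx
        · change (⟨t, y.im⟩ : ℂ) ∈ connectedComponentIn E z
          rw [← hy1]; exact hy
      exact (hus (i + 1)).1 (connectedComponentIn_subset _ _ h1)
    · have e : connectedComponentIn E z = ∅ := connectedComponentIn_eq_empty hzE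
      have h1 : z ∈ sg t (u i) (u (i + 1)) := by
        rcases hzi with h | ⟨x, hx, -⟩
        · exact h
        · rw [e] at hx; exact hx.elim
      have h2 : z ∈ sg t (u j) (u (j + 1)) := by
        rcases hzj with h | ⟨x, hx, -⟩
        · exact h
        · rw [e] at hx; exact hx.elim
      refine hzj' ?_
      rw [mem_singleton_iff]
      exact Complex.ext h1.1 (le_antisymm (h1.2.2.trans hmono) h2.2.1)
  calc ∑ i ∈ Finset.range n, edist (w ⟨t, u (i + 1)⟩) (w ⟨t, u i⟩)
      = ∑ i ∈ s, edist (w ⟨t, u (i + 1)⟩) (w ⟨t, u i⟩) := by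
        rw [hs, Finset.sum_filter]
        refine Finset.sum_congr rfl fun i _ => ?_
        split_ifs with h
        · rfl
        · rw [le_antisymm (not_lt.1 h) (hu (Nat.le_succ i)), edist_self]
    _ ≤ ∑ i ∈ s, (ν t (D i) + ν t {(⟨t, u i⟩ : ℂ)}) := by
        refine Finset.sum_le_sum fun i _ => ?_
        refine (step _ _ (hus i) (hus (i + 1)) (hu (Nat.le_succ i))).trans ?_
        refine (measure_mono ?_).trans (measure_union_le _ _)
        intro z hz
        by_cases h : z = ⟨t, u i⟩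
        · exact Or.inr h
        · exact Or.inl ⟨hz, h⟩
    _ = ν t (⋃ i ∈ s, D i) + ν t (⋃ i ∈ s, {(⟨t, u i⟩ : ℂ)}) := by
        rw [Finset.sum_add_distrib, measure_biUnion_finset, measure_biUnion_finset]
        · intro i hi j hj hij
          have hi' := (Finset.mem_filter.1 (Finset.mem_coe.1 hi)).2
          have hj' := (Finset.mem_filter.1 (Finset.mem_coe.1 hj)).2
          rw [Function.onFun, disjoint_singleton]
          intro h
          have h' : u i = u j := congrArg Complex.im h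
          rcases lt_or_gt_of_ne hij with h1 | h1
          · have := hu (Nat.succ_le_of_lt h1)
            linarith
          · have := hu (Nat.succ_le_of_lt h1)
            linarith
        · exact fun i _ => measurableSet_singleton _
        · intro i _ j _ hij
          rcases lt_or_gt_of_ne hij with h1 | h1
          · exact hdis i j h1
          · exact (hdis j i h1).symm
        · exact fun i _ => hDm i
    _ ≤ ν t univ + ν t univ := add_le_add (measure_mono (subset_univ _))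
        (measure_mono (subset_univ _))
    _ = 2 * ν t univ := (two_mul _).symm

end pic

end Crest.Agent.R105.Bvl_31
end

-- ▼ part R105/Bvl3_31
section

/-!
# Row 105, S0138, node E13 (499 #11166 (2a)), helper31, part 3: transport to the plane of a picture.

For a package `h : SkA_8.Pk Y x0 b X P` (any picture: `Re P = x0 + X` on `Yᶜ`) and `f ∈ TT Y` with
`NI Y X f`: every `w` with `w ∘ P = f` (or `x0 + f`) on `Yᶜ` has `BVL (P '' Yᶜ)ᶜ w` and
`Bd (P '' Yᶜ)ᶜ w`.
-/

set_option autoImplicit false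

open MeasureTheory Set Filter Topology Metric
open scoped ENNReal NNReal

namespace Crest.Agent.R105.Bvl_31

open Bd_775 Tc_808 Ni_459 Nip_31 Ta_937 Ends_897 Crest.AnalysisR
open IfB_641 (X0)

noncomputable section

/-! ### locally Lipschitz functions on the plane -/

theorem BVL.of_ll {E : Set ℂ} {w : ℂ → ℝ} (hw : LocallyLipschitz w) : BVL E w := by
  refine BVL.mk' fun R => ?_
  obtain ⟨K, hK⟩ := (hw.locallyLipschitzOn (s := closedBall 0 (2 * |R|))).exists_lipschitzOnWith_of_compact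
    (isCompact_closedBall _ _)
  refine ⟨fun _ => K * ENNReal.ofReal (2 * |R|), measurable_const, ?_,
    Eventually.of_forall fun t ht => ?_⟩
  · rw [setLIntegral_const]
    exact ENNReal.mul_ne_top (ENNReal.mul_ne_top ENNReal.coe_ne_top ENNReal.ofReal_ne_top)
      measure_Icc_lt_top.ne
  have hb : ∀ v ∈ ln E R t, (⟨t, v⟩ : ℂ) ∈ closedBall (0 : ℂ) (2 * |R|) := by
    intro v hv
    rw [mem_closedBall_zero_iff]
    refine (Complex.norm_le_abs_re_add_abs_im _).trans ?_
    have h4 : |t| + |v| ≤ R + R := add_le_add ht hv.2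
    have h5 := le_abs_self R
    simp only
    linarith
  have h1 : eVariationOn (fun v : ℝ => w ⟨t, v⟩) (ln E R t) ≤
      K * eVariationOn (fun v : ℝ => v) (ln E R t) + 0 * eVariationOn (fun v : ℝ => v) (ln E R t) := by
    refine eVar_le fun x hx y hy => ?_
    rw [zero_mul, add_zero]
    refine (hK (hb x hx) (hb y hy)).trans (le_of_eq ?_)
    congr 1
    rw [edist_dist, edist_dist, dist_eq_norm, Real.dist_eq]
    congr 1
    have : (⟨t, x⟩ : ℂ) - ⟨t, y⟩ = ((x - y : ℝ) : ℂ) * Complex.I := by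
      apply Complex.ext <;> simp
    rw [this, norm_mul, Complex.norm_I, mul_one, Complex.norm_real, Real.norm_eq_abs]
  rw [zero_mul, add_zero] at h1
  refine h1.trans (mul_le_mul_right ?_ _)
  have h2 : ln E R t ⊆ univ ∩ Icc (-|R|) |R| := fun v hv =>
    ⟨trivial, abs_le.1 (hv.2.trans (le_abs_self R))⟩
  refine (eVariationOn.mono _ h2).trans ?_
  have h3 : MonotoneOn (fun v : ℝ => v) univ := fun a _ b _ hab => hab
  refine (h3.eVariationOn_eq (mem_univ _) (mem_univ _)).le.trans (le_of_eq ?_)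
  congr 1
  ring

/-! ### envelopes of pushed functions -/

section push

variable {U : Set ℂ} {P : ℂ → ℂ} {x0 X f : ℂ → ℝ}

theorem up_push (h : EndMap U (P '' U) P) (f : ℂ → ℝ) (K : Cmp Uᶜ) :
    up (P '' U)ᶜ (push h f) (pt (corE h K)) = up Uᶜ f (pt K) := by
  rw [← up_comp_of_mem h (push h f) K (pt_mem K) (pt_mem (corE h K))]
  exact congrFun (up_congr (Y := Uᶜ) (u := push h f ∘ P) (v := f) fun z hz =>
    push_comp h f (not_not.1 hz)) _

theorem lo_push (h : EndMap U (P '' U) P) (f : ℂ → ℝ) (K : Cmp Uᶜ) :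
    lo (P '' U)ᶜ (push h f) (pt (corE h K)) = lo Uᶜ f (pt K) := by
  rw [← lo_comp_of_mem h (push h f) K (pt_mem K) (pt_mem (corE h K))]
  exact congrFun (lo_congr (Y := Uᶜ) (u := push h f ∘ P) (v := f) fun z hz =>
    push_comp h f (not_not.1 hz)) _

theorem osp_push (h : EndMap U (P '' U) P) (f : ℂ → ℝ) (K : Cmp Uᶜ) :
    osp (P '' U)ᶜ (push h f) (pt (corE h K)) = osp Uᶜ f (pt K) := by
  unfold osp
  rw [up_push, lo_push]

theorem jj_push (h : EndMap U (P '' U) P) (f : ℂ → ℝ) :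
    JJ (P '' U)ᶜ (push h f) ⊆ corE h '' JJ Uᶜ f := by
  intro L hL
  refine ⟨(corE h).symm L, ?_, Equiv.apply_symm_apply _ _⟩
  have h1 : lo (P '' U)ᶜ (push h f) (pt L) ≠ up (P '' U)ᶜ (push h f) (pt L) := hL
  rw [← Equiv.apply_symm_apply (corE h) L, lo_push, up_push] at h1
  exact h1

/-- `re` is the pushed anchor -/
theorem re_eq (h : EndMap U (P '' U) P) {A : ℂ → ℝ} (hre : ∀ z ∈ U, (P z).re = A z) :
    ∀ ζ ∉ (P '' U)ᶜ, (fun w : ℂ => w.re) ζ = push h A ζ := by
  intro ζ hζ
  obtain ⟨z, hz, rfl⟩ := not_not.1 hζ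
  rw [push_comp h A hz]
  exact hre z hz

/-- **`NI` on the `z`-side implies `BVL` in the picture** -/
theorem bvl_push (h : EndMap U (P '' U) P) (hP : Tra_937.Uni U P) (hx : X0 Uᶜ x0)
    (hX : TT Uᶜ X) (hre : ∀ z ∈ U, (P z).re = x0 z + X z)
    (hord : ∀ L : Cmp (P '' U)ᶜ, ∀ t, OrdConnected (Sqr_185.sec L.1 t)) (hf : TT Uᶜ f)
    (hni : NI Uᶜ X f) : BVL (P '' U)ᶜ (push h f) := by
  have hU : IsExteriorDomain Uᶜᶜ := by rw [compl_compl]; exact h.hU
  have hV : IsExteriorDomain (P '' U)ᶜᶜ := by rw [compl_compl]; exact h.hV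
  have sec : Vb_818.Sec (P '' U)ᶜ := fun z hz t => hord (Cmp.of hz) t
  have hw : TT (P '' U)ᶜ (push h f) := tt_push h hP hf
  have hrp := re_eq h (A := fun z => x0 z + X z) hre
  have hni' : NI (P '' U)ᶜ (fun w => w.re) (push h f) := by
    rw [ni_congr hrp fun ζ _ => rfl, ni_push h, ni_x0 hx]
    exact hni
  have hJre : JJ (P '' U)ᶜ (fun w => w.re) = JJ (P '' U)ᶜ (push h fun z => x0 z + X z) := by
    unfold JJ
    rw [up_congr hrp, lo_congr hrp]
  refine bvl_ni hV sec hw.q.loc (tt_lb hw) hni'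
    (𝒥 := (corE h '' JJ Uᶜ X) ∪ (corE h '' JJ Uᶜ f))
    (((jj_countable hU hX).image _).union ((jj_countable hU hf).image _)) ?_ ?_ ?_ ?_
  · rw [hJre]
    refine (jj_push h _).trans ?_
    rw [jj_x0 hx]
    exact subset_union_left
  · exact (jj_push h _).trans subset_union_right
  · intro R
    have hfin : ∫⁻ z in ball 0 R \ (P '' U)ᶜ, ENNReal.ofReal (en (push h f) z) ≠ ∞ := by
      have h1 : IntegrableOn (en (push h f)) (ball 0 R \ (P '' U)ᶜ) :=
        hw.q.fin.mono_set fun z hz => hz.2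
      have h2 := h1.2
      have h3 : ∫⁻ z in ball 0 R \ (P '' U)ᶜ, ENNReal.ofReal (en (push h f) z) =
          ∫⁻ z in ball 0 R \ (P '' U)ᶜ, ‖en (push h f) z‖ₑ := by
        refine lintegral_congr fun z => ?_
        rw [Real.enorm_eq_ofReal (en_nonneg _ _)]
      rw [h3]
      exact h2.ne
    have hre1 : ∀ z, en (fun w : ℂ => w.re) z ≤ 1 := by
      intro z
      have h1 : LipschitzWith 1 (fun z : ℂ => z.re) := by
        refine LipschitzWith.of_dist_le_mul fun x y => ?_
        rw [Real.dist_eq, NNReal.coe_one, one_mul, dist_eq_norm, ← Complex.sub_re]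
        exact Complex.abs_re_le_norm _
      refine (en_le_of_lipschitz h1 z).trans (by simp)
    have h1 : ∫⁻ z in ball 0 R \ (P '' U)ᶜ, ENNReal.ofReal |wdg (fun w => w.re) (push h f) z| ≤
        ∫⁻ z in ball 0 R \ (P '' U)ᶜ, (1 + ENNReal.ofReal (en (push h f) z)) := by
      refine lintegral_mono fun z => ?_
      rw [← ENNReal.ofReal_one, ← ENNReal.ofReal_add zero_le_one (en_nonneg _ _)]
      refine ENNReal.ofReal_le_ofReal ((Bd_775.abs_wdg_le _ _ z).trans ?_)
      have := en_nonneg (push h f) z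
      have := hre1 z
      linarith
    refine ne_top_of_le_ne_top ?_ h1
    rw [lintegral_add_left measurable_const]
    refine ENNReal.add_ne_top.2 ⟨?_, hfin⟩
    rw [setLIntegral_const, one_mul]
    exact ((measure_mono Set.sdiff_subset).trans_lt measure_ball_lt_top).ne
  · have h1 := tt_sum hU hf hX
    have h2 : ∑' L : Cmp (P '' U)ᶜ, ENNReal.ofReal (osp (P '' U)ᶜ (push h f) (pt L)) *
        ENNReal.ofReal (osp (P '' U)ᶜ (fun w => w.re) (pt L)) =
        ∑' K : Cmp Uᶜ, ENNReal.ofReal (osp Uᶜ f (pt K)) * ENNReal.ofReal (osp Uᶜ X (pt K)) := by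
      rw [← Equiv.tsum_eq (corE h)]
      refine tsum_congr fun K => ?_
      have e1 : osp (P '' U)ᶜ (fun w => w.re) (pt (corE h K)) = osp Uᶜ X (pt K) := by
        have : osp (P '' U)ᶜ (fun w => w.re) (pt (corE h K)) =
            osp (P '' U)ᶜ (push h fun z => x0 z + X z) (pt (corE h K)) := by
          unfold osp
          rw [up_congr hrp, lo_congr hrp]
        rw [this, osp_push, osp_x0 hx]
      rw [e1, osp_push]
    rw [← h2] at h1
    refine ne_top_of_le_ne_top h1 ?_
    exact ENNReal.tsum_comp_le_tsum_of_injective Subtype.val_injective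
      (fun L : Cmp (P '' U)ᶜ => ENNReal.ofReal (osp (P '' U)ᶜ (push h f) (pt L)) *
        ENNReal.ofReal (osp (P '' U)ᶜ (fun w => w.re) (pt L)))

/-- functions which vanish near the compact set and are locally Lipschitz off it -/
theorem bvl_push_zero (h : EndMap U (P '' U) P) (hP : Tra_937.Uni U P) (hf : LocallyLipschitzOn U f)
    (h0 : ∀ z ∈ Uᶜ, ∀ᶠ w in 𝓝 z, f w = 0) : BVL (P '' U)ᶜ (push h f) := by
  classical
  set w : ℂ → ℝ := (P '' U).indicator (push h f) with hw
  have hVo : IsOpen (P '' U) := h.hV.1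
  have hl : LocallyLipschitz w := by
    intro ζ
    by_cases hζ : ζ ∈ P '' U
    · obtain ⟨K, t, ht, hK⟩ := loc_push h hP hf hζ
      rw [hVo.nhdsWithin_eq hζ] at ht
      refine ⟨K, t ∩ P '' U, inter_mem ht (hVo.mem_nhds hζ), ?_⟩
      intro x hx y hy
      rw [hw, indicator_of_mem hx.2, indicator_of_mem hy.2]
      exact hK hx.1 hy.1
    · have hζ' : ζ ∈ (P '' U)ᶜ := hζ
      set L : Cmp (P '' U)ᶜ := Cmp.of hζ' with hL
      set K : Cmp Uᶜ := (corE h).symm L with hKdef
      have hKL : corE h K = L := Equiv.apply_symm_apply _ _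
      set O : Set ℂ := interior {z | f z = 0} with hO
      have hKO : K.1 ⊆ O := fun z hz => mem_interior_iff_mem_nhds.2 (h0 z (K.subset hz))
      obtain ⟨O', h1, h2, h3⟩ := exists_nhd_push h K isOpen_interior hKO
      have hζO : ζ ∈ O' := h2 (by rw [hKL]; exact mem_connectedComponentIn hζ')
      refine ⟨0, O', h1.mem_nhds hζO, ?_⟩
      have hz : ∀ x ∈ O', w x = 0 := by
        intro x hx
        by_cases hxV : x ∈ P '' U
        · rw [hw, indicator_of_mem hxV]
          obtain ⟨z, hz, rfl⟩ := hxV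
          rw [push_comp h f hz]
          have h4 : z ∈ {z | f z = 0} := interior_subset (h3 z hz hx)
          exact h4
        · rw [hw, indicator_of_notMem hxV]
      intro x hx y hy
      rw [hz x hx, hz y hy, edist_self]
      exact bot_le
  refine (BVL.of_ll hl).congr fun ζ hζ => ?_
  rw [hw, indicator_of_mem (not_not.1 hζ)]

/-- pushed continuous functions are locally bounded -/
theorem bd_push (h : EndMap U (P '' U) P) (hf : LB f) : Bd (P '' U)ᶜ (push h f) := by
  intro R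
  obtain ⟨ρ, hρ⟩ := h.symm.bdd R
  obtain ⟨C, hC⟩ := hf ρ
  exact ⟨C, fun ζ hζ hR => hC _ (hρ ζ (not_not.1 hζ) hR)⟩

end push

/-! ### real form -/


/-! ### packages -/

section pk

variable {Y : Set ℂ} {x0 φ X f w : ℂ → ℝ} {a b : ℕ → ℂ → ℝ} {F P : ℂ → ℂ}

/-- **test functions (`TT`, `NI Y X f`) have `BVL` in the picture of `x0 + X`** -/
theorem bvl_tt (h : SkA_8.Pk Y x0 b X P) (hf : TT Y f) (hni : NI Y X f)
    (hw : ∀ z ∈ Yᶜ, w (P z) = f z) : BVL (P '' Yᶜ)ᶜ w := by
  have e : Yᶜᶜ = Y := compl_compl Y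
  have hE := Uw6_913.endMap h
  have h1 : BVL (P '' Yᶜ)ᶜ (push hE f) :=
    bvl_push hE (Yv_319.uni_of_pk h) (x0 := x0) (X := X) (by rw [e]; exact h.hx)
      (by rw [e]; exact h.tt) h.re (Uw6_913.picT h).2.ord (by rw [e]; exact hf)
      (by rw [e]; exact hni)
  refine h1.congr fun ζ hζ => ?_
  obtain ⟨z, hz, rfl⟩ := not_not.1 hζ
  rw [push_comp hE f hz, hw z hz]

theorem bvl_x0' (h : SkA_8.Pk Y x0 b X P) (hw : ∀ z ∈ Yᶜ, w (P z) = x0 z) :
    BVL (P '' Yᶜ)ᶜ w := by
  have hE := Uw6_913.endMap h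
  have hl : LocallyLipschitzOn Yᶜ x0 :=
    ((h.hx.sm.of_le (by exact_mod_cast le_top) : ContDiff ℝ 1 x0).locallyLipschitz).locallyLipschitzOn
  have h1 : BVL (P '' Yᶜ)ᶜ (push hE x0) := by
    refine bvl_push_zero hE (Yv_319.uni_of_pk h) hl fun z hz => ?_
    have h2 : z ∉ tsupport x0 := fun h3 => hz (h.hx.zero h3)
    filter_upwards [(isClosed_tsupport x0).isOpen_compl.mem_nhds h2] with w hw
    exact image_eq_zero_of_notMem_tsupport hw
  refine h1.congr fun ζ hζ => ?_
  obtain ⟨z, hz, rfl⟩ := not_not.1 hζ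
  rw [push_comp hE x0 hz, hw z hz]

/-- **`x0 + f`** -/
theorem bvl_x0 (h : SkA_8.Pk Y x0 b X P) (hf : TT Y f) (hni : NI Y X f)
    (hw : ∀ z ∈ Yᶜ, w (P z) = x0 z + f z) : BVL (P '' Yᶜ)ᶜ w := by
  have hE := Uw6_913.endMap h
  have h1 : BVL (P '' Yᶜ)ᶜ (push hE x0) :=
    bvl_x0' h fun z hz => push_comp hE x0 hz
  have h2 : BVL (P '' Yᶜ)ᶜ (push hE f) :=
    bvl_tt h hf hni fun z hz => push_comp hE f hz
  refine (h1.add h2).congr fun ζ hζ => ?_
  obtain ⟨z, hz, rfl⟩ := not_not.1 hζ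
  rw [push_comp hE x0 hz, push_comp hE f hz, hw z hz]

theorem bd_of (h : SkA_8.Pk Y x0 b X P) (hf : LB f) (hw : ∀ z ∈ Yᶜ, w (P z) = f z) :
    Bd (P '' Yᶜ)ᶜ w := by
  have hE := Uw6_913.endMap h
  intro R
  obtain ⟨C, hC⟩ := bd_push hE hf R
  refine ⟨C, fun ζ hζ hR => ?_⟩
  have h1 := hC ζ hζ hR
  obtain ⟨z, hz, rfl⟩ := not_not.1 hζ
  rwa [push_comp hE f hz, ← hw z hz] at h1

theorem bd_x0 (h : SkA_8.Pk Y x0 b X P) (hf : TT Y f) (hw : ∀ z ∈ Yᶜ, w (P z) = x0 z + f z) :
    Bd (P '' Yᶜ)ᶜ w := bd_of h (lb_x0 h.hx hf) hw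

theorem bd_tt (h : SkA_8.Pk Y x0 b X P) (hf : TT Y f) (hw : ∀ z ∈ Yᶜ, w (P z) = f z) :
    Bd (P '' Yᶜ)ᶜ w := bd_of h (tt_lb hf) hw


/-- **`x = Re F` along the vertical lines of the picture of the anchor `a i`** -/
theorem bvl_x (h : SkA_8.Pk Y x0 a φ F) {i : ℕ} (hi : SkA_8.Pk Y x0 b (a i) P)
    (hw : ∀ z ∈ Yᶜ, w (P z) = (F z).re) : BVL (P '' Yᶜ)ᶜ w :=
  bvl_x0 hi h.tt (h.com i) fun z hz => (hw z hz).trans (h.re z hz)

/-- **`u = x0 + a i = Re P` along the vertical lines of the final picture** -/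
theorem bvl_u (h : SkA_8.Pk Y x0 a φ F) {i : ℕ} (hi : SkA_8.Pk Y x0 b (a i) P)
    (hw : ∀ z ∈ Yᶜ, w (F z) = (P z).re) : BVL (F '' Yᶜ)ᶜ w :=
  bvl_x0 h (h.tta i) (Grd_782.NI_symm (h.com i)) fun z hz => (hw z hz).trans (hi.re z hz)



end pk

end

end Crest.Agent.R105.Bvl_31
end

-- ▼ part R105/Bvy1_253

/-!
# Row 105, S0138, node E13 (499 #11166 (2a)), helper253: `y` has bounded variation along the
vertical lines of the picture of an extremal anchor

* `var_line` : 818's `LineBd` bounds the variation on the part of the line off `E`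
* `bvl_ly`   : 319's `LY` for a.e. line implies 31's `BVL`
* `bvl_y`    : `BVL` of `Im F ∘ P⁻¹` (319's `yP`)
-/

set_option autoImplicit false

open MeasureTheory Set Filter Topology Metric
open scoped ENNReal NNReal

namespace Crest.Agent.R105.Bvy_253

open Tc_808 Bd_775 Sqr_185 Ends_897 Vb_818 Bvl_31
open Pct_185 (Sol)

noncomputable section

/-- the variation on a line from the line inequality -/
theorem var_line {E : Set ℂ} {g : ℂ → ℝ} {t : ℝ} {m : ℝ → ℝ≥0∞} {w : Cmp E → ℝ≥0∞}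
    (hord : ∀ L : Cmp E, ∀ t, OrdConnected (sec L.1 t)) (h : LineBd E g t m w) (R : ℝ) :
    eVariationOn (fun v : ℝ => g ⟨t, v⟩) (ln E R t) ≤
      (∫⁻ v in Icc (-R) R ∩ {v | (⟨t, v⟩ : ℂ) ∉ E}, m v) + ∑' K, w K := by
  classical
  refine iSup_le fun p => ?_
  obtain ⟨n, u, hu, hus⟩ := p
  simp only
  set N : Set ℝ := {v | (⟨t, v⟩ : ℂ) ∉ E} with hN
  -- one step
  have step : ∀ i, edist (g ⟨t, u (i + 1)⟩) (g ⟨t, u i⟩) ≤
      (∫⁻ v in Ioo (u i) (u (i + 1)) ∩ N, m v) +
        ∑' K : Cmp E, if ∃ y ∈ Ioo (u i) (u (i + 1)), (⟨t, y⟩ : ℂ) ∈ K.1 then w K else 0 := by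
    intro i
    rcases (hu (Nat.le_succ i)).lt_or_eq with hlt | heq
    · have h1 := h.bd (u i) (u (i + 1)) hlt (hus i).1 (hus (i + 1)).1
      rw [edist_dist, Real.dist_eq]
      refine h1.trans (add_le_add le_rfl (le_of_eq ?_))
      have h2 := tsum_subtype {K : Cmp E | ∃ y ∈ Ioo (u i) (u (i + 1)), (⟨t, y⟩ : ℂ) ∈ K.1} w
      refine h2.trans (tsum_congr fun K => ?_)
      simp only [indicator, mem_ofPred_eq]
    · have : g ⟨t, u (i + 1)⟩ = g ⟨t, u i⟩ := by rw [← heq]
      rw [this, edist_self]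
      exact zero_le
  refine (Finset.sum_le_sum fun i _ => step i).trans ?_
  rw [Finset.sum_add_distrib]
  refine add_le_add ?_ ?_
  · -- the absolutely continuous part
    set ν : Measure ℝ := (volume.restrict N).withDensity m with hν
    have hNE : MeasurableSet (Ioo (0:ℝ) 1) := measurableSet_Ioo
    have e : ∀ A : Set ℝ, MeasurableSet A → ∫⁻ v in A ∩ N, m v = ν A := by
      intro A hA
      rw [hν, withDensity_apply _ hA, Measure.restrict_restrict hA]
    have h1 : ∑ i ∈ Finset.range n, ∫⁻ v in Ioo (u i) (u (i + 1)) ∩ N, m v =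
        ν (⋃ i ∈ Finset.range n, Ioo (u i) (u (i + 1))) := by
      have hd : ∀ i j, i ≠ j → Disjoint (Ioo (u i) (u (i + 1))) (Ioo (u j) (u (j + 1))) :=
        fun i j hij => hu.pairwise_disjoint_on_Ioo_succ hij
      rw [measure_biUnion_finset (fun i _ j _ hij => hd i j hij) (fun i _ => measurableSet_Ioo)]
      exact Finset.sum_congr rfl fun i _ => e _ measurableSet_Ioo
    rw [h1, e _ measurableSet_Icc]
    refine measure_mono (iUnion₂_subset fun i _ v hv => ?_)
    have h2 := abs_le.1 (hus i).2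
    have h3 := abs_le.1 (hus (i + 1)).2
    exact ⟨h2.1.trans hv.1.le, hv.2.le.trans h3.2⟩
  · rw [← Summable.tsum_finsetSum (fun i _ => ENNReal.summable)]
    refine ENNReal.tsum_le_tsum fun K => ?_
    -- at most one step meets `K`
    rw [← Finset.sum_filter, Finset.sum_const, nsmul_eq_mul]
    have hcard : (Finset.filter (fun i => ∃ y ∈ Ioo (u i) (u (i + 1)), (⟨t, y⟩ : ℂ) ∈ K.1)
        (Finset.range n)).card ≤ 1 := by
      rw [Finset.card_le_one]
      have key : ∀ i j, i < j → (∃ y ∈ Ioo (u i) (u (i + 1)), (⟨t, y⟩ : ℂ) ∈ K.1) →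
          (∃ y ∈ Ioo (u j) (u (j + 1)), (⟨t, y⟩ : ℂ) ∈ K.1) → False := by
        rintro i j hij ⟨y, hy, hyK⟩ ⟨y', hy', hyK'⟩
        have h1 : u (i + 1) ≤ u j := hu hij
        have h2 : u (i + 1) ∈ sec K.1 t := (hord K t).out hyK hyK' ⟨hy.2.le, h1.trans hy'.1.le⟩
        exact (hus (i + 1)).1 (K.subset h2)
      intro i hi j hj
      rw [Finset.mem_filter] at hi hj
      rcases lt_trichotomy i j with hij | hij | hij
      · exact (key i j hij hi.2 hj.2).elim
      · exact hij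
      · exact (key j i hij hj.2 hi.2).elim
    calc _ ≤ (1 : ℝ≥0∞) * w K := by
          gcongr
          exact_mod_cast hcard
      _ = w K := one_mul _

/-- **`BVL` from the line inequality of 319** -/
theorem bvl_ly {E : Set ℂ} {y : ℂ → ℝ} {s : Cmp E → ℝ} (hE : IsCompact E)
    (hord : ∀ L : Cmp E, ∀ t, OrdConnected (sec L.1 t))
    (hsum : Summable fun L : Cmp E => wd L.1 ^ 2) (hs0 : ∀ L, 0 ≤ s L)
    (hs : Summable fun L => s L ^ 2) (hy : Yv_319.YD E y) (hL : ∀ᵐ t : ℝ, LY E y s t) :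
    BVL E y := by
  classical
  have hEm : MeasurableSet E := hE.isClosed.measurableSet
  have hcs : Countable (Sol E) := Pct_185.countable_sol hsum
  refine BVL.mk' fun R => ?_
  set S : ℂ → ℝ := (Eᶜ ∩ closedBall (0:ℂ) (2 * |R|)).indicator (gy y) with hS
  have hSm : Measurable S := (Bd_775.measurable_gy y).indicator
    (hEm.compl.inter isClosed_closedBall.measurableSet)
  have hSi : Integrable S := by
    rw [hS, integrable_indicator_iff (hEm.compl.inter isClosed_closedBall.measurableSet)]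
    exact Yv_319.integrableOn_gy' hy _
  have hmk : Measurable fun p : ℝ × ℝ => (⟨p.1, p.2⟩ : ℂ) :=
    Complex.measurableEquivRealProd.symm.measurable
  have hSm2 : Measurable fun p : ℝ × ℝ => ‖S ⟨p.1, p.2⟩‖ₑ := (hSm.comp hmk).enorm
  refine ⟨fun t => (∫⁻ v : ℝ, ‖S ⟨t, v⟩‖ₑ) + ∑' L : Sol E, wl E s t L.1, ?_, ?_, ?_⟩
  · refine (hSm2.lintegral_prod_right').add (Measurable.tsum fun L => ?_)
    unfold wl
    exact Measurable.ite (by
      by_cases h : 0 < wd L.1.1
      · simp only [h, true_and]; exact measurableSet_Icc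
      · simp only [h, false_and]; exact MeasurableSet.const False) measurable_const measurable_const
  · have h1 : ∫⁻ t : ℝ, ∫⁻ v : ℝ, ‖S ⟨t, v⟩‖ₑ ≠ ∞ := by
      have mp := Complex.volume_preserving_equiv_real_prod.symm
      have h2 : Integrable (fun p : ℝ × ℝ => S ⟨p.1, p.2⟩) ((volume : Measure ℝ).prod volume) :=
        mp.integrable_comp_of_integrable hSi
      have h3 := h2.2
      rw [hasFiniteIntegral_iff_enorm, lintegral_prod _ hSm2.aemeasurable] at h3
      exact h3.ne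
    have h2 : ∫⁻ t : ℝ, ∑' L : Sol E, wl E s t L.1 ≠ ∞ := by
      have hm : ∀ L : Sol E, Measurable fun t => wl E s t L.1 := by
        intro L
        unfold wl
        exact Measurable.ite (by
          by_cases h : 0 < wd L.1.1
          · simp only [h, true_and]; exact measurableSet_Icc
          · simp only [h, false_and]; exact MeasurableSet.const False) measurable_const
            measurable_const
      rw [lintegral_tsum fun L => (hm L).aemeasurable]
      have h3 : ∀ L : Sol E, ∫⁻ t : ℝ, wl E s t L.1 ≤ ENNReal.ofReal (s L.1 * wd L.1.1) := by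
        intro L
        have h4 : ∀ t, wl E s t L.1 =
            (Icc (lo L.1.1) (hi L.1.1)).indicator (fun _ => ENNReal.ofReal (s L.1)) t := by
          intro t
          unfold wl
          by_cases h : t ∈ Icc (lo L.1.1) (hi L.1.1)
          · rw [indicator_of_mem h, if_pos ⟨L.2, h⟩]
          · rw [indicator_of_notMem h, if_neg fun hh => h hh.2]
        simp_rw [h4]
        rw [lintegral_indicator measurableSet_Icc, setLIntegral_const, Real.volume_Icc,
          ← ENNReal.ofReal_mul (hs0 _)]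
        exact le_rfl
      refine ne_top_of_le_ne_top ?_ (ENNReal.tsum_le_tsum h3)
      have h5 : Summable fun L : Sol E => s L.1 * wd L.1.1 := by
        have h6 : Summable fun L : Cmp E => s L ^ 2 + wd L.1 ^ 2 := hs.add hsum
        refine Summable.of_nonneg_of_le (fun L => mul_nonneg (hs0 _) L.2.le) (fun L => ?_)
          (h6.comp_injective (i := fun L : Sol E => L.1) Subtype.val_injective)
        simp only [Function.comp]
        nlinarith [sq_nonneg (s L.1 - wd L.1.1), sq_nonneg (s L.1), sq_nonneg (wd L.1.1)]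
      rw [← ENNReal.ofReal_tsum_of_nonneg (fun L => mul_nonneg (hs0 _) L.2.le) h5]
      exact ENNReal.ofReal_ne_top
    refine ne_top_of_le_ne_top ?_ (lintegral_mono' Measure.restrict_le_self le_rfl)
    rw [lintegral_add_left hSm2.lintegral_prod_right']
    exact ENNReal.add_ne_top.2 ⟨h1, h2⟩
  · filter_upwards [hL] with t ht hR
    have h1 := var_line hord (lineBd_of_ly hE hs0 ht) R
    refine h1.trans (add_le_add ?_ ?_)
    · have hAm : MeasurableSet (Icc (-R) R ∩ {v | (⟨t, v⟩ : ℂ) ∉ E}) :=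
        measurableSet_Icc.inter ((measurable_mk t) hEm.compl)
      rw [← lintegral_indicator hAm]
      refine lintegral_mono fun v => ?_
      by_cases hv : v ∈ Icc (-R) R ∩ {v | (⟨t, v⟩ : ℂ) ∉ E}
      · rw [indicator_of_mem hv]
        unfold ml
        have h2 : (⟨t, v⟩ : ℂ) ∈ closedBall (0:ℂ) (2 * |R|) := by
          rw [mem_closedBall_zero_iff]
          refine (Complex.norm_le_abs_re_add_abs_im _).trans ?_
          have h4 : |t| + |v| ≤ R + R := add_le_add hR (abs_le.2 hv.1)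
          have h5 := le_abs_self R
          simp only
          linarith
        rw [indicator_of_mem (show (⟨t, v⟩ : ℂ) ∈ Eᶜ from hv.2), hS,
          indicator_of_mem (show (⟨t, v⟩ : ℂ) ∈ Eᶜ ∩ closedBall 0 (2 * |R|) from ⟨hv.2, h2⟩)]
      · rw [indicator_of_notMem hv]; exact zero_le
    · refine le_of_eq (tsum_subtype_eq_of_support_subset (s := {K : Cmp E | 0 < wd K.1}) ?_).symm
      intro K hK
      by_contra hcon
      exact hK (if_neg fun hh => hcon hh.1)

open IfB_641 in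
/-- **`Im F` has bounded variation along the lines of the picture of an extremal anchor** -/
theorem bvl_y {Y : Set ℂ} {x0 φ : ℂ → ℝ} {a b : ℕ → ℂ → ℝ} {F P : ℂ → ℂ}
    (h : SkA_8.Pk Y x0 a φ F) {i : ℕ} (hi : SkA_8.Pk Y x0 b (a i) P) :
    BVL (P '' Yᶜ)ᶜ (Yv_319.yP (Uw6_913.endMap hi) F) := by
  have e : Yᶜᶜ = Y := compl_compl Y
  have hPic := (Uw6_913.picT hi).2
  have hφ : TT Yᶜᶜ φ := by rw [e]; exact h.tt
  exact bvl_ly hPic.cpt hPic.ord hPic.sum (Yv_319.sP_nonneg _) (Yv_319.sP_summable _ hφ)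
    (Yv_319.yd_yP (Uw6_913.endMap hi) (Yv_319.uni_of_pk hi) h.hol (Uw6_913.endMap h).bdd
      (Yv_319.energy_of_pk h)) (Yv_319.line_im h hi)

end

end Crest.Agent.R105.Bvy_253
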