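import Crest.Agent.R105.Coa4_392
import Crest.Agent.R105.Bd1_775
import Mathlib
import Crest.Agent.R105.Stk1_939
import Crest.Agent.R105.Dir3_508

-- ▼ part R105/Coa5_392
section

/-!
# Row 105, S0138, T2 of #10219 (helper392): area inequality with the Jacobian `wdg`
-/

set_option autoImplicit false

open MeasureTheory Set Filter Topology Metric
open scoped ENNReal NNReal

namespace Crest.Agent.R105.Coa_392

open Bd_775



theorem wdg_le (a b : ℂ → ℝ) (z : ℂ) : |wdg a b z| ≤ ‖fderiv ℝ a z‖ * ‖fderiv ℝ b z‖ := by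
  have := det_le (fderiv ℝ a z) (fderiv ℝ b z)
  simpa [wdg, gx, gy] using this


end Crest.Agent.R105.Coa_392
end

-- ▼ part R105/LmS1_392
section

/-!
# Row 105, S0138, LEMMA Y (338 #10444), slices, part 1 (helper392)

`tau a g` tangential derivative along the levels of `a`, test class `Lc1`, Stokes, chain rule for
`G(a)` with `G' = 1_T`, Bochner form of the coarea formula.
-/

set_option autoImplicit false

open MeasureTheory Set Filter Topology Metric
open scoped ENNReal NNReal ContDiff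

namespace Crest.Agent.R105.LmS_392

open Bd_775 Coa_392

noncomputable section

/-- tangential derivative of `g` along the levels of `a` -/
def tau (a g : ℂ → ℝ) (z : ℂ) : ℝ := wdg a g z / ‖fderiv ℝ a z‖











/-- test functions: `C¹`, locally constant near `Y` -/
structure Lc1 (Y : Set ℂ) (χ : ℂ → ℝ) : Prop where
  sm : ContDiff ℝ 1 χ
  lc : ∀ z ∈ Y, ∀ᶠ w in 𝓝 z, χ w = χ z

lemma Lc1.tsupp {Y : Set ℂ} {χ : ℂ → ℝ} (h : Lc1 Y χ) : tsupport (fderiv ℝ χ) ⊆ Yᶜ := by
  intro z hz hzY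
  refine absurd hz (notMem_tsupport_iff_eventuallyEq.2 ?_)
  filter_upwards [(h.lc z hzY).eventually_nhds] with w hw
  have : χ =ᶠ[𝓝 w] fun _ => χ z := hw
  rw [this.fderiv_eq]
  simp

lemma Lc1.diff {Y : Set ℂ} {χ : ℂ → ℝ} (h : Lc1 Y χ) (z : ℂ) : DifferentiableAt ℝ χ z :=
  (h.sm.differentiable one_ne_zero) z

lemma lip_of_c1 {χ : ℂ → ℝ} (h : ContDiff ℝ 1 χ) (hc : HasCompactSupport χ) :
    ∃ C, LipschitzWith C χ := h.lipschitzWith_of_hasCompactSupport hc one_ne_zero

/-- **Stokes**: `∫_U dF ∧ dχ = 0`, `F` locally Lipschitz on `U`, `dχ` compactly supported in `U` -/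
theorem stokes {U : Set ℂ} (hU : IsOpen U) {F χ : ℂ → ℝ} (hF : LocallyLipschitzOn U F)
    (h1 : ContDiff ℝ 1 χ) (hc : HasCompactSupport χ) (hsub : tsupport (fderiv ℝ χ) ⊆ U) :
    ∫ z in U, wdg F χ z = 0 := by
  obtain ⟨κ, c1, c2, c3, c4, -⟩ := Dir_508.exists_cutoff ((hc.fderiv ℝ).isCompact) hU hsub
  obtain ⟨C, hC⟩ := Dir_508.lipschitz_mul hF c1 c2 c3
  obtain ⟨D, hD⟩ := lip_of_c1 h1 hc
  set f : ℂ → ℝ := fun z => κ z * F z with hf
  have e1 : ∀ z, wdg F χ z = fderiv ℝ f z 1 * fderiv ℝ χ z Complex.I -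
      fderiv ℝ f z Complex.I * fderiv ℝ χ z 1 := by
    intro z
    by_cases hz : z ∈ tsupport (fderiv ℝ χ)
    · have h5 : f =ᶠ[𝓝 z] F := by
        filter_upwards [(eventually_nhdsSet_iff_forall.1 c4) z hz] with w hw
        rw [hf]; simp only [hw, one_mul]
      unfold wdg gx gy
      rw [h5.fderiv_eq]
    · unfold wdg gx gy
      rw [image_eq_zero_of_notMem_tsupport hz]
      simp
  have e2 : ∫ z in U, wdg F χ z = ∫ z, wdg F χ z := by
    refine setIntegral_eq_integral_of_forall_compl_eq_zero fun z hz => ?_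
    rw [e1, image_eq_zero_of_notMem_tsupport fun h => hz (hsub h)]
    simp
  rw [e2]
  simp only [e1]
  exact Stk_939.stokes_cpt hC c2.mul_right hD hc

/-! ### the primitive of `1_T` -/








/-! ### Bochner form of the coarea formula -/


end

end Crest.Agent.R105.LmS_392
end

-- ▼ part R105/LmS2_392

/-!
# Row 105, S0138, LEMMA Y (338 #10444), slices, part 2 (helper392): one test function
-/

set_option autoImplicit false

open MeasureTheory Set Filter Topology Metric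
open scoped ENNReal NNReal ContDiff

namespace Crest.Agent.R105.LmS_392

open Bd_775 Coa_392

noncomputable section

variable {U : Set ℂ} {a y g χ : ℂ → ℝ} {m : ℝ → Measure ℂ}

lemma bound_fderiv (hU : IsOpen U) (ha : LocallyLipschitzOn U a) {K : Set ℂ} (hK : IsCompact K)
    (hKU : K ⊆ U) : ∃ C : ℝ, 0 ≤ C ∧ ∀ z ∈ K, ‖fderiv ℝ a z‖ ≤ C := by
  obtain ⟨κ, c1, c2, c3, c4, -⟩ := Dir_508.exists_cutoff hK hU hKU
  obtain ⟨C, hC⟩ := Dir_508.lipschitz_mul ha c1 c2 c3
  refine ⟨C, C.2, fun z hz => ?_⟩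
  have h5 : (fun w => κ w * a w) =ᶠ[𝓝 z] a := by
    filter_upwards [(eventually_nhdsSet_iff_forall.1 c4) z hz] with w hw
    simp only [hw, one_mul]
  rw [← h5.fderiv_eq]
  exact norm_fderiv_le_of_lipschitz ℝ hC

/-- `|du ∧ dχ|` is integrable if `dχ` is compactly supported in `U` -/
lemma lint_wdg (hU : IsOpen U) (ha : LocallyLipschitzOn U a) (h1 : ContDiff ℝ 1 χ)
    (hc : HasCompactSupport χ) (hsub : tsupport (fderiv ℝ χ) ⊆ U) :
    ∫⁻ z in U, ‖wdg a χ z‖ₑ ≠ ⊤ := by
  obtain ⟨D, hD⟩ := lip_of_c1 h1 hc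
  have hK := (hc.fderiv ℝ).isCompact
  obtain ⟨C, hC0, hC⟩ := bound_fderiv hU ha hK hsub
  have h2 : ∫⁻ z in U, ‖wdg a χ z‖ₑ ≤
      ∫⁻ z, (tsupport (fderiv ℝ χ)).indicator (fun _ => ENNReal.ofReal (C * D)) z := by
    refine (setLIntegral_le_lintegral U _).trans (lintegral_mono fun z => ?_)
    by_cases hz : z ∈ tsupport (fderiv ℝ χ)
    · rw [indicator_of_mem hz, ← ofReal_norm]
      refine ENNReal.ofReal_le_ofReal ?_
      rw [Real.norm_eq_abs]
      exact (wdg_le a χ z).trans (mul_le_mul (hC z hz) (norm_fderiv_le_of_lipschitz ℝ hD)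
        (norm_nonneg _) hC0)
    · rw [indicator_of_notMem hz]
      have : wdg a χ z = 0 := by
        unfold wdg gx gy
        rw [image_eq_zero_of_notMem_tsupport hz]; simp
      rw [this]; simp
  refine ne_top_of_le_ne_top ?_ h2
  rw [lintegral_indicator hK.measurableSet, setLIntegral_const]
  exact ENNReal.mul_ne_top ENNReal.ofReal_ne_top hK.measure_lt_top.ne








lemma ll_mul' {O : Set ℂ} {u v : ℂ → ℝ} (hu : LocallyLipschitzOn O u)
    (hv : LocallyLipschitzOn O v) : LocallyLipschitzOn O fun z => u z * v z := by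
  intro z hz
  obtain ⟨K, s, hs, h1⟩ := hu hz
  obtain ⟨L, t, ht, h2⟩ := hv hz
  have c1 : ∀ᶠ w in 𝓝[O] z, |u w| < |u z| + 1 :=
    (hu.continuousOn z hz).abs.eventually (gt_mem_nhds (by linarith))
  have c2 : ∀ᶠ w in 𝓝[O] z, |v w| < |v z| + 1 :=
    (hv.continuousOn z hz).abs.eventually (gt_mem_nhds (by linarith))
  set A : ℝ := |u z| + 1 with hA
  set B : ℝ := |v z| + 1 with hB
  have hA0 : 0 ≤ A := by positivity
  have hB0 : 0 ≤ B := by positivity
  refine ⟨Real.toNNReal (A * L + B * K), (s ∩ t) ∩ {w | |u w| < A ∧ |v w| < B},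
    inter_mem (inter_mem hs ht) (c1.and c2), LipschitzOnWith.of_dist_le_mul fun p hp q hq => ?_⟩
  have h3 := h1.dist_le_mul p hp.1.1 q hq.1.1
  have h4 := h2.dist_le_mul p hp.1.2 q hq.1.2
  rw [Real.dist_eq] at *
  have e : u p * v p - u q * v q = u p * (v p - v q) + v q * (u p - u q) := by ring
  rw [e, Real.coe_toNNReal _ (by positivity)]
  refine (abs_add_le _ _).trans ?_
  rw [abs_mul, abs_mul]
  have h5 : |u p| * |v p - v q| ≤ A * (L * dist p q) :=
    mul_le_mul hp.2.1.le h4 (abs_nonneg _) hA0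
  have h6 : |v q| * |u p - u q| ≤ B * (K * dist p q) :=
    mul_le_mul hq.2.2.le h3 (abs_nonneg _) hB0
  linarith


end

end Crest.Agent.R105.LmS_392
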