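import Crest.Agent.R105.Nie6_909_Mg
import Crest.Agent.R105.Gl3_395

/-!
# Row 105, S0138: THE ONE JOIN (helper987), parametric in the kind `Om` of the anchors

`Om Y x0 a` = any property of the anchors which attainment provides (`ATTo Om`):
* `Ext` : every anchor is itself a minimiser (395's `attain_ext`): **the package of record**,
* `Cst` : compactly supported anchors (895's `attainp_cs`).

`LIMPo Om`, `PLAPo Om`, `STRPo Om Str` = 987's `LIMP`, `PLAP`, `STRP` for packages of kind `Om`;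
`limpo_of`, `plapo_of` : from the facts `LYo`, `HCo`, `ATNo` about ONE anchor (909's `limp_i`);
`s0138_of_om`, `s0138_of_ext`.
-/

set_option autoImplicit false

open MeasureTheory Set Filter Topology Metric
open scoped NNReal ENNReal ContDiff

namespace Crest.Agent.R105.Jex_987

open Crest.AnalysisR Tc_808 Ni_459 Ends_897
open IfB_641 (X0)
open Cq_463 (Sqr)
open Skp2_257 (Comps)
open Tra_937 (setR toC)
open Pct_185 (PicT)
open Exs_992 (LimOf)
open Ta_937 (sqs hrs)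
open SkT1_137 (TFin Carr StrT LEMAQ STEPQ)
open Nal_649 (FamQ)
open SkA_8 (Pk)
open Psq_425 (LimAt PlaLim StrQ StrQs)
open SkJ_987
open Nie_909 (LYi HCi ATNi)
open Yv_319 (ExtA)

noncomputable section

/-- a kind of anchors -/
abbrev Kind := Set ℂ → (ℂ → ℝ) → (ℕ → ℂ → ℝ) → Prop

/-- extremal anchors -/
def Ext : Kind := fun Y x0 a => ∀ i, ExtA Y x0 (a i)


/-- attainment of a package of kind `Om` -/
def ATTo (Om : Kind) : Prop := ∀ Y x0, IsExteriorDomain Yᶜ → X0 Y x0 →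
  ∃ a φ F, Pk Y x0 a φ F ∧ Om Y x0 a

theorem att_ext : ATTo Ext := fun _ _ hY hx => Gl_395.attain_ext hY hx


/-- a statement about one package of kind `Om` with its picture -/
def ForPk (Om : Kind)
    (R : Set ℂ → (ℂ → ℝ) → (ℕ → ℂ → ℝ) → (ℂ → ℝ) → (ℂ → ℂ) → Prop) : Prop :=
  ∀ (U : Set ℂ) (x0 : ℂ → ℝ) (a : ℕ → ℂ → ℝ) (φ : ℂ → ℝ) (F : ℂ → ℂ), Pk Uᶜ x0 a φ F →
    Om Uᶜ x0 a → InjOn F U → PicT (F '' U)ᶜ → R U x0 a φ F

/-- Lemma Y, for every anchor -/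
def LYo (Om : Kind) : Prop := ForPk Om fun U x0 a φ F => ∀ i, LYi U x0 φ (a i) F

/-- the anchors jump at the solids only -/
def HCo (Om : Kind) : Prop := ForPk Om fun U _ a φ _ => ∀ i, HCi U φ (a i)

/-- a.e. level of every anchor meets a solid at its square only -/
def ATNo (Om : Kind) : Prop := ForPk Om fun U x0 a _ F => ∀ i, ATNi U x0 (a i) F

/-- `STRP` for packages of kind `Om` -/
def STRPo (Om : Kind) (Str : StrT) : Prop := ForPk Om fun U _ a _ F =>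
  ∀ g Bm Bp, FamQ (PE U F) g Bm Bp → ∀ ψ,
    Str (PE U F) (sqs (F '' U)ᶜ) (hrs (F '' U)ᶜ) g Bm Bp ψ → AdmP U a F ψ

/-- `LIMP` for packages of kind `Om` -/
def LIMPo (Om : Kind) : Prop := ForPk Om fun U _ a _ F =>
  ∀ (S : ℕ → ℝ × ℝ → ℝ) (ψ : ℝ × ℝ → ℝ) (c : Sqr → ℝ) (o : Set (ℝ × ℝ) → ℝ),
    LimOf (PE U F) (hrs (F '' U)ᶜ) S ψ → (∀ Q, 0 ≤ c Q) →
    (Summable fun Q : sqs (F '' U)ᶜ => c Q.1 ^ 2) →
    (∀ m, ∀ Q ∈ sqs (F '' U)ᶜ, Cq_463.ch (PE U F) univ (S m) Q ≤ c Q) → TFin (PE U F) ψ o →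
    (∀ P ∈ Comps (PE U F), (∀ Q ∈ sqs (F '' U)ᶜ, ¬ Q.car ⊆ P) → o P = 0) → AdmP U a F ψ

/-- `PLAP` for packages of kind `Om` -/
def PLAPo (Om : Kind) : Prop := ForPk Om fun U _ a _ F =>
  ∀ (f : ℝ × ℝ → ℝ) (o : Set (ℝ × ℝ) → ℝ),
    PlaLim (PE U F) (sqs (F '' U)ᶜ) f → TCont (PE U F) f o → AdmP U a F f




/-- **`LIMP` from the facts about one anchor** (909's `limp_i`) -/
theorem limpo_of {Om : Kind} (hL : LYo Om) (hH : HCo Om) (hA : ATNo Om) : LIMPo Om := by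
  intro U x0 a φ F h hO hi hP S ψ c o a1 a2 a3 a4 a5 a6 i
  have hU : IsExteriorDomain U := by have := h.hY; rwa [compl_compl] at this
  exact Nie_909.limp_i hU h hi hP i (hL U x0 a φ F h hO hi hP i) (hH U x0 a φ F h hO hi hP i)
    (hA U x0 a φ F h hO hi hP i) a1 a2 a3 a4 a5

/-- `STRP` from `PLAP` -/
theorem strpo_of {Om : Kind} (hPL : PLAPo Om) : STRPo Om StrQ := by
  intro U x0 a φ F h hO hi hP g Bm Bp hg ψ hS
  have hU : IsExteriorDomain U := by have := h.hY; rwa [compl_compl] at this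
  obtain ⟨o, hT⟩ := StrQs.fin hS
  exact Jcs_895.strq_adm_c hU h hi (hPL U x0 a φ F h hO hi hP) hg hT hS

variable {Om : Kind} {U : Set ℂ} {F : ℂ → ℂ} {x0 φ : ℂ → ℝ} {a : ℕ → ℂ → ℝ}

/-- the interface of the second half -/
theorem carr_om {Str : StrT} (h1 : STRPo Om Str) (h2 : LIMPo Om) (hU : IsExteriorDomain U)
    (h : Pk Uᶜ x0 a φ F) (hO : Om Uᶜ x0 a) (hi : InjOn F U)
    (hP : PicT (F '' U)ᶜ) :
    Carr Str (PE U F) (sqs (F '' U)ᶜ) (hrs (F '' U)ᶜ) (AdmP U a F) where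
  el := fun _ _ hT had => el_adm hU h hi hP hT had
  str := fun g Bm Bp hg ψ hψ => h1 U x0 a φ F h hO hi hP g Bm Bp hg ψ hψ
  lim := fun S ψ c o a1 a2 a3 a4 a5 a6 => h2 U x0 a φ F h hO hi hP S ψ c o a1 a2 a3 a4 a5 a6

/-- **SQPIC from the leaves, any kind of anchors** -/
theorem sqPic_of_gen {Str : StrT} {C0 θ : ℝ} (hC0 : 0 ≤ C0) (hθ : 0 < θ) (hatt : ATTo Om)
    (hA : LEMAQ Str) (hST : STEPQ C0 θ) (hL : Exs_992.LIMQ) (h1 : STRPo Om Str)
    (h2 : LIMPo Om) : Top1_8.SqPic := by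
  intro U hU
  have hUc : IsCompact Uᶜ := Ends_897.isCompact_compl hU
  obtain ⟨x0, hx0⟩ := X0.exists hUc
  obtain ⟨a, φ, F, h, hO⟩ := hatt Uᶜ x0 (by rw [compl_compl]; exact hU) hx0
  have hiP := Uw6_913.picT h
  rw [compl_compl] at hiP
  obtain ⟨hi, hP⟩ := hiP
  have hd := h.hol
  rw [compl_compl] at hd
  obtain ⟨c, hc⟩ := h.inf
  have hC := carr_om h1 h2 hU h hO hi hP
  have h0 : hrs (F '' U)ᶜ = ∅ :=
    SkT1_137.hairless hC0 hθ hA hST hL (Ta_937.picS hP) hC.els (hC.elq (Ta_937.picS hP).q)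
  refine ⟨fun z => F z - c, ⟨hd.sub_const c, fun z hz w hw hzw => hi hz hw (by simpa using hzw), ?_⟩,
    fun z hz => ?_⟩
  · have := hc.sub_const c
    rw [sub_self] at this
    refine this.congr fun z => ?_
    ring
  · have e1 : (fun z => F z - c) '' U = (fun w => w - c) '' (F '' U) := by
      rw [image_image]
    have e2 : ((fun z => F z - c) '' U)ᶜ = (fun w => w - c) '' (F '' U)ᶜ := by
      rw [e1]
      exact (image_compl_eq (Homeomorph.subRight c).bijective).symm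
    rw [e2] at hz ⊢
    obtain ⟨w, hw, rfl⟩ := hz
    obtain ⟨d, s, hs, hd⟩ := Ta_937.sq_of_no_hairs hP h0 hw
    refine ⟨d - c, s, hs, ?_⟩
    rw [cc_translate _ _ ⟨w, hw, rfl⟩]
    have e : (fun w => w - c) w + c = w := by simp
    rw [e, hd, sq_translate]

/-- **SQPIC, any kind of anchors** -/
theorem sqPic_of_om (hatt : ATTo Om) (hA : LEMAQ StrQ) (h1 : PLAPo Om) (h2 : LIMPo Om) :
    Top1_8.SqPic :=
  sqPic_of_gen (C0 := 20) (θ := 1 / 10) (by norm_num) (by norm_num) hatt hA Spq_722.stepQ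
    Exs7_992.limq (strpo_of h1) h2

/-- **S0138, any kind of anchors** -/
theorem s0138_of_om (hatt : ATTo Om) (hA : LEMAQ StrQ) (h1 : PLAPo Om) (h2 : LIMPo Om)
    (U : Set ℂ) (hU : IsExteriorDomain U) :
    ∃ f : ℂ → ℂ, DifferentiableOn ℂ f U ∧ Set.InjOn f U ∧
      Filter.Tendsto f (Filter.cocompact ℂ) (Filter.cocompact ℂ) ∧
      IsCircleDomainFinitePart (f '' U) :=
  Top2_8.s0138_of_sqPic (sqPic_of_om hatt hA h1 h2) U hU

/-- **S0138 over extremal anchors** (the package of record) -/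
theorem s0138_of_ext (hA : LEMAQ StrQ) (h1 : PLAPo Ext) (h2 : LIMPo Ext)
    (U : Set ℂ) (hU : IsExteriorDomain U) :
    ∃ f : ℂ → ℂ, DifferentiableOn ℂ f U ∧ Set.InjOn f U ∧
      Filter.Tendsto f (Filter.cocompact ℂ) (Filter.cocompact ℂ) ∧
      IsCircleDomainFinitePart (f '' U) :=
  s0138_of_om att_ext hA h1 h2 U hU

end

end Crest.Agent.R105.Jex_987
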