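import Mathlib

-- ▼ part R105/CF1_363
section

/-!
# Row 105: functions which are Lipschitz along segments off a finite union of hairs

* `SL U L f`: `f` is `L`-Lipschitz along every segment contained in `U`.
* `CF U f`: `f` is bounded on `U` and `SL U L f` for some `L`.
* `Hair`, `Hair.car`, `cut J`: vertical segments in `ℝ × ℝ` and finite unions of them.
* `CFin 𝓗 W`: the functions `f` with `CF (W \ cut J) f` for some finite `J ⊆ 𝓗` (a submodule).
-/

namespace Crest.Agent.R105.CF_363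

open Set Filter MeasureTheory Topology
open scoped ENNReal NNReal

section Gen

variable {X : Type*} [NormedAddCommGroup X] [NormedSpace ℝ X]

/-- `f` is `L`-Lipschitz along every segment contained in `U`. -/
def SL (U : Set X) (L : ℝ) (f : X → ℝ) : Prop :=
  ∀ p q, segment ℝ p q ⊆ U → |f p - f q| ≤ L * dist p q


theorem SL.mono {U V : Set X} {L : ℝ} {f : X → ℝ} (h : SL U L f) (hV : V ⊆ U) : SL V L f :=
  fun p q hpq => h p q (hpq.trans hV)

theorem SL.mono_const {U : Set X} {L L' : ℝ} {f : X → ℝ} (h : SL U L f) (hL : L ≤ L') :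
    SL U L' f :=
  fun p q hpq => (h p q hpq).trans (mul_le_mul_of_nonneg_right hL dist_nonneg)

theorem SL.congr {U : Set X} {L : ℝ} {f g : X → ℝ} (h : SL U L f) (hfg : EqOn f g U) :
    SL U L g := by
  intro p q hpq
  rw [← hfg (hpq (left_mem_segment ℝ p q)), ← hfg (hpq (right_mem_segment ℝ p q))]
  exact h p q hpq

theorem SL_const {U : Set X} (c : ℝ) : SL U 0 (fun _ : X => c) := by
  intro p q _; simp

theorem SL_of_lipschitzOn {U : Set X} {L : ℝ≥0} {f : X → ℝ} (h : LipschitzOnWith L f U) :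
    SL U L f := by
  intro p q hpq
  have := h.dist_le_mul p (hpq (left_mem_segment ℝ p q)) q (hpq (right_mem_segment ℝ p q))
  rwa [Real.dist_eq] at this

theorem SL_of_lipschitz {U : Set X} {L : ℝ≥0} {f : X → ℝ} (h : LipschitzWith L f) :
    SL U L f := SL_of_lipschitzOn (h.lipschitzOnWith)

theorem SL.neg {U : Set X} {L : ℝ} {f : X → ℝ} (h : SL U L f) : SL U L (fun p => - f p) := by
  intro p q hpq
  have := h p q hpq
  rw [abs_sub_comm] at this
  calc |(-f p) - (-f q)| = |f q - f p| := by congr 1; ring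
    _ ≤ _ := this

theorem SL.add {U : Set X} {L M : ℝ} {f g : X → ℝ} (h : SL U L f) (k : SL U M g) :
    SL U (L + M) (fun p => f p + g p) := by
  intro p q hpq
  have h1 := h p q hpq
  have h2 := k p q hpq
  calc |(f p + g p) - (f q + g q)| = |(f p - f q) + (g p - g q)| := by congr 1; ring
    _ ≤ |f p - f q| + |g p - g q| := abs_add_le _ _
    _ ≤ _ := by rw [add_mul]; exact add_le_add h1 h2

theorem SL.sub {U : Set X} {L M : ℝ} {f g : X → ℝ} (h : SL U L f) (k : SL U M g) :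
    SL U (L + M) (fun p => f p - g p) := by
  simpa [sub_eq_add_neg] using h.add k.neg

theorem SL.const_mul {U : Set X} {L : ℝ} {f : X → ℝ} (h : SL U L f) (c : ℝ) :
    SL U (|c| * L) (fun p => c * f p) := by
  intro p q hpq
  rw [← mul_sub, abs_mul, mul_assoc]
  exact mul_le_mul_of_nonneg_left (h p q hpq) (abs_nonneg _)

theorem SL.sum {ι : Type*} {U : Set X} {L : ι → ℝ} {f : ι → X → ℝ} (s : Finset ι)
    (h : ∀ i ∈ s, SL U (L i) (f i)) : SL U (∑ i ∈ s, L i) (fun p => ∑ i ∈ s, f i p) := by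
  intro p q hpq
  rw [← Finset.sum_sub_distrib, Finset.sum_mul]
  exact (Finset.abs_sum_le_sum_abs _ _).trans (Finset.sum_le_sum fun i hi => h i hi p q hpq)

/-- Post-composition with a Lipschitz function of one variable. -/
theorem SL.comp {U : Set X} {L : ℝ} {f : X → ℝ} (h : SL U L f) {M : ℝ} (hM : 0 ≤ M) {G : ℝ → ℝ}
    (hG : ∀ s t, |G s - G t| ≤ M * |s - t|) : SL U (M * L) (fun p => G (f p)) := by
  intro p q hpq
  calc |G (f p) - G (f q)| ≤ M * |f p - f q| := hG _ _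
    _ ≤ M * (L * dist p q) := mul_le_mul_of_nonneg_left (h p q hpq) hM
    _ = M * L * dist p q := by ring

theorem SL.max {U : Set X} {L M : ℝ} {f g : X → ℝ} (h : SL U L f) (k : SL U M g) :
    SL U (max L M) (fun p => max (f p) (g p)) := by
  intro p q hpq
  have h1 := (h.mono_const (le_max_left L M)) p q hpq
  have h2 := (k.mono_const (le_max_right L M)) p q hpq
  exact (abs_max_sub_max_le_max _ _ _ _).trans (max_le h1 h2)

theorem SL.min {U : Set X} {L M : ℝ} {f g : X → ℝ} (h : SL U L f) (k : SL U M g) :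
    SL U (Max.max L M) (fun p => min (f p) (g p)) := by
  have := (h.neg.max k.neg).neg
  refine this.congr ?_
  intro p _
  simp [max_neg_neg]

theorem SL.abs {U : Set X} {L : ℝ} {f : X → ℝ} (h : SL U L f) : SL U L (fun p => |f p|) := by
  intro p q hpq
  exact (abs_abs_sub_abs_le_abs_sub _ _).trans (h p q hpq)

theorem SL.mul {U : Set X} {L M A B : ℝ} {f g : X → ℝ} (h : SL U L f) (k : SL U M g)
    (hA : ∀ p ∈ U, |f p| ≤ A) (hB : ∀ p ∈ U, |g p| ≤ B) :
    SL U (A * M + B * L) (fun p => f p * g p) := by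
  intro p q hpq
  have h1 := h p q hpq
  have h2 := k p q hpq
  have hp := hpq (left_mem_segment ℝ p q)
  have hq := hpq (right_mem_segment ℝ p q)
  calc |f p * g p - f q * g q| = |f p * (g p - g q) + g q * (f p - f q)| := by congr 1; ring
    _ ≤ |f p * (g p - g q)| + |g q * (f p - f q)| := abs_add_le _ _
    _ = |f p| * |g p - g q| + |g q| * |f p - f q| := by rw [abs_mul, abs_mul]
    _ ≤ A * (M * dist p q) + B * (L * dist p q) := by
        have hA0 : 0 ≤ A := (abs_nonneg _).trans (hA p hp)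
        have hB0 : 0 ≤ B := (abs_nonneg _).trans (hB q hq)
        exact add_le_add (mul_le_mul (hA p hp) h2 (abs_nonneg _) hA0)
          (mul_le_mul (hB q hq) h1 (abs_nonneg _) hB0)
    _ = _ := by ring

/-- On a convex subset of `U`, `SL` is the ordinary Lipschitz condition. -/
theorem SL.lipschitzOnWith {U C : Set X} {L : ℝ} {f : X → ℝ} (h : SL U L f) (hC : Convex ℝ C)
    (hCU : C ⊆ U) : LipschitzOnWith L.toNNReal f C := by
  refine LipschitzOnWith.of_dist_le_mul fun p hp q hq => ?_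
  have := h p q ((hC.segment_subset hp hq).trans hCU)
  rw [Real.dist_eq]
  exact this.trans (mul_le_mul_of_nonneg_right (Real.le_coe_toNNReal L) dist_nonneg)


theorem SL.lipschitzOnWith_ball {U : Set X} {L : ℝ} {f : X → ℝ} (h : SL U L f) (hU : IsOpen U)
    {p : X} (hp : p ∈ U) : ∃ r > 0, Metric.ball p r ⊆ U ∧
      LipschitzOnWith L.toNNReal f (Metric.ball p r) := by
  obtain ⟨r, hr, hrU⟩ := Metric.isOpen_iff.mp hU p hp
  exact ⟨r, hr, hrU, h.lipschitzOnWith (convex_ball p r) hrU⟩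

theorem SL.continuousOn {U : Set X} {L : ℝ} {f : X → ℝ} (h : SL U L f) (hU : IsOpen U) :
    ContinuousOn f U := by
  intro p hp
  obtain ⟨r, hr, hrU, hl⟩ := h.lipschitzOnWith_ball hU hp
  exact ((hl.continuousOn p (Metric.mem_ball_self hr)).continuousAt
    (Metric.ball_mem_nhds p hr)).continuousWithinAt

theorem SL.continuousAt {U : Set X} {L : ℝ} {f : X → ℝ} (h : SL U L f) (hU : IsOpen U)
    {p : X} (hp : p ∈ U) : ContinuousAt f p :=
  (h.continuousOn hU p hp).continuousAt (hU.mem_nhds hp)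

/-- Extension of the inequality to the closure of the segments: a chain of segments. -/
theorem SL.trans_le {U : Set X} {L : ℝ} {f : X → ℝ} (h : SL U L f) {p q r : X}
    (h1 : segment ℝ p q ⊆ U) (h2 : segment ℝ q r ⊆ U) :
    |f p - f r| ≤ L * (dist p q + dist q r) := by
  calc |f p - f r| = |(f p - f q) + (f q - f r)| := by congr 1; ring
    _ ≤ |f p - f q| + |f q - f r| := abs_add_le _ _
    _ ≤ _ := by rw [mul_add]; exact add_le_add (h p q h1) (h q r h2)

/-- The class `CF U`: bounded on `U` and Lipschitz along the segments in `U`. -/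
def CF (U : Set X) (f : X → ℝ) : Prop :=
  ∃ L C : ℝ, 0 ≤ L ∧ SL U L f ∧ ∀ p ∈ U, |f p| ≤ C

theorem CF.mono {U V : Set X} {f : X → ℝ} (h : CF U f) (hV : V ⊆ U) : CF V f := by
  obtain ⟨L, C, hL, h1, h2⟩ := h
  exact ⟨L, C, hL, h1.mono hV, fun p hp => h2 p (hV hp)⟩

theorem CF.congr {U : Set X} {f g : X → ℝ} (h : CF U f) (hfg : EqOn f g U) : CF U g := by
  obtain ⟨L, C, hL, h1, h2⟩ := h
  exact ⟨L, C, hL, h1.congr hfg, fun p hp => by rw [← hfg hp]; exact h2 p hp⟩


theorem CF_const {U : Set X} (c : ℝ) : CF U (fun _ : X => c) :=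
  ⟨0, |c|, le_rfl, SL_const c, fun _ _ => le_rfl⟩


theorem CF_of_lipschitz {U : Set X} {L : ℝ≥0} {f : X → ℝ} (h : LipschitzWith L f)
    {C : ℝ} (hC : ∀ p ∈ U, |f p| ≤ C) : CF U f :=
  ⟨L, C, L.2, SL_of_lipschitz h, hC⟩

theorem CF.neg {U : Set X} {f : X → ℝ} (h : CF U f) : CF U (fun p => - f p) := by
  obtain ⟨L, C, hL, h1, h2⟩ := h
  exact ⟨L, C, hL, h1.neg, fun p hp => by rw [abs_neg]; exact h2 p hp⟩

theorem CF.add {U : Set X} {f g : X → ℝ} (h : CF U f) (k : CF U g) :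
    CF U (fun p => f p + g p) := by
  obtain ⟨L, C, hL, h1, h2⟩ := h
  obtain ⟨M, D, hM, k1, k2⟩ := k
  exact ⟨L + M, C + D, by positivity, h1.add k1, fun p hp =>
    (abs_add_le _ _).trans (add_le_add (h2 p hp) (k2 p hp))⟩

theorem CF.sub {U : Set X} {f g : X → ℝ} (h : CF U f) (k : CF U g) :
    CF U (fun p => f p - g p) := by
  simpa [sub_eq_add_neg] using h.add k.neg

theorem CF.const_mul {U : Set X} {f : X → ℝ} (h : CF U f) (c : ℝ) :
    CF U (fun p => c * f p) := by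
  obtain ⟨L, C, hL, h1, h2⟩ := h
  exact ⟨|c| * L, |c| * C, by positivity, h1.const_mul c, fun p hp => by
    rw [abs_mul]; exact mul_le_mul_of_nonneg_left (h2 p hp) (abs_nonneg _)⟩

theorem CF.mul {U : Set X} {f g : X → ℝ} (h : CF U f) (k : CF U g) :
    CF U (fun p => f p * g p) := by
  obtain ⟨L, C, hL, h1, h2⟩ := h
  obtain ⟨M, D, hM, k1, k2⟩ := k
  rcases U.eq_empty_or_nonempty with rfl | ⟨p0, hp0⟩
  · exact ⟨0, 0, le_rfl, fun p q hpq => absurd (hpq (left_mem_segment ℝ p q)) (notMem_empty _),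
      fun p hp => absurd hp (notMem_empty _)⟩
  have hC0 : 0 ≤ C := (abs_nonneg _).trans (h2 p0 hp0)
  have hD0 : 0 ≤ D := (abs_nonneg _).trans (k2 p0 hp0)
  exact ⟨C * M + D * L, C * D, by positivity, h1.mul k1 h2 k2, fun p hp => by
    rw [abs_mul]; exact mul_le_mul (h2 p hp) (k2 p hp) (abs_nonneg _) hC0⟩

theorem CF.max {U : Set X} {f g : X → ℝ} (h : CF U f) (k : CF U g) :
    CF U (fun p => Max.max (f p) (g p)) := by
  obtain ⟨L, C, hL, h1, h2⟩ := h
  obtain ⟨M, D, hM, k1, k2⟩ := k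
  refine ⟨Max.max L M, Max.max C D, le_max_of_le_left hL, h1.max k1, fun p hp => ?_⟩
  exact abs_max_le_max_abs_abs.trans (max_le_max (h2 p hp) (k2 p hp))

theorem CF.min {U : Set X} {f g : X → ℝ} (h : CF U f) (k : CF U g) :
    CF U (fun p => Min.min (f p) (g p)) := by
  have := (h.neg.max k.neg).neg
  refine this.congr ?_
  intro p _
  simp [max_neg_neg]

theorem CF.abs {U : Set X} {f : X → ℝ} (h : CF U f) : CF U (fun p => |f p|) := by
  obtain ⟨L, C, hL, h1, h2⟩ := h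
  exact ⟨L, C, hL, h1.abs, fun p hp => by rw [abs_abs]; exact h2 p hp⟩

theorem CF.comp {U : Set X} {f : X → ℝ} (h : CF U f) {M : ℝ} (hM : 0 ≤ M) {G : ℝ → ℝ}
    (hG : ∀ s t, |G s - G t| ≤ M * |s - t|) : CF U (fun p => G (f p)) := by
  obtain ⟨L, C, hL, h1, h2⟩ := h
  refine ⟨M * L, |G 0| + M * C, by positivity, h1.comp hM hG, fun p hp => ?_⟩
  have h3 := hG (f p) 0
  have h4 : |G (f p)| ≤ |G (f p) - G 0| + |G 0| := by
    have := abs_add_le (G (f p) - G 0) (G 0); simpa using this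
  have h5 : M * |f p - 0| ≤ M * C := by
    rw [sub_zero]; exact mul_le_mul_of_nonneg_left (h2 p hp) hM
  linarith

theorem CF.sum {ι : Type*} {U : Set X} {f : ι → X → ℝ} (s : Finset ι)
    (h : ∀ i ∈ s, CF U (f i)) : CF U (fun p => ∑ i ∈ s, f i p) := by
  classical
  induction s using Finset.induction_on with
  | empty => simpa using CF_const (U := U) 0
  | insert a s ha ih =>
    have h1 := h a (Finset.mem_insert_self a s)
    have h2 := ih fun i hi => h i (Finset.mem_insert_of_mem hi)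
    have := h1.add h2
    refine this.congr ?_
    intro p _
    simp [Finset.sum_insert ha]

theorem CF.continuousOn {U : Set X} {f : X → ℝ} (h : CF U f) (hU : IsOpen U) :
    ContinuousOn f U := by
  obtain ⟨L, C, hL, h1, h2⟩ := h
  exact h1.continuousOn hU

theorem CF.continuousAt {U : Set X} {f : X → ℝ} (h : CF U f) (hU : IsOpen U)
    {p : X} (hp : p ∈ U) : ContinuousAt f p :=
  (h.continuousOn hU p hp).continuousAt (hU.mem_nhds hp)

/-- Extension by zero: `f` is `CF` on `U`, vanishes on `U` near the boundary points of `N` that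
lie in `V`; then `f·1_N` is `CF` on `V` as soon as `V ∩ N ⊆ U`.  (`Z` = closed set containing
`V \ N`.)  Here in the simplest form: `f` vanishes on `U ∩ A`, with `A` open, `V ⊆ N ∪ A`,
`N` open. -/
theorem SL.indicator {U V N A : Set X} {L : ℝ} {f : X → ℝ} (hL : 0 ≤ L) (h : SL U L f)
    (hN : IsOpen N) (hA : IsOpen A) (hV : V ⊆ N ∪ A) (hU : V ∩ N ⊆ U)
    (h0 : ∀ p ∈ V ∩ N ∩ A, f p = 0) : SL V L (N.indicator f) := by
  classical
  intro p q hpq
  -- the set of parameters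
  let γ : ℝ → X := fun t => AffineMap.lineMap p q t
  have hγc : Continuous γ := AffineMap.lineMap_continuous
  have hγV : ∀ t ∈ Icc (0:ℝ) 1, γ t ∈ V := by
    intro t ht
    apply hpq
    rw [segment_eq_image_lineMap]
    exact ⟨t, ht, rfl⟩
  have hdist : ∀ s t, dist (γ s) (γ t) = |s - t| * dist p q := by
    intro s t
    simp only [γ]
    rw [dist_lineMap_lineMap, Real.dist_eq]
  -- local Lipschitz property of g := N.indicator f ∘ γ, with constant L * dist p q
  set D := L * dist p q with hD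
  have hD0 : 0 ≤ D := mul_nonneg hL dist_nonneg
  set g : ℝ → ℝ := fun t => N.indicator f (γ t) with hg
  have hloc : ∀ t ∈ Icc (0:ℝ) 1, ∃ r > 0, ∀ s ∈ Icc (0:ℝ) 1, ∀ s' ∈ Icc (0:ℝ) 1,
      |s - t| < r → |s' - t| < r → |g s - g s'| ≤ D * |s - s'| := by
    intro t ht
    rcases hV (hγV t ht) with htN | htA
    · obtain ⟨r, hr, hrN⟩ := Metric.isOpen_iff.mp (hN.preimage hγc) t htN
      refine ⟨r, hr, fun s hs s' hs' h1 h2 => ?_⟩
      have hsub : ∀ u, |u - t| < r → γ u ∈ N := fun u hu =>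
        hrN (by rw [Metric.mem_ball, Real.dist_eq]; exact hu)
      have hseg : segment ℝ (γ s) (γ s') ⊆ U := by
        intro z hz
        rw [segment_eq_image_lineMap] at hz
        obtain ⟨c, hc, rfl⟩ := hz
        have hz' : AffineMap.lineMap (γ s) (γ s') c = γ (AffineMap.lineMap s s' c) := by
          simp only [γ, AffineMap.lineMap_apply, vsub_eq_sub, vadd_eq_add, smul_eq_mul]
          module
        rw [hz']
        have hmem : AffineMap.lineMap s s' c ∈ segment ℝ s s' := by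
          rw [segment_eq_image_lineMap]; exact ⟨c, hc, rfl⟩
        apply hU
        refine ⟨hγV _ ?_, hsub _ ?_⟩
        · exact (convex_Icc (0:ℝ) 1).segment_subset hs hs' hmem
        · have : Convex ℝ (Metric.ball t r) := convex_ball t r
          have h3 := this.segment_subset (x := s) (y := s')
            (by rw [Metric.mem_ball, Real.dist_eq]; exact h1)
            (by rw [Metric.mem_ball, Real.dist_eq]; exact h2) hmem
          rwa [Metric.mem_ball, Real.dist_eq] at h3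
      have h3 := h (γ s) (γ s') hseg
      rw [hdist] at h3
      simp only [hg]
      rw [indicator_of_mem (hsub s h1), indicator_of_mem (hsub s' h2)]
      calc _ ≤ _ := h3
        _ = D * |s - s'| := by rw [hD]; ring
    · obtain ⟨r, hr, hrA⟩ := Metric.isOpen_iff.mp (hA.preimage hγc) t htA
      refine ⟨r, hr, fun s hs s' hs' h1 h2 => ?_⟩
      have hz : ∀ u ∈ Icc (0:ℝ) 1, |u - t| < r → g u = 0 := by
        intro u hu1 hu
        have huA : γ u ∈ A := hrA (by rw [Metric.mem_ball, Real.dist_eq]; exact hu)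
        simp only [hg]
        by_cases huN : γ u ∈ N
        · rw [indicator_of_mem huN]
          exact h0 _ ⟨⟨hγV u hu1, huN⟩, huA⟩
        · rw [indicator_of_notMem huN]
      rw [hz s hs h1, hz s' hs' h2]
      simpa using mul_nonneg hD0 (abs_nonneg _)
  -- from local to global on [0,1]
  have key : ∀ t ∈ Icc (0:ℝ) 1, |g t - g 0| ≤ D * t := by
    -- continuous induction
    let S : Set ℝ := {t | |g t - g 0| ≤ D * t}
    have hcont : ContinuousOn g (Icc 0 1) := by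
      intro t ht
      obtain ⟨r, hr, hr'⟩ := hloc t ht
      rw [Metric.continuousWithinAt_iff]
      intro ε hε
      refine ⟨Min.min r (ε / (D + 1)), by positivity, fun {s} hs hst => ?_⟩
      rw [Real.dist_eq] at hst ⊢
      have h1 := hr' s hs t ht (lt_of_lt_of_le hst (min_le_left _ _)) (by simpa using hr)
      have h2 : |s - t| < ε / (D + 1) := lt_of_lt_of_le hst (min_le_right _ _)
      rw [lt_div_iff₀ (by positivity)] at h2
      nlinarith [abs_nonneg (s - t)]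
    have hSc : IsClosed (S ∩ Icc 0 1) := by
      have : S ∩ Icc 0 1 = Icc (0:ℝ) 1 ∩ (fun t => D * t - |g t - g 0|) ⁻¹' (Ici 0) := by
        ext t; simp only [S, mem_inter_iff, mem_ofPred_eq, mem_preimage, mem_Ici, sub_nonneg]
        tauto
      rw [this]
      apply ContinuousOn.preimage_isClosed_of_isClosed _ isClosed_Icc isClosed_Ici
      exact (continuousOn_const.mul continuousOn_id).sub (hcont.sub continuousOn_const).abs
    have h0S : (0:ℝ) ∈ S := by simp [S]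
    have := hSc.Icc_subset_of_forall_mem_nhdsWithin (a := 0) (b := 1) h0S (by
      rintro t ⟨htS, ht⟩
      obtain ⟨r, hr, hr'⟩ := hloc t ⟨ht.1, ht.2.le⟩
      have : Ioo t (Min.min (t + r) 1) ∈ 𝓝[>] t :=
        Ioo_mem_nhdsGT (lt_min (by linarith) ht.2)
      filter_upwards [this] with s hs
      have hs1 : s < t + r := lt_of_lt_of_le hs.2 (min_le_left _ _)
      have hs2 : s < 1 := lt_of_lt_of_le hs.2 (min_le_right _ _)
      have h1 := hr' s ⟨ht.1.trans hs.1.le, hs2.le⟩ t ⟨ht.1, ht.2.le⟩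
        (by rw [abs_lt]; constructor <;> linarith [hs.1]) (by simpa using hr)
      simp only [S, mem_ofPred_eq] at htS ⊢
      have h2 : |g s - g 0| ≤ |g s - g t| + |g t - g 0| := by
        have := abs_add_le (g s - g t) (g t - g 0); simpa using this
      rw [abs_of_pos (by linarith [hs.1] : (0:ℝ) < s - t)] at h1
      nlinarith)
    exact fun t ht => this ht
  have h1 := key 1 (by simp)
  have hg1 : g 1 = N.indicator f q := by simp [hg, γ]
  have hg0 : g 0 = N.indicator f p := by simp [hg, γ]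
  rw [hg1, hg0, mul_one] at h1
  rw [abs_sub_comm]
  exact h1

theorem CF.indicator {U V N A : Set X} {f : X → ℝ} (h : CF U f)
    (hN : IsOpen N) (hA : IsOpen A) (hV : V ⊆ N ∪ A) (hU : V ∩ N ⊆ U)
    (h0 : ∀ p ∈ V ∩ N ∩ A, f p = 0) : CF V (N.indicator f) := by
  classical
  obtain ⟨L, C, hL, h1, h2⟩ := h
  refine ⟨L, Max.max C 0, hL, h1.indicator hL hN hA hV hU h0, fun p hp => ?_⟩
  by_cases hpN : p ∈ N
  · rw [indicator_of_mem hpN]; exact (h2 p (hU ⟨hp, hpN⟩)).trans (le_max_left _ _)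
  · rw [indicator_of_notMem hpN]; simp

end Gen

/-- A vertical hair `{x} × [b,t]`, `b < t`. -/
@[ext] structure Hair where
  x : ℝ
  b : ℝ
  t : ℝ
  hbt : b < t

/-- The closed segment carried by a hair. -/
def Hair.car (K : Hair) : Set (ℝ × ℝ) := {p | p.1 = K.x ∧ K.b ≤ p.2 ∧ p.2 ≤ K.t}

/-- The union of a finite set of hairs. -/
def cut (J : Finset Hair) : Set (ℝ × ℝ) := {p | ∃ K ∈ J, p ∈ K.car}

theorem Hair.mem_car {K : Hair} {p : ℝ × ℝ} : p ∈ K.car ↔ p.1 = K.x ∧ K.b ≤ p.2 ∧ p.2 ≤ K.t :=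
  Iff.rfl

theorem Hair.car_eq (K : Hair) : K.car = {K.x} ×ˢ Icc K.b K.t := by
  ext p; simp [Hair.car]

theorem Hair.isCompact_car (K : Hair) : IsCompact K.car := by
  rw [K.car_eq]; exact isCompact_singleton.prod isCompact_Icc

theorem Hair.isClosed_car (K : Hair) : IsClosed K.car := K.isCompact_car.isClosed

theorem Hair.volume_car (K : Hair) : volume K.car = 0 := by
  rw [K.car_eq, Measure.volume_eq_prod, Measure.prod_prod]; simp

theorem Hair.car_injective {K K' : Hair} (h : K.car = K'.car) : K = K' := by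
  have h1 : (K.x, K.b) ∈ K'.car := h ▸ (⟨rfl, le_rfl, K.hbt.le⟩ : (K.x, K.b) ∈ K.car)
  have h2 : (K.x, K.t) ∈ K'.car := h ▸ (⟨rfl, K.hbt.le, le_rfl⟩ : (K.x, K.t) ∈ K.car)
  have h3 : (K'.x, K'.b) ∈ K.car := h ▸ (⟨rfl, le_rfl, K'.hbt.le⟩ : (K'.x, K'.b) ∈ K'.car)
  have h4 : (K'.x, K'.t) ∈ K.car := h ▸ (⟨rfl, K'.hbt.le, le_rfl⟩ : (K'.x, K'.t) ∈ K'.car)
  ext
  · exact h1.1
  · exact le_antisymm h3.2.1 h1.2.1
  · exact le_antisymm h2.2.2 h4.2.2

theorem mem_cut {J : Finset Hair} {p : ℝ × ℝ} : p ∈ cut J ↔ ∃ K ∈ J, p ∈ K.car := Iff.rfl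

theorem cut_eq_biUnion (J : Finset Hair) : cut J = ⋃ K ∈ J, K.car := by
  ext p; simp [cut]

@[simp] theorem cut_empty : cut ∅ = ∅ := by
  ext p; simp [cut]

theorem cut_mono {J J' : Finset Hair} (h : J ⊆ J') : cut J ⊆ cut J' := by
  rintro p ⟨K, hK, hp⟩; exact ⟨K, h hK, hp⟩



theorem isCompact_cut (J : Finset Hair) : IsCompact (cut J) := by
  rw [cut_eq_biUnion]; exact J.isCompact_biUnion fun K _ => K.isCompact_car

theorem isClosed_cut (J : Finset Hair) : IsClosed (cut J) := (isCompact_cut J).isClosed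

theorem volume_cut (J : Finset Hair) : volume (cut J) = 0 := by
  rw [cut_eq_biUnion]
  exact (measure_biUnion_null_iff J.countable_toSet).mpr fun K _ => K.volume_car

theorem isOpen_diff_cut {W : Set (ℝ × ℝ)} (hW : IsOpen W) (J : Finset Hair) :
    IsOpen (W \ cut J) := hW.sdiff (isClosed_cut J)

/-- `CFJ 𝓗 W f`: `f` is bounded and Lipschitz along segments of `W` off finitely many hairs
of the family `𝓗`. -/
def CFJ (𝓗 : Set Hair) (W : Set (ℝ × ℝ)) (f : ℝ × ℝ → ℝ) : Prop :=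
  ∃ J : Finset Hair, (∀ K ∈ J, K ∈ 𝓗) ∧ CF (W \ cut J) f

theorem CFJ.two {𝓗 : Set Hair} {W : Set (ℝ × ℝ)} {f g : ℝ × ℝ → ℝ} (h : CFJ 𝓗 W f)
    (k : CFJ 𝓗 W g) : ∃ J : Finset Hair, (∀ K ∈ J, K ∈ 𝓗) ∧ CF (W \ cut J) f ∧
      CF (W \ cut J) g := by
  classical
  obtain ⟨J, hJ, h⟩ := h
  obtain ⟨J', hJ', k⟩ := k
  refine ⟨J ∪ J', fun K hK => ?_, h.mono ?_, k.mono ?_⟩
  · rcases Finset.mem_union.mp hK with h | h
    · exact hJ K h
    · exact hJ' K h
  · exact sdiff_subset_sdiff_right (cut_mono Finset.subset_union_left)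
  · exact sdiff_subset_sdiff_right (cut_mono Finset.subset_union_right)

theorem CFJ.mono {𝓗 𝓗' : Set Hair} {W W' : Set (ℝ × ℝ)} {f : ℝ × ℝ → ℝ} (h : CFJ 𝓗 W f)
    (h𝓗 : 𝓗 ⊆ 𝓗') (hW : W' ⊆ W) : CFJ 𝓗' W' f := by
  obtain ⟨J, hJ, h⟩ := h
  exact ⟨J, fun K hK => h𝓗 (hJ K hK), h.mono (sdiff_subset_sdiff_left hW)⟩

theorem CF.cfj {𝓗 : Set Hair} {W : Set (ℝ × ℝ)} {f : ℝ × ℝ → ℝ} (h : CF W f) : CFJ 𝓗 W f :=
  ⟨∅, by simp, by simpa using h⟩

theorem CFJ_const {𝓗 : Set Hair} {W : Set (ℝ × ℝ)} (c : ℝ) : CFJ 𝓗 W (fun _ => c) :=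
  (CF_const c).cfj

theorem CFJ.neg {𝓗 : Set Hair} {W : Set (ℝ × ℝ)} {f : ℝ × ℝ → ℝ} (h : CFJ 𝓗 W f) :
    CFJ 𝓗 W (fun p => - f p) := by
  obtain ⟨J, hJ, h⟩ := h; exact ⟨J, hJ, h.neg⟩

theorem CFJ.abs {𝓗 : Set Hair} {W : Set (ℝ × ℝ)} {f : ℝ × ℝ → ℝ} (h : CFJ 𝓗 W f) :
    CFJ 𝓗 W (fun p => |f p|) := by
  obtain ⟨J, hJ, h⟩ := h; exact ⟨J, hJ, h.abs⟩

theorem CFJ.const_mul {𝓗 : Set Hair} {W : Set (ℝ × ℝ)} {f : ℝ × ℝ → ℝ} (h : CFJ 𝓗 W f)
    (c : ℝ) : CFJ 𝓗 W (fun p => c * f p) := by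
  obtain ⟨J, hJ, h⟩ := h; exact ⟨J, hJ, h.const_mul c⟩

theorem CFJ.comp {𝓗 : Set Hair} {W : Set (ℝ × ℝ)} {f : ℝ × ℝ → ℝ} (h : CFJ 𝓗 W f)
    {M : ℝ} (hM : 0 ≤ M) {G : ℝ → ℝ} (hG : ∀ s t, |G s - G t| ≤ M * |s - t|) :
    CFJ 𝓗 W (fun p => G (f p)) := by
  obtain ⟨J, hJ, h⟩ := h; exact ⟨J, hJ, h.comp hM hG⟩

theorem CFJ.add {𝓗 : Set Hair} {W : Set (ℝ × ℝ)} {f g : ℝ × ℝ → ℝ} (h : CFJ 𝓗 W f)
    (k : CFJ 𝓗 W g) : CFJ 𝓗 W (fun p => f p + g p) := by
  obtain ⟨J, hJ, h, k⟩ := h.two k; exact ⟨J, hJ, h.add k⟩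

theorem CFJ.sub {𝓗 : Set Hair} {W : Set (ℝ × ℝ)} {f g : ℝ × ℝ → ℝ} (h : CFJ 𝓗 W f)
    (k : CFJ 𝓗 W g) : CFJ 𝓗 W (fun p => f p - g p) := by
  obtain ⟨J, hJ, h, k⟩ := h.two k; exact ⟨J, hJ, h.sub k⟩

theorem CFJ.mul {𝓗 : Set Hair} {W : Set (ℝ × ℝ)} {f g : ℝ × ℝ → ℝ} (h : CFJ 𝓗 W f)
    (k : CFJ 𝓗 W g) : CFJ 𝓗 W (fun p => f p * g p) := by
  obtain ⟨J, hJ, h, k⟩ := h.two k; exact ⟨J, hJ, h.mul k⟩

theorem CFJ.max {𝓗 : Set Hair} {W : Set (ℝ × ℝ)} {f g : ℝ × ℝ → ℝ} (h : CFJ 𝓗 W f)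
    (k : CFJ 𝓗 W g) : CFJ 𝓗 W (fun p => Max.max (f p) (g p)) := by
  obtain ⟨J, hJ, h, k⟩ := h.two k; exact ⟨J, hJ, h.max k⟩

theorem CFJ.min {𝓗 : Set Hair} {W : Set (ℝ × ℝ)} {f g : ℝ × ℝ → ℝ} (h : CFJ 𝓗 W f)
    (k : CFJ 𝓗 W g) : CFJ 𝓗 W (fun p => Min.min (f p) (g p)) := by
  obtain ⟨J, hJ, h, k⟩ := h.two k; exact ⟨J, hJ, h.min k⟩

theorem CFJ.indicator {𝓗 : Set Hair} {W V N A : Set (ℝ × ℝ)} {f : ℝ × ℝ → ℝ} (h : CFJ 𝓗 W f)
    (hN : IsOpen N) (hA : IsOpen A) (hV : V ⊆ N ∪ A) (hU : V ∩ N ⊆ W)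
    (h0 : ∀ p ∈ V ∩ N ∩ A, f p = 0) : CFJ 𝓗 V (N.indicator f) := by
  obtain ⟨J, hJ, h⟩ := h
  refine ⟨J, hJ, h.indicator hN hA (sdiff_subset.trans hV) ?_ fun p hp => h0 p ?_⟩
  · rintro p ⟨⟨hpV, hpJ⟩, hpN⟩
    exact ⟨hU ⟨hpV, hpN⟩, hpJ⟩
  · exact ⟨⟨hp.1.1.1, hp.1.2⟩, hp.2⟩



end Crest.Agent.R105.CF_363
end

-- ▼ part R105/CF2_363

/-!
# Row 105: gradient of functions which are Lipschitz along segments of an open set

`gx f p = fderiv ℝ f p (1,0)`, `gy f p = fderiv ℝ f p (0,1)`.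
-/

namespace Crest.Agent.R105.CF_363

open Set Filter MeasureTheory Topology
open scoped ENNReal NNReal

/-- horizontal partial derivative -/
noncomputable def gx (f : ℝ × ℝ → ℝ) (p : ℝ × ℝ) : ℝ := fderiv ℝ f p (1, 0)

/-- vertical partial derivative -/
noncomputable def gy (f : ℝ × ℝ → ℝ) (p : ℝ × ℝ) : ℝ := fderiv ℝ f p (0, 1)

theorem measurable_gx (f : ℝ × ℝ → ℝ) : Measurable (gx f) :=
  measurable_fderiv_apply_const ℝ f (1, 0)

theorem measurable_gy (f : ℝ × ℝ → ℝ) : Measurable (gy f) :=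
  measurable_fderiv_apply_const ℝ f (0, 1)

theorem gx_eq_deriv {f : ℝ × ℝ → ℝ} {x y : ℝ} (h : DifferentiableAt ℝ f (x, y)) :
    HasDerivAt (fun s => f (s, y)) (gx f (x, y)) x := by
  have h1 : HasDerivAt (fun s : ℝ => (s, y)) ((1 : ℝ), (0 : ℝ)) x :=
    (hasDerivAt_id x).prodMk (hasDerivAt_const x y)
  exact h.hasFDerivAt.comp_hasDerivAt x h1

theorem gy_eq_deriv {f : ℝ × ℝ → ℝ} {x y : ℝ} (h : DifferentiableAt ℝ f (x, y)) :
    HasDerivAt (fun s => f (x, s)) (gy f (x, y)) y := by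
  have h1 : HasDerivAt (fun s : ℝ => (x, s)) ((0 : ℝ), (1 : ℝ)) y :=
    (hasDerivAt_const y x).prodMk (hasDerivAt_id y)
  exact h.hasFDerivAt.comp_hasDerivAt y h1

theorem gx_congr {f g : ℝ × ℝ → ℝ} {p : ℝ × ℝ} (h : f =ᶠ[𝓝 p] g) : gx f p = gx g p := by
  unfold gx; rw [h.fderiv_eq]

theorem gy_congr {f g : ℝ × ℝ → ℝ} {p : ℝ × ℝ} (h : f =ᶠ[𝓝 p] g) : gy f p = gy g p := by
  unfold gy; rw [h.fderiv_eq]

@[simp] theorem gx_const (c : ℝ) (p : ℝ × ℝ) : gx (fun _ => c) p = 0 := by simp [gx]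

@[simp] theorem gy_const (c : ℝ) (p : ℝ × ℝ) : gy (fun _ => c) p = 0 := by simp [gy]


theorem norm_fderiv_le_of_SL {X : Type*} [NormedAddCommGroup X] [NormedSpace ℝ X]
    {U : Set X} {L : ℝ} {f : X → ℝ} (h : SL U L f)
    (hU : IsOpen U) (hL : 0 ≤ L) {p : X} (hp : p ∈ U) : ‖fderiv ℝ f p‖ ≤ L := by
  obtain ⟨r, hr, hrU, hl⟩ := h.lipschitzOnWith_ball hU hp
  have := norm_fderiv_le_of_lipschitzOn ℝ (Metric.ball_mem_nhds p hr) hl
  rwa [Real.coe_toNNReal L hL] at this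

theorem SL.abs_gx_le {U : Set (ℝ × ℝ)} {L : ℝ} {f : ℝ × ℝ → ℝ} (h : SL U L f)
    (hU : IsOpen U) (hL : 0 ≤ L) {p : ℝ × ℝ} (hp : p ∈ U) : |gx f p| ≤ L := by
  have h1 := (fderiv ℝ f p).le_opNorm (1, 0)
  have h2 := norm_fderiv_le_of_SL h hU hL hp
  have h3 : ‖((1 : ℝ), (0 : ℝ))‖ = 1 := by simp [Prod.norm_def]
  rw [h3, mul_one] at h1
  exact h1.trans h2

theorem SL.abs_gy_le {U : Set (ℝ × ℝ)} {L : ℝ} {f : ℝ × ℝ → ℝ} (h : SL U L f)
    (hU : IsOpen U) (hL : 0 ≤ L) {p : ℝ × ℝ} (hp : p ∈ U) : |gy f p| ≤ L := by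
  have h1 := (fderiv ℝ f p).le_opNorm (0, 1)
  have h2 := norm_fderiv_le_of_SL h hU hL hp
  have h3 : ‖((0 : ℝ), (1 : ℝ))‖ = 1 := by simp [Prod.norm_def]
  rw [h3, mul_one] at h1
  exact h1.trans h2

/-- Rademacher. -/
theorem SL.ae_differentiableAt {X : Type*} [NormedAddCommGroup X] [NormedSpace ℝ X]
    [FiniteDimensional ℝ X] [MeasurableSpace X] [BorelSpace X] {μ : Measure X}
    [μ.IsAddHaarMeasure] {U : Set X} {L : ℝ} {f : X → ℝ} (h : SL U L f)
    (hU : IsOpen U) : ∀ᵐ p ∂μ, p ∈ U → DifferentiableAt ℝ f p := by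
  have : μ {p | ¬ (p ∈ U → DifferentiableAt ℝ f p)} = 0 := by
    refine measure_null_of_locally_null _ fun p hp => ?_
    have hpU : p ∈ U := by
      by_contra hc
      exact hp fun h => absurd h hc
    obtain ⟨r, hr, hrU, hl⟩ := h.lipschitzOnWith_ball hU hpU
    have h1 := hl.ae_differentiableWithinAt_of_mem (μ := μ)
    refine ⟨{p | ¬ (p ∈ U → DifferentiableAt ℝ f p)} ∩ Metric.ball p r,
      inter_mem_nhdsWithin _ (Metric.ball_mem_nhds p hr), ?_⟩
    have h2 : ∀ᵐ q ∂μ, ¬ (q ∈ {p | ¬ (p ∈ U → DifferentiableAt ℝ f p)} ∩ Metric.ball p r) := by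
      filter_upwards [h1] with q hq
      rintro ⟨hq1, hq2⟩
      exact hq1 fun _ => (hq hq2).differentiableAt (Metric.isOpen_ball.mem_nhds hq2)
    rw [ae_iff] at h2
    simp only [not_not] at h2
    exact h2
  exact this

theorem ae_swap {P : ℝ × ℝ → Prop} (h : ∀ᵐ p : ℝ × ℝ, P p) : ∀ᵐ y : ℝ, ∀ᵐ x : ℝ, P (x, y) := by
  have h1 : ∀ᵐ q : ℝ × ℝ, P q.swap := by
    have h2 := (Measure.measurePreserving_swap (μ := (volume : Measure ℝ))
      (ν := (volume : Measure ℝ))).quasiMeasurePreserving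
    rw [← Measure.volume_eq_prod] at h2
    exact h2.ae h
  rw [Measure.volume_eq_prod] at h1
  exact Measure.ae_ae_of_ae_prod h1

theorem ae_unswap {P : ℝ × ℝ → Prop} (h : ∀ᵐ p : ℝ × ℝ, P p) :
    ∀ᵐ x : ℝ, ∀ᵐ y : ℝ, P (x, y) := by
  rw [Measure.volume_eq_prod] at h
  exact Measure.ae_ae_of_ae_prod h

/-- one-variable fundamental theorem for Lipschitz functions, with a given derivative a.e. -/
theorem ftc_lip {φ g : ℝ → ℝ} {a b : ℝ} {K : ℝ≥0} (h : LipschitzOnWith K φ (uIcc a b))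
    (hd : ∀ᵐ x, x ∈ uIcc a b → HasDerivAt φ (g x) x) :
    φ b - φ a = ∫ x in a..b, g x := by
  rw [← h.absolutelyContinuousOnInterval.integral_deriv_eq_sub]
  apply intervalIntegral.integral_congr_ae
  filter_upwards [hd] with x hx hx'
  exact (hx (uIoc_subset_uIcc hx')).deriv

theorem segment_x {a b y : ℝ} : segment ℝ (a, y) (b, y) = (fun x : ℝ => (x, y)) '' uIcc a b := by
  rw [segment_symm]
  ext p
  rw [segment_eq_image_lineMap, ← segment_eq_uIcc, segment_symm, segment_eq_image_lineMap]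
  constructor
  · rintro ⟨t, ht, rfl⟩
    refine ⟨AffineMap.lineMap b a t, ⟨t, ht, rfl⟩, ?_⟩
    ext <;> simp [AffineMap.lineMap_apply]
  · rintro ⟨_, ⟨t, ht, rfl⟩, rfl⟩
    refine ⟨t, ht, ?_⟩
    ext <;> simp [AffineMap.lineMap_apply]

theorem segment_y {a b x : ℝ} : segment ℝ (x, a) (x, b) = (fun y : ℝ => (x, y)) '' uIcc a b := by
  rw [segment_symm]
  ext p
  rw [segment_eq_image_lineMap, ← segment_eq_uIcc, segment_symm, segment_eq_image_lineMap]
  constructor
  · rintro ⟨t, ht, rfl⟩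
    refine ⟨AffineMap.lineMap b a t, ⟨t, ht, rfl⟩, ?_⟩
    ext <;> simp [AffineMap.lineMap_apply]
  · rintro ⟨_, ⟨t, ht, rfl⟩, rfl⟩
    refine ⟨t, ht, ?_⟩
    ext <;> simp [AffineMap.lineMap_apply]

theorem SL.lip_x {U : Set (ℝ × ℝ)} {L : ℝ} {f : ℝ × ℝ → ℝ} (h : SL U L f) {s : Set ℝ} {y : ℝ}
    (hs : s.OrdConnected) (hsU : ∀ x ∈ s, (x, y) ∈ U) :
    LipschitzOnWith L.toNNReal (fun x => f (x, y)) s := by
  refine LipschitzOnWith.of_dist_le_mul fun a ha b hb => ?_
  have h1 := h (a, y) (b, y) (by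
    rw [segment_x]; rintro _ ⟨x, hx, rfl⟩; exact hsU x (hs.uIcc_subset ha hb hx))
  rw [Real.dist_eq]
  refine h1.trans ?_
  have h2 : dist ((a, y) : ℝ × ℝ) (b, y) = dist a b := by simp [Prod.dist_eq]
  rw [h2]
  exact mul_le_mul_of_nonneg_right (Real.le_coe_toNNReal L) dist_nonneg

theorem SL.lip_y {U : Set (ℝ × ℝ)} {L : ℝ} {f : ℝ × ℝ → ℝ} (h : SL U L f) {s : Set ℝ} {x : ℝ}
    (hs : s.OrdConnected) (hsU : ∀ y ∈ s, (x, y) ∈ U) :
    LipschitzOnWith L.toNNReal (fun y => f (x, y)) s := by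
  refine LipschitzOnWith.of_dist_le_mul fun a ha b hb => ?_
  have h1 := h (x, a) (x, b) (by
    rw [segment_y]; rintro _ ⟨y, hy, rfl⟩; exact hsU y (hs.uIcc_subset ha hb hy))
  rw [Real.dist_eq]
  refine h1.trans ?_
  have h2 : dist ((x, a) : ℝ × ℝ) (x, b) = dist a b := by simp [Prod.dist_eq]
  rw [h2]
  exact mul_le_mul_of_nonneg_right (Real.le_coe_toNNReal L) dist_nonneg

/-- FTC on horizontal segments of `U`. -/
theorem SL.ftc_x {U : Set (ℝ × ℝ)} {L : ℝ} {f : ℝ × ℝ → ℝ} (h : SL U L f) (hU : IsOpen U) :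
    ∀ᵐ y : ℝ, ∀ a b : ℝ, (∀ x ∈ uIcc a b, (x, y) ∈ U) →
      f (b, y) - f (a, y) = ∫ x in a..b, gx f (x, y) := by
  filter_upwards [ae_swap (h.ae_differentiableAt (μ := volume) hU)] with y hy a b hab
  refine ftc_lip (φ := fun x => f (x, y)) (h.lip_x ordConnected_uIcc hab) ?_
  filter_upwards [hy] with x hx hx'
  exact gx_eq_deriv (hx (hab x hx'))

/-- FTC on vertical segments of `U`. -/
theorem SL.ftc_y {U : Set (ℝ × ℝ)} {L : ℝ} {f : ℝ × ℝ → ℝ} (h : SL U L f) (hU : IsOpen U) :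
    ∀ᵐ x : ℝ, ∀ a b : ℝ, (∀ y ∈ uIcc a b, (x, y) ∈ U) →
      f (x, b) - f (x, a) = ∫ y in a..b, gy f (x, y) := by
  filter_upwards [ae_unswap (h.ae_differentiableAt (μ := volume) hU)] with x hx a b hab
  refine ftc_lip (φ := fun y => f (x, y)) (h.lip_y ordConnected_uIcc hab) ?_
  filter_upwards [hx] with y hy hy'
  exact gy_eq_deriv (hy (hab y hy'))

/-! ### pointwise rules -/

section rules

variable {X : Type*} [NormedAddCommGroup X] [NormedSpace ℝ X] {f g : X → ℝ} {p : X}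

theorem fderiv_eq_of_le (hf : DifferentiableAt ℝ f p) (hg : DifferentiableAt ℝ g p)
    (hle : ∀ᶠ q in 𝓝 p, f q ≤ g q) (he : f p = g p) : fderiv ℝ f p = fderiv ℝ g p := by
  have h1 : IsLocalMin (fun q => g q - f q) p := by
    filter_upwards [hle] with q hq
    simp only [he, sub_self]; linarith
  have h2 := h1.fderiv_eq_zero
  rw [fderiv_fun_sub hg hf] at h2
  exact (sub_eq_zero.mp h2).symm

theorem fderiv_max (hf : DifferentiableAt ℝ f p) (hg : DifferentiableAt ℝ g p)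
    (hm : DifferentiableAt ℝ (fun q => max (f q) (g q)) p) :
    (g p ≤ f p → fderiv ℝ (fun q => max (f q) (g q)) p = fderiv ℝ f p) ∧
    (f p ≤ g p → fderiv ℝ (fun q => max (f q) (g q)) p = fderiv ℝ g p) := by
  constructor
  · intro h
    exact (fderiv_eq_of_le hf hm (Eventually.of_forall fun q => le_max_left _ _)
      (max_eq_left h).symm).symm
  · intro h
    exact (fderiv_eq_of_le hg hm (Eventually.of_forall fun q => le_max_right _ _)
      (max_eq_right h).symm).symm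

theorem fderiv_min (hf : DifferentiableAt ℝ f p) (hg : DifferentiableAt ℝ g p)
    (hm : DifferentiableAt ℝ (fun q => min (f q) (g q)) p) :
    (f p ≤ g p → fderiv ℝ (fun q => min (f q) (g q)) p = fderiv ℝ f p) ∧
    (g p ≤ f p → fderiv ℝ (fun q => min (f q) (g q)) p = fderiv ℝ g p) := by
  constructor
  · intro h
    exact (fderiv_eq_of_le hm hf (Eventually.of_forall fun q => min_le_left _ _)
      (min_eq_left h))
  · intro h
    exact (fderiv_eq_of_le hm hg (Eventually.of_forall fun q => min_le_right _ _)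
      (min_eq_right h))

end rules

variable {U : Set (ℝ × ℝ)} {L M : ℝ} {f g : ℝ × ℝ → ℝ}

theorem gx_add {p : ℝ × ℝ} (hf : DifferentiableAt ℝ f p) (hg : DifferentiableAt ℝ g p) :
    gx (fun q => f q + g q) p = gx f p + gx g p := by simp [gx, fderiv_fun_add hf hg]

theorem gy_add {p : ℝ × ℝ} (hf : DifferentiableAt ℝ f p) (hg : DifferentiableAt ℝ g p) :
    gy (fun q => f q + g q) p = gy f p + gy g p := by simp [gy, fderiv_fun_add hf hg]

theorem gx_sub {p : ℝ × ℝ} (hf : DifferentiableAt ℝ f p) (hg : DifferentiableAt ℝ g p) :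
    gx (fun q => f q - g q) p = gx f p - gx g p := by simp [gx, fderiv_fun_sub hf hg]

theorem gy_sub {p : ℝ × ℝ} (hf : DifferentiableAt ℝ f p) (hg : DifferentiableAt ℝ g p) :
    gy (fun q => f q - g q) p = gy f p - gy g p := by simp [gy, fderiv_fun_sub hf hg]

theorem gx_const_mul {p : ℝ × ℝ} (c : ℝ) (hf : DifferentiableAt ℝ f p) :
    gx (fun q => c * f q) p = c * gx f p := by simp [gx, fderiv_const_mul hf]

theorem gy_const_mul {p : ℝ × ℝ} (c : ℝ) (hf : DifferentiableAt ℝ f p) :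
    gy (fun q => c * f q) p = c * gy f p := by simp [gy, fderiv_const_mul hf]

theorem gx_neg {p : ℝ × ℝ} : gx (fun q => - f q) p = - gx f p := by
  simp [gx, fderiv_fun_neg]

theorem gy_neg {p : ℝ × ℝ} : gy (fun q => - f q) p = - gy f p := by
  simp [gy, fderiv_fun_neg]

theorem gx_mul {p : ℝ × ℝ} (hf : DifferentiableAt ℝ f p) (hg : DifferentiableAt ℝ g p) :
    gx (fun q => f q * g q) p = f p * gx g p + g p * gx f p := by
  simp [gx, fderiv_fun_mul hf hg]

theorem gy_mul {p : ℝ × ℝ} (hf : DifferentiableAt ℝ f p) (hg : DifferentiableAt ℝ g p) :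
    gy (fun q => f q * g q) p = f p * gy g p + g p * gy f p := by
  simp [gy, fderiv_fun_mul hf hg]

/-- a.e. on `U`: both functions and their maximum and minimum are differentiable and the
gradients are the expected ones. -/
theorem SL.ae_max_min (hf : SL U L f) (hg : SL U M g) (hU : IsOpen U) :
    ∀ᵐ p : ℝ × ℝ, p ∈ U → DifferentiableAt ℝ f p ∧ DifferentiableAt ℝ g p ∧
      ((g p ≤ f p → gx (fun q => Max.max (f q) (g q)) p = gx f p ∧
          gy (fun q => Max.max (f q) (g q)) p = gy f p ∧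
          gx (fun q => Min.min (f q) (g q)) p = gx g p ∧
          gy (fun q => Min.min (f q) (g q)) p = gy g p) ∧
        (f p ≤ g p → gx (fun q => Max.max (f q) (g q)) p = gx g p ∧
          gy (fun q => Max.max (f q) (g q)) p = gy g p ∧
          gx (fun q => Min.min (f q) (g q)) p = gx f p ∧
          gy (fun q => Min.min (f q) (g q)) p = gy f p)) := by
  filter_upwards [hf.ae_differentiableAt (μ := volume) hU,
    hg.ae_differentiableAt (μ := volume) hU,
    (hf.max hg).ae_differentiableAt (μ := volume) hU,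
    (hf.min hg).ae_differentiableAt (μ := volume) hU] with p h1 h2 h3 h4 hp
  have e1 := fderiv_max (h1 hp) (h2 hp) (h3 hp)
  have e2 := fderiv_min (h1 hp) (h2 hp) (h4 hp)
  refine ⟨h1 hp, h2 hp, fun h => ?_, fun h => ?_⟩
  · simp [gx, gy, e1.1 h, e2.2 h]
  · simp [gx, gy, e1.2 h, e2.1 h]


/-! ### the energy -/

/-- squared length of the gradient -/
noncomputable def g2 (f : ℝ × ℝ → ℝ) (p : ℝ × ℝ) : ℝ := gx f p ^ 2 + gy f p ^ 2

theorem g2_nonneg (f : ℝ × ℝ → ℝ) (p : ℝ × ℝ) : 0 ≤ g2 f p := by unfold g2; positivity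

theorem measurable_g2 (f : ℝ × ℝ → ℝ) : Measurable (g2 f) :=
  ((measurable_gx f).pow_const 2).add ((measurable_gy f).pow_const 2)

/-- energy on `W` -/
noncomputable def En (W : Set (ℝ × ℝ)) (f : ℝ × ℝ → ℝ) : ℝ := ∫ p in W, g2 f p

theorem En_nonneg (W : Set (ℝ × ℝ)) (f : ℝ × ℝ → ℝ) : 0 ≤ En W f :=
  integral_nonneg fun p => g2_nonneg f p

theorem SL.g2_le (hf : SL U L f) (hU : IsOpen U) (hL : 0 ≤ L) {p : ℝ × ℝ} (hp : p ∈ U) :
    g2 f p ≤ 2 * L ^ 2 := by
  have h1 := hf.abs_gx_le hU hL hp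
  have h2 := hf.abs_gy_le hU hL hp
  have h3 := sq_le_sq' (abs_le.mp h1).1 (abs_le.mp h1).2
  have h4 := sq_le_sq' (abs_le.mp h2).1 (abs_le.mp h2).2
  unfold g2; linarith

/-- The exceptional set: `W` open, `S` closed null. -/
theorem SL.integrableOn_g2 {W S : Set (ℝ × ℝ)} (hf : SL (W \ S) L f) (hW : IsOpen W)
    (hS : IsClosed S) (hS0 : volume S = 0) (hWb : volume W ≠ ∞) : IntegrableOn (g2 f) W := by
  have hf' : SL (W \ S) (Max.max L 0) f := hf.mono_const (le_max_left _ _)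
  refine Measure.integrableOn_of_bounded (M := 2 * (Max.max L 0) ^ 2) hWb
    (measurable_g2 f).aestronglyMeasurable ?_
  have h1 : ∀ᵐ p ∂(volume.restrict W), p ∉ S :=
    ae_restrict_of_ae (measure_eq_zero_iff_ae_notMem.mp hS0)
  filter_upwards [h1, ae_restrict_mem hW.measurableSet] with p hpS hpW
  rw [Real.norm_of_nonneg (g2_nonneg f p)]
  exact hf'.g2_le (hW.sdiff hS) (le_max_right _ _) ⟨hpW, hpS⟩

theorem ae_restrict_of_diff {W S : Set (ℝ × ℝ)} (hW : IsOpen W)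
    (hS0 : volume S = 0) {P : ℝ × ℝ → Prop} (h : ∀ᵐ p : ℝ × ℝ, p ∈ W \ S → P p) :
    ∀ᵐ p ∂(volume.restrict W), P p := by
  have h1 : ∀ᵐ p ∂(volume.restrict W), p ∉ S :=
    ae_restrict_of_ae (measure_eq_zero_iff_ae_notMem.mp hS0)
  filter_upwards [h1, ae_restrict_mem hW.measurableSet, ae_restrict_of_ae h] with p hpS hpW hp
  exact hp ⟨hpW, hpS⟩

theorem En_max_add_min {W S : Set (ℝ × ℝ)} (hf : SL (W \ S) L f) (hg : SL (W \ S) M g)
    (hW : IsOpen W) (hS : IsClosed S) (hS0 : volume S = 0) (hWb : volume W ≠ ∞) :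
    En W (fun q => Max.max (f q) (g q)) + En W (fun q => Min.min (f q) (g q)) =
      En W f + En W g := by
  unfold En
  rw [← integral_add ((hf.max hg).integrableOn_g2 hW hS hS0 hWb)
      ((hf.min hg).integrableOn_g2 hW hS hS0 hWb),
    ← integral_add (hf.integrableOn_g2 hW hS hS0 hWb) (hg.integrableOn_g2 hW hS hS0 hWb)]
  apply integral_congr_ae
  filter_upwards [ae_restrict_of_diff hW hS0 (hf.ae_max_min hg (hW.sdiff hS))] with p hp
  obtain ⟨-, -, h1, h2⟩ := hp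
  simp only [g2]
  rcases le_total (g p) (f p) with h | h
  · obtain ⟨a, b, c, d⟩ := h1 h
    rw [a, b, c, d]
  · obtain ⟨a, b, c, d⟩ := h2 h
    rw [a, b, c, d]; ring

theorem En_max_le {W S : Set (ℝ × ℝ)} (hf : SL (W \ S) L f) (hg : SL (W \ S) M g)
    (hW : IsOpen W) (hS : IsClosed S) (hS0 : volume S = 0) (hWb : volume W ≠ ∞) :
    En W (fun q => Max.max (f q) (g q)) ≤ En W f + En W g := by
  have := En_max_add_min hf hg hW hS hS0 hWb
  have h2 := En_nonneg W (fun q => Min.min (f q) (g q))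
  linarith

theorem En_min_le {W S : Set (ℝ × ℝ)} (hf : SL (W \ S) L f) (hg : SL (W \ S) M g)
    (hW : IsOpen W) (hS : IsClosed S) (hS0 : volume S = 0) (hWb : volume W ≠ ∞) :
    En W (fun q => Min.min (f q) (g q)) ≤ En W f + En W g := by
  have := En_max_add_min hf hg hW hS hS0 hWb
  have h2 := En_nonneg W (fun q => Max.max (f q) (g q))
  linarith

theorem En_const (W : Set (ℝ × ℝ)) (c : ℝ) : En W (fun _ => c) = 0 := by
  simp [En, g2]

theorem En_congr_ae {W : Set (ℝ × ℝ)} (h : ∀ᵐ p ∂(volume.restrict W), g2 f p = g2 g p) :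
    En W f = En W g := integral_congr_ae h

/-- truncation from above/below does not increase the energy -/
theorem En_max_const_le {W S : Set (ℝ × ℝ)} (hf : SL (W \ S) L f) (c : ℝ)
    (hW : IsOpen W) (hS : IsClosed S) (hS0 : volume S = 0) (hWb : volume W ≠ ∞) :
    En W (fun q => Max.max (f q) c) ≤ En W f := by
  have := En_max_le hf (SL_const c) hW hS hS0 hWb
  rwa [En_const, add_zero] at this

theorem En_min_const_le {W S : Set (ℝ × ℝ)} (hf : SL (W \ S) L f) (c : ℝ)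
    (hW : IsOpen W) (hS : IsClosed S) (hS0 : volume S = 0) (hWb : volume W ≠ ∞) :
    En W (fun q => Min.min (f q) c) ≤ En W f := by
  have := En_min_le hf (SL_const c) hW hS hS0 hWb
  rwa [En_const, add_zero] at this

theorem En_const_mul {W S : Set (ℝ × ℝ)} (hf : SL (W \ S) L f) (c : ℝ)
    (hW : IsOpen W) (hS : IsClosed S) (hS0 : volume S = 0) :
    En W (fun q => c * f q) = c ^ 2 * En W f := by
  unfold En
  rw [← integral_const_mul]
  apply integral_congr_ae
  filter_upwards [ae_restrict_of_diff hW hS0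
    (hf.ae_differentiableAt (μ := volume) (hW.sdiff hS))] with p hp
  simp only [g2, gx_const_mul c hp, gy_const_mul c hp]
  ring

/-- convexity -/
theorem En_convex {W S : Set (ℝ × ℝ)} (hf : SL (W \ S) L f) (hg : SL (W \ S) M g)
    (hW : IsOpen W) (hS : IsClosed S) (hS0 : volume S = 0) (hWb : volume W ≠ ∞)
    {s t : ℝ} (hs : 0 ≤ s) (ht : 0 ≤ t) (hst : s + t = 1) :
    En W (fun q => s * f q + t * g q) ≤ s * En W f + t * En W g := by
  unfold En
  rw [← integral_const_mul, ← integral_const_mul,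
    ← integral_add ((hf.integrableOn_g2 hW hS hS0 hWb).const_mul s)
      ((hg.integrableOn_g2 hW hS hS0 hWb).const_mul t)]
  apply integral_mono_ae
    (((hf.const_mul s).add (hg.const_mul t)).integrableOn_g2 hW hS hS0 hWb)
    (((hf.integrableOn_g2 hW hS hS0 hWb).const_mul s).add
      ((hg.integrableOn_g2 hW hS hS0 hWb).const_mul t))
  filter_upwards [ae_restrict_of_diff hW hS0
      (hf.ae_differentiableAt (μ := volume) (hW.sdiff hS)),
    ae_restrict_of_diff hW hS0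
      (hg.ae_differentiableAt (μ := volume) (hW.sdiff hS))] with p hp hq
  have e1 : gx (fun q => s * f q + t * g q) p = s * gx f p + t * gx g p := by
    rw [gx_add (hp.const_mul s) (hq.const_mul t), gx_const_mul s hp, gx_const_mul t hq]
  have e2 : gy (fun q => s * f q + t * g q) p = s * gy f p + t * gy g p := by
    rw [gy_add (hp.const_mul s) (hq.const_mul t), gy_const_mul s hp, gy_const_mul t hq]
  simp only [g2, e1, e2, Pi.add_apply]
  have ht' : t = 1 - s := by linarith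
  subst ht'
  nlinarith [mul_nonneg (mul_nonneg hs ht) (sq_nonneg (gx f p - gx g p)),
    mul_nonneg (mul_nonneg hs ht) (sq_nonneg (gy f p - gy g p))]

/-- two-term inequality -/
theorem En_add_le {W S : Set (ℝ × ℝ)} (hf : SL (W \ S) L f) (hg : SL (W \ S) M g)
    (hW : IsOpen W) (hS : IsClosed S) (hS0 : volume S = 0) (hWb : volume W ≠ ∞) :
    En W (fun q => f q + g q) ≤ 2 * En W f + 2 * En W g := by
  unfold En
  rw [← integral_const_mul, ← integral_const_mul,
    ← integral_add ((hf.integrableOn_g2 hW hS hS0 hWb).const_mul 2)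
      ((hg.integrableOn_g2 hW hS hS0 hWb).const_mul 2)]
  apply integral_mono_ae
    ((hf.add hg).integrableOn_g2 hW hS hS0 hWb)
    (((hf.integrableOn_g2 hW hS hS0 hWb).const_mul 2).add
      ((hg.integrableOn_g2 hW hS hS0 hWb).const_mul 2))
  filter_upwards [ae_restrict_of_diff hW hS0
      (hf.ae_differentiableAt (μ := volume) (hW.sdiff hS)),
    ae_restrict_of_diff hW hS0
      (hg.ae_differentiableAt (μ := volume) (hW.sdiff hS))] with p hp hq
  simp only [g2, gx_add hp hq, gy_add hp hq, Pi.add_apply]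
  nlinarith [sq_nonneg (gx f p - gx g p), sq_nonneg (gy f p - gy g p)]

/-- the pointwise bound for products -/
theorem g2_mul_le {p : ℝ × ℝ} (hf : DifferentiableAt ℝ f p) (hg : DifferentiableAt ℝ g p) :
    g2 (fun q => f q * g q) p ≤ 2 * (f p ^ 2 * g2 g p) + 2 * (g p ^ 2 * g2 f p) := by
  simp only [g2, gx_mul hf hg, gy_mul hf hg]
  nlinarith [sq_nonneg (f p * gx g p - g p * gx f p), sq_nonneg (f p * gy g p - g p * gy f p)]

end Crest.Agent.R105.CF_363
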