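import Mathlib
import Crest.Agent.R105.CF3_363

-- ▼ part R105/CF4_363
section

/-!
# Row 105: decomposition of a function on an open rectangle which is Lipschitz (along segments) off
a closed set contained in finitely many vertical lines:
`e = (Lipschitz) + ∑ ξ, 1_{x > ξ} j_ξ(y)`, with `j_ξ` Lipschitz and zero off the slits.
-/

namespace Crest.Agent.R105.CF_363

open Set Filter MeasureTheory Topology
open scoped ENNReal NNReal

theorem isClosed_fst_mem (X : Finset ℝ) : IsClosed {p : ℝ × ℝ | p.1 ∈ X} :=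
  (X.finite_toSet.isClosed).preimage continuous_fst


theorem dist_snd_le (p q : ℝ × ℝ) : |p.2 - q.2| ≤ dist p q := by
  rw [← Real.dist_eq, Prod.dist_eq]; exact le_max_right _ _

/-- Limits along horizontals. -/
theorem tendsto_right {e E : ℝ × ℝ → ℝ} {ξ y δ : ℝ} (hδ : 0 < δ)
    (he : ContinuousAt e (ξ, y)) (hE : Continuous E)
    (h : ∀ x ∈ Ioo ξ (ξ + δ), e (x, y) = E (x, y)) : e (ξ, y) = E (ξ, y) := by
  have hc : Tendsto (fun x : ℝ => (x, y)) (𝓝[>] ξ) (𝓝 (ξ, y)) :=
    tendsto_nhdsWithin_of_tendsto_nhds (Continuous.tendsto' (by fun_prop) _ _ rfl)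
  have h1 : Tendsto (fun x : ℝ => e (x, y)) (𝓝[>] ξ) (𝓝 (e (ξ, y))) := he.tendsto.comp hc
  have h2 : Tendsto (fun x : ℝ => E (x, y)) (𝓝[>] ξ) (𝓝 (E (ξ, y))) :=
    (hE.tendsto _).comp hc
  refine tendsto_nhds_unique h1 (h2.congr' ?_)
  filter_upwards [Ioo_mem_nhdsGT (by linarith : ξ < ξ + δ)] with x hx
  exact (h x hx).symm

theorem tendsto_left {e E : ℝ × ℝ → ℝ} {ξ y δ : ℝ} (hδ : 0 < δ)
    (he : ContinuousAt e (ξ, y)) (hE : Continuous E)
    (h : ∀ x ∈ Ioo (ξ - δ) ξ, e (x, y) = E (x, y)) : e (ξ, y) = E (ξ, y) := by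
  have hc : Tendsto (fun x : ℝ => (x, y)) (𝓝[<] ξ) (𝓝 (ξ, y)) :=
    tendsto_nhdsWithin_of_tendsto_nhds (Continuous.tendsto' (by fun_prop) _ _ rfl)
  have h1 : Tendsto (fun x : ℝ => e (x, y)) (𝓝[<] ξ) (𝓝 (e (ξ, y))) := he.tendsto.comp hc
  have h2 : Tendsto (fun x : ℝ => E (x, y)) (𝓝[<] ξ) (𝓝 (E (ξ, y))) :=
    (hE.tendsto _).comp hc
  refine tendsto_nhds_unique h1 (h2.congr' ?_)
  filter_upwards [Ioo_mem_nhdsLT (by linarith : ξ - δ < ξ)] with x hx
  exact (h x hx).symm

/-- The decomposition. -/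
theorem decomp {a b c d : ℝ} (X : Finset ℝ) : ∀ {S : Set (ℝ × ℝ)}, IsClosed S →
    (∀ p ∈ S, p.1 ∈ X) → ∀ {L : ℝ≥0} {e : ℝ × ℝ → ℝ}, SL ((Ioo a b ×ˢ Ioo c d) \ S) L e →
    ∃ (M : ℝ≥0) (j : ℝ → ℝ → ℝ) (e0 : ℝ × ℝ → ℝ), LipschitzWith M e0 ∧
      (∀ ξ ∈ X, LipschitzWith M (j ξ)) ∧ (∀ ξ ∈ X, ξ ∉ Ioo a b → j ξ = 0) ∧
      (∀ ξ ∈ X, ∀ y ∈ Ioo c d, (ξ, y) ∉ S → j ξ y = 0) ∧
      (∀ p ∈ Ioo a b ×ˢ Ioo c d, p.1 ∉ X →
        e p = e0 p + ∑ ξ ∈ X, if ξ < p.1 then j ξ p.2 else 0) := by
  classical
  induction X using Finset.induction_on with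
  | empty =>
    intro S hS hSX L e he
    have hS0 : S = ∅ := by
      ext p; simp only [mem_empty_iff_false, iff_false]
      exact fun hp => by simpa using hSX p hp
    subst hS0
    rw [sdiff_empty] at he
    have hconv : Convex ℝ (Ioo a b ×ˢ Ioo c d) := (convex_Ioo a b).prod (convex_Ioo c d)
    have h1 := he.lipschitzOnWith hconv subset_rfl
    obtain ⟨g, hg, hge⟩ := h1.extend_real
    refine ⟨_, fun _ _ => 0, g, hg, by simp, by simp, by simp, fun p hp _ => ?_⟩
    simpa using hge hp
  | insert ξ X hξX ih =>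
    intro S hS hSX L e he
    set R : Set (ℝ × ℝ) := Ioo a b ×ˢ Ioo c d with hR
    have hRo : IsOpen R := isOpen_Ioo.prod isOpen_Ioo
    set S' : Set (ℝ × ℝ) := S ∩ {p : ℝ × ℝ | p.1 ∈ X} with hS'
    have hS'c : IsClosed S' := hS.inter (isClosed_fst_mem X)
    have hS'X : ∀ p ∈ S', p.1 ∈ X := fun p hp => hp.2
    have hSS' : ∀ p, p.1 ≠ ξ → p ∈ S → p ∈ S' := by
      intro p hp hpS
      refine ⟨hpS, ?_⟩
      rcases Finset.mem_insert.mp (hSX p hpS) with h | h
      · exact absurd h hp
      · exact h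
    by_cases hξ : ξ ∈ Ioo a b
    swap
    · have hsub : R \ S' ⊆ R \ S := by
        rintro p ⟨hpR, hpS⟩
        refine ⟨hpR, fun h => hpS (hSS' p ?_ h)⟩
        rintro rfl
        exact hξ hpR.1
      obtain ⟨M, j, e0, h1, h2, h3, h4, h5⟩ := ih hS'c hS'X (he.mono hsub)
      have hne : ∀ x ∈ X, x ≠ ξ := by rintro x hx rfl; exact hξX hx
      refine ⟨M, Function.update j ξ 0, e0, h1, ?_, ?_, ?_, ?_⟩
      · intro x hx
        rcases Finset.mem_insert.mp hx with h | h
        · subst h; rw [Function.update_self]; exact LipschitzWith.const' 0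
        · rw [Function.update_of_ne (hne x h)]; exact h2 x h
      · intro x hx hxab
        rcases Finset.mem_insert.mp hx with h | h
        · subst h; rw [Function.update_self]
        · rw [Function.update_of_ne (hne x h)]; exact h3 x h hxab
      · intro x hx y hy hxy
        rcases Finset.mem_insert.mp hx with h | h
        · subst h; rw [Function.update_self]; rfl
        · rw [Function.update_of_ne (hne x h)]
          exact h4 x h y hy fun hc => hxy hc.1
      · intro p hp hpX
        rw [Finset.sum_insert hξX, Function.update_self]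
        have hp' : p.1 ∉ X := fun h => hpX (Finset.mem_insert_of_mem h)
        have h7 : ∑ x ∈ X, (if x < p.1 then Function.update j ξ 0 x p.2 else 0) =
            ∑ x ∈ X, if x < p.1 then j x p.2 else 0 := by
          refine Finset.sum_congr rfl fun x hx => ?_
          rw [Function.update_of_ne (hne x hx)]
        rw [h7, h5 p hp hp']
        simp
    · -- the main case
      obtain ⟨δ, hδ, hδ'⟩ : ∃ δ > 0, Metric.ball ξ δ ⊆ Ioo a b ∩ (↑X : Set ℝ)ᶜ :=
        Metric.isOpen_iff.mp (isOpen_Ioo.inter X.finite_toSet.isClosed.isOpen_compl) ξ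
          ⟨hξ, by simpa using hξX⟩
      have hball : ∀ x, ξ - δ < x → x < ξ + δ → x ∈ Ioo a b ∧ x ∉ X := by
        intro x h1 h2
        have : x ∈ Metric.ball ξ δ := by
          rw [Metric.mem_ball, Real.dist_eq, abs_lt]; constructor <;> linarith
        simpa using hδ' this
      have hCp : Ioo ξ (ξ + δ) ×ˢ Ioo c d ⊆ R \ S := by
        rintro p ⟨hp1, hp2⟩
        have := hball p.1 (by linarith [hp1.1]) hp1.2
        refine ⟨⟨this.1, hp2⟩, fun h => ?_⟩
        rcases Finset.mem_insert.mp (hSX p h) with h | h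
        · linarith [hp1.1]
        · exact this.2 h
      have hCm : Ioo (ξ - δ) ξ ×ˢ Ioo c d ⊆ R \ S := by
        rintro p ⟨hp1, hp2⟩
        have := hball p.1 hp1.1 (by linarith [hp1.2])
        refine ⟨⟨this.1, hp2⟩, fun h => ?_⟩
        rcases Finset.mem_insert.mp (hSX p h) with h | h
        · linarith [hp1.2]
        · exact this.2 h
      obtain ⟨Ep, hEp, hEpe⟩ := (he.lipschitzOnWith
        ((convex_Ioo ξ (ξ + δ)).prod (convex_Ioo c d)) hCp).extend_real
      obtain ⟨Em, hEm, hEme⟩ := (he.lipschitzOnWith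
        ((convex_Ioo (ξ - δ) ξ).prod (convex_Ioo c d)) hCm).extend_real
      simp only [Real.toNNReal_coe] at hEp hEm
      have hEp' : ∀ p q, |Ep p - Ep q| ≤ L * dist p q := fun p q => by
        have := hEp.dist_le_mul p q; rwa [Real.dist_eq] at this
      have hEm' : ∀ p q, |Em p - Em q| ≤ L * dist p q := fun p q => by
        have := hEm.dist_le_mul p q; rwa [Real.dist_eq] at this
      set j0 : ℝ → ℝ := fun y => Ep (ξ, y) - Em (ξ, y) with hj0
      have hj0l : ∀ y y', |j0 y - j0 y'| ≤ (2 * L : ℝ) * |y - y'| := by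
        intro y y'
        have h1 := hEp' (ξ, y) (ξ, y')
        have h2 := hEm' (ξ, y) (ξ, y')
        have hd : dist ((ξ, y) : ℝ × ℝ) (ξ, y') = |y - y'| := by simp [Prod.dist_eq, Real.dist_eq]
        rw [hd] at h1 h2
        calc |j0 y - j0 y'| = |(Ep (ξ, y) - Ep (ξ, y')) - (Em (ξ, y) - Em (ξ, y'))| := by
              simp only [hj0]; congr 1; ring
          _ ≤ |Ep (ξ, y) - Ep (ξ, y')| + |Em (ξ, y) - Em (ξ, y')| := abs_sub _ _
          _ ≤ _ := by linarith
      have hj02 : ∀ p q : ℝ × ℝ, |j0 p.2 - j0 q.2| ≤ (2 * L : ℝ) * dist p q := fun p q =>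
        (hj0l _ _).trans (mul_le_mul_of_nonneg_left (dist_snd_le p q) (by positivity))
      set e' : ℝ × ℝ → ℝ := fun p =>
        if p.1 = ξ then Em p else if ξ < p.1 then e p - j0 p.2 else e p with he'
      have hSL' : SL (R \ S') (3 * L : ℝ≥0) e' := by
        refine SL_of_local_ball fun p hp => ?_
        by_cases hpξ : p.1 = ξ
        · -- on the line
          have hO : IsOpen (Ioo (ξ - δ) (ξ + δ) ×ˢ Ioo c d) := isOpen_Ioo.prod isOpen_Ioo
          obtain ⟨r, hr, hrO⟩ := Metric.isOpen_iff.mp hO p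
            ⟨⟨by linarith, by linarith⟩, hp.1.2⟩
          refine ⟨r, hr, LipschitzOnWith.of_dist_le_mul fun z hz w hw => ?_⟩
          rw [Real.dist_eq]
          refine lip_glue (convex_ball p r) (ξ := ξ) (f := e') (L := (3 * L : ℝ≥0)) ?_ ?_
            z hz w hw
          · have key : ∀ z ∈ Metric.ball p r, z.1 ≤ ξ → e' z = Em z := by
              intro z hz hz'
              rcases eq_or_lt_of_le hz' with h | h
              · simp only [he', if_pos h]
              · simp only [he', if_neg h.ne, if_neg (not_lt.mpr hz')]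
                exact hEme ⟨⟨(hrO hz).1.1, h⟩, (hrO hz).2⟩
            intro z hz w hw hz' hw'
            rw [key z hz hz', key w hw hw']
            refine (hEm' z w).trans ?_
            push_cast
            have := dist_nonneg (x := z) (y := w)
            have := L.2
            nlinarith [mul_nonneg L.2 (dist_nonneg (x := z) (y := w))]
          · have key : ∀ z ∈ Metric.ball p r, ξ ≤ z.1 → e' z = Ep z - j0 z.2 := by
              intro z hz hz'
              rcases eq_or_lt_of_le hz' with h | h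
              · have hz0 : z = (ξ, z.2) := by rw [h]
                simp only [he', if_pos h.symm, hj0]
                rw [← hz0]; ring
              · simp only [he', if_neg h.ne', if_pos h]
                rw [hEpe ⟨⟨h, (hrO hz).1.2⟩, (hrO hz).2⟩]
            intro z hz w hw hz' hw'
            rw [key z hz hz', key w hw hw']
            have h1 := hEp' z w
            have h2 := hj02 z w
            calc |Ep z - j0 z.2 - (Ep w - j0 w.2)| = |(Ep z - Ep w) - (j0 z.2 - j0 w.2)| := by
                  congr 1; ring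
              _ ≤ |Ep z - Ep w| + |j0 z.2 - j0 w.2| := abs_sub _ _
              _ ≤ L * dist z w + 2 * L * dist z w := add_le_add h1 h2
              _ = _ := by push_cast; ring
        · have hpS : p ∈ (R \ S) ∩ {z : ℝ × ℝ | z.1 ≠ ξ} :=
            ⟨⟨hp.1, fun h => hp.2 (hSS' p hpξ h)⟩, hpξ⟩
          have hO : IsOpen ((R \ S) ∩ {z : ℝ × ℝ | z.1 ≠ ξ}) :=
            (hRo.sdiff hS).inter (isOpen_ne.preimage continuous_fst)
          obtain ⟨r, hr, hrO⟩ := Metric.isOpen_iff.mp hO p hpS
          have hl := he.lipschitzOnWith (convex_ball p r) fun z hz => (hrO hz).1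
          simp only [Real.toNNReal_coe] at hl
          have hl' : ∀ z ∈ Metric.ball p r, ∀ w ∈ Metric.ball p r,
              |e z - e w| ≤ L * dist z w := fun z hz w hw => by
            have := hl.dist_le_mul z hz w hw; rwa [Real.dist_eq] at this
          refine ⟨r, hr, LipschitzOnWith.of_dist_le_mul fun z hz w hw => ?_⟩
          rw [Real.dist_eq]
          have hside : ∀ z ∈ Metric.ball p r, ∀ w ∈ Metric.ball p r, z.1 < ξ → ¬ ξ < w.1 := by
            intro z hz w hw hzξ hwξ
            obtain ⟨m, hm, hmξ, -⟩ := cross (p := z) (q := w) hzξ.le hwξ.le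
            exact (hrO ((convex_ball p r).segment_subset hz hw hm)).2 hmξ
          have hz1 : z.1 ≠ ξ := (hrO hz).2
          have hw1 : w.1 ≠ ξ := (hrO hw).2
          have h1 := hl' z hz w hw
          have h2 := hj02 z w
          have h0 : 0 ≤ (L : ℝ) * dist z w := mul_nonneg L.2 dist_nonneg
          simp only [he', if_neg hz1, if_neg hw1]
          rcases lt_or_gt_of_ne hz1 with h | h
          · rw [if_neg (not_lt.mpr h.le), if_neg (hside z hz w hw h)]
            refine h1.trans ?_
            push_cast; linarith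
          · have hw2 : ξ < w.1 := by
              rcases lt_or_gt_of_ne hw1 with h' | h'
              · exact absurd h (hside w hw z hz h')
              · exact h'
            rw [if_pos h, if_pos hw2]
            calc |e z - j0 z.2 - (e w - j0 w.2)| = |(e z - e w) - (j0 z.2 - j0 w.2)| := by
                  congr 1; ring
              _ ≤ |e z - e w| + |j0 z.2 - j0 w.2| := abs_sub _ _
              _ ≤ L * dist z w + 2 * L * dist z w := add_le_add h1 h2
              _ = _ := by push_cast; ring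
      obtain ⟨M, j, e0, h1, h2, h3, h4, h5⟩ := ih hS'c hS'X hSL'
      have hne : ∀ x ∈ X, x ≠ ξ := by rintro x hx rfl; exact hξX hx
      have hj0L : LipschitzWith (2 * L) j0 := LipschitzWith.of_dist_le_mul fun y y' => by
        rw [Real.dist_eq, Real.dist_eq]; push_cast; exact hj0l y y'
      refine ⟨Max.max M (2 * L), Function.update j ξ j0, e0, h1.weaken (le_max_left _ _),
        ?_, ?_, ?_, ?_⟩
      · intro x hx
        rcases Finset.mem_insert.mp hx with h | h
        · subst h; rw [Function.update_self]; exact hj0L.weaken (le_max_right _ _)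
        · rw [Function.update_of_ne (hne x h)]; exact (h2 x h).weaken (le_max_left _ _)
      · intro x hx hxab
        rcases Finset.mem_insert.mp hx with h | h
        · subst h; exact absurd hξ hxab
        · rw [Function.update_of_ne (hne x h)]; exact h3 x h hxab
      · intro x hx y hy hxy
        rcases Finset.mem_insert.mp hx with h | h
        · subst h; rw [Function.update_self]
          have hcont : ContinuousAt e (x, y) := by
            refine he.continuousAt (hRo.sdiff hS) ⟨⟨hξ, hy⟩, hxy⟩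
          have t1 := tendsto_right hδ hcont hEp.continuous
            fun s hs => hEpe ⟨hs, hy⟩
          have t2 := tendsto_left hδ hcont hEm.continuous
            fun s hs => hEme ⟨hs, hy⟩
          simp only [hj0]; rw [← t1, ← t2, sub_self]
        · rw [Function.update_of_ne (hne x h)]
          exact h4 x h y hy fun hc => hxy hc.1
      · intro p hp hpX
        have hp' : p.1 ∉ X := fun h => hpX (Finset.mem_insert_of_mem h)
        have hpξ : p.1 ≠ ξ := fun h => hpX (h ▸ Finset.mem_insert_self _ _)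
        rw [Finset.sum_insert hξX, Function.update_self]
        have h6 := h5 p hp hp'
        have h7 : ∑ x ∈ X, (if x < p.1 then Function.update j ξ j0 x p.2 else 0) =
            ∑ x ∈ X, if x < p.1 then j x p.2 else 0 := by
          refine Finset.sum_congr rfl fun x hx => ?_
          rw [Function.update_of_ne (hne x hx)]
        rw [h7]
        have h8 : e p = e' p + (if ξ < p.1 then j0 p.2 else 0) := by
          simp only [he', if_neg hpξ]
          split_ifs <;> ring
        rw [h8, h6]; ring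

end Crest.Agent.R105.CF_363
end

-- ▼ part R105/CF5_363
section

/-!
# Row 105: Green's formula on a rectangle.
`∫_R (w₂ ∂ₓe - w₁ ∂_y e) = 0` for `e` Lipschitz and `w` with zero boundary values, absolutely
continuous on almost every horizontal and vertical line with partial derivatives `w₁`, `w₂`.
-/

namespace Crest.Agent.R105.CF_363

open Set Filter MeasureTheory Topology
open scoped ENNReal NNReal Interval

/-- one-dimensional integration by parts -/
theorem ibp {α β : ℝ} {f ψ ψ' : ℝ → ℝ} (hf : IntervalIntegrable f volume α β)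
    (h0 : ∫ t in α..β, f t = 0) (hψ : AbsolutelyContinuousOnInterval ψ α β)
    (hd : ∀ᵐ t, t ∈ uIcc α β → HasDerivAt ψ (ψ' t) t) :
    ∫ t in α..β, f t * ψ t = - ∫ t in α..β, (∫ s in α..t, f s) * ψ' t := by
  have hφ : AbsolutelyContinuousOnInterval (fun t => ∫ s in α..t, f s) α β :=
    hf.absolutelyContinuousOnInterval_intervalIntegral (c := α) (by simp)
  have h1 := AbsolutelyContinuousOnInterval.integral_mul_deriv_eq_deriv_mul hψ hφ
  simp only [h0, intervalIntegral.integral_same, mul_zero, sub_zero, zero_sub] at h1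
  have e1 : ∫ t in α..β, f t * ψ t = ∫ x in α..β, ψ x * deriv (fun t => ∫ s in α..t, f s) x := by
    apply intervalIntegral.integral_congr_ae
    filter_upwards [hf.ae_hasDerivAt_integral] with t ht ht'
    rw [(ht (uIoc_subset_uIcc ht') α (by simp)).deriv, mul_comm]
  have e2 : ∫ t in α..β, (∫ s in α..t, f s) * ψ' t =
      ∫ x in α..β, deriv ψ x * ∫ s in α..x, f s := by
    apply intervalIntegral.integral_congr_ae
    filter_upwards [hd] with t ht ht'
    rw [(ht (uIoc_subset_uIcc ht')).deriv, mul_comm]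
  rw [e1, e2, h1]

theorem volume_restrict_rect (a b c d : ℝ) :
    (volume : Measure (ℝ × ℝ)).restrict (Ioo a b ×ˢ Ioo c d) =
      (volume.restrict (Ioo a b)).prod (volume.restrict (Ioo c d)) := by
  rw [Measure.prod_restrict, Measure.volume_eq_prod]

theorem integral_rect {a b c d : ℝ} {F : ℝ × ℝ → ℝ} (hF : IntegrableOn F (Ioo a b ×ˢ Ioo c d)) :
    ∫ p in Ioo a b ×ˢ Ioo c d, F p = ∫ x in Ioo a b, ∫ y in Ioo c d, F (x, y) := by
  unfold IntegrableOn at hF
  rw [volume_restrict_rect] at hF ⊢
  exact integral_prod F hF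

theorem integral_rect_symm {a b c d : ℝ} {F : ℝ × ℝ → ℝ}
    (hF : IntegrableOn F (Ioo a b ×ˢ Ioo c d)) :
    ∫ p in Ioo a b ×ˢ Ioo c d, F p = ∫ y in Ioo c d, ∫ x in Ioo a b, F (x, y) := by
  unfold IntegrableOn at hF
  rw [volume_restrict_rect] at hF ⊢
  exact integral_prod_symm F hF


theorem intervalIntegral_eq_Ioo {a b : ℝ} (hab : a ≤ b) (f : ℝ → ℝ) :
    ∫ t in a..b, f t = ∫ t in Ioo a b, f t := by
  rw [intervalIntegral.integral_of_le hab, integral_Ioc_eq_integral_Ioo]

/-- joint measurability of a primitive -/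
theorem stronglyMeasurable_prim {g : ℝ × ℝ → ℝ} (hg : Measurable g) (a : ℝ) :
    StronglyMeasurable (fun p : ℝ × ℝ => ∫ s in a..p.1, g (s, p.2)) := by
  have h1 : ∀ p : ℝ × ℝ, ∫ s in a..p.1, g (s, p.2) =
      (∫ s, (if a < s ∧ s ≤ p.1 then g (s, p.2) else 0)) -
        ∫ s, (if p.1 < s ∧ s ≤ a then g (s, p.2) else 0) := by
    intro p
    rw [intervalIntegral, ← integral_indicator measurableSet_Ioc,
      ← integral_indicator measurableSet_Ioc]
    congr 1 <;> (congr 1; ext s; simp only [indicator, mem_Ioc])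
  simp_rw [h1]
  have m1 : StronglyMeasurable
      (fun q : (ℝ × ℝ) × ℝ => if a < q.2 ∧ q.2 ≤ q.1.1 then g (q.2, q.1.2) else 0) := by
    apply Measurable.stronglyMeasurable
    apply Measurable.ite
    · exact (measurableSet_lt measurable_const measurable_snd).inter
        (measurableSet_le measurable_snd (measurable_fst.fst))
    · exact hg.comp (measurable_snd.prodMk measurable_fst.snd)
    · exact measurable_const
  have m2 : StronglyMeasurable
      (fun q : (ℝ × ℝ) × ℝ => if q.1.1 < q.2 ∧ q.2 ≤ a then g (q.2, q.1.2) else 0) := by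
    apply Measurable.stronglyMeasurable
    apply Measurable.ite
    · exact (measurableSet_lt measurable_fst.fst measurable_snd).inter
        (measurableSet_le measurable_snd measurable_const)
    · exact hg.comp (measurable_snd.prodMk measurable_fst.snd)
    · exact measurable_const
  exact m1.integral_prod_right'.sub m2.integral_prod_right'

/-- integrability of the primitive on the rectangle -/
theorem integrable_prim {a b c d : ℝ} {g : ℝ × ℝ → ℝ} (hg : Measurable g)
    (hgi : IntegrableOn g (Ioo a b ×ˢ Ioo c d)) :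
    IntegrableOn (fun p : ℝ × ℝ => ∫ s in a..p.1, g (s, p.2)) (Ioo a b ×ˢ Ioo c d) := by
  have hA : Integrable (fun y => ∫ x in Ioo a b, ‖g (x, y)‖) (volume.restrict (Ioo c d)) := by
    have := hgi
    unfold IntegrableOn at this
    rw [volume_restrict_rect] at this
    exact this.integral_norm_prod_right
  have hB : Integrable (fun p : ℝ × ℝ => ∫ x in Ioo a b, ‖g (x, p.2)‖)
      (volume.restrict (Ioo a b ×ˢ Ioo c d)) := by
    rw [volume_restrict_rect]
    exact hA.comp_snd _
  refine Integrable.mono' hB (stronglyMeasurable_prim hg a).aestronglyMeasurable ?_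
  have hsecI : ∀ᵐ y ∂(volume.restrict (Ioo c d)),
      Integrable (fun x => g (x, y)) (volume.restrict (Ioo a b)) := by
    have := hgi
    unfold IntegrableOn at this
    rw [volume_restrict_rect] at this
    exact this.prod_left_ae
  have h2 : ∀ᵐ p ∂(volume.restrict (Ioo a b ×ˢ Ioo c d)),
      Integrable (fun x => g (x, p.2)) (volume.restrict (Ioo a b)) := by
    rw [volume_restrict_rect]
    exact (Measure.quasiMeasurePreserving_snd).ae hsecI
  filter_upwards [h2, ae_restrict_mem (measurableSet_Ioo.prod measurableSet_Ioo)] with p hp hpR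
  rw [intervalIntegral.integral_of_le hpR.1.1.le]
  refine (norm_integral_le_integral_norm _).trans ?_
  refine setIntegral_mono_set hp.norm (Eventually.of_forall fun x => norm_nonneg _) ?_
  exact (Ioc_subset_Ioo_right hpR.1.2).eventuallyLE

/-- Step 1: the identity for difference quotients. -/
theorem green_step {a b c d L h : ℝ} (hab : a ≤ b) (hcd : c ≤ d) (hL : 0 ≤ L) (hh : 0 < h)
    {w1 w2 e : ℝ × ℝ → ℝ} (hw1m : Measurable w1)
    (hw1 : IntegrableOn w1 (Ioo a b ×ˢ Ioo c d)) (hw2 : IntegrableOn w2 (Ioo a b ×ˢ Ioo c d))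
    (hb : ∀ᵐ y, y ∈ Ioo c d → ∫ s in a..b, w1 (s, y) = 0)
    (hd : ∀ᵐ x, x ∈ Ioo a b → ∫ t in c..d, w2 (x, t) = 0)
    (hUV : ∀ᵐ p : ℝ × ℝ, p ∈ Ioo a b ×ˢ Ioo c d →
      ∫ s in a..p.1, w1 (s, p.2) = ∫ t in c..p.2, w2 (p.1, t))
    (he : ∀ p q : ℝ × ℝ, |e p - e q| ≤ L * dist p q) :
    ∫ p in Ioo a b ×ˢ Ioo c d, w2 p * ((e (p.1 + h, p.2) - e p) / h) =
      ∫ p in Ioo a b ×ˢ Ioo c d, w1 p * (h⁻¹ * ∫ s in p.1..(p.1 + h), gy e (s, p.2)) := by
  set R : Set (ℝ × ℝ) := Ioo a b ×ˢ Ioo c d with hR
  have heSL : SL univ L e := fun p q _ => he p q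
  have hec : Continuous e := continuous_iff_continuousAt.mpr fun p =>
    heSL.continuousAt isOpen_univ (mem_univ p)
  have hgyb : ∀ p, |gy e p| ≤ L := fun p => heSL.abs_gy_le isOpen_univ hL (mem_univ p)
  have hgym : Measurable (gy e) := measurable_gy e
  have hgyl : ∀ y, Measurable fun s => gy e (s, y) := fun y =>
    hgym.comp (measurable_id.prodMk measurable_const)
  have hgyi : ∀ y α β, IntervalIntegrable (fun s => gy e (s, y)) volume α β := by
    intro y α β
    rw [intervalIntegrable_iff]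
    refine Measure.integrableOn_of_bounded (M := L) (by simp)
      (hgyl y).aestronglyMeasurable (Eventually.of_forall fun s => by
        rw [Real.norm_eq_abs]; exact hgyb _)
  -- the second difference quotient
  set D : ℝ × ℝ → ℝ := fun p => (gy e (p.1 + h, p.2) - gy e p) / h with hD
  have hDm : Measurable D := by
    apply Measurable.div_const
    exact (hgym.comp ((measurable_fst.add_const h).prodMk measurable_snd)).sub hgym
  have hDb : ∀ p, |D p| ≤ 2 * L / h := by
    intro p
    simp only [hD]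
    rw [abs_div, abs_of_pos hh]
    apply div_le_div_of_nonneg_right _ hh.le
    calc |gy e (p.1 + h, p.2) - gy e p| ≤ |gy e (p.1 + h, p.2)| + |gy e p| := abs_sub _ _
      _ ≤ 2 * L := by linarith [hgyb (p.1 + h, p.2), hgyb p]
  set U : ℝ × ℝ → ℝ := fun p => ∫ s in a..p.1, w1 (s, p.2) with hU
  have hUi : IntegrableOn U R := integrable_prim hw1m hw1
  have hUD : IntegrableOn (fun p => U p * D p) R :=
    hUi.mul_bdd (c := 2 * L / h) hDm.aestronglyMeasurable (Eventually.of_forall fun p => by
      rw [Real.norm_eq_abs]; exact hDb p)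
  -- sections
  have hdiff : ∀ᵐ p : ℝ × ℝ, DifferentiableAt ℝ e p := by
    filter_upwards [heSL.ae_differentiableAt (μ := volume) isOpen_univ] with p hp
    exact hp (mem_univ p)
  have hsec1 : ∀ᵐ y ∂(volume.restrict (Ioo c d)),
      Integrable (fun x => w1 (x, y)) (volume.restrict (Ioo a b)) := by
    have := hw1
    unfold IntegrableOn at this
    rw [hR, volume_restrict_rect] at this
    exact this.prod_left_ae
  have hsec2 : ∀ᵐ x ∂(volume.restrict (Ioo a b)),
      Integrable (fun y => w2 (x, y)) (volume.restrict (Ioo c d)) := by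
    have := hw2
    unfold IntegrableOn at this
    rw [hR, volume_restrict_rect] at this
    exact this.prod_right_ae
  -- Δ is Lipschitz and bounded
  have hΔb : ∀ p : ℝ × ℝ, |(e (p.1 + h, p.2) - e p) / h| ≤ L := by
    intro p
    rw [abs_div, abs_of_pos hh, div_le_iff₀ hh]
    refine (he _ _).trans ?_
    have : dist (p.1 + h, p.2) p = h := by
      rw [Prod.dist_eq]; simp [abs_of_pos hh, hh.le]
    rw [this]
  have hΔm : Measurable fun p : ℝ × ℝ => (e (p.1 + h, p.2) - e p) / h := by
    have : Continuous fun p : ℝ × ℝ => (e (p.1 + h, p.2) - e p) / h := by fun_prop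
    exact this.measurable
  have hF1 : IntegrableOn (fun p => w2 p * ((e (p.1 + h, p.2) - e p) / h)) R :=
    hw2.mul_bdd (c := L) hΔm.aestronglyMeasurable (Eventually.of_forall fun p => by
      rw [Real.norm_eq_abs]; exact hΔb p)
  -- G
  set G : ℝ × ℝ → ℝ := fun p => h⁻¹ * ∫ s in p.1..(p.1 + h), gy e (s, p.2) with hG
  have hGeq : ∀ p : ℝ × ℝ, G p = h⁻¹ * ((∫ s in a..(p.1 + h), gy e (s, p.2)) -
      ∫ s in a..p.1, gy e (s, p.2)) := by
    intro p
    simp only [hG]
    rw [intervalIntegral.integral_interval_sub_left (hgyi _ _ _) (hgyi _ _ _)]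
  have hGm : Measurable G := by
    have h1 := (stronglyMeasurable_prim hgym a).measurable
    have h2 : Measurable fun p : ℝ × ℝ => ∫ s in a..(p.1 + h), gy e (s, p.2) :=
      h1.comp ((measurable_fst.add_const h).prodMk measurable_snd)
    have : G = fun p : ℝ × ℝ => h⁻¹ * ((∫ s in a..(p.1 + h), gy e (s, p.2)) -
      ∫ s in a..p.1, gy e (s, p.2)) := funext hGeq
    rw [this]
    exact (h2.sub h1).const_mul _
  have hGb : ∀ p, |G p| ≤ L := by
    intro p
    simp only [hG]
    rw [abs_mul, abs_of_pos (inv_pos.mpr hh)]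
    have h1 : |∫ s in p.1..(p.1 + h), gy e (s, p.2)| ≤ L * |p.1 + h - p.1| :=
      intervalIntegral.norm_integral_le_of_norm_le_const fun s _ =>
        (Real.norm_eq_abs _).trans_le (hgyb (s, p.2))
    rw [add_sub_cancel_left, abs_of_pos hh] at h1
    calc h⁻¹ * _ ≤ h⁻¹ * (L * h) := mul_le_mul_of_nonneg_left h1 (inv_pos.mpr hh).le
      _ = L := by field_simp
  have hF2 : IntegrableOn (fun p => w1 p * G p) R :=
    hw1.mul_bdd (c := L) hGm.aestronglyMeasurable (Eventually.of_forall fun p => by
      rw [Real.norm_eq_abs]; exact hGb p)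
  -- left side
  have hleft : ∫ p in R, w2 p * ((e (p.1 + h, p.2) - e p) / h) =
      ∫ x in Ioo a b, ∫ y in Ioo c d, - (U (x, y) * D (x, y)) := by
    rw [hR, integral_rect hF1]
    apply integral_congr_ae
    have hdx : ∀ᵐ x : ℝ, ∀ᵐ y : ℝ, DifferentiableAt ℝ e (x, y) := ae_unswap hdiff
    have hdxh : ∀ᵐ x : ℝ, ∀ᵐ y : ℝ, DifferentiableAt ℝ e (x + h, y) :=
      (measurePreserving_add_right volume h).quasiMeasurePreserving.ae hdx
    have hUV' : ∀ᵐ x : ℝ, ∀ᵐ y : ℝ, (x, y) ∈ Ioo a b ×ˢ Ioo c d →
        ∫ s in a..x, w1 (s, y) = ∫ t in c..y, w2 (x, t) := ae_unswap hUV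
    filter_upwards [hsec2, ae_restrict_of_ae hdx, ae_restrict_of_ae hdxh,
      ae_restrict_of_ae hUV', ae_restrict_of_ae hd,
      ae_restrict_mem measurableSet_Ioo] with x h1 h2 h3 h4 h5 hx
    have hii : IntervalIntegrable (fun y => w2 (x, y)) volume c d := by
      rw [intervalIntegrable_iff_integrableOn_Ioo_of_le hcd]; exact h1
    have hlip : LipschitzWith (Real.toNNReal (2 * L / h))
        (fun y => (e (x + h, y) - e (x, y)) / h) := by
      refine LipschitzWith.of_dist_le_mul fun y y' => ?_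
      rw [Real.dist_eq, Real.coe_toNNReal _ (by positivity)]
      have a1 := he (x + h, y) (x + h, y')
      have a2 := he (x, y) (x, y')
      have d1 : dist ((x + h, y) : ℝ × ℝ) (x + h, y') = dist y y' := by simp [Prod.dist_eq]
      have d2 : dist ((x, y) : ℝ × ℝ) (x, y') = dist y y' := by simp [Prod.dist_eq]
      rw [d1] at a1
      rw [d2] at a2
      have : (e (x + h, y) - e (x, y)) / h - (e (x + h, y') - e (x, y')) / h =
          ((e (x + h, y) - e (x + h, y')) - (e (x, y) - e (x, y'))) / h := by ring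
      rw [this, abs_div, abs_of_pos hh, div_mul_eq_mul_div, div_le_div_iff_of_pos_right hh]
      refine (abs_sub _ _).trans ?_
      linarith
    have key := ibp (f := fun y => w2 (x, y)) (ψ := fun y => (e (x + h, y) - e (x, y)) / h)
      (ψ' := fun y => D (x, y)) hii (h5 hx)
      (hlip.lipschitzOnWith).absolutelyContinuousOnInterval (by
        filter_upwards [h2, h3] with y hy hy' _
        have b1 := gy_eq_deriv hy
        have b2 := gy_eq_deriv hy'
        exact (b2.sub b1).div_const h)
    rw [intervalIntegral_eq_Ioo hcd, intervalIntegral_eq_Ioo hcd] at key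
    rw [key, ← integral_neg]
    apply integral_congr_ae
    filter_upwards [ae_restrict_of_ae h4, ae_restrict_mem measurableSet_Ioo] with y hy hy'
    simp only [hU]
    rw [hy ⟨hx, hy'⟩]
  -- right side
  have hright : ∫ p in R, w1 p * G p =
      ∫ y in Ioo c d, ∫ x in Ioo a b, - (U (x, y) * D (x, y)) := by
    rw [hR, integral_rect_symm hF2]
    apply integral_congr_ae
    filter_upwards [hsec1, ae_restrict_of_ae hb, ae_restrict_mem measurableSet_Ioo]
      with y h1 h5 hy
    have hii : IntervalIntegrable (fun x => w1 (x, y)) volume a b := by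
      rw [intervalIntegrable_iff_integrableOn_Ioo_of_le hab]; exact h1
    have hloc : LocallyIntegrable (fun s => gy e (s, y)) volume := by
      intro x
      refine ⟨Ioc (x - 1) (x + 1), Ioc_mem_nhds (by linarith) (by linarith), ?_⟩
      have := hgyi y (x - 1) (x + 1)
      rwa [intervalIntegrable_iff_integrableOn_Ioc_of_le (by linarith)] at this
    have hder := LocallyIntegrable.ae_hasDerivAt_integral hloc
    have hderh : ∀ᵐ x : ℝ, ∀ c, HasDerivAt (fun x => ∫ t in c..x, gy e (t, y))
        (gy e (x + h, y)) (x + h) :=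
      (measurePreserving_add_right volume h).quasiMeasurePreserving.ae hder
    have hPlip : LipschitzWith (Real.toNNReal L) (fun x => ∫ t in a..x, gy e (t, y)) := by
      refine LipschitzWith.of_dist_le_mul fun x x' => ?_
      rw [Real.dist_eq, Real.coe_toNNReal _ hL,
        intervalIntegral.integral_interval_sub_left (hgyi _ _ _) (hgyi _ _ _), dist_comm,
        Real.dist_eq, abs_sub_comm x' x]
      exact intervalIntegral.norm_integral_le_of_norm_le_const fun s _ =>
        (Real.norm_eq_abs _).trans_le (hgyb (s, y))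
    have hGlip : AbsolutelyContinuousOnInterval (fun x => G (x, y)) a b := by
      have e1 : (fun x => G (x, y)) = fun x => h⁻¹ * ((∫ t in a..(x + h), gy e (t, y)) -
          ∫ t in a..x, gy e (t, y)) := funext fun x => hGeq (x, y)
      rw [e1]
      have l1 : LipschitzWith (Real.toNNReal L) (fun x => ∫ t in a..(x + h), gy e (t, y)) := by
        refine LipschitzWith.of_dist_le_mul fun x x' => ?_
        have := hPlip.dist_le_mul (x + h) (x' + h)
        rwa [dist_add_right] at this
      have l2 := l1.sub hPlip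
      have l3 : LipschitzWith _ (fun x => h⁻¹ * ((∫ t in a..(x + h), gy e (t, y)) -
          ∫ t in a..x, gy e (t, y))) := (lipschitzWith_smul (h⁻¹ : ℝ)).comp l2
      exact l3.lipschitzOnWith.absolutelyContinuousOnInterval
    have key := ibp (f := fun x => w1 (x, y)) (ψ := fun x => G (x, y))
      (ψ' := fun x => D (x, y)) hii (h5 hy) hGlip (by
        filter_upwards [hder, hderh] with x hx hx' _
        have b1 := hx a
        have b2 : HasDerivAt (fun x => ∫ t in a..(x + h), gy e (t, y)) (gy e (x + h, y)) x := by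
          exact (hx' a).comp_add_const x h
        have b3 : HasDerivAt (fun x => h⁻¹ * ((∫ t in a..(x + h), gy e (t, y)) -
            ∫ t in a..x, gy e (t, y))) (h⁻¹ * (gy e (x + h, y) - gy e (x, y))) x :=
          (b2.sub b1).const_mul h⁻¹
        have e2 : D (x, y) = h⁻¹ * (gy e (x + h, y) - gy e (x, y)) := by
          simp only [hD]; ring
        have e1 : (fun x => G (x, y)) = fun x => h⁻¹ * ((∫ t in a..(x + h), gy e (t, y)) -
          ∫ t in a..x, gy e (t, y)) := funext fun x => hGeq (x, y)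
        rw [e1, e2]
        exact b3)
    rw [intervalIntegral_eq_Ioo hab, intervalIntegral_eq_Ioo hab] at key
    rw [key, ← integral_neg]
  have hn : IntegrableOn (fun p => -(U p * D p)) R := hUD.neg
  rw [hleft, hright, ← integral_rect hn, ← integral_rect_symm hn]

end Crest.Agent.R105.CF_363
end

-- ▼ part R105/CF6_363

/-!
# Row 105: Green's formula on a rectangle with hairs.
-/

namespace Crest.Agent.R105.CF_363

open Set Filter MeasureTheory Topology
open scoped ENNReal NNReal Interval

theorem measurableSet_tendsto_fun {α : Type*} [MeasurableSpace α] {G : ℕ → α → ℝ} {g : α → ℝ}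
    (hG : ∀ n, Measurable (G n)) (hg : Measurable g) :
    MeasurableSet {p | Tendsto (fun n => G n p) atTop (𝓝 (g p))} := by
  have : {p | Tendsto (fun n => G n p) atTop (𝓝 (g p))} =
      ⋂ k : ℕ, ⋃ N : ℕ, ⋂ n : ℕ, ⋂ _ : N ≤ n, {p | |G n p - g p| < 1 / ((k : ℝ) + 1)} := by
    ext p
    simp only [mem_ofPred_eq, mem_iInter, mem_iUnion]
    rw [Metric.tendsto_atTop]
    constructor
    · intro h k
      obtain ⟨N, hN⟩ := h (1 / ((k : ℝ) + 1)) (by positivity)
      exact ⟨N, fun n hn => by have := hN n hn; rwa [Real.dist_eq] at this⟩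
    · intro h ε hε
      obtain ⟨k, hk⟩ := exists_nat_one_div_lt hε
      obtain ⟨N, hN⟩ := h k
      exact ⟨N, fun n hn => by rw [Real.dist_eq]; exact (hN n hn).trans hk⟩
  rw [this]
  refine MeasurableSet.iInter fun k => MeasurableSet.iUnion fun N => MeasurableSet.iInter fun n =>
    MeasurableSet.iInter fun _ => ?_
  exact measurableSet_lt ((hG n).sub hg).abs measurable_const

/-- Green's formula for Lipschitz `e` and `w` vanishing on the boundary (`w₁` measurable). -/
theorem green_core {a b c d L : ℝ} (hab : a ≤ b) (hcd : c ≤ d) (hL : 0 ≤ L)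
    {w1 w2 e : ℝ × ℝ → ℝ} (hw1m : Measurable w1)
    (hw1 : IntegrableOn w1 (Ioo a b ×ˢ Ioo c d)) (hw2 : IntegrableOn w2 (Ioo a b ×ˢ Ioo c d))
    (hb : ∀ᵐ y, y ∈ Ioo c d → ∫ s in a..b, w1 (s, y) = 0)
    (hd : ∀ᵐ x, x ∈ Ioo a b → ∫ t in c..d, w2 (x, t) = 0)
    (hUV : ∀ᵐ p : ℝ × ℝ, p ∈ Ioo a b ×ˢ Ioo c d →
      ∫ s in a..p.1, w1 (s, p.2) = ∫ t in c..p.2, w2 (p.1, t))
    (he : ∀ p q : ℝ × ℝ, |e p - e q| ≤ L * dist p q) :
    ∫ p in Ioo a b ×ˢ Ioo c d, w2 p * gx e p = ∫ p in Ioo a b ×ˢ Ioo c d, w1 p * gy e p := by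
  set R : Set (ℝ × ℝ) := Ioo a b ×ˢ Ioo c d with hR
  set h : ℕ → ℝ := fun n => 1 / ((n : ℝ) + 1) with hh
  have hpos : ∀ n, 0 < h n := fun n => by simp only [hh]; positivity
  have hlim : Tendsto h atTop (𝓝[>] 0) := by
    rw [tendsto_nhdsWithin_iff]
    exact ⟨tendsto_one_div_add_atTop_nhds_zero_nat, Eventually.of_forall fun n => hpos n⟩
  have heSL : SL univ L e := fun p q _ => he p q
  have hec : Continuous e := continuous_iff_continuousAt.mpr fun p =>
    heSL.continuousAt isOpen_univ (mem_univ p)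
  have hgyb : ∀ p, |gy e p| ≤ L := fun p => heSL.abs_gy_le isOpen_univ hL (mem_univ p)
  have hgym : Measurable (gy e) := measurable_gy e
  have hgyl : ∀ y, Measurable fun s => gy e (s, y) := fun y =>
    hgym.comp (measurable_id.prodMk measurable_const)
  have hgyi : ∀ y α β, IntervalIntegrable (fun s => gy e (s, y)) volume α β := by
    intro y α β
    rw [intervalIntegrable_iff]
    refine Measure.integrableOn_of_bounded (M := L) (by simp)
      (hgyl y).aestronglyMeasurable (Eventually.of_forall fun s => by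
        rw [Real.norm_eq_abs]; exact hgyb _)
  have hΔb : ∀ n, ∀ p : ℝ × ℝ, |(e (p.1 + h n, p.2) - e p) / h n| ≤ L := by
    intro n p
    rw [abs_div, abs_of_pos (hpos n), div_le_iff₀ (hpos n)]
    refine (he _ _).trans ?_
    have : dist (p.1 + h n, p.2) p = h n := by
      rw [Prod.dist_eq]; simp [abs_of_pos (hpos n), (hpos n).le]
    rw [this]
  have hΔm : ∀ n, Measurable fun p : ℝ × ℝ => (e (p.1 + h n, p.2) - e p) / h n := by
    intro n
    have : Continuous fun p : ℝ × ℝ => (e (p.1 + h n, p.2) - e p) / h n := by fun_prop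
    exact this.measurable
  set G : ℕ → ℝ × ℝ → ℝ := fun n p => (h n)⁻¹ * ∫ s in p.1..(p.1 + h n), gy e (s, p.2) with hG
  have hGeq : ∀ n, ∀ p : ℝ × ℝ, G n p = (h n)⁻¹ * ((∫ s in a..(p.1 + h n), gy e (s, p.2)) -
      ∫ s in a..p.1, gy e (s, p.2)) := by
    intro n p
    simp only [hG]
    rw [intervalIntegral.integral_interval_sub_left (hgyi _ _ _) (hgyi _ _ _)]
  have hGm : ∀ n, Measurable (G n) := by
    intro n
    have h1 := (stronglyMeasurable_prim hgym a).measurable
    have h2 : Measurable fun p : ℝ × ℝ => ∫ s in a..(p.1 + h n), gy e (s, p.2) :=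
      h1.comp ((measurable_fst.add_const (h n)).prodMk measurable_snd)
    have : G n = fun p : ℝ × ℝ => (h n)⁻¹ * ((∫ s in a..(p.1 + h n), gy e (s, p.2)) -
      ∫ s in a..p.1, gy e (s, p.2)) := funext (hGeq n)
    rw [this]
    exact (h2.sub h1).const_mul _
  have hGb : ∀ n p, |G n p| ≤ L := by
    intro n p
    simp only [hG]
    rw [abs_mul, abs_of_pos (inv_pos.mpr (hpos n))]
    have h1 : |∫ s in p.1..(p.1 + h n), gy e (s, p.2)| ≤ L * |p.1 + h n - p.1| :=
      intervalIntegral.norm_integral_le_of_norm_le_const fun s _ =>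
        (Real.norm_eq_abs _).trans_le (hgyb (s, p.2))
    rw [add_sub_cancel_left, abs_of_pos (hpos n)] at h1
    have hne := (hpos n).ne'
    calc (h n)⁻¹ * _ ≤ (h n)⁻¹ * (L * h n) :=
          mul_le_mul_of_nonneg_left h1 (inv_pos.mpr (hpos n)).le
      _ = L := by field_simp
  have step := fun n => green_step hab hcd hL (hpos n) hw1m hw1 hw2 hb hd hUV he
  have lim1 : Tendsto (fun n => ∫ p in R, w2 p * ((e (p.1 + h n, p.2) - e p) / h n)) atTop
      (𝓝 (∫ p in R, w2 p * gx e p)) := by
    refine tendsto_integral_of_dominated_convergence (fun p => |w2 p| * L)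
      (fun n => hw2.aestronglyMeasurable.mul (hΔm n).aestronglyMeasurable)
      (hw2.abs.mul_const L) (fun n => Eventually.of_forall fun p => ?_) ?_
    · rw [Real.norm_eq_abs, abs_mul]
      exact mul_le_mul_of_nonneg_left (hΔb n p) (abs_nonneg _)
    · have : ∀ᵐ p : ℝ × ℝ, p ∈ (univ : Set (ℝ × ℝ)) → DifferentiableAt ℝ e p :=
        heSL.ae_differentiableAt (μ := volume) isOpen_univ
      refine ae_restrict_of_ae ?_
      filter_upwards [this] with p hp
      have h1 := (gx_eq_deriv (x := p.1) (y := p.2) (hp (mem_univ p))).tendsto_slope_zero_right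
      have h2 := (h1.comp hlim).const_mul (w2 p)
      refine h2.congr fun n => ?_
      simp only [Function.comp, smul_eq_mul]
      rw [div_eq_inv_mul]
  have lim2 : Tendsto (fun n => ∫ p in R, w1 p * G n p) atTop
      (𝓝 (∫ p in R, w1 p * gy e p)) := by
    refine tendsto_integral_of_dominated_convergence (fun p => |w1 p| * L)
      (fun n => hw1.aestronglyMeasurable.mul (hGm n).aestronglyMeasurable)
      (hw1.abs.mul_const L) (fun n => Eventually.of_forall fun p => ?_) ?_
    · rw [Real.norm_eq_abs, abs_mul]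
      exact mul_le_mul_of_nonneg_left (hGb n p) (abs_nonneg _)
    · have hae : ∀ᵐ y : ℝ, ∀ᵐ x : ℝ,
          Tendsto (fun n => G n (x, y)) atTop (𝓝 (gy e (x, y))) := by
        refine Eventually.of_forall fun y => ?_
        have hloc : LocallyIntegrable (fun s => gy e (s, y)) volume := by
          intro x
          refine ⟨Ioc (x - 1) (x + 1), Ioc_mem_nhds (by linarith) (by linarith), ?_⟩
          have := hgyi y (x - 1) (x + 1)
          rwa [intervalIntegrable_iff_integrableOn_Ioc_of_le (by linarith)] at this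
        filter_upwards [LocallyIntegrable.ae_hasDerivAt_integral hloc] with x hx
        have h1 := ((hx a).tendsto_slope_zero_right).comp hlim
        refine h1.congr fun n => ?_
        simp only [Function.comp, smul_eq_mul]
        rw [hGeq]
      have hms := measurableSet_tendsto_fun hGm hgym
      have hae2 : ∀ᵐ x : ℝ, ∀ᵐ y : ℝ, Tendsto (fun n => G n (x, y)) atTop (𝓝 (gy e (x, y))) :=
        (Measure.ae_ae_comm (μ := (volume : Measure ℝ)) (ν := (volume : Measure ℝ))
          (p := fun x y => Tendsto (fun n => G n (x, y)) atTop (𝓝 (gy e (x, y)))) hms).mpr hae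
      have hae3 : ∀ᵐ p : ℝ × ℝ, p ∈ {p | Tendsto (fun n => G n p) atTop (𝓝 (gy e p))} := by
        rw [Measure.volume_eq_prod]
        exact (Measure.ae_prod_mem_iff_ae_ae_mem hms).mpr hae2
      refine ae_restrict_of_ae ?_
      filter_upwards [hae3] with p hp
      exact hp.const_mul (w1 p)
  have lim2' : Tendsto (fun n => ∫ p in R, w2 p * ((e (p.1 + h n, p.2) - e p) / h n)) atTop
      (𝓝 (∫ p in R, w1 p * gy e p)) := lim2.congr fun n => (step n).symm
  exact tendsto_nhds_unique lim1 lim2'

/-- The jump function of a family of disjoint hairs vanishes at the tips. -/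
theorem jump_tips {c d : ℝ} {J : Finset Hair}
    (hJ : ∀ K ∈ J, ∀ K' ∈ J, K ≠ K' → Disjoint K.car K'.car) {K : Hair} (hK : K ∈ J)
    {j : ℝ → ℝ} (hj : Continuous j) (h0 : ∀ y ∈ Ioo c d, (K.x, y) ∉ cut J → j y = 0)
    (hcb : c < K.b) (htd : K.t < d) : j K.b = 0 ∧ j K.t = 0 := by
  classical
  have hbt := K.hbt
  have hcl : IsClosed (cut (J.erase K)) := isClosed_cut _
  have hnot : ∀ y, y ∈ Icc K.b K.t → (K.x, y) ∉ cut (J.erase K) := by
    rintro y hy ⟨K', hK', hm⟩
    rw [Finset.mem_erase] at hK'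
    exact Set.disjoint_left.mp (hJ K' hK'.2 K hK hK'.1) hm ⟨rfl, hy.1, hy.2⟩
  have hopen : ∀ y, y ∈ Icc K.b K.t → ∀ᶠ z in 𝓝 y, (K.x, z) ∉ cut (J.erase K) := by
    intro y hy
    have hc : Continuous fun z : ℝ => (K.x, z) := by fun_prop
    exact (hcl.isOpen_compl.preimage hc).mem_nhds (hnot y hy)
  have hsplit : ∀ z, (K.x, z) ∉ cut (J.erase K) → z ∉ Icc K.b K.t → (K.x, z) ∉ cut J := by
    rintro z h1 h2 ⟨K', hK', hm⟩
    by_cases hKK : K' = K
    · subst hKK; exact h2 ⟨hm.2.1, hm.2.2⟩
    · exact h1 ⟨K', Finset.mem_erase.mpr ⟨hKK, hK'⟩, hm⟩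
  constructor
  · have h1 : Tendsto j (𝓝[<] K.b) (𝓝 (j K.b)) := hj.continuousAt.tendsto.mono_left inf_le_left
    have h2 : Tendsto j (𝓝[<] K.b) (𝓝 0) := by
      refine Tendsto.congr' ?_ tendsto_const_nhds
      filter_upwards [(hopen K.b ⟨le_rfl, hbt.le⟩).filter_mono inf_le_left,
        Ioo_mem_nhdsLT hcb] with z hz hz'
      exact (h0 z ⟨hz'.1, by linarith [hz'.2]⟩
        (hsplit z hz fun h => absurd h.1 (not_le.mpr hz'.2))).symm
    exact tendsto_nhds_unique h1 h2
  · have h1 : Tendsto j (𝓝[>] K.t) (𝓝 (j K.t)) := hj.continuousAt.tendsto.mono_left inf_le_left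
    have h2 : Tendsto j (𝓝[>] K.t) (𝓝 0) := by
      refine Tendsto.congr' ?_ tendsto_const_nhds
      filter_upwards [(hopen K.t ⟨hbt.le, le_rfl⟩).filter_mono inf_le_left,
        Ioo_mem_nhdsGT htd] with z hz hz'
      exact (h0 z ⟨by linarith [hz'.1], hz'.2⟩
        (hsplit z hz fun h => absurd h.2 (not_le.mpr hz'.1))).symm
    exact tendsto_nhds_unique h1 h2

/-- Green's formula with hairs: `w` has zero boundary values on the rectangle and is a.e. constant
on every hair (the constant being `0` for hairs which are not inside the rectangle). -/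
theorem green_hairs {a b c d L : ℝ} (hab : a ≤ b) (hcd : c ≤ d) (hL : 0 ≤ L)
    {J : Finset Hair} (hJ : ∀ K ∈ J, ∀ K' ∈ J, K ≠ K' → Disjoint K.car K'.car)
    {w1 w2 e : ℝ × ℝ → ℝ} (hw1m : Measurable w1)
    (hw1 : IntegrableOn w1 (Ioo a b ×ˢ Ioo c d)) (hw2 : IntegrableOn w2 (Ioo a b ×ˢ Ioo c d))
    (hb : ∀ᵐ y, y ∈ Ioo c d → ∫ s in a..b, w1 (s, y) = 0)
    (hd : ∀ᵐ x, x ∈ Ioo a b → ∫ t in c..d, w2 (x, t) = 0)
    (hUV : ∀ᵐ p : ℝ × ℝ, p ∈ Ioo a b ×ˢ Ioo c d →
      ∫ s in a..p.1, w1 (s, p.2) = ∫ t in c..p.2, w2 (p.1, t))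
    (he : SL ((Ioo a b ×ˢ Ioo c d) \ cut J) L e)
    (hκ : ∀ K ∈ J, K.x ∈ Ioo a b → ∃ κ : ℝ,
      (∀ᵐ y, y ∈ Ioo c d → y ∈ Ioo K.b K.t → ∫ s in a..K.x, w1 (s, y) = κ) ∧
      (κ ≠ 0 → c < K.b ∧ K.t < d)) :
    ∫ p in Ioo a b ×ˢ Ioo c d, w2 p * gx e p = ∫ p in Ioo a b ×ˢ Ioo c d, w1 p * gy e p := by
  classical
  set R : Set (ℝ × ℝ) := Ioo a b ×ˢ Ioo c d with hR
  have hRo : IsOpen R := isOpen_Ioo.prod isOpen_Ioo
  set X : Finset ℝ := J.image Hair.x with hX
  have hSX : ∀ p ∈ cut J, p.1 ∈ X := by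
    rintro p ⟨K, hK, hp⟩
    rw [hp.1]; exact Finset.mem_image_of_mem _ hK
  lift L to ℝ≥0 using hL
  obtain ⟨M, j, e0, h1, h2, h3, h4, h5⟩ := decomp X (isClosed_cut J) hSX he
  have he0 : ∀ p q, |e0 p - e0 q| ≤ (M : ℝ) * dist p q := fun p q => by
    have := h1.dist_le_mul p q; rwa [Real.dist_eq] at this
  have core := green_core hab hcd M.2 hw1m hw1 hw2 hb hd hUV he0
  -- off the lines
  have hX0 : volume {p : ℝ × ℝ | p.1 ∈ X} = 0 := by
    have : {p : ℝ × ℝ | p.1 ∈ X} = (↑X : Set ℝ) ×ˢ univ := by ext p; simp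
    rw [this, Measure.volume_eq_prod, Measure.prod_prod]
    simp [X.finite_toSet.measure_zero]
  have hofX : ∀ᵐ p : ℝ × ℝ, p.1 ∉ X := by
    have := measure_eq_zero_iff_ae_notMem.mp hX0
    filter_upwards [this] with p hp using hp
  have hjd : ∀ᵐ p : ℝ × ℝ, ∀ ξ ∈ X, HasDerivAt (j ξ) (deriv (j ξ) p.2) p.2 := by
    have h6 : ∀ᵐ y : ℝ, ∀ ξ ∈ X, HasDerivAt (j ξ) (deriv (j ξ) y) y := by
      rw [Finset.eventually_all]
      intro ξ hξ
      filter_upwards [(h2 ξ hξ).ae_differentiableAt_real] with y hy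
      exact hy.hasDerivAt
    have : ∀ᵐ p : ℝ × ℝ ∂((volume : Measure ℝ).prod volume),
        ∀ ξ ∈ X, HasDerivAt (j ξ) (deriv (j ξ) p.2) p.2 :=
      Measure.quasiMeasurePreserving_snd.ae h6
    rwa [Measure.volume_eq_prod]
  have he0d : ∀ᵐ p : ℝ × ℝ, DifferentiableAt ℝ e0 p := h1.ae_differentiableAt
  have hgrad : ∀ᵐ p : ℝ × ℝ, p ∈ R → gx e p = gx e0 p ∧
      gy e p = gy e0 p + ∑ ξ ∈ X, if ξ < p.1 then deriv (j ξ) p.2 else 0 := by
    filter_upwards [hofX, hjd, he0d] with p hpX hpj hp0 hpR
    have hO : IsOpen (R ∩ {z : ℝ × ℝ | z.1 ∈ X}ᶜ) := hRo.inter (isClosed_fst_mem X).isOpen_compl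
    -- locally the indicators are constant
    have hloc : ∀ᶠ z in 𝓝 p, z ∈ R ∧ z.1 ∉ X ∧ ∀ ξ ∈ X, (ξ < z.1 ↔ ξ < p.1) := by
      have e1 : ∀ᶠ z in 𝓝 p, z ∈ R ∩ {z : ℝ × ℝ | z.1 ∈ X}ᶜ := hO.mem_nhds ⟨hpR, hpX⟩
      have e2 : ∀ᶠ z in 𝓝 p, ∀ ξ ∈ X, (ξ < z.1 ↔ ξ < p.1) := by
        rw [Finset.eventually_all]
        intro ξ hξ
        have hne : ξ ≠ p.1 := by rintro rfl; exact hpX hξ
        rcases lt_or_gt_of_ne hne with h | h
        · filter_upwards [(isOpen_lt continuous_const continuous_fst).mem_nhds h] with z hz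
          exact ⟨fun _ => h, fun _ => hz⟩
        · filter_upwards [(isOpen_lt continuous_fst continuous_const).mem_nhds h] with z hz
          exact ⟨fun h' => absurd h' (not_lt.mpr (le_of_lt hz)),
            fun h' => absurd h' (not_lt.mpr h.le)⟩
      filter_upwards [e1, e2] with z hz1 hz2
      exact ⟨hz1.1, hz1.2, hz2⟩
    have heq : e =ᶠ[𝓝 p] fun z => e0 z + ∑ ξ ∈ X, if ξ < p.1 then j ξ z.2 else 0 := by
      filter_upwards [hloc] with z hz
      rw [h5 z hz.1 hz.2.1]
      congr 1
      refine Finset.sum_congr rfl fun ξ hξ => ?_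
      simp only [hz.2.2 ξ hξ]
    have hterm : ∀ ξ ∈ X, HasFDerivAt (fun z : ℝ × ℝ => if ξ < p.1 then j ξ z.2 else 0)
        ((if ξ < p.1 then deriv (j ξ) p.2 else 0) • (ContinuousLinearMap.snd ℝ ℝ ℝ)) p := by
      intro ξ hξ
      by_cases h : ξ < p.1
      · simp only [if_pos h]
        have := (hpj ξ hξ).hasFDerivAt.comp p (hasFDerivAt_snd (𝕜 := ℝ) (p := p))
        exact this.congr_fderiv (by ext <;> simp)
      · simp only [if_neg h, zero_smul]
        exact hasFDerivAt_const _ _
    have hsum := HasFDerivAt.fun_sum hterm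
    have htot := hp0.hasFDerivAt.add hsum
    have hfd := (htot.congr_of_eventuallyEq heq).fderiv
    constructor
    · simp only [gx, hfd, add_apply, sum_apply, smul_apply]
      simp
    · simp only [gy, hfd, add_apply, sum_apply, smul_apply]
      simp
  have hLgx : ∫ p in R, w2 p * gx e p = ∫ p in R, w2 p * gx e0 p := by
    apply integral_congr_ae
    filter_upwards [ae_restrict_of_ae hgrad, ae_restrict_mem hRo.measurableSet] with p hp hpR
    rw [(hp hpR).1]
  -- bounded measurable derivatives of the jumps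
  have hjb : ∀ ξ ∈ X, ∀ y, |deriv (j ξ) y| ≤ M := fun ξ hξ y => by
    have := norm_deriv_le_of_lipschitz (h2 ξ hξ) (x₀ := y)
    rwa [Real.norm_eq_abs] at this
  have hsecm : ∀ ξ, Measurable fun p : ℝ × ℝ => if ξ < p.1 then deriv (j ξ) p.2 else 0 := by
    intro ξ
    apply Measurable.ite (measurableSet_lt measurable_const measurable_fst)
    · exact (measurable_deriv (j ξ)).comp measurable_snd
    · exact measurable_const
  have hint : ∀ ξ ∈ X, IntegrableOn
      (fun p => w1 p * (if ξ < p.1 then deriv (j ξ) p.2 else 0)) R := by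
    intro ξ hξ
    refine hw1.mul_bdd (c := M) (hsecm ξ).aestronglyMeasurable
      (Eventually.of_forall fun p => ?_)
    rw [Real.norm_eq_abs]
    split_ifs
    · exact hjb ξ hξ _
    · simp
  have hint0 : IntegrableOn (fun p => w1 p * gy e0 p) R := by
    have heSL : SL univ M e0 := fun p q _ => he0 p q
    refine hw1.mul_bdd (c := M) (measurable_gy e0).aestronglyMeasurable
      (Eventually.of_forall fun p => ?_)
    rw [Real.norm_eq_abs]
    exact heSL.abs_gy_le isOpen_univ M.2 (mem_univ p)
  have hRgy : ∫ p in R, w1 p * gy e p = (∫ p in R, w1 p * gy e0 p) +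
      ∑ ξ ∈ X, ∫ p in R, w1 p * (if ξ < p.1 then deriv (j ξ) p.2 else 0) := by
    rw [← integral_finsetSum X hint, ← integral_add hint0 (integrable_finsetSum X hint)]
    apply integral_congr_ae
    filter_upwards [ae_restrict_of_ae hgrad, ae_restrict_mem hRo.measurableSet] with p hp hpR
    rw [(hp hpR).2, mul_add, Finset.mul_sum]
  -- each jump term vanishes
  have hzero : ∀ ξ ∈ X, ∫ p in R, w1 p * (if ξ < p.1 then deriv (j ξ) p.2 else 0) = 0 := by
    intro ξ hξ
    by_cases hξab : ξ ∈ Ioo a b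
    swap
    · have hj0 : j ξ = 0 := h3 ξ hξ hξab
      have : ∀ p : ℝ × ℝ, w1 p * (if ξ < p.1 then deriv (j ξ) p.2 else 0) = 0 := by
        intro p
        rw [hj0]
        have : deriv (0 : ℝ → ℝ) p.2 = 0 := by
          have : (0 : ℝ → ℝ) = fun _ => (0 : ℝ) := rfl
          rw [this, deriv_const]
        rw [this]; simp
      simp [this]
    rw [hR, integral_rect_symm (hint ξ hξ)]
    have hsec1 : ∀ᵐ y ∂(volume.restrict (Ioo c d)),
        Integrable (fun x => w1 (x, y)) (volume.restrict (Ioo a b)) := by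
      have := hw1
      unfold IntegrableOn at this
      rw [hR, volume_restrict_rect] at this
      exact this.prod_left_ae
    -- the inner integral
    have hinner : ∀ᵐ y ∂(volume.restrict (Ioo c d)),
        ∫ x in Ioo a b, w1 (x, y) * (if ξ < x then deriv (j ξ) y else 0) =
          - (deriv (j ξ) y * ∫ s in a..ξ, w1 (s, y)) := by
      filter_upwards [hsec1, ae_restrict_of_ae hb, ae_restrict_mem measurableSet_Ioo]
        with y hy1 hy2 hy3
      have hii : IntervalIntegrable (fun x => w1 (x, y)) volume a b := by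
        rw [intervalIntegrable_iff_integrableOn_Ioo_of_le hab]; exact hy1
      have e1 : ∫ x in Ioo a b, w1 (x, y) * (if ξ < x then deriv (j ξ) y else 0) =
          ∫ x in Ioo ξ b, w1 (x, y) * deriv (j ξ) y := by
        rw [← integral_indicator measurableSet_Ioo, ← integral_indicator measurableSet_Ioo]
        congr 1
        ext x
        simp only [indicator, mem_Ioo]
        by_cases hx : ξ < x
        · have : a < x := hξab.1.trans hx
          simp [hx, this]
        · simp [hx]
      have i1 : IntervalIntegrable (fun x => w1 (x, y)) volume a ξ := hii.mono_set (by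
        rw [uIcc_of_le hab, uIcc_of_le hξab.1.le]; exact Icc_subset_Icc_right hξab.2.le)
      have i2 : IntervalIntegrable (fun x => w1 (x, y)) volume ξ b := hii.mono_set (by
        rw [uIcc_of_le hab, uIcc_of_le hξab.2.le]; exact Icc_subset_Icc_left hξab.1.le)
      have e2 := intervalIntegral.integral_add_adjacent_intervals i1 i2
      rw [hy2 hy3] at e2
      rw [e1, integral_mul_const, ← intervalIntegral_eq_Ioo hξab.2.le]
      have e3 : ∫ x in ξ..b, w1 (x, y) = - ∫ s in a..ξ, w1 (s, y) := by linarith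
      rw [e3]; ring
    rw [integral_congr_ae hinner, integral_neg, neg_eq_zero]
    -- now the one-dimensional integral
    set Jξ : Finset Hair := J.filter fun K => K.x = ξ with hJξ
    choose! κ hκ1 hκ2 using hκ
    have hae : ∀ᵐ y ∂(volume.restrict (Ioo c d)),
        deriv (j ξ) y * ∫ s in a..ξ, w1 (s, y) =
          ∑ K ∈ Jξ, (Ioo K.b K.t).indicator (fun y => κ K * deriv (j ξ) y) y := by
      have hfin : ∀ᵐ y : ℝ, ∀ K ∈ Jξ, y ≠ K.b ∧ y ≠ K.t := by
        rw [Finset.eventually_all]
        intro K _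
        filter_upwards [Measure.ae_ne volume K.b, Measure.ae_ne volume K.t]
          with y hy hy' using ⟨hy, hy'⟩
      have hκae : ∀ᵐ y : ℝ, ∀ K ∈ Jξ, y ∈ Ioo c d → y ∈ Ioo K.b K.t →
          ∫ s in a..ξ, w1 (s, y) = κ K := by
        rw [Finset.eventually_all]
        intro K hK
        have hK' := Finset.mem_filter.mp hK
        have := hκ1 K hK'.1 (by rw [hK'.2]; exact hξab)
        rw [hK'.2] at this
        exact this
      filter_upwards [ae_restrict_of_ae hfin, ae_restrict_of_ae hκae,
        ae_restrict_mem measurableSet_Ioo] with y hy1 hy2 hy3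
      by_cases hex : ∃ K ∈ Jξ, y ∈ Ioo K.b K.t
      · obtain ⟨K, hK, hyK⟩ := hex
        rw [Finset.sum_eq_single K]
        · rw [indicator_of_mem hyK, hy2 K hK hy3 hyK, mul_comm]
        · intro K' hK' hne
          apply indicator_of_notMem
          intro hyK'
          have a1 := Finset.mem_filter.mp hK
          have a2 := Finset.mem_filter.mp hK'
          have m1 : (ξ, y) ∈ K'.car := ⟨a2.2.symm, hyK'.1.le, hyK'.2.le⟩
          have m2 : (ξ, y) ∈ K.car := ⟨a1.2.symm, hyK.1.le, hyK.2.le⟩
          exact Set.disjoint_left.mp (hJ K' a2.1 K a1.1 hne) m1 m2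
        · intro h; exact absurd hK h
      · push Not at hex
        rw [Finset.sum_eq_zero (fun K hK => indicator_of_notMem (hex K hK) _)]
        have hcut : (ξ, y) ∉ cut J := by
          rintro ⟨K, hK, hm⟩
          have hKJ : K ∈ Jξ := Finset.mem_filter.mpr ⟨hK, hm.1.symm⟩
          refine hex K hKJ ⟨lt_of_le_of_ne hm.2.1 (hy1 K hKJ).1.symm,
            lt_of_le_of_ne hm.2.2 (hy1 K hKJ).2⟩
        have hj0 : j ξ =ᶠ[𝓝 y] fun _ => 0 := by
          have hc : Continuous fun z : ℝ => (ξ, z) := by fun_prop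
          filter_upwards [((isClosed_cut J).isOpen_compl.preimage hc).mem_nhds hcut,
            isOpen_Ioo.mem_nhds hy3] with z hz1 hz2
          exact h4 ξ hξ z hz2 hz1
        rw [hj0.deriv_eq, deriv_const, zero_mul]
    rw [integral_congr_ae hae]
    have hji : ∀ s : Set ℝ, MeasurableSet s → Bornology.IsBounded s →
        IntegrableOn (deriv (j ξ)) s := by
      intro s _ hs
      refine Measure.integrableOn_of_bounded (M := M) hs.measure_lt_top.ne
        (measurable_deriv (j ξ)).aestronglyMeasurable (Eventually.of_forall fun y => ?_)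
      rw [Real.norm_eq_abs]; exact hjb ξ hξ y
    rw [integral_finsetSum]
    · refine Finset.sum_eq_zero fun K hK => ?_
      have hK' := Finset.mem_filter.mp hK
      rw [setIntegral_indicator measurableSet_Ioo]
      by_cases hκ0 : κ K = 0
      · simp [hκ0]
      · obtain ⟨hcb, htd⟩ := hκ2 K hK'.1 (by rw [hK'.2]; exact hξab) hκ0
        have e1 : Ioo c d ∩ Ioo K.b K.t = Ioo K.b K.t := by
          apply inter_eq_right.mpr
          exact Ioo_subset_Ioo hcb.le htd.le
        rw [e1, integral_const_mul, ← intervalIntegral_eq_Ioo K.hbt.le]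
        have e2 : ∫ y in K.b..K.t, deriv (j ξ) y = j ξ K.t - j ξ K.b :=
          ((h2 ξ hξ).lipschitzOnWith).absolutelyContinuousOnInterval.integral_deriv_eq_sub
        have e3 := jump_tips hJ hK'.1 (h2 ξ hξ).continuous (c := c) (d := d)
          (by rw [hK'.2]; exact fun y hy hn => h4 ξ hξ y hy hn) hcb htd
        rw [e2, e3.1, e3.2]; simp
    · intro K _
      exact ((hji _ measurableSet_Ioo (Metric.isBounded_Ioo c d)).const_mul (κ K)).indicator
        measurableSet_Ioo
  rw [hLgx, hRgy, Finset.sum_eq_zero hzero, add_zero]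
  exact core

end Crest.Agent.R105.CF_363
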