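import Crest.Agent.R105.Ends3_897

/-! Row 105, LIB-ENDS (helper897), part 4: clopen pieces of the complement correspond. -/

set_option autoImplicit false

open Set Filter Topology Metric
open scoped ENNReal

namespace Crest.Agent.R105.Ends_897

open Crest.AnalysisR

/-- a piece of a compact set: closed with closed rest -/
structure Piece (X A : Set ℂ) : Prop where
  sub : A ⊆ X
  cpt : IsCompact A
  rest : IsCompact (X \ A)

theorem Piece.compl {X A : Set ℂ} (h : Piece X A) : Piece X (X \ A) :=
  ⟨sdiff_subset, h.rest, by rw [sdiff_sdiff_cancel_left h.sub]; exact h.cpt⟩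

/-- a component meeting a piece lies in it -/
theorem Piece.cc_subset {X A : Set ℂ} (h : Piece X A) {z : ℂ} (hz : z ∈ A) :
    connectedComponentIn X z ⊆ A := by
  intro w hw
  by_contra hwA
  obtain ⟨u, v, hu, hv, hAu, hv', huv⟩ :=
    SeparatedNhds.of_isCompact_isCompact h.cpt h.rest disjoint_sdiff_right
  have hsub := connectedComponentIn_subset X z
  have hcov : connectedComponentIn X z ⊆ u ∪ v := fun y hy => by
    by_cases hyA : y ∈ A
    · exact Or.inl (hAu hyA)
    · exact Or.inr (hv' ⟨hsub hy, hyA⟩)
  obtain ⟨y, -, hy1, hy2⟩ := isPreconnected_connectedComponentIn u v hu hv hcov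
    ⟨z, mem_connectedComponentIn (h.sub hz), hAu hz⟩ ⟨w, hw, hv' ⟨hsub hw, hwA⟩⟩
  exact disjoint_left.1 huv hy1 hy2



namespace EndMap

variable {U V : Set ℂ} {f : ℂ → ℂ}








end EndMap

end Crest.Agent.R105.Ends_897
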