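import Crest.Agent.R105.Rd0_557
import Crest.Agent.R105.Ends4_897
import Crest.Agent.R105.Red2_828
import Mathlib
import Crest.Agent.R096.BelD_205
import Crest.Prelude.Def_CircleDomain
import Crest.Agent.R105.Pth2_988

-- ▼ part R105/Cen1_985
section

/-!
# Row 105 (S0139): CEN, part 1 (helper985)

Topology: centre values of a conformal map between circle domains on the components of the
complement.
-/

set_option autoImplicit false

open Set Filter Metric Topology MeasureTheory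
open Crest.AnalysisR

namespace Crest.Agent.R105.Cen_985

open Crest.Agent.R105.Ends_897

/-- a closed disc determines its centre and radius -/
theorem closedBall_inj {a b : ℂ} {r s : ℝ} (hr : 0 ≤ r) (hs : 0 ≤ s)
    (h : closedBall a r = closedBall b s) : a = b ∧ r = s := by
  have key : ∀ {a b : ℂ} {r s : ℝ}, 0 ≤ r → 0 ≤ s → closedBall a r ⊆ closedBall b s →
      ‖a - b‖ + r ≤ s := by
    intro a b r s hr _ hsub
    by_cases hab : a = b
    · subst hab
      have h1 : a + (r : ℂ) ∈ closedBall a r := by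
        rw [mem_closedBall, dist_eq_norm]
        simp [abs_of_nonneg hr]
      have h2 := hsub h1
      rw [mem_closedBall, dist_eq_norm] at h2
      simpa [abs_of_nonneg hr] using h2
    · have hn : 0 < ‖a - b‖ := norm_pos_iff.2 (sub_ne_zero.2 hab)
      set u : ℂ := (a - b) / (‖a - b‖ : ℂ) with hu
      have hun : ‖u‖ = 1 := by
        rw [hu, norm_div, Complex.norm_real, Real.norm_eq_abs, abs_of_pos hn, div_self hn.ne']
      have h1 : a + (r : ℂ) * u ∈ closedBall a r := by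
        rw [mem_closedBall, dist_eq_norm]
        rw [add_sub_cancel_left, norm_mul, hun, mul_one, Complex.norm_real, Real.norm_eq_abs,
          abs_of_nonneg hr]
      have h2 := hsub h1
      rw [mem_closedBall, dist_eq_norm] at h2
      have h3 : a + (r : ℂ) * u - b = ((‖a - b‖ + r : ℝ) : ℂ) * u := by
        have hne : (‖a - b‖ : ℂ) ≠ 0 := by exact_mod_cast hn.ne'
        have h4 : a - b = (‖a - b‖ : ℂ) * u := by
          rw [hu]; field_simp
        push_cast
        rw [add_mul, ← h4]; ring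
      rw [h3, norm_mul, hun, mul_one, Complex.norm_real, Real.norm_eq_abs,
        abs_of_nonneg (by positivity)] at h2
      exact h2
  have h1 := key hr hs h.subset
  have h2 := key hs hr h.symm.subset
  have h3 := norm_nonneg (a - b)
  have h4 := norm_nonneg (b - a)
  refine ⟨?_, by linarith⟩
  have : ‖a - b‖ = 0 := by linarith
  exact sub_eq_zero.1 (norm_eq_zero.1 this)

/-- the frontier of a closed disc determines its centre -/
theorem center_mem_of_frontier {a b : ℂ} {r s : ℝ} (hr : 0 ≤ r)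
    (h : frontier (closedBall a r) ⊆ closedBall b s) : a ∈ closedBall b s := by
  rcases hr.eq_or_lt with h0 | h0
  · subst h0
    apply h
    rw [closedBall_zero]
    rw [frontier, closure_singleton, interior_singleton]
    simp
  · have hf : ∀ w : ℂ, ‖w‖ = r → a + w ∈ closedBall b s := by
      intro w hw
      apply h
      rw [frontier_closedBall a h0.ne', mem_sphere, dist_eq_norm, add_sub_cancel_left, hw]
    have h1 := hf (r : ℂ) (by simp [abs_of_pos h0])
    have h2 := hf (-(r : ℂ)) (by simp [abs_of_pos h0])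
    have h3 := (convex_closedBall b s) h1 h2 (a := 1 / 2) (b := 1 / 2) (by norm_num) (by norm_num)
      (by norm_num)
    have h4 : (1 / 2 : ℝ) • (a + (r : ℂ)) + (1 / 2 : ℝ) • (a + -(r : ℂ)) = a := by
      simp only [Complex.real_smul]
      push_cast
      ring
    rwa [h4] at h3

section

variable {U : Set ℂ} {f : ℂ → ℂ}

/-- the chosen data at a point of the complement -/
theorem exists_data (h : EndMap U (f '' U) f) (hV : IsCircleDomainFinitePart (f '' U)) {z : ℂ}
    (hz : z ∉ U) : ∃ (c' : ℂ) (R : ℝ) (ζ : ℂ), ζ ∉ f '' U ∧ map f (eF U z) = eF (f '' U) ζ ∧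
      0 ≤ R ∧ connectedComponentIn (f '' U)ᶜ ζ = closedBall c' R := by
  obtain ⟨ζ, hζ, he⟩ := h.exists_end hz
  obtain ⟨c, r, hr, hc⟩ := hV.2 ζ hζ
  exact ⟨c, r, ζ, hζ, he, hr, hc⟩

open Classical in
/-- centre of the image component -/
noncomputable def cen (U : Set ℂ) (f : ℂ → ℂ) (z : ℂ) : ℂ :=
  if hz : ∃ (c' : ℂ) (R : ℝ) (ζ : ℂ), ζ ∉ f '' U ∧ map f (eF U z) = eF (f '' U) ζ ∧
      0 ≤ R ∧ connectedComponentIn (f '' U)ᶜ ζ = closedBall c' R then hz.choose else 0

open Classical in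
/-- radius of the image component -/
noncomputable def rad (U : Set ℂ) (f : ℂ → ℂ) (z : ℂ) : ℝ :=
  if hz : ∃ (c' : ℂ) (R : ℝ) (ζ : ℂ), ζ ∉ f '' U ∧ map f (eF U z) = eF (f '' U) ζ ∧
      0 ≤ R ∧ connectedComponentIn (f '' U)ᶜ ζ = closedBall c' R then hz.choose_spec.choose else 0

theorem cen_spec (h : EndMap U (f '' U) f) (hV : IsCircleDomainFinitePart (f '' U)) {z : ℂ}
    (hz : z ∉ U) : ∃ ζ : ℂ, ζ ∉ f '' U ∧ map f (eF U z) = eF (f '' U) ζ ∧
      0 ≤ rad U f z ∧ connectedComponentIn (f '' U)ᶜ ζ = closedBall (cen U f z) (rad U f z) := by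
  have he := exists_data h hV hz
  rw [cen, rad, dif_pos he, dif_pos he]
  exact he.choose_spec.choose_spec

theorem rad_nonneg (h : EndMap U (f '' U) f) (hV : IsCircleDomainFinitePart (f '' U)) {z : ℂ}
    (hz : z ∉ U) : 0 ≤ rad U f z := (cen_spec h hV hz).choose_spec.2.2.1

/-- the data depend on the component only -/
theorem cen_congr (h : EndMap U (f '' U) f) (hV : IsCircleDomainFinitePart (f '' U)) {z z' : ℂ}
    (hz : z ∉ U) (hz' : z' ∉ U) (he : connectedComponentIn Uᶜ z = connectedComponentIn Uᶜ z') :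
    cen U f z = cen U f z' ∧ rad U f z = rad U f z' := by
  obtain ⟨ζ, hζ, h1, h2, h3⟩ := cen_spec h hV hz
  obtain ⟨ζ', hζ', h1', h2', h3'⟩ := cen_spec h hV hz'
  have h4 : eF (f '' U) ζ = eF (f '' U) ζ' := by rw [← h1, ← h1', eF_congr he]
  have h5 := cc_eq_of_eF_le h.hV hζ h4.le
  rw [h3, h3'] at h5
  exact closedBall_inj h2 h2' h5

/-- different components have disjoint images -/
theorem disjoint_image (h : EndMap U (f '' U) f) (hV : IsCircleDomainFinitePart (f '' U))
    {z z' : ℂ} (hz : z ∉ U) (hz' : z' ∉ U)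
    (he : connectedComponentIn Uᶜ z ≠ connectedComponentIn Uᶜ z') :
    Disjoint (closedBall (cen U f z) (rad U f z)) (closedBall (cen U f z') (rad U f z')) := by
  obtain ⟨ζ, hζ, h1, h2, h3⟩ := cen_spec h hV hz
  obtain ⟨ζ', hζ', h1', h2', h3'⟩ := cen_spec h hV hz'
  rw [← h3, ← h3', disjoint_left]
  intro w hw hw'
  have h4 : connectedComponentIn (f '' U)ᶜ ζ = connectedComponentIn (f '' U)ᶜ ζ' :=
    (connectedComponentIn_eq hw).trans (connectedComponentIn_eq hw').symm
  apply he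
  refine h.map_injective hz ?_
  rw [h1, h1', eF_congr h4]

theorem image_subset (h : EndMap U (f '' U) f) (hV : IsCircleDomainFinitePart (f '' U))
    {z : ℂ} (hz : z ∉ U) : closedBall (cen U f z) (rad U f z) ⊆ (f '' U)ᶜ := by
  obtain ⟨ζ, hζ, h1, h2, h3⟩ := cen_spec h hV hz
  rw [← h3]
  exact connectedComponentIn_subset _ _

open Classical in
/-- the extension of `f` by the centres -/
noncomputable def ext (U : Set ℂ) (f : ℂ → ℂ) (z : ℂ) : ℂ := if z ∈ U then f z else cen U f z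

theorem ext_of_mem {z : ℂ} (hz : z ∈ U) : ext U f z = f z := if_pos hz

theorem ext_of_not_mem {z : ℂ} (hz : z ∉ U) : ext U f z = cen U f z := if_neg hz

/-- **near a component the extension is close to the image disc** -/
theorem near (h : EndMap U (f '' U) f) (hV : IsCircleDomainFinitePart (f '' U))
    {z : ℂ} (hz : z ∉ U) {ε : ℝ} (hε : 0 < ε) : ∃ N : Set ℂ, IsOpen N ∧
      connectedComponentIn Uᶜ z ⊆ N ∧ ∀ w ∈ N, ‖ext U f w - cen U f z‖ ≤ rad U f z + ε := by
  obtain ⟨ζ, hζ, h1, h2, h3⟩ := cen_spec h hV hz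
  set c' := cen U f z
  set R := rad U f z
  have hT : closedBall c' (R + ε) ∈ eF (f '' U) ζ := by
    refine mem_inf_of_left ?_
    rw [h3]
    refine mem_of_superset ((isOpen_ball (x := c') (ε := R + ε)).mem_nhdsSet.2 ?_)
      ball_subset_closedBall
    exact closedBall_subset_ball (by linarith)
  rw [← h1] at hT
  obtain ⟨N', hN', hN'o, hN'K⟩ : ∃ N' : Set ℂ, (∀ w ∈ N', w ∈ U → f w ∈ closedBall c' (R + ε)) ∧
      IsOpen N' ∧ connectedComponentIn Uᶜ z ⊆ N' := by
    have h5 := mem_inf_principal.1 (show f ⁻¹' closedBall c' (R + ε) ∈ eF U z from hT)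
    obtain ⟨W, hWo, hMW, hWT⟩ := mem_nhdsSet_iff_exists.1 h5
    exact ⟨W, fun w hw hwU => hWT hw hwU, hWo, hMW⟩
  obtain ⟨B, hBc, hBc', hBU, hKB, hBN⟩ := exists_clopen (isCompact_compl h.hU)
    (show z ∈ Uᶜ from hz) hN'o hN'K
  have hP : Piece Uᶜ B := ⟨hBU, hBc, hBc'⟩
  refine ⟨N' ∩ (Uᶜ \ B)ᶜ, hN'o.inter hBc'.isClosed.isOpen_compl, fun w hw => ⟨hN'K hw, fun hm =>
    hm.2 (hKB hw)⟩, ?_⟩
  rintro w ⟨hwN, hwB⟩
  by_cases hwU : w ∈ U
  · rw [ext_of_mem hwU]
    have := hN' w hwN hwU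
    rwa [mem_closedBall, dist_eq_norm] at this
  · rw [ext_of_not_mem hwU]
    have hwB' : w ∈ B := by
      by_contra hn; exact hwB ⟨hwU, hn⟩
    obtain ⟨ζ', hζ', g1, g2, g3⟩ := cen_spec h hV hwU
    have hsub : frontier (closedBall (cen U f w) (rad U f w)) ⊆ closedBall c' (R + ε) := by
      rw [← g3]
      intro x hx
      have hcl := clusterPt_eF_of_frontier h.hV hx
      rw [← g1] at hcl
      have hm : closedBall c' (R + ε) ∈ map f (eF U w) := by
        rw [mem_map]
        refine mem_inf_principal.2 ?_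
        refine mem_of_superset (hN'o.mem_nhdsSet.2 ((hP.cc_subset hwB').trans hBN)) ?_
        intro y hy hyU
        exact hN' y hy hyU
      have := hcl.mem_closure_of_mem _ hm
      rwa [isClosed_closedBall.closure_eq] at this
    have := center_mem_of_frontier g2 hsub
    rwa [mem_closedBall, dist_eq_norm] at this

/-- continuity of the extension at the points which are point components with point images -/
theorem continuousAt_ext (h : EndMap U (f '' U) f) (hV : IsCircleDomainFinitePart (f '' U))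
    {z : ℂ} (hz : z ∉ U) (hr : rad U f z = 0) : ContinuousAt (ext U f) z := by
  rw [Metric.continuousAt_iff']
  intro ε hε
  obtain ⟨N, hN, hKN, hw⟩ := near h hV hz (half_pos hε)
  filter_upwards [hN.mem_nhds (hKN (mem_connectedComponentIn hz))] with w hwN
  rw [dist_eq_norm, ext_of_not_mem hz]
  have := hw w hwN
  rw [hr] at this
  linarith

end

end Crest.Agent.R105.Cen_985
end

-- ▼ part R105/Ar1_222
section

/-!
Row 105, AREA0, part 1: a local diffeomorphism of the plane that is close to the identity at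
infinity is a homeomorphism; maximum principle for homeomorphisms.
-/

open Set Metric Filter Topology MeasureTheory

namespace Crest.Agent.R105.Ar1_222

theorem locInj {F : ℂ → ℂ} (hF : ContDiff ℝ 1 F) (hdet : ∀ z, (fderiv ℝ F z).det ≠ 0) (z : ℂ) :
    ∃ U ∈ 𝓝 z, InjOn F U := by
  have h1 : HasStrictFDerivAt F (fderiv ℝ F z) z := hF.contDiffAt.hasStrictFDerivAt (by simp)
  have e := ContinuousLinearMap.coe_toContinuousLinearEquivOfDetNeZero (fderiv ℝ F z) (hdet z)
  rw [← e] at h1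
  refine ⟨(h1.toOpenPartialHomeomorph F).source, ?_, ?_⟩
  · exact (h1.toOpenPartialHomeomorph F).open_source.mem_nhds
      h1.mem_toOpenPartialHomeomorph_source
  · have := (h1.toOpenPartialHomeomorph F).injOn
    simpa using this

theorem openMap {F : ℂ → ℂ} (hF : ContDiff ℝ 1 F) (hdet : ∀ z, (fderiv ℝ F z).det ≠ 0) :
    IsOpenMap F := by
  rw [isOpenMap_iff_nhds_le]
  intro z
  have h1 : HasStrictFDerivAt F (fderiv ℝ F z) z := hF.contDiffAt.hasStrictFDerivAt (by simp)
  have e := ContinuousLinearMap.coe_toContinuousLinearEquivOfDetNeZero (fderiv ℝ F z) (hdet z)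
  rw [← e] at h1
  exact (h1.map_nhds_eq_of_equiv).ge

theorem proper_of {F : ℂ → ℂ} (hF : Continuous F)
    (h0 : Tendsto (fun z => F z - z) (cocompact ℂ) (𝓝 0)) : IsProperMap F := by
  rw [isProperMap_iff_tendsto_cocompact]
  refine ⟨hF, ?_⟩
  rw [← Metric.cobounded_eq_cocompact, ← tendsto_norm_atTop_iff_cobounded]
  rw [← Metric.cobounded_eq_cocompact] at h0
  have h1 : ∀ᶠ z in Bornology.cobounded ℂ, ‖F z - z‖ < 1 := by
    have := h0.norm
    rw [norm_zero] at this
    exact this.eventually (gt_mem_nhds one_pos)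
  have h2 : Tendsto (fun z : ℂ => ‖z‖ - 1) (Bornology.cobounded ℂ) atTop :=
    tendsto_atTop_add_const_right _ _ tendsto_norm_cobounded_atTop
  refine tendsto_atTop_mono' _ ?_ h2
  filter_upwards [h1] with z hz
  have := norm_sub_norm_le z (z - F z)
  have e : z - (z - F z) = F z := by ring
  rw [e, norm_sub_rev z (F z)] at this
  linarith

/-- a near-identity local diffeomorphism of the plane is a homeomorphism -/
theorem exists_homeo {F : ℂ → ℂ} (hF : ContDiff ℝ 1 F) (hdet : ∀ z, (fderiv ℝ F z).det ≠ 0)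
    (h0 : Tendsto (fun z => F z - z) (cocompact ℂ) (𝓝 0))
    (h1 : Tendsto (fun z => fderiv ℝ F z - ContinuousLinearMap.id ℝ ℂ) (cocompact ℂ) (𝓝 0)) :
    ∃ e : ℂ ≃ₜ ℂ, ⇑e = F := by
  have hc : Continuous F := hF.continuous
  have hop := openMap hF hdet
  have hpr := proper_of hc h0
  have hcl := hpr.isClosedMap
  have hsurj : Function.Surjective F := by
    rw [← range_eq_univ]
    have hcp : IsClopen (range F) := ⟨hcl.isClosed_range, hop.isOpen_range⟩
    rcases isClopen_iff.1 hcp with h | h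
    · exact absurd h (range_nonempty F).ne_empty
    · exact h
  -- the set of values taken twice
  set D : Set ℂ := {w | ∃ z z', z ≠ z' ∧ F z = w ∧ F z' = w} with hD
  have hDo : IsOpen D := by
    rw [isOpen_iff_mem_nhds]
    rintro w ⟨z, z', hne, hz, hz'⟩
    obtain ⟨U, V, hU, hV, hzU, hzV, hdis⟩ := t2_separation hne
    have m1 : F '' U ∈ 𝓝 w := (hop U hU).mem_nhds ⟨z, hzU, hz⟩
    have m2 : F '' V ∈ 𝓝 w := (hop V hV).mem_nhds ⟨z', hzV, hz'⟩
    filter_upwards [m1, m2] with y ⟨a, ha, hay⟩ ⟨b, hb, hby⟩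
    refine ⟨a, b, ?_, hay, hby⟩
    rintro rfl
    exact (disjoint_left.1 hdis) ha hb
  have hDc : IsClosed D := by
    apply IsSeqClosed.isClosed
    intro w x hw hx
    choose z z' hne hz hz' using hw
    obtain ⟨r, hr⟩ : ∃ r, ∀ n, ‖w n‖ ≤ r := by
      obtain ⟨r, hr⟩ := (hx.norm.bddAbove_range)
      exact ⟨r, fun n => hr ⟨n, rfl⟩⟩
    have hK : IsCompact (F ⁻¹' closedBall 0 r) := hpr.isCompact_preimage (isCompact_closedBall _ _)
    have hm : ∀ n, (z n, z' n) ∈ (F ⁻¹' closedBall 0 r) ×ˢ (F ⁻¹' closedBall 0 r) := by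
      intro n
      simp only [mem_prod, mem_preimage, mem_closedBall_zero_iff]
      exact ⟨by rw [hz n]; exact hr n, by rw [hz' n]; exact hr n⟩
    obtain ⟨⟨a, b⟩, -, φ, hφ, hlim⟩ := (hK.prod hK).tendsto_subseq hm
    have la : Tendsto (fun n => z (φ n)) atTop (𝓝 a) := (continuous_fst.tendsto _).comp hlim
    have lb : Tendsto (fun n => z' (φ n)) atTop (𝓝 b) := (continuous_snd.tendsto _).comp hlim
    have lx : Tendsto (fun n => w (φ n)) atTop (𝓝 x) := hx.comp hφ.tendsto_atTop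
    have ea : F a = x := by
      have := (hc.tendsto a).comp la
      refine tendsto_nhds_unique this ?_
      refine lx.congr fun n => ?_
      simp [hz]
    have eb : F b = x := by
      have := (hc.tendsto b).comp lb
      refine tendsto_nhds_unique this ?_
      refine lx.congr fun n => ?_
      simp [hz']
    refine ⟨a, b, ?_, ea, eb⟩
    rintro rfl
    obtain ⟨U, hU, hinj⟩ := locInj hF hdet a
    obtain ⟨n, hn1, hn2⟩ := ((la.eventually hU).and (lb.eventually hU)).exists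
    exact hne (φ n) (hinj hn1 hn2 (by rw [hz, hz']))
  -- near infinity injective
  have hDu : D ≠ univ := by
    intro hu
    rw [← Metric.cobounded_eq_cocompact] at h0 h1
    have e0 : ∀ᶠ z in Bornology.cobounded ℂ, ‖F z - z‖ < 1 := by
      have := h0.norm
      rw [norm_zero] at this
      exact this.eventually (gt_mem_nhds one_pos)
    have e1 : ∀ᶠ z in Bornology.cobounded ℂ, ‖fderiv ℝ F z - ContinuousLinearMap.id ℝ ℂ‖ < 1/2 := by
      have := h1.norm
      rw [norm_zero] at this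
      exact this.eventually (gt_mem_nhds (by norm_num))
    obtain ⟨r, hr⟩ : ∃ r : ℝ, ∀ z : ℂ, r ≤ ‖z‖ →
        ‖F z - z‖ < 1 ∧ ‖fderiv ℝ F z - ContinuousLinearMap.id ℝ ℂ‖ < 1/2 := by
      have := (e0.and e1)
      rw [(Metric.hasBasis_cobounded_compl_ball (0:ℂ)).eventually_iff] at this
      obtain ⟨r, -, hr⟩ := this
      refine ⟨r, fun z hz => hr ?_⟩
      simpa using hz
    -- a large value
    obtain ⟨B, hB⟩ := ((isCompact_closedBall (0:ℂ) (r + 4)).image hc).isBounded.subset_closedBall 0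
    obtain ⟨w, hw⟩ : ∃ w : ℂ, B < ‖w‖ := by
      refine ⟨((|B| + 1 : ℝ) : ℂ), ?_⟩
      rw [Complex.norm_real, Real.norm_of_nonneg (by positivity)]
      linarith [le_abs_self B]
    obtain ⟨z, z', hne, hz, hz'⟩ : w ∈ D := by rw [hu]; trivial
    have big : ∀ y, F y = w → r + 4 < ‖y‖ := by
      intro y hy
      by_contra hcon
      push Not at hcon
      have := hB ⟨y, by simpa using hcon, hy⟩
      rw [mem_closedBall_zero_iff] at this
      linarith
    have bz := big z hz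
    have bz' := big z' hz'
    have d1 := (hr z (by linarith)).1
    have d2 := (hr z' (by linarith)).1
    have hd : ‖z' - z‖ < 2 := by
      have : z' - z = (F z - z) - (F z' - z') := by rw [hz, hz']; ring
      rw [this]
      refine (norm_sub_le _ _).trans_lt (by linarith)
    have hseg : ∀ y ∈ ball z 3, ‖fderiv ℝ (fun z => F z - z) y‖ ≤ 1/2 := by
      intro y hy
      have hy' : r ≤ ‖y‖ := by
        rw [mem_ball, dist_eq_norm] at hy
        have := norm_sub_norm_le z (z - y)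
        have e : z - (z - y) = y := by ring
        rw [e, norm_sub_rev z y] at this
        linarith
      have hd : DifferentiableAt ℝ F y := hF.differentiable (by simp) y
      rw [fderiv_fun_sub hd differentiableAt_fun_id, fderiv_fun_id]
      exact (hr y hy').2.le
    have key := (convex_ball z 3).norm_image_sub_le_of_norm_fderiv_le (𝕜 := ℝ)
      (f := fun z => F z - z) (fun y _ => (hF.differentiable (by simp) y).sub differentiableAt_id)
      hseg (mem_ball_self (by norm_num)) (show z' ∈ ball z 3 by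
        rw [mem_ball, dist_eq_norm]; linarith)
    have e2 : (F z' - z') - (F z - z) = -(z' - z) := by rw [hz, hz']; ring
    simp only [e2, norm_neg] at key
    have : 0 < ‖z' - z‖ := norm_pos_iff.2 (sub_ne_zero.2 (Ne.symm hne))
    linarith
  have hDe : D = ∅ := (isClopen_iff.1 ⟨hDc, hDo⟩).resolve_right hDu
  have hinj : Function.Injective F := by
    intro a b hab
    by_contra hne
    have : F a ∈ D := ⟨a, b, hne, rfl, hab.symm⟩
    rw [hDe] at this
    exact this
  exact ⟨(Equiv.ofBijective F ⟨hinj, hsurj⟩).toHomeomorphOfContinuousOpen hc hop, rfl⟩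

/-- maximum principle for open continuous maps -/
theorem max_open {F : ℂ → ℂ} (hc : Continuous F) (ho : IsOpenMap F) {p w : ℂ} {ρ δ : ℝ}
    (h : ∀ y ∈ sphere p ρ, ‖F y - w‖ ≤ δ) {z : ℂ} (hz : z ∈ closedBall p ρ) :
    ‖F z - w‖ ≤ δ := by
  obtain ⟨m, hm, hmax⟩ := (isCompact_closedBall p ρ).exists_isMaxOn ⟨z, hz⟩
    ((hc.sub continuous_const).norm.continuousOn (s := closedBall p ρ) : ContinuousOn
      (fun y => ‖F y - w‖) (closedBall p ρ))
  refine (hmax hz).trans ?_
  by_cases hs : m ∈ sphere p ρ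
  · exact h m hs
  have hb : m ∈ ball p ρ := by
    rw [mem_closedBall] at hm
    rw [mem_sphere] at hs
    exact lt_of_le_of_ne hm hs
  exfalso
  -- `F m` is interior to the image, so there are points further away from `w`
  have hn : F '' ball p ρ ∈ 𝓝 (F m) := (ho _ isOpen_ball).mem_nhds ⟨m, hb, rfl⟩
  obtain ⟨t, ht, hsub⟩ := Metric.mem_nhds_iff.1 hn
  have key : ∃ v, v ∈ ball (F m) t ∧ ‖F m - w‖ < ‖v - w‖ := by
    by_cases h0 : F m = w
    · refine ⟨F m + ((t/2 : ℝ) : ℂ), ?_, ?_⟩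
      · rw [mem_ball, dist_eq_norm, add_sub_cancel_left, Complex.norm_real,
          Real.norm_of_nonneg (by linarith)]; linarith
      · rw [← h0, sub_self, norm_zero, add_sub_cancel_left, Complex.norm_real,
          Real.norm_of_nonneg (by linarith)]; linarith
    · have hpos : 0 < ‖F m - w‖ := norm_pos_iff.2 (sub_ne_zero.2 h0)
      set s : ℝ := t / (2 * ‖F m - w‖) with hs'
      have hspos : 0 < s := by positivity
      refine ⟨F m + (s:ℂ) * (F m - w), ?_, ?_⟩
      · rw [mem_ball, dist_eq_norm, add_sub_cancel_left, norm_mul, Complex.norm_real,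
          Real.norm_of_nonneg hspos.le]
        have : s * ‖F m - w‖ = t / 2 := by rw [hs']; field_simp
        rw [this]; linarith
      · have e : F m + (s:ℂ) * (F m - w) - w = ((1 + s : ℝ) : ℂ) * (F m - w) := by
          push_cast; ring
        rw [e, norm_mul, Complex.norm_real, Real.norm_of_nonneg (by linarith)]
        nlinarith
  obtain ⟨v, hv, hlt⟩ := key
  obtain ⟨y, hy, hyv⟩ := hsub hv
  have h3 : ‖F y - w‖ ≤ ‖F m - w‖ := hmax (ball_subset_closedBall hy)
  rw [hyv] at h3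
  linarith

end Crest.Agent.R105.Ar1_222
end

-- ▼ part R105/Ar2_222
section

/-!
Row 105, AREA0, part 2: Courant--Lebesgue on circles, equicontinuity of near-identity
homeomorphisms of bounded dilatation.
-/

open Set Metric Filter Topology MeasureTheory
open scoped Real ENNReal

namespace Crest.Agent.R105.Ar2_222

open Crest.Agent.R105.Ar1_222

noncomputable section

/-- the circle point -/
def cp (p : ℂ) (ρ θ : ℝ) : ℂ := p + ρ * Complex.exp (θ * Complex.I)

theorem cp_cont (p : ℂ) : Continuous fun q : ℝ × ℝ => cp p q.1 q.2 := by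
  unfold cp; fun_prop

theorem cp_cont' (p : ℂ) (ρ : ℝ) : Continuous fun θ : ℝ => cp p ρ θ := by
  unfold cp; fun_prop

theorem polar_le {g : ℂ → ℝ} (hg : Continuous g) (p : ℂ) {r : ℝ} (hr : 0 < r) :
    ∫⁻ ρ in Ioo r 1, ∫⁻ θ in Ioo (-π) π, ENNReal.ofReal ρ * ENNReal.ofReal (g (cp p ρ θ))
      ≤ ∫⁻ z in ball p 1, ENNReal.ofReal (g z) := by
  have m0 : Measurable fun z => ENNReal.ofReal (g z) := hg.measurable.ennreal_ofReal
  have e1 : ∫⁻ z in ball p 1, ENNReal.ofReal (g z)
      = ∫⁻ z : ℂ, (ball (0:ℂ) 1).indicator (fun z => ENNReal.ofReal (g (p + z))) z := by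
    rw [← lintegral_indicator measurableSet_ball,
      ← lintegral_add_left_eq_self (μ := (volume : Measure ℂ))
        ((ball p 1).indicator fun z => ENNReal.ofReal (g z)) p]
    congr 1
    ext z
    by_cases hz : z ∈ ball (0:ℂ) 1
    · rw [indicator_of_mem hz, indicator_of_mem]
      simpa using hz
    · rw [indicator_of_notMem hz, indicator_of_notMem]
      simpa using hz
  rw [e1, ← Complex.lintegral_comp_polarCoord_symm]
  have hsub : Ioo r 1 ×ˢ Ioo (-π) π ⊆ polarCoord.target := by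
    rintro ⟨ρ, θ⟩ ⟨h1, h2⟩
    rw [polarCoord_target]
    exact ⟨hr.trans h1.1, h2⟩
  refine le_trans (le_of_eq ?_) (lintegral_mono_set hsub)
  have hm : Measurable fun q : ℝ × ℝ => ENNReal.ofReal q.1 * ENNReal.ofReal (g (cp p q.1 q.2)) :=
    (measurable_fst.ennreal_ofReal).mul (hg.comp (cp_cont p)).measurable.ennreal_ofReal
  have e2 : ∫⁻ q in Ioo r 1 ×ˢ Ioo (-π) π, ENNReal.ofReal q.1 * ENNReal.ofReal (g (cp p q.1 q.2))
      = ∫⁻ ρ in Ioo r 1, ∫⁻ θ in Ioo (-π) π, ENNReal.ofReal ρ * ENNReal.ofReal (g (cp p ρ θ)) := by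
    rw [Measure.volume_eq_prod]
    exact setLIntegral_prod _ hm.aemeasurable
  rw [← e2]
  apply setLIntegral_congr_fun (measurableSet_Ioo.prod measurableSet_Ioo)
  rintro ⟨ρ, θ⟩ ⟨h1, h2⟩
  simp only [smul_eq_mul]
  have hρ : 0 < ρ := hr.trans h1.1
  have e3 : Complex.polarCoord.symm (ρ, θ) = ρ * Complex.exp (θ * Complex.I) := by
    rw [Complex.polarCoord_symm_apply, Complex.exp_mul_I]
    push_cast
    rfl
  rw [e3, indicator_of_mem]
  · rfl
  · rw [mem_ball_zero_iff, norm_mul, Complex.norm_exp_ofReal_mul_I, Complex.norm_real,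
      Real.norm_of_nonneg hρ.le, mul_one]
    exact h1.2

theorem cs {f : ℝ → ℝ} (hf : Continuous f) :
    (∫ θ in (-π)..π, f θ) ^ 2 ≤ 2 * π * ∫ θ in (-π)..π, f θ ^ 2 := by
  set I := ∫ θ in (-π)..π, f θ with hI
  have hπ : 0 < π := Real.pi_pos
  have h0 : 0 ≤ ∫ θ in (-π)..π, (f θ - I / (2 * π)) ^ 2 :=
    intervalIntegral.integral_nonneg (by linarith) fun _ _ => sq_nonneg _
  have i1 : IntervalIntegrable (fun θ => f θ ^ 2) volume (-π) π := (hf.pow 2).intervalIntegrable _ _
  have i2 : IntervalIntegrable (fun θ => 2 * (I / (2 * π)) * f θ) volume (-π) π :=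
    (continuous_const.mul hf).intervalIntegrable _ _
  have i3 : IntervalIntegrable (fun _ : ℝ => (I / (2 * π)) ^ 2) volume (-π) π :=
    continuous_const.intervalIntegrable _ _
  have e : ∫ θ in (-π)..π, (f θ - I / (2 * π)) ^ 2
      = (∫ θ in (-π)..π, f θ ^ 2) - 2 * (I / (2 * π)) * I + (2 * π) * (I / (2 * π)) ^ 2 := by
    have e1 : (fun θ => (f θ - I / (2 * π)) ^ 2)
        = fun θ => (f θ ^ 2 - 2 * (I / (2 * π)) * f θ) + (I / (2 * π)) ^ 2 := by
      ext θ; ring
    rw [e1, intervalIntegral.integral_add (i1.sub i2) i3, intervalIntegral.integral_sub i1 i2,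
      intervalIntegral.integral_const_mul, intervalIntegral.integral_const, ← hI, smul_eq_mul]
    ring
  have e2 : 2 * (I / (2 * π)) * I - (2 * π) * (I / (2 * π)) ^ 2 = I ^ 2 / (2 * π) := by
    field_simp; ring
  have h1 : I ^ 2 / (2 * π) ≤ ∫ θ in (-π)..π, f θ ^ 2 := by linarith
  rw [div_le_iff₀ (by positivity)] at h1
  linarith

theorem osc_le {F : ℂ → ℂ} (hF : ContDiff ℝ 1 F) (p : ℂ) {ρ : ℝ} (hρ : 0 < ρ) {y y' : ℂ}
    (hy : y ∈ sphere p ρ) (hy' : y' ∈ sphere p ρ) :
    ‖F y - F y'‖ ≤ ρ * ∫ θ in (-π)..π, ‖fderiv ℝ F (cp p ρ θ)‖ := by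
  have hc : Continuous fun θ : ℝ => ‖fderiv ℝ F (cp p ρ θ)‖ :=
    ((hF.continuous_fderiv (by simp)).comp (cp_cont' p ρ)).norm
  have par : ∀ y ∈ sphere p ρ, ∃ θ ∈ Icc (-π) π, cp p ρ θ = y := by
    intro y hy
    refine ⟨(y - p).arg, ⟨(Complex.neg_pi_lt_arg _).le, Complex.arg_le_pi _⟩, ?_⟩
    have := Complex.norm_mul_exp_arg_mul_I (y - p)
    rw [mem_sphere, dist_eq_norm] at hy
    rw [hy] at this
    unfold cp
    rw [this]; ring
  obtain ⟨a, ha, rfl⟩ := par y hy
  obtain ⟨b, hb, rfl⟩ := par y' hy'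
  have hd : ∀ θ : ℝ, HasDerivAt (fun θ : ℝ => F (cp p ρ θ))
      (fderiv ℝ F (cp p ρ θ) (ρ * (Complex.exp (θ * Complex.I) * Complex.I))) θ := by
    intro θ
    have h2 : HasDerivAt (fun θ : ℝ => cp p ρ θ) (ρ * (Complex.exp (θ * Complex.I) * Complex.I)) θ := by
      unfold cp
      have h3 : HasDerivAt (fun θ : ℝ => (θ : ℂ) * Complex.I) Complex.I θ := by
        simpa using (Complex.ofRealCLM.hasDerivAt (x := θ)).mul_const Complex.I
      exact (h3.cexp.const_mul (ρ:ℂ)).const_add p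
    exact (hF.differentiable (by simp) _).hasFDerivAt.comp_hasDerivAt θ h2
  have hdc : Continuous fun θ : ℝ =>
      fderiv ℝ F (cp p ρ θ) (ρ * (Complex.exp (θ * Complex.I) * Complex.I)) := by
    have := (hF.continuous_fderiv (by simp)).comp (cp_cont' p ρ)
    exact this.clm_apply (by fun_prop)
  have hn : ∀ θ : ℝ, ‖fderiv ℝ F (cp p ρ θ) (ρ * (Complex.exp (θ * Complex.I) * Complex.I))‖
      ≤ ρ * ‖fderiv ℝ F (cp p ρ θ)‖ := by
    intro θ
    refine (ContinuousLinearMap.le_opNorm _ _).trans (le_of_eq ?_)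
    rw [norm_mul, norm_mul, Complex.norm_exp_ofReal_mul_I, Complex.norm_I, Complex.norm_real,
      Real.norm_of_nonneg hρ.le]
    ring
  have hπ : 0 < π := Real.pi_pos
  have ftc := intervalIntegral.integral_eq_sub_of_hasDerivAt (a := b) (b := a)
    (fun θ _ => hd θ) (hdc.intervalIntegrable _ _)
  rw [← ftc]
  refine intervalIntegral.norm_integral_le_abs_integral_norm.trans ?_
  have hsub : uIoc b a ⊆ uIoc (-π) π := by
    rw [uIoc_of_le (by linarith : -π ≤ π)]
    intro x hx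
    rw [mem_uIoc] at hx
    rcases hx with hx | hx
    · exact ⟨lt_of_le_of_lt hb.1 hx.1, hx.2.trans ha.2⟩
    · exact ⟨lt_of_le_of_lt ha.1 hx.1, hx.2.trans hb.2⟩
  refine (intervalIntegral.abs_integral_mono_interval hsub
    (Eventually.of_forall fun _ => norm_nonneg _) (hdc.norm.intervalIntegrable _ _)).trans ?_
  rw [abs_of_nonneg (intervalIntegral.integral_nonneg (by linarith) fun _ _ => norm_nonneg _),
    ← intervalIntegral.integral_const_mul]
  exact intervalIntegral.integral_mono_on (by linarith) (hdc.norm.intervalIntegrable _ _)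
    ((continuous_const.mul hc).intervalIntegrable _ _) fun θ _ => hn θ

/-- **Courant--Lebesgue** -/
theorem exists_circle {F : ℂ → ℂ} (hF : ContDiff ℝ 1 F) (p : ℂ) {r E : ℝ} (hr : 0 < r)
    (hr1 : r < 1) (hE0 : 0 < E)
    (hE : ∫⁻ z in ball p 1, ENNReal.ofReal (‖fderiv ℝ F z‖ ^ 2) ≤ ENNReal.ofReal E) :
    ∃ ρ ∈ Ioo r 1, ∀ y ∈ sphere p ρ, ∀ y' ∈ sphere p ρ,
      ‖F y - F y'‖ ^ 2 ≤ 4 * π * E / Real.log (1 / r) := by
  have hc1 : Continuous fun z => ‖fderiv ℝ F z‖ := (hF.continuous_fderiv (by simp)).norm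
  have hc2 : Continuous fun z => ‖fderiv ℝ F z‖ ^ 2 := hc1.pow 2
  have hπ : 0 < π := Real.pi_pos
  have hlog : 0 < Real.log (1 / r) := Real.log_pos (by rw [lt_div_iff₀ hr]; linarith)
  set c := 2 * E / Real.log (1 / r) with hcdef
  have hcpos : 0 < c := by positivity
  have key : ∃ ρ ∈ Ioo r 1, ρ ^ 2 * (∫ θ in (-π)..π, ‖fderiv ℝ F (cp p ρ θ)‖ ^ 2) < c := by
    by_contra hcon
    push Not at hcon
    have h1 := (polar_le hc2 p hr).trans hE
    have h2 : ∫⁻ ρ in Ioo r 1, ENNReal.ofReal (c * (1 / ρ))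
        ≤ ∫⁻ ρ in Ioo r 1, ∫⁻ θ in Ioo (-π) π, ENNReal.ofReal ρ *
          ENNReal.ofReal (‖fderiv ℝ F (cp p ρ θ)‖ ^ 2) := by
      apply setLIntegral_mono'  measurableSet_Ioo
      intro ρ hρ
      have hρ0 : 0 < ρ := hr.trans hρ.1
      have hcθ : Continuous fun θ : ℝ => ‖fderiv ℝ F (cp p ρ θ)‖ ^ 2 := hc2.comp (cp_cont' p ρ)
      rw [lintegral_const_mul _ hcθ.measurable.ennreal_ofReal]
      have h3 : ENNReal.ofReal (∫ θ in Ioo (-π) π, ‖fderiv ℝ F (cp p ρ θ)‖ ^ 2)
          = ∫⁻ θ in Ioo (-π) π, ENNReal.ofReal (‖fderiv ℝ F (cp p ρ θ)‖ ^ 2) :=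
        ofReal_integral_eq_lintegral_ofReal
          ((hcθ.integrableOn_Icc).mono_set Ioo_subset_Icc_self)
          (Eventually.of_forall fun _ => sq_nonneg _)
      rw [← h3, ← ENNReal.ofReal_mul hρ0.le, ← integral_Ioc_eq_integral_Ioo,
        ← intervalIntegral.integral_of_le (by linarith)]
      apply ENNReal.ofReal_le_ofReal
      have h4 := hcon ρ hρ
      rw [mul_one_div, div_le_iff₀ hρ0]
      linarith
    have h5 : ∫⁻ ρ in Ioo r 1, ENNReal.ofReal (c * (1 / ρ)) = ENNReal.ofReal (2 * E) := by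
      have hci : ContinuousOn (fun ρ : ℝ => c * (1 / ρ)) (Icc r 1) := by
        apply continuousOn_const.mul
        apply continuousOn_const.div continuousOn_id
        intro x hx
        exact (hr.trans_le hx.1).ne'
      have h6 : ENNReal.ofReal (∫ ρ in Ioo r 1, c * (1 / ρ))
          = ∫⁻ ρ in Ioo r 1, ENNReal.ofReal (c * (1 / ρ)) :=
        ofReal_integral_eq_lintegral_ofReal
          ((hci.integrableOn_compact isCompact_Icc).mono_set Ioo_subset_Icc_self)
          ((ae_restrict_mem measurableSet_Ioo).mono fun ρ hρ => by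
            have : 0 < ρ := hr.trans hρ.1
            simp only [Pi.zero_apply]
            positivity)
      rw [← h6, ← integral_Ioc_eq_integral_Ioo, ← intervalIntegral.integral_of_le hr1.le,
        intervalIntegral.integral_const_mul, integral_one_div_of_pos hr one_pos, hcdef]
      congr 1
      field_simp
    have h7 := h2.trans h1
    rw [h5, ENNReal.ofReal_le_ofReal_iff hE0.le] at h7
    linarith
  obtain ⟨ρ, hρ, hlt⟩ := key
  have hρ0 : 0 < ρ := hr.trans hρ.1
  refine ⟨ρ, hρ, fun y hy y' hy' => ?_⟩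
  have h1 := osc_le hF p hρ0 hy hy'
  have h2 := cs (f := fun θ => ‖fderiv ℝ F (cp p ρ θ)‖) (hc1.comp (cp_cont' p ρ))
  calc ‖F y - F y'‖ ^ 2 ≤ (ρ * ∫ θ in (-π)..π, ‖fderiv ℝ F (cp p ρ θ)‖) ^ 2 := by
        gcongr
    _ = ρ ^ 2 * (∫ θ in (-π)..π, ‖fderiv ℝ F (cp p ρ θ)‖) ^ 2 := by ring
    _ ≤ ρ ^ 2 * (2 * π * ∫ θ in (-π)..π, ‖fderiv ℝ F (cp p ρ θ)‖ ^ 2) := by gcongr
    _ = 2 * π * (ρ ^ 2 * ∫ θ in (-π)..π, ‖fderiv ℝ F (cp p ρ θ)‖ ^ 2) := by ring
    _ ≤ 2 * π * c := by gcongr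
    _ = 4 * π * E / Real.log (1 / r) := by rw [hcdef]; ring

/-- near-identity homeomorphisms of bounded dilatation -/
structure Qc (M : ℝ) (e : ℂ ≃ₜ ℂ) : Prop where
  c1 : ContDiff ℝ 1 e
  dil : ∀ z, ‖fderiv ℝ e z‖ ^ 2 ≤ 2 * |(fderiv ℝ e z).det|
  near : ∀ z, ‖e z - z‖ ≤ M

theorem Qc.M0 {M : ℝ} {e : ℂ ≃ₜ ℂ} (h : Qc M e) : 0 ≤ M := (norm_nonneg _).trans (h.near 0)

theorem Qc.energy {M : ℝ} {e : ℂ ≃ₜ ℂ} (h : Qc M e) (p : ℂ) :
    ∫⁻ z in ball p 1, ENNReal.ofReal (‖fderiv ℝ e z‖ ^ 2)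
      ≤ ENNReal.ofReal (2 * (π * (1 + M) ^ 2)) := by
  have hM := h.M0
  have hdc : Continuous fun z => (fderiv ℝ e z).det :=
    (ContinuousLinearMap.continuous_det).comp (h.c1.continuous_fderiv (by simp))
  have h1 : ∫⁻ z in ball p 1, ENNReal.ofReal (‖fderiv ℝ e z‖ ^ 2)
      ≤ ∫⁻ z in ball p 1, 2 * ENNReal.ofReal |(fderiv ℝ e z).det| := by
    apply lintegral_mono
    intro z
    have e2 : (2:ℝ≥0∞) = ENNReal.ofReal 2 := by simp
    simp only
    rw [e2, ← ENNReal.ofReal_mul (by norm_num)]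
    exact ENNReal.ofReal_le_ofReal (h.dil z)
  rw [lintegral_const_mul _ (hdc.abs.measurable.ennreal_ofReal),
    lintegral_abs_det_fderiv_eq_addHaar_image volume measurableSet_ball
      (fun z _ => ((h.c1.differentiable (by simp) z).hasFDerivAt.hasFDerivWithinAt))
      e.injective.injOn] at h1
  refine h1.trans ?_
  have h2 : e '' ball p 1 ⊆ ball p (1 + M + 0) := by
    rintro _ ⟨z, hz, rfl⟩
    rw [mem_ball, dist_eq_norm] at hz ⊢
    have e1 : e z - p = (e z - z) + (z - p) := by ring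
    rw [e1]
    have := h.near z
    refine (norm_add_le _ _).trans_lt (by linarith)
  rw [add_zero] at h2
  have h3 := measure_mono (μ := volume) h2
  rw [Complex.volume_ball] at h3
  calc 2 * volume (e '' ball p 1) ≤ 2 * (ENNReal.ofReal (1 + M) ^ 2 * ↑NNReal.pi) := by gcongr
    _ = ENNReal.ofReal (2 * (π * (1 + M) ^ 2)) := by
      rw [ENNReal.ofReal_mul (by norm_num), ENNReal.ofReal_mul Real.pi_pos.le,
        ENNReal.ofReal_pow (by linarith)]
      have e3 : (NNReal.pi : ℝ≥0∞) = ENNReal.ofReal π := by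
        rw [← NNReal.coe_real_pi, ENNReal.ofReal_coe_nnreal]
      rw [e3]
      simp
      ring

/-- **equicontinuity** -/
theorem Qc.equi {M : ℝ} (hM : 0 ≤ M) {ε : ℝ} (hε : 0 < ε) : ∃ r : ℝ, 0 < r ∧
    ∀ e : ℂ ≃ₜ ℂ, Qc M e → ∀ z z' : ℂ, ‖z - z'‖ ≤ r → ‖e z - e z'‖ ≤ ε := by
  set E := 2 * (π * (1 + M) ^ 2) with hE
  have hπ : 0 < π := Real.pi_pos
  have hEpos : 0 < E := by positivity
  -- choose `r` with `4 π E / log (1/r) ≤ (ε/2)²`
  have hK : 0 < 4 * π * E / (ε / 2) ^ 2 := by positivity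
  set K := 4 * π * E / (ε / 2) ^ 2 with hKdef
  refine ⟨Real.exp (-K), Real.exp_pos _, fun e he z z' hzz => ?_⟩
  have hr1 : Real.exp (-K) < 1 := by rw [Real.exp_lt_one_iff]; linarith
  obtain ⟨ρ, hρ, hosc⟩ := exists_circle he.c1 z (Real.exp_pos _) hr1 hEpos (he.energy z)
  have hρ0 : 0 < ρ := (Real.exp_pos _).trans hρ.1
  have hlog : Real.log (1 / Real.exp (-K)) = K := by
    rw [one_div, ← Real.exp_neg, neg_neg, Real.log_exp]
  rw [hlog] at hosc
  have hq : 4 * π * E / K = (ε / 2) ^ 2 := by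
    rw [hKdef]; field_simp
  rw [hq] at hosc
  have hosc' : ∀ y ∈ sphere z ρ, ∀ y' ∈ sphere z ρ, ‖e y - e y'‖ ≤ ε / 2 := fun y hy y' hy' =>
    abs_le_of_sq_le_sq' (hosc y hy y' hy') (by positivity) |>.2
  have hy0 : z + (ρ : ℂ) ∈ sphere z ρ := by
    rw [mem_sphere, dist_eq_norm, add_sub_cancel_left, Complex.norm_real,
      Real.norm_of_nonneg hρ0.le]
  have a1 := max_open e.continuous e.isOpenMap (fun y hy => hosc' y hy _ hy0)
    (show z ∈ closedBall z ρ from mem_closedBall_self hρ0.le)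
  have a2 := max_open e.continuous e.isOpenMap (fun y hy => hosc' y hy _ hy0)
    (show z' ∈ closedBall z ρ by
      rw [mem_closedBall, dist_eq_norm, norm_sub_rev]; linarith [hρ.1])
  have e1 : e z - e z' = (e z - e (z + ρ)) - (e z' - e (z + ρ)) := by ring
  rw [e1]
  refine (norm_sub_le _ _).trans (by linarith)

end

end Crest.Agent.R105.Ar2_222
end

-- ▼ part R105/Ar3_222
section

/-!
Row 105, AREA0, part 3: near-identity quasiconformal homeomorphisms with a small smooth Beltrami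
coefficient (helper205's solution of the Beltrami equation), with uniform bounds.
-/

open Set Metric Filter Topology MeasureTheory
open scoped Real ENNReal ComplexConjugate ContDiff
open Crest.Agent.R096.BelA_205 Crest.Agent.R096.BelB_205 Crest.Agent.R096.BelC_205
open Crest.Agent.R096.BelD_205

namespace Crest.Agent.R105.Ar3_222

open Crest.Agent.R105.Ar1_222 Crest.Agent.R105.Ar2_222

noncomputable section

/-! ### linear algebra -/

theorem id_eq_LL : ContinuousLinearMap.id ℝ ℂ = LL 1 0 := by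
  ext v
  simp [LL_apply]

theorem LL_a (a b : ℂ) : (LL a b 1 - Complex.I * LL a b Complex.I) / 2 = a := by
  simp only [LL_apply, map_one, Complex.conj_I]
  linear_combination ((b - a) / 2) * Complex.I_sq

theorem LL_b (a b : ℂ) : (LL a b 1 + Complex.I * LL a b Complex.I) / 2 = b := by
  simp only [LL_apply, map_one, Complex.conj_I]
  linear_combination ((a - b) / 2) * Complex.I_sq

theorem det_LL (a b : ℂ) : (LL a b).det = ‖a‖ ^ 2 - ‖b‖ ^ 2 := by
  rw [det_eq, LL_a, LL_b]

theorem dil_LL {a b : ℂ} (hb : ‖b‖ ≤ ‖a‖ / 4) : ‖LL a b‖ ^ 2 ≤ 2 * |(LL a b).det| := by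
  have h1 := norm_LL_le a b
  have hb0 := norm_nonneg b
  have ha0 := norm_nonneg a
  rw [det_LL]
  have h2 : 0 ≤ ‖a‖ ^ 2 - ‖b‖ ^ 2 := by nlinarith
  rw [abs_of_nonneg h2]
  have h3 : ‖LL a b‖ ^ 2 ≤ (‖a‖ + ‖b‖) ^ 2 := by gcongr
  nlinarith

theorem dil_inv {a b : ℂ} (ha : a ≠ 0) (hb : ‖b‖ ≤ ‖a‖ / 4) {L : ℂ →L[ℝ] ℂ}
    (hL : L.comp (LL a b) = ContinuousLinearMap.id ℝ ℂ) : ‖L‖ ^ 2 ≤ 2 * |L.det| := by
  have hb0 := norm_nonneg b
  have ha0 : 0 < ‖a‖ := norm_pos_iff.2 ha
  set D := ‖a‖ ^ 2 - ‖b‖ ^ 2 with hD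
  have hDpos : 0 < D := by nlinarith
  have hdet : L.det * D = 1 := by
    have h1 : (L.comp (LL a b)).det = 1 := by
      rw [hL]; simp [ContinuousLinearMap.det]
    have h2 : (L.comp (LL a b)).det = L.det * (LL a b).det := by
      unfold ContinuousLinearMap.det
      exact LinearMap.det_comp _ _
    rw [h2, det_LL] at h1
    exact h1
  have hDc : (D : ℂ) = a * conj a - b * conj b := by
    rw [Complex.mul_conj, Complex.mul_conj, Complex.normSq_eq_norm_sq, Complex.normSq_eq_norm_sq,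
      hD]
    push_cast; ring
  have hDc0 : (D : ℂ) ≠ 0 := by exact_mod_cast hDpos.ne'
  have hbd : ∀ u, ‖L u‖ ≤ (‖a‖ + ‖b‖) / D * ‖u‖ := by
    intro u
    set v : ℂ := (conj a * u - b * conj u) / D with hv
    have h1 : LL a b v = u := by
      rw [LL_apply, hv, map_div₀, map_sub, map_mul, map_mul, Complex.conj_conj, Complex.conj_conj,
        Complex.conj_ofReal]
      field_simp
      rw [hDc]; ring
    have h2 : L u = v := by
      have := congrArg (fun T : ℂ →L[ℝ] ℂ => T v) hL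
      simp only [ContinuousLinearMap.comp_apply, ContinuousLinearMap.id_apply] at this
      rw [h1] at this
      exact this
    rw [h2, hv, norm_div, Complex.norm_real, Real.norm_of_nonneg hDpos.le, div_mul_eq_mul_div]
    gcongr
    refine (norm_sub_le _ _).trans (le_of_eq ?_)
    rw [norm_mul, norm_mul, Complex.norm_conj, Complex.norm_conj]
    ring
  have hop : ‖L‖ ≤ (‖a‖ + ‖b‖) / D :=
    ContinuousLinearMap.opNorm_le_bound _ (by positivity) hbd
  have hdet' : |L.det| = 1 / D := by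
    rw [abs_of_pos (by by_contra hcon; push Not at hcon; nlinarith), eq_div_iff hDpos.ne', hdet]
  rw [hdet']
  have h3 : ‖L‖ ^ 2 ≤ ((‖a‖ + ‖b‖) / D) ^ 2 := by gcongr
  refine h3.trans ?_
  rw [div_pow, div_le_iff₀ (by positivity)]
  have h4 : 2 * (1 / D) * D ^ 2 = 2 * D := by field_simp
  rw [h4, hD]
  nlinarith

/-! ### the members -/

/-- the bound -/
def VR (R : ℝ) : ℝ := volume.real (closedBall (0:ℂ) R)

theorem VR_nonneg (R : ℝ) : 0 ≤ VR R := by unfold VR; positivity

/-- a member of the approximating family -/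
structure Mem (R c : ℝ) (N : Set ℂ) (e : ℂ ≃ₜ ℂ) (ν : ℂ → ℂ) : Prop where
  tst : Tst R ν
  eq : ∀ z, e z = z + P ν z
  off : ∀ z, z ∉ N → ν z = 0
  l1 : ∫ z, ‖ν z‖ ≤ VR R
  qc : Qc (4 * R + VR R) e
  qci : Qc (4 * R + VR R) e.symm
  mass : c ≤ (∫ z, ν z).re

/-- the data after choosing `n` -/
structure Dat (R : ℝ) (N : Set ℂ) (F ν : ℂ → ℂ) : Prop where
  tst : Tst R ν
  eq : ∀ z, F z = z + P ν z
  off : ∀ z, z ∉ N → ν z = 0
  ne : ∀ z, dz F z ≠ 0
  le : ∀ z, ‖ν z‖ ≤ ‖dz F z‖ / 4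

namespace Dat

variable {R : ℝ} {N : Set ℂ} {F ν : ℂ → ℂ}

theorem feq (h : Dat R N F ν) : F = fun z => z + P ν z := funext h.eq

theorem smooth (h : Dat R N F ν) : ContDiff ℝ ∞ F := by
  rw [h.feq]; exact contDiff_id.add (P_smooth h.tst)

theorem diffP (h : Dat R N F ν) : Differentiable ℝ (P ν) :=
  (P_smooth h.tst).differentiable (by simp)

theorem dzb_eq (h : Dat R N F ν) (z : ℂ) : dzb F z = ν z := by
  rw [h.feq, dzb_id_add h.diffP, dzb_P h.tst]

theorem dz_eq (h : Dat R N F ν) (z : ℂ) : dz F z = 1 + dz (P ν) z := by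
  rw [h.feq, dz_id_add h.diffP]

theorem fd (h : Dat R N F ν) (z : ℂ) : fderiv ℝ F z = LL (dz F z) (ν z) := by
  rw [fderiv_eq_LL, h.dzb_eq]

theorem det_pos (h : Dat R N F ν) (z : ℂ) : 0 < (fderiv ℝ F z).det := by
  rw [h.fd, det_LL]
  have h1 := h.le z
  have h2 : 0 < ‖dz F z‖ := norm_pos_iff.2 (h.ne z)
  have h3 := norm_nonneg (ν z)
  nlinarith

theorem exists_e (h : Dat R N F ν) : ∃ e : ℂ ≃ₜ ℂ, ⇑e = F := by
  apply exists_homeo (h.smooth.of_le (by simp)) (fun z => (h.det_pos z).ne')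
  · refine (P_tendsto h.tst).congr fun z => ?_
    rw [h.eq]; ring
  · have h1 : Tendsto (fun z => ‖P (dz ν) z‖ + ‖ν z‖) (cocompact ℂ) (𝓝 0) := by
      have t1 := (P_tendsto h.tst.dz).norm
      rw [norm_zero] at t1
      have t2 : Tendsto (fun z => ‖ν z‖) (cocompact ℂ) (𝓝 0) := by
        apply tendsto_const_nhds.congr'
        filter_upwards [(tendsto_norm_cocompact_atTop (E := ℂ)).eventually (eventually_gt_atTop R)]
          with z hz
        rw [h.tst.zero z hz]; simp
      have := t1.add t2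
      rwa [add_zero] at this
    apply squeeze_zero_norm _ h1
    intro z
    rw [h.fd, id_eq_LL, LL_sub, sub_zero, h.dz_eq, add_sub_cancel_left, dz_P h.tst]
    exact norm_LL_le _ _

/-- the `L²` bound -/
theorem A_le (h : Dat R N F ν) (hN : MeasurableSet N) (hNR : N ⊆ closedBall 0 R) :
    A ν ≤ volume.real N / 7 := by
  have hNf : volume N ≠ ⊤ := ((measure_mono hNR).trans_lt measure_closedBall_lt_top).ne
  have hi := integrable_sq_P h.tst
  have hc : IntegrableOn (fun _ : ℂ => (1:ℝ)/8) N := integrableOn_const hNf (by simp)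
  have hint : Integrable (fun z => N.indicator (fun _ => (1:ℝ)/8) z + 1/8 * ‖dz (P ν) z‖ ^ 2) :=
    ((integrable_indicator_iff hN).2 hc).add (hi.const_mul _)
  have h1 : A ν ≤ ∫ z, (N.indicator (fun _ => (1:ℝ)/8) z + 1/8 * ‖dz (P ν) z‖ ^ 2) := by
    apply A_le_of h.tst hint
    intro z
    by_cases hz : z ∈ N
    · rw [indicator_of_mem hz]
      have h2 := h.le z
      have h3 : ‖dz F z‖ ≤ 1 + ‖dz (P ν) z‖ := by
        rw [h.dz_eq]
        refine (norm_add_le _ _).trans (le_of_eq (by simp))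
      have h4 := norm_nonneg (ν z)
      have h5 := norm_nonneg (dz (P ν) z)
      have h6 : ‖ν z‖ ^ 2 ≤ ((1 + ‖dz (P ν) z‖) / 4) ^ 2 := by
        gcongr
        linarith
      nlinarith [sq_nonneg (1 - ‖dz (P ν) z‖)]
    · rw [indicator_of_notMem hz, h.off z hz]
      simp only [norm_zero]
      have := sq_nonneg ‖dz (P ν) z‖
      linarith
  rw [integral_add ((integrable_indicator_iff hN).2 hc) (hi.const_mul _),
    integral_indicator hN, setIntegral_const, integral_const_mul, isometry h.tst] at h1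
  have h2 : (∫ z, ‖ν z‖ ^ 2) = A ν := rfl
  rw [h2, smul_eq_mul] at h1
  linarith

theorem l1_le (h : Dat R N F ν) (hN : MeasurableSet N) (hNR : N ⊆ closedBall 0 R) :
    ∫ z, ‖ν z‖ ≤ VR R := by
  have h1 := int_le_sq h.tst one_pos
  have h2 := h.A_le hN hNR
  have h3 : volume.real N ≤ VR R :=
    measureReal_mono hNR (measure_closedBall_lt_top.ne)
  have h4 : 0 ≤ volume.real N := measureReal_nonneg
  rw [one_mul, inv_one, one_mul] at h1
  unfold VR at *
  linarith

theorem near (h : Dat R N F ν) (hR : 1 ≤ R) (hN : MeasurableSet N) (hNR : N ⊆ closedBall 0 R)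
    {e : ℂ ≃ₜ ℂ} (he : ⇑e = F) (z : ℂ) : ‖e z - z‖ ≤ 4 * R + VR R := by
  have hR0 : 0 < R := by linarith
  have hV := VR_nonneg R
  have big : ∀ z, 2 * R ≤ ‖z‖ → ‖e z - z‖ ≤ VR R := by
    intro z hz
    rw [he, h.eq, add_sub_cancel_left]
    refine (P_decay h.tst hR0 hz).trans ?_
    have h1 := h.l1_le hN hNR
    have h2 : ‖z‖⁻¹ ≤ (2:ℝ)⁻¹ := inv_anti₀ (by norm_num) (by linarith)
    have h3 : π⁻¹ ≤ (1:ℝ) := inv_le_one_of_one_le₀ (by linarith [Real.pi_gt_three])
    have h0 : 0 ≤ ∫ ζ, ‖ν ζ‖ := integral_nonneg fun _ => norm_nonneg _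
    calc 2 * π⁻¹ * (∫ ζ, ‖ν ζ‖) * ‖z‖⁻¹ ≤ 2 * 1 * VR R * 2⁻¹ := by gcongr
      _ = VR R := by ring
  by_cases hz : 2 * R ≤ ‖z‖
  · linarith [big z hz]
  · push Not at hz
    have h1 : ∀ y ∈ sphere (0:ℂ) (2 * R), ‖e y - 0‖ ≤ 2 * R + VR R := by
      intro y hy
      rw [mem_sphere_zero_iff_norm] at hy
      have h2 := big y hy.ge
      rw [sub_zero]
      have e1 : e y = (e y - y) + y := by ring
      rw [e1]
      refine (norm_add_le _ _).trans (by linarith)
    have h3 := max_open e.continuous e.isOpenMap h1 (show z ∈ closedBall (0:ℂ) (2 * R) by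
      rw [mem_closedBall_zero_iff]; exact hz.le)
    rw [sub_zero] at h3
    refine (norm_sub_le _ _).trans (by linarith)

theorem qc (h : Dat R N F ν) (hR : 1 ≤ R) (hN : MeasurableSet N) (hNR : N ⊆ closedBall 0 R)
    {e : ℂ ≃ₜ ℂ} (he : ⇑e = F) : Qc (4 * R + VR R) e where
  c1 := by rw [he]; exact h.smooth.of_le (by simp)
  dil z := by rw [he, h.fd]; exact dil_LL (h.le z)
  near := h.near hR hN hNR he

theorem qci (h : Dat R N F ν) (hR : 1 ≤ R) (hN : MeasurableSet N) (hNR : N ⊆ closedBall 0 R)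
    {e : ℂ ≃ₜ ℂ} (he : ⇑e = F) : Qc (4 * R + VR R) e.symm := by
  have hc1 : ContDiff ℝ 1 e := by rw [he]; exact h.smooth.of_le (by simp)
  have hd : ∀ z, HasFDerivAt e (((fderiv ℝ e z).toContinuousLinearEquivOfDetNeZero
      (by rw [he]; exact (h.det_pos z).ne') : ℂ ≃L[ℝ] ℂ) : ℂ →L[ℝ] ℂ) z := by
    intro z
    rw [ContinuousLinearMap.coe_toContinuousLinearEquivOfDetNeZero]
    exact (hc1.differentiable (by simp) z).hasFDerivAt
  have hs : ContDiff ℝ 1 e.symm := e.contDiff_symm hd hc1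
  refine ⟨hs, fun w => ?_, fun w => ?_⟩
  · have h1 : HasFDerivAt e.symm (fderiv ℝ e.symm w) (e (e.symm w)) := by
      rw [e.apply_symm_apply]
      exact (hs.differentiable (by simp) w).hasFDerivAt
    have h2 : HasFDerivAt e (fderiv ℝ e (e.symm w)) (e.symm w) :=
      (hc1.differentiable (by simp) _).hasFDerivAt
    have h3 := h1.comp (e.symm w) h2
    have h4 : (e.symm ∘ e : ℂ → ℂ) = id := by ext z; simp
    rw [h4] at h3
    have h5 := h3.unique (hasFDerivAt_id _)
    have h6 : fderiv ℝ e (e.symm w) = LL (dz F (e.symm w)) (ν (e.symm w)) := by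
      rw [he, h.fd]
    rw [h6] at h5
    exact dil_inv (h.ne _) (h.le _) h5
  · have := h.near hR hN hNR he (e.symm w)
    rw [e.apply_symm_apply, norm_sub_rev] at this
    exact this

end Dat

/-- **existence of a member** -/
theorem exists_Mem {R : ℝ} (hR : 1 ≤ R) {E N : Set ℂ} (hN : MeasurableSet N)
    (hNR : N ⊆ closedBall 0 R) (hEm : MeasurableSet E) (hEN : E ⊆ N) {φ : ℂ → ℝ}
    (hφ : ContDiff ℝ ∞ φ) (h0 : ∀ z, 0 ≤ φ z) (h1 : ∀ z, φ z ≤ 1) (hoff : ∀ z, z ∉ N → φ z = 0)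
    (hon : ∀ z ∈ E, φ z = 1) (hvol : volume.real N ≤ 3 / 2 * volume.real E) :
    ∃ e ν, Mem R (volume.real E / 64) N e ν := by
  have hNf : volume N ≠ ⊤ := ((measure_mono hNR).trans_lt measure_closedBall_lt_top).ne
  have hEf : volume E ≠ ⊤ := ((measure_mono hEN).trans_lt hNf.lt_top).ne
  set μ : ℂ → ℂ := fun z => ((φ z / 8 : ℝ) : ℂ) with hμdef
  have hμn : ∀ z, ‖μ z‖ = φ z / 8 := fun z => by
    rw [hμdef]
    simp only
    rw [Complex.norm_real, Real.norm_of_nonneg (by have := h0 z; positivity)]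
  have hμ : Tst R μ := by
    refine ⟨Complex.ofRealCLM.contDiff.comp (hφ.div_const 8), fun z hz => ?_⟩
    have : z ∉ N := fun hzN => by
      have := hNR hzN
      rw [mem_closedBall_zero_iff] at this
      linarith
    simp only [hμdef, hoff z this]
    simp
  obtain ⟨C, ρ, hBd⟩ := exists_Bd (k := 1/8) hμ (fun z => by rw [hμn]; linarith [h1 z]) (by norm_num)
  have hexp := Real.exp_pos (-Bd.Sg R C ρ)
  obtain ⟨n, hn1, hn2⟩ := ((hBd.g_tendsto.eventually (gt_mem_nhds (half_pos hexp))).and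
    (hBd.g_tendsto.eventually (gt_mem_nhds (show (0:ℝ) < 1/8 by norm_num)))).exists
  have hs : (1:ℝ) ∈ Icc (0:ℝ) 1 := ⟨by norm_num, le_refl _⟩
  have hνe : ∀ z, ν μ n 1 z = μ z * Complex.exp (σ μ n 1 z) := fun z => by unfold ν; simp
  have hlow : ∀ z, ‖Complex.exp (σ μ n 1 z)‖ / 2 ≤ ‖dz (F μ n 1) z‖ := by
    intro z
    have a1 := hBd.g_le n hs z
    have a2 := hBd.le_exp n hs z
    have a3 := norm_sub_norm_le (Complex.exp (σ μ n 1 z)) (dz (F μ n 1) z)
    rw [norm_sub_rev] at a3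
    linarith
  have D : Dat R N (F μ n 1) (ν μ n 1) := by
    refine ⟨tst_ν hμ n 1, fun z => rfl, fun z hz => ?_, fun z hz => ?_, fun z => ?_⟩
    · rw [hνe]; simp only [hμdef, hoff z hz]; simp
    · have a1 := hlow z
      have a2 := hBd.le_exp n hs z
      rw [hz, norm_zero] at a1
      linarith
    · rw [hνe, norm_mul, hμn]
      have a1 := hlow z
      have a2 := norm_nonneg (Complex.exp (σ μ n 1 z))
      have a3 : φ z / 8 * ‖Complex.exp (σ μ n 1 z)‖ ≤ 1 / 8 * ‖Complex.exp (σ μ n 1 z)‖ := by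
        gcongr; exact h1 z
      linarith
  obtain ⟨e, he⟩ := D.exists_e
  refine ⟨e, ν μ n 1, D.tst, fun z => by rw [he]; rfl, D.off, D.l1_le hN hNR, D.qc hR hN hNR he,
    D.qci hR hN hNR he, ?_⟩
  -- the mass
  have hre : (∫ z, ν μ n 1 z).re = ∫ z, (ν μ n 1 z).re := by
    have := Complex.reCLM.integral_comp_comm D.tst.integrable
    simp only [Complex.reCLM_apply] at this
    exact this.symm
  rw [hre]
  have iE : Integrable (E.indicator fun _ : ℂ => (1:ℝ)/8) :=
    (integrable_indicator_iff hEm).2 (integrableOn_const hEf (by simp))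
  have iN : Integrable (N.indicator fun _ : ℂ => (3:ℝ)/64) :=
    (integrable_indicator_iff hN).2 (integrableOn_const hNf (by simp))
  have iP := (integrable_sq_P D.tst).const_mul (1/8 : ℝ)
  have hlb : ∀ z, E.indicator (fun _ : ℂ => (1:ℝ)/8) z - N.indicator (fun _ : ℂ => (3:ℝ)/64) z
      - 1/8 * ‖dz (P (ν μ n 1)) z‖ ^ 2 ≤ (ν μ n 1 z).re := by
    intro z
    by_cases hzN : z ∈ N
    · rw [indicator_of_mem hzN]
      have a1 := hBd.g_le n hs z
      set g := dz (F μ n 1) z - Complex.exp (σ μ n 1 z) with hg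
      have e1 : ν μ n 1 z = μ z * (1 + dz (P (ν μ n 1)) z - g) := by
        rw [hνe, hg, D.dz_eq]; ring
      have e2 : (ν μ n 1 z).re = φ z / 8 * (1 + (dz (P (ν μ n 1)) z - g).re) := by
        rw [e1]
        simp only [hμdef]
        rw [Complex.re_ofReal_mul]
        simp only [Complex.sub_re, Complex.add_re, Complex.one_re]
        ring
      have e3 : |(dz (P (ν μ n 1)) z - g).re| ≤ ‖dz (P (ν μ n 1)) z‖ + 1/8 := by
        refine (Complex.abs_re_le_norm _).trans ((norm_sub_le _ _).trans ?_)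
        linarith
      have e4 : ‖dz (P (ν μ n 1)) z‖ ≤ 1/4 + ‖dz (P (ν μ n 1)) z‖ ^ 2 := by
        nlinarith [sq_nonneg (‖dz (P (ν μ n 1)) z‖ - 1/2)]
      have e5 := abs_le.1 e3
      have p0 := h0 z
      have p1 := h1 z
      have e6 : φ z / 8 * (-(3/8) - ‖dz (P (ν μ n 1)) z‖ ^ 2)
          ≤ φ z / 8 * (dz (P (ν μ n 1)) z - g).re := by
        apply mul_le_mul_of_nonneg_left _ (by positivity)
        linarith [e5.1]
      have e7 : -(3/64) - 1/8 * ‖dz (P (ν μ n 1)) z‖ ^ 2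
          ≤ φ z / 8 * (-(3/8) - ‖dz (P (ν μ n 1)) z‖ ^ 2) := by
        nlinarith [sq_nonneg ‖dz (P (ν μ n 1)) z‖]
      have e8 : E.indicator (fun _ : ℂ => (1:ℝ)/8) z ≤ φ z / 8 := by
        by_cases hzE : z ∈ E
        · rw [indicator_of_mem hzE, hon z hzE]
        · rw [indicator_of_notMem hzE]; positivity
      rw [e2]
      linarith
    · rw [indicator_of_notMem hzN, indicator_of_notMem (fun h => hzN (hEN h)), D.off z hzN]
      have := sq_nonneg ‖dz (P (ν μ n 1)) z‖
      simp only [Complex.zero_re]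
      linarith
  have iEN : Integrable (fun z => E.indicator (fun _ : ℂ => (1:ℝ)/8) z
      - N.indicator (fun _ : ℂ => (3:ℝ)/64) z) := iE.sub iN
  have key := integral_mono (iEN.sub iP) (Complex.reCLM.integrable_comp D.tst.integrable) hlb
  simp only [Pi.sub_apply, Complex.reCLM_apply] at key
  rw [integral_sub iEN iP, integral_sub iE iN, integral_indicator hEm,
    integral_indicator hN, setIntegral_const, setIntegral_const, integral_const_mul,
    isometry D.tst] at key
  have hA := D.A_le hN hNR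
  have hA' : (∫ z, ‖ν μ n 1 z‖ ^ 2) = A (ν μ n 1) := rfl
  rw [hA', smul_eq_mul, smul_eq_mul] at key
  have hE0 : 0 ≤ volume.real E := measureReal_nonneg
  refine le_trans ?_ key
  linarith

end

end Crest.Agent.R105.Ar3_222
end

-- ▼ part R105/Ar4_222
section

/-!
Row 105, AREA0, part 4: a conformally removable compact set has area zero.
-/

open Set Metric Topology MeasureTheory
open Filter hiding ker
open scoped Real ENNReal ComplexConjugate ContDiff
open Crest.Agent.R096.BelA_205 Crest.Agent.R096.BelB_205 Crest.Agent.R096.BelC_205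
open Crest.Agent.R096.BelD_205

namespace Crest.Agent.R105.Ar4_222

open Crest.Agent.R105.Ar1_222 Crest.Agent.R105.Ar2_222 Crest.Agent.R105.Ar3_222

noncomputable section

/-! ### compactness -/

theorem exists_pt {M : ℝ} (e : ℕ → ℂ ≃ₜ ℂ) (h : ∀ n, Qc M (e n)) (U : Ultrafilter ℕ) (z : ℂ) :
    ∃ w : ℂ, Tendsto (fun n => e n z) U (𝓝 w) := by
  have h1 : ((U.map fun n => e n z : Ultrafilter ℂ) : Filter ℂ) ≤ 𝓟 (closedBall z M) := by
    rw [Ultrafilter.coe_map, le_principal_iff, mem_map]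
    filter_upwards with n
    rw [mem_preimage, mem_closedBall, dist_eq_norm]
    exact (h n).near z
  obtain ⟨w, -, hw⟩ := (isCompact_closedBall z M).ultrafilter_le_nhds _ h1
  exact ⟨w, hw⟩

theorem lim_equi {M : ℝ} (e : ℕ → ℂ ≃ₜ ℂ) (h : ∀ n, Qc M (e n)) (U : Ultrafilter ℕ) {f : ℂ → ℂ}
    (hf : ∀ z, Tendsto (fun n => e n z) U (𝓝 (f z))) {ε : ℝ} (hε : 0 < ε) :
    ∃ r : ℝ, 0 < r ∧ (∀ n (z z' : ℂ), ‖z - z'‖ ≤ r → ‖e n z - e n z'‖ ≤ ε) ∧
      ∀ z z' : ℂ, ‖z - z'‖ ≤ r → ‖f z - f z'‖ ≤ ε := by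
  obtain ⟨r, hr, hr'⟩ := Qc.equi ((h 0).M0) hε
  refine ⟨r, hr, fun n z z' hz => hr' _ (h n) z z' hz, fun z z' hz => ?_⟩
  have := ((hf z).sub (hf z')).norm
  exact le_of_tendsto this (Eventually.of_forall fun n => hr' _ (h n) z z' hz)

theorem lim_cont {M : ℝ} (e : ℕ → ℂ ≃ₜ ℂ) (h : ∀ n, Qc M (e n)) (U : Ultrafilter ℕ) {f : ℂ → ℂ}
    (hf : ∀ z, Tendsto (fun n => e n z) U (𝓝 (f z))) : Continuous f := by
  rw [Metric.continuous_iff]
  intro z ε hε
  obtain ⟨r, hr, -, hr'⟩ := lim_equi e h U hf (half_pos hε)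
  refine ⟨r, hr, fun y hy => ?_⟩
  rw [dist_eq_norm] at hy ⊢
  linarith [hr' y z hy.le]

theorem lim_inv {M : ℝ} (e : ℕ → ℂ ≃ₜ ℂ) (h' : ∀ n, Qc M (e n).symm)
    (U : Ultrafilter ℕ) {f g : ℂ → ℂ} (hf : ∀ z, Tendsto (fun n => e n z) U (𝓝 (f z)))
    (hg : ∀ z, Tendsto (fun n => (e n).symm z) U (𝓝 (g z))) (z : ℂ) : g (f z) = z := by
  have h1 : Tendsto (fun n => (e n).symm (f z)) U (𝓝 z) := by
    rw [Metric.tendsto_nhds]
    intro ε hε
    obtain ⟨r, hr, hr', -⟩ := lim_equi (fun n => (e n).symm) h' U hg (half_pos hε)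
    have h2 := hf z
    rw [Metric.tendsto_nhds] at h2
    filter_upwards [h2 r hr] with n hn
    rw [dist_eq_norm] at hn ⊢
    have h3 := hr' n (f z) (e n z) (by rw [norm_sub_rev]; exact hn.le)
    simp only [Homeomorph.symm_apply_apply] at h3
    linarith
  exact tendsto_nhds_unique (hg (f z)) h1

/-- limits of near-identity homeomorphisms of bounded dilatation -/
theorem exists_limit {M : ℝ} (e : ℕ → ℂ ≃ₜ ℂ) (h : ∀ n, Qc M (e n)) (h' : ∀ n, Qc M (e n).symm)
    (U : Ultrafilter ℕ) :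
    ∃ f : ℂ ≃ₜ ℂ, TendstoLocallyUniformly (fun n => (e n : ℂ → ℂ)) f U ∧
      ∀ z, Tendsto (fun n => e n z) U (𝓝 (f z)) := by
  choose f hf using exists_pt e h U
  choose g hg using exists_pt (fun n => (e n).symm) h' U
  refine ⟨⟨⟨f, g, lim_inv e h' U hf hg, ?_⟩, lim_cont e h U hf, lim_cont _ h' U hg⟩, ?_, hf⟩
  · exact lim_inv (fun n => (e n).symm) (by simpa using h) U hg (by simpa using hf)
  · rw [Metric.tendstoLocallyUniformly_iff]
    intro ε hε z
    obtain ⟨r, hr, hr1, hr2⟩ := lim_equi e h U hf (show 0 < ε / 4 by positivity)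
    refine ⟨closedBall z r, closedBall_mem_nhds z hr, ?_⟩
    have h2 := hf z
    rw [Metric.tendsto_nhds] at h2
    filter_upwards [h2 (ε / 4) (by positivity)] with n hn y hy
    rw [mem_closedBall, dist_eq_norm] at hy
    rw [dist_eq_norm] at hn ⊢
    have a1 := hr1 n y z hy
    have a2 := hr2 y z hy
    show ‖f y - e n y‖ < ε
    have e1 : f y - e n y = (f y - f z) - (e n z - f z) - (e n y - e n z) := by ring
    rw [e1]
    refine (norm_sub_le _ _).trans_lt ?_
    have := norm_sub_le (f y - f z) (e n z - f z)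
    linarith

/-! ### decay -/

theorem P_decay3 {R : ℝ} {u : ℂ → ℂ} (h : Tst R u) (hR : 0 < R) {z : ℂ} (hz : 2 * R ≤ ‖z‖) :
    ‖P u z - ker z * ∫ ζ, u ζ‖ ≤ 2 * R * π⁻¹ * (∫ ζ, ‖u ζ‖) * (‖z‖⁻¹) ^ 2 := by
  rw [P_swap]
  have hzpos : 0 < ‖z‖ := by linarith
  have h1 : (∫ ζ, ker (z - ζ) * u ζ) - ker z * (∫ ζ, u ζ) = ∫ ζ, (ker (z - ζ) - ker z) * u ζ := by
    have : ∫ ζ, (ker (z - ζ) - ker z) * u ζ
        = (∫ ζ, ker (z - ζ) * u ζ) - ∫ ζ, ker z * u ζ := by
      rw [← integral_sub (exists_int' h z) (h.integrable.const_mul _)]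
      congr 1; ext ζ; ring
    rw [this, integral_const_mul]
  rw [h1]
  have hle : ∀ ζ, ‖(ker (z - ζ) - ker z) * u ζ‖ ≤ (2 * R * π⁻¹ * (‖z‖⁻¹) ^ 2) * ‖u ζ‖ := by
    intro ζ
    rw [norm_mul]
    by_cases hζ : R < ‖ζ‖
    · rw [h.zero ζ hζ]; simp
    · apply mul_le_mul_of_nonneg_right _ (norm_nonneg _)
      push Not at hζ
      have h1 : ‖z‖ / 2 ≤ ‖z - ζ‖ := by
        have := norm_sub_norm_le z ζ
        linarith
      have hz0 : z ≠ 0 := norm_pos_iff.1 hzpos
      have hzz : z - ζ ≠ 0 := norm_pos_iff.1 (by linarith)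
      have e : ker (z - ζ) - ker z = (π:ℂ)⁻¹ * (ζ * (z - ζ)⁻¹ * z⁻¹) := by
        unfold ker
        have hp : (π : ℂ) ≠ 0 := by exact_mod_cast Real.pi_ne_zero
        field_simp
        ring
      rw [e, norm_mul, norm_mul, norm_mul, norm_inv, norm_inv, norm_inv, Complex.norm_real,
        Real.norm_of_nonneg Real.pi_pos.le]
      have h2 : ‖z - ζ‖⁻¹ ≤ (‖z‖ / 2)⁻¹ := inv_anti₀ (by positivity) h1
      calc π⁻¹ * (‖ζ‖ * ‖z - ζ‖⁻¹ * ‖z‖⁻¹) ≤ π⁻¹ * (R * (‖z‖ / 2)⁻¹ * ‖z‖⁻¹) := by gcongr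
        _ = 2 * R * π⁻¹ * (‖z‖⁻¹) ^ 2 := by field_simp
  calc ‖∫ ζ, (ker (z - ζ) - ker z) * u ζ‖ ≤ ∫ ζ, (2 * R * π⁻¹ * (‖z‖⁻¹) ^ 2) * ‖u ζ‖ :=
        norm_integral_le_of_norm_le (h.integrable.norm.const_mul _) (Eventually.of_forall hle)
    _ = _ := by rw [integral_const_mul]; ring

theorem Mem_diff {R c : ℝ} {N : Set ℂ} {e : ℂ ≃ₜ ℂ} {ν : ℂ → ℂ} (h : Mem R c N e ν) {z : ℂ}
    (hz : z ∉ N) : DifferentiableAt ℂ e z := by
  have hP : Differentiable ℝ (P ν) := (P_smooth h.tst).differentiable (by simp)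
  have he : (e : ℂ → ℂ) = fun z => z + P ν z := funext h.eq
  have hd : DifferentiableAt ℝ e z := by
    rw [he]; exact differentiableAt_id.add (hP z)
  rw [differentiableAt_complex_iff_differentiableAt_real]
  refine ⟨hd, ?_⟩
  have h1 : dzb e z = 0 := by
    rw [he, dzb_id_add hP, dzb_P h.tst]; exact h.off z hz
  unfold dzb dd at h1
  have h2 : fderiv ℝ e z 1 + Complex.I * fderiv ℝ e z Complex.I = 0 := by
    simpa using h1
  rw [smul_eq_mul]
  linear_combination (-Complex.I) * h2 + (fderiv ℝ e z Complex.I) * Complex.I_sq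

/-- the neighbourhoods -/
theorem exists_delta {E : Set ℂ} (hE : IsCompact E) (h0 : 0 < volume.real E) :
    ∃ δ : ℝ, 0 < δ ∧ δ ≤ 1 ∧ ∀ t, 0 < t → t ≤ δ →
      volume.real (thickening t E) ≤ 3 / 2 * volume.real E := by
  have hEf : volume E ≠ ⊤ := hE.measure_lt_top.ne
  have hf : ∃ R > 0, volume (thickening R E) ≠ ⊤ :=
    ⟨1, one_pos, (hE.isBounded.thickening.measure_lt_top).ne⟩
  have h1 := tendsto_measure_thickening_of_isClosed hf hE.isClosed
  have h2 : volume E < ENNReal.ofReal (3 / 2 * volume.real E) := by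
    rw [← ENNReal.ofReal_toReal hEf]
    exact (ENNReal.ofReal_lt_ofReal_iff (by positivity)).2 (by
      have : (volume E).toReal = volume.real E := rfl
      rw [this]; linarith)
  have h3 := h1.eventually (gt_mem_nhds h2)
  rw [eventually_nhdsWithin_iff, Metric.eventually_nhds_iff] at h3
  obtain ⟨η, hη, h3⟩ := h3
  refine ⟨min (η / 2) 1, by positivity, min_le_right _ _, fun t ht htl => ?_⟩
  have h4 := h3 (y := t) (by
    rw [Real.dist_eq, sub_zero, abs_of_pos ht]
    linarith [min_le_left (η / 2) 1]) ht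
  exact ENNReal.toReal_le_of_le_ofReal (by positivity) h4.le

theorem exists_bump {E : Set ℂ} (hE : IsCompact E) {t : ℝ} (ht : 0 < t) :
    ∃ φ : ℂ → ℝ, ContDiff ℝ ∞ φ ∧ (∀ z, 0 ≤ φ z) ∧ (∀ z, φ z ≤ 1) ∧
      (∀ z, z ∉ thickening t E → φ z = 0) ∧ ∀ z ∈ E, φ z = 1 := by
  have hs : IsClosed (thickening t E)ᶜ := isOpen_thickening.isClosed_compl
  have hd : Disjoint (thickening t E)ᶜ E := by
    rw [disjoint_left]
    intro z hz hzE
    exact hz (self_subset_thickening ht E hzE)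
  obtain ⟨f, hf0, hf1, hf⟩ := exists_contMDiffMap_zero_one_of_isClosed (n := (⊤ : ℕ∞))
    (modelWithCornersSelf ℝ ℂ) hs hE.isClosed hd
  refine ⟨f, f.contMDiff.contDiff, fun z => (hf z).1, fun z => (hf z).2, fun z hz => hf0 hz,
    fun z hz => hf1 hz⟩

/-- **a compact set of positive area is not removable** -/
theorem exists_phi {E : Set ℂ} (hE : IsCompact E) (h0 : 0 < volume.real E) :
    ∃ f : ℂ ≃ₜ ℂ, DifferentiableOn ℂ f Eᶜ ∧ ¬ ∃ a b : ℂ, ∀ z : ℂ, f z = a * z + b := by
  obtain ⟨B, hB⟩ := hE.isBounded.subset_closedBall 0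
  set R : ℝ := |B| + 1 with hR
  have hR1 : 1 ≤ R := by rw [hR]; linarith [abs_nonneg B]
  have hR0 : 0 < R := by linarith
  obtain ⟨δ, hδ0, hδ1, hδ⟩ := exists_delta hE h0
  have ht : ∀ n : ℕ, 0 < δ / ((n:ℝ) + 1) ∧ δ / ((n:ℝ) + 1) ≤ δ := by
    intro n
    refine ⟨by positivity, ?_⟩
    rw [div_le_iff₀ (by positivity)]
    nlinarith [(Nat.cast_nonneg n : (0:ℝ) ≤ n)]
  have hmem : ∀ n : ℕ, ∃ e ν, Mem R (volume.real E / 64) (thickening (δ / ((n:ℝ) + 1)) E) e ν := by
    intro n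
    obtain ⟨φ, p1, p2, p3, p4, p5⟩ := exists_bump hE (ht n).1
    refine exists_Mem hR1 isOpen_thickening.measurableSet ?_ hE.measurableSet
      (self_subset_thickening (ht n).1 E) p1 p2 p3 p4 p5 (hδ _ (ht n).1 (ht n).2)
    intro z hz
    rw [mem_thickening_iff] at hz
    obtain ⟨y, hy, hzy⟩ := hz
    have h1 := hB hy
    rw [mem_closedBall_zero_iff] at h1 ⊢
    rw [dist_eq_norm] at hzy
    have e1 : z = (z - y) + y := by ring
    rw [e1]
    refine (norm_add_le _ _).trans ?_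
    have := (ht n).2
    have := le_abs_self B
    linarith
  choose e ν hm using hmem
  set U : Ultrafilter ℕ := Filter.hyperfilter ℕ with hU
  have hUle : (U : Filter ℕ) ≤ atTop := by
    rw [← Nat.cofinite_eq_atTop]; exact Filter.hyperfilter_le_cofinite
  obtain ⟨f, hf, hfp⟩ := exists_limit e (fun n => (hm n).qc) (fun n => (hm n).qci) U
  refine ⟨f, ?_, ?_⟩
  · -- holomorphic off `E`
    intro z hz
    apply DifferentiableAt.differentiableWithinAt
    have hz' : z ∉ E := hz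
    obtain ⟨s, hs, hsub⟩ := Metric.mem_nhds_iff.1 (hE.isClosed.isOpen_compl.mem_nhds hz')
    have hloc : TendstoLocallyUniformlyOn (fun n => (e n : ℂ → ℂ)) f U (ball z (s / 2)) :=
      (tendstoLocallyUniformlyOn_univ.2 hf).mono (subset_univ _)
    have hev : ∀ᶠ n in (U : Filter ℕ), DifferentiableOn ℂ (e n) (ball z (s / 2)) := by
      apply hUle
      have t1 : Tendsto (fun n : ℕ => δ / ((n:ℝ) + 1)) atTop (𝓝 0) :=
        tendsto_const_div_atTop_nhds_zero_nat δ |>.comp (tendsto_add_atTop_nat 1) |>.congr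
          (fun n => by simp)
      filter_upwards [t1.eventually (gt_mem_nhds (show (0:ℝ) < s / 2 by positivity))] with n hn
      intro y hy
      apply (Mem_diff (hm n) ?_).differentiableWithinAt
      intro hyN
      rw [mem_thickening_iff] at hyN
      obtain ⟨x, hx, hyx⟩ := hyN
      have hxb : x ∈ ball z s := by
        rw [mem_ball] at hy ⊢
        have := dist_triangle x y z
        rw [dist_comm x y] at this
        linarith
      exact hsub hxb hx
    have hdo := hloc.differentiableOn hev isOpen_ball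
    exact hdo.differentiableAt (isOpen_ball.mem_nhds (mem_ball_self (by positivity)))
  · rintro ⟨a, b, hab⟩
    set V := VR R with hV
    have hV0 : 0 ≤ V := VR_nonneg R
    have hπ : 0 < π := Real.pi_pos
    -- `f` is near the identity
    have hnear : ∀ z, ‖f z - z‖ ≤ 4 * R + V := by
      intro z
      exact le_of_tendsto ((hfp z).sub_const z).norm (Eventually.of_forall fun n => (hm n).qc.near z)
    have ha : a = 1 := by
      by_contra hne
      have h1 : 0 < ‖a - 1‖ := norm_pos_iff.2 (sub_ne_zero.2 hne)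
      set x : ℝ := (4 * R + V + ‖b‖ + 1) / ‖a - 1‖ with hx
      have h2 := hnear (x : ℂ)
      rw [hab] at h2
      have e1 : a * (x:ℂ) + b - x = (a - 1) * x + b := by ring
      rw [e1] at h2
      have h3 : ‖(a - 1) * (x:ℂ)‖ - ‖b‖ ≤ ‖(a - 1) * (x:ℂ) + b‖ := by
        have := norm_sub_norm_le ((a - 1) * (x:ℂ)) (-b)
        rw [norm_neg, sub_neg_eq_add] at this
        exact this
      rw [norm_mul, Complex.norm_real, Real.norm_of_nonneg (by positivity)] at h3
      have h4 : ‖a - 1‖ * x = 4 * R + V + ‖b‖ + 1 := by rw [hx]; field_simp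
      linarith
    have hdec : ∀ x : ℝ, 2 * R ≤ x → ‖b‖ ≤ V * x⁻¹ := by
      intro x hx
      have hx0 : 0 < x := by linarith
      have hnx : ‖(x:ℂ)‖ = x := by rw [Complex.norm_real, Real.norm_of_nonneg hx0.le]
      have h1 : ‖f x - x‖ ≤ V * x⁻¹ := by
        refine le_of_tendsto ((hfp x).sub_const (x:ℂ)).norm (Eventually.of_forall fun n => ?_)
        rw [(hm n).eq, add_sub_cancel_left]
        have h2 := P_decay (hm n).tst hR0 (z := (x:ℂ)) (by rw [hnx]; exact hx)
        rw [hnx] at h2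
        refine h2.trans ?_
        have h3 := (hm n).l1
        have h4 : 2 * π⁻¹ ≤ 1 := by
          rw [← div_eq_mul_inv, div_le_one hπ]; linarith [Real.pi_gt_three]
        have h5 : 0 ≤ ∫ ζ, ‖ν n ζ‖ := integral_nonneg fun _ => norm_nonneg _
        calc 2 * π⁻¹ * (∫ ζ, ‖ν n ζ‖) * x⁻¹ ≤ 1 * V * x⁻¹ := by gcongr
          _ = V * x⁻¹ := by ring
      rw [hab, ha] at h1
      have e1 : 1 * (x:ℂ) + b - x = b := by ring
      rwa [e1] at h1
    have hb : b = 0 := by
      by_contra hne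
      have h1 : 0 < ‖b‖ := norm_pos_iff.2 hne
      have h2 := hdec (max (2 * R) ((V + 1) / ‖b‖)) (le_max_left _ _)
      have h3 : (V + 1) / ‖b‖ ≤ max (2 * R) ((V + 1) / ‖b‖) := le_max_right _ _
      have h4 : (max (2 * R) ((V + 1) / ‖b‖))⁻¹ ≤ ((V + 1) / ‖b‖)⁻¹ :=
        inv_anti₀ (by positivity) h3
      have h5 : V * ((V + 1) / ‖b‖)⁻¹ < ‖b‖ := by
        rw [inv_div, ← mul_div_assoc, div_lt_iff₀ (by positivity)]
        nlinarith
      have h6 := mul_le_mul_of_nonneg_left h4 hV0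
      linarith
    -- the mass
    set c := volume.real E / 64 with hc
    have hc0 : 0 < c := by positivity
    set x : ℝ := max (2 * R) (4 * R * V / c) with hx
    have hx1 : 2 * R ≤ x := le_max_left _ _
    have hx2 : 4 * R * V / c ≤ x := le_max_right _ _
    have hx0 : 0 < x := by linarith
    have hnx : ‖(x:ℂ)‖ = x := by rw [Complex.norm_real, Real.norm_of_nonneg hx0.le]
    have hlow : ∀ n, c / (2 * π * x) ≤ (e n x - x).re := by
      intro n
      rw [(hm n).eq, add_sub_cancel_left]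
      have h2 := P_decay3 (hm n).tst hR0 (z := (x:ℂ)) (by rw [hnx]; exact hx1)
      rw [hnx] at h2
      have h3 : ‖P (ν n) x - ker x * ∫ ζ, ν n ζ‖ ≤ 2 * R * π⁻¹ * V * (x⁻¹) ^ 2 := by
        refine h2.trans ?_
        have := (hm n).l1
        gcongr
      have h4 : (ker x * ∫ ζ, ν n ζ).re = (π * x)⁻¹ * (∫ ζ, ν n ζ).re := by
        have : ker (x:ℂ) = (((π * x)⁻¹ : ℝ) : ℂ) := by
          unfold ker
          push_cast
          rw [mul_inv]
        rw [this, Complex.re_ofReal_mul]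
      have h5 := (Complex.abs_re_le_norm (P (ν n) x - ker x * ∫ ζ, ν n ζ)).trans h3
      rw [Complex.sub_re, h4] at h5
      have h6 := (abs_le.1 h5).1
      have h7 : (π * x)⁻¹ * c ≤ (π * x)⁻¹ * (∫ ζ, ν n ζ).re :=
        mul_le_mul_of_nonneg_left (hm n).mass (by positivity)
      have h8 : 2 * R * π⁻¹ * V * (x⁻¹) ^ 2 ≤ (π * x)⁻¹ * (c / 2) := by
        rw [div_le_iff₀ hc0] at hx2
        have e1 : 2 * R * π⁻¹ * V * (x⁻¹) ^ 2 = (π * x)⁻¹ * ((4 * R * V) * x⁻¹ / 2) := by
          rw [mul_inv]; ring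
        rw [e1]
        apply mul_le_mul_of_nonneg_left _ (by positivity)
        have : 4 * R * V * x⁻¹ ≤ c := by
          rw [← div_eq_mul_inv, div_le_iff₀ hx0]; linarith
        linarith
      have e2 : c / (2 * π * x) = (π * x)⁻¹ * c - (π * x)⁻¹ * (c / 2) := by
        field_simp; ring
      rw [e2]
      linarith
    have hlim : c / (2 * π * x) ≤ (f x - x).re :=
      ge_of_tendsto ((Complex.continuous_re.tendsto _).comp ((hfp x).sub_const (x:ℂ)))
        (Eventually.of_forall hlow)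
    rw [hab, ha, hb] at hlim
    have e3 : 1 * (x:ℂ) + 0 - x = 0 := by ring
    rw [e3, Complex.zero_re] at hlim
    have : 0 < c / (2 * π * x) := by positivity
    linarith

/-- **AREA0**: a conformally removable compact set has area zero. -/
theorem volume_zero_of_removable {E : Set ℂ} (hE : IsCompact E)
    (h : Crest.AnalysisR.IsConformallyRemovable E) : volume E = 0 := by
  by_contra hne
  have h0 : 0 < volume.real E :=
    ENNReal.toReal_pos hne hE.measure_lt_top.ne
  obtain ⟨f, hf, hna⟩ := exists_phi hE h0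
  exact hna (h f hf)

end

end Crest.Agent.R105.Ar4_222
end

-- ▼ part R105/Cen2_985

/-!
# Row 105 (S0139): CEN, part 2 (helper985)

The countable family of components and the data `Dat` of a conformal map between circle domains.
-/

set_option autoImplicit false

open Set Filter Metric Topology MeasureTheory
open Crest.AnalysisR

namespace Crest.Agent.R105.Cen_985

open Crest.Agent.R105.Ends_897 Crest.Agent.R105.Rd_557

/-- radii of disjoint discs in a set of finite area are square summable -/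
theorem summable_sq {ι : Type} {c : ι → ℂ} {r : ι → ℝ} (hr : ∀ i, 0 ≤ r i) {X : Set ℂ}
    (hX : volume X ≠ ⊤) (hd : Pairwise fun i j => Disjoint (closedBall (c i) (r i))
      (closedBall (c j) (r j))) (hs : ∀ i, closedBall (c i) (r i) ⊆ X) [Countable ι] :
    Summable fun i => r i ^ 2 := by
  have h4 : volume (⋃ i, closedBall (c i) (r i)) = ∑' i, ENNReal.ofReal (Real.pi * r i ^ 2) := by
    rw [measure_iUnion hd fun i => measurableSet_closedBall]
    congr 1
    funext i
    rw [Complex.volume_closedBall, ENNReal.ofReal_mul Real.pi_pos.le, mul_comm,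
      ENNReal.ofReal_pow (hr i)]
    congr 1
    rw [← NNReal.coe_real_pi, ENNReal.ofReal_coe_nnreal]
  have h5 : ∑' i, ENNReal.ofReal (Real.pi * r i ^ 2) ≠ ⊤ := by
    rw [← h4]
    exact ((measure_mono (iUnion_subset hs)).trans_lt (lt_top_iff_ne_top.2 hX)).ne
  have h6 : Summable fun i => Real.pi * r i ^ 2 := by
    have := ENNReal.summable_toReal h5
    refine this.congr fun i => ?_
    exact ENNReal.toReal_ofReal (by positivity)
  have h7 := h6.mul_left (Real.pi)⁻¹
  refine h7.congr fun i => ?_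
  rw [← mul_assoc, inv_mul_cancel₀ Real.pi_pos.ne', one_mul]

/-- finiteness of the energy on bounded sets -/
theorem integrableOn_deriv {U : Set ℂ} {f : ℂ → ℂ} (h : EndMap U (f '' U) f)
    (hf : DifferentiableOn ℂ f U) (T : ℝ) :
    IntegrableOn (fun z => ‖deriv f z‖ ^ 2) (U ∩ closedBall 0 T) := by
  obtain ⟨ρ, hρ⟩ := h.bdd (T + 1)
  have ho : IsOpen (U ∩ ball (0 : ℂ) (T + 1)) := h.hU.1.inter isOpen_ball
  have h1 : IntegrableOn (fun _ : ℂ => (1 : ℝ)) (f '' (U ∩ ball (0 : ℂ) (T + 1))) := by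
    refine integrableOn_const (hs := ?_)
    have hsub : f '' (U ∩ ball (0 : ℂ) (T + 1)) ⊆ closedBall 0 ρ := by
      rintro _ ⟨z, ⟨hz, hz'⟩, rfl⟩
      rw [mem_closedBall_zero_iff]
      refine hρ z hz ?_
      rw [mem_ball_zero_iff] at hz'
      exact hz'.le
    exact ((measure_mono hsub).trans_lt measure_closedBall_lt_top).ne
  rw [Pth_988.integrableOn_image ho (hf.mono inter_subset_left)
    (h.inj.mono inter_subset_left)] at h1
  simp only [mul_one] at h1
  refine h1.mono_set ?_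
  rintro z ⟨hz, hz'⟩
  refine ⟨hz, ?_⟩
  rw [mem_closedBall_zero_iff] at hz'
  rw [mem_ball_zero_iff]
  linarith

/-- the index set -/
def Idx (U : Set ℂ) (f : ℂ → ℂ) : Set (ℂ × ℝ) :=
  {p | p.1 ∉ U ∧ 0 ≤ p.2 ∧ connectedComponentIn Uᶜ p.1 = closedBall p.1 p.2 ∧
    (0 < p.2 ∨ 0 < rad U f p.1)}

section

variable {U : Set ℂ} {f : ℂ → ℂ}

theorem Idx.disj (i j : Idx U f) (hij : i ≠ j) :
    connectedComponentIn Uᶜ i.1.1 ≠ connectedComponentIn Uᶜ j.1.1 := by
  intro h
  rw [i.2.2.2.1, j.2.2.2.1] at h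
  obtain ⟨h1, h2⟩ := closedBall_inj i.2.2.1 j.2.2.1 h
  exact hij (Subtype.ext (Prod.ext h1 h2))

theorem cc_disjoint {z z' : ℂ} (h : connectedComponentIn Uᶜ z ≠ connectedComponentIn Uᶜ z') :
    Disjoint (connectedComponentIn Uᶜ z) (connectedComponentIn Uᶜ z') := by
  rw [disjoint_left]
  intro w hw hw'
  exact h ((connectedComponentIn_eq hw).trans (connectedComponentIn_eq hw').symm)

theorem Idx.countable (h : EndMap U (f '' U) f) (hV : IsCircleDomainFinitePart (f '' U)) :
    (Idx U f).Countable := by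
  have h1 : {p ∈ Idx U f | 0 < p.2}.Countable := by
    refine PairwiseDisjoint.countable_of_nonempty_interior (s := fun p : ℂ × ℝ =>
      closedBall p.1 p.2) ?_ ?_
    · intro p hp q hq hpq
      have := cc_disjoint (Idx.disj ⟨p, hp.1⟩ ⟨q, hq.1⟩ (fun he => hpq (congrArg Subtype.val he)))
      rwa [hp.1.2.2.1, hq.1.2.2.1] at this
    · intro p hp
      rw [interior_closedBall _ hp.2.ne']
      exact ⟨p.1, mem_ball_self hp.2⟩
  have h2 : {p ∈ Idx U f | 0 < rad U f p.1}.Countable := by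
    refine PairwiseDisjoint.countable_of_nonempty_interior (s := fun p : ℂ × ℝ =>
      closedBall (cen U f p.1) (rad U f p.1)) ?_ ?_
    · intro p hp q hq hpq
      exact disjoint_image h hV hp.1.1 hq.1.1
        (Idx.disj ⟨p, hp.1⟩ ⟨q, hq.1⟩ (fun he => hpq (congrArg Subtype.val he)))
    · intro p hp
      rw [interior_closedBall _ hp.2.ne']
      exact ⟨_, mem_ball_self hp.2⟩
  refine (h1.union h2).mono fun p hp => ?_
  rcases hp.2.2.2 with h3 | h3
  · exact Or.inl ⟨hp, h3⟩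
  · exact Or.inr ⟨hp, h3⟩

/-- a point of the complement outside the listed components is a point component with a point
image -/
theorem dust_spec (h : EndMap U (f '' U) f) (hU : IsCircleDomainFinitePart U)
    (hV : IsCircleDomainFinitePart (f '' U)) {z : ℂ} (hz : z ∉ U)
    (hn : ∀ i : Idx U f, z ∉ closedBall i.1.1 i.1.2) :
    connectedComponentIn Uᶜ z = {z} ∧ rad U f z = 0 := by
  obtain ⟨c, r, hr, hc⟩ := hU.2 z hz
  have hcm : c ∈ connectedComponentIn Uᶜ z := by rw [hc]; exact mem_closedBall_self hr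
  have hcU : c ∉ U := connectedComponentIn_subset _ _ hcm
  have hce : connectedComponentIn Uᶜ c = closedBall c r := by
    rw [← connectedComponentIn_eq hcm, hc]
  have hcr := cen_congr h hV hz hcU (by rw [hc, hce])
  have hnot : (c, r) ∉ Idx U f := by
    intro hm
    refine hn ⟨(c, r), hm⟩ ?_
    show z ∈ closedBall c r
    rw [← hc]
    exact mem_connectedComponentIn hz
  have h1 : ¬ (0 < r ∨ 0 < rad U f c) := fun hh => hnot ⟨hcU, hr, hce, hh⟩
  push Not at h1
  have hr0 : r = 0 := le_antisymm h1.1 hr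
  have hz0 : z ∈ closedBall c r := by rw [← hc]; exact mem_connectedComponentIn hz
  rw [hr0, closedBall_zero] at hz0
  have hzc : z = c := hz0
  refine ⟨?_, ?_⟩
  · rw [hc, hr0, closedBall_zero, hzc]
  · rw [hcr.2]
    exact le_antisymm h1.2 (rad_nonneg h hV hcU)

theorem comp_spec (i : Idx U f) {z : ℂ} (hz : z ∈ closedBall i.1.1 i.1.2) :
    z ∉ U ∧ connectedComponentIn Uᶜ z = closedBall i.1.1 i.1.2 := by
  have h1 : z ∈ connectedComponentIn Uᶜ i.1.1 := by rw [i.2.2.2.1]; exact hz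
  refine ⟨connectedComponentIn_subset _ _ h1, ?_⟩
  rw [← connectedComponentIn_eq h1, i.2.2.2.1]

theorem mem_frontier_of_cc {z : ℂ} (hz : z ∉ U)
    (h : connectedComponentIn Uᶜ z = {z}) : z ∈ frontier U := by
  rw [← frontier_compl]
  refine ⟨subset_closure hz, fun hi => ?_⟩
  obtain ⟨ε, hε, hb⟩ := Metric.isOpen_iff.1 isOpen_interior z hi
  have h1 : ball z ε ⊆ connectedComponentIn Uᶜ z :=
    (convex_ball z ε).isPreconnected.subset_connectedComponentIn (mem_ball_self hε)
      (hb.trans interior_subset)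
  rw [h] at h1
  have h2 : z + ((ε / 2 : ℝ) : ℂ) ∈ ball z ε := by
    rw [mem_ball, dist_eq_norm, add_sub_cancel_left, Complex.norm_real, Real.norm_eq_abs,
      abs_of_pos (half_pos hε)]
    exact half_lt_self hε
  have h3 : z + ((ε / 2 : ℝ) : ℂ) = z := h1 h2
  have h4 : ((ε / 2 : ℝ) : ℂ) = 0 := by
    have := congrArg (fun w => w - z) h3
    simpa using this
  have h5 : ε / 2 = 0 := by exact_mod_cast h4
  linarith

/-- **CEN** -/
theorem cenP : CenP := by
  intro U V hU hV hrem f hf hinj hUV hinf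
  subst hUV
  have hE : EndMap U (f '' U) f := EndMap.of_holo hU.1 hf hinj
    (Crest.Agent.R105.Red_828.tendsto_cocompact_of_tendsto_sub hinf)
  obtain ⟨L0, hL0⟩ := hU.1.2.2
  have hL : Uᶜ ⊆ closedBall 0 (max L0 1) := by
    intro z hz
    rw [mem_closedBall_zero_iff]
    by_contra hcon
    exact hz (hL0 z (lt_of_le_of_lt (le_max_left _ _) (not_le.1 hcon)))
  have hfr : IsCompact (frontier U) := by
    rw [← frontier_compl]
    exact (isCompact_compl hU.1).of_isClosed_subset isClosed_frontier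
      (by
        have := frontier_subset_closure (s := Uᶜ)
        rwa [hU.1.1.isClosed_compl.closure_eq] at this)
  have hnul : volume (frontier U) = 0 := Ar4_222.volume_zero_of_removable hfr hrem
  have hcnt : Countable (Idx U f) := (Idx.countable hE hV).to_subtype
  have hdisj : Pairwise fun i j : Idx U f =>
      Disjoint (closedBall i.1.1 i.1.2) (closedBall j.1.1 j.1.2) := by
    intro i j hij
    have := cc_disjoint (Idx.disj i j hij)
    rwa [i.2.2.2.1, j.2.2.2.1] at this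
  have hdisj' : Pairwise fun i j : Idx U f =>
      Disjoint (closedBall (cen U f i.1.1) (rad U f i.1.1))
        (closedBall (cen U f j.1.1) (rad U f j.1.1)) := by
    intro i j hij
    exact disjoint_image hE hV i.2.1 j.2.1 (Idx.disj i j hij)
  have hR0 : ∀ i : Idx U f, 0 ≤ rad U f i.1.1 := fun i => rad_nonneg hE hV i.2.1
  have hfin : ∀ {W : Set ℂ}, IsExteriorDomain W → volume Wᶜ ≠ ⊤ := fun hW =>
    (isCompact_compl hW).measure_lt_top.ne
  have hsr : Summable fun i : Idx U f => i.1.2 ^ 2 :=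
    summable_sq (c := fun i : Idx U f => i.1.1) (fun i => i.2.2.1) (hfin hU.1) hdisj
      (fun i z hz => (comp_spec i hz).1)
  have hsR : Summable fun i : Idx U f => rad U f i.1.1 ^ 2 :=
    summable_sq (c := fun i : Idx U f => cen U f i.1.1) hR0 (hfin hV.1) hdisj'
      (fun i => image_subset hE hV i.2.1)
  have hval : ∀ i : Idx U f, ∀ z ∈ closedBall i.1.1 i.1.2, ext U f z = cen U f i.1.1 := by
    intro i z hz
    obtain ⟨h1, h2⟩ := comp_spec i hz
    rw [ext_of_not_mem h1]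
    exact (cen_congr hE hV h1 i.2.1 (by rw [h2, i.2.2.2.1])).1
  have hnearC : ∀ i : Idx U f, ∀ ε > 0, ∃ N : Set ℂ, IsOpen N ∧ closedBall i.1.1 i.1.2 ⊆ N ∧
      ∀ w ∈ N, ‖ext U f w - cen U f i.1.1‖ ≤ rad U f i.1.1 + ε := by
    intro i ε hε
    obtain ⟨N, h1, h2, h3⟩ := near hE hV i.2.1 hε
    rw [i.2.2.2.1] at h2
    exact ⟨N, h1, h2, h3⟩
  have hdust : ∀ z ∉ U, (∀ i : Idx U f, z ∉ closedBall i.1.1 i.1.2) →
      connectedComponentIn Uᶜ z = {z} ∧ ContinuousAt (ext U f) z := by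
    intro z hz hn
    obtain ⟨h1, h2⟩ := dust_spec hE hU hV hz hn
    exact ⟨h1, continuousAt_ext hE hV hz h2⟩
  have hC1 : ContDiffOn ℝ 1 (ext U f) U := by
    have h1 : ContDiffOn ℂ 1 f U := hf.contDiffOn hU.1.1
    have h2 : ContDiffOn ℝ 1 f U := h1.restrict_scalars ℝ
    exact h2.congr fun z hz => ext_of_mem hz
  have mk : ∀ (ℓ : ℂ →L[ℝ] ℝ), (∀ w, |ℓ w| ≤ ‖w‖) → DatR U (max L0 1)
      (fun i : Idx U f => i.1.1) (fun i => i.1.2) (fun i => ℓ (cen U f i.1.1))
      (fun i => rad U f i.1.1) (fun z => ℓ (ext U f z)) := by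
    intro ℓ hℓ
    refine ⟨hU.1, hL, hcnt, fun i => i.2.2.1, hR0, fun i => i.2.2.2.2, fun i z hz =>
      comp_spec i hz, hdisj, ?_, ?_, ?_, ?_, hsr, hsR⟩
    · intro z hz hn
      obtain ⟨h1, h2⟩ := hdust z hz hn
      exact ⟨h1, ℓ.continuous.continuousAt.comp h2⟩
    · intro i z hz
      simp only [hval i z hz]
    · intro i ε hε
      obtain ⟨N, h1, h2, h3⟩ := hnearC i ε hε
      refine ⟨N, h1, h2, fun w hw => ?_⟩
      rw [← map_sub]
      exact (hℓ _).trans (h3 w hw)
    · exact ℓ.contDiff.comp_contDiffOn hC1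
  refine ⟨max L0 1, Idx U f, fun i => i.1.1, fun i => i.1.2, fun i => cen U f i.1.1,
    fun i => rad U f i.1.1, ext U f, ?_⟩
  exact {
    re := mk Complex.reCLM (fun w => Complex.abs_re_le_norm w)
    im := mk Complex.imCLM (fun w => Complex.abs_im_le_norm w)
    hf := hf
    inj := hinj
    inf := hinf
    eq := fun z hz => ext_of_mem hz
    nearC := hnearC
    en := integrableOn_deriv hE hf
    nul := hnul
    vol := fun z hz hn => mem_frontier_of_cc hz (hdust z hz hn).1
    disj' := hdisj'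
    img := fun i => image_subset hE hV i.2.1 }

end

end Crest.Agent.R105.Cen_985
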