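import Crest.Agent.R105.Thin1_891

-- ▼ part R105/Thin2_891
section

/-!
Row 105, leaf LIB-THIN (task 2222), part 2: the brick wall (half-shifted grid) of mesh `s` in
`ℝ × ℝ`: cells, unions of cells (`poly s A`), their interiors and closures, connectedness.
At most three cells meet at a point, and two cells which meet share an edge, so the interior of a
connected union of cells is connected.
-/

set_option autoImplicit false

open Set Metric Topology

namespace Crest.Agent.R105.Thin_891

/-- the left end of the brick `a` in the wall of mesh `s`. -/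
noncomputable def lft (s : ℝ) (a : ℤ × ℤ) : ℝ := ((a.1 : ℝ) + (a.2 : ℝ) / 2) * s

/-- closed brick. -/
def cell (s : ℝ) (a : ℤ × ℤ) : Set (ℝ × ℝ) :=
  Icc (lft s a) (lft s a + s) ×ˢ Icc ((a.2 : ℝ) * s) ((a.2 : ℝ) * s + s)

/-- open brick. -/
def ocell (s : ℝ) (a : ℤ × ℤ) : Set (ℝ × ℝ) :=
  Ioo (lft s a) (lft s a + s) ×ˢ Ioo ((a.2 : ℝ) * s) ((a.2 : ℝ) * s + s)

/-- union of the closed bricks with index in `A`. -/
def poly (s : ℝ) (A : Set (ℤ × ℤ)) : Set (ℝ × ℝ) := ⋃ a ∈ A, cell s a

variable {s : ℝ} {a b : ℤ × ℤ} {A B : Set (ℤ × ℤ)} {z w : ℝ × ℝ}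

theorem mem_cell : z ∈ cell s a ↔
    (lft s a ≤ z.1 ∧ z.1 ≤ lft s a + s) ∧ ((a.2 : ℝ) * s ≤ z.2 ∧ z.2 ≤ (a.2 : ℝ) * s + s) :=
  Iff.rfl

theorem mem_ocell : z ∈ ocell s a ↔
    (lft s a < z.1 ∧ z.1 < lft s a + s) ∧ ((a.2 : ℝ) * s < z.2 ∧ z.2 < (a.2 : ℝ) * s + s) :=
  Iff.rfl

theorem mem_poly : z ∈ poly s A ↔ ∃ a ∈ A, z ∈ cell s a := by simp [poly]

theorem isCompact_cell : IsCompact (cell s a) := isCompact_Icc.prod isCompact_Icc

theorem convex_cell : Convex ℝ (cell s a) := (convex_Icc _ _).prod (convex_Icc _ _)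

theorem convex_ocell : Convex ℝ (ocell s a) := (convex_Ioo _ _).prod (convex_Ioo _ _)

theorem isOpen_ocell : IsOpen (ocell s a) := isOpen_Ioo.prod isOpen_Ioo

theorem ocell_subset_cell : ocell s a ⊆ cell s a :=
  prod_mono Ioo_subset_Icc_self Ioo_subset_Icc_self

theorem closure_ocell (hs : 0 < s) : closure (ocell s a) = cell s a := by
  rw [ocell, closure_prod_eq, closure_Ioo (by linarith), closure_Ioo (by linarith)]; rfl

theorem ocell_nonempty (hs : 0 < s) : (ocell s a).Nonempty :=
  ⟨(lft s a + s / 2, (a.2 : ℝ) * s + s / 2), by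
    rw [mem_ocell]; constructor <;> constructor <;> simp <;> linarith⟩

theorem cell_nonempty (hs : 0 < s) : (cell s a).Nonempty :=
  (ocell_nonempty hs).mono ocell_subset_cell

/-- two bricks which meet are equal or neighbours. -/
theorem near_of_lt (hs : 0 < s) (h1 : lft s a < lft s b + s) (h2 : lft s b < lft s a + s)
    (h3 : (a.2 : ℝ) * s < (b.2 : ℝ) * s + s) (h4 : (b.2 : ℝ) * s < (a.2 : ℝ) * s + s) : a = b := by
  have e : a.2 = b.2 := by
    have h5 : (a.2 : ℝ) < b.2 + 1 := by
      by_contra h; push Not at h; nlinarith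
    have h6 : (b.2 : ℝ) < a.2 + 1 := by
      by_contra h; push Not at h; nlinarith
    have h5' : a.2 < b.2 + 1 := by exact_mod_cast h5
    have h6' : b.2 < a.2 + 1 := by exact_mod_cast h6
    omega
  have e' : a.1 = b.1 := by
    unfold lft at h1 h2
    rw [e] at h1 h2
    have h5 : (a.1 : ℝ) < b.1 + 1 := by
      by_contra h; push Not at h; nlinarith
    have h6 : (b.1 : ℝ) < a.1 + 1 := by
      by_contra h; push Not at h; nlinarith
    have h5' : a.1 < b.1 + 1 := by exact_mod_cast h5
    have h6' : b.1 < a.1 + 1 := by exact_mod_cast h6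
    omega
  exact Prod.ext e' e

theorem eq_of_mem_ocell_cell (hs : 0 < s) (h1 : z ∈ ocell s a) (h2 : z ∈ cell s b) : a = b := by
  rw [mem_ocell] at h1
  rw [mem_cell] at h2
  exact near_of_lt hs (by linarith) (by linarith) (by linarith) (by linarith)


/-- the bricks cover the plane. -/
theorem exists_mem_cell (hs : 0 < s) (z : ℝ × ℝ) : ∃ a, z ∈ cell s a := by
  set j : ℤ := ⌊z.2 / s⌋ with hj
  set i : ℤ := ⌊z.1 / s - (j : ℝ) / 2⌋ with hi
  have h1 : (j : ℝ) ≤ z.2 / s := Int.floor_le _
  have h2 : z.2 / s < j + 1 := Int.lt_floor_add_one _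
  have h3 : (i : ℝ) ≤ z.1 / s - (j : ℝ) / 2 := Int.floor_le _
  have h4 : z.1 / s - (j : ℝ) / 2 < i + 1 := Int.lt_floor_add_one _
  have e1 : z.2 / s * s = z.2 := div_mul_cancel₀ _ hs.ne'
  have e2 : z.1 / s * s = z.1 := div_mul_cancel₀ _ hs.ne'
  refine ⟨(i, j), ?_⟩
  rw [mem_cell]
  simp only [lft]
  refine ⟨⟨?_, ?_⟩, ?_, ?_⟩ <;> nlinarith

theorem dist_le_of_mem_cell (hz : z ∈ cell s a) (hw : w ∈ cell s a) :
    dist z w ≤ s := by
  rw [mem_cell] at hz hw
  rw [Prod.dist_eq, Real.dist_eq, Real.dist_eq]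
  refine max_le ?_ ?_ <;> rw [abs_le] <;> constructor <;> linarith

theorem locallyFinite_cell (hs : 0 < s) : LocallyFinite (cell s) := by
  intro z
  refine ⟨ball z s, ball_mem_nhds z hs, ?_⟩
  set J : ℤ := ⌊z.2 / s⌋
  set I : ℤ := ⌊z.1 / s⌋
  have h1 : (J : ℝ) ≤ z.2 / s := Int.floor_le _
  have h2 : z.2 / s < J + 1 := Int.lt_floor_add_one _
  have h3 : (I : ℝ) ≤ z.1 / s := Int.floor_le _
  have h4 : z.1 / s < I + 1 := Int.lt_floor_add_one _
  have e1 : z.2 / s * s = z.2 := div_mul_cancel₀ _ hs.ne'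
  have e2 : z.1 / s * s = z.1 := div_mul_cancel₀ _ hs.ne'
  have hfin : ((Icc (I - |J| - 6) (I + |J| + 6)) ×ˢ (Icc (J - 3) (J + 3)) : Set (ℤ × ℤ)).Finite :=
    (finite_Icc _ _).prod (finite_Icc _ _)
  refine hfin.subset ?_
  rintro a ⟨w, hw, hwz⟩
  rw [mem_cell] at hw
  rw [mem_ball, Prod.dist_eq, Real.dist_eq, Real.dist_eq, max_lt_iff, abs_lt, abs_lt] at hwz
  obtain ⟨⟨h5, h6⟩, h7, h8⟩ := hw
  obtain ⟨⟨h9, h10⟩, h11, h12⟩ := hwz
  have k1 : (a.2 : ℝ) < J + 2 := by
    by_contra h; push Not at h; nlinarith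
  have k2 : (J : ℝ) < a.2 + 2 := by
    by_contra h; push Not at h; nlinarith
  have k1' : a.2 < J + 2 := by exact_mod_cast k1
  have k2' : J < a.2 + 2 := by exact_mod_cast k2
  have k3 : (a.1 : ℝ) + (a.2 : ℝ) / 2 < I + 2 := by
    by_contra h; push Not at h; unfold lft at h5; nlinarith
  have k4 : (I : ℝ) < (a.1 : ℝ) + (a.2 : ℝ) / 2 + 2 := by
    by_contra h; push Not at h; unfold lft at h6; nlinarith
  have k3' : 2 * a.1 + a.2 < 2 * I + 4 := by
    have : (2 * a.1 + a.2 : ℝ) < 2 * I + 4 := by linarith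
    exact_mod_cast this
  have k4' : 2 * I < 2 * a.1 + a.2 + 4 := by
    have : (2 * I : ℝ) < 2 * a.1 + a.2 + 4 := by linarith
    exact_mod_cast this
  have k5 := le_abs_self J
  have k6 := neg_abs_le J
  refine ⟨⟨?_, ?_⟩, ?_, ?_⟩ <;> omega

theorem isClosed_poly (hs : 0 < s) (A : Set (ℤ × ℤ)) : IsClosed (poly s A) := by
  have : poly s A = ⋃ a : A, cell s a.1 := by simp [poly]
  rw [this]
  exact ((locallyFinite_cell hs).comp_injective Subtype.coe_injective).isClosed_iUnion
    fun a => isCompact_cell.isClosed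

theorem isCompact_poly (hA : A.Finite) : IsCompact (poly s A) :=
  hA.isCompact_biUnion fun _ _ => isCompact_cell

theorem poly_mono (h : A ⊆ B) : poly s A ⊆ poly s B := biUnion_subset_biUnion_left h


theorem cell_subset_poly (ha : a ∈ A) : cell s a ⊆ poly s A := subset_biUnion_of_mem ha

theorem compl_poly_subset (hs : 0 < s) (A : Set (ℤ × ℤ)) : (poly s A)ᶜ ⊆ poly s Aᶜ := by
  intro z hz
  obtain ⟨a, ha⟩ := exists_mem_cell hs z
  exact mem_poly.2 ⟨a, fun h => hz (mem_poly.2 ⟨a, h, ha⟩), ha⟩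

theorem ocell_subset_interior_poly (ha : a ∈ A) : ocell s a ⊆ interior (poly s A) :=
  interior_maximal (ocell_subset_cell.trans (cell_subset_poly ha)) isOpen_ocell

theorem interior_poly (hs : 0 < s) (A : Set (ℤ × ℤ)) : interior (poly s A) = (poly s Aᶜ)ᶜ := by
  apply Subset.antisymm
  · intro z hz hz'
    obtain ⟨b, hb, hzb⟩ := mem_poly.1 hz'
    rw [← closure_ocell hs] at hzb
    obtain ⟨w, hw1, hw2⟩ := mem_closure_iff.1 hzb _ isOpen_interior hz
    obtain ⟨a, ha, hwa⟩ := mem_poly.1 (interior_subset hw1)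
    have := eq_of_mem_ocell_cell hs hw2 hwa
    exact hb (this ▸ ha)
  · apply interior_maximal _ (isClosed_poly hs _).isOpen_compl
    intro z hz
    by_contra h
    exact hz (compl_poly_subset hs A h)

theorem mem_interior_poly (hs : 0 < s) : z ∈ interior (poly s A) ↔ ∀ a, z ∈ cell s a → a ∈ A := by
  rw [interior_poly hs, mem_compl_iff, mem_poly]
  constructor
  · intro h a ha
    by_contra hcon
    exact h ⟨a, hcon, ha⟩
  · rintro h ⟨a, ha, hz⟩
    exact ha (h a hz)

theorem closure_interior_poly (hs : 0 < s) (A : Set (ℤ × ℤ)) :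
    closure (interior (poly s A)) = poly s A := by
  apply Subset.antisymm
  · exact (isClosed_poly hs A).closure_subset_iff.2 interior_subset
  · intro z hz
    obtain ⟨a, ha, hza⟩ := mem_poly.1 hz
    rw [← closure_ocell hs] at hza
    exact closure_mono (ocell_subset_interior_poly ha) hza

theorem frontier_interior_poly (hs : 0 < s) (A : Set (ℤ × ℤ)) :
    frontier (interior (poly s A)) = frontier (poly s A) := by
  rw [frontier, closure_interior_poly hs, interior_interior, frontier,
    (isClosed_poly hs A).closure_eq]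

theorem cell_inter_poly (hs : 0 < s) : (ocell s a ∩ poly s A).Nonempty ↔ a ∈ A := by
  constructor
  · rintro ⟨w, hw, hw'⟩
    obtain ⟨b, hb, hwb⟩ := mem_poly.1 hw'
    exact (eq_of_mem_ocell_cell hs hw hwb) ▸ hb
  · intro h
    obtain ⟨w, hw⟩ := ocell_nonempty (a := a) hs
    exact ⟨w, hw, cell_subset_poly h (ocell_subset_cell hw)⟩



/-- the bricks meeting a set. -/
def meeting (s : ℝ) (F : Set (ℝ × ℝ)) : Set (ℤ × ℤ) := {a | (cell s a ∩ F).Nonempty}

theorem finite_meeting (hs : 0 < s) {F : Set (ℝ × ℝ)} (hF : IsCompact F) :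
    (meeting s F).Finite :=
  (locallyFinite_cell hs).finite_nonempty_inter_compact hF


theorem exists_dist_le_of_mem_poly_meeting {F : Set (ℝ × ℝ)}
    (hz : z ∈ poly s (meeting s F)) : ∃ w ∈ F, dist z w ≤ s := by
  obtain ⟨a, ⟨w, hw, hwF⟩, hza⟩ := mem_poly.1 hz
  exact ⟨w, hwF, dist_le_of_mem_cell hza hw⟩

theorem poly_meeting_subset_cthickening (F : Set (ℝ × ℝ)) :
    poly s (meeting s F) ⊆ cthickening s F := by
  intro z hz
  obtain ⟨w, hw, hd⟩ := exists_dist_le_of_mem_poly_meeting hz
  exact mem_cthickening_of_dist_le z w s F hw hd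

/-- auxiliary: a rectangle with lower left corner `(p, q)` and side `s`. -/
theorem edge_aux (hs : 0 < s) {p q p' q' : ℝ}
    (h : (q' = q + s ∧ (p' = p + s / 2 ∨ p' = p - s / 2)) ∨ (q' = q ∧ p' = p + s)) :
    ∃ e : ℝ × ℝ, e ∈ Icc p (p + s) ×ˢ Icc q (q + s) ∧ e ∈ Icc p' (p' + s) ×ˢ Icc q' (q' + s) ∧
      e ∈ interior (Icc p (p + s) ×ˢ Icc q (q + s) ∪ Icc p' (p' + s) ×ˢ Icc q' (q' + s)) := by
  have key : ∀ e1 e2 : ℝ,
      (∀ x y : ℝ, -(s / 4) < x - e1 → x - e1 < s / 4 → -(s / 4) < y - e2 → y - e2 < s / 4 →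
        ((p ≤ x ∧ x ≤ p + s) ∧ (q ≤ y ∧ y ≤ q + s)) ∨
        ((p' ≤ x ∧ x ≤ p' + s) ∧ (q' ≤ y ∧ y ≤ q' + s))) →
      ((e1, e2) : ℝ × ℝ) ∈
        interior (Icc p (p + s) ×ˢ Icc q (q + s) ∪ Icc p' (p' + s) ×ˢ Icc q' (q' + s)) := by
    intro e1 e2 H
    rw [mem_interior]
    refine ⟨ball _ (s / 4), ?_, isOpen_ball, mem_ball_self (by linarith)⟩
    intro v hv
    rw [mem_ball, Prod.dist_eq, Real.dist_eq, Real.dist_eq, max_lt_iff, abs_lt, abs_lt] at hv
    obtain ⟨⟨q1, q2⟩, q3, q4⟩ := hv
    exact H v.1 v.2 q1 q2 q3 q4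
  rcases h with ⟨rfl, rfl | rfl⟩ | ⟨rfl, rfl⟩
  · refine ⟨(p + 3 / 4 * s, q + s), ⟨⟨?_, ?_⟩, ?_, ?_⟩, ⟨⟨?_, ?_⟩, ?_, ?_⟩, key _ _ ?_⟩
    all_goals try (simp only; linarith)
    intro x y h1 h2 h3 h4
    rcases le_total y (q + s) with h | h
    · left; refine ⟨⟨?_, ?_⟩, ?_, ?_⟩ <;> linarith
    · right; refine ⟨⟨?_, ?_⟩, ?_, ?_⟩ <;> linarith
  · refine ⟨(p + 1 / 4 * s, q + s), ⟨⟨?_, ?_⟩, ?_, ?_⟩, ⟨⟨?_, ?_⟩, ?_, ?_⟩, key _ _ ?_⟩
    all_goals try (simp only; linarith)
    intro x y h1 h2 h3 h4
    rcases le_total y (q + s) with h | h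
    · left; refine ⟨⟨?_, ?_⟩, ?_, ?_⟩ <;> linarith
    · right; refine ⟨⟨?_, ?_⟩, ?_, ?_⟩ <;> linarith
  · refine ⟨(p + s, q' + s / 2), ⟨⟨?_, ?_⟩, ?_, ?_⟩, ⟨⟨?_, ?_⟩, ?_, ?_⟩, key _ _ ?_⟩
    all_goals try (simp only; linarith)
    intro x y h1 h2 h3 h4
    rcases le_total x (p + s) with h | h
    · left; refine ⟨⟨?_, ?_⟩, ?_, ?_⟩ <;> linarith
    · right; refine ⟨⟨?_, ?_⟩, ?_, ?_⟩ <;> linarith

/-- two bricks which meet share an edge: there is a point in the interior of the union which is in
both bricks. -/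
theorem exists_edge_point (hs : 0 < s) (h : (cell s a ∩ cell s b).Nonempty) :
    ∃ e, e ∈ cell s a ∧ e ∈ cell s b ∧ e ∈ interior (cell s a ∪ cell s b) := by
  obtain ⟨w, hwa, hwb⟩ := h
  rw [mem_cell] at hwa hwb
  obtain ⟨⟨h1, h2⟩, h3, h4⟩ := hwa
  obtain ⟨⟨h5, h6⟩, h7, h8⟩ := hwb
  -- symmetric formulation
  have main : ∀ a b : ℤ × ℤ, (lft s b ≤ lft s a + s) → (lft s a ≤ lft s b + s) →
      (b.2 : ℝ) * s ≤ (a.2 : ℝ) * s + s →
      (a.2 < b.2 ∨ (a.2 = b.2 ∧ a.1 ≤ b.1)) →
      ∃ e, e ∈ cell s a ∧ e ∈ cell s b ∧ e ∈ interior (cell s a ∪ cell s b) := by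
    intro a b g1 g2 g3 g4
    rcases g4 with g4 | ⟨g4, g5⟩
    · -- `b` is in the next row
      have k1 : (b.2 : ℝ) ≤ a.2 + 1 := by
        by_contra h; push Not at h; nlinarith
      have k1' : b.2 ≤ a.2 + 1 := by exact_mod_cast k1
      have k2 : b.2 = a.2 + 1 := by omega
      have k2r : (b.2 : ℝ) = a.2 + 1 := by rw [k2]; push_cast; ring
      unfold lft at g1 g2
      rw [k2r] at g1 g2
      have k3 : (b.1 : ℝ) + 1 / 2 ≤ a.1 + 1 := by
        by_contra h; push Not at h; nlinarith
      have k4 : (a.1 : ℝ) ≤ b.1 + 1 / 2 + 1 := by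
        by_contra h; push Not at h; nlinarith
      have k3' : 2 * b.1 + 1 ≤ 2 * a.1 + 2 := by
        have : (2 * b.1 + 1 : ℝ) ≤ 2 * a.1 + 2 := by linarith
        exact_mod_cast this
      have k4' : 2 * a.1 ≤ 2 * b.1 + 3 := by
        have : (2 * a.1 : ℝ) ≤ 2 * b.1 + 3 := by linarith
        exact_mod_cast this
      have k5 : b.1 = a.1 ∨ b.1 = a.1 - 1 := by omega
      apply edge_aux hs
      left
      refine ⟨by rw [k2r]; ring, ?_⟩
      rcases k5 with k5 | k5
      · left
        have k5r : (b.1 : ℝ) = a.1 := by rw [k5]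
        simp only [lft, k2r, k5r]; ring
      · right
        have k5r : (b.1 : ℝ) = a.1 - 1 := by rw [k5]; push_cast; ring
        simp only [lft, k2r, k5r]; ring
    · -- same row
      have g4r : (b.2 : ℝ) = a.2 := by rw [g4]
      unfold lft at g1 g2
      rw [g4r] at g1 g2
      have k3 : (b.1 : ℝ) ≤ a.1 + 1 := by
        by_contra h; push Not at h; nlinarith
      have k3' : b.1 ≤ a.1 + 1 := by exact_mod_cast k3
      rcases eq_or_lt_of_le g5 with g6 | g6
      · have : a = b := Prod.ext g6 g4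
        subst this
        obtain ⟨w, hw⟩ := ocell_nonempty (a := a) hs
        refine ⟨w, ocell_subset_cell hw, ocell_subset_cell hw, ?_⟩
        exact interior_mono subset_union_left (interior_maximal ocell_subset_cell isOpen_ocell hw)
      · have k5 : b.1 = a.1 + 1 := by omega
        have k5r : (b.1 : ℝ) = a.1 + 1 := by rw [k5]; push_cast; ring
        apply edge_aux hs
        right
        refine ⟨by rw [g4r], ?_⟩
        simp only [lft, g4r, k5r]; ring
  rcases lt_trichotomy a.2 b.2 with h | h | h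
  · exact main a b (by linarith) (by linarith) (by linarith) (Or.inl h)
  · rcases le_total a.1 b.1 with h' | h'
    · exact main a b (by linarith) (by linarith) (by linarith) (Or.inr ⟨h, h'⟩)
    · obtain ⟨e, e1, e2, e3⟩ :=
        main b a (by linarith) (by linarith) (by linarith) (Or.inr ⟨h.symm, h'⟩)
      exact ⟨e, e2, e1, by rwa [union_comm]⟩
  · obtain ⟨e, e1, e2, e3⟩ :=
      main b a (by linarith) (by linarith) (by linarith) (Or.inl h)
    exact ⟨e, e2, e1, by rwa [union_comm]⟩

/-- the union of two open bricks which meet in the closure, with a point of the common edge. -/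
theorem exists_preconnected_of_meet (hs : 0 < s) (h : (cell s a ∩ cell s b).Nonempty)
    (ha : a ∈ A) (hb : b ∈ A) :
    ∃ S, IsPreconnected S ∧ S ⊆ interior (poly s A) ∧ ocell s a ⊆ S ∧ ocell s b ⊆ S := by
  obtain ⟨e, e1, e2, e3⟩ := exists_edge_point hs h
  have h1 : ∀ c, e ∈ cell s c → IsPreconnected (insert e (ocell s c)) := by
    intro c hc
    refine (convex_ocell (s := s) (a := c)).isPreconnected.subset_closure (subset_insert _ _) ?_
    rw [closure_ocell hs]
    exact insert_subset hc ocell_subset_cell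
  have h2 : e ∈ interior (poly s A) :=
    interior_mono (union_subset (cell_subset_poly ha) (cell_subset_poly hb)) e3
  refine ⟨insert e (ocell s a) ∪ insert e (ocell s b), ?_, ?_, ?_, ?_⟩
  · exact (h1 a e1).union e (mem_insert _ _) (mem_insert _ _) (h1 b e2)
  · exact union_subset (insert_subset h2 (ocell_subset_interior_poly ha))
      (insert_subset h2 (ocell_subset_interior_poly hb))
  · exact (subset_insert _ _).trans subset_union_left
  · exact (subset_insert _ _).trans subset_union_right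

/-- every point of the interior of a union of bricks is in the component of an open brick. -/
theorem exists_ocell_subset_component (hs : 0 < s) (hz : z ∈ interior (poly s A)) :
    ∃ a ∈ A, z ∈ cell s a ∧ ocell s a ⊆ connectedComponentIn (interior (poly s A)) z := by
  obtain ⟨a, ha, hza⟩ := mem_poly.1 (interior_subset hz)
  refine ⟨a, ha, hza, ?_⟩
  have h1 : IsPreconnected (insert z (ocell s a)) := by
    refine (convex_ocell (s := s) (a := a)).isPreconnected.subset_closure (subset_insert _ _) ?_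
    rw [closure_ocell hs]
    exact insert_subset hza ocell_subset_cell
  exact (subset_insert _ _).trans (h1.subset_connectedComponentIn (mem_insert _ _)
    (insert_subset hz (ocell_subset_interior_poly ha)))

/-- the interior of a connected union of bricks is connected. -/
theorem isPreconnected_interior_poly (hs : 0 < s) (hA : IsPreconnected (poly s A)) :
    IsPreconnected (interior (poly s A)) := by
  classical
  rcases (interior (poly s A)).eq_empty_or_nonempty with h0 | ⟨x, hx⟩
  · rw [h0]; exact isPreconnected_empty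
  obtain ⟨a₀, ha₀, hxa₀, hsub₀⟩ := exists_ocell_subset_component hs hx
  -- the bricks whose interior is in the component of `x`
  let C := connectedComponentIn (interior (poly s A)) x
  let A₁ : Set (ℤ × ℤ) := {a | a ∈ A ∧ ocell s a ⊆ C}
  let A₂ : Set (ℤ × ℤ) := {a | a ∈ A ∧ ¬ ocell s a ⊆ C}
  have hCpre : IsPreconnected C := isPreconnected_connectedComponentIn
  have hdis : Disjoint (poly s A₁) (poly s A₂) := by
    rw [Set.disjoint_left]
    intro z hz1 hz2
    obtain ⟨a, ha, hza⟩ := mem_poly.1 hz1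
    obtain ⟨b, hb, hzb⟩ := mem_poly.1 hz2
    obtain ⟨S, hS, hSsub, hSa, hSb⟩ := exists_preconnected_of_meet hs ⟨z, hza, hzb⟩ ha.1 hb.1
    apply hb.2
    obtain ⟨w, hw⟩ := ocell_nonempty (a := a) hs
    have hwC : w ∈ C := ha.2 hw
    have : S ⊆ connectedComponentIn (interior (poly s A)) w :=
      hS.subset_connectedComponentIn (hSa hw) hSsub
    rw [← connectedComponentIn_eq hwC] at this
    exact hSb.trans this
  have hcov : poly s A ⊆ poly s A₁ ∪ poly s A₂ := by
    intro z hz
    obtain ⟨a, ha, hza⟩ := mem_poly.1 hz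
    by_cases h : ocell s a ⊆ C
    · exact Or.inl (mem_poly.2 ⟨a, ⟨ha, h⟩, hza⟩)
    · exact Or.inr (mem_poly.2 ⟨a, ⟨ha, h⟩, hza⟩)
  have hA2 : poly s A ∩ poly s A₂ = ∅ := by
    by_contra hne
    rw [← ne_eq, ← nonempty_iff_ne_empty] at hne
    obtain ⟨w, hw, hw1, hw2⟩ := (isPreconnected_closed_iff.1 hA) _ _ (isClosed_poly hs A₁)
      (isClosed_poly hs A₂) hcov ⟨x, interior_subset hx, mem_poly.2 ⟨a₀, ⟨ha₀, hsub₀⟩, hxa₀⟩⟩ hne
    exact (Set.disjoint_left.1 hdis hw1) hw2
  have hall : ∀ a ∈ A, ocell s a ⊆ C := by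
    intro a ha
    by_contra h
    obtain ⟨w, hw⟩ := ocell_nonempty (a := a) hs
    have : w ∈ poly s A ∩ poly s A₂ :=
      ⟨cell_subset_poly ha (ocell_subset_cell hw),
        mem_poly.2 ⟨a, ⟨ha, h⟩, ocell_subset_cell hw⟩⟩
    rw [hA2] at this
    exact this
  have hCeq : interior (poly s A) = C := by
    apply Subset.antisymm _ (connectedComponentIn_subset _ _)
    intro z hz
    obtain ⟨a, ha, hza, hsub⟩ := exists_ocell_subset_component hs hz
    obtain ⟨w, hw⟩ := ocell_nonempty (a := a) hs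
    have h1 : connectedComponentIn (interior (poly s A)) z = C := by
      rw [connectedComponentIn_eq (hsub hw)]
      exact (connectedComponentIn_eq (hall a ha hw)).symm
    have h2 := mem_connectedComponentIn hz
    rwa [h1] at h2
  rw [hCeq]
  exact hCpre

end Crest.Agent.R105.Thin_891
end

-- ▼ part R105/Thin3_891
section

/-!
Row 105, leaf LIB-THIN (task 2222), part 3: filling the holes.

`out P` = union of the unbounded components of `Pᶜ`, `hull P = (out P)ᶜ`.
For `P` compact in a real normed space of dimension `> 1`: `out P` is open and connected, the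
frontier of `hull P` is contained in the frontier of `P`, `hull P ⊆ W` for every open convex
`W ⊇ P`, `hull P` is connected if `P` is, and the hulls of disjoint connected sets are disjoint or
nested. The hull of a union of bricks is a union of bricks.
-/

set_option autoImplicit false
set_option linter.unusedSectionVars false

open Set Metric Topology

namespace Crest.Agent.R105.Thin_891

section Hull

variable {E : Type*} [NormedAddCommGroup E] [NormedSpace ℝ E]

/-- the union of the unbounded components of the complement. -/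
def out (P : Set E) : Set E := {z | ¬ Bornology.IsBounded (connectedComponentIn Pᶜ z)}

/-- `P` with its holes filled. -/
def hull (P : Set E) : Set E := (out P)ᶜ

variable {P Q W S : Set E} {z w : E}

theorem out_subset_compl : out P ⊆ Pᶜ := by
  intro z hz
  by_contra h
  apply hz
  rw [connectedComponentIn_eq_empty (by exact h)]
  exact Bornology.isBounded_empty

theorem subset_hull : P ⊆ hull P := subset_compl_comm.1 out_subset_compl

theorem mem_out_iff_of_mem (h : w ∈ connectedComponentIn Pᶜ z) : w ∈ out P ↔ z ∈ out P := by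
  unfold out
  rw [mem_ofPred_eq, mem_ofPred_eq, connectedComponentIn_eq h]

theorem subset_out_of_isPreconnected (hS : IsPreconnected S) (hSP : Disjoint S P)
    (h : (S ∩ out P).Nonempty) : S ⊆ out P := by
  obtain ⟨z, hz, hz'⟩ := h
  intro w hw
  have : w ∈ connectedComponentIn Pᶜ z :=
    hS.subset_connectedComponentIn hz (fun x hx => Set.disjoint_left.1 hSP hx) hw
  exact (mem_out_iff_of_mem this).2 hz'

theorem subset_out_of_unbounded (hS : IsPreconnected S) (hSP : Disjoint S P)
    (h : ¬ Bornology.IsBounded S) : S ⊆ out P := by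
  intro z hz hb
  exact h (hb.subset (hS.subset_connectedComponentIn hz (fun x hx => Set.disjoint_left.1 hSP hx)))

theorem subset_hull_of_isPreconnected (hS : IsPreconnected S) (hSP : Disjoint S P)
    (h : (S ∩ hull P).Nonempty) : S ⊆ hull P := by
  intro w hw hw'
  obtain ⟨z, hz, hz'⟩ := h
  exact hz' (subset_out_of_isPreconnected hS hSP ⟨w, hw, hw'⟩ hz)

theorem isOpen_out (hP : IsClosed P) : IsOpen (out P) := by
  rw [isOpen_iff_mem_nhds]
  intro z hz
  have hzP : z ∈ Pᶜ := out_subset_compl hz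
  have : connectedComponentIn Pᶜ z ∈ 𝓝 z :=
    (hP.isOpen_compl.connectedComponentIn).mem_nhds (mem_connectedComponentIn hzP)
  filter_upwards [this] with w hw
  exact (mem_out_iff_of_mem hw).2 hz

theorem isClosed_hull (hP : IsClosed P) : IsClosed (hull P) := (isOpen_out hP).isClosed_compl

/-- the complement of a closed ball is connected. -/
theorem isPreconnected_compl_closedBall (h : 1 < Module.rank ℝ E) (R : ℝ) :
    IsPreconnected (closedBall (0 : E) R)ᶜ := by
  rcases lt_or_ge R 0 with hR | hR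
  · rw [closedBall_eq_empty.2 hR, compl_empty]
    exact isPreconnected_univ
  have h1 : IsPreconnected ((Ioi R) ×ˢ sphere (0 : E) 1) :=
    isPreconnected_Ioi.prod (isPreconnected_sphere h 0 1)
  have h2 := h1.image (fun p : ℝ × E => p.1 • p.2) (continuous_smul.continuousOn)
  have h3 : (fun p : ℝ × E => p.1 • p.2) '' ((Ioi R) ×ˢ sphere (0 : E) 1) =
      (closedBall (0 : E) R)ᶜ := by
    ext z
    constructor
    · rintro ⟨⟨t, v⟩, ⟨ht, hv⟩, rfl⟩
      rw [mem_Ioi] at ht
      rw [mem_sphere_zero_iff_norm] at hv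
      simp only at hv
      rw [mem_compl_iff, mem_closedBall_zero_iff, norm_smul, hv, mul_one, Real.norm_eq_abs,
        abs_of_pos (hR.trans_lt ht), not_le]
      exact ht
    · intro hz
      rw [mem_compl_iff, mem_closedBall_zero_iff, not_le] at hz
      have hz0 : 0 < ‖z‖ := hR.trans_lt hz
      refine ⟨(‖z‖, ‖z‖⁻¹ • z), ⟨hz, ?_⟩, ?_⟩
      · rw [mem_sphere_zero_iff_norm, norm_smul, norm_inv, norm_norm, inv_mul_cancel₀ hz0.ne']
      · simp only
        rw [smul_smul, mul_inv_cancel₀ hz0.ne', one_smul]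
  rwa [h3] at h2

theorem nontrivial_of_rank (h : 1 < Module.rank ℝ E) : Nontrivial E := by
  have : (0 : Cardinal) < Module.rank ℝ E := lt_trans (by simp) h
  exact rank_pos_iff_nontrivial.1 this

theorem not_isBounded_compl_closedBall (h : 1 < Module.rank ℝ E) (R : ℝ) :
    ¬ Bornology.IsBounded (closedBall (0 : E) R)ᶜ := by
  have := nontrivial_of_rank h
  intro hb
  have h2 := hb.union (isBounded_closedBall (x := (0 : E)) (r := R))
  rw [compl_union_self] at h2
  exact NormedSpace.unbounded_univ ℝ E h2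

theorem compl_closedBall_subset_out (h : 1 < Module.rank ℝ E) {R : ℝ}
    (hP : P ⊆ closedBall 0 R) : (closedBall (0 : E) R)ᶜ ⊆ out P :=
  subset_out_of_unbounded (isPreconnected_compl_closedBall h R)
    (disjoint_compl_left.mono_right hP) (not_isBounded_compl_closedBall h R)

theorem hull_subset_closedBall (h : 1 < Module.rank ℝ E) {R : ℝ}
    (hP : P ⊆ closedBall 0 R) : hull P ⊆ closedBall 0 R := by
  have := compl_subset_compl.2 (compl_closedBall_subset_out h hP)
  rwa [compl_compl] at this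

theorem isPreconnected_out (h : 1 < Module.rank ℝ E) (hP : Bornology.IsBounded P) :
    IsPreconnected (out P) := by
  obtain ⟨R, hR⟩ := hP.subset_closedBall 0
  have hB := isPreconnected_compl_closedBall h R
  have hBd : (closedBall (0 : E) R)ᶜ ⊆ Pᶜ := compl_subset_compl.2 hR
  -- every component which is unbounded contains the complement of the ball
  have key : ∀ z ∈ out P, (closedBall (0 : E) R)ᶜ ⊆ connectedComponentIn Pᶜ z := by
    intro z hz
    have h1 : (connectedComponentIn Pᶜ z ∩ (closedBall (0 : E) R)ᶜ).Nonempty := by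
      by_contra hne
      apply hz
      rw [not_nonempty_iff_eq_empty] at hne
      refine (isBounded_closedBall (x := (0 : E)) (r := R)).subset fun w hw => ?_
      by_contra hw'
      have : w ∈ connectedComponentIn Pᶜ z ∩ (closedBall (0 : E) R)ᶜ := ⟨hw, hw'⟩
      rw [hne] at this
      exact this
    obtain ⟨w, hw, hw'⟩ := h1
    rw [connectedComponentIn_eq hw]
    exact hB.subset_connectedComponentIn hw' hBd
  have := nontrivial_of_rank h
  obtain ⟨w₀, hw₀⟩ : ((closedBall (0 : E) R)ᶜ).Nonempty := by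
    by_contra hne
    rw [not_nonempty_iff_eq_empty] at hne
    exact not_isBounded_compl_closedBall h R (hne ▸ Bornology.isBounded_empty)
  apply isPreconnected_of_forall w₀
  intro z hz
  refine ⟨connectedComponentIn Pᶜ z, ?_, key z hz hw₀,
    mem_connectedComponentIn (out_subset_compl hz), isPreconnected_connectedComponentIn⟩
  intro w hw
  exact (mem_out_iff_of_mem hw).2 hz


theorem not_isBounded_out (h : 1 < Module.rank ℝ E) (hP : Bornology.IsBounded P) :
    ¬ Bornology.IsBounded (out P) := by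
  obtain ⟨R, hR⟩ := hP.subset_closedBall 0
  intro hb
  exact not_isBounded_compl_closedBall h R (hb.subset (compl_closedBall_subset_out h hR))

theorem isBounded_hull (h : 1 < Module.rank ℝ E) (hP : Bornology.IsBounded P) :
    Bornology.IsBounded (hull P) := by
  obtain ⟨R, hR⟩ := hP.subset_closedBall 0
  exact (isBounded_closedBall).subset (hull_subset_closedBall h hR)

theorem out_anti (h : 1 < Module.rank ℝ E) (hP : Bornology.IsBounded P) (hQ : Q ⊆ hull P) :
    out P ⊆ out Q :=
  subset_out_of_unbounded (isPreconnected_out h hP)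
    (Set.disjoint_left.2 fun _ hx hx' => hQ hx' hx) (not_isBounded_out h hP)

/-- the hull is monotone; more generally `Q ⊆ hull P` gives `hull Q ⊆ hull P`. -/
theorem hull_subset_hull (h : 1 < Module.rank ℝ E) (hP : Bornology.IsBounded P)
    (hQ : Q ⊆ hull P) : hull Q ⊆ hull P :=
  compl_subset_compl.2 (out_anti h hP hQ)

/-- **holes stay in every open convex neighbourhood.** -/
theorem hull_subset_of_convex (h : 1 < Module.rank ℝ E) (hW : IsOpen W) (hWc : Convex ℝ W)
    (hPW : P ⊆ W) : hull P ⊆ W := by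
  have := nontrivial_of_rank h
  intro z hz
  by_contra hzW
  obtain ⟨f, hf⟩ := geometric_hahn_banach_open_point hWc hW hzW
  obtain ⟨v, hv, hfv⟩ : ∃ v : E, v ≠ 0 ∧ 0 ≤ f v := by
    obtain ⟨v, hv⟩ := exists_ne (0 : E)
    rcases le_total 0 (f v) with h1 | h1
    · exact ⟨v, hv, h1⟩
    · exact ⟨-v, neg_ne_zero.2 hv, by simpa using h1⟩
  let S : Set E := (fun t : ℝ => z + t • v) '' Ici 0
  have hS : IsPreconnected S := by
    apply isPreconnected_Ici.image
    fun_prop
  have hSP : Disjoint S P := by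
    rw [Set.disjoint_left]
    rintro _ ⟨t, ht, rfl⟩ hp
    have h1 := hf _ (hPW hp)
    simp only [map_add, map_smul, smul_eq_mul] at h1
    have := mul_nonneg ht hfv
    linarith
  have hSb : ¬ Bornology.IsBounded S := by
    intro hb
    obtain ⟨R, hR⟩ := hb.subset_closedBall z
    have hv0 : 0 < ‖v‖ := norm_pos_iff.2 hv
    have h1 : z + ((|R| + 1) / ‖v‖) • v ∈ closedBall z R :=
      hR ⟨(|R| + 1) / ‖v‖, by rw [mem_Ici]; positivity, rfl⟩
    rw [mem_closedBall, dist_eq_norm, add_sub_cancel_left, norm_smul, Real.norm_eq_abs,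
      abs_of_nonneg (by positivity), div_mul_cancel₀ _ hv0.ne'] at h1
    have := le_abs_self R
    linarith
  exact hz (subset_out_of_unbounded hS hSP hSb ⟨0, by simp, by simp⟩)

theorem frontier_hull_subset (hP : IsClosed P) : frontier (hull P) ⊆ frontier P := by
  intro z hz
  rw [hull, frontier_compl] at hz
  have hz1 : z ∉ out P := by
    have := (isOpen_out hP).inter_frontier_eq
    intro h
    have h2 : z ∈ out P ∩ frontier (out P) := ⟨h, hz⟩
    rw [this] at h2
    exact h2
  have hz2 : z ∈ closure (out P) := frontier_subset_closure hz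
  have hzP : z ∈ P := by
    by_contra hzP
    have h1 : connectedComponentIn Pᶜ z ∈ 𝓝 z :=
      (hP.isOpen_compl.connectedComponentIn).mem_nhds (mem_connectedComponentIn hzP)
    obtain ⟨w, hw1, hw2⟩ := mem_closure_iff_nhds.1 hz2 _ h1
    exact hz1 ((mem_out_iff_of_mem hw1).1 hw2)
  rw [frontier, mem_sdiff, hP.closure_eq]
  refine ⟨hzP, ?_⟩
  rw [← mem_compl_iff, ← closure_compl]
  exact closure_mono out_subset_compl hz2

theorem compl_hull : (hull P)ᶜ = out P := compl_compl _

theorem compl_interior_hull : (interior (hull P))ᶜ = closure (out P) := by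
  rw [← closure_compl, compl_hull]

theorem isPreconnected_compl_interior_hull (h : 1 < Module.rank ℝ E)
    (hP : Bornology.IsBounded P) : IsPreconnected (interior (hull P))ᶜ := by
  rw [compl_interior_hull]
  exact (isPreconnected_out h hP).closure

/-- the closure of a hole is connected, contained in the hull, disjoint from everything which is
disjoint from `P` and from the hole, and meets `P`. -/
theorem hole (hP : IsClosed P) (hPne : P.Nonempty) (hz : z ∈ hull P)
    (hzP : z ∉ P) :
    ∃ C, IsPreconnected C ∧ z ∈ C ∧ C ⊆ hull P ∧ (C ∩ P).Nonempty ∧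
      C ⊆ connectedComponentIn Pᶜ z ∪ P ∧ Disjoint (connectedComponentIn Pᶜ z) (out P) := by
  have hCd : Disjoint (connectedComponentIn Pᶜ z) (out P) := by
    rw [Set.disjoint_left]
    intro w hw hw'
    exact hz ((mem_out_iff_of_mem hw).1 hw')
  have hopen : IsOpen (connectedComponentIn Pᶜ z) := hP.isOpen_compl.connectedComponentIn
  have hsub : closure (connectedComponentIn Pᶜ z) ⊆ connectedComponentIn Pᶜ z ∪ P := by
    intro w hw
    by_cases hwP : w ∈ P
    · exact Or.inr hwP
    · left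
      have h1 : connectedComponentIn Pᶜ w ∈ 𝓝 w :=
        (hP.isOpen_compl.connectedComponentIn).mem_nhds (mem_connectedComponentIn hwP)
      obtain ⟨v, hv1, hv2⟩ := mem_closure_iff_nhds.1 hw _ h1
      rw [connectedComponentIn_eq hv2, ← connectedComponentIn_eq hv1]
      exact mem_connectedComponentIn hwP
  have hzC : z ∈ connectedComponentIn Pᶜ z := mem_connectedComponentIn hzP
  refine ⟨closure (connectedComponentIn Pᶜ z), isPreconnected_connectedComponentIn.closure,
    subset_closure hzC, ?_, ?_, hsub, hCd⟩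
  · intro w hw
    rcases hsub hw with h1 | h1
    · exact fun h2 => Set.disjoint_left.1 hCd h1 h2
    · exact subset_hull h1
  · by_contra hne
    rw [not_nonempty_iff_eq_empty] at hne
    have h1 : closure (connectedComponentIn Pᶜ z) ⊆ connectedComponentIn Pᶜ z := by
      intro w hw
      rcases hsub hw with h1 | h1
      · exact h1
      · have : w ∈ closure (connectedComponentIn Pᶜ z) ∩ P := ⟨hw, h1⟩
        rw [hne] at this
        exact absurd this (notMem_empty _)
    have hclopen : IsClopen (connectedComponentIn Pᶜ z) :=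
      ⟨isClosed_of_closure_subset h1, hopen⟩
    have huniv := hclopen.eq_univ ⟨z, hzC⟩
    obtain ⟨p, hp⟩ := hPne
    have : p ∈ connectedComponentIn Pᶜ z := by rw [huniv]; exact mem_univ _
    exact connectedComponentIn_subset _ _ this hp

/-- the hull of a connected closed set is connected. -/
theorem isConnected_hull (hP : IsClosed P)
    (hPc : IsConnected P) : IsConnected (hull P) := by
  obtain ⟨p, hp⟩ := hPc.nonempty
  refine ⟨⟨p, subset_hull hp⟩, isPreconnected_of_forall p fun z hz => ?_⟩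
  by_cases hzP : z ∈ P
  · exact ⟨P, subset_hull, hp, hzP, hPc.isPreconnected⟩
  · obtain ⟨C, h1, h2, h3, ⟨q, hq1, hq2⟩, -, -⟩ := hole hP ⟨p, hp⟩ hz hzP
    refine ⟨C ∪ P, union_subset h3 subset_hull, Or.inr hp, Or.inl h2,
      h1.union q hq1 hq2 hPc.isPreconnected⟩

/-- the hulls of two disjoint continua are disjoint or nested. -/
theorem hull_laminar (h : 1 < Module.rank ℝ E) (hP : IsCompact P) (hQ : IsCompact Q)
    (hPc : IsConnected P) (hQc : IsConnected Q) (hPQ : Disjoint P Q) :
    Disjoint (hull P) (hull Q) ∨ hull P ⊆ hull Q ∨ hull Q ⊆ hull P := by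
  by_cases h1 : (Q ∩ hull P).Nonempty
  · right; right
    exact hull_subset_hull h hP.isBounded
      (subset_hull_of_isPreconnected hQc.isPreconnected hPQ.symm h1)
  by_cases h2 : (P ∩ hull Q).Nonempty
  · right; left
    exact hull_subset_hull h hQ.isBounded
      (subset_hull_of_isPreconnected hPc.isPreconnected hPQ h2)
  left
  have hQout : Q ⊆ out P := by
    intro q hq
    by_contra hcon
    exact h1 ⟨q, hq, hcon⟩
  have hPout : P ⊆ out Q := by
    intro q hq
    by_contra hcon
    exact h2 ⟨q, hq, hcon⟩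
  rw [Set.disjoint_left]
  intro z hz1 hz2
  have hzP : z ∉ P := fun hzP => hz2 (hPout hzP)
  obtain ⟨C, c1, c2, c3, ⟨p, hp1, hp2⟩, c5, c6⟩ :=
    hole hP.isClosed hPc.nonempty hz1 hzP
  have hCQ : Disjoint C Q := by
    rw [Set.disjoint_left]
    intro w hw hwQ
    rcases c5 hw with h3 | h3
    · exact Set.disjoint_left.1 c6 h3 (hQout hwQ)
    · exact Set.disjoint_left.1 hPQ h3 hwQ
  exact hz2 (subset_out_of_isPreconnected c1 hCQ ⟨p, hp1, hPout hp2⟩ c2)

end Hull

/-- the plane has dimension two. -/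
theorem one_lt_rank_plane : 1 < Module.rank ℝ (ℝ × ℝ) := by
  have : Module.rank ℝ (ℝ × ℝ) = 2 := by
    rw [rank_prod', Module.rank_self]; norm_num
  rw [this]; norm_num


variable {s : ℝ} {A : Set (ℤ × ℤ)}

/-- the hull of a union of bricks is a union of bricks. -/
theorem hull_poly (hs : 0 < s) (A : Set (ℤ × ℤ)) :
    hull (poly s A) = poly s {a | cell s a ⊆ hull (poly s A)} := by
  apply Subset.antisymm
  · intro z hz
    by_cases hzP : z ∈ poly s A
    · obtain ⟨a, ha, hza⟩ := mem_poly.1 hzP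
      exact mem_poly.2 ⟨a, (cell_subset_poly ha).trans subset_hull, hza⟩
    · obtain ⟨a, hza⟩ := exists_mem_cell hs z
      have haA : a ∉ A := fun h => hzP (mem_poly.2 ⟨a, h, hza⟩)
      have h1 : IsPreconnected (insert z (ocell s a)) := by
        refine (convex_ocell (s := s) (a := a)).isPreconnected.subset_closure (subset_insert _ _) ?_
        rw [closure_ocell hs]
        exact insert_subset hza ocell_subset_cell
      have h2 : Disjoint (insert z (ocell s a)) (poly s A) := by
        rw [Set.disjoint_left]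
        rintro w (rfl | hw) hw'
        · exact hzP hw'
        · exact haA ((cell_inter_poly hs).1 ⟨w, hw, hw'⟩)
      have h3 : insert z (ocell s a) ⊆ hull (poly s A) :=
        subset_hull_of_isPreconnected h1 h2 ⟨z, mem_insert _ _, hz⟩
      refine mem_poly.2 ⟨a, ?_, hza⟩
      change cell s a ⊆ hull (poly s A)
      rw [← closure_ocell hs]
      exact (isClosed_hull (isClosed_poly hs A)).closure_subset_iff.2
        ((subset_insert _ _).trans h3)
  · intro z hz
    obtain ⟨a, ha, hza⟩ := mem_poly.1 hz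
    exact ha hza

theorem finite_of_poly_bounded (hs : 0 < s) (hA : Bornology.IsBounded (poly s A)) : A.Finite := by
  obtain ⟨R, hR⟩ := hA.subset_closedBall 0
  refine (finite_meeting hs (isCompact_closedBall (0 : ℝ × ℝ) R)).subset ?_
  intro a ha
  obtain ⟨w, hw⟩ := cell_nonempty (a := a) hs
  exact ⟨w, hw, hR (cell_subset_poly ha hw)⟩

end Crest.Agent.R105.Thin_891
end

-- ▼ part R105/Thin4_891
section

/-!
Row 105, leaf LIB-THIN (task 2222), part 4: thin neighbourhoods.

* `CPiece E F`: `F ⊆ E` compact with an open neighbourhood `O`, `O ∩ E ⊆ F` (no compactness of `E`).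
* `ThinDom E N`: `N` is the interior of a finite connected union of bricks without holes, and the
  frontier of `N` does not meet `E`.
* `exists_thinDoms`: given pairwise disjoint pieces `F i` with open convex neighbourhoods `W i`,
  there are finitely many thin domains with pairwise disjoint closures, each closure in one `W i`,
  which cover all the `F i`.
-/

set_option autoImplicit false

open Set Metric Topology

namespace Crest.Agent.R105.Thin_891

/-- compact open piece of an arbitrary set `E`. -/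
structure CPiece {X : Type*} [TopologicalSpace X] (E F : Set X) : Prop where
  sub : F ⊆ E
  cpt : IsCompact F
  sep : ∃ O, IsOpen O ∧ F ⊆ O ∧ O ∩ E ⊆ F

theorem Piece.cpiece {X : Type*} [TopologicalSpace X] [T2Space X] {E F : Set X}
    (h : Piece E F) : CPiece E F := by
  obtain ⟨U, V, hU, _, hFU, hV', hUV⟩ :=
    SeparatedNhds.of_isCompact_isCompact h.cpt h.cpt' disjoint_sdiff_self_right
  refine ⟨h.sub, h.cpt, U, hU, hFU, ?_⟩
  rintro z ⟨hz, hzE⟩
  by_contra hzF
  exact Set.disjoint_left.1 hUV hz (hV' ⟨hzE, hzF⟩)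

theorem CPiece.piece {X : Type*} [TopologicalSpace X] {E F : Set X} (hE : IsCompact E)
    (h : CPiece E F) : Piece E F := by
  obtain ⟨O, hO, hFO, hOE⟩ := h.sep
  refine ⟨h.sub, h.cpt, ?_⟩
  have : E \ F = E \ O := by
    ext z
    constructor
    · rintro ⟨h1, h2⟩; exact ⟨h1, fun h3 => h2 (hOE ⟨h3, h1⟩)⟩
    · rintro ⟨h1, h2⟩; exact ⟨h1, fun h3 => h2 (hFO h3)⟩
  rw [this]
  exact hE.diff hO

theorem CPiece.subset_of_isPreconnected {X : Type*} [TopologicalSpace X] [T2Space X]
    {E F : Set X} (h : CPiece E F) {S : Set X} (hS : IsPreconnected S)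
    (hSE : S ⊆ E) (hne : (S ∩ F).Nonempty) : S ⊆ F := by
  obtain ⟨O, hO, hFO, hOE⟩ := h.sep
  by_contra hcon
  obtain ⟨z, hzS, hzF⟩ := not_subset.1 hcon
  obtain ⟨w, hwS, hwO, hwF⟩ := hS O Fᶜ hO h.cpt.isClosed.isOpen_compl
    (fun x hx => by
      by_cases hxF : x ∈ F
      · exact Or.inl (hFO hxF)
      · exact Or.inr hxF)
    (by obtain ⟨y, hy1, hy2⟩ := hne; exact ⟨y, hy1, hFO hy2⟩)
    ⟨z, hzS, hzF⟩
  exact hwF (hOE ⟨hwO, hSE hwS⟩)

theorem CPiece.component_subset {X : Type*} [TopologicalSpace X] [T2Space X] {E F : Set X}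
    (h : CPiece E F) {x : X} (hx : x ∈ F) : connectedComponentIn E x ⊆ F :=
  h.subset_of_isPreconnected isPreconnected_connectedComponentIn
    (connectedComponentIn_subset E x) ⟨x, mem_connectedComponentIn (h.sub hx), hx⟩

/-- thin domain: the interior of a finite connected union of bricks without holes, with frontier
off `E`. -/
structure ThinDom (E N : Set (ℝ × ℝ)) : Prop where
  brick : ∃ (s : ℝ) (A : Set (ℤ × ℤ)), 0 < s ∧ A.Finite ∧ interior (poly s A) = N ∧
    closure N = poly s A
  isConnected : IsConnected N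
  compl : IsPreconnected Nᶜ
  compl_closure : IsPreconnected (closure N)ᶜ
  fr : Disjoint (frontier N) E

namespace ThinDom

variable {E N : Set (ℝ × ℝ)}

theorem isOpen (h : ThinDom E N) : IsOpen N := by
  obtain ⟨s, A, -, -, h1, -⟩ := h.brick
  rw [← h1]; exact isOpen_interior

theorem isCompact_closure (h : ThinDom E N) : IsCompact (closure N) := by
  obtain ⟨s, A, -, h0, -, h1⟩ := h.brick
  rw [h1]; exact isCompact_poly h0

theorem isBounded (h : ThinDom E N) : Bornology.IsBounded N :=
  h.isCompact_closure.isBounded.subset subset_closure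



theorem inter_closure (h : ThinDom E N) : E ∩ closure N = E ∩ N := by
  ext z
  constructor
  · rintro ⟨h1, h2⟩
    refine ⟨h1, ?_⟩
    by_contra h3
    have : z ∈ frontier N := ⟨h2, fun h4 => h3 (interior_subset h4)⟩
    exact Set.disjoint_left.1 h.fr this h1
  · rintro ⟨h1, h2⟩; exact ⟨h1, subset_closure h2⟩

/-- a connected part of `E` meeting `N` is contained in `N`. -/
theorem subset_of_isPreconnected (h : ThinDom E N) {S : Set (ℝ × ℝ)} (hS : IsPreconnected S)
    (hSE : S ⊆ E) (hne : (S ∩ N).Nonempty) : S ⊆ N := by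
  by_contra hcon
  obtain ⟨z, hzS, hzN⟩ := not_subset.1 hcon
  have hz' : z ∉ closure N := fun hz => by
    have : z ∈ E ∩ N := by rw [← h.inter_closure]; exact ⟨hSE hzS, hz⟩
    exact hzN this.2
  obtain ⟨w, hwS, hwN, hwN'⟩ := hS N (closure N)ᶜ h.isOpen isClosed_closure.isOpen_compl
    (fun x hx => by
      by_cases hxN : x ∈ N
      · exact Or.inl hxN
      · right
        intro hx'
        have : x ∈ E ∩ N := by rw [← h.inter_closure]; exact ⟨hSE hx, hx'⟩
        exact hxN this.2) hne ⟨z, hzS, hz'⟩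
  exact hwN' (subset_closure hwN)

theorem component_subset (h : ThinDom E N) {x : ℝ × ℝ} (hx : x ∈ N) :
    connectedComponentIn E x ⊆ N := by
  by_cases hxE : x ∈ E
  · exact h.subset_of_isPreconnected isPreconnected_connectedComponentIn
      (connectedComponentIn_subset E x) ⟨x, mem_connectedComponentIn hxE, hx⟩
  · rw [connectedComponentIn_eq_empty hxE]; exact empty_subset _

/-- the part of a closed set `E` in a thin domain is a piece of `E`. -/
theorem cpiece (h : ThinDom E N) {R : Set (ℝ × ℝ)} (hNR : closure N ⊆ R)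
    (hE : ∃ C, IsClosed C ∧ E = C ∩ R) : CPiece E (E ∩ N) := by
  refine ⟨inter_subset_left, ?_, N, h.isOpen, inter_subset_right, fun z hz => ⟨hz.2, hz.1⟩⟩
  obtain ⟨C, hC, rfl⟩ := hE
  rw [← h.inter_closure]
  have : C ∩ R ∩ closure N = closure N ∩ C := by
    ext z; constructor
    · rintro ⟨⟨h1, _⟩, h2⟩; exact ⟨h2, h1⟩
    · rintro ⟨h1, h2⟩; exact ⟨⟨h2, hNR h1⟩, h1⟩
  rw [this]
  exact h.isCompact_closure.inter_right hC

theorem piece (h : ThinDom E N) (hE : IsCompact E) : Piece E (E ∩ N) :=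
  (h.cpiece (R := univ) (subset_univ _) ⟨E, hE.isClosed, (inter_univ _).symm⟩).piece hE

end ThinDom

/-- a finite union of bricks is, near each of its components, a finite connected union of bricks. -/
theorem poly_component {s : ℝ} {A : Set (ℤ × ℤ)} {z : ℝ × ℝ} :
    connectedComponentIn (poly s A) z =
      poly s {a | a ∈ A ∧ cell s a ⊆ connectedComponentIn (poly s A) z} := by
  apply Subset.antisymm
  · intro w hw
    obtain ⟨a, ha, hwa⟩ := mem_poly.1 (connectedComponentIn_subset _ _ hw)
    refine mem_poly.2 ⟨a, ⟨ha, ?_⟩, hwa⟩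
    rw [connectedComponentIn_eq hw]
    exact convex_cell.isPreconnected.subset_connectedComponentIn hwa (cell_subset_poly ha)
  · intro w hw
    obtain ⟨a, ha, hwa⟩ := mem_poly.1 hw
    exact ha.2 hwa

/-- the maximal members of a finite laminar family of sets cover the union and are disjoint. -/
theorem exists_maximal_laminar {X : Type*} (H : Finset (Set X))
    (hH : ∀ P ∈ H, ∀ Q ∈ H, P ≠ Q → Disjoint P Q ∨ P ⊆ Q ∨ Q ⊆ P) :
    ∃ H' : Finset (Set X), H' ⊆ H ∧ (∀ P ∈ H', ∀ Q ∈ H', P ≠ Q → Disjoint P Q) ∧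
      ∀ P ∈ H, ∃ Q ∈ H', P ⊆ Q := by
  classical
  refine ⟨H.filter (fun P => ∀ Q ∈ H, P ⊆ Q → Q = P), Finset.filter_subset _ _, ?_, ?_⟩
  · intro P hP Q hQ hne
    rw [Finset.mem_filter] at hP hQ
    rcases hH P hP.1 Q hQ.1 hne with h | h | h
    · exact h
    · exact absurd (hP.2 Q hQ.1 h).symm hne
    · exact absurd (hQ.2 P hP.1 h) hne
  · intro P hP
    obtain ⟨Q, hPQ, hQ⟩ := H.exists_le_maximal hP
    refine ⟨Q, ?_, hPQ⟩
    rw [Finset.mem_filter]
    exact ⟨hQ.prop, fun Q' hQ' hle => (hQ.eq_of_le hQ' hle).symm⟩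

/-- **Thin neighbourhoods, general form.** -/
theorem exists_thinDoms {n : ℕ} {E : Set (ℝ × ℝ)} (F W : Fin n → Set (ℝ × ℝ))
    (hF : ∀ i, CPiece E (F i)) (hd : Pairwise (fun i j => Disjoint (F i) (F j)))
    (hW : ∀ i, IsOpen (W i)) (hWc : ∀ i, Convex ℝ (W i)) (hFW : ∀ i, F i ⊆ W i) :
    ∃ (m : ℕ) (N : Fin m → Set (ℝ × ℝ)) (k : Fin m → Fin n),
      (∀ j, ThinDom E (N j)) ∧ (∀ j, closure (N j) ⊆ W (k j)) ∧
      Pairwise (fun j l => Disjoint (closure (N j)) (closure (N l))) ∧
      (∀ i, F i ⊆ ⋃ j, N j) ∧ (∀ j, (N j ∩ F (k j)).Nonempty) := by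
  classical
  -- a common mesh
  have hmesh : ∀ i, ∃ δ : ℝ, 0 < δ ∧ cthickening δ (F i) ⊆ W i ∧
      (∀ z ∈ cthickening δ (F i), z ∈ E → z ∈ F i) := by
    intro i
    obtain ⟨O, hO, hFO, hOE⟩ := (hF i).sep
    obtain ⟨δ, hδ, h1⟩ := (hF i).cpt.exists_cthickening_subset_open (hO.inter (hW i))
      (subset_inter hFO (hFW i))
    exact ⟨δ, hδ, h1.trans inter_subset_right, fun z hz hzE => hOE ⟨(h1 hz).1, hzE⟩⟩
  choose δ hδ hδW hδE using hmesh
  have hsep : ∀ i j, i ≠ j → ∃ r : ℝ, 0 < r ∧ ∀ x ∈ F i, ∀ y ∈ F j, r < dist x y := by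
    intro i j hij
    obtain ⟨r, hr, H⟩ := Metric.exists_pos_forall_lt_edist (hF i).cpt (hF j).cpt.isClosed (hd hij)
    refine ⟨r, by exact_mod_cast hr, fun x hx y hy => ?_⟩
    have := H x hx y hy
    rw [edist_dist] at this
    have h2 : ENNReal.ofReal (r : ℝ) < ENNReal.ofReal (dist x y) := by simpa using this
    exact (ENNReal.ofReal_lt_ofReal_iff_of_nonneg r.2).1 h2
  have hr : ∀ p : Fin n × Fin n, ∃ r : ℝ, 0 < r ∧ (p.1 ≠ p.2 → ∀ x ∈ F p.1, ∀ y ∈ F p.2,
      r < dist x y) := by
    intro p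
    by_cases h : p.1 = p.2
    · exact ⟨1, one_pos, fun h' => absurd h h'⟩
    · obtain ⟨r, h1, h2⟩ := hsep p.1 p.2 h
      exact ⟨r, h1, fun _ => h2⟩
  choose r hr0 hr1 using hr
  obtain ⟨s, hs, hsδ, hsr⟩ : ∃ s : ℝ, 0 < s ∧ (∀ i, s ≤ δ i) ∧ (∀ p, s ≤ r p / 2) := by
    have h1 : ∀ᶠ s in 𝓝[>] (0 : ℝ), ∀ i, s ≤ δ i := by
      rw [Filter.eventually_all]
      intro i
      exact (Filter.eventually_of_mem (Ioc_mem_nhdsGT (hδ i)) fun s hs => hs.2)
    have h2 : ∀ᶠ s in 𝓝[>] (0 : ℝ), ∀ p, s ≤ r p / 2 := by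
      rw [Filter.eventually_all]
      intro p
      exact (Filter.eventually_of_mem (Ioc_mem_nhdsGT (half_pos (hr0 p))) fun s hs => hs.2)
    have h3 : ∀ᶠ s in 𝓝[>] (0 : ℝ), 0 < s := eventually_mem_nhdsWithin
    obtain ⟨s, a1, a2, a3⟩ := (h3.and (h1.and h2)).exists
    exact ⟨s, a1, a2, a3⟩
  -- the bricks
  let A : Fin n → Set (ℤ × ℤ) := fun i => meeting s (F i)
  have hAfin : ∀ i, (A i).Finite := fun i => finite_meeting hs (hF i).cpt
  have hAsub : ∀ i, poly s (A i) ⊆ cthickening (δ i) (F i) := fun i =>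
    (poly_meeting_subset_cthickening (F i)).trans (cthickening_mono (hsδ i) _)
  have hAdis : ∀ i j, i ≠ j → Disjoint (poly s (A i)) (poly s (A j)) := by
    intro i j hij
    rw [Set.disjoint_left]
    intro z hz1 hz2
    obtain ⟨x, hx, hxz⟩ := exists_dist_le_of_mem_poly_meeting hz1
    obtain ⟨y, hy, hyz⟩ := exists_dist_le_of_mem_poly_meeting hz2
    have h1 := hr1 (i, j) hij x hx y hy
    have h2 := hsr (i, j)
    have h3 := dist_triangle_left x y z
    linarith
  let B : Set (ℤ × ℤ) := ⋃ i, A i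
  have hBfin : B.Finite := finite_iUnion hAfin
  have hBpoly : poly s B = ⋃ i, poly s (A i) := by
    ext z
    simp only [B, mem_poly, mem_iUnion]
    constructor
    · rintro ⟨a, ⟨i, hi⟩, ha⟩; exact ⟨i, a, hi, ha⟩
    · rintro ⟨i, a, hi, ha⟩; exact ⟨a, ⟨i, hi⟩, ha⟩
  have hBcpt : IsCompact (poly s B) := isCompact_poly hBfin
  -- `E ∩ poly s B` is in the interior
  have hEB : ∀ z ∈ poly s B, z ∈ E → ∃ i, z ∈ F i := by
    intro z hz hzE
    rw [hBpoly, mem_iUnion] at hz
    obtain ⟨i, hi⟩ := hz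
    exact ⟨i, hδE i z (hAsub i hi) hzE⟩
  -- pieces of poly
  have hpiece : ∀ i, Piece (poly s B) (poly s (A i)) := by
    intro i
    refine ⟨poly_mono (subset_iUnion _ i), isCompact_poly (hAfin i), ?_⟩
    have : poly s B \ poly s (A i) = ⋃ j : {j // j ≠ i}, poly s (A j.1) := by
      rw [hBpoly]
      ext z
      constructor
      · rintro ⟨h1, h2⟩
        obtain ⟨j, hj⟩ := mem_iUnion.1 h1
        exact mem_iUnion.2 ⟨⟨j, fun h => h2 (h ▸ hj)⟩, hj⟩
      · intro h1
        obtain ⟨j, hj⟩ := mem_iUnion.1 h1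
        exact ⟨mem_iUnion.2 ⟨j.1, hj⟩, fun h2 => Set.disjoint_left.1 (hAdis _ _ j.2) hj h2⟩
    rw [this]
    exact isCompact_iUnion fun j => isCompact_poly (hAfin j.1)
  -- components through the bricks
  let ctr : ℤ × ℤ → ℝ × ℝ := fun a => (cell_nonempty (a := a) hs).some
  have hctr : ∀ a, ctr a ∈ cell s a := fun a => (cell_nonempty (a := a) hs).some_mem
  let Q : ℤ × ℤ → Set (ℝ × ℝ) := fun a => connectedComponentIn (poly s B) (ctr a)
  let H : Finset (Set (ℝ × ℝ)) := (hBfin.toFinset).image (fun a => hull (Q a))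
  have hQcon : ∀ a ∈ B, IsConnected (Q a) := fun a ha =>
    isConnected_connectedComponentIn_iff.2 (cell_subset_poly ha (hctr a))
  have hQcpt : ∀ a, IsCompact (Q a) := by
    intro a
    have h1 : IsClosed (Q a) := by
      change IsClosed (connectedComponentIn (poly s B) (ctr a))
      rw [poly_component]
      exact isClosed_poly hs _
    exact hBcpt.of_isClosed_subset h1 (connectedComponentIn_subset _ _)
  have hlam : ∀ P ∈ H, ∀ P' ∈ H, P ≠ P' → Disjoint P P' ∨ P ⊆ P' ∨ P' ⊆ P := by
    intro P hP P' hP' hne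
    obtain ⟨a, ha, rfl⟩ := Finset.mem_image.1 hP
    obtain ⟨b, hb, rfl⟩ := Finset.mem_image.1 hP'
    have ha' : a ∈ B := hBfin.mem_toFinset.1 ha
    have hb' : b ∈ B := hBfin.mem_toFinset.1 hb
    apply hull_laminar one_lt_rank_plane (hQcpt a) (hQcpt b) (hQcon a ha') (hQcon b hb')
    rw [Set.disjoint_left]
    intro z hz1 hz2
    apply hne
    change hull (connectedComponentIn (poly s B) (ctr a)) =
      hull (connectedComponentIn (poly s B) (ctr b))
    rw [connectedComponentIn_eq hz1, connectedComponentIn_eq hz2]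
  obtain ⟨H', hH'sub, hH'dis, hH'cov⟩ := exists_maximal_laminar H hlam
  -- enumerate `H'`
  let e : Fin H'.card ≃ H' := H'.equivFin.symm
  have hidx : ∀ j, ∃ a ∈ B, hull (Q a) = (e j).1 := by
    intro j
    obtain ⟨a, ha, h1⟩ := Finset.mem_image.1 (hH'sub (e j).2)
    exact ⟨a, hBfin.mem_toFinset.1 ha, h1⟩
  choose c hcB hc using hidx
  have hci : ∀ j, ∃ i, c j ∈ A i := fun j => mem_iUnion.1 (hcB j)
  choose k hk using hci
  have hQk : ∀ j, Q (c j) ⊆ poly s (A (k j)) := fun j =>
    (hpiece (k j)).component_subset (cell_subset_poly (hk j) (hctr _))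
  -- brick description of the hull
  have hbr : ∀ j, ∃ A' : Set (ℤ × ℤ), A'.Finite ∧ hull (Q (c j)) = poly s A' := by
    intro j
    have h1 : hull (Q (c j)) = poly s {a | cell s a ⊆ hull (Q (c j))} := by
      have h2 : Q (c j) = poly s {a | a ∈ B ∧ cell s a ⊆ Q (c j)} := poly_component
      rw [h2]
      exact hull_poly hs _
    refine ⟨_, finite_of_poly_bounded hs ?_, h1⟩
    rw [← h1]
    exact isBounded_hull one_lt_rank_plane (hQcpt _).isBounded
  choose A' hA'fin hA' using hbr
  have hclos : ∀ j, closure (interior (poly s (A' j))) = poly s (A' j) := fun j =>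
    closure_interior_poly hs _
  have hQne : ∀ j, (Q (c j)).Nonempty := fun j => (hQcon _ (hcB j)).nonempty
  have hcon : ∀ j, IsConnected (poly s (A' j)) := by
    intro j
    rw [← hA' j]
    exact isConnected_hull (hQcpt _).isClosed (hQcon _ (hcB j))
  have hAne : ∀ j, (interior (poly s (A' j))).Nonempty := by
    intro j
    by_contra h
    rw [not_nonempty_iff_eq_empty] at h
    have h1 := hclos j
    rw [h, closure_empty] at h1
    have h2 := (hcon j).nonempty
    rw [← h1] at h2
    exact not_nonempty_empty h2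
  -- the frontier of the component avoids `E`
  have hfr : ∀ j, Disjoint (frontier (interior (poly s (A' j)))) E := by
    intro j
    rw [frontier_interior_poly hs, ← hA' j, Set.disjoint_left]
    intro z hz hzE
    have hz1 : z ∈ frontier (Q (c j)) := frontier_hull_subset (hQcpt _).isClosed hz
    have hz2 : z ∈ Q (c j) := (hQcpt _).isClosed.frontier_subset hz1
    have hz3 : z ∈ poly s B := connectedComponentIn_subset _ _ hz2
    obtain ⟨i, hi⟩ := hEB z hz3 hzE
    apply hz1.2
    change z ∈ interior (connectedComponentIn (poly s B) (ctr (c j)))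
    rw [poly_component, mem_interior_poly hs]
    intro a ha
    have haB : a ∈ B := mem_iUnion.2 ⟨i, z, ha, hi⟩
    refine ⟨haB, ?_⟩
    rw [connectedComponentIn_eq hz2]
    exact convex_cell.isPreconnected.subset_connectedComponentIn ha (cell_subset_poly haB)
  refine ⟨H'.card, fun j => interior (poly s (A' j)), k, fun j => ?_, fun j => ?_, ?_, ?_, ?_⟩
  · refine ⟨⟨s, A' j, hs, hA'fin j, rfl, hclos j⟩, ⟨hAne j, ?_⟩, ?_, ?_, hfr j⟩
    · exact isPreconnected_interior_poly hs (hcon j).isPreconnected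
    · change IsPreconnected (interior (poly s (A' j)))ᶜ
      rw [← hA' j]
      exact isPreconnected_compl_interior_hull one_lt_rank_plane (hQcpt _).isBounded
    · rw [hclos j, ← hA' j, compl_hull]
      exact isPreconnected_out one_lt_rank_plane (hQcpt _).isBounded
  · simp only
    rw [hclos j, ← hA' j]
    apply hull_subset_of_convex one_lt_rank_plane (hW _) (hWc _)
    exact (hQk j).trans ((hAsub _).trans (hδW _))
  · intro j l hjl
    simp only
    rw [hclos j, hclos l, ← hA' j, ← hA' l, hc j, hc l]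
    apply hH'dis _ (e j).2 _ (e l).2
    intro h
    exact hjl (e.injective (Subtype.ext h))
  · intro i z hz
    obtain ⟨a, hza⟩ := exists_mem_cell hs z
    have haA : a ∈ A i := ⟨z, hza, hz⟩
    have haB : a ∈ B := mem_iUnion.2 ⟨i, haA⟩
    obtain ⟨P, hP, hsub⟩ := hH'cov (hull (Q a))
      (Finset.mem_image.2 ⟨a, hBfin.mem_toFinset.2 haB, rfl⟩)
    refine mem_iUnion.2 ⟨e.symm ⟨P, hP⟩, ?_⟩
    have hzP : z ∈ P := by
      apply hsub
      apply subset_hull
      exact (convex_cell.isPreconnected.subset_connectedComponentIn (hctr a)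
        (cell_subset_poly haB)) hza
    have hPe : poly s (A' (e.symm ⟨P, hP⟩)) = P := by
      rw [← hA', hc, Equiv.apply_symm_apply]
    by_contra hzi
    have h1 : z ∈ frontier (interior (poly s (A' (e.symm ⟨P, hP⟩)))) := by
      rw [frontier, interior_interior, hclos, hPe]
      rw [hPe] at hzi
      exact ⟨hzP, hzi⟩
    exact Set.disjoint_left.1 (hfr _) h1 ((hF i).sub hz)
  · intro j
    -- `c j` meets `F (k j)` at a point, which is in `Q (c j)`
    obtain ⟨w, hw, hwF⟩ := hk j
    refine ⟨w, ?_, hwF⟩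
    have hwQ : w ∈ hull (Q (c j)) := by
      apply subset_hull
      exact (convex_cell.isPreconnected.subset_connectedComponentIn (hctr _)
        (cell_subset_poly (hcB j))) hw
    by_contra hzi
    have h1 : w ∈ frontier (interior (poly s (A' j))) := by
      rw [frontier, interior_interior, hclos]
      refine ⟨?_, hzi⟩
      rw [← hA' j]
      exact hwQ
    exact Set.disjoint_left.1 (hfr _) h1 ((hF _).sub hwF)

end Crest.Agent.R105.Thin_891
end

-- ▼ part R105/Thin5_891

/-!
Row 105, leaf LIB-THIN (task 2222), part 5: final forms.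

* `exists_radius`: `K` a component of the compact set `E`, `U ⊇ K` open: for some `ε > 0` every
  connected part `S` of `E` whose `ε`-neighbourhood meets that of `K` has its `ε`-neighbourhood
  inside `U` (the Hausdorff limit steps of lemma C).
* `exists_thin_family`: thin neighbourhoods of a compact family of convex components.
-/

set_option autoImplicit false

open Set Metric Topology MeasureTheory

namespace Crest.Agent.R105.Thin_891

section Metric

variable {Y : Type*} [MetricSpace Y]

/-- **effective form of 'Hausdorff limits of components are in one component'.** -/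
theorem exists_radius {E U : Set Y} (hE : IsCompact E) {x : Y} (hx : x ∈ E) (hU : IsOpen U)
    (hKU : connectedComponentIn E x ⊆ U) :
    ∃ ε : ℝ, 0 < ε ∧ ∀ S : Set Y, S ⊆ E → IsPreconnected S →
      (cthickening ε S ∩ cthickening ε (connectedComponentIn E x)).Nonempty →
      cthickening ε S ⊆ U := by
  obtain ⟨F, hF, hKF, hFU⟩ := exists_piece hE hx hU hKU
  obtain ⟨δ, hδ, hd⟩ := hF.exists_dist
  obtain ⟨δ', hδ', hd'⟩ := hF.cpt.exists_cthickening_subset_open hU hFU
  refine ⟨min (δ / 4) δ', by positivity, fun S hSE hS => ?_⟩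
  rintro ⟨y, hy1, hy2⟩
  have h4 : min (δ / 4) δ' < δ / 2 := (min_le_left _ _).trans_lt (by linarith)
  have k1 : y ∈ thickening (δ / 2) S := cthickening_subset_thickening' (by positivity) h4 S hy1
  have k2 : y ∈ thickening (δ / 2) (connectedComponentIn E x) :=
    cthickening_subset_thickening' (by positivity) h4 _ hy2
  obtain ⟨a, ha, had⟩ := mem_thickening_iff.1 k1
  obtain ⟨b, hb, hbd⟩ := mem_thickening_iff.1 k2
  have haF : a ∈ F := by
    by_contra h
    have h1 := hd b (hKF hb) a ⟨hSE ha, h⟩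
    have h2 := dist_triangle_left b a y
    linarith
  have hSF : S ⊆ F := hF.subset_of_isPreconnected hS hSE ⟨a, ha, haF⟩
  exact (cthickening_subset_of_subset _ hSF).trans
    ((cthickening_mono (min_le_right _ _) F).trans hd')



/-- the set of points of `E` whose component is inside an open set is open in `E`. -/
theorem isOpen_component_subset {E U : Set Y} (hE : IsCompact E) (hU : IsOpen U) :
    ∃ O, IsOpen O ∧ O ∩ E = {x | x ∈ E ∧ connectedComponentIn E x ⊆ U} := by
  have hch : ∀ x : {x | x ∈ E ∧ connectedComponentIn E x ⊆ U}, ∃ ε : ℝ, 0 < ε ∧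
      ∀ S : Set Y, S ⊆ E → IsPreconnected S →
      (cthickening ε S ∩ cthickening ε (connectedComponentIn E x.1)).Nonempty →
      cthickening ε S ⊆ U := fun x => exists_radius hE x.2.1 hU x.2.2
  choose ε hε H using hch
  refine ⟨⋃ x, ball x.1 (ε x), isOpen_iUnion fun x => isOpen_ball, ?_⟩
  ext y
  constructor
  · rintro ⟨hy, hyE⟩
    obtain ⟨x, hx⟩ := mem_iUnion.1 hy
    refine ⟨hyE, ?_⟩
    refine (self_subset_cthickening _).trans (H x (connectedComponentIn E y)
      (connectedComponentIn_subset _ _) isPreconnected_connectedComponentIn ⟨y, ?_, ?_⟩)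
    · exact self_subset_cthickening _ (mem_connectedComponentIn hyE)
    · exact mem_cthickening_of_dist_le y x.1 _ _ (mem_connectedComponentIn x.2.1)
        (le_of_lt (mem_ball.1 hx))
  · intro hy
    exact ⟨mem_iUnion.2 ⟨⟨y, hy⟩, mem_ball_self (hε _)⟩, hy.1⟩

end Metric

/-- **thin neighbourhoods of a compact family of convex components.** `G` is a compact part of the
compact set `E` which is a union of components, all of them convex (hairs and points), `O ⊇ G`
open, `ε > 0`. -/
theorem exists_thin_family {E G O : Set (ℝ × ℝ)} (hE : IsCompact E) (hG : IsCompact G)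
    (hGE : G ⊆ E) (hGc : ∀ x ∈ G, connectedComponentIn E x ⊆ G)
    (hcv : ∀ x ∈ G, Convex ℝ (connectedComponentIn E x)) (hO : IsOpen O) (hGO : G ⊆ O)
    {ε : ℝ} (hε : 0 < ε) :
    ∃ (m : ℕ) (N : Fin m → Set (ℝ × ℝ)) (p : Fin m → ℝ × ℝ),
      (∀ j, p j ∈ G) ∧ (∀ j, ThinDom E (N j)) ∧
      (∀ j, closure (N j) ⊆ thickening ε (connectedComponentIn E (p j))) ∧
      (∀ j, closure (N j) ⊆ O) ∧
      Pairwise (fun j l => Disjoint (closure (N j)) (closure (N l))) ∧
      G ⊆ ⋃ j, N j ∧ (∀ j, (N j ∩ E).Nonempty) := by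
  classical
  -- the convex neighbourhoods
  have hKcpt : ∀ x, IsCompact (connectedComponentIn E x) := fun x => by
    by_cases hx : x ∈ E
    · have h1 : IsClosed (connectedComponentIn E x) := by
        have h2 : closure (connectedComponentIn E x) ⊆ connectedComponentIn E x :=
          isPreconnected_connectedComponentIn.closure.subset_connectedComponentIn
            (subset_closure (mem_connectedComponentIn hx))
            (closure_minimal (connectedComponentIn_subset _ _) hE.isClosed)
        exact isClosed_of_closure_subset h2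
      exact hE.of_isClosed_subset h1 (connectedComponentIn_subset _ _)
    · rw [connectedComponentIn_eq_empty hx]; exact isCompact_empty
  have hr : ∀ x : ℝ × ℝ, ∃ r : ℝ, 0 < r ∧ r ≤ ε ∧
      (x ∈ G → thickening r (connectedComponentIn E x) ⊆ O) := by
    intro x
    by_cases hx : x ∈ G
    · obtain ⟨r, hr, h1⟩ := (hKcpt x).exists_thickening_subset_open hO ((hGc x hx).trans hGO)
      exact ⟨min r ε, lt_min hr hε, min_le_right _ _, fun _ =>
        (thickening_mono (min_le_left _ _) _).trans h1⟩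
    · exact ⟨ε, hε, le_rfl, fun h => absurd h hx⟩
  choose r hr0 hrε hrO using hr
  let W : ℝ × ℝ → Set (ℝ × ℝ) := fun x => thickening (r x) (connectedComponentIn E x)
  obtain ⟨n, q, F, hq, hF, hFU, hFG, hFd, hcov⟩ := exists_pieces hE hG hGE W
    (fun x _ => isOpen_thickening) (fun x _ => self_subset_thickening (hr0 x) _)
  obtain ⟨m, N, k, hN, hNW, hNd, hNc, hNne⟩ := exists_thinDoms F (fun i => W (q i))
    (fun i => (hF i).cpiece) hFd (fun i => isOpen_thickening)
    (fun i => (hcv _ (hq i)).thickening _) hFU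
  refine ⟨m, N, fun j => q (k j), fun j => hq _, hN, fun j => ?_, fun j => ?_, hNd, ?_, fun j => ?_⟩
  · exact (hNW j).trans (thickening_mono (hrε _) _)
  · exact (hNW j).trans (hrO _ (hq _))
  · intro x hx
    obtain ⟨i, hi⟩ := mem_iUnion.1 (hcov hx)
    exact hNc i hi
  · obtain ⟨w, hw, hwF⟩ := hNne j
    exact ⟨w, hw, (hF _).sub hwF⟩




end Crest.Agent.R105.Thin_891
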