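import Mathlib

-- ▼ part R105/Coa1_392
section

/-!
# Row 105, S0138, NI-COAREA (helper392), part 1

* `null_of_null_image`: invertible derivative on `s` and null image imply `s` null;
* `grad_zero`: the gradient of a locally Lipschitz function vanishes a.e. on the preimage of a null set;
* `area_le`: area inequality for a pair of locally Lipschitz functions.
-/

set_option autoImplicit false

open MeasureTheory Set Filter Topology Metric
open scoped ENNReal NNReal

namespace Crest.Agent.R105.Coa_392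

/-! ### invertible derivative and null image -/

theorem null_of_null_image {E : Type*} [NormedAddCommGroup E] [NormedSpace ℝ E]
    [FiniteDimensional ℝ E] [MeasurableSpace E] [BorelSpace E] (μ : Measure E)
    [μ.IsAddHaarMeasure] {s : Set E} (hs : MeasurableSet s) {f : E → E} {f' : E → E →L[ℝ] E}
    (hf' : ∀ x ∈ s, HasFDerivWithinAt f (f' x) s x) (hdet : ∀ x ∈ s, (f' x).det ≠ 0)
    (h0 : μ (f '' s) = 0) : μ s = 0 := by
  classical
  rcases s.eq_empty_or_nonempty with rfl | hne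
  · simp
  -- the admissible error
  have hr : ∀ A : E →L[ℝ] E, ∃ r : ℝ≥0, r ≠ 0 ∧
      (A.det ≠ 0 → ∀ (t : Set E), ApproximatesLinearOn f A t r → InjOn f t) := by
    intro A
    by_cases hA : A.det = 0
    · exact ⟨1, one_ne_zero, fun h => absurd hA h⟩
    · set B : E ≃L[ℝ] E := A.toContinuousLinearEquivOfDetNeZero hA with hB
      have hBA : (B : E →L[ℝ] E) = A := by
        ext x; simp [hB]
      rcases subsingleton_or_nontrivial E with hE | hE
      · exact ⟨1, one_ne_zero, fun _ t _ => fun x _ y _ _ => Subsingleton.elim x y⟩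
      · have hpos : 0 < ‖(B.symm : E →L[ℝ] E)‖₊ := B.nnnorm_symm_pos
        refine ⟨‖(B.symm : E →L[ℝ] E)‖₊⁻¹ / 2, (by positivity), fun _ t ht => ?_⟩
        rw [← hBA] at ht
        refine ht.injOn (Or.inr ?_)
        exact NNReal.half_lt_self (by positivity)
  choose r hr0 hr1 using hr
  obtain ⟨t, A, -, ht, hcov, happ, hA⟩ :=
    exists_partition_approximatesLinearOn_of_hasFDerivWithinAt f s f' hf' r hr0
  have key : ∀ n, μ (s ∩ t n) = 0 := by
    intro n
    obtain ⟨y, hy, hAy⟩ := hA hne n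
    have hinj : InjOn f (s ∩ t n) := hr1 (A n) (by rw [hAy]; exact hdet y hy) _ (happ n)
    have hms : MeasurableSet (s ∩ t n) := hs.inter (ht n)
    have hd : ∀ x ∈ s ∩ t n, HasFDerivWithinAt f (f' x) (s ∩ t n) x := fun x hx =>
      (hf' x hx.1).mono inter_subset_left
    have h1 := lintegral_abs_det_fderiv_eq_addHaar_image μ hms hd hinj
    have h2 : μ (f '' (s ∩ t n)) = 0 := measure_mono_null (image_mono inter_subset_left) h0
    rw [h2] at h1
    have h3 : (fun x => ENNReal.ofReal |(f' x).det|) =ᵐ[μ.restrict (s ∩ t n)] 0 :=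
      (lintegral_eq_zero_iff' (aemeasurable_ofReal_abs_det_fderivWithin μ hms hd)).1 h1
    rw [Filter.EventuallyEq, ae_restrict_iff' hms] at h3
    rw [← nonpos_iff_eq_zero]
    refine (measure_mono (t := {x | ¬ (x ∈ s ∩ t n → ENNReal.ofReal |(f' x).det| = (0 : E → ℝ≥0∞) x)})
      ?_).trans (le_of_eq h3)
    intro x hx hx'
    have := hx' hx
    simp only [Pi.zero_apply, ENNReal.ofReal_eq_zero] at this
    exact hdet x hx.1 (abs_eq_zero.1 (le_antisymm this (abs_nonneg _)))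
  have : s = ⋃ n, s ∩ t n := by
    rw [← inter_iUnion]; exact (inter_eq_self_of_subset_left hcov).symm
  rw [this]
  exact measure_iUnion_null key

/-! ### determinants of real linear maps of `ℂ` -/

theorem det_eq (A : ℂ →L[ℝ] ℂ) :
    A.det = (A 1).re * (A Complex.I).im - (A Complex.I).re * (A 1).im := by
  rw [ContinuousLinearMap.det, ← LinearMap.det_toMatrix Complex.basisOneI, Matrix.det_fin_two]
  simp [LinearMap.toMatrix_apply]

/-! ### a.e. differentiability -/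

theorem ae_diff {U : Set ℂ} (hU : IsOpen U) {F : Type*} [NormedAddCommGroup F] [NormedSpace ℝ F]
    [FiniteDimensional ℝ F] {u : ℂ → F}
    (hu : LocallyLipschitzOn U u) : ∀ᵐ z : ℂ, z ∈ U → DifferentiableAt ℝ u z := by
  have key : ∀ z ∈ U, ∃ V ∈ 𝓝[U] z, volume {w | ¬ (w ∈ U → DifferentiableAt ℝ u w) ∧ w ∈ V} = 0 := by
    intro z hz
    obtain ⟨K, t, ht, hK⟩ := hu hz
    rw [hU.nhdsWithin_eq hz] at ht
    obtain ⟨r, hr, hrt⟩ := Metric.mem_nhds_iff.1 ht
    refine ⟨ball z r ∩ U, inter_mem (mem_nhdsWithin_of_mem_nhds (ball_mem_nhds z hr))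
      self_mem_nhdsWithin, ?_⟩
    have h1 : ∀ᵐ w ∂(volume.restrict (ball z r)), DifferentiableWithinAt ℝ u (ball z r) w :=
      (hK.mono hrt).ae_differentiableWithinAt measurableSet_ball
    rw [ae_restrict_iff' measurableSet_ball] at h1
    refine measure_mono_null ?_ h1
    rintro w ⟨hw1, hw2⟩ hw3
    exact hw1 fun _ => (hw3 hw2.1).differentiableAt (isOpen_ball.mem_nhds hw2.1)
  have h2 : volume ({w | ¬ (w ∈ U → DifferentiableAt ℝ u w)} ∩ U) = 0 := by
    refine measure_null_of_locally_null _ fun z hz => ?_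
    obtain ⟨V, hV, hV0⟩ := key z hz.2
    refine ⟨{w | ¬ (w ∈ U → DifferentiableAt ℝ u w)} ∩ U ∩ V, ?_, ?_⟩
    · exact inter_mem self_mem_nhdsWithin
        (nhdsWithin_mono _ inter_subset_right hV)
    · refine measure_mono_null ?_ hV0
      rintro w ⟨⟨hw1, -⟩, hw2⟩
      exact ⟨hw1, hw2⟩
  refine measure_mono_null ?_ h2
  intro w hw
  refine ⟨hw, ?_⟩
  by_contra hwU
  exact hw fun h => absurd h hwU


/-! ### the gradient vanishes on preimages of null sets -/

theorem measurable_indicator {U : Set ℂ} (hU : IsOpen U) {a : ℂ → ℝ} (ha : ContinuousOn a U) :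
    Measurable (U.indicator a) := by
  classical
  have h := ContinuousOn.measurable_piecewise (f := a) (g := fun _ => (0 : ℝ)) ha
    continuousOn_const hU.measurableSet
  have h2 : U.piecewise a (fun _ => (0 : ℝ)) = U.indicator a := by
    ext z; simp [Set.piecewise, Set.indicator]
  rwa [h2] at h

theorem measurableSet_diff (u : ℂ → ℝ) : MeasurableSet {z : ℂ | DifferentiableAt ℝ u z} :=
  measurableSet_of_differentiableAt ℝ u

theorem null_re {Z : Set ℝ} (hZ : volume Z = 0) : volume {w : ℂ | w.re ∈ Z} = 0 := by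
  have h1 : {w : ℂ | w.re ∈ Z} = Complex.measurableEquivRealProd ⁻¹' (Z ×ˢ univ) := by
    ext w; simp
  rw [h1, Complex.volume_preserving_equiv_real_prod.measure_preimage_equiv,
    Measure.volume_eq_prod, Measure.prod_prod, hZ, zero_mul]

theorem grad_zero_dir {U : Set ℂ} (hU : IsOpen U) {a : ℂ → ℝ} (ha : LocallyLipschitzOn U a)
    {Z : Set ℝ} (hZ : volume Z = 0) (hZm : MeasurableSet Z) {v : ℂ} {L : ℂ →L[ℝ] ℝ}
    (hdet : ∀ M : ℂ →L[ℝ] ℝ, M v ≠ 0 → M 1 * L Complex.I - M Complex.I * L 1 ≠ 0) :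
    ∀ᵐ z : ℂ, z ∈ U → a z ∈ Z → fderiv ℝ a z v = 0 := by
  classical
  set S : Set ℂ := (U ∩ {z : ℂ | U.indicator a z ∈ Z}) ∩ ({z : ℂ | DifferentiableAt ℝ a z} ∩
    {z : ℂ | fderiv ℝ a z v ≠ 0}) with hS
  have hSm : MeasurableSet S := by
    refine (hU.measurableSet.inter (measurable_indicator hU ha.continuousOn hZm)).inter
      ((measurableSet_diff a).inter ?_)
    exact (measurableSet_eq_fun (measurable_fderiv_apply_const ℝ a v) measurable_const).compl
  set Φ : ℂ → ℂ := fun z => (a z : ℂ) + (L z : ℂ) * Complex.I with hΦ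
  set Φ' : ℂ → ℂ →L[ℝ] ℂ := fun z => Complex.ofRealCLM.comp (fderiv ℝ a z) +
    Complex.I • (Complex.ofRealCLM.comp L) with hΦ'
  have hd : ∀ z ∈ S, HasFDerivWithinAt Φ (Φ' z) S z := by
    rintro z ⟨-, hz, -⟩
    have h1 : HasFDerivAt (fun z => (a z : ℂ)) (Complex.ofRealCLM.comp (fderiv ℝ a z)) z :=
      Complex.ofRealCLM.hasFDerivAt.comp z hz.hasFDerivAt
    have h2 : HasFDerivAt (fun z => (L z : ℂ)) (Complex.ofRealCLM.comp L) z :=
      Complex.ofRealCLM.hasFDerivAt.comp z L.hasFDerivAt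
    have h3 : HasFDerivAt (fun z => (L z : ℂ) * Complex.I) (Complex.I • (Complex.ofRealCLM.comp L)) z := by
      simpa [mul_comm] using h2.mul_const Complex.I
    exact (h1.add h3).hasFDerivWithinAt
  have hdet' : ∀ z ∈ S, (Φ' z).det ≠ 0 := by
    rintro z ⟨-, -, hz⟩
    rw [det_eq]
    have := hdet (fderiv ℝ a z) hz
    simpa [hΦ'] using this
  have h0 : volume (Φ '' S) = 0 := by
    refine measure_mono_null ?_ (null_re hZ)
    rintro _ ⟨z, ⟨⟨hzU, hz⟩, -⟩, rfl⟩
    simp only [mem_ofPred_eq, indicator_of_mem hzU] at hz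
    simpa [hΦ] using hz
  have hS0 := null_of_null_image volume hSm hd hdet' h0
  have h4 := ae_diff hU ha
  rw [← compl_mem_ae_iff] at hS0
  filter_upwards [h4, hS0] with z h5 h6 hzU hzZ
  by_contra h7
  exact h6 ⟨⟨hzU, by simpa [indicator_of_mem hzU] using hzZ⟩, h5 hzU, h7⟩

/-- the gradient of a locally Lipschitz function vanishes a.e. on the preimage of a null set -/
theorem grad_zero {U : Set ℂ} (hU : IsOpen U) {a : ℂ → ℝ} (ha : LocallyLipschitzOn U a)
    {Z : Set ℝ} (hZ : volume Z = 0) : ∀ᵐ z : ℂ, z ∈ U → a z ∈ Z → fderiv ℝ a z = 0 := by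
  set Z' := toMeasurable volume Z with hZ'
  have h1 : volume Z' = 0 := by rw [hZ', measure_toMeasurable, hZ]
  have h2 : MeasurableSet Z' := measurableSet_toMeasurable _ _
  have h3 := grad_zero_dir hU ha h1 h2 (v := 1) (L := Complex.imCLM)
    (fun M hM => by simpa using hM)
  have h4 := grad_zero_dir hU ha h1 h2 (v := Complex.I) (L := Complex.reCLM)
    (fun M hM => by simpa using hM)
  filter_upwards [h3, h4] with z h5 h6 hzU hzZ
  have h7 := h5 hzU (subset_toMeasurable _ _ hzZ)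
  have h8 := h6 hzU (subset_toMeasurable _ _ hzZ)
  ext w
  have : w = w.re • (1 : ℂ) + w.im • Complex.I := by simp
  rw [this, map_add, map_smul, map_smul, h7, h8]
  simp

/-! ### null sets and the area inequality -/

theorem null_image {U : Set ℂ} {Φ : ℂ → ℝ × ℝ} (hΦ : LocallyLipschitzOn U Φ) {N : Set ℂ}
    (hN : N ⊆ U) (h0 : volume N = 0) : volume (Φ '' N) = 0 := by
  choose! K t ht hK using fun z (hz : z ∈ U) => hΦ hz
  obtain ⟨T, hTU, hTc, hcov⟩ := TopologicalSpace.countable_cover_nhdsWithin ht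
  have key : ∀ z ∈ T, volume (Φ '' (N ∩ t z)) = 0 := by
    intro z hz
    set e : (ℝ × ℝ) ≃L[ℝ] ℂ := Complex.equivRealProdCLM.symm with he
    have h1 : LipschitzOnWith (K z * ‖(e : (ℝ × ℝ) →L[ℝ] ℂ)‖₊) (Φ ∘ e) (e ⁻¹' (N ∩ t z)) := by
      refine (hK z (hTU hz)).comp (e.lipschitz.lipschitzOnWith) ?_
      intro p hp
      exact hp.2
    have h2 : (e ⁻¹' (N ∩ t z)) = Complex.measurableEquivRealProd.symm ⁻¹' (N ∩ t z) := rfl
    have h3 : volume (e ⁻¹' (N ∩ t z)) = 0 := by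
      rw [h2, Complex.volume_preserving_equiv_real_prod.symm.measure_preimage_equiv]
      exact measure_mono_null inter_subset_left h0
    have h4 : (Φ ∘ e) '' (e ⁻¹' (N ∩ t z)) = Φ '' (N ∩ t z) := by
      rw [image_comp, image_preimage_eq _ e.surjective]
    rw [← h4, ← hausdorffMeasure_prod_real]
    rw [← nonpos_iff_eq_zero]
    refine (h1.hausdorffMeasure_image_le (by norm_num)).trans ?_
    rw [hausdorffMeasure_prod_real, h3, mul_zero]
  have h5 : Φ '' N ⊆ ⋃ z ∈ T, Φ '' (N ∩ t z) := by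
    rintro _ ⟨w, hw, rfl⟩
    obtain ⟨z, hz, hwz⟩ := mem_iUnion₂.1 (hcov (hN hw))
    exact mem_iUnion₂.2 ⟨z, hz, w, ⟨hw, hwz⟩, rfl⟩
  exact measure_mono_null h5 ((measure_biUnion_null_iff hTc).2 key)

theorem det_le (M L : ℂ →L[ℝ] ℝ) : |M 1 * L Complex.I - M Complex.I * L 1| ≤ ‖M‖ * ‖L‖ := by
  set u : ℂ := (L 1 : ℂ) + (L Complex.I : ℂ) * Complex.I with hu
  set w : ℂ := (L Complex.I : ℂ) - (L 1 : ℂ) * Complex.I with hw
  have h1 : M w = M 1 * L Complex.I - M Complex.I * L 1 := by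
    have : w = (L Complex.I) • (1 : ℂ) - (L 1) • Complex.I := by simp [hw]
    rw [this, map_sub, map_smul, map_smul, smul_eq_mul, smul_eq_mul]; ring
  have h2 : L u = ‖u‖ ^ 2 := by
    have : u = (L 1) • (1 : ℂ) + (L Complex.I) • Complex.I := by simp [hu]
    rw [Complex.sq_norm, Complex.normSq_apply]
    conv_lhs => rw [this, map_add, map_smul, map_smul, smul_eq_mul, smul_eq_mul]
    simp [hu]
  have h3 : ‖w‖ = ‖u‖ := by
    rw [← sq_eq_sq₀ (norm_nonneg _) (norm_nonneg _), Complex.sq_norm, Complex.sq_norm,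
      Complex.normSq_apply, Complex.normSq_apply]
    simp [hu, hw]; ring
  have h4 : ‖u‖ ≤ ‖L‖ := by
    have h5 : ‖u‖ ^ 2 ≤ ‖L‖ * ‖u‖ := by
      rw [← h2]; exact (le_abs_self _).trans (L.le_opNorm u)
    by_contra h6
    push Not at h6
    have : 0 < ‖u‖ := lt_of_le_of_lt (norm_nonneg L) h6
    nlinarith
  rw [← h1]
  calc |M w| ≤ ‖M‖ * ‖w‖ := M.le_opNorm w
    _ ≤ ‖M‖ * ‖L‖ := by rw [h3]; gcongr

theorem area_le {U : Set ℂ} (hU : IsOpen U) {a b : ℂ → ℝ} (ha : LocallyLipschitzOn U a)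
    (hb : LocallyLipschitzOn U b) {A : Set ℂ} (hA : MeasurableSet A) :
    volume ((fun z => (a z, b z)) '' (A ∩ U)) ≤
      ∫⁻ z in A ∩ U, ‖fderiv ℝ a z‖ₑ * ‖fderiv ℝ b z‖ₑ := by
  set D : Set ℂ := {z : ℂ | DifferentiableAt ℝ a z} ∩ {z : ℂ | DifferentiableAt ℝ b z} with hD
  have hDm : MeasurableSet D := (measurableSet_diff a).inter (measurableSet_diff b)
  have hAU : MeasurableSet (A ∩ U) := hA.inter hU.measurableSet
  have h0 : volume ((A ∩ U) \ D) = 0 := by
    have h1 := (ae_diff hU ha).and (ae_diff hU hb)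
    refine measure_mono_null ?_ h1
    rintro z ⟨⟨-, hzU⟩, hzD⟩ hz
    exact hzD ⟨hz.1 hzU, hz.2 hzU⟩
  have hlip : LocallyLipschitzOn U (fun z => (a z, b z)) := by
    intro z hz
    obtain ⟨K, t, ht, hK⟩ := ha hz
    obtain ⟨K', t', ht', hK'⟩ := hb hz
    exact ⟨max K K', t ∩ t', inter_mem ht ht',
      (hK.mono inter_subset_left).prodMk (hK'.mono inter_subset_right)⟩
  have hnull : volume ((fun z => (a z, b z)) '' ((A ∩ U) \ D)) = 0 :=
    null_image hlip (fun z hz => hz.1.2) h0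
  -- the differentiable part
  set G : Set ℂ := (A ∩ U) ∩ D with hG
  have hGm : MeasurableSet G := hAU.inter hDm
  set Ψ : ℂ → ℂ := fun z => (a z : ℂ) + (b z : ℂ) * Complex.I with hΨ
  set Ψ' : ℂ → ℂ →L[ℝ] ℂ := fun z => Complex.ofRealCLM.comp (fderiv ℝ a z) +
    Complex.I • (Complex.ofRealCLM.comp (fderiv ℝ b z)) with hΨ'
  have hd : ∀ z ∈ G, HasFDerivWithinAt Ψ (Ψ' z) G z := by
    rintro z ⟨-, hz, hz'⟩
    have h1 : HasFDerivAt (fun z => (a z : ℂ)) (Complex.ofRealCLM.comp (fderiv ℝ a z)) z :=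
      Complex.ofRealCLM.hasFDerivAt.comp z hz.hasFDerivAt
    have h2 : HasFDerivAt (fun z => (b z : ℂ)) (Complex.ofRealCLM.comp (fderiv ℝ b z)) z :=
      Complex.ofRealCLM.hasFDerivAt.comp z hz'.hasFDerivAt
    have h3 : HasFDerivAt (fun z => (b z : ℂ) * Complex.I)
        (Complex.I • (Complex.ofRealCLM.comp (fderiv ℝ b z))) z := by
      simpa [mul_comm] using h2.mul_const Complex.I
    exact (h1.add h3).hasFDerivWithinAt
  have hle := addHaar_image_le_lintegral_abs_det_fderiv volume hGm hd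
  have himg : (fun z => (a z, b z)) '' G = Complex.measurableEquivRealProd.symm ⁻¹' (Ψ '' G) := by
    ext p
    constructor
    · rintro ⟨z, hz, rfl⟩
      refine ⟨z, hz, ?_⟩
      apply Complex.measurableEquivRealProd.injective
      rw [MeasurableEquiv.apply_symm_apply]
      simp [hΨ]
    · rintro ⟨z, hz, hzp⟩
      refine ⟨z, hz, ?_⟩
      have h5 := congrArg Complex.measurableEquivRealProd hzp
      rw [MeasurableEquiv.apply_symm_apply] at h5
      rw [← h5]
      simp [hΨ]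
  have hvol : volume ((fun z => (a z, b z)) '' G) = volume (Ψ '' G) := by
    rw [himg, Complex.volume_preserving_equiv_real_prod.symm.measure_preimage_equiv]
  have hdet : ∀ z, ENNReal.ofReal |(Ψ' z).det| ≤ ‖fderiv ℝ a z‖ₑ * ‖fderiv ℝ b z‖ₑ := by
    intro z
    rw [det_eq]
    have h6 := det_le (fderiv ℝ a z) (fderiv ℝ b z)
    have h7 : (Ψ' z 1).re * (Ψ' z Complex.I).im - (Ψ' z Complex.I).re * (Ψ' z 1).im =
        fderiv ℝ a z 1 * fderiv ℝ b z Complex.I - fderiv ℝ a z Complex.I * fderiv ℝ b z 1 := by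
      simp [hΨ']
    rw [h7]
    calc ENNReal.ofReal _ ≤ ENNReal.ofReal (‖fderiv ℝ a z‖ * ‖fderiv ℝ b z‖) :=
          ENNReal.ofReal_le_ofReal h6
      _ = _ := by
          rw [ENNReal.ofReal_mul (norm_nonneg _), ofReal_norm, ofReal_norm]
  calc volume ((fun z => (a z, b z)) '' (A ∩ U))
      ≤ volume ((fun z => (a z, b z)) '' G ∪ (fun z => (a z, b z)) '' ((A ∩ U) \ D)) := by
        refine measure_mono ?_
        rw [← image_union, hG, inter_union_sdiff]
    _ ≤ volume ((fun z => (a z, b z)) '' G) + volume ((fun z => (a z, b z)) '' ((A ∩ U) \ D)) :=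
        measure_union_le _ _
    _ = volume (Ψ '' G) := by rw [hnull, add_zero, hvol]
    _ ≤ ∫⁻ z in G, ENNReal.ofReal |(Ψ' z).det| := hle
    _ ≤ ∫⁻ z in G, ‖fderiv ℝ a z‖ₑ * ‖fderiv ℝ b z‖ₑ := lintegral_mono fun z => hdet z
    _ ≤ ∫⁻ z in A ∩ U, ‖fderiv ℝ a z‖ₑ * ‖fderiv ℝ b z‖ₑ := by
        exact lintegral_mono_set inter_subset_left

end Crest.Agent.R105.Coa_392
end

-- ▼ part R105/Coa2_392
section

/-!
# Row 105, S0138, NI-COAREA (helper392), part 2: disintegration of `|∇a| dA` over the levels of `a`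
-/

set_option autoImplicit false

open MeasureTheory Set Filter Topology Metric ProbabilityTheory
open scoped ENNReal NNReal

namespace Crest.Agent.R105.Coa_392

theorem disint {U : Set ℂ} (hU : IsOpen U) {a : ℂ → ℝ} (ha : LocallyLipschitzOn U a) :
    ∃ m : ℝ → Measure ℂ, (∀ A, MeasurableSet A → Measurable fun t => m t A) ∧
      (∀ t, SigmaFinite (m t)) ∧
      (∀ t, m t {z | ¬ (z ∈ U ∧ a z = t)} = 0) ∧
      (∀ f : ℂ → ℝ≥0∞, Measurable f → Measurable (fun t => ∫⁻ z, f z ∂(m t)) ∧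
        ∫⁻ t, ∫⁻ z, f z ∂(m t) = ∫⁻ z in U, f z * ‖fderiv ℝ a z‖ₑ) := by
  classical
  set a' : ℂ → ℝ := U.indicator a with ha'def
  have ha' : Measurable a' := measurable_indicator hU ha.continuousOn
  set g0 : ℂ → ℝ≥0 := fun z => ‖fderiv ℝ a z‖₊ with hg0def
  have hg0 : Measurable g0 := (measurable_fderiv ℝ a).nnnorm
  set ν : Measure ℂ := (volume.restrict U).withDensity fun z => (g0 z : ℝ≥0∞) with hν
  have : SigmaFinite ν := SigmaFinite.withDensity g0
  obtain ⟨g, hgpos, hgm, hgfin⟩ := exists_pos_lintegral_lt_of_sigmaFinite ν one_ne_zero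
  set ν' : Measure ℂ := ν.withDensity fun z => (g z : ℝ≥0∞) with hν'
  have : IsFiniteMeasure ν' := ⟨by
    rw [hν', withDensity_apply _ MeasurableSet.univ, Measure.restrict_univ]
    exact hgfin.trans ENNReal.one_lt_top⟩
  have hm : Measurable fun z => (a' z, z) := ha'.prodMk measurable_id
  set ρ : Measure (ℝ × ℂ) := ν'.map fun z => (a' z, z) with hρ
  have : IsFiniteMeasure ρ := by rw [hρ]; infer_instance
  have hfst : ρ.fst = ν'.map a' := by
    rw [Measure.fst, hρ, Measure.map_map measurable_fst hm]; rfl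
  have hac : ρ.fst ≪ volume := by
    refine Measure.AbsolutelyContinuous.mk fun Z hZm hZ => ?_
    rw [hfst, Measure.map_apply ha' hZm]
    refine withDensity_absolutelyContinuous ν _ ?_
    rw [hν, withDensity_apply _ (ha' hZm)]
    refine lintegral_eq_zero_of_ae_eq_zero ?_
    rw [Measure.restrict_restrict (ha' hZm)]
    rw [Filter.EventuallyEq, ae_restrict_iff' ((ha' hZm).inter hU.measurableSet)]
    filter_upwards [grad_zero hU ha hZ] with z hz hz2
    have h1 : a z ∈ Z := by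
      have := hz2.1
      rwa [mem_preimage, ha'def, indicator_of_mem hz2.2] at this
    have h2 := hz hz2.2 h1
    simp [hg0def, h2]
  set r : ℝ → ℝ≥0∞ := ρ.fst.rnDeriv volume with hr
  have hrm : Measurable r := Measure.measurable_rnDeriv _ _
  set r' : ℝ → ℝ≥0 := fun t => (r t).toNNReal with hr'
  have hr'm : Measurable r' := hrm.ennreal_toNNReal
  have hrr : (fun t => (r' t : ℝ≥0∞)) =ᵐ[volume] r := by
    filter_upwards [Measure.rnDeriv_lt_top ρ.fst volume] with t ht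
    exact ENNReal.coe_toNNReal ht.ne
  have hwd : volume.withDensity (fun t => (r' t : ℝ≥0∞)) = ρ.fst := by
    rw [withDensity_congr_ae hrr]
    exact Measure.withDensity_rnDeriv_eq _ _ hac
  set κ : Kernel ℝ ℂ := ρ.condKernel with hκ
  set L : ℝ → Set ℂ := fun t => U ∩ a' ⁻¹' {t} with hL
  have hLm : ∀ t, MeasurableSet (L t) := fun t =>
    hU.measurableSet.inter (ha' (measurableSet_singleton t))
  set m : ℝ → Measure ℂ := fun t =>
    ((((r' t) • κ t)).withDensity (fun z => (((g z)⁻¹ : ℝ≥0) : ℝ≥0∞))).restrict (L t) with hmdef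
  -- the integral against `m t`
  set F : (ℂ → ℝ≥0∞) → ℝ × ℂ → ℝ≥0∞ := fun f =>
    ({p : ℝ × ℂ | p.2 ∈ U ∧ a' p.2 = p.1}).indicator
      (fun p => (((g p.2)⁻¹ : ℝ≥0) : ℝ≥0∞) * f p.2) with hF
  have hPm : MeasurableSet {p : ℝ × ℂ | p.2 ∈ U ∧ a' p.2 = p.1} :=
    (measurable_snd hU.measurableSet).inter
      (measurableSet_eq_fun (ha'.comp measurable_snd) measurable_fst)
  have hFm : ∀ f : ℂ → ℝ≥0∞, Measurable f → Measurable (F f) := by
    intro f hf
    exact (((hgm.inv.coe_nnreal_ennreal.comp measurable_snd).mul (hf.comp measurable_snd))).indicator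
      hPm
  have hint : ∀ f : ℂ → ℝ≥0∞, Measurable f → ∀ t,
      ∫⁻ z, f z ∂(m t) = (r' t : ℝ≥0∞) * ∫⁻ z, F f (t, z) ∂(κ t) := by
    intro f hf t
    rw [hmdef]
    simp only
    have hgi : Measurable (fun z => (((g z)⁻¹ : ℝ≥0) : ℝ≥0∞)) := hgm.inv.coe_nnreal_ennreal
    rw [← lintegral_indicator (hLm t), lintegral_withDensity_eq_lintegral_mul _
      hgi (hf.indicator (hLm t))]
    have hsm : ((r' t) • κ t : Measure ℂ) = ((r' t : ℝ≥0∞)) • κ t := rfl
    rw [hsm, lintegral_smul_measure, smul_eq_mul]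
    congr 1
    refine lintegral_congr fun z => ?_
    simp only [Pi.mul_apply, hF]
    by_cases hz : z ∈ L t
    · have hz' : ((t, z) : ℝ × ℂ) ∈ {p : ℝ × ℂ | p.2 ∈ U ∧ a' p.2 = p.1} := ⟨hz.1, hz.2⟩
      rw [indicator_of_mem hz, indicator_of_mem hz']
    · have hz' : ((t, z) : ℝ × ℂ) ∉ {p : ℝ × ℂ | p.2 ∈ U ∧ a' p.2 = p.1} := fun h => hz ⟨h.1, h.2⟩
      rw [indicator_of_notMem hz, indicator_of_notMem hz', mul_zero]
  have hmeas : ∀ f : ℂ → ℝ≥0∞, Measurable f → Measurable (fun t => ∫⁻ z, f z ∂(m t)) := by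
    intro f hf
    have : (fun t => ∫⁻ z, f z ∂(m t)) = fun t => (r' t : ℝ≥0∞) * ∫⁻ z, F f (t, z) ∂(κ t) :=
      funext fun t => hint f hf t
    rw [this]
    exact hr'm.coe_nnreal_ennreal.mul ((hFm f hf).lintegral_kernel_prod_right' (κ := κ))
  refine ⟨m, ?_, ?_, ?_, ?_⟩
  · intro A hA
    have := hmeas (A.indicator 1) (measurable_one.indicator hA)
    simpa [lintegral_indicator_one hA] using this
  · intro t
    rw [hmdef]
    infer_instance
  · intro t
    have h1 : {z : ℂ | ¬ (z ∈ U ∧ a z = t)} = (L t)ᶜ := by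
      ext z
      simp only [hL, mem_ofPred_eq, mem_compl_iff, mem_inter_iff, mem_preimage, mem_singleton_iff,
        ha'def, not_iff_not]
      constructor
      · rintro ⟨h, h'⟩
        exact ⟨h, by rwa [indicator_of_mem h]⟩
      · rintro ⟨h, h'⟩
        exact ⟨h, by rwa [indicator_of_mem h] at h'⟩
    rw [h1, hmdef]
    simp only
    rw [Measure.restrict_apply (hLm t).compl]
    simp
  · intro f hf
    refine ⟨hmeas f hf, ?_⟩
    calc ∫⁻ t, ∫⁻ z, f z ∂(m t) = ∫⁻ t, (r' t : ℝ≥0∞) * ∫⁻ z, F f (t, z) ∂(κ t) :=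
          lintegral_congr fun t => hint f hf t
      _ = ∫⁻ t, ∫⁻ z, F f (t, z) ∂(κ t) ∂(volume.withDensity (fun t => (r' t : ℝ≥0∞))) := by
          rw [lintegral_withDensity_eq_lintegral_mul _ hr'm.coe_nnreal_ennreal
            ((hFm f hf).lintegral_kernel_prod_right' (κ := κ))]
          rfl
      _ = ∫⁻ p, F f p ∂(ρ.fst ⊗ₘ κ) := by
          rw [hwd, Measure.lintegral_compProd (hFm f hf)]
      _ = ∫⁻ p, F f p ∂ρ := by rw [hκ, Measure.disintegrate]
      _ = ∫⁻ z, F f (a' z, z) ∂ν' := by rw [hρ, lintegral_map (hFm f hf) hm]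
      _ = ∫⁻ z, (g z : ℝ≥0∞) * F f (a' z, z) ∂ν := by
          have h7 := lintegral_withDensity_eq_lintegral_mul ν hgm.coe_nnreal_ennreal
            ((hFm f hf).comp hm)
          exact h7
      _ = ∫⁻ z in U, (g0 z : ℝ≥0∞) * ((g z : ℝ≥0∞) * F f (a' z, z)) := by
          have h7 := lintegral_withDensity_eq_lintegral_mul (volume.restrict U)
            hg0.coe_nnreal_ennreal (hgm.coe_nnreal_ennreal.mul ((hFm f hf).comp hm))
          exact h7
      _ = ∫⁻ z in U, f z * ‖fderiv ℝ a z‖ₑ := by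
          refine setLIntegral_congr_fun hU.measurableSet fun z hz => ?_
          have hz' : ((a' z, z) : ℝ × ℂ) ∈ {p : ℝ × ℂ | p.2 ∈ U ∧ a' p.2 = p.1} := ⟨hz, rfl⟩
          simp only [hF]
          rw [indicator_of_mem hz', ← mul_assoc (g z : ℝ≥0∞), ← ENNReal.coe_mul,
            mul_inv_cancel₀ (hgpos z).ne', ENNReal.coe_one, one_mul, mul_comm]
          rfl

end Crest.Agent.R105.Coa_392
end

-- ▼ part R105/Coa3_392
section

/-!
# Row 105, S0138, NI-COAREA (helper392), part 3: slice area inequality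
-/

set_option autoImplicit false

open MeasureTheory Set Filter Topology Metric ProbabilityTheory
open scoped ENNReal NNReal

namespace Crest.Agent.R105.Coa_392

/-- `m` is a disintegration of `|∇a| dA` on `U` over the levels of `a` -/
structure Disint (U : Set ℂ) (a : ℂ → ℝ) (m : ℝ → Measure ℂ) : Prop where
  meas : ∀ A, MeasurableSet A → Measurable fun t => m t A
  sfin : ∀ t, SigmaFinite (m t)
  conc : ∀ t, m t {z | ¬ (z ∈ U ∧ a z = t)} = 0
  measf : ∀ f : ℂ → ℝ≥0∞, Measurable f → Measurable (fun t => ∫⁻ z, f z ∂(m t))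
  coarea : ∀ f : ℂ → ℝ≥0∞, Measurable f →
    ∫⁻ t, ∫⁻ z, f z ∂(m t) = ∫⁻ z in U, f z * ‖fderiv ℝ a z‖ₑ

theorem exists_disint {U : Set ℂ} (hU : IsOpen U) {a : ℂ → ℝ} (ha : LocallyLipschitzOn U a) :
    ∃ m, Disint U a m := by
  obtain ⟨m, h1, h2, h3, h4⟩ := disint hU ha
  exact ⟨m, h1, h2, h3, fun f hf => (h4 f hf).1, fun f hf => (h4 f hf).2⟩

namespace Disint

variable {U : Set ℂ} {a : ℂ → ℝ} {m : ℝ → Measure ℂ}

/-- coarea formula on a slab -/
theorem coarea_slab (hU : IsOpen U) (ha : ContinuousOn a U) (h : Disint U a m) {T : Set ℝ}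
    (hT : MeasurableSet T) {A : Set ℂ} (hA : MeasurableSet A) {f : ℂ → ℝ≥0∞} (hf : Measurable f) :
    ∫⁻ t in T, ∫⁻ z in A, f z ∂(m t) =
      ∫⁻ z in (A ∩ (U ∩ a ⁻¹' T)), f z * ‖fderiv ℝ a z‖ₑ := by
  classical
  have ha' := measurable_indicator hU ha
  set B : Set ℂ := A ∩ ((U.indicator a) ⁻¹' T) with hB
  have hBm : MeasurableSet B := hA.inter (ha' hT)
  have h1 := h.coarea (B.indicator f) (hf.indicator hBm)
  have h2 : ∀ t, ∫⁻ z, B.indicator f z ∂(m t) = T.indicator (fun t => ∫⁻ z in A, f z ∂(m t)) t := by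
    intro t
    rw [lintegral_indicator hBm]
    have h3 : ∀ᵐ z ∂(m t), z ∈ U ∧ a z = t := h.conc t
    by_cases ht : t ∈ T
    · rw [indicator_of_mem ht]
      refine setLIntegral_congr ?_
      filter_upwards [h3] with z hz
      have h4 : (z ∈ B) = (z ∈ A) := by
        rw [hB]
        simp only [mem_inter_iff, mem_preimage, indicator_of_mem hz.1, hz.2, ht, and_true]
      exact h4
    · rw [indicator_of_notMem ht]
      have h5 : m t B = 0 := by
        refine measure_mono_null ?_ (h.conc t)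
        rintro z ⟨-, hz⟩ hz'
        rw [mem_preimage, indicator_of_mem hz'.1, hz'.2] at hz
        exact ht hz
      exact setLIntegral_measure_zero _ _ h5
  have h6 : ∫⁻ t, ∫⁻ z, B.indicator f z ∂(m t) = ∫⁻ t in T, ∫⁻ z in A, f z ∂(m t) := by
    rw [lintegral_congr h2, lintegral_indicator hT]
  rw [← h6, h1]
  have h7 : ∀ z, B.indicator f z * ‖fderiv ℝ a z‖ₑ =
      B.indicator (fun z => f z * ‖fderiv ℝ a z‖ₑ) z := by
    intro z
    by_cases hz : z ∈ B
    · rw [indicator_of_mem hz, indicator_of_mem hz]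
    · rw [indicator_of_notMem hz, indicator_of_notMem hz, zero_mul]
  rw [lintegral_congr h7, lintegral_indicator hBm, Measure.restrict_restrict hBm]
  congr 2
  ext z
  simp only [hB, mem_inter_iff, mem_preimage]
  constructor
  · rintro ⟨⟨h8, h9⟩, h10⟩
    rw [indicator_of_mem h10] at h9
    exact ⟨h8, h10, h9⟩
  · rintro ⟨h8, h10, h9⟩
    refine ⟨⟨h8, ?_⟩, h10⟩
    rw [indicator_of_mem h10]; exact h9

end Disint

/-! ### the slice inequality for one open set -/

theorem sigma_open {V : Set ℂ} (hV : IsOpen V) : ∃ K : ℕ → Set ℂ, (∀ n, IsCompact (K n)) ∧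
    (∀ n, K n ⊆ V) ∧ ⋃ n, K n = V := by
  have h1 : IsSigmaCompact V := by
    have : IsLocallyClosed V := hV.isLocallyClosed
    have : SigmaCompactSpace V := by
      have : LocallyCompactSpace V := hV.locallyCompactSpace
      infer_instance
    exact isSigmaCompact_iff_sigmaCompactSpace.2 inferInstance
  obtain ⟨K, hK, hKV⟩ := h1
  exact ⟨K, hK, fun n => by rw [← hKV]; exact subset_iUnion K n, hKV⟩

theorem measurable_image {U : Set ℂ} (hU : IsOpen U) {a b : ℂ → ℝ} (ha : ContinuousOn a U)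
    (hb : ContinuousOn b U) {A : Set ℂ} (hA : IsOpen A) :
    MeasurableSet ((fun z => (a z, b z)) '' (A ∩ U)) := by
  obtain ⟨K, hK, hKV, hKU⟩ := sigma_open (hA.inter hU)
  rw [← hKU, image_iUnion]
  refine MeasurableSet.iUnion fun n => ?_
  have hc : ContinuousOn (fun z => (a z, b z)) (K n) :=
    (ha.prodMk hb).mono ((hKV n).trans inter_subset_right)
  exact ((hK n).image_of_continuousOn hc).isClosed.measurableSet

theorem slice_one {U : Set ℂ} (hU : IsOpen U) {a b : ℂ → ℝ} {m : ℝ → Measure ℂ}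
    (ha : LocallyLipschitzOn U a) (h : Disint U a m) (hb : LocallyLipschitzOn U b) {A : Set ℂ}
    (hA : IsOpen A) :
    ∀ᵐ t, volume (b '' (A ∩ (U ∩ a ⁻¹' {t}))) ≤ ∫⁻ z in A, ‖fderiv ℝ b z‖ₑ ∂(m t) := by
  have hac := ha.continuousOn
  have hbc := hb.continuousOn
  set S : Set (ℝ × ℝ) := (fun z => (a z, b z)) '' (A ∩ U) with hS
  have hSm : MeasurableSet S := measurable_image hU hac hbc hA
  have hslice : ∀ t, Prod.mk t ⁻¹' S = b '' (A ∩ (U ∩ a ⁻¹' {t})) := by
    intro t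
    ext s
    constructor
    · rintro ⟨z, hz, hzs⟩
      simp only [Prod.mk.injEq] at hzs
      exact ⟨z, ⟨hz.1, hz.2, hzs.1⟩, hzs.2⟩
    · rintro ⟨z, ⟨hz1, hz2, hz3⟩, rfl⟩
      refine ⟨z, ⟨hz1, hz2⟩, ?_⟩
      have : a z = t := hz3
      simp [this]
  have hF : Measurable fun t => volume (Prod.mk t ⁻¹' S) := measurable_measure_prodMk_left hSm
  have hbm : Measurable fun z => ‖fderiv ℝ b z‖ₑ := (measurable_fderiv ℝ b).enorm
  have key := ae_le_of_forall_setLIntegral_le_of_sigmaFinite (μ := volume)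
    (g := fun t => ∫⁻ z in A, ‖fderiv ℝ b z‖ₑ ∂(m t)) hF ?_
  · filter_upwards [key] with t ht
    rwa [hslice] at ht
  · intro T hT _
    rw [h.coarea_slab hU hac hT hA.measurableSet hbm]
    have h1 : ∫⁻ t in T, volume (Prod.mk t ⁻¹' S) = volume (S ∩ (T ×ˢ univ)) := by
      rw [Measure.volume_eq_prod, Measure.prod_apply (hSm.inter (hT.prod MeasurableSet.univ)),
        ← lintegral_indicator hT]
      refine lintegral_congr fun t => ?_
      by_cases ht : t ∈ T
      · rw [indicator_of_mem ht]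
        congr 1
        ext s
        simp [ht]
      · rw [indicator_of_notMem ht]
        have : Prod.mk t ⁻¹' (S ∩ (T ×ˢ univ)) = ∅ := by
          ext s
          simp [ht]
        rw [this, measure_empty]
    have h2 : S ∩ (T ×ˢ univ) = (fun z => (a z, b z)) '' ((A ∩ (U.indicator a) ⁻¹' T) ∩ U) := by
      ext p
      constructor
      · rintro ⟨⟨z, hz, rfl⟩, hp, -⟩
        refine ⟨z, ⟨⟨hz.1, ?_⟩, hz.2⟩, rfl⟩
        rw [mem_preimage, indicator_of_mem hz.2]; exact hp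
      · rintro ⟨z, ⟨⟨hz1, hz2⟩, hz3⟩, rfl⟩
        rw [mem_preimage, indicator_of_mem hz3] at hz2
        exact ⟨⟨z, ⟨hz1, hz3⟩, rfl⟩, hz2, mem_univ _⟩
    rw [h1, h2]
    refine (area_le hU ha hb (hA.measurableSet.inter (measurable_indicator hU hac hT))).trans ?_
    refine le_of_eq ?_
    have h3 : (A ∩ (U.indicator a) ⁻¹' T) ∩ U = A ∩ (U ∩ a ⁻¹' T) := by
      ext z
      simp only [mem_inter_iff, mem_preimage]
      constructor
      · rintro ⟨⟨h8, h9⟩, h10⟩
        rw [indicator_of_mem h10] at h9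
        exact ⟨h8, h10, h9⟩
      · rintro ⟨h8, h10, h9⟩
        refine ⟨⟨h8, ?_⟩, h10⟩
        rw [indicator_of_mem h10]; exact h9
    rw [h3]
    exact lintegral_congr fun z => mul_comm _ _

/-! ### all open and closed sets at once -/

theorem slice_all {U : Set ℂ} (hU : IsOpen U) {a b : ℂ → ℝ} {m : ℝ → Measure ℂ}
    (ha : LocallyLipschitzOn U a) (h : Disint U a m) (hb : LocallyLipschitzOn U b)
    (hfin : ∀ R : ℝ, ∫⁻ z in U ∩ ball 0 R, ‖fderiv ℝ a z‖ₑ * ‖fderiv ℝ b z‖ₑ < ⊤) :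
    ∀ᵐ t, (∀ R : ℝ, ∫⁻ z in ball 0 R, ‖fderiv ℝ b z‖ₑ ∂(m t) < ⊤) ∧
      ∀ C, IsOpen C ∨ IsClosed C →
        volume (b '' (C ∩ (U ∩ a ⁻¹' {t}))) ≤ ∫⁻ z in C, ‖fderiv ℝ b z‖ₑ ∂(m t) := by
  have hbm : Measurable fun z => ‖fderiv ℝ b z‖ₑ := (measurable_fderiv ℝ b).enorm
  -- a countable family of open sets
  set 𝓑 : Set (Set ℂ) := TopologicalSpace.countableBasis ℂ with h𝓑
  have hB : TopologicalSpace.IsTopologicalBasis 𝓑 := TopologicalSpace.isBasis_countableBasis ℂ
  have hBc : 𝓑.Countable := TopologicalSpace.countable_countableBasis ℂ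
  set 𝓕 : Set (Set (Set ℂ)) := {F | F.Finite ∧ F ⊆ 𝓑} with h𝓕
  have hFc : 𝓕.Countable := Set.countable_ofPred_finite_subset hBc
  have hFo : ∀ F ∈ 𝓕, IsOpen (⋃₀ F) := fun F hF => isOpen_sUnion fun B hBF => hB.isOpen (hF.2 hBF)
  have h1 : ∀ᵐ t, ∀ F ∈ 𝓕, volume (b '' ((⋃₀ F) ∩ (U ∩ a ⁻¹' {t}))) ≤
      ∫⁻ z in ⋃₀ F, ‖fderiv ℝ b z‖ₑ ∂(m t) :=
    (ae_ball_iff hFc).2 fun F hF => slice_one hU ha h hb (hFo F hF)
  have h2 : ∀ᵐ t, ∀ n : ℕ, ∫⁻ z in ball 0 (n : ℝ), ‖fderiv ℝ b z‖ₑ ∂(m t) < ⊤ := by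
    refine ae_all_iff.2 fun n => ?_
    have h3 := h.coarea_slab hU ha.continuousOn (T := univ) MeasurableSet.univ
      (A := ball 0 (n : ℝ)) measurableSet_ball hbm
    rw [Measure.restrict_univ] at h3
    refine ae_lt_top' ?_ ?_
    · have h4 := h.measf ((ball (0 : ℂ) (n : ℝ)).indicator fun z => ‖fderiv ℝ b z‖ₑ)
        (hbm.indicator measurableSet_ball)
      simp only [lintegral_indicator measurableSet_ball] at h4
      exact h4.aemeasurable
    · rw [h3]
      refine (lt_of_le_of_lt (le_of_eq ?_) (hfin n)).ne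
      have h5 : ball (0 : ℂ) (n : ℝ) ∩ (U ∩ a ⁻¹' univ) = U ∩ ball 0 (n : ℝ) := by
        rw [preimage_univ, inter_univ, inter_comm]
      rw [h5]
      exact lintegral_congr fun z => mul_comm _ _
  filter_upwards [h1, h2] with t ht1 ht2
  set L : Set ℂ := U ∩ a ⁻¹' {t} with hL
  -- open sets
  have hopen : ∀ W, IsOpen W → volume (b '' (W ∩ L)) ≤ ∫⁻ z in W, ‖fderiv ℝ b z‖ₑ ∂(m t) := by
    intro W hW
    have hWB : W = ⋃₀ {B ∈ 𝓑 | B ⊆ W} := hB.open_eq_sUnion' hW
    rcases W.eq_empty_or_nonempty with rfl | hne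
    · simp
    have hne' : ({B ∈ 𝓑 | B ⊆ W}).Nonempty := by
      rw [hWB] at hne
      obtain ⟨z, B, hB1, -⟩ := hne
      exact ⟨B, by simpa [← hWB] using hB1⟩
    obtain ⟨e, he⟩ := (hBc.mono (sep_subset 𝓑 (fun B => B ⊆ W))).exists_eq_range hne'
    have he1 : ∀ n, e n ∈ 𝓑 ∧ e n ⊆ W := fun n => by
      have : e n ∈ {B ∈ 𝓑 | B ⊆ W} := by rw [he]; exact mem_range_self n
      exact this
    set A : ℕ → Set ℂ := fun n => ⋃₀ (e '' Iic n) with hA
    have hAF : ∀ n, e '' Iic n ∈ 𝓕 := fun n =>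
      ⟨(finite_Iic n).image e, by rintro _ ⟨i, -, rfl⟩; exact (he1 i).1⟩
    have hAW : ∀ n, A n ⊆ W := fun n => sUnion_subset (by rintro _ ⟨i, -, rfl⟩; exact (he1 i).2)
    have hAm : Monotone fun n => b '' (A n ∩ L) := by
      intro n k hnk
      refine image_mono (inter_subset_inter_left _ (sUnion_mono (image_mono ?_)))
      exact Iic_subset_Iic.2 hnk
    have hAU : b '' (W ∩ L) = ⋃ n, b '' (A n ∩ L) := by
      rw [← image_iUnion, ← iUnion_inter]
      congr 2
      refine Subset.antisymm ?_ (iUnion_subset hAW)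
      intro z hz
      rw [hWB, he] at hz
      obtain ⟨_, ⟨n, rfl⟩, hzn⟩ := hz
      exact mem_iUnion.2 ⟨n, e n, ⟨n, le_refl n, rfl⟩, hzn⟩
    rw [hAU, hAm.measure_iUnion]
    exact iSup_le fun n => (ht1 _ (hAF n)).trans (lintegral_mono_set (hAW n))
  have hball : ∀ R : ℝ, ∫⁻ z in ball 0 R, ‖fderiv ℝ b z‖ₑ ∂(m t) < ⊤ := by
    intro R
    obtain ⟨n, hn⟩ := exists_nat_ge R
    exact lt_of_le_of_lt (lintegral_mono_set (ball_subset_ball hn)) (ht2 n)
  refine ⟨hball, ?_⟩
  rintro C (hC | hC)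
  · exact hopen C hC
  -- closed sets
  set μ' : Measure ℂ := (m t).withDensity fun z => ‖fderiv ℝ b z‖ₑ with hμ'
  have hμ : ∀ A, MeasurableSet A → μ' A = ∫⁻ z in A, ‖fderiv ℝ b z‖ₑ ∂(m t) := fun A hA =>
    withDensity_apply _ hA
  have hbd : ∀ n : ℕ, volume (b '' ((C ∩ closedBall 0 (n : ℝ)) ∩ L)) ≤
      ∫⁻ z in C, ‖fderiv ℝ b z‖ₑ ∂(m t) := by
    intro n
    have hCn : IsClosed (C ∩ closedBall (0 : ℂ) (n : ℝ)) := hC.inter isClosed_closedBall
    have hsub : thickening 1 (C ∩ closedBall (0 : ℂ) (n : ℝ)) ⊆ ball 0 ((n : ℝ) + 2) := by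
      intro z hz
      obtain ⟨w, hw, hzw⟩ := mem_thickening_iff.1 hz
      have h6 : dist w 0 ≤ n := hw.2
      rw [mem_ball]
      calc dist z 0 ≤ dist z w + dist w 0 := dist_triangle _ _ _
        _ < (n : ℝ) + 2 := by linarith
    have hT : Tendsto (fun r => μ' (thickening r (C ∩ closedBall (0 : ℂ) (n : ℝ)))) (𝓝[>] 0)
        (𝓝 (μ' (C ∩ closedBall (0 : ℂ) (n : ℝ)))) := by
      refine tendsto_measure_thickening_of_isClosed ⟨1, one_pos, ?_⟩ hCn
      refine (lt_of_le_of_lt (measure_mono hsub) ?_).ne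
      rw [hμ _ measurableSet_ball]
      exact hball _
    have h7 : volume (b '' ((C ∩ closedBall 0 (n : ℝ)) ∩ L)) ≤
        μ' (C ∩ closedBall (0 : ℂ) (n : ℝ)) := by
      refine ge_of_tendsto hT ?_
      filter_upwards [self_mem_nhdsWithin] with r hr
      rw [hμ _ isOpen_thickening.measurableSet]
      refine (measure_mono ?_).trans (hopen _ isOpen_thickening)
      exact image_mono (inter_subset_inter_left _ (self_subset_thickening hr _))
    refine h7.trans ?_
    rw [hμ _ hCn.measurableSet]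
    exact lintegral_mono_set inter_subset_left
  have hCm : Monotone fun n : ℕ => b '' ((C ∩ closedBall 0 (n : ℝ)) ∩ L) := by
    intro n k hnk
    refine image_mono (inter_subset_inter_left _ (inter_subset_inter_right _ ?_))
    exact closedBall_subset_closedBall (by exact_mod_cast hnk)
  have hCU : b '' (C ∩ L) = ⋃ n : ℕ, b '' ((C ∩ closedBall 0 (n : ℝ)) ∩ L) := by
    rw [← image_iUnion, ← iUnion_inter, ← inter_iUnion]
    congr 2
    refine (inter_eq_self_of_subset_left ?_).symm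
    intro z _
    obtain ⟨n, hn⟩ := exists_nat_ge (dist z 0)
    exact mem_iUnion.2 ⟨n, hn⟩
  rw [hCU, hCm.measure_iUnion]
  exact iSup_le hbd

end Crest.Agent.R105.Coa_392
end

-- ▼ part R105/Coa4_392

/-!
# Row 105, S0138, NI-COAREA (helper392), part 4: the literal statement and consequences
-/

set_option autoImplicit false

open MeasureTheory Set Filter Topology Metric ProbabilityTheory
open scoped ENNReal NNReal

namespace Crest.Agent.R105.Coa_392

/-- **COAREA**: one family `m` for all `b` -/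
theorem coarea {U : Set ℂ} (hU : IsOpen U) {a : ℂ → ℝ} (ha : LocallyLipschitzOn U a) :
    ∃ m : ℝ → Measure ℂ, (∀ A, MeasurableSet A → Measurable fun t => m t A) ∧
      (∀ t, SigmaFinite (m t)) ∧
      (∀ t, m t {z | ¬ (z ∈ U ∧ a z = t)} = 0) ∧
      (∀ f : ℂ → ℝ≥0∞, Measurable f →
        ∫⁻ t, ∫⁻ z, f z ∂(m t) = ∫⁻ z in U, f z * ‖fderiv ℝ a z‖ₑ) ∧
      (∀ b : ℂ → ℝ, LocallyLipschitzOn U b →
        (∀ R : ℝ, ∫⁻ z in U ∩ ball 0 R, ‖fderiv ℝ a z‖ₑ * ‖fderiv ℝ b z‖ₑ < ⊤) →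
        ∀ᵐ t, (∀ R : ℝ, ∫⁻ z in ball 0 R, ‖fderiv ℝ b z‖ₑ ∂(m t) < ⊤) ∧
          ∀ C, IsOpen C ∨ IsClosed C →
            volume (b '' (C ∩ U ∩ a ⁻¹' {t})) ≤ ∫⁻ z in C, ‖fderiv ℝ b z‖ₑ ∂(m t)) := by
  obtain ⟨m, h⟩ := exists_disint hU ha
  refine ⟨m, h.meas, h.sfin, h.conc, h.coarea, fun b hb hfin => ?_⟩
  filter_upwards [slice_all hU ha h hb hfin] with t ht
  refine ⟨ht.1, fun C hC => ?_⟩
  rw [inter_assoc]
  exact ht.2 C hC

namespace Disint

variable {U : Set ℂ} {a : ℂ → ℝ} {m : ℝ → Measure ℂ}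





end Disint

end Crest.Agent.R105.Coa_392
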