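import Mathlib

-- ▼ part R105/Cof2_430
section

/-!
# Row 105, COFAT, part 2 (helper430): length of a Lipschitz image of a curve

`curve_len` : `S ⊆ ℝ` open, `h : ℝ → ℂ` of class `C¹` on `S`, `φ` 1-Lipschitz:
`volume (φ ∘ h '' S) ≤ ∫⁻ x in S, ‖h' x‖ₑ`.
-/

set_option autoImplicit false

open Set Filter Metric Topology MeasureTheory
open scoped ENNReal

namespace Crest.Agent.R105.Cof_430

theorem edist_le_of_Icc {h h' : ℝ → ℂ} {a b : ℝ} (hab : a ≤ b)
    (hd : ∀ x ∈ Icc a b, HasDerivAt h (h' x) x) (hc : ContinuousOn h' (Icc a b)) :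
    edist (h a) (h b) ≤ ∫⁻ x in Icc a b, ‖h' x‖ₑ := by
  have h1 : ∫ x in a..b, h' x = h b - h a :=
    intervalIntegral.integral_eq_sub_of_hasDerivAt (by rwa [uIcc_of_le hab])
      (ContinuousOn.intervalIntegrable (by rwa [uIcc_of_le hab]))
  rw [edist_comm, edist_eq_enorm_sub, ← h1, intervalIntegral.integral_of_le hab]
  refine (enorm_integral_le_lintegral_enorm _).trans ?_
  exact lintegral_mono_set Ioc_subset_Icc_self

theorem vol_Icc {h h' : ℝ → ℂ} {φ : ℂ → ℝ} (hφ : LipschitzWith 1 φ) {a b : ℝ}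
    (hd : ∀ x ∈ Icc a b, HasDerivAt h (h' x) x) (hc : ContinuousOn h' (Icc a b)) :
    volume ((φ ∘ h) '' Icc a b) ≤ ∫⁻ x in Icc a b, ‖h' x‖ₑ := by
  refine (Real.volume_le_diam _).trans (Metric.ediam_le ?_)
  have key : ∀ s ∈ Icc a b, ∀ t ∈ Icc a b, s ≤ t →
      edist (φ (h s)) (φ (h t)) ≤ ∫⁻ x in Icc a b, ‖h' x‖ₑ := by
    intro s hs t ht hst
    have hsub : Icc s t ⊆ Icc a b := Icc_subset_Icc hs.1 ht.2
    have h1 : edist (φ (h s)) (φ (h t)) ≤ edist (h s) (h t) := by
      simpa using hφ (h s) (h t)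
    exact h1.trans ((edist_le_of_Icc hst (fun x hx => hd x (hsub hx)) (hc.mono hsub)).trans
      (lintegral_mono_set hsub))
  rintro _ ⟨s, hs, rfl⟩ _ ⟨t, ht, rfl⟩
  rcases le_total s t with hst | hst
  · exact key s hs t ht hst
  · rw [edist_comm]; exact key t ht s hs hst

/-- dyadic interval of level `n` around `x` -/
noncomputable def dy (n : ℕ) (k : ℤ) : Set ℝ := Icc ((k : ℝ) / 2 ^ n) (((k : ℝ) + 1) / 2 ^ n)

noncomputable def dyo (n : ℕ) (k : ℤ) : Set ℝ := Ico ((k : ℝ) / 2 ^ n) (((k : ℝ) + 1) / 2 ^ n)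

theorem mem_dyo {n : ℕ} {k : ℤ} {x : ℝ} : x ∈ dyo n k ↔ ⌊2 ^ n * x⌋ = k := by
  have h2 : (0 : ℝ) < 2 ^ n := by positivity
  rw [dyo, mem_Ico, Int.floor_eq_iff, div_le_iff₀ h2, lt_div_iff₀ h2, mul_comm x]

theorem dyo_subset (n : ℕ) (k : ℤ) : dyo n k ⊆ dy n k := Ico_subset_Icc_self

/-- union of the dyadic intervals of level `n` whose closure is in `S` -/
noncomputable def part (S : Set ℝ) (n : ℕ) : Set ℝ := ⋃ k : {k : ℤ // dy n k ⊆ S}, dyo n k

theorem mem_part {S : Set ℝ} {n : ℕ} {x : ℝ} : x ∈ part S n ↔ dy n ⌊2 ^ n * x⌋ ⊆ S := by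
  constructor
  · intro hx
    obtain ⟨⟨k, hk⟩, hxk⟩ := mem_iUnion.1 hx
    rw [mem_dyo] at hxk
    rw [hxk]; exact hk
  · intro h
    exact mem_iUnion.2 ⟨⟨_, h⟩, mem_dyo.2 rfl⟩

theorem part_mono (S : Set ℝ) : Monotone (part S) := by
  refine monotone_nat_of_le_succ fun n x hx => ?_
  rw [mem_part] at hx ⊢
  refine Subset.trans ?_ hx
  have h2 : (0 : ℝ) < 2 ^ n := by positivity
  set m := ⌊2 ^ n * x⌋ with hm
  set m' := ⌊2 ^ (n + 1) * x⌋ with hm'
  have e1 := Int.floor_le (2 ^ n * x)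
  have e2 := Int.lt_floor_add_one (2 ^ n * x)
  rw [← hm] at e1 e2
  have e3 : 2 * m ≤ m' := by
    rw [hm', Int.le_floor]
    push_cast
    rw [pow_succ]; linarith
  have e4 : m' ≤ 2 * m + 1 := by
    rw [← Int.lt_add_one_iff, hm', Int.floor_lt]
    push_cast
    rw [pow_succ]; linarith
  have e3' : 2 * (m : ℝ) ≤ m' := by exact_mod_cast e3
  have e4' : (m' : ℝ) ≤ 2 * m + 1 := by exact_mod_cast e4
  refine Icc_subset_Icc ?_ ?_
  · rw [div_le_div_iff₀ h2 (by positivity), pow_succ]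
    nlinarith
  · rw [div_le_div_iff₀ (by positivity) h2, pow_succ]
    nlinarith

theorem iUnion_part {S : Set ℝ} (hS : IsOpen S) : ⋃ n, part S n = S := by
  apply Subset.antisymm
  · refine iUnion_subset fun n x hx => ?_
    have h1 := mem_part.1 hx
    exact h1 (dyo_subset _ _ (mem_dyo.2 rfl))
  · intro x hx
    obtain ⟨r, hr, hb⟩ := Metric.isOpen_iff.1 hS x hx
    obtain ⟨n, hn⟩ := exists_pow_lt_of_lt_one hr (by norm_num : (1 / 2 : ℝ) < 1)
    refine mem_iUnion.2 ⟨n, mem_part.2 (Subset.trans ?_ hb)⟩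
    have h2 : (0 : ℝ) < 2 ^ n := by positivity
    intro y hy
    rw [Real.ball_eq_Ioo]
    have e0 : (1 / 2 : ℝ) ^ n = 1 / 2 ^ n := by rw [one_div, inv_pow, one_div]
    rw [e0] at hn
    have e1 := Int.floor_le (2 ^ n * x)
    have e2 := Int.lt_floor_add_one (2 ^ n * x)
    obtain ⟨y1, y2⟩ := hy
    rw [div_le_iff₀ h2] at y1
    rw [le_div_iff₀ h2] at y2
    rw [div_lt_iff₀ h2] at hn
    constructor
    · by_contra hcon
      push Not at hcon
      nlinarith
    · by_contra hcon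
      push Not at hcon
      nlinarith

/-- **Length of a Lipschitz image of a curve.** -/
theorem curve_len {S : Set ℝ} (hS : IsOpen S) {h h' : ℝ → ℂ} {φ : ℂ → ℝ} (hφ : LipschitzWith 1 φ)
    (hd : ∀ x ∈ S, HasDerivAt h (h' x) x) (hc : ContinuousOn h' S) :
    volume ((φ ∘ h) '' S) ≤ ∫⁻ x in S, ‖h' x‖ₑ := by
  have h1 : (φ ∘ h) '' S = ⋃ n, (φ ∘ h) '' part S n := by
    rw [← image_iUnion, iUnion_part hS]
  have hmono : Monotone fun n => (φ ∘ h) '' part S n := fun m n hmn =>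
    image_mono (part_mono S hmn)
  rw [h1, hmono.measure_iUnion]
  refine iSup_le fun n => ?_
  have hle : ∀ k : {k : ℤ // dy n k ⊆ S},
      volume ((φ ∘ h) '' dyo n k) ≤ ∫⁻ x in dyo n k, ‖h' x‖ₑ := by
    intro k
    refine (measure_mono (image_mono (dyo_subset n k))).trans
      ((vol_Icc hφ (fun x hx => hd x (k.2 hx)) (hc.mono k.2)).trans ?_)
    exact (setLIntegral_congr Ico_ae_eq_Icc).ge
  calc volume ((φ ∘ h) '' part S n)
      ≤ ∑' k : {k : ℤ // dy n k ⊆ S}, volume ((φ ∘ h) '' dyo n k) := by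
        rw [part, image_iUnion]; exact measure_iUnion_le _
    _ ≤ ∑' k : {k : ℤ // dy n k ⊆ S}, ∫⁻ x in dyo n k, ‖h' x‖ₑ := ENNReal.tsum_le_tsum hle
    _ = ∫⁻ x in part S n, ‖h' x‖ₑ := by
        rw [part, lintegral_iUnion (s := fun k : {k : ℤ // dy n k ⊆ S} => dyo n k)
          (fun k => (measurableSet_Ico : MeasurableSet (dyo n k)))]
        intro k l hkl
        refine Set.disjoint_left.2 fun x hx hx' => hkl (Subtype.ext ?_)
        rw [← mem_dyo.1 hx, ← mem_dyo.1 hx']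
    _ ≤ ∫⁻ x in S, ‖h' x‖ₑ := by
        refine lintegral_mono_set ?_
        exact (subset_iUnion (part S) n).trans (iUnion_part hS).le

end Crest.Agent.R105.Cof_430
end

-- ▼ part R105/Cof3_430

/-!
# Row 105, COFAT, part 3 (helper430): circles in polar coordinates

`pt p t θ = p + t e^{iθ}`; `len W f p t` = length of the image of the part of the circle in `W`.
* `circ_len` : `volume (φ '' (f '' (sphere p t ∩ W))) ≤ len W f p t` for `φ` 1-Lipschitz;
* `lint_len` : `∫⁻ t in Ioo a b, len W f p t = ∫⁻ z in {a < dist z p < b}, |f'| 1_W`.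
-/

set_option autoImplicit false

open Set Filter Metric Topology MeasureTheory
open scoped ENNReal Real

namespace Crest.Agent.R105.Cof_430

/-- point of the circle -/
noncomputable def pt (p : ℂ) (t θ : ℝ) : ℂ :=
  p + t * (Real.cos θ + Real.sin θ * Complex.I)

/-- length of the image of the circle (the part in `W`) -/
noncomputable def len (W : Set ℂ) (f : ℂ → ℂ) (p : ℂ) (t : ℝ) : ℝ≥0∞ :=
  ∫⁻ θ in Ioo (-π) π, ENNReal.ofReal t * W.indicator (fun z => ‖deriv f z‖ₑ) (pt p t θ)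

theorem pt_eq (p : ℂ) (t θ : ℝ) : pt p t θ = p + Complex.polarCoord.symm (t, θ) := by
  simp [pt]

theorem norm_cs (θ : ℝ) : ‖(Real.cos θ + Real.sin θ * Complex.I : ℂ)‖ = 1 := by
  have h := Complex.norm_polarCoord_symm (1, θ)
  simpa only [Complex.polarCoord_symm_apply, Complex.ofReal_one, one_mul, abs_one] using h

theorem hasDerivAt_pt (p : ℂ) (t θ : ℝ) :
    HasDerivAt (pt p t) (t * (-Real.sin θ + Real.cos θ * Complex.I)) θ := by
  unfold pt
  have h1 : HasDerivAt (fun θ : ℝ => (Real.cos θ : ℂ)) (-Real.sin θ : ℂ) θ := by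
    have := (Real.hasDerivAt_cos θ).ofReal_comp
    simpa using this
  have h2 : HasDerivAt (fun θ : ℝ => (Real.sin θ : ℂ)) (Real.cos θ : ℂ) θ :=
    (Real.hasDerivAt_sin θ).ofReal_comp
  have h3 := ((h1.add (h2.mul_const Complex.I)).const_mul (t : ℂ)).const_add p
  exact h3

theorem continuous_pt (p : ℂ) (t : ℝ) : Continuous (pt p t) := by
  unfold pt; fun_prop

theorem norm_dpt {t : ℝ} (ht : 0 < t) (θ : ℝ) :
    ‖((t * (-Real.sin θ + Real.cos θ * Complex.I) : ℂ))‖ₑ = ENNReal.ofReal t := by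
  have e : (-Real.sin θ + Real.cos θ * Complex.I : ℂ) =
      Complex.I * (Real.cos θ + Real.sin θ * Complex.I) := by
    have := Complex.I_mul_I
    linear_combination (-Real.sin θ : ℂ) * this
  have h : ‖((t * (-Real.sin θ + Real.cos θ * Complex.I) : ℂ))‖ = t := by
    rw [e, norm_mul, norm_mul, norm_cs, Complex.norm_I, Complex.norm_real, Real.norm_eq_abs,
      abs_of_pos ht, one_mul, mul_one]
  rw [← ofReal_norm, h]

/-- **The image of a circle under an arc-length estimate.** -/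
theorem circ_len {W : Set ℂ} (hW : IsOpen W) {f : ℂ → ℂ} (hf : DifferentiableOn ℂ f W) {φ : ℂ → ℝ}
    (hφ : LipschitzWith 1 φ) (p : ℂ) {t : ℝ} (ht : 0 < t) :
    volume (φ '' (f '' (sphere p t ∩ W))) ≤ len W f p t := by
  set S : Set ℝ := Ioo (-π) π ∩ pt p t ⁻¹' W with hS
  have hSo : IsOpen S := isOpen_Ioo.inter (hW.preimage (continuous_pt p t))
  set h' : ℝ → ℂ := fun θ =>
    (t * (-Real.sin θ + Real.cos θ * Complex.I) : ℂ) • deriv f (pt p t θ) with hh'
  have hd : ∀ θ ∈ S, HasDerivAt (f ∘ pt p t) (h' θ) θ := by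
    intro θ hθ
    have h1 : HasDerivAt f (deriv f (pt p t θ)) (pt p t θ) :=
      (hf.differentiableAt (hW.mem_nhds hθ.2)).hasDerivAt
    exact h1.scomp θ (hasDerivAt_pt p t θ)
  have hdc : ContinuousOn (deriv f) W := (hf.deriv hW).continuousOn
  have hc : ContinuousOn h' S := by
    have h0 : Continuous fun θ : ℝ => (t * (-Real.sin θ + Real.cos θ * Complex.I) : ℂ) := by
      fun_prop
    refine h0.continuousOn.smul ?_
    exact hdc.comp (continuous_pt p t).continuousOn fun θ hθ => hθ.2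
  have h1 := curve_len hSo hφ hd hc
  have hsub : φ '' (f '' (sphere p t ∩ W)) ⊆ (φ ∘ (f ∘ pt p t)) '' S ∪ {φ (f (pt p t π))} := by
    rintro _ ⟨_, ⟨z, ⟨hz, hzW⟩, rfl⟩, rfl⟩
    have hz' : ‖z - p‖ = t := by rw [← dist_eq_norm]; exact hz
    have e : pt p t (Complex.arg (z - p)) = z := by
      have := Complex.norm_mul_cos_add_sin_mul_I (z - p)
      rw [hz'] at this
      unfold pt
      rw [Complex.ofReal_cos, Complex.ofReal_sin, this]; ring
    have ha := Complex.arg_mem_Ioc (z - p)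
    by_cases h : Complex.arg (z - p) = π
    · right
      rw [mem_singleton_iff, ← h, e]
    · left
      refine ⟨Complex.arg (z - p), ⟨⟨ha.1, lt_of_le_of_ne ha.2 h⟩, ?_⟩, ?_⟩
      · rw [mem_preimage, e]; exact hzW
      · simp only [Function.comp, e]
  refine (measure_mono hsub).trans ((measure_union_le _ _).trans ?_)
  rw [measure_singleton, add_zero]
  refine h1.trans ?_
  unfold len
  refine le_trans (le_of_eq ?_) (lintegral_mono_set (inter_subset_left : S ⊆ Ioo (-π) π))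
  refine setLIntegral_congr_fun hSo.measurableSet fun θ hθ => ?_
  simp only [hh']
  rw [smul_eq_mul, enorm_mul, norm_dpt ht, indicator_of_mem (show pt p t θ ∈ W from hθ.2)]

theorem lint_polar {G : ℂ → ℝ≥0∞} (hG : Measurable G) (p : ℂ) {a b : ℝ} (ha : 0 ≤ a) :
    ∫⁻ t in Ioo a b, ∫⁻ θ in Ioo (-π) π, ENNReal.ofReal t * G (pt p t θ) =
      ∫⁻ z in {z | dist z p ∈ Ioo a b}, G z := by
  have hm : MeasurableSet {z : ℂ | dist z p ∈ Ioo a b} :=
    (isOpen_Ioo.preimage (continuous_id.dist continuous_const)).measurableSet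
  rw [← lintegral_indicator hm]
  set G1 : ℂ → ℝ≥0∞ := fun z => {z : ℂ | dist z p ∈ Ioo a b}.indicator G (p + z) with hG1
  have hG1m : Measurable G1 := (hG.indicator hm).comp (measurable_const_add p)
  have e1 : ∫⁻ z, {z : ℂ | dist z p ∈ Ioo a b}.indicator G z = ∫⁻ z, G1 z :=
    (lintegral_add_left_eq_self (fun z => {z : ℂ | dist z p ∈ Ioo a b}.indicator G z) p).symm
  rw [e1, ← Complex.lintegral_comp_polarCoord_symm]
  have e2 : polarCoord.target = Ioi (0 : ℝ) ×ˢ Ioo (-π) π := rfl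
  rw [e2, Measure.volume_eq_prod, ← Measure.prod_restrict]
  have hms : Measurable fun q : ℝ × ℝ =>
      ENNReal.ofReal q.1 • G1 (Complex.polarCoord.symm q) := by
    have h3 : Measurable fun q : ℝ × ℝ => (Complex.polarCoord.symm q : ℂ) := by
      have : (fun q : ℝ × ℝ => (Complex.polarCoord.symm q : ℂ)) =
          fun q : ℝ × ℝ => (q.1 * (Real.cos q.2 + Real.sin q.2 * Complex.I) : ℂ) := by
        funext q; exact Complex.polarCoord_symm_apply q
      rw [this]
      fun_prop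
    exact (ENNReal.measurable_ofReal.comp measurable_fst).smul (hG1m.comp h3)
  rw [lintegral_prod _ hms.aemeasurable]
  have hsub : Ioo a b ⊆ Ioi (0 : ℝ) := fun t ht => lt_of_le_of_lt ha ht.1
  rw [← lintegral_indicator measurableSet_Ioo, ← lintegral_indicator measurableSet_Ioi]
  refine lintegral_congr fun t => ?_
  by_cases ht : t ∈ Ioi (0 : ℝ)
  · rw [indicator_of_mem ht]
    have hn : ∀ θ : ℝ, dist (p + Complex.polarCoord.symm (t, θ)) p = t := by
      intro θ
      rw [dist_eq_norm, add_sub_cancel_left, Complex.norm_polarCoord_symm]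
      exact abs_of_pos ht
    by_cases ht' : t ∈ Ioo a b
    · rw [indicator_of_mem ht']
      refine lintegral_congr fun θ => ?_
      simp only [hG1, smul_eq_mul]
      rw [indicator_of_mem (show p + Complex.polarCoord.symm (t, θ) ∈
        {z : ℂ | dist z p ∈ Ioo a b} by rw [mem_ofPred_eq, hn]; exact ht'), pt_eq]
    · rw [indicator_of_notMem ht']
      symm
      rw [lintegral_eq_zero_iff' (by
        exact ((hms.comp (measurable_prodMk_left (x := t))).aemeasurable))]
      refine Filter.Eventually.of_forall fun θ => ?_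
      simp only [hG1, smul_eq_mul]
      rw [indicator_of_notMem (show p + Complex.polarCoord.symm (t, θ) ∉
        {z : ℂ | dist z p ∈ Ioo a b} by rw [mem_ofPred_eq, hn]; exact ht'), mul_zero]
      rfl
  · rw [indicator_of_notMem ht, indicator_of_notMem fun h => ht (hsub h)]

theorem measurable_dn {W : Set ℂ} (hW : IsOpen W) (f : ℂ → ℂ) :
    Measurable (W.indicator fun z => ‖deriv f z‖ₑ) :=
  (measurable_deriv f).enorm.indicator hW.measurableSet

/-- **Length-area identity on an annulus.** -/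
theorem lint_len {W : Set ℂ} (hW : IsOpen W) (f : ℂ → ℂ) (p : ℂ) {a b : ℝ} (ha : 0 ≤ a) :
    ∫⁻ t in Ioo a b, len W f p t =
      ∫⁻ z in {z | dist z p ∈ Ioo a b}, W.indicator (fun z => ‖deriv f z‖ₑ) z :=
  lint_polar (measurable_dn hW f) p ha

/-- Cauchy-Schwarz on a set of finite measure -/
theorem lint_sq {α : Type*} [MeasurableSpace α] {μ : Measure α} {g : α → ℝ≥0∞}
    (hg : AEMeasurable g μ) : (∫⁻ z, g z ∂μ) ^ 2 ≤ (∫⁻ z, g z ^ 2 ∂μ) * μ univ := by
  have h := ENNReal.lintegral_mul_le_Lp_mul_Lq μ Real.HolderConjugate.two_two hg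
    (aemeasurable_const (b := (1 : ℝ≥0∞)))
  simp only [Pi.mul_apply, mul_one, ENNReal.one_rpow, lintegral_one] at h
  calc (∫⁻ z, g z ∂μ) ^ 2 ≤ ((∫⁻ z, g z ^ (2:ℝ) ∂μ) ^ (1 / (2:ℝ)) * μ univ ^ (1 / (2:ℝ))) ^ 2 := by
        gcongr
    _ = (∫⁻ z, g z ^ 2 ∂μ) * μ univ := by
        rw [mul_pow, ← ENNReal.rpow_natCast, ← ENNReal.rpow_mul, ← ENNReal.rpow_natCast,
          ← ENNReal.rpow_mul]
        norm_num

/-- **Squared length-area inequality.** -/
theorem len_sq {W : Set ℂ} (hW : IsOpen W) (f : ℂ → ℂ) (p : ℂ) {a b : ℝ} (ha : 0 ≤ a) :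
    (∫⁻ t in Ioo a b, len W f p t) ^ 2 ≤
      (∫⁻ z in {z | dist z p ∈ Ioo a b} ∩ W, ‖deriv f z‖ₑ ^ 2) * volume (closedBall p b) := by
  rw [lint_len hW f p ha]
  have hm : MeasurableSet {z : ℂ | dist z p ∈ Ioo a b} :=
    (isOpen_Ioo.preimage (continuous_id.dist continuous_const)).measurableSet
  refine (lint_sq (measurable_dn hW f).aemeasurable).trans ?_
  refine mul_le_mul' (le_of_eq ?_) ?_
  · rw [inter_comm, ← Measure.restrict_restrict hW.measurableSet,
      ← lintegral_indicator hW.measurableSet]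
    refine lintegral_congr fun z => ?_
    by_cases hz : z ∈ W
    · rw [indicator_of_mem hz, indicator_of_mem hz]
    · rw [indicator_of_notMem hz, indicator_of_notMem hz]; simp
  · rw [Measure.restrict_apply_univ]
    exact measure_mono fun z hz => le_of_lt hz.2

end Crest.Agent.R105.Cof_430
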