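import Mathlib
/-! R105 HOP (helper190): hop lemma for fat solids. Plain averaging, no logarithm. -/
set_option autoImplicit false
open MeasureTheory Set ENNReal Metric
namespace Crest.Agent.R105.Hop_190

set_option linter.unusedSectionVars false
set_option linter.unusedVariables false
variable {X ι : Type*}

theorem cs_fin (s : Finset ι) (a b : ι → ℝ≥0∞) :
    (∑ j ∈ s, a j * b j) ^ 2 ≤ (∑ j ∈ s, a j ^ 2) * ∑ j ∈ s, b j ^ 2 := by
  have h := ENNReal.inner_le_Lp_mul_Lq s a b (p := 2) (q := 2) Real.HolderConjugate.two_two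
  calc (∑ j ∈ s, a j * b j) ^ 2
      ≤ ((∑ j ∈ s, a j ^ (2:ℝ)) ^ (1 / (2:ℝ)) * (∑ j ∈ s, b j ^ (2:ℝ)) ^ (1 / (2:ℝ))) ^ 2 := by
        gcongr
    _ = (∑ j ∈ s, a j ^ 2) * ∑ j ∈ s, b j ^ 2 := by
        rw [mul_pow, ← ENNReal.rpow_natCast, ← ENNReal.rpow_mul, ← ENNReal.rpow_natCast,
          ← ENNReal.rpow_mul]
        norm_num

/-- squared Cauchy–Schwarz for series in `ℝ≥0∞` -/
theorem cs (a b : ι → ℝ≥0∞) :
    (∑' j, a j * b j) ^ 2 ≤ (∑' j, a j ^ 2) * ∑' j, b j ^ 2 := by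
  have h1 : ∑' j, a j * b j ≤ ((∑' j, a j ^ 2) * ∑' j, b j ^ 2) ^ ((2:ℝ)⁻¹) := by
    rw [ENNReal.tsum_eq_iSup_sum]
    refine iSup_le fun s => ?_
    rw [ENNReal.le_rpow_inv_iff (by norm_num : (0:ℝ) < 2)]
    have h2 := (cs_fin s a b).trans
      (mul_le_mul' (ENNReal.sum_le_tsum s) (ENNReal.sum_le_tsum (f := fun j => b j ^ 2) s))
    calc (∑ j ∈ s, a j * b j) ^ (2:ℝ) = (∑ j ∈ s, a j * b j) ^ 2 := by
          rw [← ENNReal.rpow_natCast]; norm_num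
      _ ≤ _ := h2
  calc (∑' j, a j * b j) ^ 2 ≤ (((∑' j, a j ^ 2) * ∑' j, b j ^ 2) ^ ((2:ℝ)⁻¹)) ^ 2 := by gcongr
    _ = _ := by
        rw [← ENNReal.rpow_natCast, ← ENNReal.rpow_mul]
        norm_num

/-- the set of parameters `s ∈ I` at which the level set `{φ = s}` meets `Q` inside the window -/
def tr (φ : X → ℝ) (W : Set X) (I : Set ℝ) (Q : Set X) : Set ℝ := φ '' (Q ∩ W) ∩ I



section
variable [MetricSpace X] [MeasurableSpace X] [BorelSpace X]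


/-- `K` is `τ`-fat (644's form, radius up to the diameter) -/
def Fat (μ : Measure X) (τ : ℝ≥0∞) (K : Set X) : Prop :=
  ∀ z ∈ K, ∀ ρ : ℝ, 0 < ρ → ENNReal.ofReal ρ ≤ Metric.ediam K →
    τ * ENNReal.ofReal ρ ^ 2 ≤ μ (K ∩ closedBall z ρ)



/-- square sum of the weights of the solids which meet `W` -/
noncomputable def mass (W : Set X) (Q : ι → Set X) (R : ι → ℝ≥0∞) : ℝ≥0∞ :=
  ∑' j, {j | (Q j ∩ W).Nonempty}.indicator (fun j => R j ^ 2) j







end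


end Crest.Agent.R105.Hop_190
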