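import Mathlib
import Crest.Agent.R105.Top1_8
import Crest.Agent.R105.Cof3_430
import Crest.Agent.R105.Hop1_190

-- ▼ part R105/Cof1_430
section

/-!
# Row 105, COFAT, part 1 (helper430): windows and fatness

`finite_big` : only finitely many fat solids of diameter `≥ η` meet a given ball;
`window`     : for every scale `s` there is a smaller scale `s'` such that no solid (not containing
               `p`) meets both `{dist z p ≥ s}` and `closedBall p (2 s')`;
`windows`    : a whole sequence of scales `t k`.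
-/

set_option autoImplicit false

open Set Filter Metric Topology MeasureTheory

namespace Crest.Agent.R105.Cof_430

open Top1_8 (Fat)

variable {ι : Type*} {K : ι → Set ℂ} {τ : ℝ}

theorem finite_big (hτ : 0 < τ) (hcpt : ∀ i, IsCompact (K i))
    (hfat : ∀ i, Fat τ (K i)) (hdisj : Pairwise (Function.onFun Disjoint K)) (p : ℂ) (R : ℝ)
    {η : ℝ} (hη : 0 < η) :
    {i | η ≤ diam (K i) ∧ (K i ∩ closedBall p R).Nonempty}.Finite := by
  have h := MeasureTheory.Measure.finite_const_le_meas_of_disjoint_iUnion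
    (volume : Measure ℂ) (ε := ENNReal.ofReal (τ * η ^ 2))
    (by positivity) (As := fun i => K i ∩ closedBall p (R + η))
    (fun i => (hcpt i).isClosed.measurableSet.inter measurableSet_closedBall)
    (fun i j hij => (hdisj hij).mono inter_subset_left inter_subset_left)
    (ne_top_of_le_ne_top (measure_closedBall_lt_top (x := p) (r := R + η)).ne
      (measure_mono (iUnion_subset fun i => inter_subset_right)))
  refine h.subset ?_
  rintro i ⟨hi, x, hx, hxR⟩
  refine (hfat i x hx η hη hi).trans (measure_mono (inter_subset_inter_right _ ?_))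
  exact closedBall_subset_closedBall' (by
    have : dist x p ≤ R := hxR
    linarith)

theorem window (hτ : 0 < τ) (hcpt : ∀ i, IsCompact (K i))
    (hfat : ∀ i, Fat τ (K i)) (hdisj : Pairwise (Function.onFun Disjoint K)) (p : ℂ)
    {s : ℝ} (hs : 0 < s) :
    ∃ s', 0 < s' ∧ 4 * s' ≤ s ∧ ∀ i, p ∉ K i → (∃ z ∈ K i, s ≤ dist z p) →
      Disjoint (K i) (closedBall p (2 * s')) := by
  have hfin := finite_big hτ hcpt hfat hdisj p s (η := s / 2) (by positivity)
  set J := {i | s / 2 ≤ diam (K i) ∧ (K i ∩ closedBall p s).Nonempty} with hJ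
  have hcl : IsClosed (⋃ i ∈ J ∩ {i | p ∉ K i}, K i) :=
    (hfin.subset inter_subset_left).isClosed_biUnion fun i _ => (hcpt i).isClosed
  have hp : p ∈ (⋃ i ∈ J ∩ {i | p ∉ K i}, K i)ᶜ := by
    simp only [mem_compl_iff, mem_iUnion, not_exists]
    intro i hi hpi
    exact hi.2 hpi
  obtain ⟨ρ, hρ, hb⟩ := Metric.mem_nhds_iff.1 (hcl.isOpen_compl.mem_nhds hp)
  refine ⟨min (s / 8) (ρ / 4), by positivity, ?_, ?_⟩
  · have := min_le_left (s / 8) (ρ / 4)
    linarith
  · intro i hpi ⟨z, hz, hzs⟩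
    rw [Set.disjoint_left]
    intro w hw hwb
    have hw1 : dist w p ≤ 2 * min (s / 8) (ρ / 4) := hwb
    have h1 := min_le_left (s / 8) (ρ / 4)
    have h2 := min_le_right (s / 8) (ρ / 4)
    by_cases hi : i ∈ J
    · have : w ∈ ball p ρ := by
        rw [mem_ball]; linarith
      exact hb this (mem_biUnion (show i ∈ J ∩ {i | p ∉ K i} from ⟨hi, hpi⟩) hw)
    · apply hi
      refine ⟨?_, w, hw, ?_⟩
      · have h3 : dist z w ≤ diam (K i) := dist_le_diam_of_mem (hcpt i).isBounded hz hw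
        have h4 : dist z p ≤ dist z w + dist w p := dist_triangle _ _ _
        linarith
      · rw [mem_closedBall]; linarith

/-- **Windows.** A decreasing sequence of scales below `ε` such that every solid not containing
`p` meets at most one of the closed annuli `t k ≤ dist z p ≤ 2 t k`. -/
theorem windows (hτ : 0 < τ) (hcpt : ∀ i, IsCompact (K i))
    (hfat : ∀ i, Fat τ (K i)) (hdisj : Pairwise (Function.onFun Disjoint K)) (p : ℂ)
    {ε : ℝ} (hε : 0 < ε) :
    ∃ t : ℕ → ℝ, (∀ k, 0 < t k) ∧ (∀ k, 4 * t (k + 1) ≤ t k) ∧ (∀ k, 2 * t k ≤ ε) ∧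
      ∀ i, p ∉ K i → ∀ k l, k < l → (∃ z ∈ K i, t k ≤ dist z p) →
        Disjoint (K i) (closedBall p (2 * t l)) := by
  classical
  have H : ∀ s : {s : ℝ // 0 < s}, ∃ s' : {s : ℝ // 0 < s}, 4 * s'.1 ≤ s.1 ∧
      ∀ i, p ∉ K i → (∃ z ∈ K i, s.1 ≤ dist z p) → Disjoint (K i) (closedBall p (2 * s'.1)) := by
    intro s
    obtain ⟨s', h1, h2, h3⟩ := window hτ hcpt hfat hdisj p s.2
    exact ⟨⟨s', h1⟩, h2, h3⟩
  choose nx hnx1 hnx2 using H
  set t : ℕ → {s : ℝ // 0 < s} := fun k => nx^[k] ⟨ε / 2, by positivity⟩ with ht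
  have hsucc : ∀ k, t (k + 1) = nx (t k) := by
    intro k
    simp only [ht, Function.iterate_succ', Function.comp]
  have h4 : ∀ k, 4 * (t (k + 1)).1 ≤ (t k).1 := by
    intro k; rw [hsucc]; exact hnx1 _
  have hle : ∀ k, (t (k + 1)).1 ≤ (t k).1 := by
    intro k
    have := h4 k
    have := (t (k + 1)).2
    linarith
  have hanti : Antitone fun k => (t k).1 := antitone_nat_of_succ_le hle
  refine ⟨fun k => (t k).1, fun k => (t k).2, h4, ?_, ?_⟩
  · intro k
    have h0 : (t 0).1 = ε / 2 := rfl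
    have := hanti (Nat.zero_le k)
    simp only at this
    linarith
  · intro i hpi k l hkl hz
    have h1 := hnx2 (t k) i hpi hz
    rw [← hsucc] at h1
    have h2 : (t l).1 ≤ (t (k + 1)).1 := hanti hkl
    exact h1.mono_right (closedBall_subset_closedBall (by linarith))

end Crest.Agent.R105.Cof_430
end

-- ▼ part R105/Cof4_430
section

/-!
# Row 105, COFAT, part 4 (helper430): Courant-Lebesgue with hops, one stage, uniform

`stage` : (S4) of 644 #9298 in the literal form of 515's `CofI_515`, uniform over all finite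
stages with area constant `A`.
-/

set_option autoImplicit false

open Set Filter Metric Topology MeasureTheory
open scoped ENNReal Real

namespace Crest.Agent.R105.Cof_430

open Top1_8 (Fat)

variable {ι : Type*} {K : ι → Set ℂ} {τ : ℝ}

/-- the radii of the circles about `p` which meet `Q` -/
def rad (p : ℂ) (Q : Set ℂ) : Set ℝ := (fun z => dist z p) '' Q

theorem mem_rad {p : ℂ} {Q : Set ℂ} {t : ℝ} : t ∈ rad p Q ↔ (Q ∩ sphere p t).Nonempty :=
  ⟨fun ⟨z, hz, h⟩ => ⟨z, hz, h⟩, fun ⟨z, hz, h⟩ => ⟨z, hz, h⟩⟩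

theorem measurableSet_rad (p : ℂ) {Q : Set ℂ} (hQ : IsCompact Q) : MeasurableSet (rad p Q) :=
  (hQ.image (continuous_id.dist continuous_const)).isClosed.measurableSet

theorem vol_rad (p : ℂ) {Q : Set ℂ} (hQ : IsCompact Q) : volume (rad p Q) ≤ ENNReal.ofReal (diam Q) := by
  refine (Real.volume_le_diam _).trans ?_
  have h1 : LipschitzWith 1 fun z : ℂ => dist z p := LipschitzWith.dist_left p
  have h2 := h1.ediam_image_le Q
  rw [ENNReal.coe_one, one_mul] at h2
  refine h2.trans ?_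
  rw [Metric.diam, ENNReal.ofReal_toReal hQ.isBounded.ediam_ne_top]

/-- solid number `i` meets the closed annulus `a ≤ |z-p| ≤ 2a` and does not contain `p` -/
def Meets (K : ι → Set ℂ) (p : ℂ) (a : ℝ) (i : ι) : Prop :=
  p ∉ K i ∧ ∃ z ∈ K i, a ≤ dist z p ∧ dist z p ≤ 2 * a

theorem fat_rad (hτ : 0 < τ) (hcpt : ∀ i, IsCompact (K i)) (hfat : ∀ i, Fat τ (K i))
    (hnt : ∀ i, (K i).Nontrivial) (p : ℂ) {a : ℝ} (ha : 0 < a) {i : ι} (hi : Meets K p a i) :
    ENNReal.ofReal τ * volume (rad p (K i) ∩ Ioo a (2 * a)) ^ 2 ≤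
      volume (K i ∩ closedBall p (3 * a)) := by
  obtain ⟨-, z, hz, -, hz2⟩ := hi
  have hd : 0 < diam (K i) := Metric.diam_pos (hnt i) (hcpt i).isBounded
  set r := min (diam (K i)) a with hr
  have hr0 : 0 < r := lt_min hd ha
  have h1 : volume (rad p (K i) ∩ Ioo a (2 * a)) ≤ ENNReal.ofReal r := by
    rcases le_total (diam (K i)) a with h | h
    · rw [hr, min_eq_left h]
      exact (measure_mono inter_subset_left).trans (vol_rad p (hcpt i))
    · rw [hr, min_eq_right h]
      refine (measure_mono inter_subset_right).trans ?_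
      rw [Real.volume_Ioo]
      exact ENNReal.ofReal_le_ofReal (by linarith)
  have h2 := hfat i z hz r hr0 (min_le_left _ _)
  calc ENNReal.ofReal τ * volume (rad p (K i) ∩ Ioo a (2 * a)) ^ 2
      ≤ ENNReal.ofReal τ * ENNReal.ofReal r ^ 2 := by gcongr
    _ = ENNReal.ofReal (τ * r ^ 2) := by
        rw [← ENNReal.ofReal_pow hr0.le, ENNReal.ofReal_mul hτ.le]
    _ ≤ volume (K i ∩ closedBall z r) := h2
    _ ≤ volume (K i ∩ closedBall p (3 * a)) := by
        refine measure_mono (inter_subset_inter_right _ (closedBall_subset_closedBall' ?_))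
        have := min_le_right (diam (K i)) a
        linarith

open Classical in
/-- sum of the diameters of the discs attached to the solids met by the circle -/
noncomputable def hopS (K : ι → Set ℂ) (F : Finset ι) (r : ι → ℝ) (p : ℂ) (t : ℝ) : ℝ≥0∞ :=
  ∑ i ∈ F.filter (fun i => p ∉ K i), (rad p (K i)).indicator (fun _ => ENNReal.ofReal (2 * r i)) t

open Classical in
theorem hopS_sq (hτ : 0 < τ) (hcpt : ∀ i, IsCompact (K i)) (hfat : ∀ i, Fat τ (K i))
    (hnt : ∀ i, (K i).Nontrivial) (hdisj : Pairwise (Function.onFun Disjoint K))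
    (p : ℂ) {a : ℝ} (ha : 0 < a) (F : Finset ι) (r : ι → ℝ) :
    (∫⁻ t in Ioo a (2 * a), hopS K F r p t) ^ 2 ≤
      (∑ i ∈ F.filter (Meets K p a), ENNReal.ofReal (r i) ^ 2) *
        (4 * (ENNReal.ofReal τ)⁻¹ * volume (closedBall p (3 * a))) := by
  have e1 : ∫⁻ t in Ioo a (2 * a), hopS K F r p t =
      ∑ i ∈ F.filter (fun i => p ∉ K i),
        ENNReal.ofReal (2 * r i) * volume (rad p (K i) ∩ Ioo a (2 * a)) := by
    unfold hopS
    rw [lintegral_finsetSum]
    · refine Finset.sum_congr rfl fun i _ => ?_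
      rw [lintegral_indicator (measurableSet_rad p (hcpt i)), setLIntegral_const,
        Measure.restrict_apply (measurableSet_rad p (hcpt i))]
    · intro i _
      exact measurable_const.indicator (measurableSet_rad p (hcpt i))
  have e2 : ∑ i ∈ F.filter (fun i => p ∉ K i),
        ENNReal.ofReal (2 * r i) * volume (rad p (K i) ∩ Ioo a (2 * a)) =
      ∑ i ∈ F.filter (Meets K p a),
        ENNReal.ofReal (2 * r i) * volume (rad p (K i) ∩ Ioo a (2 * a)) := by
    symm
    refine Finset.sum_subset ?_ ?_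
    · intro i hi
      rw [Finset.mem_filter] at hi ⊢
      exact ⟨hi.1, hi.2.1⟩
    · intro i hi hi'
      rw [Finset.mem_filter] at hi hi'
      have : rad p (K i) ∩ Ioo a (2 * a) = ∅ := by
        rw [eq_empty_iff_forall_notMem]
        rintro t ⟨⟨z, hz, rfl⟩, ht⟩
        exact hi' ⟨hi.1, hi.2, z, hz, ht.1.le, ht.2.le⟩
      rw [this, measure_empty, mul_zero]
  rw [e1, e2]
  refine (Hop_190.cs_fin _ _ _).trans ?_
  have h3 : ∑ i ∈ F.filter (Meets K p a), volume (rad p (K i) ∩ Ioo a (2 * a)) ^ 2 ≤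
      (ENNReal.ofReal τ)⁻¹ * volume (closedBall p (3 * a)) := by
    have hτ0 : ENNReal.ofReal τ ≠ 0 := by
      rw [Ne, ENNReal.ofReal_eq_zero, not_le]; exact hτ
    rw [← ENNReal.mul_le_iff_le_inv hτ0 ENNReal.ofReal_ne_top, Finset.mul_sum]
    calc ∑ i ∈ F.filter (Meets K p a),
          ENNReal.ofReal τ * volume (rad p (K i) ∩ Ioo a (2 * a)) ^ 2
        ≤ ∑ i ∈ F.filter (Meets K p a), volume (K i ∩ closedBall p (3 * a)) := by
          refine Finset.sum_le_sum fun i hi => ?_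
          exact fat_rad hτ hcpt hfat hnt p ha (Finset.mem_filter.1 hi).2
      _ = volume (⋃ i ∈ F.filter (Meets K p a), K i ∩ closedBall p (3 * a)) := by
          rw [measure_biUnion_finset]
          · intro i _ j _ hij
            exact (hdisj hij).mono inter_subset_left inter_subset_left
          · intro i _
            exact (hcpt i).isClosed.measurableSet.inter measurableSet_closedBall
      _ ≤ volume (closedBall p (3 * a)) :=
          measure_mono (iUnion₂_subset fun i _ => inter_subset_right)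
  have h4 : ∑ i ∈ F.filter (Meets K p a), ENNReal.ofReal (2 * r i) ^ 2 =
      4 * ∑ i ∈ F.filter (Meets K p a), ENNReal.ofReal (r i) ^ 2 := by
    rw [Finset.mul_sum]
    refine Finset.sum_congr rfl fun i _ => ?_
    rw [ENNReal.ofReal_mul (by norm_num), mul_pow]
    norm_num
  rw [h4]
  calc _ ≤ 4 * (∑ i ∈ F.filter (Meets K p a), ENNReal.ofReal (r i) ^ 2) *
        ((ENNReal.ofReal τ)⁻¹ * volume (closedBall p (3 * a))) := by gcongr
    _ = _ := by ring

open Classical in
/-- the energy of a window -/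
noncomputable def EW (K : ι → Set ℂ) (F : Finset ι) (r : ι → ℝ) (W : Set ℂ) (f : ℂ → ℂ) (p : ℂ)
    (a : ℝ) : ℝ≥0∞ :=
  (∫⁻ z in {z | dist z p ∈ Ioo a (2 * a)} ∩ W, ‖deriv f z‖ₑ ^ 2) +
    ∑ i ∈ F.filter (Meets K p a), ENNReal.ofReal (r i) ^ 2

theorem measurable_hopS (hcpt : ∀ i, IsCompact (K i)) (p : ℂ) (F : Finset ι) (r : ι → ℝ) :
    Measurable (hopS K F r p) := by
  unfold hopS
  refine Finset.measurable_sum _ fun i _ => ?_
  exact measurable_const.indicator (measurableSet_rad p (hcpt i))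

theorem sq_add_le (x y : ℝ≥0∞) : (x + y) ^ 2 ≤ 2 * (x ^ 2 + y ^ 2) := by
  by_cases hx : x = ∞
  · subst hx; simp
  by_cases hy : y = ∞
  · subst hy; simp
  lift x to NNReal using hx
  lift y to NNReal using hy
  exact_mod_cast (add_sq_le : (x + y) ^ 2 ≤ 2 * (x ^ 2 + y ^ 2))

open Classical in
/-- **one window**: if every circle of the window is long, the window has much energy -/
theorem one_window (hτ : 0 < τ) (hcpt : ∀ i, IsCompact (K i)) (hfat : ∀ i, Fat τ (K i))
    (hnt : ∀ i, (K i).Nontrivial) (hdisj : Pairwise (Function.onFun Disjoint K))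
    (p : ℂ) {a : ℝ} (ha : 0 < a) (F : Finset ι) (r : ι → ℝ) {W : Set ℂ} (hW : IsOpen W)
    (f : ℂ → ℂ) {e : ℝ≥0∞}
    (h : ∀ t ∈ Ioo a (2 * a), e ≤ len W f p t + hopS K F r p t) :
    e ^ 2 ≤ (8 * NNReal.pi + 72 * (ENNReal.ofReal τ)⁻¹ * NNReal.pi) * EW K F r W f p a := by
  set I1 := ∫⁻ t in Ioo a (2 * a), len W f p t with hI1
  set I2 := ∫⁻ t in Ioo a (2 * a), hopS K F r p t with hI2
  set a' := ENNReal.ofReal a with ha'
  have ha0 : a' ≠ 0 := by rw [ha', Ne, ENNReal.ofReal_eq_zero, not_le]; exact ha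
  have hat : a' ≠ ∞ := ENNReal.ofReal_ne_top
  have h1 : e * a' ≤ I1 + I2 := by
    have e1 : ∫⁻ _ in Ioo a (2 * a), e = e * a' := by
      rw [setLIntegral_const, Real.volume_Ioo, ha']
      congr 2; ring
    rw [← e1, hI1, hI2, ← lintegral_add_right _ (measurable_hopS hcpt p F r)]
    exact setLIntegral_mono' measurableSet_Ioo h
  have h2 : I1 ^ 2 ≤ (∫⁻ z in {z | dist z p ∈ Ioo a (2 * a)} ∩ W, ‖deriv f z‖ₑ ^ 2) *
      (4 * a' ^ 2 * NNReal.pi) := by
    refine (len_sq hW f p ha.le).trans (mul_le_mul_right (le_of_eq ?_) _)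
    rw [Complex.volume_closedBall, ENNReal.ofReal_mul (by norm_num), mul_pow]
    have : (ENNReal.ofReal 2) ^ 2 = 4 := by norm_num
    rw [this]
  have h3 : I2 ^ 2 ≤ (∑ i ∈ F.filter (Meets K p a), ENNReal.ofReal (r i) ^ 2) *
      (36 * (ENNReal.ofReal τ)⁻¹ * a' ^ 2 * NNReal.pi) := by
    refine (hopS_sq hτ hcpt hfat hnt hdisj p ha F r).trans (mul_le_mul_right (le_of_eq ?_) _)
    rw [Complex.volume_closedBall, ENNReal.ofReal_mul (by norm_num), mul_pow]
    have : (ENNReal.ofReal 3) ^ 2 = 9 := by norm_num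
    rw [this]; ring
  have h4 : (I1 + I2) ^ 2 ≤ 2 * (I1 ^ 2 + I2 ^ 2) := sq_add_le _ _
  have h5 : e ^ 2 * a' ^ 2 ≤
      ((8 * NNReal.pi + 72 * (ENNReal.ofReal τ)⁻¹ * NNReal.pi) * EW K F r W f p a) * a' ^ 2 := by
    unfold EW
    set E1 := ∫⁻ z in {z | dist z p ∈ Ioo a (2 * a)} ∩ W, ‖deriv f z‖ₑ ^ 2
    set E2 := ∑ i ∈ F.filter (Meets K p a), ENNReal.ofReal (r i) ^ 2
    calc e ^ 2 * a' ^ 2 = (e * a') ^ 2 := by ring
      _ ≤ (I1 + I2) ^ 2 := by gcongr
      _ ≤ 2 * (I1 ^ 2 + I2 ^ 2) := h4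
      _ ≤ 2 * (E1 * (4 * a' ^ 2 * NNReal.pi) +
            E2 * (36 * (ENNReal.ofReal τ)⁻¹ * a' ^ 2 * NNReal.pi)) := by gcongr
      _ = (8 * NNReal.pi * E1 + 72 * (ENNReal.ofReal τ)⁻¹ * NNReal.pi * E2) * a' ^ 2 := by ring
      _ ≤ (8 * NNReal.pi * E1 + 72 * (ENNReal.ofReal τ)⁻¹ * NNReal.pi * E2 +
            (8 * NNReal.pi * E2 + 72 * (ENNReal.ofReal τ)⁻¹ * NNReal.pi * E1)) * a' ^ 2 := by
          gcongr ?_ * _; exact le_self_add
      _ = _ := by ring
  exact (ENNReal.mul_le_mul_iff_left (pow_ne_zero 2 ha0) (ENNReal.pow_ne_top hat)).1 h5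

end Crest.Agent.R105.Cof_430
end

-- ▼ part R105/Cof5_430

/-!
# Row 105, COFAT, part 5 (helper430): Courant-Lebesgue with hops, uniform over all stages
-/

set_option autoImplicit false

open Set Filter Metric Topology MeasureTheory
open scoped ENNReal Real

namespace Crest.Agent.R105.Cof_430

open Top1_8 (Fat)

variable {ι : Type*} {K : ι → Set ℂ} {τ : ℝ}

/-- the image of the circle together with the discs of the solids met by the circle -/
def chain (K : ι → Set ℂ) (F : Finset ι) (c : ι → ℂ) (r : ι → ℝ) (W : Set ℂ) (f : ℂ → ℂ) (p : ℂ)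
    (t : ℝ) : Set ℂ :=
  f '' (sphere p t ∩ W) ∪ ⋃ i ∈ F, ⋃ (_ : (K i ∩ sphere p t).Nonempty ∧ p ∉ K i),
    closedBall (c i) (r i)

theorem vol_ball {φ : ℂ → ℝ} (hφ : LipschitzWith 1 φ) (c : ℂ) (r : ℝ) :
    volume (φ '' closedBall c r) ≤ ENNReal.ofReal (2 * r) := by
  refine (Real.volume_le_diam _).trans (Metric.ediam_le ?_)
  rintro _ ⟨x, hx, rfl⟩ _ ⟨y, hy, rfl⟩
  have h1 : edist (φ x) (φ y) ≤ edist x y := by simpa using hφ x y
  refine h1.trans ?_
  rw [edist_dist]
  refine ENNReal.ofReal_le_ofReal ?_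
  have h2 : dist x y ≤ dist x c + dist y c := dist_triangle_right _ _ _
  have h3 : dist x c ≤ r := hx
  have h4 : dist y c ≤ r := hy
  linarith

open Classical in
theorem vol_chain (F : Finset ι) (c : ι → ℂ) (r : ι → ℝ) {W : Set ℂ} (hW : IsOpen W) {f : ℂ → ℂ}
    (hf : DifferentiableOn ℂ f W) (p : ℂ) {t : ℝ} (ht : 0 < t) {φ : ℂ → ℝ}
    (hφ : LipschitzWith 1 φ) :
    volume (φ '' chain K F c r W f p t) ≤ len W f p t + hopS K F r p t := by
  unfold chain
  rw [image_union]
  refine (measure_union_le _ _).trans (add_le_add (circ_len hW hf hφ p ht) ?_)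
  have hsub : φ '' (⋃ i ∈ F, ⋃ (_ : (K i ∩ sphere p t).Nonempty ∧ p ∉ K i),
      closedBall (c i) (r i)) ⊆
      ⋃ i ∈ F.filter (fun i => p ∉ K i), if t ∈ rad p (K i) then φ '' closedBall (c i) (r i)
        else ∅ := by
    rintro _ ⟨x, hx, rfl⟩
    simp only [mem_iUnion] at hx ⊢
    obtain ⟨i, hi, ⟨h1, h2⟩, hx⟩ := hx
    refine ⟨i, Finset.mem_filter.2 ⟨hi, h2⟩, ?_⟩
    rw [if_pos (mem_rad.2 h1)]
    exact mem_image_of_mem _ hx
  refine (measure_mono hsub).trans ((measure_biUnion_finset_le _ _).trans ?_)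
  unfold hopS
  refine Finset.sum_le_sum fun i _ => ?_
  by_cases h : t ∈ rad p (K i)
  · rw [if_pos h, indicator_of_mem h]
    exact vol_ball hφ _ _
  · rw [if_neg h, measure_empty]; exact bot_le

open Classical in
/-- **(S4), uniform over all stages.** -/
theorem stage (hτ : 0 < τ) (hcpt : ∀ i, IsCompact (K i)) (hfat : ∀ i, Fat τ (K i))
    (hnt : ∀ i, (K i).Nontrivial) (hdisj : Pairwise (Function.onFun Disjoint K))
    (p : ℂ) {ε : ℝ} (hε : 0 < ε) {A : ℝ≥0∞} (hA : A ≠ ∞) :
    ∃ δ, 0 < δ ∧ ∀ (F : Finset ι) (c : ι → ℂ) (r : ι → ℝ) (W : Set ℂ) (f : ℂ → ℂ),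
      IsOpen W → DifferentiableOn ℂ f W →
      (∫⁻ z in closedBall p ε ∩ W, ‖deriv f z‖ₑ ^ 2) + ∑ i ∈ F, ENNReal.ofReal (r i) ^ 2 ≤ A →
      ∃ t, δ < t ∧ t < ε ∧ ∀ φ : ℂ → ℝ, LipschitzWith 1 φ →
        volume (φ '' chain K F c r W f p t) ≤ ENNReal.ofReal ε := by
  obtain ⟨t, ht0, ht4, htε, htd⟩ := windows hτ hcpt hfat hdisj p hε
  have hle : ∀ k, t (k + 1) ≤ t k := fun k => by
    have := ht4 k; have := ht0 (k + 1); linarith
  have hanti : Antitone t := antitone_nat_of_succ_le hle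
  have hlt2 : ∀ {k l}, k < l → 4 * t l ≤ t k := fun {k l} hkl => by
    have h1 := hanti (Nat.succ_le_of_lt hkl)
    have h2 := ht4 k
    simp only [Nat.succ_eq_add_one] at h1
    linarith
  set C : ℝ≥0∞ := 8 * NNReal.pi + 72 * (ENNReal.ofReal τ)⁻¹ * NNReal.pi with hC
  have hCt : C ≠ ∞ := by
    have hτ0 : (ENNReal.ofReal τ)⁻¹ ≠ ∞ := by
      rw [Ne, ENNReal.inv_eq_top, ENNReal.ofReal_eq_zero, not_le]; exact hτ
    refine ENNReal.add_ne_top.2 ⟨ENNReal.mul_ne_top (by norm_num) ENNReal.coe_ne_top, ?_⟩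
    exact ENNReal.mul_ne_top (ENNReal.mul_ne_top (by norm_num) hτ0) ENNReal.coe_ne_top
  have hε0 : ENNReal.ofReal ε ^ 2 ≠ 0 := by
    refine pow_ne_zero 2 ?_
    rw [Ne, ENNReal.ofReal_eq_zero, not_le]; exact hε
  obtain ⟨m, hm⟩ := ENNReal.exists_nat_mul_gt hε0 (ENNReal.mul_ne_top hCt hA)
  refine ⟨t m, ht0 m, fun F c r W f hW hf hE => ?_⟩
  by_contra hcon
  push Not at hcon
  -- every window has much energy
  have hwin : ∀ k ∈ Finset.range m, ENNReal.ofReal ε ^ 2 ≤ C * EW K F r W f p (t k) := by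
    intro k hk
    refine one_window hτ hcpt hfat hnt hdisj p (ht0 k) F r hW f fun s hs => ?_
    have h1 : t m < s := by
      have h2 := hlt2 (Finset.mem_range.1 hk)
      have h3 := ht0 m
      have h4 := hs.1
      linarith
    have h2 : s < ε := lt_of_lt_of_le hs.2 (htε k)
    obtain ⟨φ, hφ, hφ2⟩ := hcon s h1 h2
    exact hφ2.le.trans (vol_chain F c r hW hf p ((ht0 k).trans hs.1) hφ)
  -- total energy of the windows
  have hI : ∑ k ∈ Finset.range m,
      (∫⁻ z in {z | dist z p ∈ Ioo (t k) (2 * t k)} ∩ W, ‖deriv f z‖ₑ ^ 2) ≤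
      ∫⁻ z in closedBall p ε ∩ W, ‖deriv f z‖ₑ ^ 2 := by
    rw [← lintegral_biUnion_finset]
    · refine lintegral_mono_set (iUnion₂_subset fun k _ => ?_)
      refine inter_subset_inter_left _ fun z hz => ?_
      rw [mem_closedBall]
      exact hz.2.le.trans (htε k)
    · intro k _ l _ hkl
      refine Set.disjoint_left.2 fun z hz hz' => ?_
      obtain ⟨h1, h2⟩ := hz.1
      obtain ⟨h3, h4⟩ := hz'.1
      rcases lt_or_gt_of_ne hkl with h | h
      · have := hlt2 h; have := ht0 l; linarith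
      · have := hlt2 h; have := ht0 k; linarith
    · intro k _
      exact ((isOpen_Ioo.preimage (continuous_id.dist continuous_const)).inter hW).measurableSet
  have hS : ∑ k ∈ Finset.range m,
      ∑ i ∈ F.filter (Meets K p (t k)), ENNReal.ofReal (r i) ^ 2 ≤
      ∑ i ∈ F, ENNReal.ofReal (r i) ^ 2 := by
    rw [← Finset.sum_biUnion]
    · refine Finset.sum_le_sum_of_subset ?_
      intro i hi
      rw [Finset.mem_biUnion] at hi
      obtain ⟨k, _, hk⟩ := hi
      exact (Finset.mem_filter.1 hk).1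
    · have key : ∀ k l, k < l → Disjoint (F.filter (Meets K p (t k)))
          (F.filter (Meets K p (t l))) := by
        intro k l hkl
        rw [Finset.disjoint_left]
        intro i hi hi'
        obtain ⟨-, hpi, z, hz, hz1, -⟩ := Finset.mem_filter.1 hi
        obtain ⟨-, -, w, hw, -, hw2⟩ := Finset.mem_filter.1 hi'
        exact Set.disjoint_left.1 (htd i hpi k l hkl ⟨z, hz, hz1⟩) hw hw2
      intro k _ l _ hkl
      rcases lt_or_gt_of_ne hkl with h | h
      · exact key k l h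
      · exact (key l k h).symm
  have hsum : (m : ℝ≥0∞) * ENNReal.ofReal ε ^ 2 ≤ C * A := by
    calc (m : ℝ≥0∞) * ENNReal.ofReal ε ^ 2
        = ∑ k ∈ Finset.range m, ENNReal.ofReal ε ^ 2 := by
          rw [Finset.sum_const, Finset.card_range, nsmul_eq_mul]
      _ ≤ ∑ k ∈ Finset.range m, C * EW K F r W f p (t k) := Finset.sum_le_sum hwin
      _ = C * ∑ k ∈ Finset.range m, EW K F r W f p (t k) := by rw [Finset.mul_sum]
      _ ≤ C * A := by
          gcongr
          unfold EW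
          rw [Finset.sum_add_distrib]
          exact (add_le_add hI hS).trans hE
  exact absurd hm (not_lt.2 hsum)

end Crest.Agent.R105.Cof_430
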