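import Mathlib
import Crest.Agent.Lib.InjHolo
import Crest.Agent.Lib.Bieberbach
import Crest.Agent.R162.KBDisc
import Crest.Prelude.Def_CircleDomain
import Crest.Agent.R264.MontelU
import Crest.Agent.R105.FKd_644
import Crest.Agent.R105.Ends3_897
import Crest.Agent.R105.Thin1_12

-- ▼ part R105/Uni1_231
section

/-!
Row 105. Univalent maps near infinity (helper231): the class Sigma and its elementary bounds.

`Ext R = {z | R < ‖z‖}`; `f` holomorphic, injective on `Ext R`, `f z - z → 0` at infinity. Then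
* `norm_le_of_not_mem_image`: every omitted value `w ∉ f '' Ext R` has `‖w‖ ≤ 2 R` (Bieberbach),
* `norm_sub_le_four_mul`: `‖f z - w‖ ≤ 4 ‖z‖` (Koebe 1/4),
* `norm_sub_self_le`: `‖f z - z‖ ≤ 7 R² / ‖z‖`,
* `exists_not_mem_image`: there is an omitted value.
No `sorry`.
-/

set_option autoImplicit false

open Set Filter Topology Metric Complex

namespace Crest.Agent.R105.Uni231

/-- exterior of the closed disc of radius `R` about `0` -/
def Ext (R : ℝ) : Set ℂ := {z | R < ‖z‖}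

theorem mem_Ext {R : ℝ} {z : ℂ} : z ∈ Ext R ↔ R < ‖z‖ := Iff.rfl

theorem isOpen_Ext (R : ℝ) : IsOpen (Ext R) := isOpen_lt continuous_const continuous_norm

theorem Ext_mem_cocompact (R : ℝ) : Ext R ∈ cocompact ℂ := by
  have h : (closedBall (0:ℂ) R)ᶜ ∈ cocompact ℂ := (isCompact_closedBall _ _).compl_mem_cocompact
  filter_upwards [h] with z hz
  simpa [mem_Ext] using hz

theorem Ext_anti {R S : ℝ} (h : R ≤ S) : Ext S ⊆ Ext R := fun _ hz => lt_of_le_of_lt h hz

/-- `R / ζ` tends to infinity at `0`. -/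
theorem tendsto_div_cocompact {R : ℝ} (hR : 0 < R) :
    Tendsto (fun ζ : ℂ => (R : ℂ) / ζ) (𝓝[≠] 0) (cocompact ℂ) := by
  rw [← Metric.cobounded_eq_cocompact, ← tendsto_norm_atTop_iff_cobounded]
  have h1 : Tendsto (fun ζ : ℂ => ‖ζ⁻¹‖) (𝓝[≠] 0) atTop :=
    tendsto_norm_cobounded_atTop.comp tendsto_inv₀_nhdsNE_zero
  have h2 := h1.const_mul_atTop hR
  refine h2.congr fun ζ => ?_
  rw [div_eq_mul_inv, norm_mul, Complex.norm_real, Real.norm_eq_abs, abs_of_pos hR]

/-- the regular part `ζ ↦ f (R/ζ) - R/ζ`, value `0` at `0`. -/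
noncomputable def reg (f : ℂ → ℂ) (R : ℝ) (ζ : ℂ) : ℂ :=
  if ζ = 0 then 0 else f ((R : ℂ) / ζ) - (R : ℂ) / ζ

theorem reg_zero (f : ℂ → ℂ) (R : ℝ) : reg f R 0 = 0 := by simp [reg]

theorem reg_of_ne {f : ℂ → ℂ} {R : ℝ} {ζ : ℂ} (h : ζ ≠ 0) :
    reg f R ζ = f ((R : ℂ) / ζ) - (R : ℂ) / ζ := by simp [reg, h]

theorem div_mem_Ext {R : ℝ} (hR : 0 < R) {ζ : ℂ} (hζ : ζ ∈ ball (0:ℂ) 1) (h0 : ζ ≠ 0) :
    (R : ℂ) / ζ ∈ Ext R := by
  rw [mem_ball_zero_iff] at hζ
  have h1 : 0 < ‖ζ‖ := norm_pos_iff.2 h0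
  rw [mem_Ext, norm_div, Complex.norm_real, Real.norm_eq_abs, abs_of_pos hR, lt_div_iff₀ h1]
  nlinarith

theorem div_mem_ball {R : ℝ} (hR : 0 < R) {z : ℂ} (hz : z ∈ Ext R) :
    (R : ℂ) / z ∈ ball (0:ℂ) 1 := by
  have hz' : R < ‖z‖ := hz
  rw [mem_ball_zero_iff, norm_div, Complex.norm_real, Real.norm_eq_abs, abs_of_pos hR,
    div_lt_one (hR.trans hz')]
  exact hz'

theorem ne_zero_of_mem_Ext {R : ℝ} (hR : 0 < R) {z : ℂ} (hz : z ∈ Ext R) : z ≠ 0 := by
  rintro rfl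
  have hz' : R < ‖(0:ℂ)‖ := hz
  rw [norm_zero] at hz'
  linarith

section

variable {f : ℂ → ℂ} {R : ℝ}

theorem reg_continuousAt_zero (hR : 0 < R)
    (hlim : Tendsto (fun z => f z - z) (cocompact ℂ) (𝓝 0)) : ContinuousAt (reg f R) 0 := by
  rw [continuousAt_iff_punctured_nhds, reg_zero]
  refine (hlim.comp (tendsto_div_cocompact hR)).congr' ?_
  filter_upwards [self_mem_nhdsWithin] with ζ hζ
  rw [reg_of_ne hζ]
  rfl

theorem reg_differentiableOn (hR : 0 < R) (hf : DifferentiableOn ℂ f (Ext R))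
    (hlim : Tendsto (fun z => f z - z) (cocompact ℂ) (𝓝 0)) :
    DifferentiableOn ℂ (reg f R) (ball 0 1) := by
  have h0 : ball (0:ℂ) 1 ∈ 𝓝 (0:ℂ) := ball_mem_nhds 0 one_pos
  rw [← Complex.differentiableOn_compl_singleton_and_continuousAt_iff h0]
  refine ⟨?_, reg_continuousAt_zero hR hlim⟩
  intro ζ hζ
  have hne : ζ ≠ 0 := hζ.2
  have h1 : DifferentiableAt ℂ (fun ζ : ℂ => (R : ℂ) / ζ) ζ :=
    (differentiableAt_const _).div differentiableAt_id hne
  have h2 : DifferentiableAt ℂ f ((R : ℂ) / ζ) :=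
    hf.differentiableAt ((isOpen_Ext R).mem_nhds (div_mem_Ext hR hζ.1 hne))
  have h3 : DifferentiableAt ℂ (fun ζ : ℂ => f ((R : ℂ) / ζ) - (R : ℂ) / ζ) ζ :=
    (h2.comp ζ h1).sub h1
  refine (h3.congr_of_eventuallyEq ?_).differentiableWithinAt
  filter_upwards [isOpen_ne.mem_nhds hne] with η hη
  exact reg_of_ne hη

/-- the denominator `R + ζ (reg ζ - w) = ζ (f (R/ζ) - w)` -/
theorem den_ne_zero (hR : 0 < R) {w : ℂ} (hw : w ∉ f '' Ext R) {ζ : ℂ}
    (hζ : ζ ∈ ball (0:ℂ) 1) : (R : ℂ) + ζ * (reg f R ζ - w) ≠ 0 := by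
  have hRc : (R : ℂ) ≠ 0 := by exact_mod_cast hR.ne'
  by_cases h : ζ = 0
  · rw [h, zero_mul, add_zero]; exact hRc
  · rw [reg_of_ne h]
    have e : (R : ℂ) + ζ * (f ((R : ℂ) / ζ) - (R : ℂ) / ζ - w) = ζ * (f ((R : ℂ) / ζ) - w) := by
      field_simp
      ring
    rw [e]
    apply mul_ne_zero h
    intro h2
    exact hw ⟨_, div_mem_Ext hR hζ h, sub_eq_zero.1 h2⟩

/-- the univalent function of the disc attached to an omitted value:
`R ζ / (R + ζ (reg ζ - w)) = R / (f (R/ζ) - w)`. -/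
noncomputable def dsk (f : ℂ → ℂ) (R : ℝ) (w : ℂ) (ζ : ℂ) : ℂ :=
  (R : ℂ) * ζ / ((R : ℂ) + ζ * (reg f R ζ - w))

theorem dsk_zero (w : ℂ) : dsk f R w 0 = 0 := by simp [dsk]

theorem dsk_of_ne (hR : 0 < R) {w : ℂ} (hw : w ∉ f '' Ext R) {ζ : ℂ}
    (hζ : ζ ∈ ball (0:ℂ) 1) (h : ζ ≠ 0) : dsk f R w ζ = (R : ℂ) / (f ((R : ℂ) / ζ) - w) := by
  have h1 := den_ne_zero hR hw hζ
  have h2 : f ((R : ℂ) / ζ) - w ≠ 0 := by
    intro h2
    exact hw ⟨_, div_mem_Ext hR hζ h, sub_eq_zero.1 h2⟩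
  rw [reg_of_ne h] at h1
  rw [dsk, reg_of_ne h]
  have e : (R : ℂ) + ζ * (f ((R : ℂ) / ζ) - (R : ℂ) / ζ - w) = ζ * (f ((R : ℂ) / ζ) - w) := by
    field_simp
    ring
  rw [e]
  field_simp

theorem dsk_hasDerivAt (hR : 0 < R) (hf : DifferentiableOn ℂ f (Ext R))
    (hlim : Tendsto (fun z => f z - z) (cocompact ℂ) (𝓝 0)) {w : ℂ} (hw : w ∉ f '' Ext R) {ζ : ℂ}
    (hζ : ζ ∈ ball (0:ℂ) 1) :
    HasDerivAt (dsk f R w) ((R : ℂ) * ((R : ℂ) - ζ ^ 2 * deriv (reg f R) ζ) /
      ((R : ℂ) + ζ * (reg f R ζ - w)) ^ 2) ζ := by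
  have h1 := den_ne_zero hR hw hζ
  have hr : HasDerivAt (reg f R) (deriv (reg f R) ζ) ζ :=
    ((reg_differentiableOn hR hf hlim).differentiableAt (isOpen_ball.mem_nhds hζ)).hasDerivAt
  have h2 : HasDerivAt (fun ζ : ℂ => (R : ℂ) + ζ * (reg f R ζ - w))
      (1 * (reg f R ζ - w) + ζ * deriv (reg f R) ζ) ζ :=
    (((hasDerivAt_id ζ).mul (hr.sub_const w))).const_add (R : ℂ)
  have h3 : HasDerivAt (fun ζ : ℂ => (R : ℂ) * ζ) ((R : ℂ) * 1) ζ :=
    (hasDerivAt_id ζ).const_mul (R : ℂ)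
  refine (h3.div h2 h1).congr_deriv ?_
  congr 1
  ring

theorem dsk_differentiableOn (hR : 0 < R) (hf : DifferentiableOn ℂ f (Ext R))
    (hlim : Tendsto (fun z => f z - z) (cocompact ℂ) (𝓝 0)) {w : ℂ} (hw : w ∉ f '' Ext R) :
    DifferentiableOn ℂ (dsk f R w) (ball 0 1) := fun _ hζ =>
  (dsk_hasDerivAt hR hf hlim hw hζ).differentiableAt.differentiableWithinAt

theorem dsk_ne_zero (hR : 0 < R) {w : ℂ} (hw : w ∉ f '' Ext R) {ζ : ℂ}
    (hζ : ζ ∈ ball (0:ℂ) 1) (h : ζ ≠ 0) : dsk f R w ζ ≠ 0 := by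
  rw [dsk]
  exact div_ne_zero (mul_ne_zero (by exact_mod_cast hR.ne') h) (den_ne_zero hR hw hζ)

theorem dsk_injOn (hR : 0 < R) (hinj : InjOn f (Ext R)) {w : ℂ} (hw : w ∉ f '' Ext R) :
    InjOn (dsk f R w) (ball 0 1) := by
  have hRc : (R : ℂ) ≠ 0 := by exact_mod_cast hR.ne'
  intro a ha b hb hab
  by_cases h0 : a = 0
  · subst h0
    by_contra hne
    rw [dsk_zero] at hab
    exact dsk_ne_zero hR hw hb (Ne.symm hne) hab.symm
  by_cases h0' : b = 0
  · subst h0'
    rw [dsk_zero] at hab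
    exact absurd hab (dsk_ne_zero hR hw ha h0)
  rw [dsk_of_ne hR hw ha h0, dsk_of_ne hR hw hb h0'] at hab
  have ha2 : f ((R : ℂ) / a) - w ≠ 0 := fun h2 =>
    hw ⟨_, div_mem_Ext hR ha h0, sub_eq_zero.1 h2⟩
  have hb2 : f ((R : ℂ) / b) - w ≠ 0 := fun h2 =>
    hw ⟨_, div_mem_Ext hR hb h0', sub_eq_zero.1 h2⟩
  rw [div_eq_div_iff ha2 hb2] at hab
  have h3 : f ((R : ℂ) / a) = f ((R : ℂ) / b) := by
    have := mul_left_cancel₀ hRc hab
    linear_combination -this
  have h4 := hinj (div_mem_Ext hR ha h0) (div_mem_Ext hR hb h0') h3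
  rw [div_eq_div_iff h0 h0'] at h4
  exact (mul_left_cancel₀ hRc h4).symm

theorem dsk_deriv_zero (hR : 0 < R) (hf : DifferentiableOn ℂ f (Ext R))
    (hlim : Tendsto (fun z => f z - z) (cocompact ℂ) (𝓝 0)) {w : ℂ} (hw : w ∉ f '' Ext R) :
    deriv (dsk f R w) 0 = 1 := by
  have hRc : (R : ℂ) ≠ 0 := by exact_mod_cast hR.ne'
  rw [(dsk_hasDerivAt hR hf hlim hw (mem_ball_self one_pos)).deriv]
  simp only [ne_eq, OfNat.ofNat_ne_zero, not_false_eq_true, zero_pow, zero_mul, sub_zero,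
    add_zero]
  field_simp

/-- **Omitted values**: if `f` is univalent on `Ext R`, `f z - z → 0` at infinity, then every
omitted value has modulus at most `2 R`. -/
theorem norm_le_of_not_mem_image (hR : 0 < R) (hf : DifferentiableOn ℂ f (Ext R))
    (hinj : InjOn f (Ext R))
    (hlim : Tendsto (fun z => f z - z) (cocompact ℂ) (𝓝 0)) {w : ℂ} (hw : w ∉ f '' Ext R) :
    ‖w‖ ≤ 2 * R := by
  have hRc : (R : ℂ) ≠ 0 := by exact_mod_cast hR.ne'
  have h0m : (0:ℂ) ∈ ball (0:ℂ) 1 := mem_ball_self one_pos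
  have hnh : ball (0:ℂ) 1 ∈ 𝓝 (0:ℂ) := ball_mem_nhds 0 one_pos
  have hb := Lib.Bieberbach.bieberbach_normalized (dsk_differentiableOn hR hf hlim hw)
    (dsk_injOn hR hinj hw) (dsk_zero w) (dsk_deriv_zero hR hf hlim hw)
  have hreg := reg_differentiableOn hR hf hlim
  have hrd : ∀ ζ ∈ ball (0:ℂ) 1, HasDerivAt (reg f R) (deriv (reg f R) ζ) ζ := fun ζ hζ =>
    (hreg.differentiableAt (isOpen_ball.mem_nhds hζ)).hasDerivAt
  have hdd : deriv (deriv (dsk f R w)) 0 = 2 * w / R := by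
    have a2 : HasDerivAt (deriv (reg f R)) (deriv (deriv (reg f R)) 0) 0 :=
      ((hreg.deriv isOpen_ball).differentiableAt hnh).hasDerivAt
    have b1 : HasDerivAt (fun ζ : ℂ => (R : ℂ) * ((R : ℂ) - ζ ^ 2 * deriv (reg f R) ζ))
        ((R : ℂ) * (-(((2 : ℕ) : ℂ) * (0:ℂ) ^ (2 - 1) * 1 * deriv (reg f R) 0
          + (0:ℂ) ^ 2 * deriv (deriv (reg f R)) 0))) 0 :=
      (((((hasDerivAt_id (0:ℂ)).fun_pow 2).mul a2).const_sub (R : ℂ)).const_mul (R : ℂ))
    have b2 : HasDerivAt (fun ζ : ℂ => (R : ℂ) + ζ * (reg f R ζ - w))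
        (1 * (reg f R 0 - w) + 0 * deriv (reg f R) 0) 0 :=
      (((hasDerivAt_id (0:ℂ)).mul ((hrd 0 h0m).sub_const w))).const_add (R : ℂ)
    have hd0 : ((R : ℂ) + 0 * (reg f R 0 - w)) ^ 2 ≠ 0 :=
      pow_ne_zero 2 (den_ne_zero hR hw h0m)
    have b3 := b1.div (b2.fun_pow 2) hd0
    have hev : deriv (dsk f R w) =ᶠ[𝓝 0] (fun ζ => (R : ℂ) * ((R : ℂ) - ζ ^ 2 *
        deriv (reg f R) ζ) / ((R : ℂ) + ζ * (reg f R ζ - w)) ^ 2) := by
      filter_upwards [hnh] with z hz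
      rw [(dsk_hasDerivAt hR hf hlim hw hz).deriv]
    have b4 := b3.congr_of_eventuallyEq hev
    rw [b4.deriv]
    simp only [reg_zero]
    norm_num
    field_simp
  rw [hdd, norm_div, norm_mul, Complex.norm_real, Real.norm_eq_abs, abs_of_pos hR,
    Complex.norm_ofNat, div_le_iff₀ hR] at hb
  linarith

/-- the image of `Ext R` contains `Ext (2 R)` -/
theorem Ext_two_mul_subset (hR : 0 < R) (hf : DifferentiableOn ℂ f (Ext R))
    (hinj : InjOn f (Ext R))
    (hlim : Tendsto (fun z => f z - z) (cocompact ℂ) (𝓝 0)) : Ext (2 * R) ⊆ f '' Ext R := by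
  intro w hw
  by_contra h
  exact absurd (norm_le_of_not_mem_image hR hf hinj hlim h) (not_le.2 hw)

/-- Koebe 1/4 for the omitted values: `‖f z - w‖ ≤ 4 ‖z‖`. -/
theorem norm_sub_le_four_mul (hR : 0 < R) (hf : DifferentiableOn ℂ f (Ext R))
    (hinj : InjOn f (Ext R))
    (hlim : Tendsto (fun z => f z - z) (cocompact ℂ) (𝓝 0)) {w : ℂ} (hw : w ∉ f '' Ext R)
    {z : ℂ} (hz : z ∈ Ext R) : ‖f z - w‖ ≤ 4 * ‖z‖ := by
  have hRc : (R : ℂ) ≠ 0 := by exact_mod_cast hR.ne'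
  have hz0 : z ≠ 0 := ne_zero_of_mem_Ext hR hz
  have hζ := div_mem_ball hR hz
  have hζn : ‖(R : ℂ) / z‖ < 1 := by simpa using hζ
  have hζ0 : (R : ℂ) / z ≠ 0 := div_ne_zero hRc hz0
  have h1 := R162.KBD.growth_lower (dsk_differentiableOn hR hf hlim hw) (dsk_injOn hR hinj hw) hζn
  rw [dsk_zero, sub_zero, dsk_deriv_zero hR hf hlim hw, dsk_of_ne hR hw hζ hζ0,
    div_div_cancel₀ hRc, norm_one, norm_div, norm_div, Complex.norm_real, Real.norm_eq_abs,
    abs_of_pos hR] at h1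
  have h2 : f z - w ≠ 0 := fun h2 => hw ⟨z, hz, sub_eq_zero.1 h2⟩
  have h3 : 0 < ‖f z - w‖ := norm_pos_iff.2 h2
  have h4 : 0 < ‖z‖ := norm_pos_iff.2 hz0
  rw [div_mul_div_comm, one_mul, div_le_div_iff₀ (by positivity) h3] at h1
  nlinarith

/-- Univalent maps near infinity omit a value (Liouville). -/
theorem exists_not_mem_image (hR : 0 < R) (hf : DifferentiableOn ℂ f (Ext R))
    (hinj : InjOn f (Ext R)) : ∃ w, w ∉ f '' Ext R := by
  by_contra hcon
  push Not at hcon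
  have huniv : f '' Ext R = univ := eq_univ_of_forall hcon
  obtain ⟨g, hg, hginj, hgim, hgf, hfg⟩ := Lib.exists_holomorphic_inverse (isOpen_Ext R) hf hinj
  rw [huniv] at hg hginj hgim hfg
  have hgE : ∀ w, g w ∈ Ext R := fun w => by rw [← hgim]; exact ⟨w, mem_univ _, rfl⟩
  have hg0 : ∀ w, g w ≠ 0 := fun w => ne_zero_of_mem_Ext hR (hgE w)
  have hgd : Differentiable ℂ g := differentiableOn_univ.1 hg
  have hinv : Differentiable ℂ (fun w => (g w)⁻¹) := hgd.inv hg0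
  have hbd : Bornology.IsBounded (range (fun w => (g w)⁻¹)) := by
    rw [isBounded_iff_forall_norm_le]
    refine ⟨R⁻¹, ?_⟩
    rintro _ ⟨w, rfl⟩
    simp only [norm_inv]
    exact inv_anti₀ hR (hgE w).le
  have h := hinv.apply_eq_apply_of_bounded hbd 0 1
  have h2 : g 0 = g 1 := inv_injective h
  exact zero_ne_one (hginj (mem_univ _) (mem_univ _) h2)

/-- `‖reg ζ‖ ≤ 7 R`. -/
theorem reg_norm_le (hR : 0 < R) (hf : DifferentiableOn ℂ f (Ext R))
    (hinj : InjOn f (Ext R))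
    (hlim : Tendsto (fun z => f z - z) (cocompact ℂ) (𝓝 0)) {ζ : ℂ} (hζ : ζ ∈ ball (0:ℂ) 1) :
    ‖reg f R ζ‖ ≤ 7 * R := by
  obtain ⟨w, hw⟩ := exists_not_mem_image hR hf hinj
  have hw2 := norm_le_of_not_mem_image hR hf hinj hlim hw
  have hreg := reg_differentiableOn hR hf hlim
  -- bound on circles
  have hcirc : ∀ r : ℝ, 0 < r → r < 1 → ∀ η : ℂ, ‖η‖ = r → ‖reg f R η‖ ≤ 5 * R / r + 2 * R := by
    intro r hr0 hr1 η hη
    have hη0 : η ≠ 0 := by
      rintro rfl; rw [norm_zero] at hη; linarith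
    have hηb : η ∈ ball (0:ℂ) 1 := by rw [mem_ball_zero_iff, hη]; exact hr1
    have hE := div_mem_Ext hR hηb hη0
    have h1 := norm_sub_le_four_mul hR hf hinj hlim hw hE
    have h2 : ‖(R : ℂ) / η‖ = R / r := by
      rw [norm_div, Complex.norm_real, Real.norm_eq_abs, abs_of_pos hR, hη]
    rw [h2] at h1
    rw [reg_of_ne hη0]
    have e : f ((R : ℂ) / η) - (R : ℂ) / η = (f ((R : ℂ) / η) - w) + w - (R : ℂ) / η := by ring
    rw [e]
    refine (norm_sub_le _ _).trans ?_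
    rw [h2]
    have h3 := norm_add_le (f ((R : ℂ) / η) - w) w
    have h4 : 5 * R / r = 4 * (R / r) + R / r := by ring
    rw [h4]
    linarith
  have hmax : ∀ r : ℝ, ‖ζ‖ < r → r < 1 → ‖reg f R ζ‖ ≤ 5 * R / r + 2 * R := by
    intro r hζr hr1
    have hr0 : 0 < r := (norm_nonneg ζ).trans_lt hζr
    have hd : DiffContOnCl ℂ (reg f R) (ball 0 r) := by
      apply DifferentiableOn.diffContOnCl
      rw [closure_ball _ hr0.ne']
      exact hreg.mono (closedBall_subset_ball hr1)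
    refine Complex.norm_le_of_forall_mem_frontier_norm_le isBounded_ball hd ?_ ?_
    · intro η hη
      rw [frontier_ball _ hr0.ne', mem_sphere_zero_iff_norm] at hη
      exact hcirc r hr0 hr1 η hη
    · exact subset_closure (by rw [mem_ball_zero_iff]; exact hζr)
  have hζ1 : ‖ζ‖ < 1 := by simpa using hζ
  have ht : Tendsto (fun r : ℝ => 5 * R / r + 2 * R) (𝓝[<] 1) (𝓝 (5 * R / 1 + 2 * R)) := by
    apply Tendsto.mono_left _ nhdsWithin_le_nhds
    exact ((tendsto_const_nhds.div tendsto_id one_ne_zero).add_const _)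
  have h7 : 7 * R = 5 * R / 1 + 2 * R := by ring
  rw [h7]
  refine ge_of_tendsto ht ?_
  filter_upwards [Ioo_mem_nhdsLT hζ1] with r hr
  exact hmax r hr.1 hr.2

/-- **Deviation**: `‖f z - z‖ ≤ 7 R² / ‖z‖` on `Ext R`. -/
theorem norm_sub_self_le (hR : 0 < R) (hf : DifferentiableOn ℂ f (Ext R))
    (hinj : InjOn f (Ext R))
    (hlim : Tendsto (fun z => f z - z) (cocompact ℂ) (𝓝 0)) {z : ℂ} (hz : z ∈ Ext R) :
    ‖f z - z‖ ≤ 7 * R ^ 2 / ‖z‖ := by
  have hRc : (R : ℂ) ≠ 0 := by exact_mod_cast hR.ne'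
  have hz0 : z ≠ 0 := ne_zero_of_mem_Ext hR hz
  have hζ := div_mem_ball hR hz
  have hζ0 : (R : ℂ) / z ≠ 0 := div_ne_zero hRc hz0
  have hmaps : MapsTo (reg f R) (ball 0 1) (closedBall (reg f R 0) (7 * R)) := by
    intro η hη
    rw [reg_zero, mem_closedBall_zero_iff]
    exact reg_norm_le hR hf hinj hlim hη
  have h1 : dist (reg f R ((R : ℂ) / z)) (reg f R 0) ≤ 7 * R / 1 * dist ((R : ℂ) / z) 0 :=
    Complex.dist_le_div_mul_dist_of_mapsTo_ball (reg_differentiableOn hR hf hlim) hmaps hζ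
  rw [reg_zero, dist_zero_right, dist_zero_right, reg_of_ne hζ0, div_div_cancel₀ hRc, norm_div,
    Complex.norm_real, Real.norm_eq_abs, abs_of_pos hR] at h1
  refine h1.trans (le_of_eq ?_)
  ring


end

end Crest.Agent.R105.Uni231
end

-- ▼ part R105/Uni2_231
section

/-!
Row 105. The class `Sig U` of univalent maps `f z = z + o(1)` on an exterior domain (helper231):
bounds, images, compositions and inverses. No `sorry`.
-/

set_option autoImplicit false

open Set Filter Topology Metric Complex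

namespace Crest.Agent.R105.Uni231

open Crest.AnalysisR

/-- `f` is holomorphic and injective on `U` and `f z = z + o(1)` at infinity. -/
structure Sig (U : Set ℂ) (f : ℂ → ℂ) : Prop where
  diff : DifferentiableOn ℂ f U
  inj : InjOn f U
  lim : Tendsto (fun z => f z - z) (cocompact ℂ) (𝓝 0)

theorem exists_Ext_subset {U : Set ℂ} (hU : IsExteriorDomain U) : ∃ R : ℝ, 0 < R ∧ Ext R ⊆ U := by
  obtain ⟨R, hR⟩ := hU.2.2
  exact ⟨max R 1, lt_max_of_lt_right one_pos, fun z hz => hR z (lt_of_le_of_lt (le_max_left _ _) hz)⟩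

theorem sig_id (U : Set ℂ) : Sig U id :=
  ⟨differentiableOn_id, injOn_id U, by simp⟩

namespace Sig

variable {U V : Set ℂ} {f g : ℂ → ℂ} {R : ℝ}

theorem mono (h : Sig U f) (hV : V ⊆ U) : Sig V f :=
  ⟨h.diff.mono hV, h.inj.mono hV, h.lim⟩

theorem congr (h : Sig U f) (hU : U ∈ cocompact ℂ) (hfg : ∀ z ∈ U, g z = f z) : Sig U g := by
  refine ⟨h.diff.congr hfg, h.inj.congr fun z hz => (hfg z hz).symm, h.lim.congr' ?_⟩
  filter_upwards [hU] with z hz
  rw [hfg z hz]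

theorem tendsto_cocompact (h : Sig U f) : Tendsto f (cocompact ℂ) (cocompact ℂ) := by
  rw [← Metric.cobounded_eq_cocompact]
  have hl := h.lim
  rw [← Metric.cobounded_eq_cocompact] at hl
  have h1 : ∀ᶠ z in Bornology.cobounded ℂ, ‖f z - z‖ < 1 := by
    have := hl.norm
    rw [norm_zero] at this
    exact this.eventually (gt_mem_nhds one_pos)
  rw [← tendsto_norm_atTop_iff_cobounded]
  have h2 : Tendsto (fun z : ℂ => ‖z‖ - 1) (Bornology.cobounded ℂ) atTop :=
    tendsto_norm_cobounded_atTop.atTop_add tendsto_const_nhds (C := (-1:ℝ))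
  refine tendsto_atTop_mono' _ ?_ h2
  filter_upwards [h1] with z hz
  have h3 : ‖z‖ ≤ ‖f z‖ + ‖f z - z‖ := by
    have e : z = f z - (f z - z) := by ring
    calc ‖z‖ = ‖f z - (f z - z)‖ := by rw [← e]
      _ ≤ _ := norm_sub_le _ _
  linarith

theorem comp (h : Sig U f) (hg : Sig V g) (hV : MapsTo f U V) : Sig U (g ∘ f) := by
  refine ⟨hg.diff.comp h.diff hV, hg.inj.comp h.inj hV, ?_⟩
  have h1 := hg.lim.comp h.tendsto_cocompact
  have h2 := h1.add h.lim
  rw [add_zero] at h2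
  refine h2.congr fun z => ?_
  simp only [Function.comp]
  ring

/-- complement of the image is contained in the disc of radius `2 R` -/
theorem norm_le_of_not_mem (h : Sig U f) (hR : 0 < R) (hU : Ext R ⊆ U) {w : ℂ}
    (hw : w ∉ f '' U) : ‖w‖ ≤ 2 * R :=
  norm_le_of_not_mem_image hR (h.diff.mono hU) (h.inj.mono hU) h.lim
    fun hw' => hw (image_mono hU hw')

theorem Ext_subset_image (h : Sig U f) (hR : 0 < R) (hU : Ext R ⊆ U) :
    Ext (2 * R) ⊆ f '' Ext R :=
  Ext_two_mul_subset hR (h.diff.mono hU) (h.inj.mono hU) h.lim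

/-- `f` maps `U ∩ {‖z‖ ≤ S}` into the disc of radius `2 S`, for all `S ≥ R`. -/
theorem norm_le (h : Sig U f) (hR : 0 < R) (hU : Ext R ⊆ U) {S : ℝ} (hS : R ≤ S) {z : ℂ}
    (hz : z ∈ U) (hzS : ‖z‖ ≤ S) : ‖f z‖ ≤ 2 * S := by
  have hSU : Ext S ⊆ U := (Ext_anti hS).trans hU
  refine norm_le_of_not_mem_image (hR.trans_le hS) (h.diff.mono hSU) (h.inj.mono hSU) h.lim ?_
  rintro ⟨z', hz', he⟩
  have := h.inj (hSU hz') hz he
  subst this
  exact absurd hz' (not_lt.2 hzS)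

theorem norm_sub_self_le (h : Sig U f) (hR : 0 < R) (hU : Ext R ⊆ U) {z : ℂ}
    (hz : R < ‖z‖) : ‖f z - z‖ ≤ 7 * R ^ 2 / ‖z‖ :=
  Uni231.norm_sub_self_le hR (h.diff.mono hU) (h.inj.mono hU) h.lim hz


theorem isOpen_image (h : Sig U f) (hU : IsOpen U) : IsOpen (f '' U) :=
  Lib.isOpen_image_of_injOn hU h.diff h.inj


/-- the inverse is in the class -/
theorem exists_inverse (h : Sig U f) (hU : IsOpen U) (hR : 0 < R) (hRU : Ext R ⊆ U) :
    ∃ g : ℂ → ℂ, Sig (f '' U) g ∧ g '' (f '' U) = U ∧ (∀ z ∈ U, g (f z) = z) ∧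
      (∀ w ∈ f '' U, f (g w) = w) := by
  obtain ⟨g, hg, hginj, hgim, hgf, hfg⟩ := Lib.exists_holomorphic_inverse hU h.diff h.inj
  refine ⟨g, ⟨hg, hginj, ?_⟩, hgim, hgf, hfg⟩
  have hmem : ∀ w ∈ Ext (2 * R), w ∈ f '' U := fun w hw =>
    image_mono hRU (h.Ext_subset_image hR hRU hw)
  -- `g` tends to infinity
  have hgc : Tendsto g (cocompact ℂ) (cocompact ℂ) := by
    rw [← Metric.cobounded_eq_cocompact, ← tendsto_norm_atTop_iff_cobounded, Filter.tendsto_atTop]
    intro S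
    rw [Metric.cobounded_eq_cocompact]
    filter_upwards [Ext_mem_cocompact (2 * max R S)] with w hw
    have hw2 : w ∈ Ext (2 * R) := Ext_anti (by have := le_max_left R S; linarith) hw
    obtain ⟨z, hz, rfl⟩ := hmem w hw2
    rw [hgf z hz]
    by_contra hcon
    push Not at hcon
    have := h.norm_le hR hRU (le_max_left R S) hz (hcon.le.trans (le_max_right R S))
    exact absurd hw (not_lt.2 this)
  have h1 := (h.lim.comp hgc).neg
  rw [neg_zero] at h1
  refine h1.congr' ?_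
  filter_upwards [Ext_mem_cocompact (2 * R)] with w hw
  simp only [Function.comp]
  rw [hfg w (hmem w hw)]
  ring


end Sig




/-! ### the first coefficient -/

/-- the coefficient `b₁` of `f z = z + b₁/z + ...` -/
noncomputable def b1 (f : ℂ → ℂ) : ℂ := limUnder (cocompact ℂ) (fun z => z * (f z - z))

theorem tendsto_b1_aux {f : ℂ → ℂ} {R : ℝ} (hR : 0 < R) (hf : DifferentiableOn ℂ f (Ext R))
    (hlim : Tendsto (fun z => f z - z) (cocompact ℂ) (𝓝 0)) :
    Tendsto (fun z => z * (f z - z)) (cocompact ℂ) (𝓝 ((R : ℂ) * deriv (reg f R) 0)) := by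
  have hRc : (R : ℂ) ≠ 0 := by exact_mod_cast hR.ne'
  have hd : HasDerivAt (reg f R) (deriv (reg f R) 0) 0 :=
    ((reg_differentiableOn hR hf hlim).differentiableAt
      (isOpen_ball.mem_nhds (mem_ball_self one_pos))).hasDerivAt
  rw [hasDerivAt_iff_tendsto_slope] at hd
  have h1 : Tendsto (fun z : ℂ => (R : ℂ) / z) (cocompact ℂ) (𝓝[≠] 0) := by
    rw [tendsto_nhdsWithin_iff]
    constructor
    · have := (tendsto_inv₀_cobounded (α := ℂ)).const_mul (R : ℂ)
      rw [Metric.cobounded_eq_cocompact, mul_zero] at this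
      exact this.congr fun z => by rw [div_eq_mul_inv]
    · filter_upwards [Ext_mem_cocompact R] with z hz
      exact div_ne_zero hRc (ne_zero_of_mem_Ext hR hz)
  have h2 := (hd.comp h1).const_mul (R : ℂ)
  refine h2.congr' ?_
  filter_upwards [Ext_mem_cocompact R] with z hz
  have hz0 := ne_zero_of_mem_Ext hR hz
  simp only [Function.comp, slope_def_field, reg_zero, sub_zero]
  rw [reg_of_ne (div_ne_zero hRc hz0), div_div_cancel₀ hRc]
  field_simp

theorem Sig.tendsto_b1 {U : Set ℂ} {f : ℂ → ℂ} (h : Sig U f) {R : ℝ} (hR : 0 < R)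
    (hU : Ext R ⊆ U) : Tendsto (fun z => z * (f z - z)) (cocompact ℂ) (𝓝 (b1 f)) :=
  tendsto_nhds_limUnder ⟨_, tendsto_b1_aux hR (h.diff.mono hU) h.lim⟩

theorem Sig.b1_eq {U : Set ℂ} {f : ℂ → ℂ} (h : Sig U f) {R : ℝ} (hR : 0 < R)
    (hU : Ext R ⊆ U) : b1 f = (R : ℂ) * deriv (reg f R) 0 :=
  tendsto_nhds_unique (h.tendsto_b1 hR hU) (tendsto_b1_aux hR (h.diff.mono hU) h.lim)

theorem Sig.norm_b1_le {U : Set ℂ} {f : ℂ → ℂ} (h : Sig U f) {R : ℝ} (hR : 0 < R)
    (hU : Ext R ⊆ U) : ‖b1 f‖ ≤ 7 * R ^ 2 := by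
  have h1 := (h.tendsto_b1 hR hU).norm
  refine le_of_tendsto h1 ?_
  filter_upwards [Ext_mem_cocompact R] with z hz
  have h2 := h.norm_sub_self_le hR hU hz
  have hz0 : 0 < ‖z‖ := hR.trans hz
  rw [norm_mul]
  calc ‖z‖ * ‖f z - z‖ ≤ ‖z‖ * (7 * R ^ 2 / ‖z‖) := by gcongr
    _ = 7 * R ^ 2 := by field_simp


end Crest.Agent.R105.Uni231
end

-- ▼ part R105/Uni3_231
section

/-!
Row 105. Limits of univalent maps of the class `Sig` (helper231): compactness (ultrafilter and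
subsequence form), Hurwitz, kernel convergence of images, convergence of inverse maps.
The domains may vary: `f k` is in the class on `Uk k`, and every compact subset of `U` is eventually
in `Uk k`. No `sorry`.
-/

set_option autoImplicit false

open Set Filter Topology Metric Complex

namespace Crest.Agent.R105.Uni231

variable {ι : Type*} {l : Filter ι}

theorem tlu_of_local {U : Set ℂ} {f : ι → ℂ → ℂ} {g : ℂ → ℂ}
    (h : ∀ a ∈ U, ∃ r > 0, TendstoLocallyUniformlyOn f g l (ball a r)) :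
    TendstoLocallyUniformlyOn f g l U := by
  intro V hV a ha
  obtain ⟨r, hr, hl⟩ := h a ha
  obtain ⟨t, ht, h2⟩ := hl V hV a (mem_ball_self hr)
  rw [IsOpen.nhdsWithin_eq isOpen_ball (mem_ball_self hr)] at ht
  exact ⟨t, mem_nhdsWithin_of_mem_nhds ht, h2⟩

theorem exists_closedBall_subset {U : Set ℂ} (hU : IsOpen U) {a : ℂ} (ha : a ∈ U) :
    ∃ r > 0, closedBall a r ⊆ U := by
  obtain ⟨r, hr, hb⟩ := Metric.isOpen_iff.1 hU a ha
  exact ⟨r / 2, half_pos hr, (closedBall_subset_ball (half_lt_self hr)).trans hb⟩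

/-- quantitative Hurwitz / open mapping theorem for locally uniform limits of injective maps -/
theorem eventually_ball_subset_image {f : ι → ℂ → ℂ} {g : ℂ → ℂ} {a : ℂ} {r m : ℝ}
    (hr : 0 < r) (hm : 0 < m)
    (hd : ∀ᶠ k in l, DiffContOnCl ℂ (f k) (ball a r))
    (hinj : ∀ᶠ k in l, InjOn (f k) (ball a r))
    (hu : TendstoUniformlyOn f g l (closedBall a r))
    (hmg : ∀ z ∈ sphere a r, m ≤ ‖g z - g a‖) :
    ∀ᶠ k in l, ball (g a) (m / 8) ⊆ f k '' closedBall a r := by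
  rw [Metric.tendstoUniformlyOn_iff] at hu
  filter_upwards [hd, hinj, hu (m / 8) (by positivity)] with k hdk hik huk
  have ha : dist (g a) (f k a) < m / 8 := huk a (mem_closedBall_self hr.le)
  have h1 : ∀ z ∈ sphere a r, 3 * m / 4 ≤ ‖f k z - f k a‖ := by
    intro z hz
    have hz1 := huk z (sphere_subset_closedBall hz)
    rw [dist_eq_norm] at hz1 ha
    have e : g z - g a = (f k z - f k a) + ((g z - f k z) - (g a - f k a)) := by ring
    have h2 := norm_add_le (f k z - f k a) ((g z - f k z) - (g a - f k a))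
    rw [← e] at h2
    have h3 := norm_sub_le (g z - f k z) (g a - f k a)
    have h4 := hmg z hz
    linarith
  have h2 := hdk.ball_subset_image_closedBall hr h1 (by
    rw [← Filter.not_eventually]
    exact Lib.not_eventually_const_of_injOn isOpen_ball hik (mem_ball_self hr) _)
  refine Subset.trans (ball_subset_ball' ?_) h2
  rw [dist_eq_norm] at ha ⊢
  linarith

section

variable {U : Set ℂ} {Uk : ι → Set ℂ} {f : ι → ℂ → ℂ} {g : ℂ → ℂ} {R : ℝ}

theorem differentiableOn_of_tlu [l.NeBot] (hU : IsOpen U)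
    (hf : ∀ᶠ k in l, DifferentiableOn ℂ (f k) (Uk k))
    (hex : ∀ K ⊆ U, IsCompact K → ∀ᶠ k in l, K ⊆ Uk k)
    (h : TendstoLocallyUniformlyOn f g l U) : DifferentiableOn ℂ g U := by
  intro a ha
  obtain ⟨r, hr, hrU⟩ := exists_closedBall_subset hU ha
  have h1 : TendstoLocallyUniformlyOn f g l (ball a r) :=
    h.mono (ball_subset_closedBall.trans hrU)
  have h2 : ∀ᶠ k in l, DifferentiableOn ℂ (f k) (ball a r) := by
    filter_upwards [hf, hex _ hrU (isCompact_closedBall a r)] with k hk hk2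
    exact hk.mono (ball_subset_closedBall.trans hk2)
  exact ((h1.differentiableOn h2 isOpen_ball).differentiableAt
    (ball_mem_nhds a hr)).differentiableWithinAt

theorem not_const_of_lim {c : ℂ} (hRU : Ext R ⊆ U)
    (hlim : Tendsto (fun z => g z - z) (cocompact ℂ) (𝓝 0)) (hc : ∀ z ∈ U, g z = c) : False := by
  have h1 : Tendsto (fun z : ℂ => ‖g z - z‖) (cocompact ℂ) (𝓝 0) := by
    simpa using hlim.norm
  have h2 : ∀ᶠ z in cocompact ℂ, ‖g z - z‖ < 1 := h1.eventually (gt_mem_nhds one_pos)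
  have h3 : ∀ᶠ z in cocompact ℂ, (False : Prop) := by
    filter_upwards [h2, Ext_mem_cocompact R, Ext_mem_cocompact (‖c‖ + 1)] with z hz hzR hzc
    rw [hc z (hRU hzR)] at hz
    have h4 : ‖z‖ ≤ ‖c‖ + ‖c - z‖ := by
      have e : z = c - (c - z) := by ring
      calc ‖z‖ = ‖c - (c - z)‖ := by rw [← e]
        _ ≤ _ := norm_sub_le _ _
    have h5 : ‖c‖ + 1 < ‖z‖ := hzc
    linarith
  exact (h3.exists).elim fun _ h => h

/-- small circles on which the limit stays away from its central value -/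
theorem exists_good_radius (hU : IsOpen U) (hUc : IsPreconnected U) (hg : DifferentiableOn ℂ g U)
    (hRU : Ext R ⊆ U) (hlim : Tendsto (fun z => g z - z) (cocompact ℂ) (𝓝 0))
    {a : ℂ} (ha : a ∈ U) {ε : ℝ} (hε : 0 < ε) :
    ∃ r > 0, r < ε ∧ closedBall a r ⊆ U ∧ ∃ m > 0, ∀ z ∈ sphere a r, m ≤ ‖g z - g a‖ := by
  have hga : AnalyticOnNhd ℂ g U := hg.analyticOnNhd hU
  have h1 : ∀ᶠ z in 𝓝[≠] a, g z ≠ g a := by
    refine ((hga a ha).eventually_eq_or_eventually_ne analyticAt_const).resolve_left ?_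
    intro hev
    exact not_const_of_lim hRU hlim
      (fun z hz => hga.eqOn_of_preconnected_of_eventuallyEq analyticOnNhd_const hUc ha hev hz)
  rw [eventually_nhdsWithin_iff] at h1
  obtain ⟨r, hr, hrb⟩ := Metric.eventually_nhds_iff_ball.1 (h1.and (hU.mem_nhds ha))
  have hρ : 0 < min (r / 2) (ε / 2) := by positivity
  refine ⟨min (r / 2) (ε / 2), hρ, ?_, ?_, ?_⟩
  · have := min_le_right (r / 2) (ε / 2); linarith
  · intro z hz
    refine (hrb z ?_).2
    rw [mem_closedBall] at hz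
    rw [mem_ball]
    have := min_le_left (r / 2) (ε / 2)
    linarith
  · have hsub : sphere a (min (r / 2) (ε / 2)) ⊆ ball a r := by
      intro z hz
      rw [mem_sphere] at hz
      rw [mem_ball]
      have := min_le_left (r / 2) (ε / 2)
      linarith
    have hcont : ContinuousOn (fun z => ‖g z - g a‖) (sphere a (min (r / 2) (ε / 2))) := by
      refine ((hg.continuousOn.mono ?_).sub continuousOn_const).norm
      intro z hz
      exact (hrb z (hsub hz)).2
    obtain ⟨z₀, hz₀, hmin⟩ := (isCompact_sphere a (min (r / 2) (ε / 2))).exists_isMinOn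
      (NormedSpace.sphere_nonempty.2 hρ.le) hcont
    refine ⟨‖g z₀ - g a‖, ?_, fun z hz => hmin hz⟩
    rw [gt_iff_lt, norm_pos_iff, sub_ne_zero]
    refine (hrb z₀ (hsub hz₀)).1 ?_
    rintro rfl
    rw [mem_sphere, dist_self] at hz₀
    linarith

/-- **limit of the class** (varying domains) -/
theorem sig_of_tlu [l.NeBot] (hU : IsOpen U) (hUc : IsPreconnected U) (hR : 0 < R)
    (hRU : Ext R ⊆ U) (hf : ∀ᶠ k in l, Sig (Uk k) (f k)) (hRk : ∀ᶠ k in l, Ext R ⊆ Uk k)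
    (hex : ∀ K ⊆ U, IsCompact K → ∀ᶠ k in l, K ⊆ Uk k)
    (h : TendstoLocallyUniformlyOn f g l U) : Sig U g := by
  have hg : DifferentiableOn ℂ g U :=
    differentiableOn_of_tlu hU (hf.mono fun k hk => hk.diff) hex h
  have hpt : ∀ z ∈ U, Tendsto (fun k => f k z) l (𝓝 (g z)) := fun z hz => h.tendsto_at hz
  have hdev : ∀ z, R < ‖z‖ → ‖g z - z‖ ≤ 7 * R ^ 2 / ‖z‖ := by
    intro z hz
    refine le_of_tendsto (((hpt z (hRU hz)).sub_const z).norm) ?_
    filter_upwards [hf, hRk] with k hk hk2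
    exact hk.norm_sub_self_le hR hk2 hz
  have hlim : Tendsto (fun z => g z - z) (cocompact ℂ) (𝓝 0) := by
    rw [tendsto_zero_iff_norm_tendsto_zero]
    have h0 : Tendsto (fun z : ℂ => 7 * R ^ 2 / ‖z‖) (cocompact ℂ) (𝓝 0) := by
      rw [← Metric.cobounded_eq_cocompact]
      exact tendsto_norm_cobounded_atTop.const_div_atTop _
    refine squeeze_zero' (Eventually.of_forall fun z => norm_nonneg _) ?_ h0
    filter_upwards [Ext_mem_cocompact R] with z hz
    exact hdev z hz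
  refine ⟨hg, ?_, hlim⟩
  intro a ha b hb hab
  by_contra hne
  have hd : 0 < dist a b := dist_pos.2 hne
  obtain ⟨r, hr, hrε, hrU, m, hm, hmg⟩ :=
    exists_good_radius hU hUc hg hRU hlim ha (half_pos hd)
  obtain ⟨r', hr', hrε', hrU', m', hm', hmg'⟩ :=
    exists_good_radius hU hUc hg hRU hlim hb (half_pos hd)
  have key : ∀ (c : ℂ) (ρ μ : ℝ), 0 < ρ → closedBall c ρ ⊆ U → 0 < μ →
      (∀ z ∈ sphere c ρ, μ ≤ ‖g z - g c‖) →
      ∀ᶠ k in l, ball (g c) (μ / 8) ⊆ f k '' closedBall c ρ := by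
    intro c ρ μ hρ hρU hμ hμg
    refine eventually_ball_subset_image hρ hμ ?_ ?_ ?_ hμg
    · filter_upwards [hf, hex _ hρU (isCompact_closedBall c ρ)] with k hk hk2
      apply DifferentiableOn.diffContOnCl
      rw [closure_ball _ hρ.ne']
      exact hk.diff.mono hk2
    · filter_upwards [hf, hex _ hρU (isCompact_closedBall c ρ)] with k hk hk2
      exact hk.inj.mono (ball_subset_closedBall.trans hk2)
    · exact (tendstoLocallyUniformlyOn_iff_forall_isCompact hU).1 h _ hρU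
        (isCompact_closedBall c ρ)
  obtain ⟨k, hk1, hk2, hk3, hk4, hk5⟩ := ((key a r m hr hrU hm hmg).and
    ((key b r' m' hr' hrU' hm' hmg').and (hf.and ((hex _ hrU (isCompact_closedBall a r)).and
      (hex _ hrU' (isCompact_closedBall b r')))))).exists
  obtain ⟨x, hx, hxe⟩ := hk1 (mem_ball_self (by positivity))
  obtain ⟨y, hy, hye⟩ := hk2 (mem_ball_self (by positivity))
  have hxy : x = y := hk3.inj (hk4 hx) (hk5 hy) (by rw [hxe, hye, hab])
  subst hxy
  rw [mem_closedBall] at hx hy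
  have := dist_triangle_left a b x
  linarith

/-- **compactness**, ultrafilter form -/
theorem exists_limit_ultra (u : Ultrafilter ι) (hU : IsOpen U) (hUc : IsPreconnected U)
    (hR : 0 < R) (hRU : Ext R ⊆ U) (hf : ∀ᶠ k in (u : Filter ι), Sig (Uk k) (f k))
    (hRk : ∀ᶠ k in (u : Filter ι), Ext R ⊆ Uk k)
    (hex : ∀ K ⊆ U, IsCompact K → ∀ᶠ k in (u : Filter ι), K ⊆ Uk k) :
    ∃ g : ℂ → ℂ, Sig U g ∧ TendstoLocallyUniformlyOn f g u U := by
  classical
  have hbd : ∀ z ∈ U, ∃ x : ℂ, Tendsto (fun k => f k z) u (𝓝 x) := by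
    intro z hz
    have h1 : ∀ᶠ k in (u : Filter ι), f k z ∈ closedBall (0:ℂ) (2 * max R ‖z‖) := by
      filter_upwards [hf, hRk, hex {z} (singleton_subset_iff.2 hz) isCompact_singleton]
        with k hk hk2 hk3
      rw [mem_closedBall_zero_iff]
      exact hk.norm_le hR hk2 (le_max_left _ _) (hk3 (mem_singleton z)) (le_max_right _ _)
    obtain ⟨x, _, hx⟩ := (isCompact_closedBall (0:ℂ) (2 * max R ‖z‖)).ultrafilter_le_nhds'
      (u.map (fun k => f k z)) h1
    exact ⟨x, hx⟩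
  choose! g hg using hbd
  have htlu : TendstoLocallyUniformlyOn f g u U := by
    apply tlu_of_local
    intro a ha
    obtain ⟨r, hr, hrU⟩ := exists_closedBall_subset hU ha
    refine ⟨r, hr, ?_⟩
    have hrb := ball_subset_closedBall.trans hrU
    refine R264.tlu_of_pointwise (M := 2 * max R (‖a‖ + r)) isOpen_ball ?_ ?_
      fun z hz => hg z (hrb hz)
    · filter_upwards [hf, hex _ hrU (isCompact_closedBall a r)] with k hk hk2
      exact hk.diff.mono (ball_subset_closedBall.trans hk2)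
    · filter_upwards [hf, hRk, hex _ hrU (isCompact_closedBall a r)] with k hk hkR hk2
      intro z hz
      refine hk.norm_le hR hkR (le_max_left _ _) (hk2 (ball_subset_closedBall hz)) ?_
      refine le_trans ?_ (le_max_right _ _)
      rw [mem_ball, dist_eq_norm] at hz
      have e : z = a + (z - a) := by ring
      calc ‖z‖ = ‖a + (z - a)‖ := by rw [← e]
        _ ≤ ‖a‖ + ‖z - a‖ := norm_add_le _ _
        _ ≤ _ := by linarith
  exact ⟨g, sig_of_tlu hU hUc hR hRU hf hRk hex htlu, htlu⟩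






end

/-! ### subsequences -/

theorem exists_subseq_of_hyper {U : Set ℂ} (hU : IsOpen U) {f : ℕ → ℂ → ℂ} {g : ℂ → ℂ}
    (h : TendstoLocallyUniformlyOn f g (hyperfilter ℕ : Filter ℕ) U) :
    ∃ φ : ℕ → ℕ, StrictMono φ ∧ TendstoLocallyUniformlyOn (fun n => f (φ n)) g atTop U := by
  have : LocallyCompactSpace U := hU.locallyCompactSpace
  let K : CompactExhaustion U := CompactExhaustion.choice U
  have hK : ∀ n, IsCompact (Subtype.val '' (K n) : Set ℂ) := fun n =>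
    (K.isCompact n).image continuous_subtype_val
  have hKU : ∀ n, (Subtype.val '' (K n) : Set ℂ) ⊆ U := by
    rintro n _ ⟨x, _, rfl⟩; exact x.2
  have h1 : ∀ n : ℕ, ∃ᶠ k in (atTop : Filter ℕ),
      ∀ z ∈ (Subtype.val '' (K n) : Set ℂ), dist (g z) (f k z) < 1 / ((n : ℝ) + 1) := by
    intro n
    have h2 := (tendstoLocallyUniformlyOn_iff_forall_isCompact hU).1 h _ (hKU n) (hK n)
    rw [Metric.tendstoUniformlyOn_iff] at h2
    have h3 := h2 (1 / ((n : ℝ) + 1)) (by positivity)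
    have h4 : (hyperfilter ℕ : Filter ℕ) ≤ atTop := by
      rw [← Nat.cofinite_eq_atTop]; exact hyperfilter_le_cofinite
    exact h3.frequently.filter_mono h4
  obtain ⟨φ, hφ, hφ2⟩ := extraction_forall_of_frequently h1
  refine ⟨φ, hφ, ?_⟩
  rw [tendstoLocallyUniformlyOn_iff_forall_isCompact hU]
  intro C hC hCc
  rw [Metric.tendstoUniformlyOn_iff]
  intro ε hε
  have hC' : IsCompact ((Subtype.val : U → ℂ) ⁻¹' C) := by
    rw [Subtype.isCompact_iff, Subtype.image_preimage_coe, inter_eq_right.2 hC]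
    exact hCc
  obtain ⟨N, hN⟩ := K.exists_superset_of_isCompact hC'
  obtain ⟨M, hM⟩ := exists_nat_one_div_lt hε
  filter_upwards [eventually_ge_atTop (max N M)] with n hn z hz
  have hzK : z ∈ (Subtype.val '' (K n) : Set ℂ) :=
    ⟨⟨z, hC hz⟩, K.subset (le_of_max_le_left hn) (hN hz), rfl⟩
  refine (hφ2 n z hzK).trans_le (le_trans ?_ hM.le)
  have : (M : ℝ) ≤ n := by exact_mod_cast le_of_max_le_right hn
  exact one_div_le_one_div_of_le (by positivity) (by linarith)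

/-- **sequential compactness** of the class (varying domains) -/
theorem exists_subseq {U : Set ℂ} {Uk : ℕ → Set ℂ} {f : ℕ → ℂ → ℂ} {R : ℝ}
    (hU : IsOpen U) (hUc : IsPreconnected U) (hR : 0 < R) (hRU : Ext R ⊆ U)
    (hf : ∀ᶠ n in atTop, Sig (Uk n) (f n)) (hRk : ∀ᶠ n in atTop, Ext R ⊆ Uk n)
    (hex : ∀ K ⊆ U, IsCompact K → ∀ᶠ n in atTop, K ⊆ Uk n) :
    ∃ φ : ℕ → ℕ, ∃ g : ℂ → ℂ, StrictMono φ ∧ Sig U g ∧
      TendstoLocallyUniformlyOn (fun n => f (φ n)) g atTop U := by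
  have h4 : (hyperfilter ℕ : Filter ℕ) ≤ atTop := by
    rw [← Nat.cofinite_eq_atTop]; exact hyperfilter_le_cofinite
  obtain ⟨g, hg, hlim⟩ := exists_limit_ultra (hyperfilter ℕ) hU hUc hR hRU
    (hf.filter_mono h4) (hRk.filter_mono h4) (fun K hK hKc => (hex K hK hKc).filter_mono h4)
  obtain ⟨φ, hφ, hφ2⟩ := exists_subseq_of_hyper hU hlim
  exact ⟨φ, g, hφ, hg, hφ2⟩

end Crest.Agent.R105.Uni231
end

-- ▼ part R105/FK1_644

/-!
# Row 105, finite Koebe (helper644), part 1: planar topology of finite families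

* `preconn_union`   : the complement of the union of two disjoint compact sets with preconnected
                      complements is preconnected (Janiszewski)
* `preconn_iUnion`  : finite families
* `preconn_comps`   : finite unions of components of the complement of an exterior domain
* `preconn_convex`  : complements of compact convex sets
* `fam_discs`, `fam_slits`
-/

set_option autoImplicit false

open Set Filter Topology Metric Complex

namespace Crest.Agent.R105.FK_644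

open Crest.AnalysisR Crest.Agent.R193.Planar

/-- Janiszewski for two disjoint compact sets. -/
theorem preconn_union {K1 K2 : Set ℂ} (h1 : IsCompact K1) (h2 : IsCompact K2)
    (hd : Disjoint K1 K2) (hc1 : IsPreconnected K1ᶜ) (hc2 : IsPreconnected K2ᶜ) :
    IsPreconnected (K1 ∪ K2)ᶜ := by
  classical
  have hSo : IsOpen (K1 ∪ K2)ᶜ := (h1.union h2).isClosed.isOpen_compl
  intro u v hu hv huv ⟨x, hxS, hxu⟩ ⟨y, hyS, hyv⟩
  by_contra hcon
  rw [not_nonempty_iff_eq_empty] at hcon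
  set c : ℂ → ℝ := fun z => if z ∈ (K1 ∪ K2)ᶜ ∩ u then 1 else 0 with hcdef
  have hc : LCOff (K1 ∪ K2) c := by
    intro z hz
    by_cases hzu : z ∈ u
    · filter_upwards [(hSo.inter hu).mem_nhds ⟨hz, hzu⟩] with w hw
      simp only [hcdef]
      rw [if_pos hw, if_pos ⟨hz, hzu⟩]
    · have hzv : z ∈ v := (huv hz).resolve_left hzu
      filter_upwards [(hSo.inter hv).mem_nhds ⟨hz, hzv⟩] with w hw
      have hwu : w ∉ (K1 ∪ K2)ᶜ ∩ u := by
        intro hw'
        have : w ∈ (K1 ∪ K2)ᶜ ∩ (u ∩ v) := ⟨hw.1, hw'.2, hw.2⟩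
        rw [hcon] at this
        exact this
      simp only [hcdef]
      rw [if_neg hwu, if_neg fun h => hzu h.2]
  obtain ⟨c1, c2, hl1, hl2, hs⟩ := Ends_897.split_C h1 h2.isClosed hd hc
  have hx1 : x ∉ K1 := fun h => hxS (Or.inl h)
  have hx2 : x ∉ K2 := fun h => hxS (Or.inr h)
  have hy1 : y ∉ K1 := fun h => hyS (Or.inl h)
  have hy2 : y ∉ K2 := fun h => hyS (Or.inr h)
  have e1 : c1 x = c1 y := hl1.eq_of_preconnected hc1 disjoint_compl_left hx1 hy1
  have e2 : c2 x = c2 y := hl2.eq_of_preconnected hc2 disjoint_compl_left hx2 hy2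
  have hcx : c x = 1 := if_pos ⟨hxS, hxu⟩
  have hcy : c y = 0 := by
    refine if_neg fun h => ?_
    have : y ∈ (K1 ∪ K2)ᶜ ∩ (u ∩ v) := ⟨hyS, h.2, hyv⟩
    rw [hcon] at this
    exact this
  have := hs x hxS
  have := hs y hyS
  rw [hcx] at *
  linarith

/-- finite unions -/
theorem preconn_biUnion {ι : Type*} (s : Finset ι) {K : ι → Set ℂ} (hK : ∀ i ∈ s, IsCompact (K i))
    (hd : ∀ i ∈ s, ∀ j ∈ s, i ≠ j → Disjoint (K i) (K j))
    (hc : ∀ i ∈ s, IsPreconnected (K i)ᶜ) : IsPreconnected (⋃ i ∈ s, K i)ᶜ := by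
  classical
  induction s using Finset.induction_on with
  | empty => simpa using isPreconnected_univ
  | insert a t ha ih =>
    rw [Finset.set_biUnion_insert]
    refine preconn_union (hK a (Finset.mem_insert_self _ _))
      (t.isCompact_biUnion fun i hi => hK i (Finset.mem_insert_of_mem hi)) ?_
      (hc a (Finset.mem_insert_self _ _)) (ih (fun i hi => hK i (Finset.mem_insert_of_mem hi))
        (fun i hi j hj => hd i (Finset.mem_insert_of_mem hi) j (Finset.mem_insert_of_mem hj))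
        fun i hi => hc i (Finset.mem_insert_of_mem hi))
    rw [disjoint_iUnion₂_right]
    intro i hi
    exact hd a (Finset.mem_insert_self _ _) i (Finset.mem_insert_of_mem hi)
      (by rintro rfl; exact ha hi)

theorem preconn_iUnion {ι : Type*} [Finite ι] {K : ι → Set ℂ} (hK : ∀ i, IsCompact (K i))
    (hd : ∀ i j, i ≠ j → Disjoint (K i) (K j))
    (hc : ∀ i, IsPreconnected (K i)ᶜ) : IsPreconnected (dom K) := by
  classical
  have := Fintype.ofFinite ι
  have := preconn_biUnion (Finset.univ : Finset ι) (K := K) (fun i _ => hK i)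
    (fun i _ j _ => hd i j) (fun i _ => hc i)
  simpa [dom] using this

/-- complements of compact convex sets of the plane are preconnected. -/
theorem preconn_convex {D : Set ℂ} (hD : IsCompact D) (hc : Convex ℝ D) : IsPreconnected Dᶜ := by
  obtain ⟨C, hC⟩ := hD.isBounded.exists_norm_le
  set M := max C 0 with hM
  have hfar : {w : ℂ | M < ‖w‖} ⊆ Dᶜ := by
    intro w hw hwD
    have h1 := hC w hwD
    have h2 : M < ‖w‖ := hw
    have h3 := le_max_left C 0
    linarith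
  have hp := Ends_897.isPreconnected_norm_gt (le_max_right C 0 : (0:ℝ) ≤ M)
  have hM0 : 0 ≤ M := le_max_right C 0
  set w0 : ℂ := ((M + 1 : ℝ) : ℂ) with hw0
  have hw0m : w0 ∈ {w : ℂ | M < ‖w‖} := by
    rw [mem_setOf_eq, hw0, Complex.norm_real, Real.norm_eq_abs, abs_of_nonneg (by linarith)]
    linarith
  rcases D.eq_empty_or_nonempty with rfl | ⟨a, ha⟩
  · rw [compl_empty]; exact isPreconnected_univ
  refine isPreconnected_of_forall w0 fun y hy => ?_
  -- the ray from `y`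
  obtain ⟨l, u, hlu, hul⟩ := geometric_hahn_banach_closed_point hc hD.isClosed hy
  set v : ℂ := y - a with hv
  have hlv : 0 < l v := by
    rw [hv, map_sub]
    linarith [hlu a ha]
  have hv0 : 0 < ‖v‖ := by
    rw [norm_pos_iff]
    rintro h0
    rw [h0, map_zero] at hlv
    exact lt_irrefl _ hlv
  set ray : Set ℂ := (fun t : ℝ => y + (t : ℂ) * v) '' Ici 0 with hray
  have hrp : IsPreconnected ray :=
    isPreconnected_Ici.image _ (by fun_prop)
  have hrD : ray ⊆ Dᶜ := by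
    rintro _ ⟨t, ht, rfl⟩ hmem
    have h1 := hlu _ hmem
    have h2 : l (y + (t : ℂ) * v) = l y + t * l v := by
      rw [map_add, ← Complex.real_smul, map_smul, smul_eq_mul]
    have h3 : 0 ≤ t * l v := mul_nonneg ht hlv.le
    linarith
  set T : ℝ := (M + 1 + ‖y‖) / ‖v‖ with hT
  have hT0 : 0 ≤ T := by positivity
  have hTm : y + (T : ℂ) * v ∈ {w : ℂ | M < ‖w‖} := by
    rw [mem_setOf_eq]
    have h1 : ‖(T : ℂ) * v‖ = M + 1 + ‖y‖ := by
      rw [norm_mul, Complex.norm_real, Real.norm_eq_abs, abs_of_nonneg hT0, hT,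
        div_mul_cancel₀ _ hv0.ne']
    have h2 : ‖(T : ℂ) * v‖ ≤ ‖y + (T : ℂ) * v‖ + ‖y‖ := by
      have : (T : ℂ) * v = (y + (T : ℂ) * v) - y := by ring
      calc ‖(T : ℂ) * v‖ = ‖(y + (T : ℂ) * v) - y‖ := by rw [← this]
        _ ≤ _ := norm_sub_le _ _
    linarith
  refine ⟨ray ∪ {w : ℂ | M < ‖w‖}, union_subset hrD hfar, Or.inr hw0m,
    Or.inl ⟨0, mem_Ici.2 le_rfl, by simp⟩, ?_⟩
  exact hrp.union _ ⟨T, hT0, rfl⟩ hTm hp

/-- finite unions of components of the complement of an exterior domain -/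
theorem preconn_comps {V : Set ℂ} (hV : IsExteriorDomain V) {ι : Type*} [Finite ι] {z : ι → ℂ}
    (hinj : ∀ i j, i ≠ j → connectedComponentIn Vᶜ (z i) ≠ connectedComponentIn Vᶜ (z j)) :
    IsPreconnected (dom fun i => connectedComponentIn Vᶜ (z i)) := by
  refine preconn_iUnion (fun i => Ends_897.isCompact_cc (Ends_897.isCompact_compl hV) _) ?_
    fun i => Thin_12.isPreconnected_compl_cc hV.2.1.isPreconnected _
  intro i j hij
  rw [disjoint_left]
  intro w hw hw'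
  exact hinj i j hij ((connectedComponentIn_eq hw).trans (connectedComponentIn_eq hw').symm)

theorem isCompact_discs {ι : Type*} (x : ι → ℂ × ℝ) (i : ι) : IsCompact (discs x i) :=
  isCompact_closedBall _ _

theorem slits_eq_image {ι : Type*} (y : ι → ℂ × ℝ) (i : ι) :
    slits y i = (fun t : ℝ => (y i).1 + (t : ℂ) * ((y i).2 : ℂ)) '' Icc 0 1 := by
  rw [slits, segment_eq_image']
  congr 1
  ext t
  rw [add_sub_cancel_left, Complex.real_smul]

theorem isCompact_slits {ι : Type*} (y : ι → ℂ × ℝ) (i : ι) : IsCompact (slits y i) := by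
  rw [slits_eq_image]
  exact isCompact_Icc.image (by fun_prop)

theorem fam_discs {n : ℕ} {x : Fin n → ℂ × ℝ} (hx : x ∈ X n) : Fam (discs x) where
  cpt i := isCompact_discs x i
  conn i := ⟨⟨(x i).1, mem_closedBall_self (hx.1 i).le⟩, (convex_closedBall _ _).isPreconnected⟩
  nt i := by
    refine ⟨(x i).1, mem_closedBall_self (hx.1 i).le, (x i).1 + ((x i).2 : ℂ), ?_, ?_⟩
    · rw [discs, mem_closedBall, dist_eq_norm, add_sub_cancel_left, Complex.norm_real,
        Real.norm_eq_abs, abs_of_pos (hx.1 i)]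
    · intro h
      have : ((x i).2 : ℂ) = 0 := by
        have := h.symm
        rwa [add_eq_left] at this
      have h2 := hx.1 i
      rw [Complex.ofReal_eq_zero] at this
      rw [this] at h2
      exact lt_irrefl _ h2
  disj := hx.2
  compl := preconn_iUnion (isCompact_discs x) hx.2
    fun i => preconn_convex (isCompact_discs x i) (convex_closedBall _ _)

theorem fam_slits {n : ℕ} {y : Fin n → ℂ × ℝ} (hy : y ∈ Y n) : Fam (slits y) where
  cpt i := isCompact_slits y i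
  conn i := ⟨⟨(y i).1, left_mem_segment ℝ _ _⟩, (convex_segment _ _).isPreconnected⟩
  nt i := by
    refine ⟨(y i).1, left_mem_segment ℝ _ _, (y i).1 + ((y i).2 : ℂ), right_mem_segment ℝ _ _, ?_⟩
    intro h
    have : ((y i).2 : ℂ) = 0 := by
      have := h.symm
      rwa [add_eq_left] at this
    have h2 := hy.1 i
    rw [Complex.ofReal_eq_zero] at this
    rw [this] at h2
    exact lt_irrefl _ h2
  disj := hy.2
  compl := preconn_iUnion (isCompact_slits y) hy.2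
    fun i => preconn_convex (isCompact_slits y i) (convex_segment _ _)

/-! ### domains of finite families -/

section

variable {ι : Type*} [Finite ι] {K K' : ι → Set ℂ} {f g : ℂ → ℂ}

theorem compl_dom {ι : Type*} (K : ι → Set ℂ) : (dom K)ᶜ = ⋃ i, K i := compl_compl _

theorem Fam.isCompact_union (h : Fam K) : IsCompact (⋃ i, K i) := isCompact_iUnion h.cpt

theorem Fam.exterior (h : Fam K) : IsExteriorDomain (dom K) := by
  obtain ⟨C, hC⟩ := h.isCompact_union.isBounded.exists_norm_le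
  have hmem : ∀ z : ℂ, C < ‖z‖ → z ∈ dom K := by
    intro z hz hzK
    exact absurd (hC z hzK) (not_le.2 hz)
  refine ⟨h.isCompact_union.isClosed.isOpen_compl, ⟨⟨((|C| + 1 : ℝ) : ℂ), hmem _ ?_⟩, h.compl⟩,
    C, hmem⟩
  rw [Complex.norm_real, Real.norm_eq_abs, abs_of_nonneg (by positivity)]
  linarith [le_abs_self C]

/-- the components of the complement -/
theorem Fam.cc_eq (h : Fam K) {i : ι} {z : ℂ} (hz : z ∈ K i) :
    connectedComponentIn (dom K)ᶜ z = K i := by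
  classical
  rw [compl_dom]
  have hzU : z ∈ ⋃ i, K i := mem_iUnion.2 ⟨i, hz⟩
  refine Subset.antisymm ?_
    ((h.conn i).isPreconnected.subset_connectedComponentIn hz (subset_iUnion K i))
  have h1 : IsClosed (K i) := (h.cpt i).isClosed
  have h2 : IsClosed (⋃ j ∈ {j | j ≠ i}, K j) :=
    (toFinite {j | j ≠ i}).isClosed_biUnion fun j _ => (h.cpt j).isClosed
  have h3 : connectedComponentIn (⋃ i, K i) z ⊆ K i ∪ ⋃ j ∈ {j | j ≠ i}, K j := by
    intro w hw
    obtain ⟨j, hj⟩ := mem_iUnion.1 (connectedComponentIn_subset _ _ hw)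
    by_cases hji : j = i
    · subst hji; exact Or.inl hj
    · exact Or.inr (mem_biUnion hji hj)
  have h4 := isPreconnected_closed_iff.1 (isPreconnected_connectedComponentIn
    (F := ⋃ i, K i) (x := z)) _ _ h1 h2 h3 ⟨z, mem_connectedComponentIn hzU, hz⟩
  intro w hw
  by_contra hwi
  have hw2 := (h3 hw).resolve_left hwi
  obtain ⟨y, hy1, hy2, hy3⟩ := h4 ⟨w, hw, hw2⟩
  obtain ⟨j, hj, hyj⟩ := mem_iUnion₂.1 hy3
  exact disjoint_left.1 (h.disj j i hj) hyj hy2

theorem Fam.eF_eq (h : Fam K) {i : ι} {z : ℂ} (hz : z ∈ K i) :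
    Ends_897.eF (dom K) z = 𝓝ˢ (K i) ⊓ 𝓟 (dom K) := by
  rw [Ends_897.eF, h.cc_eq hz]

theorem not_mem_dom {ι : Type*} {K : ι → Set ℂ} {z : ℂ} (hz : z ∉ dom K) : ∃ i, z ∈ K i := by
  have : z ∈ (dom K)ᶜ := hz
  rw [compl_dom] at this
  exact mem_iUnion.1 this

theorem not_mem_dom' {ι : Type*} {K : ι → Set ℂ} {i : ι} {z : ℂ} (hz : z ∈ K i) : z ∉ dom K :=
  fun h => h (mem_iUnion.2 ⟨i, hz⟩)

theorem Sig.toU {U : Set ℂ} (h : Sig U f) : Uni231.Sig U f := ⟨h.hol, h.inj, h.inf⟩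

theorem Sig.ofU {U : Set ℂ} (h : Uni231.Sig U f) : Sig U f := ⟨h.diff, h.inj, h.lim⟩

theorem Sig.endMap {U : Set ℂ} (h : Sig U f) (hU : IsExteriorDomain U) :
    Ends_897.EndMap U (f '' U) f :=
  Ends_897.EndMap.of_holo hU h.hol h.inj h.toU.tendsto_cocompact

theorem LMap.endMap (h : LMap K K' f) (hK : Fam K) : Ends_897.EndMap (dom K) (dom K') f := by
  have := h.sig.endMap hK.exterior
  rwa [h.img] at this

theorem Fam.neBot (h : Fam K) (i : ι) : (𝓝ˢ (K i) ⊓ 𝓟 (dom K)).NeBot := by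
  obtain ⟨z, hz⟩ := (h.conn i).nonempty
  rw [← h.eF_eq hz]
  exact Ends_897.eF_neBot h.exterior (not_mem_dom' hz)

/-- the label filters are equal -/
theorem LMap.lab_eq (h : LMap K K' f) (hK : Fam K) (hK' : Fam K') (i : ι) :
    map f (𝓝ˢ (K i) ⊓ 𝓟 (dom K)) = 𝓝ˢ (K' i) ⊓ 𝓟 (dom K') := by
  obtain ⟨z, hz⟩ := (hK.conn i).nonempty
  obtain ⟨ζ, hζ, he⟩ := (h.endMap hK).exists_end (not_mem_dom' hz)
  obtain ⟨j, hj⟩ := not_mem_dom hζ
  rw [hK.eF_eq hz, hK'.eF_eq hj] at he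
  have hl := h.lab i
  rw [Tendsto, he] at hl
  by_cases hji : j = i
  · rw [he, hji]
  · exfalso
    have h1 : Disjoint (𝓝ˢ (K' j)) (𝓝ˢ (K' i)) :=
      separatedNhds_iff_disjoint.1
        (SeparatedNhds.of_isCompact_isCompact (hK'.cpt j) (hK'.cpt i) (hK'.disj j i hji))
    have h2 := hK'.neBot j
    exact h2.ne (eq_bot_iff.2 ((le_inf (inf_le_left : 𝓝ˢ (K' j) ⊓ 𝓟 (dom K') ≤ _) hl).trans
      h1.eq_bot.le))

theorem LMap.symm (h : LMap K K' f) (hK : Fam K) (hK' : Fam K') :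
    ∃ g, LMap K' K g ∧ (∀ z ∈ dom K, g (f z) = z) ∧ ∀ w ∈ dom K', f (g w) = w := by
  obtain ⟨R, hR, hRU⟩ := Uni231.exists_Ext_subset hK.exterior
  obtain ⟨g, hg, hgim, hgf, hfg⟩ := h.sig.toU.exists_inverse hK.exterior.1 hR hRU
  rw [h.img] at hg hgim hfg
  refine ⟨g, ⟨Sig.ofU hg, hgim, fun i => ?_⟩, hgf, hfg⟩
  rw [← h.lab_eq hK hK' i, tendsto_map'_iff]
  have h1 : (g ∘ f) =ᶠ[𝓝ˢ (K i) ⊓ 𝓟 (dom K)] id := by
    filter_upwards [mem_inf_of_right (mem_principal_self (dom K))] with z hz using hgf z hz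
  exact (tendsto_congr' h1).2 (tendsto_id.mono_left inf_le_left)

theorem LMap.mapsTo (h : LMap K K' f) : MapsTo f (dom K) (dom K') := by
  intro z hz
  rw [← h.img]
  exact mem_image_of_mem f hz

theorem LMap.trans {K'' : ι → Set ℂ} (h : LMap K K' f) (h' : LMap K' K'' g) :
    LMap K K'' (g ∘ f) := by
  refine ⟨Sig.ofU (h.sig.toU.comp h'.sig.toU h.mapsTo), ?_, fun i => ?_⟩
  · rw [image_comp, h.img, h'.img]
  · have h1 : Tendsto f (𝓝ˢ (K i) ⊓ 𝓟 (dom K)) (𝓝ˢ (K' i) ⊓ 𝓟 (dom K')) :=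
      tendsto_inf.2 ⟨h.lab i, tendsto_principal.2
        (mem_of_superset (mem_inf_of_right (mem_principal_self (dom K))) h.mapsTo)⟩
    exact (h'.lab i).comp h1

end

end Crest.Agent.R105.FK_644
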