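import Mathlib
import Crest.Agent.R105.FK1_644
import Crest.Agent.R105.Top1_8

-- ▼ part R105/Cof1_515
section

/-!
# R105 / COFAT (node D2), part 1 (helper515)

`K : ι → Set ℂ` a finite family of continua, `f` a labelled conformal map of `dom K` onto the
complement of the discs `closedBall (x i).1 (x i).2`.

* `hat T = f '' (T ∩ dom K) ∪ ⋃ {discs x i | K i meets T}`;
* `hat_compact`, `hat_preconn` : `hat T` is compact / connected if `T` is;
* `hat_closedBall_subset` : maximum principle: if `hat (sphere p t) ⊆ closedBall c R` then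
  `hat (closedBall p t) ⊆ closedBall c R`;
* `dist_le_of_mem`, `exists_center` : small one-dimensional image measure of
  `hat (sphere p t)` (without the disc of `p`) ⟹ `f` maps `ball p t` near the disc of `p`.
-/

set_option autoImplicit false

open Set Filter Topology Metric MeasureTheory

namespace Crest.Agent.R105.Cof_515

open FK_644

section

variable {ι : Type*} {K : ι → Set ℂ} {x : ι → ℂ × ℝ} {f : ℂ → ℂ}

/-- image of `T` under `f`, a component `K i` which meets `T` being replaced by its disc. -/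
def hat (K : ι → Set ℂ) (x : ι → ℂ × ℝ) (f : ℂ → ℂ) (T : Set ℂ) : Set ℂ :=
  f '' (T ∩ dom K) ∪ ⋃ i ∈ {i : ι | (K i ∩ T).Nonempty}, discs x i

theorem mem_hat_of_dom {T : Set ℂ} {z : ℂ} (hz : z ∈ T) (hd : z ∈ dom K) :
    f z ∈ hat K x f T := Or.inl ⟨z, ⟨hz, hd⟩, rfl⟩

theorem disc_subset_hat {T : Set ℂ} {i : ι} (h : (K i ∩ T).Nonempty) :
    discs x i ⊆ hat K x f T := fun _ hy => Or.inr (mem_biUnion (show i ∈ {i | _} from h) hy)

theorem mem_hat_iff {T : Set ℂ} {y : ℂ} : y ∈ hat K x f T ↔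
    (∃ z ∈ T, z ∈ dom K ∧ f z = y) ∨ ∃ i, (K i ∩ T).Nonempty ∧ y ∈ discs x i := by
  constructor
  · rintro (⟨z, ⟨hz, hd⟩, rfl⟩ | hy)
    · exact Or.inl ⟨z, hz, hd, rfl⟩
    · obtain ⟨i, hi, hy⟩ := mem_iUnion₂.1 hy
      exact Or.inr ⟨i, hi, hy⟩
  · rintro (⟨z, hz, hd, rfl⟩ | ⟨i, hi, hy⟩)
    · exact mem_hat_of_dom hz hd
    · exact disc_subset_hat hi hy

/-- an ultrafilter which converges to a compact set converges to a point of it -/
theorem exists_le_nhds {D : Set ℂ} (hD : IsCompact D) {u : Ultrafilter ℂ}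
    (h : (u : Filter ℂ) ≤ 𝓝ˢ D) : ∃ y ∈ D, (u : Filter ℂ) ≤ 𝓝 y := by
  by_contra hcon
  have hcon' : ∀ y ∈ D, ¬ ((u : Filter ℂ) ≤ 𝓝 y) := fun y hy h' => hcon ⟨y, hy, h'⟩
  have h1 : ∀ y ∈ D, ∃ s ∈ 𝓝 y, s ∉ (u : Filter ℂ) := by
    intro y hy
    have := hcon' y hy
    rw [Filter.not_le] at this
    exact this
  choose! s hs hsu using h1
  obtain ⟨F, hF, hcov⟩ := hD.elim_nhds_subcover (fun y => interior (s y))
    (fun y hy => interior_mem_nhds.2 (hs y hy))
  have h2 : (⋃ y ∈ (F : Set ℂ), interior (s y)) ∈ (u : Filter ℂ) := by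
    refine h ((isOpen_biUnion fun y _ => isOpen_interior).mem_nhdsSet.2 ?_)
    simpa using hcov
  have h3 : (⋃ y ∈ (F : Set ℂ), interior (s y)) ∈ u := h2
  rw [Ultrafilter.finite_biUnion_mem_iff F.finite_toSet] at h3
  obtain ⟨y, hy, hyu⟩ := h3
  exact hsu y (hF y hy) (mem_of_superset hyu interior_subset)

variable [Finite ι]

theorem hat_compact (hK : Fam K) (hm : LMap K (discs x) f) {T : Set ℂ} (hT : IsCompact T) :
    IsCompact (hat K x f T) := by
  rw [isCompact_iff_ultrafilter_le_nhds]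
  intro u hu
  rw [le_principal_iff] at hu
  have hu' : hat K x f T ∈ u := hu
  rw [hat, Ultrafilter.union_mem_iff, Ultrafilter.finite_biUnion_mem_iff (toFinite _)] at hu'
  rcases hu' with hu' | ⟨i, hi, hiu⟩
  · -- values at points of the domain
    set v := Ultrafilter.ofComapInfPrincipal hu' with hv
    have hvm : T ∩ dom K ∈ v := Ultrafilter.ofComapInfPrincipal_mem hu'
    have hvu : v.map f = u := Ultrafilter.ofComapInfPrincipal_eq_of_map hu'
    have hvu' : map f (v : Filter ℂ) = (u : Filter ℂ) := by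
      rw [← hvu]; rfl
    obtain ⟨z, hz, hvz⟩ := isCompact_iff_ultrafilter_le_nhds.1 hT v
      (le_principal_iff.2 (mem_of_superset hvm inter_subset_left))
    by_cases hzd : z ∈ dom K
    · refine ⟨f z, mem_hat_of_dom hz hzd, ?_⟩
      rw [← hvu']
      have hopen : IsOpen (dom K) := hK.exterior.1
      have hc : ContinuousAt f z := (hm.sig.hol.continuousOn.continuousAt (hopen.mem_nhds hzd))
      exact (map_mono hvz).trans hc
    · obtain ⟨i, hzi⟩ := not_mem_dom hzd
      have h1 : (v : Filter ℂ) ≤ 𝓝ˢ (K i) ⊓ 𝓟 (dom K) :=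
        le_inf (hvz.trans (nhds_le_nhdsSet hzi))
          (le_principal_iff.2 (mem_of_superset hvm inter_subset_right))
      have h2 : (u : Filter ℂ) ≤ 𝓝ˢ (discs x i) := by
        rw [← hvu']
        exact (map_mono h1).trans (hm.lab i)
      obtain ⟨y, hy, hyu⟩ := exists_le_nhds (isCompact_discs x i) h2
      exact ⟨y, disc_subset_hat ⟨z, hzi, hz⟩ hy, hyu⟩
  · obtain ⟨y, hy, hyu⟩ := isCompact_iff_ultrafilter_le_nhds.1 (isCompact_discs x i) u
      (le_principal_iff.2 hiu)
    exact ⟨y, disc_subset_hat hi hy, hyu⟩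

/-- the part of `T` which is mapped into `A` -/
def pre (K : ι → Set ℂ) (x : ι → ℂ × ℝ) (f : ℂ → ℂ) (T A : Set ℂ) : Set ℂ :=
  {z | z ∈ T ∧ ((z ∈ dom K ∧ f z ∈ A) ∨ ∃ i, z ∈ K i ∧ discs x i ⊆ A)}

theorem isClosed_pre (hK : Fam K) (hm : LMap K (discs x) f) {T A B : Set ℂ}
    (hT : IsClosed T) (hA : IsClosed A)
    (hAB : ∀ i, (K i ∩ T).Nonempty → discs x i ⊆ A ∨ Disjoint (discs x i) A) :
    IsClosed (pre K x f T A) := by
  rw [← isOpen_compl_iff, isOpen_iff_mem_nhds]
  intro z hz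
  by_cases hzT : z ∈ T
  swap
  · filter_upwards [hT.isOpen_compl.mem_nhds hzT] with w hw hwp using hw hwp.1
  by_cases hzd : z ∈ dom K
  · have hopen : IsOpen (dom K) := hK.exterior.1
    have hfz : f z ∉ A := fun h => hz ⟨hzT, Or.inl ⟨hzd, h⟩⟩
    have hc : ContinuousAt f z := (hm.sig.hol.continuousOn.continuousAt (hopen.mem_nhds hzd))
    filter_upwards [hopen.mem_nhds hzd, hc.preimage_mem_nhds (hA.isOpen_compl.mem_nhds hfz)]
      with w hw hw' hwp
    rcases hwp.2 with h | ⟨i, hi, -⟩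
    · exact hw' h.2
    · exact not_mem_dom' hi hw
  · obtain ⟨i, hzi⟩ := not_mem_dom hzd
    have hni : ¬ discs x i ⊆ A := fun h => hz ⟨hzT, Or.inr ⟨i, hzi, h⟩⟩
    have hdis := (hAB i ⟨z, hzi, hzT⟩).resolve_left hni
    have h1 : Aᶜ ∈ 𝓝ˢ (discs x i) := hA.isOpen_compl.mem_nhdsSet.2
      (fun y hy hyA => disjoint_left.1 hdis hy hyA)
    have h2 : f ⁻¹' Aᶜ ∈ 𝓝ˢ (K i) ⊓ 𝓟 (dom K) := hm.lab i h1
    rw [mem_inf_principal] at h2
    have h3 := nhds_le_nhdsSet hzi h2
    have h4 : ∀ᶠ w in 𝓝 z, ∀ j, j ≠ i → w ∉ K j := by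
      rw [eventually_all]
      intro j
      by_cases hji : j = i
      · exact Eventually.of_forall fun w h => absurd hji h
      · filter_upwards [(hK.cpt j).isClosed.isOpen_compl.mem_nhds
          (fun h => disjoint_left.1 (hK.disj j i hji) h hzi)] with w hw _ using hw
    filter_upwards [h3, h4] with w hw hw4 hwp
    rcases hwp.2 with ⟨hd, hfA⟩ | ⟨j, hj, hjA⟩
    · exact hw hd hfA
    · by_cases hji : j = i
      · subst hji; exact hni hjA
      · exact hw4 j hji hj

theorem hat_preconn (hK : Fam K) (hm : LMap K (discs x) f) (hx : ∀ i, 0 ≤ (x i).2)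
    {T : Set ℂ} (hT : IsCompact T)
    (hTc : IsPreconnected T) : IsPreconnected (hat K x f T) := by
  rw [isPreconnected_closed_iff]
  intro A B hA hB hAB hneA hneB
  by_contra hcon
  rw [not_nonempty_iff_eq_empty] at hcon
  have hemp : ∀ y, y ∈ hat K x f T → y ∈ A → y ∈ B → False := by
    intro y h1 h2 h3
    have : y ∈ hat K x f T ∩ (A ∩ B) := ⟨h1, h2, h3⟩
    rw [hcon] at this
    exact this
  -- every disc is in `A` or in `B`
  have hdisc : ∀ i, (K i ∩ T).Nonempty → discs x i ⊆ A ∨ discs x i ⊆ B := by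
    intro i hi
    have hpc : IsPreconnected (discs x i) := (convex_closedBall _ _).isPreconnected
    by_contra hno
    rw [not_or] at hno
    obtain ⟨h1, h2⟩ := hno
    rw [not_subset] at h1 h2
    obtain ⟨a, ha, haA⟩ := h1
    obtain ⟨b, hb, hbB⟩ := h2
    have haB : a ∈ B := (hAB (disc_subset_hat hi ha)).resolve_left haA
    have hbA : b ∈ A := (hAB (disc_subset_hat hi hb)).resolve_right hbB
    obtain ⟨y, hy, hyA, hyB⟩ := isPreconnected_closed_iff.1 hpc A B hA hB
      ((disc_subset_hat hi).trans hAB) ⟨b, hb, hbA⟩ ⟨a, ha, haB⟩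
    exact hemp y (disc_subset_hat hi hy) hyA hyB
  have hcen : ∀ i, (x i).1 ∈ discs x i := fun i => mem_closedBall_self (hx i)
  have hdA : ∀ i, (K i ∩ T).Nonempty → discs x i ⊆ A ∨ Disjoint (discs x i) A := by
    intro i hi
    rcases hdisc i hi with h | h
    · exact Or.inl h
    · exact Or.inr (disjoint_left.2 fun y hy hyA => hemp y (disc_subset_hat hi hy) hyA (h hy))
  have hdB : ∀ i, (K i ∩ T).Nonempty → discs x i ⊆ B ∨ Disjoint (discs x i) B := by
    intro i hi
    rcases hdisc i hi with h | h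
    · exact Or.inr (disjoint_left.2 fun y hy hyB => hemp y (disc_subset_hat hi hy) (h hy) hyB)
    · exact Or.inl h
  have hcA := isClosed_pre (B := B) hK hm hT.isClosed hA hdA
  have hcB := isClosed_pre (B := A) hK hm hT.isClosed hB hdB
  have hcov : T ⊆ pre K x f T A ∪ pre K x f T B := by
    intro z hz
    by_cases hzd : z ∈ dom K
    · rcases hAB (mem_hat_of_dom hz hzd) with h | h
      · exact Or.inl ⟨hz, Or.inl ⟨hzd, h⟩⟩
      · exact Or.inr ⟨hz, Or.inl ⟨hzd, h⟩⟩
    · obtain ⟨i, hzi⟩ := not_mem_dom hzd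
      rcases hdisc i ⟨z, hzi, hz⟩ with h | h
      · exact Or.inl ⟨hz, Or.inr ⟨i, hzi, h⟩⟩
      · exact Or.inr ⟨hz, Or.inr ⟨i, hzi, h⟩⟩
  have hne : ∀ C : Set ℂ, (∀ i, (K i ∩ T).Nonempty → discs x i ⊆ C ∨ Disjoint (discs x i) C) →
      (hat K x f T ∩ C).Nonempty → (T ∩ pre K x f T C).Nonempty := by
    rintro C hC ⟨y, hy, hyC⟩
    rcases mem_hat_iff.1 hy with ⟨z, hz, hd, rfl⟩ | ⟨i, hi, hyi⟩
    · exact ⟨z, hz, hz, Or.inl ⟨hd, hyC⟩⟩
    · obtain ⟨z, hzi, hz⟩ := hi
      refine ⟨z, hz, hz, Or.inr ⟨i, hzi, (hC i ⟨z, hzi, hz⟩).resolve_right ?_⟩⟩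
      intro h
      exact disjoint_left.1 h hyi hyC
  obtain ⟨z, hz, hzA, hzB⟩ := isPreconnected_closed_iff.1 hTc _ _ hcA hcB hcov
    (hne A hdA hneA) (hne B hdB hneB)
  rcases hzA.2 with ⟨hd, hfA⟩ | ⟨i, hi, hiA⟩
  · rcases hzB.2 with ⟨-, hfB⟩ | ⟨j, hj, -⟩
    · exact hemp _ (mem_hat_of_dom hz hd) hfA hfB
    · exact not_mem_dom' hj hd
  · rcases hzB.2 with ⟨hd, -⟩ | ⟨j, hj, hjB⟩
    · exact not_mem_dom' hi hd
    · have hij : i = j := by
        by_contra hne'
        exact disjoint_left.1 (hK.disj i j hne') hi hj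
      subst hij
      exact hemp _ (disc_subset_hat ⟨z, hi, hz⟩ (hcen i)) (hiA (hcen i)) (hjB (hcen i))

end

end Crest.Agent.R105.Cof_515
end

-- ▼ part R105/Cof2_515
section

/-!
# R105 / COFAT (node D2), part 2 (helper515)

maximum principle and the estimate from the one-dimensional image measure.
-/

set_option autoImplicit false

open Set Filter Topology Metric MeasureTheory

namespace Crest.Agent.R105.Cof_515

open FK_644

section

variable {ι : Type*} [Finite ι] {K : ι → Set ℂ} {x : ι → ℂ × ℝ} {f : ℂ → ℂ}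

/-- `hat T` is a neighbourhood of the discs of the components inside the interior of `T` -/
theorem hat_mem_nhdsSet (hK : Fam K) (hD : Fam (discs x)) (hm : LMap K (discs x) f) {T : Set ℂ}
    {i : ι} (hi : K i ⊆ interior T) : hat K x f T ∈ 𝓝ˢ (discs x i) := by
  have h0 : dom K ∩ interior T ∈ 𝓝ˢ (K i) ⊓ 𝓟 (dom K) := by
    rw [inter_comm]
    exact inter_mem_inf (isOpen_interior.mem_nhdsSet.2 hi) (mem_principal_self _)
  have h1 : f '' (dom K ∩ interior T) ∈ 𝓝ˢ (discs x i) ⊓ 𝓟 (dom (discs x)) := by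
    rw [← hm.lab_eq hK hD i]
    exact image_mem_map h0
  rw [mem_inf_principal] at h1
  have h2 : (⋃ j ∈ {j : ι | j ≠ i}, discs x j)ᶜ ∈ 𝓝ˢ (discs x i) := by
    refine (((toFinite {j : ι | j ≠ i}).isClosed_biUnion
      fun j _ => (isCompact_discs x j).isClosed).isOpen_compl).mem_nhdsSet.2 ?_
    intro y hy hy'
    obtain ⟨j, hj, hyj⟩ := mem_iUnion₂.1 hy'
    exact disjoint_left.1 (hD.disj j i hj) hyj hy
  obtain ⟨z, hz⟩ := (hK.conn i).nonempty
  have hne : (K i ∩ T).Nonempty := ⟨z, hz, interior_subset (hi hz)⟩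
  filter_upwards [h1, h2] with y hy1 hy2
  by_cases hyd : y ∈ dom (discs x)
  · obtain ⟨w, ⟨hw1, hw2⟩, hw3⟩ := hy1 hyd
    rw [← hw3]
    exact mem_hat_of_dom (interior_subset hw2) hw1
  · obtain ⟨j, hj⟩ := not_mem_dom hyd
    by_cases hji : j = i
    · subst hji; exact disc_subset_hat hne hj
    · exact absurd (mem_iUnion₂.2 ⟨j, hji, hj⟩) hy2

/-- the distance to `c` has no local maximum except possibly `c` -/
theorem exists_farther {c y : ℂ} {Z : Set ℂ} (hZ : Z ∈ 𝓝 y) (hy : 0 < dist y c) :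
    ∃ y' ∈ Z, dist y c < dist y' c := by
  have h1 : Tendsto (fun s : ℝ => y + (s : ℂ) * (y - c)) (𝓝[>] 0) (𝓝 y) := by
    have : Continuous fun s : ℝ => y + (s : ℂ) * (y - c) := by fun_prop
    have h2 := this.tendsto 0
    simp only [Complex.ofReal_zero, zero_mul, add_zero] at h2
    exact h2.mono_left nhdsWithin_le_nhds
  obtain ⟨s, hs, hs0⟩ := ((h1.eventually hZ).and self_mem_nhdsWithin).exists
  refine ⟨_, hs, ?_⟩
  have hs0' : 0 < s := hs0
  have h3 : y + (s : ℂ) * (y - c) - c = ((1 + s : ℝ) : ℂ) * (y - c) := by push_cast; ring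
  rw [dist_eq_norm (y + _) c, h3, norm_mul, Complex.norm_real, Real.norm_eq_abs,
    abs_of_pos (by linarith), ← dist_eq_norm]
  nlinarith

/-- **maximum principle** -/
theorem hat_closedBall_subset (hK : Fam K) (hD : Fam (discs x)) (hm : LMap K (discs x) f)
    {p c : ℂ} {t R : ℝ} (hR : 0 ≤ R)
    (h : hat K x f (sphere p t) ⊆ closedBall c R) :
    hat K x f (closedBall p t) ⊆ closedBall c R := by
  intro y hy
  have hcpt := hat_compact hK hm (isCompact_closedBall p t)
  obtain ⟨y0, hy0, hmax⟩ := hcpt.exists_isMaxOn ⟨y, hy⟩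
    (continuous_id.dist (continuous_const (y := c))).continuousOn
  have hmax' : ∀ w ∈ hat K x f (closedBall p t), dist w c ≤ dist y0 c := fun w hw => hmax hw
  rw [mem_closedBall]
  refine (hmax' y hy).trans ?_
  by_contra hcon
  rw [not_le] at hcon
  have hy0s : y0 ∉ hat K x f (sphere p t) := fun hs => by
    have := h hs
    rw [mem_closedBall] at this
    linarith
  have hZ : hat K x f (closedBall p t) ∈ 𝓝 y0 := by
    rcases mem_hat_iff.1 hy0 with ⟨z, hz, hd, rfl⟩ | ⟨i, hi, hyi⟩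
    · have hzb : z ∈ ball p t := by
        rcases (mem_closedBall.1 hz).lt_or_eq with h' | h'
        · exact h'
        · exact absurd (mem_hat_of_dom (mem_sphere.2 h') hd) hy0s
      have hopen : IsOpen (dom K) := hK.exterior.1
      have h1 : f '' (dom K ∩ ball p t) ∈ 𝓝 (f z) := by
        have h2 := (hm.endMap hK).opn (dom K ∩ ball p t) inter_subset_left
          (hopen.inter isOpen_ball)
        exact h2.mem_nhds ⟨z, ⟨hd, hzb⟩, rfl⟩
      refine mem_of_superset h1 ?_
      rintro _ ⟨w, ⟨hw1, hw2⟩, rfl⟩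
      exact mem_hat_of_dom (ball_subset_closedBall hw2) hw1
    · have hdis : Disjoint (K i) (sphere p t) := by
        rw [disjoint_left]
        intro w hw hws
        exact hy0s (disc_subset_hat ⟨w, hw, hws⟩ hyi)
      have hsub : K i ⊆ ball p t := by
        have hpc := (hK.conn i).isPreconnected
        have hcov : K i ⊆ ball p t ∪ (closedBall p t)ᶜ := by
          intro w hw
          by_cases hwb : w ∈ closedBall p t
          · rcases (mem_closedBall.1 hwb).lt_or_eq with h' | h'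
            · exact Or.inl h'
            · exact absurd (mem_sphere.2 h') (disjoint_left.1 hdis hw)
          · exact Or.inr hwb
        refine hpc.subset_left_of_subset_union isOpen_ball isClosed_closedBall.isOpen_compl
          ?_ hcov ?_
        · exact disjoint_left.2 fun w h1 h2 => h2 (ball_subset_closedBall h1)
        · obtain ⟨w, hw, hwb⟩ := hi
          refine ⟨w, hw, ?_⟩
          rcases hcov hw with h' | h'
          · exact h'
          · exact absurd hwb h'
      exact mem_nhdsSet_iff_forall.1 (hat_mem_nhdsSet hK hD hm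
        (hsub.trans (interior_maximal ball_subset_closedBall isOpen_ball))) y0 hyi
  obtain ⟨y', hy', hlt⟩ := exists_farther hZ (lt_of_le_of_lt hR hcon)
  exact absurd (hmax' y' hy') (not_le.2 hlt)

/-- the rest of the circle: everything but the disc of the component of the centre -/
def rest (K : ι → Set ℂ) (x : ι → ℂ × ℝ) (f : ℂ → ℂ) (p : ℂ) (t : ℝ) : Set ℂ :=
  f '' (sphere p t ∩ dom K) ∪ ⋃ i, ⋃ (_ : (K i ∩ sphere p t).Nonempty ∧ p ∉ K i), discs x i

omit [Finite ι] in
theorem hat_subset_rest {p : ℂ} {t : ℝ} {y : ℂ} (hy : y ∈ hat K x f (sphere p t)) :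
    y ∈ rest K x f p t ∨ ∃ i, p ∈ K i ∧ y ∈ discs x i := by
  rcases mem_hat_iff.1 hy with ⟨z, hz, hd, rfl⟩ | ⟨i, hi, hyi⟩
  · exact Or.inl (Or.inl ⟨z, ⟨hz, hd⟩, rfl⟩)
  · by_cases hp : p ∈ K i
    · exact Or.inr ⟨i, hp, hyi⟩
    · exact Or.inl (Or.inr (mem_iUnion₂.2 ⟨i, ⟨hi, hp⟩, hyi⟩))

/-- **(1)** near a component: `f` is close to its disc -/
theorem dist_le_of_mem (hK : Fam K) (hD : Fam (discs x)) (hm : LMap K (discs x) f)
    (hx : ∀ i, 0 ≤ (x i).2) {p : ℂ} {t ε : ℝ} (hε : 0 ≤ ε)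
    (hL : ∀ φ : ℂ → ℝ, LipschitzWith 1 φ → volume (φ '' rest K x f p t) ≤ ENNReal.ofReal ε)
    {i : ι} (hp : p ∈ K i) (hi : (K i ∩ sphere p t).Nonempty) {w : ℂ} (hw : w ∈ dom K)
    (hwt : w ∈ closedBall p t) : dist (f w) (x i).1 ≤ (x i).2 + ε := by
  have hsub : hat K x f (sphere p t) ⊆ closedBall (x i).1 ((x i).2 + ε) := by
    intro y hy
    rw [mem_closedBall]
    by_contra hcon
    rw [not_le] at hcon
    set φ : ℂ → ℝ := fun w => dist w (x i).1 with hφ
    have hφl : LipschitzWith 1 φ := LipschitzWith.dist_left _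
    have hpc : IsPreconnected (hat K x f (sphere p t)) :=
      hat_preconn hK hm hx (isCompact_sphere p t)
        (isPreconnected_sphere (by
          rw [← Module.finrank_eq_rank, Complex.finrank_real_complex]
          exact_mod_cast one_lt_two) p t)
    have himg := (hpc.image φ hφl.continuous.continuousOn).ordConnected
    have hc0 : (x i).1 ∈ hat K x f (sphere p t) :=
      disc_subset_hat hi (mem_closedBall_self (hx i))
    have hIoc : Ioc (x i).2 (dist y (x i).1) ⊆ φ '' rest K x f p t := by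
      intro s hs
      have h1 : s ∈ φ '' hat K x f (sphere p t) := by
        refine himg.out ⟨_, hc0, rfl⟩ ⟨y, hy, rfl⟩ ⟨?_, hs.2⟩
        simp only [hφ, dist_self]
        exact (hx i).trans hs.1.le
      obtain ⟨v, hv, hvs⟩ := h1
      rcases hat_subset_rest hv with h2 | ⟨j, hj, hvj⟩
      · exact ⟨v, h2, hvs⟩
      · have hji : j = i := by
          by_contra hne
          exact disjoint_left.1 (hK.disj j i hne) hj hp
        subst hji
        exfalso
        have h3 : φ v ≤ (x j).2 := mem_closedBall.1 hvj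
        rw [hvs] at h3
        exact absurd hs.1 (not_lt.2 h3)
    have h4 := (measure_mono hIoc).trans (hL φ hφl)
    rw [Real.volume_Ioc] at h4
    have h5 := (ENNReal.ofReal_le_ofReal_iff hε).1 h4
    linarith
  have h6 := hat_closedBall_subset hK hD hm (by linarith [hx i]) hsub
    (mem_hat_of_dom hwt hw)
  exact mem_closedBall.1 h6

/-- **(2)** near a point which is not in one of the components -/
theorem exists_center (hK : Fam K) (hD : Fam (discs x)) (hm : LMap K (discs x) f)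
    (hx : ∀ i, 0 ≤ (x i).2) {p : ℂ} {t ε : ℝ} (ht : 0 ≤ t) (hε : 0 ≤ ε)
    (hL : ∀ φ : ℂ → ℝ, LipschitzWith 1 φ → volume (φ '' rest K x f p t) ≤ ENNReal.ofReal ε)
    (hp : ∀ i, p ∉ K i) : ∃ c : ℂ, ∀ w ∈ dom K, w ∈ closedBall p t → dist (f w) c ≤ ε := by
  obtain ⟨z, hz⟩ : (sphere p t).Nonempty := NormedSpace.sphere_nonempty.2 ht
  obtain ⟨c, hc⟩ : (hat K x f (sphere p t)).Nonempty := by
    by_cases hzd : z ∈ dom K
    · exact ⟨_, mem_hat_of_dom hz hzd⟩
    · obtain ⟨i, hzi⟩ := not_mem_dom hzd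
      exact ⟨_, disc_subset_hat ⟨z, hzi, hz⟩ (mem_closedBall_self (hx i))⟩
  refine ⟨c, fun w hw hwt => ?_⟩
  have hsub : hat K x f (sphere p t) ⊆ closedBall c ε := by
    intro y hy
    rw [mem_closedBall]
    by_contra hcon
    rw [not_le] at hcon
    set φ : ℂ → ℝ := fun w => dist w c with hφ
    have hφl : LipschitzWith 1 φ := LipschitzWith.dist_left _
    have hpc : IsPreconnected (hat K x f (sphere p t)) :=
      hat_preconn hK hm hx (isCompact_sphere p t)
        (isPreconnected_sphere (by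
          rw [← Module.finrank_eq_rank, Complex.finrank_real_complex]
          exact_mod_cast one_lt_two) p t)
    have himg := (hpc.image φ hφl.continuous.continuousOn).ordConnected
    have hIoc : Ioc 0 (dist y c) ⊆ φ '' rest K x f p t := by
      intro s hs
      have h1 : s ∈ φ '' hat K x f (sphere p t) := by
        refine himg.out ⟨_, hc, rfl⟩ ⟨y, hy, rfl⟩ ⟨?_, hs.2⟩
        simp only [hφ, dist_self]
        exact hs.1.le
      obtain ⟨v, hv, hvs⟩ := h1
      rcases hat_subset_rest hv with h2 | ⟨j, hj, hvj⟩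
      · exact ⟨v, h2, hvs⟩
      · exact absurd hj (hp j)
    have h4 := (measure_mono hIoc).trans (hL φ hφl)
    rw [Real.volume_Ioc] at h4
    have h5 := (ENNReal.ofReal_le_ofReal_iff hε).1 h4
    linarith
  exact mem_closedBall.1 (hat_closedBall_subset hK hD hm hε hsub (mem_hat_of_dom hwt hw))

end

end Crest.Agent.R105.Cof_515
end

-- ▼ part R105/Cofa1_917

/-!
# Row 105, COFAT (S0138), assembly (helper917)

* `NC V K` : `K` is a nondegenerate component of the complement of `V`;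
* `CLB`    : the uniform Courant-Lebesgue bound (the conclusion of steps (1)-(5) of 430 #9269 /
             (S4)-(S5) of 644 #9298) for circle maps of finite families of components;
* `cofat_of : FK → CLB → Top1_8.COFAT` (ultrafilter limit over the finite sets of components).
-/

set_option autoImplicit false

open Set Filter Metric Topology
open Crest.AnalysisR

namespace Crest.Agent.R105.Cofa1_917

open FK_644 Top1_8

/-- `K` is a nondegenerate component of the complement of `V` -/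
def NC (V K : Set ℂ) : Prop := ∃ z, z ∉ V ∧ K = connectedComponentIn Vᶜ z ∧ K.Nontrivial

/-- (CLB) uniform Courant-Lebesgue bound for circle maps of finite families of components -/
def CLB : Prop := ∀ (V : Set ℂ) (τ : ℝ), 0 < τ → Cofat τ V → ∀ p, p ∉ V → ∀ ε : ℝ, 0 < ε →
  ∃ δ : ℝ, 0 < δ ∧ ∀ (n : ℕ) (K : Fin n → Set ℂ) (x : Fin n → ℂ × ℝ) (f : ℂ → ℂ),
    (∀ i, NC V (K i)) → Fam K → x ∈ X n → LMap K (discs x) f →
    (∀ i, p ∈ K i → ∀ z ∈ dom K, dist z p < δ → dist (f z) (x i).1 ≤ (x i).2 + ε) ∧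
    (connectedComponentIn Vᶜ p = {p} → ∀ z ∈ dom K, ∀ z' ∈ dom K, dist z p < δ → dist z' p < δ →
      dist (f z) (f z') ≤ ε)

theorem NC.cc_eq {V K : Set ℂ} (h : NC V K) {p : ℂ} (hp : p ∈ K) :
    connectedComponentIn Vᶜ p = K := by
  obtain ⟨z, _, rfl, _⟩ := h
  exact (connectedComponentIn_eq hp).symm

theorem NC.subset {V K : Set ℂ} (h : NC V K) : K ⊆ Vᶜ := by
  obtain ⟨z, _, rfl, _⟩ := h
  exact connectedComponentIn_subset _ _

theorem NC.disjoint {V K K' : Set ℂ} (h : NC V K) (h' : NC V K') (hne : K ≠ K') :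
    Disjoint K K' := by
  rw [disjoint_left]
  intro w hw hw'
  exact hne ((h.cc_eq hw).symm.trans (h'.cc_eq hw'))

/-- a finite injective family of nondegenerate components is a `Fam` -/
theorem fam_of_NC {V : Set ℂ} (hV : IsExteriorDomain V) {ι : Type*} [Finite ι] {K : ι → Set ℂ}
    (h : ∀ i, NC V (K i)) (hi : Function.Injective K) : Fam K := by
  have hz : ∀ i, ∃ z, z ∉ V ∧ K i = connectedComponentIn Vᶜ z ∧ (K i).Nontrivial := h
  choose z hzV hzK hzn using hz
  have hK : K = fun i => connectedComponentIn Vᶜ (z i) := funext hzK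
  refine ⟨fun i => ?_, fun i => ?_, hzn, fun i j hij => (h i).disjoint (h j) (hi.ne hij), ?_⟩
  · rw [hzK i]; exact Ends_897.isCompact_cc (Ends_897.isCompact_compl hV) _
  · rw [hzK i]; exact isConnected_connectedComponentIn_iff.2 (hzV i)
  · rw [hK]
    refine preconn_comps hV fun i j hij => ?_
    rw [← hzK i, ← hzK j]
    exact hi.ne hij

theorem subset_dom_of_NC {V : Set ℂ} {ι : Type*} {K : ι → Set ℂ} (h : ∀ i, NC V (K i)) :
    V ⊆ dom K := by
  intro w hw hwK
  obtain ⟨i, hi⟩ := mem_iUnion.1 hwK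
  exact (h i).subset hi hw

/-- index type: finite sets of nondegenerate components -/
abbrev NCs (V : Set ℂ) : Type := {K : Set ℂ // NC V K}

/-- the family of a finite set of components -/
noncomputable def fam {V : Set ℂ} (s : Finset (NCs V)) (i : Fin s.card) : Set ℂ :=
  (s.equivFin.symm i).1.1

theorem fam_NC {V : Set ℂ} (s : Finset (NCs V)) (i : Fin s.card) : NC V (fam s i) :=
  (s.equivFin.symm i).1.2

theorem fam_injective {V : Set ℂ} (s : Finset (NCs V)) : Function.Injective (fam s) := by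
  intro i j hij
  have h1 : (s.equivFin.symm i).1 = (s.equivFin.symm j).1 := Subtype.ext hij
  exact s.equivFin.symm.injective (Subtype.ext h1)

/-- position of a component in the family -/
noncomputable def pos {V : Set ℂ} (s : Finset (NCs V)) (κ : NCs V) (h : κ ∈ s) : Fin s.card :=
  s.equivFin ⟨κ, h⟩

theorem fam_pos {V : Set ℂ} (s : Finset (NCs V)) (κ : NCs V) (h : κ ∈ s) :
    fam s (pos s κ h) = κ.1 := by
  unfold fam pos
  rw [Equiv.symm_apply_apply]

theorem eF_eq_of_point {V : Set ℂ} {p : ℂ} (h : connectedComponentIn Vᶜ p = {p}) :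
    Ends_897.eF V p = 𝓝[V] p := by
  rw [Ends_897.eF, h, nhdsSet_singleton]; rfl

/-- **the assembly of COFAT** -/
theorem cofat_of (hFK : FK) (hCL : CLB) : COFAT := by
  classical
  intro V τ hτ hV
  have hVe := hV.1
  obtain ⟨R, hR, hRV⟩ := Uni231.exists_Ext_subset hVe
  -- circle maps of the finite subfamilies
  have h1 : ∀ s : Finset (NCs V), ∃ x ∈ X s.card, ∃ f, LMap (fam s) (discs x) f := fun s =>
    hFK _ _ (fam_of_NC hVe (fam_NC s) (fam_injective s))
  choose x hx f hf using h1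
  have hVs : ∀ s : Finset (NCs V), V ⊆ dom (fam s) := fun s => subset_dom_of_NC (fam_NC s)
  set u : Ultrafilter (Finset (NCs V)) := Ultrafilter.of atTop with hu
  have hule : (u : Filter (Finset (NCs V))) ≤ atTop := Ultrafilter.of_le _
  obtain ⟨g, hg, hlim⟩ := Uni231.exists_limit_ultra (Uk := fun s => dom (fam s)) (f := f) u
    hVe.1 hVe.2.1.isPreconnected hR hRV (Eventually.of_forall fun s => (hf s).sig.toU)
    (Eventually.of_forall fun s => hRV.trans (hVs s))
    (fun K hK _ => Eventually.of_forall fun s => hK.trans (hVs s))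
  have hpt : ∀ z ∈ V, Tendsto (fun s => f s z) u (𝓝 (g z)) := fun z hz => hlim.tendsto_at hz
  refine ⟨g, Sig.ofU hg, Ends_897.isCircleDomain_image hVe hg.diff hg.inj hg.tendsto_cocompact ?_⟩
  intro p hp
  by_cases hcc : (connectedComponentIn Vᶜ p).Nontrivial
  · -- nondegenerate component
    set κ : NCs V := ⟨connectedComponentIn Vᶜ p, p, hp, rfl, hcc⟩ with hκ
    have hmem : ∀ᶠ s in (u : Filter (Finset (NCs V))), κ ∈ s :=
      hule ((eventually_ge_atTop ({κ} : Finset (NCs V))).mono fun s hs =>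
        hs (Finset.mem_singleton_self κ))
    -- the centre and the radius
    set d : Finset (NCs V) → ℂ × ℝ := fun s => if h : κ ∈ s then x s (pos s κ h) else (0, 0)
      with hd
    have hds : ∀ s (h : κ ∈ s), d s = x s (pos s κ h) := fun s h => by simp only [hd, dif_pos h]
    have hdisc : ∀ s (h : κ ∈ s), closedBall (d s).1 (d s).2 ⊆ (dom (discs (x s)))ᶜ := by
      intro s h
      rw [compl_dom, hds s h]
      exact subset_iUnion (discs (x s)) (pos s κ h)
    have hbd : ∀ s, κ ∈ s → d s ∈ closedBall (0 : ℂ) (2 * R) ×ˢ Icc (0 : ℝ) (4 * R) := by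
      intro s h
      have hom : ∀ w ∈ closedBall (d s).1 (d s).2, ‖w‖ ≤ 2 * R := by
        intro w hw
        refine (hf s).sig.toU.norm_le_of_not_mem hR (hRV.trans (hVs s)) ?_
        rw [(hf s).img]
        exact hdisc s h hw
      have hpos : 0 < (d s).2 := by rw [hds s h]; exact (hx s).1 _
      have hc := hom _ (mem_closedBall_self hpos.le)
      refine ⟨by rwa [mem_closedBall_zero_iff], hpos.le, ?_⟩
      have h2 : (d s).1 + ((d s).2 : ℂ) ∈ closedBall (d s).1 (d s).2 := by
        rw [mem_closedBall, dist_eq_norm]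
        simp only [add_sub_cancel_left, Complex.norm_real, Real.norm_eq_abs, abs_of_pos hpos,
          le_refl]
      have h3 := hom _ h2
      have h4 : ((d s).2 : ℝ) = ‖((d s).1 + ((d s).2 : ℂ)) - (d s).1‖ := by
        simp only [add_sub_cancel_left, Complex.norm_real, Real.norm_eq_abs, abs_of_pos hpos]
      rw [h4]
      refine (norm_sub_le _ _).trans ?_
      linarith
    obtain ⟨⟨c, r⟩, ⟨_, hr0, _⟩, hcr⟩ := ((isCompact_closedBall (0:ℂ) (2 * R)).prod
      (isCompact_Icc (a := (0:ℝ)) (b := 4 * R))).ultrafilter_le_nhds' (u.map d)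
      (hmem.mono fun s hs => hbd s hs)
    have hcr' : Tendsto d u (𝓝 (c, r)) := hcr
    have hc' : Tendsto (fun s => (d s).1) u (𝓝 c) := (continuous_fst.tendsto _).comp hcr'
    have hr' : Tendsto (fun s => (d s).2) u (𝓝 r) := (continuous_snd.tendsto _).comp hcr'
    refine ⟨c, r, hr0, ?_, ?_⟩
    · intro ε hε
      have h2 : ∀ q : ℂ, ∃ δ : ℝ, 0 < δ ∧ (q ∈ connectedComponentIn Vᶜ p → ∀ w ∈ V, dist w q < δ →
          dist (g w) c ≤ r + ε / 2) := by
        intro q
        by_cases hq : q ∈ connectedComponentIn Vᶜ p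
        · obtain ⟨δ, hδ, h3⟩ := hCL V τ hτ hV q (connectedComponentIn_subset _ _ hq) (ε / 2)
            (half_pos hε)
          refine ⟨δ, hδ, fun _ w hw hwq => ?_⟩
          refine le_of_tendsto_of_tendsto ((hpt w hw).dist hc') (hr'.add_const (ε / 2)) ?_
          filter_upwards [hmem] with s hs
          obtain ⟨h4, _⟩ := h3 s.card (fam s) (x s) (f s) (fam_NC s)
            (fam_of_NC hVe (fam_NC s) (fam_injective s)) (hx s) (hf s)
          have h5 := h4 (pos s κ hs) (by rw [fam_pos]; exact hq) w (hVs s hw) hwq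
          rw [← hds s hs] at h5
          exact h5
        · exact ⟨1, one_pos, fun h => absurd h hq⟩
      choose δ hδ h3 using h2
      have h4 : (⋃ q ∈ connectedComponentIn Vᶜ p, ball q (δ q)) ∈
          𝓝ˢ (connectedComponentIn Vᶜ p) := by
        refine (isOpen_biUnion fun q _ => isOpen_ball).mem_nhdsSet.2 fun q hq => ?_
        exact mem_biUnion hq (mem_ball_self (hδ q))
      have h5 : ∀ᶠ w in Ends_897.eF V p, w ∈ (⋃ q ∈ connectedComponentIn Vᶜ p, ball q (δ q)) :=
        mem_inf_of_left h4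
      have h6 : ∀ᶠ w in Ends_897.eF V p, w ∈ V := mem_inf_of_right (mem_principal_self V)
      filter_upwards [h5, h6] with w hw hwV
      obtain ⟨q, hq, hwq⟩ := mem_iUnion₂.1 hw
      exact (h3 q hq w hwV hwq).trans_lt (by linarith)
    · rw [disjoint_left]
      rintro _ hw ⟨v, hv, rfl⟩
      rw [mem_ball] at hw
      have h2 : ∀ᶠ s in (u : Filter (Finset (NCs V))), dist (f s v) (d s).1 < (d s).2 :=
        ((hpt v hv).dist hc').eventually_lt hr' hw
      obtain ⟨s, hs1, hs2⟩ := (h2.and hmem).exists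
      have h3 : f s v ∈ dom (discs (x s)) := (hf s).mapsTo (hVs s hv)
      exact hdisc s hs2 (mem_closedBall.2 hs1.le) h3
  · -- point component
    have hpt' : connectedComponentIn Vᶜ p = {p} := by
      rw [not_nontrivial_iff] at hcc
      exact hcc.eq_singleton_of_mem (mem_connectedComponentIn hp)
    have hne : (𝓝[V] p).NeBot := by
      rw [← eF_eq_of_point hpt']
      exact Ends_897.eF_neBot hVe hp
    have hosc : ∀ ε : ℝ, 0 < ε → ∃ δ : ℝ, 0 < δ ∧ ∀ z ∈ V, ∀ z' ∈ V, dist z p < δ →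
        dist z' p < δ → dist (g z) (g z') ≤ ε := by
      intro ε hε
      obtain ⟨δ, hδ, h3⟩ := hCL V τ hτ hV p hp ε hε
      refine ⟨δ, hδ, fun z hz z' hz' h4 h5 => ?_⟩
      refine le_of_tendsto ((hpt z hz).dist (hpt z' hz')) (Eventually.of_forall fun s => ?_)
      exact (h3 s.card (fam s) (x s) (f s) (fam_NC s)
        (fam_of_NC hVe (fam_NC s) (fam_injective s)) (hx s) (hf s)).2 hpt' z (hVs s hz) z'
        (hVs s hz') h4 h5
    have hcau : Cauchy (map g (𝓝[V] p)) := by
      rw [Metric.cauchy_iff]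
      refine ⟨inferInstance, fun ε hε => ?_⟩
      obtain ⟨δ, hδ, h3⟩ := hosc (ε / 2) (half_pos hε)
      refine ⟨g '' (V ∩ ball p δ), image_mem_map (inter_mem_nhdsWithin V (ball_mem_nhds p hδ)), ?_⟩
      · rintro _ ⟨a, ⟨ha, ha'⟩, rfl⟩ _ ⟨b, ⟨hb, hb'⟩, rfl⟩
        exact (h3 a ha b hb ha' hb').trans_lt (by linarith)
    obtain ⟨c, hc⟩ := CompleteSpace.complete hcau
    have hc' : Tendsto g (𝓝[V] p) (𝓝 c) := hc
    refine ⟨c, 0, le_rfl, fun ε hε => ?_, by rw [ball_zero]; exact empty_disjoint _⟩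
    rw [eF_eq_of_point hpt', zero_add]
    exact hc'.eventually (ball_mem_nhds c hε)

end Crest.Agent.R105.Cofa1_917
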