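import Mathlib
import Crest.Agent.R105.CFcls_363
import Crest.Agent.R105.Stp1_722

-- ▼ part R105/Cq1_463
section

/-!
# Row 105 (S0138, picture with solids): oscillation charges, part 1

`chg V P f` = oscillation of `f` at the portion `P` of the complement of `V`, measured from `V`
(infimum of the admissible bounds of 722's `OscLe`).
-/

set_option autoImplicit false

namespace Crest.Agent.R105.Cq_463

open Set Filter MeasureTheory Topology Metric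
open Crest.Agent.R105.CF_363 Crest.Agent.R105.Stp_722

section top

variable {X : Type*} [TopologicalSpace X] {V P : Set X} {f g : X → ℝ} {c c' : ℝ}

/-- the oscillation of `f` at the portion `P`, seen from `V` -/
noncomputable def chg (V P : Set X) (f : X → ℝ) : ℝ := sInf {c | 0 ≤ c ∧ OscLe V P f c}

/-- `f` has finite oscillation at `P` -/
def Fin (V P : Set X) (f : X → ℝ) : Prop := ∃ c, OscLe V P f c

theorem chg_nonneg (V P : Set X) (f : X → ℝ) : 0 ≤ chg V P f :=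
  Real.sInf_nonneg fun _ hx => hx.1

theorem chg_le (hc : 0 ≤ c) (h : OscLe V P f c) : chg V P f ≤ c :=
  csInf_le ⟨0, fun _ hx => hx.1⟩ ⟨hc, h⟩

theorem OscLe.fin (h : OscLe V P f c) : Fin V P f := ⟨c, h⟩

theorem Fin.oscLe (h : Fin V P f) : OscLe V P f (chg V P f) := by
  obtain ⟨c, hc⟩ := h
  have hne : ({c | 0 ≤ c ∧ OscLe V P f c} : Set ℝ).Nonempty :=
    ⟨max c 0, le_max_right _ _, hc.mono (le_max_left _ _)⟩
  intro ε hε
  obtain ⟨c', ⟨hc0, hc'⟩, hlt⟩ := exists_lt_of_csInf_lt hne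
    (show sInf {c | 0 ≤ c ∧ OscLe V P f c} < chg V P f + ε / 2 by unfold chg; linarith)
  obtain ⟨O, hO, hPO, H⟩ := hc' (ε / 2) (by linarith)
  exact ⟨O, hO, hPO, fun q hq q' hq' => (H q hq q' hq').trans (by linarith)⟩


/-- bounded functions -/
theorem oscLe_of_bdd {A : ℝ} {O : Set X} (hO : IsOpen O) (hPO : P ⊆ O)
    (h : ∀ p ∈ O ∩ V, |f p| ≤ A) : OscLe V P f (2 * A) := by
  intro ε hε
  refine ⟨O, hO, hPO, fun q hq q' hq' => ?_⟩
  have h1 := abs_le.1 (h q hq)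
  have h2 := abs_le.1 (h q' hq')
  rw [abs_le]; constructor <;> linarith

theorem oscLe_of_bdd' {A : ℝ} (h : ∀ p ∈ V, |f p| ≤ A) : OscLe V P f (2 * A) :=
  oscLe_of_bdd isOpen_univ (subset_univ _) fun p hp => h p hp.2

theorem fin_of_bdd {A : ℝ} (h : ∀ p ∈ V, |f p| ≤ A) : Fin V P f := ⟨_, oscLe_of_bdd' h⟩

theorem oscLe_const (a : ℝ) : OscLe V P (fun _ => a) 0 := by
  intro ε hε
  exact ⟨univ, isOpen_univ, subset_univ _, fun q _ q' _ => by simpa using hε.le⟩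

theorem chg_const (a : ℝ) : chg V P (fun _ => a) = 0 :=
  le_antisymm (chg_le le_rfl (oscLe_const a)) (chg_nonneg _ _ _)

theorem oscLe_empty : OscLe V ∅ f 0 := by
  intro ε hε
  exact ⟨∅, isOpen_empty, subset_rfl, by simp⟩

theorem chg_empty : chg V ∅ f = 0 :=
  le_antisymm (chg_le le_rfl oscLe_empty) (chg_nonneg _ _ _)

/-- general two-argument rule -/
theorem oscLe_two {k : X → ℝ} {a b : ℝ} {A B : ℝ} (hA : 0 ≤ A) (hB : 0 ≤ B)
    (hf : OscLe V P f a) (hg : OscLe V P g b)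
    (h : ∀ q ∈ V, ∀ q' ∈ V, |k q - k q'| ≤ A * |f q - f q'| + B * |g q - g q'|) :
    OscLe V P k (A * a + B * b) := by
  intro ε hε
  obtain ⟨O, hO, hPO, H⟩ := hf (ε / (2 * (A + 1))) (by positivity)
  obtain ⟨O', hO', hPO', H'⟩ := hg (ε / (2 * (B + 1))) (by positivity)
  refine ⟨O ∩ O', hO.inter hO', subset_inter hPO hPO', fun q hq q' hq' => ?_⟩
  have h1 := H q ⟨hq.1.1, hq.2⟩ q' ⟨hq'.1.1, hq'.2⟩
  have h2 := H' q ⟨hq.1.2, hq.2⟩ q' ⟨hq'.1.2, hq'.2⟩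
  have e1 : A * (ε / (2 * (A + 1))) ≤ ε / 2 := by
    rw [mul_div_assoc', div_le_div_iff₀ (by positivity) (by norm_num)]; nlinarith
  have e2 : B * (ε / (2 * (B + 1))) ≤ ε / 2 := by
    rw [mul_div_assoc', div_le_div_iff₀ (by positivity) (by norm_num)]; nlinarith
  calc |k q - k q'| ≤ A * |f q - f q'| + B * |g q - g q'| := h q hq.2 q' hq'.2
    _ ≤ A * (a + ε / (2 * (A + 1))) + B * (b + ε / (2 * (B + 1))) := by gcongr
    _ ≤ A * a + B * b + ε := by linarith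

theorem chg_two {k : X → ℝ} {A B : ℝ} (hA : 0 ≤ A) (hB : 0 ≤ B)
    (hf : Fin V P f) (hg : Fin V P g)
    (h : ∀ q ∈ V, ∀ q' ∈ V, |k q - k q'| ≤ A * |f q - f q'| + B * |g q - g q'|) :
    chg V P k ≤ A * chg V P f + B * chg V P g :=
  chg_le (by have := chg_nonneg V P f; have := chg_nonneg V P g; positivity)
    (oscLe_two hA hB hf.oscLe hg.oscLe h)

theorem Fin.two {k : X → ℝ} {A B : ℝ} (hA : 0 ≤ A) (hB : 0 ≤ B)
    (hf : Fin V P f) (hg : Fin V P g)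
    (h : ∀ q ∈ V, ∀ q' ∈ V, |k q - k q'| ≤ A * |f q - f q'| + B * |g q - g q'|) : Fin V P k :=
  ⟨_, oscLe_two hA hB hf.oscLe hg.oscLe h⟩

theorem chg_comp {G : ℝ → ℝ} {M : ℝ} (hM : 0 ≤ M) (hG : ∀ s t, |G s - G t| ≤ M * |s - t|)
    (hf : Fin V P f) : chg V P (fun x => G (f x)) ≤ M * chg V P f := by
  have := chg_two (k := fun x => G (f x)) (g := f) (B := 0) hM le_rfl hf hf (fun q _ q' _ => by
    simpa using hG (f q) (f q'))
  simpa using this

theorem Fin.comp {G : ℝ → ℝ} {M : ℝ} (hM : 0 ≤ M) (hG : ∀ s t, |G s - G t| ≤ M * |s - t|)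
    (hf : Fin V P f) : Fin V P (fun x => G (f x)) :=
  Fin.two (g := f) (B := 0) hM le_rfl hf hf (fun q _ q' _ => by simpa using hG (f q) (f q'))




theorem Fin.add (hf : Fin V P f) (hg : Fin V P g) : Fin V P (fun x => f x + g x) :=
  Fin.two (A := 1) (B := 1) zero_le_one zero_le_one hf hg (fun q _ q' _ => by
    rw [one_mul, one_mul, show f q + g q - (f q' + g q') = (f q - f q') + (g q - g q') by ring]
    exact abs_add_le _ _)

theorem chg_add (hf : Fin V P f) (hg : Fin V P g) :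
    chg V P (fun x => f x + g x) ≤ chg V P f + chg V P g := by
  simpa using chg_two (k := fun x => f x + g x) zero_le_one zero_le_one hf hg (fun q _ q' _ => by
    rw [one_mul, one_mul, show f q + g q - (f q' + g q') = (f q - f q') + (g q - g q') by ring]
    exact abs_add_le _ _)

theorem Fin.sub (hf : Fin V P f) (hg : Fin V P g) : Fin V P (fun x => f x - g x) :=
  Fin.two (A := 1) (B := 1) zero_le_one zero_le_one hf hg (fun q _ q' _ => by
    rw [one_mul, one_mul, show f q - g q - (f q' - g q') = (f q - f q') - (g q - g q') by ring]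
    exact abs_sub _ _)

theorem chg_sub (hf : Fin V P f) (hg : Fin V P g) :
    chg V P (fun x => f x - g x) ≤ chg V P f + chg V P g := by
  simpa using chg_two (k := fun x => f x - g x) zero_le_one zero_le_one hf hg (fun q _ q' _ => by
    rw [one_mul, one_mul, show f q - g q - (f q' - g q') = (f q - f q') - (g q - g q') by ring]
    exact abs_sub _ _)


/-- products -/
theorem oscLe_mul {A B a b : ℝ} (hA0 : 0 ≤ A) (hB0 : 0 ≤ B) (hA : ∀ p ∈ V, |f p| ≤ A)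
    (hB : ∀ p ∈ V, |g p| ≤ B) (hf : OscLe V P f a) (hg : OscLe V P g b) :
    OscLe V P (fun x => f x * g x) (B * a + A * b) :=
  oscLe_two hB0 hA0 hf hg (fun q hq q' hq' => by
    rw [show f q * g q - f q' * g q' = g q * (f q - f q') + f q' * (g q - g q') by ring]
    refine (abs_add_le _ _).trans ?_
    rw [abs_mul, abs_mul]
    exact add_le_add (mul_le_mul_of_nonneg_right (hB q hq) (abs_nonneg _))
      (mul_le_mul_of_nonneg_right (hA q' hq') (abs_nonneg _)))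

theorem chg_mul {A B : ℝ} (hA0 : 0 ≤ A) (hB0 : 0 ≤ B) (hA : ∀ p ∈ V, |f p| ≤ A)
    (hB : ∀ p ∈ V, |g p| ≤ B) :
    chg V P (fun x => f x * g x) ≤ B * chg V P f + A * chg V P g :=
  chg_le (by have := chg_nonneg V P f; have := chg_nonneg V P g; positivity)
    (oscLe_mul hA0 hB0 hA hB (fin_of_bdd hA).oscLe (fin_of_bdd hB).oscLe)

/-- maxima and minima -/
theorem oscLe_lat {k : X → ℝ} {a b : ℝ}
    (hf : OscLe V P f a) (hg : OscLe V P g b)
    (h : ∀ q ∈ V, ∀ q' ∈ V, |k q - k q'| ≤ max |f q - f q'| |g q - g q'|) :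
    OscLe V P k (max a b) := by
  intro ε hε
  obtain ⟨O, hO, hPO, H⟩ := hf ε hε
  obtain ⟨O', hO', hPO', H'⟩ := hg ε hε
  refine ⟨O ∩ O', hO.inter hO', subset_inter hPO hPO', fun q hq q' hq' => ?_⟩
  have h1 := H q ⟨hq.1.1, hq.2⟩ q' ⟨hq'.1.1, hq'.2⟩
  have h2 := H' q ⟨hq.1.2, hq.2⟩ q' ⟨hq'.1.2, hq'.2⟩
  refine (h q hq.2 q' hq'.2).trans (max_le (h1.trans ?_) (h2.trans ?_))
  · linarith [le_max_left a b]
  · linarith [le_max_right a b]

theorem Fin.max (hf : Fin V P f) (hg : Fin V P g) : Fin V P (fun x => max (f x) (g x)) :=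
  ⟨_, oscLe_lat hf.oscLe hg.oscLe fun _ _ _ _ => abs_max_sub_max_le_max _ _ _ _⟩

theorem Fin.min (hf : Fin V P f) (hg : Fin V P g) : Fin V P (fun x => min (f x) (g x)) :=
  ⟨_, oscLe_lat hf.oscLe hg.oscLe fun _ _ _ _ => abs_min_sub_min_le_max _ _ _ _⟩

theorem chg_max (hf : Fin V P f) (hg : Fin V P g) :
    chg V P (fun x => Max.max (f x) (g x)) ≤ Max.max (chg V P f) (chg V P g) :=
  chg_le ((chg_nonneg _ _ _).trans (le_max_left _ _))
    (oscLe_lat hf.oscLe hg.oscLe fun _ _ _ _ => abs_max_sub_max_le_max _ _ _ _)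


theorem chg_mono_set {P' : Set X} (hf : Fin V P f) (h : P' ⊆ P) : chg V P' f ≤ chg V P f :=
  chg_le (chg_nonneg _ _ _) (hf.oscLe.mono_set h)

theorem chg_mono_V {V' : Set X} (hf : Fin V P f) (h : V' ⊆ V) : chg V' P f ≤ chg V P f :=
  chg_le (chg_nonneg _ _ _) (hf.oscLe.mono_V h)

theorem Fin.mono_set {P' : Set X} (hf : Fin V P f) (h : P' ⊆ P) : Fin V P' f :=
  ⟨_, hf.oscLe.mono_set h⟩

theorem Fin.mono_V {V' : Set X} (hf : Fin V P f) (h : V' ⊆ V) : Fin V' P f :=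
  ⟨_, hf.oscLe.mono_V h⟩

/-- locality -/
theorem chg_congr {O : Set X} (hO : IsOpen O) (hP : P ⊆ O) (h : ∀ q ∈ O ∩ V, g q = f q) :
    chg V P g = chg V P f := by
  have : {c | 0 ≤ c ∧ OscLe V P g c} = {c | 0 ≤ c ∧ OscLe V P f c} := by
    ext c
    constructor
    · rintro ⟨h0, h1⟩
      exact ⟨h0, h1.congr hO hP fun q hq => (h q hq).symm⟩
    · rintro ⟨h0, h1⟩
      exact ⟨h0, h1.congr hO hP h⟩
  unfold chg
  rw [this]

theorem chg_eq_zero {O : Set X} (hO : IsOpen O) (hP : P ⊆ O) {a : ℝ} (h : ∀ q ∈ O ∩ V, f q = a) :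
    chg V P f = 0 := by
  rw [chg_congr hO hP h, chg_const]

/-- a product where the second factor is only controlled near `P` -/
theorem chg_mul_near {A B : ℝ} (hA0 : 0 ≤ A) (hB0 : 0 ≤ B) {O : Set X} (hO : IsOpen O)
    (hPO : P ⊆ O) (hA : ∀ p ∈ O ∩ V, |f p| ≤ A) (hB : ∀ p ∈ O ∩ V, |g p| ≤ B)
    (hf : Fin V P f) (hg : Fin V P g) :
    chg V P (fun x => f x * g x) ≤ B * chg V P f + A * chg V P g := by
  refine chg_le (by have := chg_nonneg V P f; have := chg_nonneg V P g; positivity) ?_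
  have key : OscLe (O ∩ V) P (fun x => f x * g x) (B * chg V P f + A * chg V P g) :=
    oscLe_mul hA0 hB0 hA hB (hf.oscLe.mono_V inter_subset_right)
      (hg.oscLe.mono_V inter_subset_right)
  intro ε hε
  obtain ⟨O', hO', hPO', H⟩ := key ε hε
  exact ⟨O' ∩ O, hO'.inter hO, subset_inter hPO' hPO, fun q hq q' hq' =>
    H q ⟨hq.1.1, hq.1.2, hq.2⟩ q' ⟨hq'.1.1, hq'.1.2, hq'.2⟩⟩

end top

/-! ### Lipschitz functions -/

section lip

variable {X : Type*} [NormedAddCommGroup X] [NormedSpace ℝ X]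

/-- oscillation of a function which is Lipschitz along segments of `W` off a closed set `S`,
at a convex compact portion `P` which does not meet `S`. -/
theorem SL_oscLe {W S V P : Set X} {L : ℝ} {f : X → ℝ} (h : SL (W \ S) L f) (hL : 0 ≤ L)
    (hW : Convex ℝ W) (hS : IsClosed S) (hV : V ⊆ W) (hP : IsCompact P) (hPc : Convex ℝ P)
    (hPS : Disjoint P S) : OscLe V P f (L * diam P) := by
  intro ε hε
  obtain ⟨δ, hδ, hδS⟩ := hPS.exists_thickenings hP hS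
  set δ' := min δ (ε / (2 * (L + 1))) with hδ'
  have hδ'0 : 0 < δ' := lt_min hδ (by positivity)
  refine ⟨thickening δ' P, isOpen_thickening, self_subset_thickening hδ'0 P, ?_⟩
  intro q hq q' hq'
  have hseg : segment ℝ q q' ⊆ W \ S := by
    intro r hr
    refine ⟨hW.segment_subset (hV hq.2) (hV hq'.2) hr, fun hrS => ?_⟩
    have h1 : r ∈ thickening δ' P := (hPc.thickening δ').segment_subset hq.1 hq'.1 hr
    exact disjoint_left.1 hδS (thickening_mono (min_le_left _ _) _ h1)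
      (self_subset_thickening hδ S hrS)
  have h1 := h q q' hseg
  obtain ⟨x, hx, hqx⟩ := mem_thickening_iff.1 hq.1
  obtain ⟨x', hx', hqx'⟩ := mem_thickening_iff.1 hq'.1
  have h2 : dist q q' ≤ diam P + 2 * δ' := by
    have e1 := dist_triangle4 q x x' q'
    have e2 := dist_le_diam_of_mem hP.isBounded hx hx'
    rw [dist_comm x' q'] at e1
    linarith
  have h3 : L * (2 * δ') ≤ ε := by
    have e1 : δ' ≤ ε / (2 * (L + 1)) := min_le_right _ _
    have e2 : L * (2 * δ') ≤ L * (2 * (ε / (2 * (L + 1)))) := by gcongr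
    have e3 : L * (2 * (ε / (2 * (L + 1)))) ≤ ε := by
      rw [show L * (2 * (ε / (2 * (L + 1)))) = L * ε / (L + 1) by field_simp]
      rw [div_le_iff₀ (by positivity)]; nlinarith
    linarith
  calc |f q - f q'| ≤ L * dist q q' := h1
    _ ≤ L * (diam P + 2 * δ') := by gcongr
    _ = L * diam P + L * (2 * δ') := by ring
    _ ≤ L * diam P + ε := by linarith

end lip

end Crest.Agent.R105.Cq_463
end

-- ▼ part R105/Cq2_463

/-!
# Row 105 (S0138, picture with solids): squares, summability of the charges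

`Sqr` = closed axis parallel square, `QPic E 𝒬 𝓗` = compact set `E` with its squares `𝒬` and
its cuttable hairs `𝓗`; charges `ch E W f Q = chg (Eᶜ ∩ W) (Q.car ∩ closure W) f`.
-/

set_option autoImplicit false

namespace Crest.Agent.R105.Cq_463

open Set Filter MeasureTheory Topology Metric
open Crest.Agent.R105.CF_363 Crest.Agent.R105.Stp_722
open scoped ENNReal

/-- A closed axis parallel square `[x, x+s] × [y, y+s]`, `s > 0`. -/
@[ext] structure Sqr where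
  x : ℝ
  y : ℝ
  s : ℝ
  hs : 0 < s

/-- The closed square. -/
def Sqr.car (Q : Sqr) : Set (ℝ × ℝ) := Icc Q.x (Q.x + Q.s) ×ˢ Icc Q.y (Q.y + Q.s)

theorem Sqr.mem_car {Q : Sqr} {p : ℝ × ℝ} :
    p ∈ Q.car ↔ (Q.x ≤ p.1 ∧ p.1 ≤ Q.x + Q.s) ∧ (Q.y ≤ p.2 ∧ p.2 ≤ Q.y + Q.s) := Iff.rfl

theorem Sqr.isCompact_car (Q : Sqr) : IsCompact Q.car := isCompact_Icc.prod isCompact_Icc

theorem Sqr.convex_car (Q : Sqr) : Convex ℝ Q.car := (convex_Icc _ _).prod (convex_Icc _ _)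

theorem Sqr.nonempty (Q : Sqr) : Q.car.Nonempty :=
  ⟨(Q.x, Q.y), ⟨le_rfl, by linarith [Q.hs]⟩, ⟨le_rfl, by linarith [Q.hs]⟩⟩

theorem Sqr.diam_le (Q : Sqr) : diam Q.car ≤ Q.s := by
  refine diam_le_of_forall_dist_le Q.hs.le fun p hp q hq => ?_
  obtain ⟨⟨a, b⟩, c, d⟩ := Sqr.mem_car.1 hp
  obtain ⟨⟨a', b'⟩, c', d'⟩ := Sqr.mem_car.1 hq
  rw [Prod.dist_eq, Real.dist_eq, Real.dist_eq]
  refine max_le ?_ ?_ <;> rw [abs_le] <;> constructor <;> linarith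

theorem Sqr.volume_car (Q : Sqr) : volume Q.car = ENNReal.ofReal (Q.s ^ 2) := by
  unfold Sqr.car
  rw [Measure.volume_eq_prod, Measure.prod_prod, Real.volume_Icc, Real.volume_Icc,
    show Q.x + Q.s - Q.x = Q.s by ring, show Q.y + Q.s - Q.y = Q.s by ring,
    ← ENNReal.ofReal_mul Q.hs.le, sq]

/-- The picture: compact set `E`, its squares, its cuttable hairs. Squares lie in different
components of `E`, and `E` minus the squares is null. -/
structure QPic (E : Set (ℝ × ℝ)) (𝒬 : Set Sqr) (𝓗 : Set Hair) : Prop where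
  cpt : IsCompact E
  sub : ∀ Q ∈ 𝒬, Q.car ⊆ E
  hsub : ∀ K ∈ 𝓗, K.car ⊆ E
  sep : ∀ P ⊆ E, IsPreconnected P → ∀ Q ∈ 𝒬, ∀ Q' ∈ 𝒬, (P ∩ Q.car).Nonempty →
    (P ∩ Q'.car).Nonempty → Q = Q'
  null : volume (E \ ⋃ Q ∈ 𝒬, Q.car) = 0

variable {E W : Set (ℝ × ℝ)} {𝒬 : Set Sqr} {𝓗 : Set Hair} {f g : ℝ × ℝ → ℝ}

theorem QPic.disjoint (h : QPic E 𝒬 𝓗) : 𝒬.PairwiseDisjoint Sqr.car := by
  intro Q hQ Q' hQ' hne
  rw [Function.onFun, disjoint_iff_inter_eq_empty]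
  by_contra hc
  obtain ⟨p, hp⟩ := nonempty_iff_ne_empty.2 hc
  exact hne (h.sep Q.car (h.sub Q hQ) Q.convex_car.isPreconnected Q hQ Q' hQ'
    ⟨p, hp.1, hp.1⟩ ⟨p, hp⟩)

theorem QPic.countable (h : QPic E 𝒬 𝓗) : 𝒬.Countable := by
  refine h.disjoint.countable_of_nonempty_interior fun Q _ => ?_
  refine ⟨(Q.x + Q.s / 2, Q.y + Q.s / 2), ?_⟩
  have hs := Q.hs
  rw [Sqr.car, interior_prod_eq, interior_Icc, interior_Icc]
  exact ⟨⟨by linarith, by linarith⟩, ⟨by linarith, by linarith⟩⟩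

theorem QPic.tsum_sq_le (h : QPic E 𝒬 𝓗) :
    ∑' Q : 𝒬, ENNReal.ofReal (Q.1.s ^ 2) ≤ volume E := by
  have hc := h.countable.to_subtype
  have h1 : volume (⋃ Q : 𝒬, Q.1.car) = ∑' Q : 𝒬, volume Q.1.car :=
    measure_iUnion (fun Q Q' hne => h.disjoint Q.2 Q'.2 (fun he => hne (Subtype.ext he)))
      fun Q => Q.1.isCompact_car.measurableSet
  simp only [Sqr.volume_car] at h1
  rw [← h1]
  exact measure_mono (iUnion_subset fun Q => h.sub Q.1 Q.2)

theorem summable_of_tsum_ofReal {ι : Type*} {a : ι → ℝ} (h0 : ∀ i, 0 ≤ a i)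
    (h : ∑' i, ENNReal.ofReal (a i) ≠ ∞) : Summable a := by
  have h1 : Summable fun i => (ENNReal.ofReal (a i)).toReal := ENNReal.summable_toReal h
  simpa only [ENNReal.toReal_ofReal (h0 _)] using h1

theorem QPic.summable_sq (h : QPic E 𝒬 𝓗) : Summable fun Q : 𝒬 => Q.1.s ^ 2 :=
  summable_of_tsum_ofReal (fun _ => sq_nonneg _)
    (ne_top_of_le_ne_top h.cpt.measure_lt_top.ne h.tsum_sq_le)

/-- finitely many hairs touch only finitely many squares -/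
theorem QPic.finite_touch (h : QPic E 𝒬 𝓗) {J : Finset Hair} (hJ : ∀ K ∈ J, K ∈ 𝓗) :
    {Q : 𝒬 | ¬ Disjoint Q.1.car (cut J)}.Finite := by
  classical
  have h1 : {Q : 𝒬 | ¬ Disjoint Q.1.car (cut J)} ⊆
      ⋃ K ∈ J, {Q : 𝒬 | (K.car ∩ Q.1.car).Nonempty} := by
    intro Q hQ
    obtain ⟨p, hp, hpJ⟩ := not_disjoint_iff.1 hQ
    obtain ⟨K, hK, hpK⟩ := mem_cut.1 hpJ
    exact mem_iUnion₂.2 ⟨K, hK, ⟨p, hpK, hp⟩⟩
  refine (J.finite_toSet.biUnion fun K hK => ?_).subset h1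
  refine Set.Subsingleton.finite fun Q hQ Q' hQ' => Subtype.ext ?_
  have hKc : IsPreconnected K.car := by
    rw [K.car_eq]; exact isPreconnected_singleton.prod isPreconnected_Icc
  exact h.sep K.car (h.hsub K (hJ K hK)) hKc Q.1 Q.2 Q'.1 Q'.2 hQ hQ'

/-- the charge of `f` at the square `Q`, relative to the region `W` -/
noncomputable def ch (E W : Set (ℝ × ℝ)) (f : ℝ × ℝ → ℝ) (Q : Sqr) : ℝ :=
  chg (Eᶜ ∩ W) (Q.car ∩ closure W) f

theorem ch_nonneg (E W : Set (ℝ × ℝ)) (f : ℝ × ℝ → ℝ) (Q : Sqr) : 0 ≤ ch E W f Q :=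
  chg_nonneg _ _ _

theorem isCompact_portion (Q : Sqr) (W : Set (ℝ × ℝ)) : IsCompact (Q.car ∩ closure W) :=
  Q.isCompact_car.inter_right isClosed_closure

theorem compl_cut_of_V (hE : QPic E 𝒬 𝓗) {J : Finset Hair} (hJ : ∀ K ∈ J, K ∈ 𝓗)
    {p : ℝ × ℝ} (hp : p ∈ Eᶜ ∩ W) : p ∈ W \ cut J := by
  refine ⟨hp.2, fun hc => hp.1 ?_⟩
  obtain ⟨K, hK, hpK⟩ := mem_cut.1 hc
  exact h𝓗 K hK hpK
where
  h𝓗 (K : Hair) (hK : K ∈ J) : K.car ⊆ E := hE.hsub K (hJ K hK)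

/-- a bound of `f` on `Eᶜ ∩ W` -/
theorem CFJ_bdd (hE : QPic E 𝒬 𝓗) (hf : CFJ 𝓗 W f) :
    ∃ A : ℝ, 0 ≤ A ∧ ∀ p ∈ Eᶜ ∩ W, |f p| ≤ A := by
  obtain ⟨J, hJ, L, C, hL, h1, h2⟩ := hf
  exact ⟨max C 0, le_max_right _ _, fun p hp =>
    (h2 p (compl_cut_of_V hE hJ hp)).trans (le_max_left _ _)⟩

theorem CFJ.fin (hE : QPic E 𝒬 𝓗) (hf : CFJ 𝓗 W f) (P : Set (ℝ × ℝ)) :
    Fin (Eᶜ ∩ W) P f := by
  obtain ⟨A, -, hA⟩ := CFJ_bdd hE hf
  exact fin_of_bdd hA

/-- charges of squares that do not touch the cut -/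
theorem ch_le_of_SL (hW : Convex ℝ W) {S : Set (ℝ × ℝ)} {L : ℝ} (hL : 0 ≤ L)
    (h : SL (W \ S) L f) (hS : IsClosed S) {Q : Sqr} (hQ : Disjoint Q.car S) :
    ch E W f Q ≤ L * Q.s := by
  have h1 : OscLe (Eᶜ ∩ W) (Q.car ∩ closure W) f (L * diam (Q.car ∩ closure W)) :=
    SL_oscLe h hL hW hS inter_subset_right (isCompact_portion Q W)
      (Q.convex_car.inter hW.closure) (hQ.mono_left inter_subset_left)
  refine (chg_le (by have := diam_nonneg (s := Q.car ∩ closure W); positivity) h1).trans ?_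
  gcongr
  exact (diam_mono inter_subset_left Q.isCompact_car.isBounded).trans Q.diam_le

/-- **the charges are square summable** -/
theorem summable_ch (hE : QPic E 𝒬 𝓗) (hW : Convex ℝ W) (hf : CFJ 𝓗 W f) :
    Summable fun Q : 𝒬 => ch E W f Q ^ 2 := by
  obtain ⟨A, hA0, hA⟩ := CFJ_bdd hE hf
  obtain ⟨J, hJ, L, C, hL, h1, h2⟩ := hf
  have hfin := hE.finite_touch hJ
  have hs : Summable fun Q : 𝒬 => L ^ 2 * Q.1.s ^ 2 := hE.summable_sq.mul_left _
  have hb : ∀ Q : 𝒬, Q ∉ hfin.toFinset → ch E W f Q ^ 2 ≤ L ^ 2 * Q.1.s ^ 2 := by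
    intro Q hQ
    have hd : Disjoint Q.1.car (cut J) := by
      by_contra hc
      exact hQ (hfin.mem_toFinset.2 hc)
    have := ch_le_of_SL (E := E) hW hL h1 (isClosed_cut J) hd
    rw [← mul_pow]
    exact pow_le_pow_left₀ (ch_nonneg _ _ _ _) this 2
  exact Summable.of_norm_bounded_eventually hs (by
    filter_upwards [hfin.toFinset.finite_toSet.compl_mem_cofinite] with Q hQ
    rw [Real.norm_of_nonneg (sq_nonneg _)]
    exact hb Q hQ)

/-- the total charge -/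
noncomputable def Ch (E W : Set (ℝ × ℝ)) (𝒬 : Set Sqr) (f : ℝ × ℝ → ℝ) : ℝ :=
  ∑' Q : 𝒬, ch E W f Q ^ 2

theorem Ch_nonneg (E W : Set (ℝ × ℝ)) (𝒬 : Set Sqr) (f : ℝ × ℝ → ℝ) : 0 ≤ Ch E W 𝒬 f :=
  tsum_nonneg fun _ => sq_nonneg _

/-- the energy with the charges of the squares -/
noncomputable def TQ (E W : Set (ℝ × ℝ)) (𝒬 : Set Sqr) (f : ℝ × ℝ → ℝ) : ℝ :=
  En (W \ E) f + Ch E W 𝒬 f

theorem TQ_nonneg (E W : Set (ℝ × ℝ)) (𝒬 : Set Sqr) (f : ℝ × ℝ → ℝ) : 0 ≤ TQ E W 𝒬 f :=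
  add_nonneg (En_nonneg _ _) (Ch_nonneg _ _ _ _)

theorem En_le_TQ : En (W \ E) f ≤ TQ E W 𝒬 f := le_add_of_nonneg_right (Ch_nonneg _ _ _ _)

theorem Ch_le_TQ : Ch E W 𝒬 f ≤ TQ E W 𝒬 f := le_add_of_nonneg_left (En_nonneg _ _)

theorem ch_sq_le_Ch (hE : QPic E 𝒬 𝓗) (hW : Convex ℝ W) (hf : CFJ 𝓗 W f) {Q : Sqr}
    (hQ : Q ∈ 𝒬) : ch E W f Q ^ 2 ≤ Ch E W 𝒬 f :=
  (summable_ch hE hW hf).le_tsum ⟨Q, hQ⟩ fun _ _ => sq_nonneg _

/-- comparison of total charges -/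
theorem Ch_le_of_le (hE : QPic E 𝒬 𝓗) (hW : Convex ℝ W) {k : ℝ × ℝ → ℝ} (hk : CFJ 𝓗 W k)
    (hf : CFJ 𝓗 W f) (hg : CFJ 𝓗 W g) {a b : ℝ}
    (h : ∀ Q ∈ 𝒬, ch E W k Q ^ 2 ≤ a * ch E W f Q ^ 2 + b * ch E W g Q ^ 2) :
    Ch E W 𝒬 k ≤ a * Ch E W 𝒬 f + b * Ch E W 𝒬 g := by
  unfold Ch
  rw [← tsum_mul_left, ← tsum_mul_left,
    ← ((summable_ch hE hW hf).mul_left a).tsum_add ((summable_ch hE hW hg).mul_left b)]
  exact Summable.tsum_le_tsum (fun Q => h Q.1 Q.2) (summable_ch hE hW hk)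
    (((summable_ch hE hW hf).mul_left a).add ((summable_ch hE hW hg).mul_left b))

theorem Ch_max_le (hE : QPic E 𝒬 𝓗) (hW : Convex ℝ W) (hf : CFJ 𝓗 W f) (hg : CFJ 𝓗 W g) :
    Ch E W 𝒬 (fun q => max (f q) (g q)) ≤ Ch E W 𝒬 f + Ch E W 𝒬 g := by
  have := Ch_le_of_le hE hW (hf.max hg) hf hg (a := 1) (b := 1) (fun Q _ => by
    have h1 := chg_max (P := Q.car ∩ closure W) (CFJ.fin hE hf _) (CFJ.fin hE hg _)
    have h2 := pow_le_pow_left₀ (chg_nonneg _ _ _) h1 2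
    refine h2.trans ?_
    rcases le_total (chg (Eᶜ ∩ W) (Q.car ∩ closure W) f)
      (chg (Eᶜ ∩ W) (Q.car ∩ closure W) g) with h | h
    · rw [max_eq_right h, one_mul, one_mul]; exact le_add_of_nonneg_left (sq_nonneg _)
    · rw [max_eq_left h, one_mul, one_mul]; exact le_add_of_nonneg_right (sq_nonneg _))
  simpa using this


theorem Ch_comp_le (hE : QPic E 𝒬 𝓗) (hW : Convex ℝ W) (hf : CFJ 𝓗 W f) {M : ℝ} (hM : 0 ≤ M)
    {G : ℝ → ℝ} (hG : ∀ s t, |G s - G t| ≤ M * |s - t|) :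
    Ch E W 𝒬 (fun q => G (f q)) ≤ M ^ 2 * Ch E W 𝒬 f := by
  have := Ch_le_of_le hE hW (hf.comp hM hG) hf hf (a := M ^ 2) (b := 0) (fun Q _ => by
    have h1 := chg_comp (P := Q.car ∩ closure W) hM hG (CFJ.fin hE hf _)
    have h2 := pow_le_pow_left₀ (chg_nonneg _ _ _) h1 2
    rw [zero_mul, add_zero]
    exact h2.trans_eq (mul_pow _ _ _))
  simpa using this


theorem Ch_add_le (hE : QPic E 𝒬 𝓗) (hW : Convex ℝ W) (hf : CFJ 𝓗 W f) (hg : CFJ 𝓗 W g) :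
    Ch E W 𝒬 (fun q => f q + g q) ≤ 2 * Ch E W 𝒬 f + 2 * Ch E W 𝒬 g := by
  refine Ch_le_of_le hE hW (hf.add hg) hf hg (fun Q _ => ?_)
  have h1 := chg_add (P := Q.car ∩ closure W) (CFJ.fin hE hf _) (CFJ.fin hE hg _)
  have h2 := pow_le_pow_left₀ (chg_nonneg _ _ _) h1 2
  refine h2.trans ?_
  unfold ch
  set a := chg (Eᶜ ∩ W) (Q.car ∩ closure W) f
  set b := chg (Eᶜ ∩ W) (Q.car ∩ closure W) g
  nlinarith [sq_nonneg (a - b)]


end Crest.Agent.R105.Cq_463
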