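import Crest.Agent.R105.Cq2_463
import Crest.Agent.R105.Cq3_463
import Crest.Agent.R105.Loc1_271
import Crest.Agent.R105.Hop1_190

-- ▼ part R105/Cq4_463
section

/-!
# Row 105 (S0138, picture with solids): the line lemma across the squares
-/

set_option autoImplicit false

namespace Crest.Agent.R105.Cq_463

open Set Filter MeasureTheory Topology Metric
open Crest.Agent.R105.CF_363 Crest.Agent.R105.Stp_722
open scoped ENNReal

variable {E W : Set (ℝ × ℝ)} {𝒬 : Set Sqr} {𝓗 : Set Hair} {f g : ℝ × ℝ → ℝ}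

/-- a good vertical line for `f` (Lipschitz along the segments of `W \ cut J`) -/
structure GoodX (E W : Set (ℝ × ℝ)) (𝒬 : Set Sqr) (J : Finset Hair) (f : ℝ × ℝ → ℝ)
    (x : ℝ) : Prop where
  off : ∀ y, (x, y) ∉ cut J
  null : volume {t : ℝ | (x, t) ∈ E \ ⋃ Q ∈ 𝒬, Q.car} = 0
  ftc : ∀ a b : ℝ, (∀ y ∈ uIcc a b, (x, y) ∈ W) →
    f (x, b) - f (x, a) = ∫ y in a..b, gy f (x, y)

theorem ae_goodX (hE : QPic E 𝒬 𝓗) {J : Finset Hair} (hW : IsOpen W) {L : ℝ}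
    (h : SL (W \ cut J) L f) : ∀ᵐ x : ℝ, GoodX E W 𝒬 J f x := by
  have h1 : ∀ᵐ x : ℝ, x ∉ (fun K : Hair => K.x) '' (J : Set Hair) :=
    measure_eq_zero_iff_ae_notMem.1 ((J.finite_toSet.image _).measure_zero _)
  have h2 : ∀ᵐ x : ℝ, volume {t : ℝ | (x, t) ∈ E \ ⋃ Q ∈ 𝒬, Q.car} = 0 := by
    have h3 := hE.null
    rw [Measure.volume_eq_prod] at h3
    exact Measure.measure_ae_null_of_prod_null h3
  filter_upwards [h1, h2, h.ftc_y (isOpen_diff_cut hW J)] with x hx1 hx2 hx3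
  have hoff : ∀ y, (x, y) ∉ cut J := by
    intro y hy
    obtain ⟨K, hK, hp⟩ := mem_cut.1 hy
    exact hx1 ⟨K, hK, hp.1.symm⟩
  exact ⟨hoff, hx2, fun a b hab => hx3 a b fun y hy => ⟨hab y hy, hoff y⟩⟩

/-- a nondegenerate vertical segment of `E` on a good line lies in one square -/
theorem GoodX.seg (hE : QPic E 𝒬 𝓗) {J : Finset Hair} {x : ℝ} (hx : GoodX E W 𝒬 J f x)
    {a b : ℝ} (hab : a < b) (h : ∀ t ∈ Icc a b, (x, t) ∈ E) :
    ∃ Q ∈ 𝒬, ∀ t ∈ Icc a b, (x, t) ∈ Q.car := by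
  -- every nondegenerate subinterval meets a square
  have hmeet : ∀ c d : ℝ, a ≤ c → c < d → d ≤ b → ∃ t ∈ Ioo c d, ∃ Q ∈ 𝒬, (x, t) ∈ Q.car := by
    intro c d hc hcd hd
    by_contra hcon
    push Not at hcon
    have hsub : Ioo c d ⊆ {t : ℝ | (x, t) ∈ E \ ⋃ Q ∈ 𝒬, Q.car} := by
      intro t ht
      refine ⟨h t ⟨hc.trans ht.1.le, ht.2.le.trans hd⟩, fun hm => ?_⟩
      obtain ⟨Q, hQ, hQt⟩ := mem_iUnion₂.1 hm
      exact hcon t ht Q hQ hQt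
    have := measure_mono_null hsub hx.null
    rw [Real.volume_Ioo, ENNReal.ofReal_eq_zero] at this
    linarith
  set P : Set (ℝ × ℝ) := (fun t : ℝ => (x, t)) '' Icc a b with hP
  have hPc : IsPreconnected P := isPreconnected_Icc.image _ (by fun_prop)
  have hPE : P ⊆ E := by rintro _ ⟨t, ht, rfl⟩; exact h t ht
  obtain ⟨t0, ht0, Q, hQ, hQt0⟩ := hmeet a b le_rfl hab le_rfl
  have huniq : ∀ t ∈ Icc a b, ∀ Q' ∈ 𝒬, (x, t) ∈ Q'.car → Q' = Q := fun t ht Q' hQ' ht' =>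
    hE.sep P hPE hPc Q' hQ' Q hQ ⟨(x, t), ⟨t, ht, rfl⟩, ht'⟩
      ⟨(x, t0), ⟨t0, Ioo_subset_Icc_self ht0, rfl⟩, hQt0⟩
  refine ⟨Q, hQ, fun t ht => ?_⟩
  obtain ⟨hxQ, -⟩ := Sqr.mem_car.1 hQt0
  refine Sqr.mem_car.2 ⟨hxQ, ?_, ?_⟩
  · by_contra hc
    push Not at hc
    simp only at hc
    obtain ⟨t1, ht1, Q1, hQ1, hQt1⟩ := hmeet a (min Q.y b) le_rfl
      (lt_min (ht.1.trans_lt hc) hab) (min_le_right _ _)
    have e := huniq t1 ⟨ht1.1.le, ht1.2.le.trans (min_le_right _ _)⟩ Q1 hQ1 hQt1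
    subst e
    have := (Sqr.mem_car.1 hQt1).2.1
    simp only at this
    have h2 := ht1.2.trans_le (min_le_left _ _)
    linarith
  · by_contra hc
    push Not at hc
    simp only at hc
    obtain ⟨t1, ht1, Q1, hQ1, hQt1⟩ := hmeet (max (Q.y + Q.s) a) b (le_max_right _ _)
      (max_lt (hc.trans_le ht.2) hab) le_rfl
    have e := huniq t1 ⟨(le_max_right _ _).trans ht1.1.le, ht1.2.le⟩ Q1 hQ1 hQt1
    subst e
    have := (Sqr.mem_car.1 hQt1).2.2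
    simp only at this
    have h2 := (le_max_left _ _).trans_lt ht1.1
    linarith

theorem GoodX.above (hE : QPic E 𝒬 𝓗) {J : Finset Hair} {x : ℝ} (hx : GoodX E W 𝒬 J f x)
    {Q : Sqr} (hQ : Q ∈ 𝒬) (hxQ : x ∈ Icc Q.x (Q.x + Q.s)) {δ : ℝ} (hδ : 0 < δ) :
    ∃ t ∈ Ioo (Q.y + Q.s) (Q.y + Q.s + δ), (x, t) ∉ E := by
  by_contra hcon
  push Not at hcon
  have hs := Q.hs
  have hsub : ∀ t ∈ Icc Q.y (Q.y + Q.s + δ / 2), (x, t) ∈ E := by
    intro t ht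
    rcases le_or_gt t (Q.y + Q.s) with h | h
    · exact hE.sub Q hQ (Sqr.mem_car.2 ⟨hxQ, ht.1, h⟩)
    · exact hcon t ⟨h, by linarith [ht.2]⟩
  obtain ⟨Q', hQ', h⟩ := hx.seg hE (by linarith) hsub
  have h1 := h Q.y ⟨le_rfl, by linarith⟩
  have h2 := h (Q.y + Q.s + δ / 2) ⟨by linarith, le_rfl⟩
  have e : Q' = Q := by
    by_contra hne
    exact disjoint_left.1 (hE.disjoint hQ' hQ hne) h1 (Sqr.mem_car.2 ⟨hxQ, le_rfl, by
      simp only; linarith⟩)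
  subst e
  have := (Sqr.mem_car.1 h2).2.2
  simp only at this
  linarith

theorem GoodX.below (hE : QPic E 𝒬 𝓗) {J : Finset Hair} {x : ℝ} (hx : GoodX E W 𝒬 J f x)
    {Q : Sqr} (hQ : Q ∈ 𝒬) (hxQ : x ∈ Icc Q.x (Q.x + Q.s)) {δ : ℝ} (hδ : 0 < δ) :
    ∃ t ∈ Ioo (Q.y - δ) Q.y, (x, t) ∉ E := by
  by_contra hcon
  push Not at hcon
  have hs := Q.hs
  have hsub : ∀ t ∈ Icc (Q.y - δ / 2) (Q.y + Q.s), (x, t) ∈ E := by
    intro t ht
    rcases lt_or_ge t Q.y with h | h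
    · exact hcon t ⟨by linarith [ht.1], h⟩
    · exact hE.sub Q hQ (Sqr.mem_car.2 ⟨hxQ, h, ht.2⟩)
  obtain ⟨Q', hQ', h⟩ := hx.seg hE (by linarith) hsub
  have h1 := h (Q.y + Q.s) ⟨by linarith, le_rfl⟩
  have h2 := h (Q.y - δ / 2) ⟨le_rfl, by linarith⟩
  have e : Q' = Q := by
    by_contra hne
    exact disjoint_left.1 (hE.disjoint hQ' hQ hne) h1 (Sqr.mem_car.2 ⟨hxQ, by
      simp only; linarith, le_rfl⟩)
  subst e
  have := (Sqr.mem_car.1 h2).2.1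
  simp only at this
  linarith

/-- jump of `f` across a square on a good line -/
theorem GoodX.face (hE : QPic E 𝒬 𝓗) {J : Finset Hair} (hW : IsOpen W) {L : ℝ}
    (h : SL (W \ cut J) L f) {x : ℝ} (hx : GoodX E W 𝒬 J f x)
    {Q : Sqr} (hQ : Q ∈ 𝒬) (hxQ : x ∈ Icc Q.x (Q.x + Q.s)) {c : ℝ}
    (hc : OscLe (Eᶜ ∩ W) (Q.car ∩ closure W) f c)
    (hseg : ∀ t ∈ Icc Q.y (Q.y + Q.s), (x, t) ∈ W) :
    |f (x, Q.y + Q.s) - f (x, Q.y)| ≤ c := by
  have hs := Q.hs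
  refine le_of_forall_pos_le_add fun ε hε => ?_
  obtain ⟨O, hO, hPO, H⟩ := hc (ε / 3) (by linarith)
  have hU := isOpen_diff_cut hW J
  have hline : Continuous fun t : ℝ => ((x, t) : ℝ × ℝ) := by fun_prop
  -- near a point of the square on the line
  have near : ∀ t0 ∈ Icc Q.y (Q.y + Q.s), ∃ δ > 0, ∀ t, |t - t0| < δ →
      (x, t) ∈ O ∩ W ∧ |f (x, t) - f (x, t0)| ≤ ε / 3 := by
    intro t0 ht0
    have hw := hseg t0 ht0
    have hcont : ContinuousAt f (x, t0) := h.continuousAt hU ⟨hw, hx.off t0⟩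
    have hcont' : ContinuousAt (fun t => f (x, t)) t0 :=
      ContinuousAt.comp (f := fun t : ℝ => ((x, t) : ℝ × ℝ)) hcont hline.continuousAt
    have h1 : ∀ᶠ t in 𝓝 t0, |f (x, t) - f (x, t0)| ≤ ε / 3 := by
      have := Metric.tendsto_nhds.1 hcont' (ε / 3) (by linarith)
      filter_upwards [this] with t ht
      rw [Real.dist_eq] at ht
      exact ht.le
    have h2 : ∀ᶠ t in 𝓝 t0, (x, t) ∈ O ∩ W :=
      hline.continuousAt.eventually_mem ((hO.inter hW).mem_nhds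
        ⟨hPO ⟨Sqr.mem_car.2 ⟨hxQ, ht0⟩, subset_closure hw⟩, hw⟩)
    obtain ⟨δ, hδ, hb⟩ := Metric.eventually_nhds_iff.1 (h2.and h1)
    exact ⟨δ, hδ, fun t ht => hb (by rw [Real.dist_eq]; exact ht)⟩
  obtain ⟨δ, hδ, hn⟩ := near (Q.y + Q.s) ⟨by linarith, le_rfl⟩
  obtain ⟨δ', hδ', hn'⟩ := near Q.y ⟨le_rfl, by linarith⟩
  obtain ⟨t, ht, htE⟩ := hx.above hE hQ hxQ hδ
  obtain ⟨t', ht', htE'⟩ := hx.below hE hQ hxQ hδ'
  obtain ⟨a1, a2⟩ := hn t (by rw [abs_lt]; constructor <;> linarith [ht.1, ht.2])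
  obtain ⟨b1, b2⟩ := hn' t' (by rw [abs_lt]; constructor <;> linarith [ht'.1, ht'.2])
  have h3 := abs_le.1 (H (x, t) ⟨a1.1, htE, a1.2⟩ (x, t') ⟨b1.1, htE', b1.2⟩)
  have h4 := abs_le.1 a2
  have h5 := abs_le.1 b2
  rw [abs_le]; constructor <;> linarith

/-- the charge of the squares met by the open segment `{x} × (a, b)` (both end points off them) -/
noncomputable def hop (E W : Set (ℝ × ℝ)) (𝒬 : Set Sqr) (f : ℝ × ℝ → ℝ) (a b x : ℝ) : ℝ≥0∞ :=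
  ∑' Q : 𝒬, {Q : 𝒬 | x ∈ Icc Q.1.x (Q.1.x + Q.1.s) ∧ a < Q.1.y ∧ Q.1.y + Q.1.s < b}.indicator
    (fun Q => ENNReal.ofReal (ch E W f Q.1)) Q

/-- **LINE LEMMA**: on a good vertical line the variation of `f` between two points off the squares
is at most the integral of `|∂_y f|` off `E` plus the charges of the squares in between. -/
theorem GoodX.line (hE : QPic E 𝒬 𝓗) {J : Finset Hair} (hJ : ∀ K ∈ J, K ∈ 𝓗) (hW : IsOpen W)
    {L C : ℝ} (hL : 0 ≤ L) (h : SL (W \ cut J) L f) (hC : ∀ p ∈ W \ cut J, |f p| ≤ C)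
    {x : ℝ} (hx : GoodX E W 𝒬 J f x) {a b : ℝ} (hab : a ≤ b) (hseg : ∀ t ∈ Icc a b, (x, t) ∈ W)
    (ha : (x, a) ∉ ⋃ Q ∈ 𝒬, Q.car) (hb : (x, b) ∉ ⋃ Q ∈ 𝒬, Q.car) :
    ‖f (x, b) - f (x, a)‖ₑ ≤
      (∫⁻ t in {t ∈ Ioc a b | (x, t) ∉ E}, ‖gy f (x, t)‖ₑ) + hop E W 𝒬 f a b x := by
  classical
  have hcount := hE.countable.to_subtype
  have hfin : ∀ P, Fin (Eᶜ ∩ W) P f := fun P => CFJ.fin hE ⟨J, hJ, L, C, hL, h, hC⟩ P
  rw [hx.ftc a b (by rwa [uIcc_of_le hab]), intervalIntegral.integral_of_le hab]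
  have hline : Continuous fun t : ℝ => ((x, t) : ℝ × ℝ) := by fun_prop
  have hmeas : Measurable fun t : ℝ => gy f (x, t) := (measurable_gy f).comp hline.measurable
  -- integrability of the derivative on the segment
  have hint : IntegrableOn (fun t => gy f (x, t)) (Ioc a b) := by
    refine Measure.integrableOn_of_bounded (M := L) measure_Ioc_lt_top.ne
      hmeas.aestronglyMeasurable ?_
    filter_upwards [ae_restrict_mem measurableSet_Ioc] with t ht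
    rw [Real.norm_eq_abs]
    exact h.abs_gy_le (isOpen_diff_cut hW J) hL ⟨hseg t ⟨ht.1.le, ht.2⟩, hx.off t⟩
  -- decomposition of the segment
  set I : 𝒬 → Set ℝ := fun Q => {t ∈ Ioc a b | (x, t) ∈ Q.1.car} with hI
  have hIm : ∀ Q, MeasurableSet (I Q) := fun Q =>
    measurableSet_Ioc.inter (Q.1.isCompact_car.isClosed.preimage hline).measurableSet
  have hId : Pairwise (Function.onFun Disjoint I) := by
    intro Q Q' hne
    refine disjoint_left.2 fun t ht ht' => ?_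
    exact disjoint_left.1 (hE.disjoint Q.2 Q'.2 fun he => hne (Subtype.ext he)) ht.2 ht'.2
  set A : Set ℝ := {t ∈ Ioc a b | (x, t) ∉ E} with hA
  have hAm : MeasurableSet A :=
    measurableSet_Ioc.inter (hE.cpt.isClosed.preimage hline).measurableSet.compl
  have hdisj : Disjoint A (⋃ Q, I Q) := by
    refine disjoint_left.2 fun t ht ht' => ?_
    obtain ⟨Q, hQ⟩ := mem_iUnion.1 ht'
    exact ht.2 (hE.sub Q.1 Q.2 hQ.2)
  have hae : Ioc a b =ᵐ[volume] (A ∪ ⋃ Q, I Q : Set ℝ) := by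
    have hnull := measure_eq_zero_iff_ae_notMem.1 hx.null
    filter_upwards [hnull] with t ht
    refine propext ⟨fun hm => ?_, fun hm => ?_⟩
    · by_cases hE' : (x, t) ∈ E
      · right
        by_contra hcon
        refine ht ⟨hE', fun hm' => hcon ?_⟩
        obtain ⟨Q, hQ, hQt⟩ := mem_iUnion₂.1 hm'
        exact mem_iUnion.2 ⟨⟨Q, hQ⟩, hm, hQt⟩
      · exact Or.inl ⟨hm, hE'⟩
    · rcases hm with hm | hm
      · exact hm.1
      · obtain ⟨Q, hQ⟩ := mem_iUnion.1 hm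
        exact hQ.1
  have hintA : IntegrableOn (fun t => gy f (x, t)) A := hint.mono_set fun t ht => ht.1
  have hintI : IntegrableOn (fun t => gy f (x, t)) (⋃ Q, I Q) :=
    hint.mono_set (iUnion_subset fun Q t ht => ht.1)
  rw [setIntegral_congr_set hae, setIntegral_union hdisj (MeasurableSet.iUnion hIm) hintA hintI]
  refine (enorm_add_le _ _).trans (add_le_add (enorm_integral_le_lintegral_enorm _) ?_)
  rw [integral_iUnion hIm hId hintI]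
  refine enorm_tsum_le_tsum_enorm.trans ?_
  refine ENNReal.tsum_le_tsum fun Q => ?_
  -- one square
  by_cases hne : (I Q).Nonempty
  · obtain ⟨t, ht, htQ⟩ := hne
    obtain ⟨hxQ, hty⟩ := Sqr.mem_car.1 htQ
    simp only at hxQ hty
    have hs := Q.1.hs
    have ha' : a < Q.1.y := by
      by_contra hcon
      push Not at hcon
      exact ha (mem_iUnion₂.2 ⟨Q.1, Q.2, Sqr.mem_car.2 ⟨hxQ, hcon, ht.1.le.trans hty.2⟩⟩)
    have hb' : Q.1.y + Q.1.s < b := by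
      by_contra hcon
      push Not at hcon
      exact hb (mem_iUnion₂.2 ⟨Q.1, Q.2, Sqr.mem_car.2 ⟨hxQ, hty.1.trans ht.2, hcon⟩⟩)
    have hIeq : I Q = Icc Q.1.y (Q.1.y + Q.1.s) := by
      ext u
      constructor
      · rintro ⟨-, hu⟩
        exact (Sqr.mem_car.1 hu).2
      · intro hu
        exact ⟨⟨ha'.trans_le hu.1, hu.2.trans hb'.le⟩, Sqr.mem_car.2 ⟨hxQ, hu⟩⟩
    have hsegQ : ∀ u ∈ Icc Q.1.y (Q.1.y + Q.1.s), (x, u) ∈ W := fun u hu =>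
      hseg u ⟨ha'.le.trans hu.1, hu.2.trans hb'.le⟩
    have e1 : ∫ t in I Q, gy f (x, t) = f (x, Q.1.y + Q.1.s) - f (x, Q.1.y) := by
      rw [hIeq, integral_Icc_eq_integral_Ioc, ← intervalIntegral.integral_of_le (by linarith),
        ← hx.ftc Q.1.y (Q.1.y + Q.1.s) (by rwa [uIcc_of_le (by linarith)])]
    rw [indicator_of_mem (show Q ∈ {Q : 𝒬 | x ∈ Icc Q.1.x (Q.1.x + Q.1.s) ∧ a < Q.1.y ∧
      Q.1.y + Q.1.s < b} from ⟨hxQ, ha', hb'⟩), e1, ← ofReal_norm, Real.norm_eq_abs]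
    exact ENNReal.ofReal_le_ofReal (hx.face hE hW h Q.2 hxQ (hfin _).oscLe hsegQ)
  · rw [not_nonempty_iff_eq_empty.1 hne]
    simp

end Crest.Agent.R105.Cq_463
end

-- ▼ part R105/Cq5_463

/-!
# Row 105 (S0138, picture with solids): Poincare inequality across the squares
-/

set_option autoImplicit false

namespace Crest.Agent.R105.Cq_463

open Set Filter MeasureTheory Topology Metric
open Crest.Agent.R105.CF_363 Crest.Agent.R105.Stp_722
open scoped ENNReal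

variable {E W : Set (ℝ × ℝ)} {𝒬 : Set Sqr} {𝓗 : Set Hair} {f g : ℝ × ℝ → ℝ}

/-- plane or half plane bounded by a horizontal line -/
structure Slab (W : Set (ℝ × ℝ)) : Prop where
  isOpen : IsOpen W
  convex : Convex ℝ W
  hor : ∀ x x' y, (x, y) ∈ W → (x', y) ∈ W
  dir : (∀ x y y', (x, y) ∈ W → y' ≤ y → (x, y') ∈ W) ∨
    (∀ x y y', (x, y) ∈ W → y ≤ y' → (x, y') ∈ W)


theorem slab_lo (B : ℝ) : Slab {p : ℝ × ℝ | p.2 < B} := by
  refine ⟨isOpen_lt continuous_snd continuous_const, ?_, fun _ _ _ h => h,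
    Or.inl fun x y y' h h' => ?_⟩
  · exact (convex_Iio B).linear_preimage (LinearMap.snd ℝ ℝ ℝ)
  · simp only [mem_ofPred_eq] at h ⊢; linarith

theorem slab_up (B : ℝ) : Slab {p : ℝ × ℝ | B < p.2} := by
  refine ⟨isOpen_lt continuous_const continuous_snd, ?_, fun _ _ _ h => h,
    Or.inr fun x y y' h h' => ?_⟩
  · exact (convex_Ioi B).linear_preimage (LinearMap.snd ℝ ℝ ℝ)
  · simp only [mem_ofPred_eq] at h ⊢; linarith

/-- points of `Eᶜ ∩ W` on a good line, near a portion of a square -/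
theorem Slab.near (hW : Slab W) (hE : QPic E 𝒬 𝓗) {J : Finset Hair} {x : ℝ}
    (hx : GoodX E W 𝒬 J f x) {Q : Sqr} (hQ : Q ∈ 𝒬) (hxQ : x ∈ Icc Q.x (Q.x + Q.s))
    (hne : (Q.car ∩ closure W).Nonempty) {O : Set (ℝ × ℝ)} (hO : IsOpen O)
    (hPO : Q.car ∩ closure W ⊆ O) : ∃ t, (x, t) ∈ O ∧ (x, t) ∈ W ∧ (x, t) ∉ E := by
  have hs := Q.hs
  have hline : Continuous fun t : ℝ => ((x, t) : ℝ × ℝ) := by fun_prop
  obtain ⟨p, hpQ, hpW⟩ := hne
  obtain ⟨-, hp2⟩ := Sqr.mem_car.1 hpQ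
  have key : ∀ t0 : ℝ, (x, t0) ∈ O → ∃ δ > 0, ∀ t, |t - t0| < δ → (x, t) ∈ O := by
    intro t0 h0
    obtain ⟨δ, hδ, hb⟩ := Metric.eventually_nhds_iff.1
      (hline.continuousAt.eventually_mem (hO.mem_nhds h0))
    exact ⟨δ, hδ, fun t ht => hb (by rw [Real.dist_eq]; exact ht)⟩
  rcases hW.dir with hd | hd
  · have hin : ∀ t < Q.y, (x, t) ∈ W := by
      intro t ht
      obtain ⟨w, hw, hwp⟩ := Metric.mem_closure_iff.1 hpW (p.2 - t) (by linarith)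
      have h1 : |p.2 - w.2| < p.2 - t := by
        rw [← Real.dist_eq]; exact (le_max_right _ _).trans_lt (by rwa [Prod.dist_eq] at hwp)
      have h2 : t ≤ w.2 := by linarith [(abs_lt.1 h1).2]
      exact hW.hor w.1 x t (hd w.1 w.2 t hw h2)
    have hcl : (x, Q.y) ∈ closure W := by
      have ht : Tendsto (fun t : ℝ => ((x, t) : ℝ × ℝ)) (𝓝[<] Q.y) (𝓝 (x, Q.y)) :=
        (hline.tendsto Q.y).mono_left nhdsWithin_le_nhds
      exact mem_closure_of_tendsto ht (by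
        filter_upwards [self_mem_nhdsWithin] with t ht using hin t ht)
    obtain ⟨δ, hδ, hb⟩ := key Q.y (hPO ⟨Sqr.mem_car.2 ⟨hxQ, le_rfl, by
      simp only; linarith⟩, hcl⟩)
    obtain ⟨t, ht, htE⟩ := hx.below hE hQ hxQ hδ
    exact ⟨t, hb t (by rw [abs_lt]; constructor <;> linarith [ht.1, ht.2]), hin t ht.2, htE⟩
  · have hin : ∀ t > Q.y + Q.s, (x, t) ∈ W := by
      intro t ht
      obtain ⟨w, hw, hwp⟩ := Metric.mem_closure_iff.1 hpW (t - p.2) (by linarith)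
      have h1 : |p.2 - w.2| < t - p.2 := by
        rw [← Real.dist_eq]; exact (le_max_right _ _).trans_lt (by rwa [Prod.dist_eq] at hwp)
      have h2 : w.2 ≤ t := by linarith [(abs_lt.1 h1).1]
      exact hW.hor w.1 x t (hd w.1 w.2 t hw h2)
    have hcl : (x, Q.y + Q.s) ∈ closure W := by
      have ht : Tendsto (fun t : ℝ => ((x, t) : ℝ × ℝ)) (𝓝[>] (Q.y + Q.s))
          (𝓝 (x, Q.y + Q.s)) := (hline.tendsto _).mono_left nhdsWithin_le_nhds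
      exact mem_closure_of_tendsto ht (by
        filter_upwards [self_mem_nhdsWithin] with t ht using hin t ht)
    obtain ⟨δ, hδ, hb⟩ := key (Q.y + Q.s) (hPO ⟨Sqr.mem_car.2 ⟨hxQ, by
      simp only; linarith, le_rfl⟩, hcl⟩)
    obtain ⟨t, ht, htE⟩ := hx.above hE hQ hxQ hδ
    exact ⟨t, hb t (by rw [abs_lt]; constructor <;> linarith [ht.1, ht.2]), hin t ht.1, htE⟩

/-- all charges of the squares over `x` -/
noncomputable def hopT (E W : Set (ℝ × ℝ)) (𝒬 : Set Sqr) (f : ℝ × ℝ → ℝ) (x : ℝ) : ℝ≥0∞ :=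
  ∑' Q : 𝒬, {Q : 𝒬 | x ∈ Icc Q.1.x (Q.1.x + Q.1.s)}.indicator
    (fun Q => ENNReal.ofReal (ch E W f Q.1)) Q

theorem hop_le_hopT (E W : Set (ℝ × ℝ)) (𝒬 : Set Sqr) (f : ℝ × ℝ → ℝ) (a b x : ℝ) :
    hop E W 𝒬 f a b x ≤ hopT E W 𝒬 f x := by
  refine ENNReal.tsum_le_tsum fun Q => ?_
  exact indicator_le_indicator_of_subset (fun Q hQ => hQ.1) (fun _ => zero_le) Q

/-- total vertical variation available over `x` -/
noncomputable def HH (E W : Set (ℝ × ℝ)) (𝒬 : Set Sqr) (f : ℝ × ℝ → ℝ) (a b x : ℝ) : ℝ≥0∞ :=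
  (∫⁻ t in {t ∈ Ioc a b | (x, t) ∈ W \ E}, ‖gy f (x, t)‖ₑ) + hopT E W 𝒬 f x

/-- **sup bound on a good line** -/
theorem GoodX.bound (hE : QPic E 𝒬 𝓗) {J : Finset Hair} (hJ : ∀ K ∈ J, K ∈ 𝓗) (hW : Slab W)
    {L C : ℝ} (hL : 0 ≤ L) (h : SL (W \ cut J) L f) (hC : ∀ p ∈ W \ cut J, |f p| ≤ C)
    {a b : ℝ} (hab : ∀ p ∈ E, a < p.2 ∧ p.2 < b)
    (hz : ∀ p ∈ W, (p.2 ≤ a ∨ b ≤ p.2) → f p = 0)
    {x : ℝ} (hx : GoodX E W 𝒬 J f x) {y : ℝ} (hy : (x, y) ∈ W)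
    (hyQ : (x, y) ∉ ⋃ Q ∈ 𝒬, Q.car) : ‖f (x, y)‖ₑ ≤ HH E W 𝒬 f a b x := by
  rcases le_or_gt y a with h1 | h1
  · rw [hz (x, y) hy (Or.inl h1)]; simp
  rcases le_or_gt b y with h2 | h2
  · rw [hz (x, y) hy (Or.inr h2)]; simp
  have hoff : ∀ t : ℝ, (t ≤ a ∨ b ≤ t) → (x, t) ∉ ⋃ Q ∈ 𝒬, Q.car := by
    intro t ht hm
    obtain ⟨Q, hQ, hQt⟩ := mem_iUnion₂.1 hm
    have := hab _ (hE.sub Q hQ hQt)
    simp only at this
    rcases ht with h | h <;> linarith [this.1, this.2]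
  rcases hW.dir with hd | hd
  · have hseg : ∀ t ∈ Icc a y, (x, t) ∈ W := fun t ht => hd x y t hy ht.2
    have h3 := hx.line hE hJ hW.isOpen hL h hC h1.le hseg (hoff a (Or.inl le_rfl)) hyQ
    rw [hz (x, a) (hseg a ⟨le_rfl, h1.le⟩) (Or.inl le_rfl), sub_zero] at h3
    refine h3.trans (add_le_add ?_ (hop_le_hopT _ _ _ _ _ _ _))
    exact lintegral_mono_set fun t ht => ⟨⟨ht.1.1, ht.1.2.trans h2.le⟩,
      hseg t ⟨ht.1.1.le, ht.1.2⟩, ht.2⟩
  · have hseg : ∀ t ∈ Icc y b, (x, t) ∈ W := fun t ht => hd x y t hy ht.1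
    have h3 := hx.line hE hJ hW.isOpen hL h hC h2.le hseg hyQ (hoff b (Or.inr le_rfl))
    rw [hz (x, b) (hseg b ⟨h2.le, le_rfl⟩) (Or.inr le_rfl), zero_sub, enorm_neg] at h3
    refine h3.trans (add_le_add ?_ (hop_le_hopT _ _ _ _ _ _ _))
    exact lintegral_mono_set fun t ht => ⟨⟨h1.trans ht.1.1, ht.1.2⟩,
      hseg t ⟨ht.1.1.le, ht.1.2⟩, ht.2⟩

theorem sq_add_le (x y : ℝ≥0∞) : (x + y) ^ 2 ≤ 2 * (x ^ 2 + y ^ 2) := by
  rcases eq_or_ne x ∞ with rfl | hx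
  · simp
  rcases eq_or_ne y ∞ with rfl | hy
  · simp
  lift x to NNReal using hx
  lift y to NNReal using hy
  have h := add_pow_le (zero_le : (0 : NNReal) ≤ x) (zero_le : (0 : NNReal) ≤ y) 2
  norm_num at h
  exact_mod_cast h

/-- vertical chords of the squares -/
theorem tsum_chord_le (hE : QPic E 𝒬 𝓗) {a b : ℝ} (hab : ∀ p ∈ E, a < p.2 ∧ p.2 < b) (x : ℝ) :
    ∑' Q : 𝒬, {Q : 𝒬 | x ∈ Icc Q.1.x (Q.1.x + Q.1.s)}.indicator
      (fun Q => ENNReal.ofReal Q.1.s) Q ≤ ENNReal.ofReal (b - a) := by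
  have hcount := hE.countable.to_subtype
  have hline : Continuous fun t : ℝ => ((x, t) : ℝ × ℝ) := by fun_prop
  set I : 𝒬 → Set ℝ := fun Q => {t | (x, t) ∈ Q.1.car} with hI
  have hIm : ∀ Q, MeasurableSet (I Q) := fun Q =>
    (Q.1.isCompact_car.isClosed.preimage hline).measurableSet
  have hId : Pairwise (Function.onFun Disjoint I) := by
    intro Q Q' hne
    refine disjoint_left.2 fun t ht ht' => ?_
    exact disjoint_left.1 (hE.disjoint Q.2 Q'.2 fun he => hne (Subtype.ext he)) ht ht'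
  have h1 : volume (⋃ Q, I Q) = ∑' Q, volume (I Q) := measure_iUnion hId hIm
  have h2 : volume (⋃ Q, I Q) ≤ ENNReal.ofReal (b - a) := by
    rw [← Real.volume_Ioo]
    refine measure_mono (iUnion_subset fun Q t ht => ?_)
    exact hab _ (hE.sub Q.1 Q.2 ht)
  rw [h1] at h2
  refine le_trans (ENNReal.tsum_le_tsum fun Q => ?_) h2
  refine indicator_apply_le' (fun hQ => ?_) fun _ => zero_le
  have : I Q = Icc Q.1.y (Q.1.y + Q.1.s) := by
    ext t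
    exact ⟨fun h => (Sqr.mem_car.1 h).2, fun h => Sqr.mem_car.2 ⟨hQ, h⟩⟩
  rw [this, Real.volume_Icc, show Q.1.y + Q.1.s - Q.1.y = Q.1.s by ring]

theorem measurable_ind (Q : Sqr) (c : ℝ≥0∞) :
    Measurable fun x : ℝ => (Icc Q.x (Q.x + Q.s)).indicator (fun _ => c) x :=
  measurable_const.indicator measurableSet_Icc

theorem hopT_eq (E W : Set (ℝ × ℝ)) (𝒬 : Set Sqr) (f : ℝ × ℝ → ℝ) (x : ℝ) :
    hopT E W 𝒬 f x = ∑' Q : 𝒬, (Icc Q.1.x (Q.1.x + Q.1.s)).indicator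
      (fun _ => ENNReal.ofReal (ch E W f Q.1)) x := by
  unfold hopT
  congr 1

theorem measurable_hopT (hE : QPic E 𝒬 𝓗) : Measurable (hopT E W 𝒬 f) := by
  have hcount := hE.countable.to_subtype
  have : hopT E W 𝒬 f = fun x => ∑' Q : 𝒬, (Icc Q.1.x (Q.1.x + Q.1.s)).indicator
      (fun _ => ENNReal.ofReal (ch E W f Q.1)) x := funext (hopT_eq E W 𝒬 f)
  rw [this]
  exact Measurable.tsum fun Q => measurable_ind Q.1 _

/-- square of the hop function -/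
theorem lintegral_hopT_sq (hE : QPic E 𝒬 𝓗) {a b : ℝ} (hab : ∀ p ∈ E, a < p.2 ∧ p.2 < b) :
    ∫⁻ x, hopT E W 𝒬 f x ^ 2 ≤
      ENNReal.ofReal (b - a) * ∑' Q : 𝒬, ENNReal.ofReal (ch E W f Q.1 ^ 2) := by
  have hcount := hE.countable.to_subtype
  set u : 𝒬 → ℝ≥0∞ := fun Q => ENNReal.ofReal Q.1.s with hu
  set c : 𝒬 → ℝ≥0∞ := fun Q => ENNReal.ofReal (ch E W f Q.1) with hc
  have hu0 : ∀ Q, u Q ≠ 0 := fun Q => by
    simp only [hu, ne_eq, ENNReal.ofReal_eq_zero, not_le]; exact Q.1.hs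
  have hut : ∀ Q, u Q ≠ ∞ := fun Q => ENNReal.ofReal_ne_top
  have hpt : ∀ x, hopT E W 𝒬 f x ^ 2 ≤ ENNReal.ofReal (b - a) *
      ∑' Q : 𝒬, (Icc Q.1.x (Q.1.x + Q.1.s)).indicator (fun _ => c Q ^ 2 / u Q) x := by
    intro x
    have h1 := Hop_190.cs (fun Q : 𝒬 => (Icc Q.1.x (Q.1.x + Q.1.s)).indicator
      (fun _ => u Q ^ (1 / 2 : ℝ)) x) (fun Q : 𝒬 => (Icc Q.1.x (Q.1.x + Q.1.s)).indicator
      (fun _ => c Q / u Q ^ (1 / 2 : ℝ)) x)
    have half : ∀ Q, (u Q ^ (1 / 2 : ℝ)) ^ 2 = u Q := fun Q => by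
      rw [← ENNReal.rpow_natCast, ← ENNReal.rpow_mul]; norm_num
    have hh0 : ∀ Q, u Q ^ (1 / 2 : ℝ) ≠ 0 := fun Q => by
      rw [Ne, ENNReal.rpow_eq_zero_iff]; simp [hu0 Q, hut Q]
    have hht : ∀ Q, u Q ^ (1 / 2 : ℝ) ≠ ∞ := fun Q =>
      ENNReal.rpow_ne_top_of_nonneg (by norm_num) (hut Q)
    have e1 : ∀ Q : 𝒬, (Icc Q.1.x (Q.1.x + Q.1.s)).indicator
        (fun _ => u Q ^ (1 / 2 : ℝ)) x * (Icc Q.1.x (Q.1.x + Q.1.s)).indicator
        (fun _ => c Q / u Q ^ (1 / 2 : ℝ)) x =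
        (Icc Q.1.x (Q.1.x + Q.1.s)).indicator (fun _ => c Q) x := by
      intro Q
      by_cases hx : x ∈ Icc Q.1.x (Q.1.x + Q.1.s)
      · simp only [indicator_of_mem hx]
        rw [ENNReal.mul_div_cancel (hh0 Q) (hht Q)]
      · simp only [indicator_of_notMem hx, mul_zero]
    have e2 : ∀ Q : 𝒬, ((Icc Q.1.x (Q.1.x + Q.1.s)).indicator
        (fun _ => u Q ^ (1 / 2 : ℝ)) x) ^ 2 = (Icc Q.1.x (Q.1.x + Q.1.s)).indicator
        (fun _ => u Q) x := by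
      intro Q
      by_cases hx : x ∈ Icc Q.1.x (Q.1.x + Q.1.s)
      · simp only [indicator_of_mem hx, half]
      · simp only [indicator_of_notMem hx]; norm_num
    have e3 : ∀ Q : 𝒬, ((Icc Q.1.x (Q.1.x + Q.1.s)).indicator
        (fun _ => c Q / u Q ^ (1 / 2 : ℝ)) x) ^ 2 = (Icc Q.1.x (Q.1.x + Q.1.s)).indicator
        (fun _ => c Q ^ 2 / u Q) x := by
      intro Q
      by_cases hx : x ∈ Icc Q.1.x (Q.1.x + Q.1.s)
      · simp only [indicator_of_mem hx]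
        rw [div_eq_mul_inv, mul_pow, ← ENNReal.inv_pow, half, div_eq_mul_inv]
      · simp only [indicator_of_notMem hx]; norm_num
    simp only [e1, e2, e3] at h1
    rw [hopT_eq]
    refine h1.trans (mul_le_mul' ?_ le_rfl)
    have := tsum_chord_le hE hab x
    exact this
  calc ∫⁻ x, hopT E W 𝒬 f x ^ 2
      ≤ ∫⁻ x, ENNReal.ofReal (b - a) *
        ∑' Q : 𝒬, (Icc Q.1.x (Q.1.x + Q.1.s)).indicator (fun _ => c Q ^ 2 / u Q) x :=
        lintegral_mono hpt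
    _ = ENNReal.ofReal (b - a) * ∑' Q : 𝒬, ∫⁻ x, (Icc Q.1.x (Q.1.x + Q.1.s)).indicator
          (fun _ => c Q ^ 2 / u Q) x := by
        rw [lintegral_const_mul' _ _ ENNReal.ofReal_ne_top]
        congr 1
        exact lintegral_tsum (f := fun (Q : 𝒬) x => (Icc Q.1.x (Q.1.x + Q.1.s)).indicator
          (fun _ => c Q ^ 2 / u Q) x) fun Q => (measurable_ind Q.1 _).aemeasurable
    _ = ENNReal.ofReal (b - a) * ∑' Q : 𝒬, ENNReal.ofReal (ch E W f Q.1 ^ 2) := by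
        congr 1
        refine tsum_congr fun Q => ?_
        rw [lintegral_indicator measurableSet_Icc, setLIntegral_const, Real.volume_Icc,
          show Q.1.x + Q.1.s - Q.1.x = Q.1.s by ring, ENNReal.div_mul_cancel (hu0 Q) (hut Q),
          ENNReal.ofReal_pow (ch_nonneg _ _ _ _)]

end Crest.Agent.R105.Cq_463
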