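import Crest.Agent.R105.Vac1_937
import Crest.Agent.R105.Pct2_185
import Crest.Agent.R105.Stk2_939
import Crest.Agent.R105.Pv1_937

-- ▼ part R105/Yv1_319
section

/-!
# R105 (S0138, NI frame): LEMMA Y on vertical lines, part 1: one variable (helper319)

* `key'` : 937's `Vac_937.key` without continuity of `α` and with a nonzero total.
* `ae_abs_le` : `|∫ g D| ≤ ∫ |g| B` for all test functions `g` gives `|D| ≤ B` a.e.
-/

set_option autoImplicit false

open Set Filter MeasureTheory intervalIntegral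
open scoped Topology NNReal ContDiff Convolution

namespace Crest.Agent.R105.Yv_319

open Vac_937

section

variable {α b χ χ' : ℝ → ℝ} {K : Set ℝ}

/-- the increment over `[y1,y2]` in terms of the total `∫ (χ b + χ' α)` -/
theorem key' (hK : IsClosed K) (hα : LocallyLipschitzOn Kᶜ α)
    (hd : ∀ᵐ y : ℝ, y ∉ K → HasDerivAt α (b y) y)
    (hb : ∀ u v, IntervalIntegrable b volume u v)
    (hfi : ∀ u v, IntervalIntegrable (fun y => χ y * b y + χ' y * α y) volume u v)
    (hχ : ∀ y, HasDerivAt χ (χ' y) y) (hχc : Continuous χ') {y1 y2 R : ℝ} (h12 : y1 ≤ y2)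
    (hy1 : y1 ∉ K) (hy2 : y2 ∉ K) (hR1 : -R ≤ y1) (hR2 : y2 ≤ R)
    (h1 : ∀ y ∈ K, y ∈ Icc y1 y2 → ∀ᶠ x in 𝓝 y, χ x = 1)
    (h0 : ∀ y ∈ K, y ∉ Icc y1 y2 → ∀ᶠ x in 𝓝 y, χ x = 0)
    (hl : χ (-R) = 0) (hr : χ R = 0) :
    α y2 - α y1 - (∫ y in y1..y2, b y) = -∫ y in (-R)..R, (χ y * b y + χ' y * α y) := by
  set f : ℝ → ℝ := fun y => χ y * b y + χ' y * α y with hf
  -- the first function
  have e1 : ∀ y, y ∉ Icc y1 y2 ∨ y ∉ K → ∀ᶠ x in 𝓝 y,
      (∫ r in (-R)..x, f r) - χ x * α x = (∫ r in (-R)..y, f r) - χ y * α y := by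
    intro y hy
    by_cases hyK : y ∈ K
    · have hy' : y ∉ Icc y1 y2 := hy.resolve_right (fun h => h hyK)
      have h2 := h0 y hyK hy'
      have h3 := deriv_zero_near hχ h2
      obtain ⟨t, ht, htt⟩ := Filter.eventually_iff_exists_mem.1 (h2.and h3)
      filter_upwards [eventually_uIcc ht] with x hx
      have h4 : ∫ r in y..x, f r = 0 := by
        apply integral_zero_ae
        refine Eventually.of_forall fun r hr' => ?_
        have := htt r (hx (uIoc_subset_uIcc hr'))
        simp [hf, this.1, this.2]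
      have h5 := (htt x (hx right_mem_uIcc)).1
      have h6 := (htt y (hx left_mem_uIcc)).1
      rw [h5, h6, ← integral_add_adjacent_intervals (hfi (-R) y) (hfi y x), h4]
      ring
    · filter_upwards [incr_two hK hα hd hχ hχc hyK] with x hx
      rw [← integral_add_adjacent_intervals (hfi (-R) y) (hfi y x), hx]
      ring
  -- the second function
  have e2 : ∀ y ∈ Icc y1 y2, ∀ᶠ x in 𝓝 y,
      (∫ r in (-R)..x, f r) - (∫ r in (-R)..x, b r) - (χ x - 1) * α x
        = (∫ r in (-R)..y, f r) - (∫ r in (-R)..y, b r) - (χ y - 1) * α y := by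
    intro y hy
    by_cases hyK : y ∈ K
    · have h2 := h1 y hyK hy
      have h3 := deriv_zero_near hχ h2
      obtain ⟨t, ht, htt⟩ := Filter.eventually_iff_exists_mem.1 (h2.and h3)
      filter_upwards [eventually_uIcc ht] with x hx
      have h4 : ∫ r in y..x, f r = ∫ r in y..x, b r := by
        apply intervalIntegral.integral_congr_ae
        refine Eventually.of_forall fun r hr' => ?_
        have := htt r (hx (uIoc_subset_uIcc hr'))
        simp [hf, this.1, this.2]
      have h5 := (htt x (hx right_mem_uIcc)).1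
      have h6 := (htt y (hx left_mem_uIcc)).1
      rw [h5, h6, ← integral_add_adjacent_intervals (hfi (-R) y) (hfi y x),
        ← integral_add_adjacent_intervals (hb (-R) y) (hb y x), h4]
      ring
    · filter_upwards [incr_two hK hα hd hχ hχc hyK, incr_one hK hα hd hyK] with x hx hx'
      rw [← integral_add_adjacent_intervals (hfi (-R) y) (hfi y x), hx,
        ← integral_add_adjacent_intervals (hb (-R) y) (hb y x), hx']
      ring
  have c1 := const_of_locally (H := fun y => (∫ r in (-R)..y, f r) - χ y * α y) hR1 (by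
    intro y hy
    apply e1
    by_cases hyK : y ∈ K
    · left
      intro hm
      have : y = y1 := le_antisymm hy.2 hm.1
      exact hy1 (this ▸ hyK)
    · exact Or.inr hyK)
  have c3 := const_of_locally (H := fun y => (∫ r in (-R)..y, f r) - χ y * α y) hR2 (by
    intro y hy
    apply e1
    by_cases hyK : y ∈ K
    · left
      intro hm
      have : y = y2 := le_antisymm hm.2 hy.1
      exact hy2 (this ▸ hyK)
    · exact Or.inr hyK)
  have c2 := const_of_locally
    (H := fun y => (∫ r in (-R)..y, f r) - (∫ r in (-R)..y, b r) - (χ y - 1) * α y) h12 e2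
  beta_reduce at c1 c2 c3
  rw [integral_same, hl] at c1
  rw [hr] at c3
  have h8 : ∫ r in (-R)..y2, b r = (∫ r in (-R)..y1, b r) + ∫ r in y1..y2, b r :=
    (integral_add_adjacent_intervals (hb (-R) y1) (hb y1 y2)).symm
  rw [h8] at c2
  linarith

end

/-- nonnegative against all test functions -/
theorem ae_nonneg_of_test {h : ℝ → ℝ} (hh : Integrable h)
    (ht : ∀ g : ℝ → ℝ, ContDiff ℝ ∞ g → HasCompactSupport g → (∀ t, 0 ≤ g t) →
      0 ≤ ∫ t, g t * h t) : ∀ᵐ t, 0 ≤ h t := by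
  have hφ : ∀ n : ℕ, (0:ℝ) < 1 / (2 * ((n:ℝ) + 1)) := fun n => by positivity
  set φ : ℕ → ContDiffBump (0 : ℝ) := fun n =>
    ⟨1 / (2 * ((n:ℝ) + 1)), 1 / ((n:ℝ) + 1), hφ n, by
      rw [div_lt_div_iff₀ (by positivity) (by positivity)]
      nlinarith [(Nat.cast_nonneg n : (0:ℝ) ≤ n)]⟩ with hφd
  have h1 : Tendsto (fun n => (φ n).rOut) atTop (𝓝 0) := tendsto_one_div_add_atTop_nhds_zero_nat
  have h2 : ∀ᶠ n in atTop, (φ n).rOut ≤ 2 * (φ n).rIn := by
    refine Eventually.of_forall fun n => ?_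
    show (1:ℝ) / ((n:ℝ) + 1) ≤ 2 * (1 / (2 * ((n:ℝ) + 1)))
    rw [← mul_div_assoc, mul_one, div_mul_eq_div_div, div_self two_ne_zero]
  filter_upwards [ContDiffBump.ae_convolution_tendsto_right_of_locallyIntegrable (μ := volume)
    h1 h2 hh.locallyIntegrable] with x hx
  refine ge_of_tendsto hx (Eventually.of_forall fun n => ?_)
  rw [convolution_lsmul_swap]
  have h3 : ContDiff ℝ ∞ fun t => (φ n).normed volume (x - t) :=
    (φ n).contDiff_normed.comp (contDiff_const.sub contDiff_id)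
  have h4 : HasCompactSupport fun t => (φ n).normed volume (x - t) :=
    (φ n).hasCompactSupport_normed.comp_homeomorph (Homeomorph.subLeft x)
  have := ht _ h3 h4 fun t => (φ n).nonneg_normed _
  simpa only [smul_eq_mul] using this

theorem ae_abs_le {D B : ℝ → ℝ} (hD : Integrable D) (hB : Integrable B)
    (ht : ∀ g : ℝ → ℝ, ContDiff ℝ ∞ g → HasCompactSupport g → (∀ t, 0 ≤ g t) →
      |∫ t, g t * D t| ≤ ∫ t, g t * B t) : ∀ᵐ t, |D t| ≤ B t := by
  have hi : ∀ {g f : ℝ → ℝ}, ContDiff ℝ ∞ g → HasCompactSupport g → Integrable f →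
      Integrable fun t => g t * f t := by
    intro g f hg hgc hf
    obtain ⟨M, hM⟩ := hgc.exists_bound_of_continuous hg.continuous
    exact hf.bdd_mul (c := M) hg.continuous.aestronglyMeasurable (Eventually.of_forall hM)
  have h1 : ∀ᵐ t, 0 ≤ B t - D t := by
    refine ae_nonneg_of_test (hB.sub hD) fun g hg hgc hg0 => ?_
    have e : ∫ t, g t * (B t - D t) = (∫ t, g t * B t) - ∫ t, g t * D t := by
      rw [← integral_sub (hi hg hgc hB) (hi hg hgc hD)]
      congr 1; ext t; ring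
    rw [e]
    have := ht g hg hgc hg0
    linarith [le_abs_self (∫ t, g t * D t)]
  have h2 : ∀ᵐ t, 0 ≤ B t + D t := by
    refine ae_nonneg_of_test (hB.add hD) fun g hg hgc hg0 => ?_
    have e : ∫ t, g t * (B t + D t) = (∫ t, g t * B t) + ∫ t, g t * D t := by
      rw [← integral_add (hi hg hgc hB) (hi hg hgc hD)]
      congr 1; ext t; ring
    rw [e]
    have := ht g hg hgc hg0
    linarith [neg_abs_le (∫ t, g t * D t)]
  filter_upwards [h1, h2] with t h1 h2
  rw [abs_le]; constructor <;> linarith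

end Crest.Agent.R105.Yv_319
end

-- ▼ part R105/Yv2_319
section

/-!
# R105 (S0138, NI frame): LEMMA Y on vertical lines, part 2: Stokes and Fubini (helper319)

`E` compact, `y` locally Lipschitz off `E`, `χ` smooth with compact support, locally constant near
`E`: `∫_{Eᶜ} d(G(re) χ) ∧ dy = ∫ G'(re) (χ ∂_y y + y ∂_y χ)`, and Fubini.
-/

set_option autoImplicit false

open Set Filter MeasureTheory Metric
open scoped Topology NNReal ContDiff ENNReal

namespace Crest.Agent.R105.Yv_319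

open Tc_808 Bd_775 Sqr_185
open Sct_636 (LCE)

noncomputable section

variable {E : Set ℂ} {y χ : ℂ → ℝ}

/-- the data of the conjugate function in the picture of an anchor -/
structure YD (E : Set ℂ) (y : ℂ → ℝ) : Prop where
  loc : LocallyLipschitzOn Eᶜ y
  bdd : ∀ R : ℝ, ∃ M, ∀ z, ‖z‖ ≤ R → |y z| ≤ M
  fin : ∀ R : ℝ, IntegrableOn (en y) (Eᶜ ∩ closedBall 0 R)

/-- the integrand on the vertical lines -/
def SY (E : Set ℂ) (χ y : ℂ → ℝ) (z : ℂ) : ℝ := χ z * Eᶜ.indicator (gy y) z + gy χ z * y z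


theorem gy_zero_near (h : ∀ z ∈ E, ∀ᶠ w in 𝓝 z, χ w = χ z) {z : ℂ} (hz : z ∈ E) :
    ∀ᶠ w in 𝓝 z, gy χ w = 0 := by
  filter_upwards [(h z hz).eventually_nhds] with w hw
  rw [gy_eq_of_eventuallyEq (v := fun _ => χ z) hw, gy_const]

theorem continuous_gy' (h : ContDiff ℝ ∞ χ) : Continuous (gy χ) :=
  (h.continuous_fderiv (by simp)).clm_apply continuous_const

theorem compact_gy' (h : HasCompactSupport χ) : HasCompactSupport (gy χ) :=
  h.fderiv_apply (𝕜 := ℝ) Complex.I

theorem continuousAt_of_loc (hE : IsClosed E) (hy : LocallyLipschitzOn Eᶜ y) {z : ℂ}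
    (hz : z ∉ E) : ContinuousAt y z := by
  have h1 := hy.continuousOn z hz
  exact h1.continuousAt (hE.isOpen_compl.mem_nhds hz)

/-- `y ∂_y χ` is continuous -/
theorem continuous_gymul (hE : IsClosed E) (hχ : LCE E χ) (hy : LocallyLipschitzOn Eᶜ y) :
    Continuous fun z => gy χ z * y z := by
  rw [continuous_iff_continuousAt]
  intro z
  by_cases hz : z ∈ E
  · have h1 : (fun w => gy χ w * y w) =ᶠ[𝓝 z] fun _ => (0:ℝ) := by
      filter_upwards [gy_zero_near hχ.lc hz] with w hw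
      rw [hw, zero_mul]
    exact continuousAt_const.congr h1.symm
  · exact (continuous_gy' hχ.smooth).continuousAt.mul (continuousAt_of_loc hE hy hz)

theorem compact_gymul (hχ : LCE E χ) : HasCompactSupport fun z => gy χ z * y z :=
  (compact_gy' hχ.supp).mul_right

theorem abs_gy_le' (u : ℂ → ℝ) (z : ℂ) : |gy u z| ≤ 1 + en u z := by
  unfold en
  rw [abs_le]; constructor <;> nlinarith [sq_nonneg (gy u z + 1), sq_nonneg (gy u z - 1),
    sq_nonneg (gx u z)]

theorem integrableOn_gy' (hy : YD E y) (R : ℝ) : IntegrableOn (gy y) (Eᶜ ∩ closedBall 0 R) := by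
  have h1 : IntegrableOn (fun z => 1 + en y z) (Eᶜ ∩ closedBall 0 R) := by
    refine Integrable.add ?_ (hy.fin R)
    exact (integrableOn_const (isCompact_closedBall (0:ℂ) R).measure_lt_top.ne).mono_set
      inter_subset_right
  refine Integrable.mono' h1 (measurable_gy y).aestronglyMeasurable ?_
  exact Eventually.of_forall fun z => abs_gy_le' y z

theorem exists_ball (hχ : HasCompactSupport χ) : ∃ R : ℝ, 0 < R ∧ tsupport χ ⊆ ball 0 R := by
  obtain ⟨R, hR⟩ := (isBounded_iff_subset_ball (0:ℂ)).1 hχ.isBounded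
  exact ⟨max R 1, by positivity, hR.trans (ball_subset_ball (le_max_left _ _))⟩

/-- `χ ∂_y y` is integrable -/
theorem integrable_first (hE : IsClosed E) (hχ : LCE E χ) (hy : YD E y) :
    Integrable fun z => χ z * Eᶜ.indicator (gy y) z := by
  obtain ⟨R, hR0, hR⟩ := exists_ball hχ.supp
  obtain ⟨M, hM⟩ := hχ.supp.exists_bound_of_continuous hχ.smooth.continuous
  have h1 : Integrable ((Eᶜ ∩ closedBall 0 R).indicator (gy y)) := by
    rw [integrable_indicator_iff (hE.isOpen_compl.measurableSet.inter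
      isClosed_closedBall.measurableSet)]
    exact integrableOn_gy' hy R
  have h2 : Integrable fun z => χ z * (Eᶜ ∩ closedBall 0 R).indicator (gy y) z :=
    h1.bdd_mul (c := M) hχ.smooth.continuous.aestronglyMeasurable (Eventually.of_forall hM)
  refine h2.congr (Eventually.of_forall fun z => ?_)
  by_cases hz : z ∈ tsupport χ
  · have h3 : z ∈ closedBall (0:ℂ) R := ball_subset_closedBall (hR hz)
    by_cases hzE : z ∈ Eᶜ
    · simp only [indicator_of_mem hzE, indicator_of_mem (show z ∈ Eᶜ ∩ closedBall 0 R from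
        ⟨hzE, h3⟩)]
    · simp only [indicator_of_notMem hzE, indicator_of_notMem
        (show z ∉ Eᶜ ∩ closedBall 0 R from fun h => hzE h.1)]
  · simp only [image_eq_zero_of_notMem_tsupport hz, zero_mul]

theorem integrable_second (hE : IsClosed E) (hχ : LCE E χ) (hy : LocallyLipschitzOn Eᶜ y) :
    Integrable fun z => gy χ z * y z :=
  (continuous_gymul hE hχ hy).integrable_of_hasCompactSupport (compact_gymul hχ)

theorem integrable_SY (hE : IsClosed E) (hχ : LCE E χ) (hy : YD E y) : Integrable (SY E χ y) :=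
  (integrable_first hE hχ hy).add (integrable_second hE hχ hy.loc)

/-! ### Stokes -/

/-- truncation of `y` -/
theorem q_trunc (hE : IsClosed E) (hy : YD E y) {θ : ℂ → ℝ} (hθ : ContDiff ℝ ∞ θ)
    (hθc : HasCompactSupport θ) : Q E (fun z => θ z * y z) := by
  obtain ⟨R, hR0, hR⟩ := exists_ball hθc
  obtain ⟨M1, hM1⟩ := hθc.exists_bound_of_continuous hθ.continuous
  obtain ⟨M2, hM2⟩ := hy.bdd R
  set M := max M1 M2 with hM
  have b1 : ∀ z, |θ z| ≤ M := fun z => (hM1 z).trans (le_max_left _ _)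
  have b2 : ∀ z ∈ tsupport θ, |y z| ≤ M := fun z hz => by
    refine (hM2 z ?_).trans (le_max_right _ _)
    have := hR hz
    rw [mem_ball, dist_zero_right] at this
    exact this.le
  have hM0 : 0 ≤ M := (abs_nonneg _).trans (b1 0)
  refine ⟨⟨M * M, fun z => ?_⟩, ?_, ?_⟩
  · by_cases hz : z ∈ tsupport θ
    · rw [abs_mul]
      exact mul_le_mul (b1 z) (b2 z hz) (abs_nonneg _) hM0
    · rw [image_eq_zero_of_notMem_tsupport hz, zero_mul, abs_zero]
      positivity
  · intro z hz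
    by_cases hzt : z ∈ tsupport θ
    · -- local product
      obtain ⟨K, s, hs, h3⟩ := hy.loc hz
      obtain ⟨L, t, ht, h4⟩ := (hθ.of_le (by simp : (1 : WithTop ℕ∞) ≤ ((⊤ : ℕ∞) : WithTop ℕ∞))).locallyLipschitz z
      have hyc := continuousAt_of_loc hE hy.loc hz
      have hev : ∀ᶠ w in 𝓝 z, |y w| ≤ |y z| + 1 := by
        have := hyc.abs.eventually (gt_mem_nhds (show |y z| < |y z| + 1 by linarith))
        filter_upwards [this] with w hw
        exact hw.le
      rw [hE.isOpen_compl.nhdsWithin_eq hz] at hs ⊢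
      have hK0 : 0 ≤ M * K + (|y z| + 1) * L := by positivity
      refine ⟨Real.toNNReal (M * K + (|y z| + 1) * L), _, inter_mem (inter_mem hs ht) hev,
        LipschitzOnWith.of_dist_le_mul ?_⟩
      rintro a ⟨⟨ha1, ha2⟩, ha3⟩ b ⟨⟨hb1, hb2⟩, hb3⟩
      rw [Real.coe_toNNReal _ hK0]
      have e1 := h3.dist_le_mul a ha1 b hb1
      have e2 := h4.dist_le_mul a ha2 b hb2
      rw [Real.dist_eq] at e1 e2 ⊢
      have e3 : θ a * y a - θ b * y b = θ a * (y a - y b) + y b * (θ a - θ b) := by ring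
      rw [e3]
      refine (abs_add_le _ _).trans ?_
      rw [abs_mul, abs_mul]
      have e4 : |θ a| * |y a - y b| ≤ M * (K * dist a b) :=
        mul_le_mul (b1 a) e1 (abs_nonneg _) hM0
      have e5 : |y b| * |θ a - θ b| ≤ (|y z| + 1) * (L * dist a b) :=
        mul_le_mul hb3 e2 (abs_nonneg _) (by positivity)
      calc _ ≤ M * (K * dist a b) + (|y z| + 1) * (L * dist a b) := add_le_add e4 e5
        _ = (M * K + (|y z| + 1) * L) * dist a b := by ring
    · have h5 : (fun w => θ w * y w) =ᶠ[𝓝 z] fun _ => (0:ℝ) := by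
        filter_upwards [notMem_tsupport_iff_eventuallyEq.1 hzt] with w hw
        rw [hw]; simp
      refine ⟨0, {w | θ w * y w = 0}, mem_nhdsWithin_of_mem_nhds h5, fun a ha b hb => ?_⟩
      have ha' : θ a * y a = 0 := ha
      have hb' : θ b * y b = 0 := hb
      simp only [ha', hb', edist_self, zero_le]
  · have hm : MeasurableSet (Eᶜ : Set ℂ) := hE.isOpen_compl.measurableSet
    have h1 : IntegrableOn (en fun z => θ z * y z) (Eᶜ ∩ closedBall 0 R) := by
      have hθe : IntegrableOn (en θ) (Eᶜ ∩ closedBall 0 R) := by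
        have hd : Continuous (en θ) := by
          have h2 : Continuous (fderiv ℝ θ) := hθ.continuous_fderiv (by simp)
          exact ((h2.clm_apply continuous_const).pow 2).add ((h2.clm_apply continuous_const).pow 2)
        exact (hd.continuousOn.integrableOn_compact (isCompact_closedBall (0:ℂ) R)).mono_set
          inter_subset_right
      refine Integrable.mono' (((hθe.const_mul (2 * M ^ 2))).add ((hy.fin R).const_mul (2 * M ^ 2)))
        (measurable_en _).aestronglyMeasurable ?_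
      rw [ae_restrict_iff' (hm.inter isClosed_closedBall.measurableSet)]
      filter_upwards [(ae_restrict_iff' hm).1 (ae_diff hE.isOpen_compl hy.loc)] with z hz hzm
      rw [Real.norm_eq_abs, abs_of_nonneg (en_nonneg _ _)]
      by_cases hzt : z ∈ tsupport θ
      · exact en_mul_le (hθ.differentiable (by simp)).differentiableAt (hz hzm.1) (b1 z) (b2 z hzt)
      · have h5 : (fun w => θ w * y w) =ᶠ[𝓝 z] fun _ => (0:ℝ) := by
          filter_upwards [notMem_tsupport_iff_eventuallyEq.1 hzt] with w hw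
          rw [hw]; simp
        rw [en_eq_of_eventuallyEq h5, en_const]
        have := en_nonneg θ z; have := en_nonneg y z
        simp only [Pi.add_apply]
        positivity
    refine h1.of_forall_sdiff_eq_zero hm ?_
    rintro z ⟨hz, hz'⟩
    have hzt : z ∉ tsupport θ := fun h => hz' ⟨hz, ball_subset_closedBall (hR h)⟩
    have h5 : (fun w => θ w * y w) =ᶠ[𝓝 z] fun _ => (0:ℝ) := by
      filter_upwards [notMem_tsupport_iff_eventuallyEq.1 hzt] with w hw
      rw [hw]; simp
    rw [en_eq_of_eventuallyEq h5, en_const]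

theorem q_smooth (hE : IsClosed E) {θ : ℂ → ℝ} (hθ : ContDiff ℝ ∞ θ)
    (hθc : HasCompactSupport θ) : Q E θ := by
  obtain ⟨M1, hM1⟩ := hθc.exists_bound_of_continuous hθ.continuous
  refine ⟨⟨M1, hM1⟩, ((hθ.of_le (by simp : (1 : WithTop ℕ∞) ≤ ((⊤ : ℕ∞) : WithTop ℕ∞))).locallyLipschitz).locallyLipschitzOn, ?_⟩
  have h2 : Continuous (fderiv ℝ θ) := hθ.continuous_fderiv (by simp)
  have hd : Continuous (en θ) :=
    ((h2.clm_apply continuous_const).pow 2).add ((h2.clm_apply continuous_const).pow 2)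
  refine (hd.integrable_of_hasCompactSupport ((hθc.fderiv (𝕜 := ℝ)).mono ?_)).integrableOn
  intro z hz hz0
  apply hz
  have h3 : fderiv ℝ θ z = 0 := hz0
  simp [en, gx, gy, h3]

/-- **Stokes** for the test function `G(re) χ` -/
theorem stokes (hE : IsCompact E) (hχ : LCE E χ) (hy : YD E y) {G : ℝ → ℝ}
    (hG : ContDiff ℝ ∞ G) (hG' : HasCompactSupport (deriv G)) :
    ∫ w in Eᶜ, wdg (fun w => G w.re * χ w) y w = ∫ w, deriv G w.re * SY E χ y w := by
  have hEc := hE.isClosed
  have hm : MeasurableSet (Eᶜ : Set ℂ) := hEc.isOpen_compl.measurableSet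
  obtain ⟨R, hR0, hR⟩ := exists_ball hχ.supp
  let θ : ContDiffBump (0 : ℂ) := ⟨R + 1, R + 2, by linarith, by linarith⟩
  have hθ1 : ∀ z ∈ tsupport χ, ∀ᶠ w in 𝓝 z, θ w = 1 := by
    intro z hz
    have h1 : ball (0:ℂ) R ∈ 𝓝 z := isOpen_ball.mem_nhds (hR hz)
    filter_upwards [h1] with w hw
    refine θ.one_of_mem_closedBall ?_
    exact ball_subset_closedBall (ball_subset_ball (show R ≤ R + 1 by linarith) hw)
  have hre : ContDiff ℝ ∞ (fun w : ℂ => G w.re) := hG.comp Complex.reCLM.contDiff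
  set u1 : ℂ → ℝ := fun w => θ w * G w.re with hu1
  set u2 : ℂ → ℝ := fun w => θ w * y w with hu2
  have q1 : Q E u1 := q_smooth hEc (θ.contDiff.mul hre) θ.hasCompactSupport.mul_right
  have q2 : Q E u2 := q_trunc hEc hy θ.contDiff θ.hasCompactSupport
  have q : Q E (fun w => u1 w * u2 w) := Q.mul hEc q1 q2
  have hLC : LC E χ := Pct_185.LCE.LC hχ
  have h0 : om E χ (fun w => u1 w * u2 w) = 0 := Stk_939.om_lc hE hLC q
  have hSY := integrable_SY hEc hχ hy
  obtain ⟨C, hC⟩ := hG'.exists_bound_of_continuous (hG.continuous_deriv (by simp))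
  have hGc : Continuous fun w : ℂ => deriv G w.re :=
    (hG.continuous_deriv (by simp)).comp Complex.continuous_re
  have i1 : Integrable fun w : ℂ => deriv G w.re * SY E χ y w :=
    hSY.bdd_mul (c := C) hGc.aestronglyMeasurable (Eventually.of_forall fun z => hC z.re)
  have i2 : IntegrableOn (wdg χ fun w => u1 w * u2 w) Eᶜ :=
    Stk_939.integrableOn_wdg' hLC.fin.integrableOn q.fin
  have key : ∀ᵐ w ∂(volume.restrict Eᶜ), wdg (fun w => G w.re * χ w) y w
      = deriv G w.re * SY E χ y w + wdg χ (fun w => u1 w * u2 w) w := by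
    rw [ae_restrict_iff' hm]
    filter_upwards [(ae_restrict_iff' hm).1 (ae_diff hEc.isOpen_compl hy.loc)] with z hz hzE
    have dy := hz hzE
    have dχ : DifferentiableAt ℝ χ z := (hχ.smooth.differentiable (by simp)).differentiableAt
    have dG : DifferentiableAt ℝ (fun w : ℂ => G w.re) z :=
      (hre.differentiable (by simp)).differentiableAt
    have fG : HasFDerivAt (fun w : ℂ => G w.re) (deriv G z.re • Complex.reCLM) z :=
      ((hG.differentiable (by simp)).differentiableAt (x := z.re)).hasDerivAt.comp_hasFDerivAt z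
        Complex.reCLM.hasFDerivAt
    have gG1 : gx (fun w : ℂ => G w.re) z = deriv G z.re := by
      unfold gx; rw [fG.fderiv]; simp
    have gG2 : gy (fun w : ℂ => G w.re) z = 0 := by
      unfold gy; rw [fG.fderiv]; simp
    have hSYz : SY E χ y z = χ z * gy y z + gy χ z * y z := by
      unfold SY; rw [indicator_of_mem hzE]
    rw [hSYz]
    by_cases hzt : z ∈ tsupport χ
    · have hu : (fun w => u1 w * u2 w) =ᶠ[𝓝 z] fun w => G w.re * y w := by
        filter_upwards [hθ1 z hzt] with w hw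
        simp only [hu1, hu2, hw]; ring
      unfold wdg
      rw [gx_eq_of_eventuallyEq hu, gy_eq_of_eventuallyEq hu, gx_mul dG dχ, gy_mul dG dχ,
        gx_mul dG dy, gy_mul dG dy, gG1, gG2]
      ring
    · have hχ0 : χ =ᶠ[𝓝 z] fun _ => (0:ℝ) := notMem_tsupport_iff_eventuallyEq.1 hzt
      have e1 : (fun w => G w.re * χ w) =ᶠ[𝓝 z] fun _ => (0:ℝ) := by
        filter_upwards [hχ0] with w hw
        rw [hw, mul_zero]
      unfold wdg
      rw [gx_eq_of_eventuallyEq e1, gy_eq_of_eventuallyEq e1, gx_eq_of_eventuallyEq hχ0,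
        gy_eq_of_eventuallyEq hχ0, gx_const, gy_const, hχ0.self_of_nhds]
      ring
  rw [integral_congr_ae key, integral_add i1.integrableOn i2]
  have h1 : ∫ w in Eᶜ, wdg χ (fun w => u1 w * u2 w) w = 0 := h0
  rw [h1, add_zero]
  refine setIntegral_eq_integral_of_forall_compl_eq_zero fun z hz => ?_
  have hzE : z ∈ E := not_not.1 hz
  unfold SY
  rw [indicator_of_notMem hz, (gy_zero_near hχ.lc hzE).self_of_nhds]
  ring

/-! ### Fubini -/

theorem fub {S : ℂ → ℝ} (hS : Integrable S) :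
    (∀ᵐ t : ℝ, Integrable fun v : ℝ => S ⟨t, v⟩) ∧ (Integrable fun t : ℝ => ∫ v : ℝ, S ⟨t, v⟩) ∧
      ∫ z, S z = ∫ t : ℝ, ∫ v : ℝ, S ⟨t, v⟩ := by
  have mp := Complex.volume_preserving_equiv_real_prod.symm
  have h1 : Integrable (fun p : ℝ × ℝ => S ⟨p.1, p.2⟩) ((volume : Measure ℝ).prod volume) := by
    have := mp.integrable_comp_of_integrable hS
    exact this
  refine ⟨h1.prod_right_ae, h1.integral_prod_left, ?_⟩
  rw [← integral_prod _ h1]
  have := mp.integral_comp' S
  rw [← this]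
  rfl

theorem fub_re {S : ℂ → ℝ} (hS : Integrable S) {g : ℝ → ℝ} (hg : Continuous g) {C : ℝ}
    (hC : ∀ t, ‖g t‖ ≤ C) : ∫ z, g z.re * S z = ∫ t : ℝ, g t * ∫ v : ℝ, S ⟨t, v⟩ := by
  have h1 : Integrable fun z : ℂ => g z.re * S z :=
    hS.bdd_mul (c := C) (hg.comp Complex.continuous_re).aestronglyMeasurable
      (Eventually.of_forall fun z => hC z.re)
  rw [(fub h1).2.2]
  congr 1
  ext t
  simp only
  rw [integral_const_mul]

end

end Crest.Agent.R105.Yv_319
end

-- ▼ part R105/Yv3_319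
section

/-!
# R105 (S0138, NI frame): LEMMA Y on vertical lines, part 3 (helper319)

`E` = complement of the picture `P(U)` of an extremal anchor, `y` the (pushed) conjugate of the
final minimiser, `s K` = oscillation of the final minimiser: for a.e. `t` and all `c ≤ d` off `E`
on the line `re = t`: `|y(t,d) - y(t,c) - ∫_c^d ∂_y y| ≤ Σ_{K crossed} s K`.
-/

set_option autoImplicit false

open Set Filter MeasureTheory Metric
open scoped Topology NNReal ContDiff ENNReal

namespace Crest.Agent.R105.Yv_319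

open Tc_808 Bd_775 Sqr_185
open Sct_636 (LCE)
open Pct_185 (Sol pt pt_mem)

noncomputable section

variable {E : Set ℂ} {y χ : ℂ → ℝ}

/-! ### series of nonnegative functions -/

theorem tsum_facts {ι : Type*} [Countable ι] {F : ι → ℝ → ℝ} (h0 : ∀ i t, 0 ≤ F i t)
    (hi : ∀ i, Integrable (F i)) (hs : Summable fun i => ∫ t, F i t) :
    Integrable (fun t => ∑' i, F i t) ∧ (∀ᵐ t, Summable fun i => F i t) ∧
      ∫ t, ∑' i, F i t = ∑' i, ∫ t, F i t := by
  have hm : ∀ i, AEMeasurable (fun t => ENNReal.ofReal (F i t)) :=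
    fun i => (hi i).aestronglyMeasurable.aemeasurable.ennreal_ofReal
  have h1 : ∫⁻ t, ∑' i, ENNReal.ofReal (F i t) ≠ ⊤ := by
    rw [lintegral_tsum hm]
    have h2 : ∀ i, ∫⁻ t, ENNReal.ofReal (F i t) = ENNReal.ofReal (∫ t, F i t) := fun i =>
      (ofReal_integral_eq_lintegral_ofReal (hi i) (Eventually.of_forall (h0 i))).symm
    rw [tsum_congr h2]
    exact hs.tsum_ofReal_ne_top
  have hmt : AEMeasurable (fun t => ∑' i, ENNReal.ofReal (F i t)) := AEMeasurable.tsum hm
  have h3 : ∀ t, (∑' i, ENNReal.ofReal (F i t)).toReal = ∑' i, F i t := by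
    intro t
    rw [ENNReal.tsum_toReal_eq fun i => ENNReal.ofReal_ne_top]
    exact tsum_congr fun i => ENNReal.toReal_ofReal (h0 i t)
  refine ⟨?_, ?_, ?_⟩
  · have h4 := integrable_toReal_of_lintegral_ne_top hmt h1
    exact h4.congr (Eventually.of_forall h3)
  · filter_upwards [ae_lt_top' hmt h1] with t ht
    have h5 := ENNReal.summable_toReal ht.ne
    exact h5.congr fun i => ENNReal.toReal_ofReal (h0 i t)
  · refine (integral_tsum_of_summable_integral_norm hi ?_).symm
    refine hs.congr fun i => ?_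
    congr 1
    ext t
    rw [Real.norm_of_nonneg (h0 i t)]

/-! ### one cut-off -/

theorem wd_nonneg (hE : IsCompact E) (L : Cmp E) : 0 ≤ wd L.1 := by
  have := lo_le_hi (L.isCompact hE) L.nonempty
  simp only [wd]; linarith

/-- the weight on the line -/
def wt (s : Cmp E → ℝ) (χ : ℂ → ℝ) (L : Sol E) (t : ℝ) : ℝ :=
  (Icc (lo L.1.1) (hi L.1.1)).indicator (fun _ => s L.1 * χ (pt L.1)) t

theorem wt_nonneg {s : Cmp E → ℝ} (hs0 : ∀ L, 0 ≤ s L) (hχ01 : ∀ z, χ z ∈ Icc (0:ℝ) 1) (L : Sol E)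
    (t : ℝ) : 0 ≤ wt s χ L t :=
  indicator_nonneg (fun _ _ => mul_nonneg (hs0 _) (hχ01 _).1) t

theorem integrable_wt {s : Cmp E → ℝ} (L : Sol E) : Integrable (wt s χ L) :=
  (integrable_indicator_iff measurableSet_Icc).2
    (integrableOn_const (by simp : volume (Icc (lo L.1.1) (hi L.1.1)) ≠ ⊤))

theorem integral_wt (hE : IsCompact E) {s : Cmp E → ℝ} (L : Sol E) {g : ℝ → ℝ} :
    ∫ t, g t * wt s χ L t = (s L.1 * χ (pt L.1)) * ∫ t in (lo L.1.1)..(hi L.1.1), g t := by
  have h1 : (fun t => g t * wt s χ L t)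
      = (Icc (lo L.1.1) (hi L.1.1)).indicator fun t => (s L.1 * χ (pt L.1)) * g t := by
    ext t
    by_cases ht : t ∈ Icc (lo L.1.1) (hi L.1.1)
    · simp only [wt, indicator_of_mem ht]; ring
    · simp only [wt, indicator_of_notMem ht, mul_zero]
  rw [h1, integral_indicator measurableSet_Icc, integral_Icc_eq_integral_Ioc,
    ← intervalIntegral.integral_of_le (lo_le_hi (L.1.isCompact hE) L.1.nonempty),
    intervalIntegral.integral_const_mul]

theorem summable_swd (hE : IsCompact E) (hsum : Summable fun L : Cmp E => wd L.1 ^ 2)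
    {s : Cmp E → ℝ} (hs0 : ∀ L, 0 ≤ s L) (hs : Summable fun L => s L ^ 2) :
    Summable fun L : Cmp E => s L * wd L.1 := by
  refine Summable.of_nonneg_of_le (fun L => mul_nonneg (hs0 L) (wd_nonneg hE L)) (fun L => ?_)
    (hs.add hsum)
  nlinarith [sq_nonneg (s L - wd L.1), mul_nonneg (hs0 L) (wd_nonneg hE L)]

/-- the weights with `χ ≤ 1` are summable in `L¹` -/
theorem wt_facts (hE : IsCompact E) (hsum : Summable fun L : Cmp E => wd L.1 ^ 2)
    {s : Cmp E → ℝ} (hs0 : ∀ L, 0 ≤ s L) (hs : Summable fun L => s L ^ 2)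
    (hχ01 : ∀ z, χ z ∈ Icc (0:ℝ) 1) {g : ℝ → ℝ} (hg : Continuous g) (hg0 : ∀ t, 0 ≤ g t) {C : ℝ}
    (hC : ∀ t, g t ≤ C) :
    Integrable (fun t => ∑' L : Sol E, g t * wt s χ L t) ∧
      (∀ᵐ t, Summable fun L : Sol E => g t * wt s χ L t) ∧
      ∫ t, ∑' L : Sol E, g t * wt s χ L t
        = ∑' L : Sol E, (s L.1 * χ (pt L.1)) * ∫ t in (lo L.1.1)..(hi L.1.1), g t := by
  have : Countable (Sol E) := Pct_185.countable_sol hsum
  have hC0 : 0 ≤ C := (hg0 0).trans (hC 0)
  have hint : ∀ L : Sol E, Integrable fun t => g t * wt s χ L t := fun L =>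
    (integrable_wt L).bdd_mul (c := C) hg.aestronglyMeasurable
      (Eventually.of_forall fun t => by rw [Real.norm_of_nonneg (hg0 t)]; exact hC t)
  have h0 : ∀ (L : Sol E) t, 0 ≤ g t * wt s χ L t := fun L t =>
    mul_nonneg (hg0 t) (wt_nonneg hs0 hχ01 L t)
  have hI : ∀ L : Sol E, ∫ t, g t * wt s χ L t
      = (s L.1 * χ (pt L.1)) * ∫ t in (lo L.1.1)..(hi L.1.1), g t := fun L => integral_wt hE L
  have hS : Summable fun L : Sol E => ∫ t, g t * wt s χ L t := by
    have h1 : Summable fun L : Sol E => C * (s L.1 * wd L.1.1) :=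
      ((summable_swd hE hsum hs0 hs).comp_injective Subtype.val_injective).mul_left C
    refine Summable.of_nonneg_of_le (fun L => integral_nonneg (h0 L)) (fun L => ?_) h1
    rw [hI L]
    have hle := lo_le_hi (L.1.isCompact hE) L.1.nonempty
    have h2 : ∫ t in (lo L.1.1)..(hi L.1.1), g t ≤ C * wd L.1.1 := by
      have h3 := intervalIntegral.integral_mono_on (μ := volume) hle
        (hg.intervalIntegrable _ _) (continuous_const.intervalIntegrable _ _)
        (g := fun _ => C) (fun t _ => hC t)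
      rw [intervalIntegral.integral_const, smul_eq_mul] at h3
      simp only [wd]; linarith [mul_comm C (hi L.1.1 - lo L.1.1)]
    have h3 : 0 ≤ ∫ t in (lo L.1.1)..(hi L.1.1), g t :=
      intervalIntegral.integral_nonneg hle fun t _ => hg0 t
    have h4 := (hχ01 (pt L.1))
    calc (s L.1 * χ (pt L.1)) * ∫ t in (lo L.1.1)..(hi L.1.1), g t
        ≤ (s L.1 * 1) * (C * wd L.1.1) := by
          refine mul_le_mul (mul_le_mul_of_nonneg_left h4.2 (hs0 _)) h2 h3 ?_
          exact mul_nonneg (hs0 _) zero_le_one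
      _ = C * (s L.1 * wd L.1.1) := by ring
  obtain ⟨a, b, c⟩ := tsum_facts h0 hint hS
  exact ⟨a, b, c.trans (tsum_congr hI)⟩

/-- the E-L hypothesis of Lemma Y -/
def ELY (E : Set ℂ) (s : Cmp E → ℝ) (y : ℂ → ℝ) : Prop :=
  ∀ (G : ℝ → ℝ) (χ : ℂ → ℝ), ContDiff ℝ ∞ G → HasCompactSupport (deriv G) →
    (∀ t, 0 ≤ deriv G t) → LCE E χ → (∀ z, χ z ∈ Icc (0:ℝ) 1) →
    |∫ w in Eᶜ, wdg (fun w => G w.re * χ w) y w| ≤
      ∑' L : Cmp E, s L * osc E (fun w => G w.re * χ w) L.1

/-- the bound on a.e. line, for one cut-off -/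
theorem slice_bound (hE : IsCompact E) (hsum : Summable fun L : Cmp E => wd L.1 ^ 2)
    {s : Cmp E → ℝ} (hs0 : ∀ L, 0 ≤ s L) (hs : Summable fun L => s L ^ 2) (hy : YD E y)
    (hEL : ELY E s y) (hχ : LCE E χ) (hχ01 : ∀ z, χ z ∈ Icc (0:ℝ) 1) :
    ∀ᵐ t : ℝ, |∫ v : ℝ, SY E χ y ⟨t, v⟩| ≤ ∑' L : Sol E, wt s χ L t := by
  have hSY := integrable_SY hE.isClosed hχ hy
  have hB := wt_facts hE hsum hs0 hs hχ01 (g := fun _ => 1) continuous_const
    (fun _ => zero_le_one) (C := 1) (fun _ => le_rfl)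
  simp only [one_mul] at hB
  refine ae_abs_le (fub hSY).2.1 hB.1 fun g hg hgc hg0 => ?_
  obtain ⟨C, hC⟩ := hgc.exists_bound_of_continuous hg.continuous
  have hC' : ∀ t, g t ≤ C := fun t => (le_abs_self _).trans (hC t)
  set G : ℝ → ℝ := fun x => ∫ t in (0 : ℝ)..x, g t with hG
  obtain ⟨hG1, hG2⟩ := Sct_636.prim_smooth hg
  have hG2' : deriv G = g := hG2
  have hel := hEL G χ hG1 (by rw [hG2']; exact hgc) (fun t => by rw [hG2']; exact hg0 t) hχ hχ01
  rw [stokes hE hχ hy hG1 (by rw [hG2']; exact hgc), hG2',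
    fub_re hSY hg.continuous hC] at hel
  refine hel.trans ?_
  have hmono : Monotone G := by
    refine monotone_of_deriv_nonneg (hG1.differentiable (by simp)) fun t => ?_
    rw [hG2']; exact hg0 t
  -- the oscillations
  have hosc : ∀ L : Cmp E, osc E (fun w => G w.re * χ w) L.1
      = χ (pt L) * (G (hi L.1) - G (lo L.1)) := by
    intro L
    have hconst : ∀ p ∈ L.1, ∀ᶠ w in 𝓝 p, χ w = χ (pt L) := by
      intro p hp
      obtain ⟨c, O, hO, hLO, hc⟩ := Tc_808.LC.const_near (Pct_185.LCE.LC hχ) L.preconn L.subset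
      have h1 : χ (pt L) = c := hc _ (hLO (pt_mem L))
      filter_upwards [hO.mem_nhds (hLO hp)] with w hw
      rw [h1, hc w hw]
    rw [osc_mono_re hE L (h := fun t => χ (pt L) * G t)
      (hmono.const_mul (hχ01 _).1) (continuous_const.mul hG1.continuous)]
    · ring
    · intro p hp
      filter_upwards [hconst p hp] with w hw
      rw [hw]; ring
  have h1 : ∑' L : Cmp E, s L * osc E (fun w => G w.re * χ w) L.1
      = ∑' L : Sol E, (s L.1 * χ (pt L.1)) * ∫ t in (lo L.1.1)..(hi L.1.1), g t := by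
    have h2 : (fun L : Cmp E => s L * osc E (fun w => G w.re * χ w) L.1).support
        ⊆ {L : Cmp E | 0 < wd L.1} := by
      intro L hL
      rcases (wd_nonneg hE L).lt_or_eq with h | h
      · exact h
      · exfalso
        apply hL
        simp only
        have h3 : hi L.1 = lo L.1 := by simp only [wd] at h; linarith
        rw [hosc L, h3]; ring
    rw [← tsum_subtype_eq_of_support_subset h2]
    refine tsum_congr fun L => ?_
    rw [hosc, mul_assoc]
    congr 2
    simp only [hG]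
    rw [intervalIntegral.integral_interval_sub_left (hg.continuous.intervalIntegrable _ _)
      (hg.continuous.intervalIntegrable _ _)]
  rw [h1, ← (wt_facts hE hsum hs0 hs hχ01 hg.continuous hg0 hC').2.2]
  refine le_of_eq ?_
  congr 1
  ext t
  rw [tsum_mul_left]

end

end Crest.Agent.R105.Yv_319
end

-- ▼ part R105/Yv4_319

/-!
# R105 (S0138, NI frame): LEMMA Y on vertical lines, part 4: the theorem (helper319)
-/

set_option autoImplicit false

open Set Filter MeasureTheory Metric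
open scoped Topology NNReal ContDiff ENNReal

namespace Crest.Agent.R105.Yv_319

open Tc_808 Bd_775 Sqr_185
open Sct_636 (LCE continuous_mk)
open Pct_185 (Sol pt pt_mem)

noncomputable section

variable {E : Set ℂ} {y χ : ℂ → ℝ}

/-! ### clopen parts of `E` -/

theorem mem_cc {q q' : E} (h : q' ∈ connectedComponent q) :
    (q' : ℂ) ∈ connectedComponentIn E q := by
  rw [connectedComponentIn_eq_image q.2]
  exact ⟨q', h, rfl⟩

/-- separation of the points of a vertical line -/
theorem sep_line (hE : IsCompact E) (hord : ∀ L : Cmp E, ∀ t, OrdConnected (sec L.1 t)) {t c d : ℝ}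
    (h1 : (⟨t, c⟩ : ℂ) ∉ E) (h2 : (⟨t, d⟩ : ℂ) ∉ E) :
    ∃ S : Set E, IsClopen S ∧ (∀ q : E, q.1.re = t → q.1.im ∈ Icc c d → q ∈ S) ∧
      ∀ q : E, q.1.re = t → q.1.im ∉ Icc c d → q ∉ S := by
  have : CompactSpace E := isCompact_iff_compactSpace.1 hE
  set Z1 : Set E := {q | q.1.re = t ∧ q.1.im ∈ Icc c d} with hZ1
  set Z2 : Set E := {q | q.1.re = t ∧ q.1.im ∉ Ioo c d} with hZ2
  have cx : Continuous (fun q : E => q.1.re) := Complex.continuous_re.comp continuous_subtype_val
  have cy : Continuous (fun q : E => q.1.im) := Complex.continuous_im.comp continuous_subtype_val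
  have c1 : IsClosed Z1 := (isClosed_eq cx continuous_const).inter (isClosed_Icc.preimage cy)
  have c2 : IsClosed Z2 :=
    (isClosed_eq cx continuous_const).inter ((isOpen_Ioo.isClosed_compl).preimage cy)
  obtain ⟨S, hS, hS1, hS2⟩ := Pv_937.exists_clopen_sep c1 c2 (by
    rintro q ⟨hqx, hqy⟩ q' ⟨hqx', hqy'⟩ hm
    have hm' := mem_cc hm
    have hoc := hord (Cmp.of q.2) t
    have e1 : ∀ {r : ℂ}, r.re = t → (⟨t, r.im⟩ : ℂ) = r := fun h => Complex.ext h.symm rfl
    have m1 : q.1.im ∈ sec (Cmp.of q.2).1 t := by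
      rw [mem_sec, e1 hqx]
      exact mem_connectedComponentIn q.2
    have m2 : q'.1.im ∈ sec (Cmp.of q.2).1 t := by
      rw [mem_sec, e1 hqx']
      exact hm'
    have key : ∀ v, v ∈ uIcc q.1.im q'.1.im → (⟨t, v⟩ : ℂ) ∈ E := by
      intro v hv
      exact connectedComponentIn_subset _ _ (hoc.uIcc_subset m1 m2 hv)
    rw [mem_Ioo, not_and_or, not_lt, not_lt] at hqy'
    rcases hqy' with h5 | h5
    · exact h1 (key c (mem_uIcc.2 (Or.inr ⟨h5, hqy.1⟩)))
    · exact h2 (key d (mem_uIcc.2 (Or.inl ⟨hqy.2, h5⟩))))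
  exact ⟨S, hS, fun q hq hq' => hS1 ⟨hq, hq'⟩,
    fun q hq hq' => hS2 q ⟨hq, fun h => hq' (Ioo_subset_Icc_self h)⟩⟩

/-- cut-off of a clopen part -/
theorem exists_cutS (hE : IsCompact E) {S : Set E} (hS : IsClopen S) :
    ∃ χ : ℂ → ℝ, LCE E χ ∧ (∀ w, χ w ∈ Icc (0 : ℝ) 1) ∧ (∀ q : E, q ∈ S → χ q = 1) ∧
      ∀ q : E, q ∉ S → χ q = 0 := by
  have : CompactSpace E := isCompact_iff_compactSpace.1 hE
  have k1 : IsCompact (Subtype.val '' (S : Set E)) :=
    (hS.isClosed.isCompact).image continuous_subtype_val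
  have k2 : IsCompact (Subtype.val '' (S : Set E)ᶜ) :=
    (hS.compl.isClosed.isCompact).image continuous_subtype_val
  have hd : Disjoint (Subtype.val '' (S : Set E)) (Subtype.val '' (S : Set E)ᶜ) := by
    rw [disjoint_left]
    rintro _ ⟨z, hz, rfl⟩ ⟨z', hz', he⟩
    rw [Subtype.ext he] at hz'
    exact hz' hz
  obtain ⟨δ, hδ, hdis⟩ := hd.exists_cthickenings k1 k2.isClosed
  obtain ⟨f, hf1, hf0, hf01⟩ := exists_contMDiffMap_one_nhds_of_subset_interior
    (I := modelWithCornersSelf ℝ ℂ) (n := ⊤) (M := ℂ) (s := Subtype.val '' (S : Set E))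
    (t := Metric.cthickening δ (Subtype.val '' (S : Set E)))
    k1.isClosed ((Metric.self_subset_thickening hδ _).trans
      (interior_maximal (Metric.thickening_subset_cthickening _ _) Metric.isOpen_thickening))
  have e1 : ∀ q : E, q ∈ S → ∀ᶠ w in 𝓝 (q : ℂ), f w = 1 := fun q hq =>
    eventually_nhdsSet_iff_forall.1 hf1 q ⟨q, hq, rfl⟩
  have e0 : ∀ q : E, q ∉ S → ∀ᶠ w in 𝓝 (q : ℂ), f w = 0 := by
    intro q hq
    have h3 : Metric.thickening δ (Subtype.val '' (S : Set E)ᶜ) ∈ 𝓝 (q : ℂ) :=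
      Metric.isOpen_thickening.mem_nhds (Metric.self_subset_thickening hδ _ ⟨q, hq, rfl⟩)
    filter_upwards [h3] with x hx
    exact hf0 x fun hx' =>
      disjoint_left.1 hdis hx' (Metric.thickening_subset_cthickening _ _ hx)
  refine ⟨f, ⟨f.contMDiff.contDiff, HasCompactSupport.intro (k1.cthickening (r := δ)) hf0, ?_⟩,
    hf01, fun q hq => (e1 q hq).self_of_nhds, fun q hq => (e0 q hq).self_of_nhds⟩
  intro z hz
  by_cases hs : (⟨z, hz⟩ : E) ∈ S
  · have h5 := e1 ⟨z, hz⟩ hs
    filter_upwards [h5] with w hw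
    rw [hw, h5.self_of_nhds]
  · have h5 := e0 ⟨z, hz⟩ hs
    filter_upwards [h5] with w hw
    rw [hw, h5.self_of_nhds]

/-! ### vertical lines -/

theorem hasDerivAt_mk (t v : ℝ) : HasDerivAt (fun v : ℝ => (⟨t, v⟩ : ℂ)) Complex.I v := by
  have h : (fun v : ℝ => (⟨t, v⟩ : ℂ)) = fun v : ℝ => (t : ℂ) + (v : ℂ) * Complex.I := by
    funext s; apply Complex.ext <;> simp
  rw [h]
  have h1 := (Complex.ofRealCLM.hasDerivAt (x := v)).mul_const Complex.I
  simpa using h1.const_add (t : ℂ)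

theorem hasDerivAt_line {u : ℂ → ℝ} {t v : ℝ} (h : DifferentiableAt ℝ u ⟨t, v⟩) :
    HasDerivAt (fun v : ℝ => u ⟨t, v⟩) (gy u ⟨t, v⟩) v :=
  h.hasFDerivAt.comp_hasDerivAt v (hasDerivAt_mk t v)

theorem lipschitz_mk (t : ℝ) : LipschitzWith 1 (fun v : ℝ => (⟨t, v⟩ : ℂ)) := by
  refine LipschitzWith.of_dist_le_mul fun a b => ?_
  rw [NNReal.coe_one, one_mul, Complex.dist_eq_re_im]
  simp only [sub_self]
  rw [Real.dist_eq, zero_pow two_ne_zero, zero_add, Real.sqrt_sq_eq_abs]

theorem abs_le_norm_mk (t v : ℝ) : |v| ≤ ‖(⟨t, v⟩ : ℂ)‖ := Complex.abs_im_le_norm (⟨t, v⟩ : ℂ)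

theorem norm_mk_le (t v : ℝ) : ‖(⟨t, v⟩ : ℂ)‖ ≤ |t| + |v| :=
  Complex.norm_le_abs_re_add_abs_im (⟨t, v⟩ : ℂ)

/-- crossing weight -/
def cross (s : Cmp E → ℝ) (t c d : ℝ) (L : Sol E) : ℝ :=
  open Classical in
  if t ∈ Icc (lo L.1.1) (hi L.1.1) ∧ (sec L.1.1 t ∩ Icc c d).Nonempty then s L.1 else 0

/-- **LEMMA Y** on the vertical lines of the picture of an extremal anchor -/
theorem lemmaY (hE : IsCompact E) (hord : ∀ L : Cmp E, ∀ t, OrdConnected (sec L.1 t))
    (hsum : Summable fun L : Cmp E => wd L.1 ^ 2)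
    {s : Cmp E → ℝ} (hs0 : ∀ L, 0 ≤ s L) (hs : Summable fun L => s L ^ 2) (hy : YD E y)
    (hEL : ELY E s y) :
    ∀ᵐ t : ℝ, (Summable fun L : Sol E =>
        (Icc (lo L.1.1) (hi L.1.1)).indicator (fun _ => s L.1) t) ∧
      ∀ c d : ℝ, c ≤ d → (⟨t, c⟩ : ℂ) ∉ E → (⟨t, d⟩ : ℂ) ∉ E →
        IntervalIntegrable (fun v => Eᶜ.indicator (gy y) ⟨t, v⟩) volume c d ∧
        |y ⟨t, d⟩ - y ⟨t, c⟩ - ∫ v in c..d, Eᶜ.indicator (gy y) ⟨t, v⟩|
          ≤ ∑' L : Sol E, cross s t c d L := by
  have hEcl : IsClosed E := hE.isClosed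
  have hm : MeasurableSet (Eᶜ : Set ℂ) := hEcl.isOpen_compl.measurableSet
  have : CompactSpace E := isCompact_iff_compactSpace.1 hE
  have : Countable (TopologicalSpace.Clopens E) := Pv_937.countable_clopens E
  choose X hX hX01 hX1 hX0 using fun S : TopologicalSpace.Clopens E => exists_cutS hE S.isClopen
  -- (a)
  have a0 : ∀ n : ℕ, ∀ᵐ t : ℝ, Integrable fun v : ℝ =>
      (Eᶜ ∩ closedBall (0:ℂ) n).indicator (gy y) ⟨t, v⟩ := by
    intro n
    have h1 : Integrable ((Eᶜ ∩ closedBall (0:ℂ) n).indicator (gy y)) := by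
      rw [integrable_indicator_iff (hm.inter isClosed_closedBall.measurableSet)]
      exact integrableOn_gy' hy n
    exact (fub h1).1
  have a1 := ae_all_iff.2 a0
  -- (b)
  have b1 : ∀ᵐ t : ℝ, ∀ᵐ v : ℝ, (⟨t, v⟩ : ℂ) ∈ Eᶜ → DifferentiableAt ℝ y ⟨t, v⟩ := by
    have h1 := (ae_restrict_iff' hm).1 (ae_diff hEcl.isOpen_compl hy.loc)
    have mp := Complex.volume_preserving_equiv_real_prod.symm
    have h2 : ∀ᵐ p : ℝ × ℝ, (⟨p.1, p.2⟩ : ℂ) ∈ Eᶜ → DifferentiableAt ℝ y ⟨p.1, p.2⟩ :=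
      mp.quasiMeasurePreserving.ae h1
    rw [Measure.volume_eq_prod] at h2
    exact Measure.ae_ae_of_ae_prod h2
  -- (c)
  have c1 : ∀ᵐ t : ℝ, ∀ i, |∫ v : ℝ, SY E (X i) y ⟨t, v⟩| ≤ ∑' L : Sol E, wt s (X i) L t :=
    ae_all_iff.2 fun i => slice_bound hE hsum hs0 hs hy hEL (hX i) (hX01 i)
  -- (d)
  have d1 : ∀ᵐ t : ℝ, ∀ i, Integrable fun v : ℝ => SY E (X i) y ⟨t, v⟩ :=
    ae_all_iff.2 fun i => (fub (integrable_SY hEcl (hX i) hy)).1
  -- (e)
  have e1 : ∀ᵐ t : ℝ, Summable fun L : Sol E => wt s (fun _ => 1) L t := by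
    have := (wt_facts hE hsum hs0 hs (χ := fun _ => 1) (fun _ => ⟨zero_le_one, le_rfl⟩)
      (g := fun _ => 1) continuous_const (fun _ => zero_le_one) (C := 1) (fun _ => le_rfl)).2.1
    simpa only [one_mul] using this
  filter_upwards [a1, b1, c1, d1, e1] with t ha hb hc hd he
  have he' : Summable fun L : Sol E =>
      (Icc (lo L.1.1) (hi L.1.1)).indicator (fun _ => s L.1) t := by
    simpa only [wt, mul_one] using he
  refine ⟨he', fun c d hcd hcE hdE => ?_⟩
  set K : Set ℝ := {v | (⟨t, v⟩ : ℂ) ∈ E} with hK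
  have hvc : Continuous (fun v : ℝ => (⟨t, v⟩ : ℂ)) := continuous_mk t
  have hKcl : IsClosed K := hEcl.preimage hvc
  have hα : LocallyLipschitzOn Kᶜ (fun v => y ⟨t, v⟩) := by
    intro v hv
    obtain ⟨L, u, hu, hL⟩ := hy.loc (show (⟨t, v⟩ : ℂ) ∈ Eᶜ from hv)
    rw [hEcl.isOpen_compl.nhdsWithin_eq (show (⟨t, v⟩ : ℂ) ∈ Eᶜ from hv)] at hu
    refine ⟨L * 1, (fun v : ℝ => (⟨t, v⟩ : ℂ)) ⁻¹' u,
      mem_nhdsWithin_of_mem_nhds (hvc.continuousAt hu), ?_⟩
    exact hL.comp (lipschitz_mk t).lipschitzOnWith (fun x hx => hx)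
  have hder : ∀ᵐ v : ℝ, v ∉ K →
      HasDerivAt (fun v => y ⟨t, v⟩) (Eᶜ.indicator (gy y) ⟨t, v⟩) v := by
    filter_upwards [hb] with v hv hvK
    rw [indicator_of_mem (show (⟨t, v⟩ : ℂ) ∈ Eᶜ from hvK)]
    exact hasDerivAt_line (hv hvK)
  have hbI : ∀ u v, IntervalIntegrable (fun v => Eᶜ.indicator (gy y) ⟨t, v⟩) volume u v := by
    intro u v
    obtain ⟨n, hn⟩ := exists_nat_ge (|t| + (|u| + |v|))
    have h1 := (ha n).intervalIntegrable (a := u) (b := v)
    refine h1.congr_ae ?_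
    rw [Filter.EventuallyEq, ae_restrict_iff' measurableSet_uIoc]
    refine Eventually.of_forall fun w hwI => ?_
    have h3 : |w| ≤ |u| + |v| := by
      have h4 := uIoc_subset_uIcc hwI
      rw [mem_uIcc] at h4
      rcases h4 with h4 | h4
      · rw [abs_le]; constructor
        · linarith [neg_abs_le u, abs_nonneg v]
        · linarith [le_abs_self v, abs_nonneg u]
      · rw [abs_le]; constructor
        · linarith [neg_abs_le v, abs_nonneg u]
        · linarith [le_abs_self u, abs_nonneg v]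
    have h5 : (⟨t, w⟩ : ℂ) ∈ closedBall (0:ℂ) n := by
      rw [mem_closedBall, dist_zero_right]
      exact (norm_mk_le t w).trans (by linarith)
    by_cases hw : (⟨t, w⟩ : ℂ) ∈ Eᶜ
    · rw [indicator_of_mem hw, indicator_of_mem (show (⟨t, w⟩ : ℂ) ∈ Eᶜ ∩ closedBall 0 n from
        ⟨hw, h5⟩)]
    · rw [indicator_of_notMem hw, indicator_of_notMem
        (show (⟨t, w⟩ : ℂ) ∉ Eᶜ ∩ closedBall 0 n from fun h => hw h.1)]
  refine ⟨hbI c d, ?_⟩
  obtain ⟨S, hS, hS1, hS0⟩ := sep_line hE hord (t := t) (c := c) (d := d) hcE hdE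
  set i : TopologicalSpace.Clopens E := ⟨S, hS⟩ with hi'
  obtain ⟨R0, hR0, hR0'⟩ := exists_ball (hX i).supp
  set R : ℝ := R0 + |c| + |d| + 1 with hR
  have hRpos : 0 < R := by positivity
  have hout : ∀ v : ℝ, R0 ≤ |v| → (⟨t, v⟩ : ℂ) ∉ tsupport (X i) := by
    intro v hv hmem
    have h1 := hR0' hmem
    rw [mem_ball, dist_zero_right] at h1
    linarith [abs_le_norm_mk t v]
  have hRR0 : R0 ≤ R := by
    have := abs_nonneg c; have := abs_nonneg d; rw [hR]; linarith
  have hkey := key' (α := fun v => y ⟨t, v⟩) (b := fun v => Eᶜ.indicator (gy y) ⟨t, v⟩)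
    (χ := fun v => X i ⟨t, v⟩) (χ' := fun v => gy (X i) ⟨t, v⟩) (K := K) (y1 := c) (y2 := d)
    (R := R) hKcl hα hder hbI (fun u v => (hd i).intervalIntegrable)
    (fun v => hasDerivAt_line ((hX i).smooth.differentiable (by simp)).differentiableAt)
    ((continuous_gy' (hX i).smooth).comp hvc) hcd hcE hdE
    (by linarith [neg_abs_le c, abs_nonneg d]) (by linarith [le_abs_self d, abs_nonneg c])
    (by
      intro v hvK hv
      have h1 := hvc.continuousAt.eventually ((hX i).lc ⟨t, v⟩ hvK)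
      filter_upwards [h1] with x hx
      rw [hx]; exact hX1 i ⟨⟨t, v⟩, hvK⟩ (hS1 ⟨⟨t, v⟩, hvK⟩ rfl hv))
    (by
      intro v hvK hv
      have h1 := hvc.continuousAt.eventually ((hX i).lc ⟨t, v⟩ hvK)
      filter_upwards [h1] with x hx
      rw [hx]; exact hX0 i ⟨⟨t, v⟩, hvK⟩ (hS0 ⟨⟨t, v⟩, hvK⟩ rfl hv))
    (image_eq_zero_of_notMem_tsupport (hout (-R) (by rw [abs_neg, abs_of_pos hRpos]; exact hRR0)))
    (image_eq_zero_of_notMem_tsupport (hout R (by rw [abs_of_pos hRpos]; exact hRR0)))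
  have htot : ∫ v in (-R)..R, (X i ⟨t, v⟩ * Eᶜ.indicator (gy y) ⟨t, v⟩
      + gy (X i) ⟨t, v⟩ * y ⟨t, v⟩) = ∫ v : ℝ, SY E (X i) y ⟨t, v⟩ := by
    have h2 : Function.support (fun v : ℝ => SY E (X i) y ⟨t, v⟩) ⊆ Ioc (-R) R := by
      intro v hv
      by_contra hn
      apply hv
      have h3 : R0 ≤ |v| := by
        rw [mem_Ioc, not_and_or, not_lt, not_le] at hn
        rcases hn with hn | hn
        · have : R ≤ |v| := by rw [← abs_neg]; exact le_trans (by linarith) (le_abs_self (-v))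
          linarith
        · linarith [le_abs_self v]
      have h4 := hout v h3
      have h5 := notMem_tsupport_iff_eventuallyEq.1 h4
      have h6 : gy (X i) ⟨t, v⟩ = 0 := by
        rw [gy_eq_of_eventuallyEq (v := fun _ => (0:ℝ)) h5, gy_const]
      simp only [SY]
      rw [h6, image_eq_zero_of_notMem_tsupport h4]; ring
    exact intervalIntegral.integral_eq_integral_of_support_subset (μ := volume) h2
  rw [hkey, htot, abs_neg]
  refine (hc i).trans ?_
  -- comparison of the weights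
  have hcr : ∀ L : Sol E, wt s (X i) L t ≤ cross s t c d L := by
    intro L
    unfold wt cross
    by_cases ht : t ∈ Icc (lo L.1.1) (hi L.1.1)
    · rw [indicator_of_mem ht]
      by_cases hcrs : (sec L.1.1 t ∩ Icc c d).Nonempty
      · rw [if_pos ⟨ht, hcrs⟩]
        exact mul_le_of_le_one_right (hs0 _) (hX01 i _).2
      · rw [if_neg fun h => hcrs h.2]
        obtain ⟨v, hv⟩ := sec_nonempty (L.1.isCompact hE) L.1.preconn L.1.nonempty ht
        have hvE : (⟨t, v⟩ : ℂ) ∈ E := L.1.subset hv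
        have hvn : v ∉ Icc c d := fun h => hcrs ⟨v, hv, h⟩
        have h0 : X i ⟨t, v⟩ = 0 := hX0 i ⟨⟨t, v⟩, hvE⟩ (hS0 ⟨⟨t, v⟩, hvE⟩ rfl hvn)
        obtain ⟨k, O, hO, hLO, hk⟩ :=
          Tc_808.LC.const_near (Pct_185.LCE.LC (hX i)) L.1.preconn L.1.subset
        have h2 : X i (pt L.1) = 0 := by
          rw [hk _ (hLO (pt_mem L.1)), ← hk _ (hLO hv), h0]
        rw [h2, mul_zero]
    · rw [indicator_of_notMem ht]
      split_ifs
      · exact hs0 _
      · exact le_rfl
  have hcr0 : ∀ L : Sol E, 0 ≤ cross s t c d L := by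
    intro L
    unfold cross
    split_ifs
    · exact hs0 _
    · exact le_rfl
  have hcrs : Summable fun L : Sol E => cross s t c d L := by
    refine Summable.of_nonneg_of_le hcr0 (fun L => ?_) he'
    unfold cross
    split_ifs with h
    · rw [indicator_of_mem h.1]
    · exact indicator_nonneg (fun _ _ => hs0 _) t
  exact (Summable.of_nonneg_of_le (wt_nonneg hs0 (hX01 i) · t) hcr hcrs).tsum_le_tsum hcr hcrs

end

end Crest.Agent.R105.Yv_319
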