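import Crest.Agent.R105.Sl2_732
import Crest.Agent.R105.Nip1_31
import Crest.Agent.R105.Vs1_439

-- ▼ part R105/Plv1_626
section

/-!
# Row 105, S0138, NI frame: LINK 2 of 444 #10384, part 1 (helper626)

* `LimAt E L b z β` : limit of `b` along `L` at the component of `z`
* `null_of_var'` : 732's `null_of_var` with limits along `L` only
* `lim_along`, `exists_lim` ((Y')) : small variation of `x` near `z` along the continuum `L` gives a limit
* `exists_sep` : a value between `b p` and `b q` which is not taken on `C \ E` is a cluster value from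
  both sides at a component of `E`
-/

set_option autoImplicit false

open MeasureTheory Set Filter Topology Metric
open scoped NNReal ENNReal

namespace Crest.Agent.R105.Plv_626

open Thin_12 Sl_732

variable {E L S C W : Set ℂ} {b : ℂ → ℝ}

/-- limit of `b` along `L` at the component of `z` -/
def LimAt (E L : Set ℂ) (b : ℂ → ℝ) (z : ℂ) (β : ℝ) : Prop :=
  ∀ δ > 0, ∃ O, IsOpen O ∧ connectedComponentIn E z ⊆ O ∧ ∀ w ∈ (O ∩ L) \ E, |b w - β| < δ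

/-- the bound for the values on one class -/
theorem class_le' (hE : IsCompact E) {C : Set ℂ} (hC : IsCompact C) (hCp : IsPreconnected C)
    (hU : (C \ E).Nonempty) (hCL : C ⊆ L) {G : Set ℂ} (hG : G ⊆ E) {β : ℂ → ℝ}
    (hb : ∀ z ∈ G, LimAt E L b z (β z)) {c : ℝ}
    (H : ∀ p ∈ C \ E, ∀ q ∈ C \ E, |b p - b q| ≤ c) :
    volume (β '' (C ∩ G)) ≤ ENNReal.ofReal c := by
  refine (Real.volume_le_diam _).trans (Metric.ediam_le ?_)
  rintro _ ⟨z, ⟨hzC, hzG⟩, rfl⟩ _ ⟨w, ⟨hwC, hwG⟩, rfl⟩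
  rw [edist_dist, Real.dist_eq]
  refine ENNReal.ofReal_le_ofReal (le_of_forall_pos_le_add fun δ hδ => ?_)
  obtain ⟨O, hO, hzO, h1⟩ := hb z hzG (δ / 2) (half_pos hδ)
  obtain ⟨P, hP, hwP, h2⟩ := hb w hwG (δ / 2) (half_pos hδ)
  obtain ⟨p, hp, hpO⟩ := exists_near hE hC hCp hU hzC (hG hzG) hO hzO
  obtain ⟨q, hq, hqP⟩ := exists_near hE hC hCp hU hwC (hG hwG) hP hwP
  have h3 := h1 p ⟨⟨hpO, hCL hp.1⟩, hp.2⟩
  have h4 := h2 q ⟨⟨hqP, hCL hq.1⟩, hq.2⟩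
  have h5 := H p hp q hq
  rw [abs_lt] at h3 h4
  rw [abs_le] at h5 ⊢
  constructor <;> linarith

/-- the class of `b` on one continuum -/
theorem osc_class' (hE : IsCompact E) {C : Set ℂ} (hC : IsCompact C) (hCp : IsPreconnected C)
    (hU : (C \ E).Nonempty) (hCL : C ⊆ L) {G : Set ℂ} (hG : G ⊆ E) {β : ℂ → ℝ}
    (hb : ∀ z ∈ G, LimAt E L b z (β z)) {η : ℝ}
    (H : ∀ p ∈ C \ E, ∀ q ∈ C \ E, |b p - b q| ≤ η) {ε : ℝ} (hε : 0 < ε) :
    ∃ p ∈ C \ E, ∃ q ∈ C \ E, volume (β '' (C ∩ G)) ≤ ENNReal.ofReal (|b p - b q| + ε) := by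
  have hne : Set.Nonempty ((fun z : ℂ × ℂ => |b z.1 - b z.2|) '' ((C \ E) ×ˢ (C \ E))) :=
    (hU.prod hU).image _
  obtain ⟨_, ⟨⟨p, q⟩, ⟨hp, hq⟩, rfl⟩, hlt⟩ := exists_lt_of_lt_csSup hne
    (show sSup ((fun z : ℂ × ℂ => |b z.1 - b z.2|) '' ((C \ E) ×ˢ (C \ E))) - ε <
      sSup ((fun z : ℂ × ℂ => |b z.1 - b z.2|) '' ((C \ E) ×ˢ (C \ E))) by linarith)
  have hbd : BddAbove ((fun z : ℂ × ℂ => |b z.1 - b z.2|) '' ((C \ E) ×ˢ (C \ E))) := by
    refine ⟨η, ?_⟩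
    rintro _ ⟨⟨z, w⟩, ⟨hz, hw⟩, rfl⟩
    exact H z hz w hw
  refine ⟨p, hp, q, hq, class_le' hE hC hCp hU hCL hG hb fun z hz w hw => ?_⟩
  have h1 : |b z - b w| ≤ sSup ((fun z : ℂ × ℂ => |b z.1 - b z.2|) '' ((C \ E) ×ˢ (C \ E))) :=
    le_csSup hbd ⟨(z, w), ⟨hz, hw⟩, rfl⟩
  simp only at hlt
  linarith






/-- **separation** : a value between `b p` and `b q` not taken on `C \ E` -/
theorem exists_sep (hE : IsCompact E) {C : Set ℂ} (hC : IsCompact C) (hCp : IsPreconnected C)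
    (hb : ContinuousOn b Eᶜ) {p q : ℂ} (hp : p ∈ C \ E) (hq : q ∈ C \ E) {s : ℝ}
    (h1 : b p < s) (h2 : s < b q) (hs : s ∉ b '' (C \ E)) :
    ∃ z ∈ C ∩ E, ∀ O, IsOpen O → connectedComponentIn E z ⊆ O →
      (∃ p ∈ (O ∩ C) \ E, b p < s) ∧ ∃ q ∈ (O ∩ C) \ E, s < b q := by
  have hEo : IsOpen Eᶜ := hE.isClosed.isOpen_compl
  set A : Set ℂ := {w | w ∈ C \ E ∧ b w < s} with hA
  set B : Set ℂ := {w | w ∈ C \ E ∧ s < b w} with hB
  set A' : Set ℂ := (Nip_31.sint E (closure A)ᶜ)ᶜ with hA'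
  set B' : Set ℂ := (Nip_31.sint E (closure B)ᶜ)ᶜ with hB'
  have hA'c : IsClosed A' := (Nip_31.isOpen_sint hE isClosed_closure.isOpen_compl).isClosed_compl
  have hB'c : IsClosed B' := (Nip_31.isOpen_sint hE isClosed_closure.isOpen_compl).isClosed_compl
  have hsat : ∀ D : Set ℂ, closure D ⊆ (Nip_31.sint E (closure D)ᶜ)ᶜ := fun D w hw h => h.1 hw
  have hcov : C ⊆ A' ∪ B' := by
    intro w hw
    by_cases hwE : w ∈ E
    · by_contra hcon
      rw [mem_union, not_or] at hcon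
      have h3 : w ∈ Nip_31.sint E (closure A)ᶜ := not_not.1 hcon.1
      have h4 : w ∈ Nip_31.sint E (closure B)ᶜ := not_not.1 hcon.2
      obtain ⟨r, hr, hrO⟩ := exists_near hE hC hCp ⟨p, hp⟩ hw hwE
        (O := (closure A)ᶜ ∩ (closure B)ᶜ)
        (isClosed_closure.isOpen_compl.inter isClosed_closure.isOpen_compl)
        (subset_inter (h3.2 hwE) (h4.2 hwE))
      rcases lt_trichotomy (b r) s with h | h | h
      · exact hrO.1 (subset_closure ⟨hr, h⟩)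
      · exact hs ⟨r, hr, h⟩
      · exact hrO.2 (subset_closure ⟨hr, h⟩)
    · rcases lt_trichotomy (b w) s with h | h | h
      · exact Or.inl (hsat A (subset_closure ⟨⟨hw, hwE⟩, h⟩))
      · exact absurd ⟨w, ⟨hw, hwE⟩, h⟩ hs
      · exact Or.inr (hsat B (subset_closure ⟨⟨hw, hwE⟩, h⟩))
  obtain ⟨z, hzC, hzA, hzB⟩ := isPreconnected_closed_iff.1 hCp A' B' hA'c hB'c hcov
    ⟨p, hp.1, hsat A (subset_closure ⟨hp, h1⟩)⟩ ⟨q, hq.1, hsat B (subset_closure ⟨hq, h2⟩)⟩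
  have hzE : z ∈ E := by
    by_contra hzE
    have h3 : z ∈ closure A := by
      by_contra h
      exact hzA ⟨h, fun h' => absurd h' hzE⟩
    have h4 : z ∈ closure B := by
      by_contra h
      exact hzB ⟨h, fun h' => absurd h' hzE⟩
    have hca : ContinuousAt b z := hb.continuousAt (hEo.mem_nhds hzE)
    rcases lt_trichotomy (b z) s with h | h | h
    · obtain ⟨w, hw1, hw2⟩ := mem_closure_iff_nhds.1 h4 _ (hca.eventually (gt_mem_nhds h))
      exact lt_asymm hw2.2 hw1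
    · exact hs ⟨z, ⟨hzC, hzE⟩, h⟩
    · obtain ⟨w, hw1, hw2⟩ := mem_closure_iff_nhds.1 h3 _ (hca.eventually (lt_mem_nhds h))
      exact lt_asymm hw2.2 hw1
  have key : ∀ D : Set ℂ, z ∉ Nip_31.sint E (closure D)ᶜ → ∀ O, IsOpen O →
      connectedComponentIn E z ⊆ O → (O ∩ D).Nonempty := by
    intro D hD O hO hzO
    by_contra hcon
    rw [not_nonempty_iff_eq_empty] at hcon
    apply hD
    have h3 : O ⊆ (closure D)ᶜ := by
      intro w hw hwD
      obtain ⟨v, hv⟩ := mem_closure_iff.1 hwD O hO hw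
      rw [hcon] at hv
      exact hv
    exact ⟨h3 (hzO (mem_connectedComponentIn hzE)), fun _ => hzO.trans h3⟩
  refine ⟨z, ⟨hzC, hzE⟩, fun O hO hzO => ?_⟩
  obtain ⟨r, hrO, hr⟩ := key A hzA O hO hzO
  obtain ⟨r', hrO', hr'⟩ := key B hzB O hO hzO
  exact ⟨⟨r, ⟨⟨hrO, hr.1.1⟩, hr.1.2⟩, hr.2⟩, ⟨r', ⟨⟨hrO', hr'.1.1⟩, hr'.1.2⟩, hr'.2⟩⟩

end Crest.Agent.R105.Plv_626
end

-- ▼ part R105/Plv2_626

/-!
# Row 105, S0138, NI frame: LINK 2 of 444 #10384, part 2 (helper626)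

(2'): the variation of a function `b` which is near every uncharged component a Lipschitz function of
`(x, y)` along `L` (Lipschitz constant arbitrary) is bounded by the length of its values off `E` and
the charges `σ K` of countably many components: `sum_planar`, `varLe_planar`.
-/

set_option autoImplicit false

open MeasureTheory Set Filter Topology Metric
open scoped NNReal ENNReal

namespace Crest.Agent.R105.Plv_626

open Thin_12 Sl_732

variable {E L W : Set ℂ} {S : Set (Set ℂ)} {b x y : ℂ → ℝ}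

/-- small variation near `E` off the components in `S` -/
def SmV (E L : Set ℂ) (S : Set (Set ℂ)) (x : ℂ → ℝ) : Prop :=
  ∀ η > 0, ∃ W, IsOpen W ∧ (L ∩ E) \ ⋃₀ S ⊆ W ∧ VarLe E L W x η

/-- `b` is near the component of `z` a Lipschitz function of `(x, y)` along `L` -/
def LipAt (E L : Set ℂ) (x y b : ℂ → ℝ) (z : ℂ) : Prop :=
  ∃ (O : Set ℂ) (M : ℝ), IsOpen O ∧ connectedComponentIn E z ⊆ O ∧
    ∀ p ∈ (O ∩ L) \ E, ∀ q ∈ (O ∩ L) \ E, |b p - b q| ≤ M * (|x p - x q| + |y p - y q|)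

/-- the charge at a component -/
def ChLe (E L : Set ℂ) (b : ℂ → ℝ) (K : Set ℂ) (σ : ℝ) : Prop :=
  ∀ δ > 0, ∃ O, IsOpen O ∧ K ⊆ O ∧ ∀ p ∈ (O ∩ L) \ E, ∀ q ∈ (O ∩ L) \ E, |b p - b q| ≤ σ + δ

lemma sat_rest (hSE : ∀ K ∈ S, ∃ z ∈ E, K = connectedComponentIn E z) (sat : Sat E L) :
    Sat E ((L ∩ E) \ ⋃₀ S) := by
  intro z hz hzE w hw
  refine ⟨⟨sat z hz.1.1 hzE hw, connectedComponentIn_subset _ _ hw⟩, ?_⟩
  rintro ⟨K, hK, hwK⟩
  obtain ⟨v, hv, rfl⟩ := hSE K hK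
  apply hz.2
  refine ⟨_, hK, ?_⟩
  rw [connectedComponentIn_eq hwK, ← connectedComponentIn_eq hw]
  exact mem_connectedComponentIn hzE



/-- the values with two sided clusters at `K` along `C` -/
def Skv (E C : Set ℂ) (b : ℂ → ℝ) (K : Set ℂ) : Set ℝ :=
  {s | ∀ O, IsOpen O → K ⊆ O → (∃ p ∈ (O ∩ C) \ E, b p < s) ∧ ∃ q ∈ (O ∩ C) \ E, s < b q}

lemma volume_Skv {C K : Set ℂ} {σ : ℝ} (hCL : C ⊆ L) (h : ChLe E L b K σ) :
    volume (Skv E C b K) ≤ ENNReal.ofReal σ := by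
  refine (Real.volume_le_diam _).trans (Metric.ediam_le ?_)
  have key : ∀ s ∈ Skv E C b K, ∀ s' ∈ Skv E C b K, s' - s ≤ σ := by
    intro s hs s' hs'
    refine le_of_forall_pos_le_add fun δ hδ => ?_
    obtain ⟨O, hO, hKO, h1⟩ := h δ hδ
    obtain ⟨⟨p, hp, hps⟩, -⟩ := hs O hO hKO
    obtain ⟨-, q, hq, hqs⟩ := hs' O hO hKO
    have h2 := h1 q ⟨⟨hq.1.1, hCL hq.1.2⟩, hq.2⟩ p ⟨⟨hp.1.1, hCL hp.1.2⟩, hp.2⟩
    have := le_abs_self (b q - b p)
    linarith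
  intro s hs s' hs'
  rw [edist_dist, Real.dist_eq]
  refine ENNReal.ofReal_le_ofReal (abs_le.2 ⟨?_, ?_⟩)
  · linarith [key s hs s' hs']
  · linarith [key s' hs' s hs]

/-- one piece -/
theorem piece_planar (hE : IsCompact E) (hb : ContinuousOn b Eᶜ)
    (hSc : S.Countable) (hSE : ∀ K ∈ S, ∃ z ∈ E, K = connectedComponentIn E z)
    {σ : Set ℂ → ℝ} (hσ : ∀ K ∈ S, K ⊆ L → ChLe E L b K (σ K))
    {β : ℂ → ℝ} (hβ : ∀ z ∈ (L ∩ E) \ ⋃₀ S, LimAt E L b z (β z))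
    (hnull : volume (β '' ((L ∩ E) \ ⋃₀ S)) = 0) {C : Set ℂ} {p q : ℂ} (hC : Piece E L C p q) :
    open Classical in
    ENNReal.ofReal |b p - b q| ≤ volume (b '' (C \ E)) +
      ∑' K : S, if K.1 ⊆ C then ENNReal.ofReal (σ K.1) else 0 := by
  classical
  have : Countable S := hSc.to_subtype
  have hcov : uIcc (b p) (b q) ⊆ (b '' (C \ E) ∪ β '' ((L ∩ E) \ ⋃₀ S)) ∪
      ⋃ K : S, if K.1 ⊆ C then Skv E C b K.1 else ∅ := by
    intro s hs
    by_cases hsC : s ∈ b '' (C \ E)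
    · exact Or.inl (Or.inl hsC)
    have hsp : b p ≠ s := fun h => hsC ⟨p, hC.hp, h⟩
    have hsq : b q ≠ s := fun h => hsC ⟨q, hC.hq, h⟩
    obtain ⟨z, hz, hzO⟩ : ∃ z ∈ C ∩ E, ∀ O, IsOpen O → connectedComponentIn E z ⊆ O →
        (∃ p ∈ (O ∩ C) \ E, b p < s) ∧ ∃ q ∈ (O ∩ C) \ E, s < b q := by
      rcases le_total (b p) (b q) with h | h
      · rw [uIcc_of_le h] at hs
        exact exists_sep hE hC.cpt hC.conn hb hC.hp hC.hq (lt_of_le_of_ne hs.1 hsp)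
          (lt_of_le_of_ne hs.2 hsq.symm) hsC
      · rw [uIcc_of_ge h] at hs
        exact exists_sep hE hC.cpt hC.conn hb hC.hq hC.hp (lt_of_le_of_ne hs.1 hsq)
          (lt_of_le_of_ne hs.2 hsp.symm) hsC
    by_cases hzS : z ∈ ⋃₀ S
    · obtain ⟨K, hK, hzK⟩ := hzS
      have hKz : K = connectedComponentIn E z := by
        obtain ⟨v, hv, rfl⟩ := hSE K hK
        exact connectedComponentIn_eq hzK
      refine Or.inr (mem_iUnion.2 ⟨⟨K, hK⟩, ?_⟩)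
      have hKC : K ⊆ C := by rw [hKz]; exact hC.sat z hz.1 hz.2
      rw [if_pos hKC]
      intro O hO hKO
      exact hzO O hO (by rw [← hKz]; exact hKO)
    · have hzG : z ∈ (L ∩ E) \ ⋃₀ S := ⟨⟨hC.sub hz.1, hz.2⟩, hzS⟩
      refine Or.inl (Or.inr ⟨z, hzG, ?_⟩)
      by_contra hne
      have hd : 0 < |β z - s| := abs_pos.2 (sub_ne_zero.2 hne)
      obtain ⟨O, hO, hzO', h1⟩ := hβ z hzG _ hd
      obtain ⟨⟨r, hr, hrs⟩, r', hr', hrs'⟩ := hzO O hO hzO'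
      have h2 := h1 r ⟨⟨hr.1.1, hC.sub hr.1.2⟩, hr.2⟩
      have h3 := h1 r' ⟨⟨hr'.1.1, hC.sub hr'.1.2⟩, hr'.2⟩
      rw [abs_lt] at h2 h3
      rcases abs_cases (β z - s) with h | h <;> linarith
  have h0 : ENNReal.ofReal |b p - b q| = volume (uIcc (b p) (b q)) := by
    rw [Real.volume_interval, abs_sub_comm]
  rw [h0]
  refine (measure_mono hcov).trans ((measure_union_le _ _).trans (add_le_add ?_ ?_))
  · refine (measure_union_le _ _).trans ?_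
    rw [hnull, add_zero]
  · refine (measure_iUnion_le _).trans (ENNReal.tsum_le_tsum fun K => ?_)
    split_ifs with h
    · exact volume_Skv hC.sub (hσ K.1 K.2 (h.trans hC.sub))
    · simp



end Crest.Agent.R105.Plv_626
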