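import Crest.Agent.R105.Sl2_732
import Crest.Agent.R105.Nip9_31
import Crest.Agent.R105.Vs2_439
import Crest.Agent.R105.Ni2_459
import Crest.Agent.R105.Plv2_626
import Crest.Agent.R105.Uni2_659

-- ▼ part R105/Nie1_909
section

/-!
# Row 105, S0138 (NI frame), node NIEP, part 1 (helper909): from slice bounds to `NI`

`P` = countable set of components (the solids), `c` = charges, `A = x0 + a`.
* `sqc Y A P c W t` : sum of the charges of the solids in `W` met by the level `t` of `A`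
* `nie_core` : if for a.e. `t` the variation of `b n` along the level `t` of `A` in every open `W` is
  at most `mul A (b n) (W \ Y) t + sqc Y A P (c n) W t`, `b n → f` pointwise off `Y`, the energies of
  `b n` are bounded and `Σ (c n)² ≤ C`, then `NI Y a f`.
-/

set_option autoImplicit false

open MeasureTheory Set Filter Topology Metric
open scoped NNReal ENNReal

namespace Crest.Agent.R105.Nie_909

open Bd_775 Tc_808 Ni_459 Crest.AnalysisR Sl_732 IfB_641
open Vs_439 (mul measurable_mul lintegral_mul_le am_gm wdg_le_en measurable_en')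
open Nip_31 (ni_iff_acvG)

noncomputable section

variable {Y : Set ℂ} {x0 a f A : ℂ → ℝ}

/-- **closedness along a.e. level** (732's `acv_of_liminf`, bounds `c ≥ 0`, exceptional components
fixed) -/
theorem smv_of_liminf {E : Set ℂ} {L : ℝ → Set ℂ} {B : ℕ → ℂ → ℝ} {b : ℂ → ℝ}
    {S : Set (Set ℂ)}
    {W : ℕ → Set ℂ} (hW : ∀ j, IsOpen (W j)) (hSW : ∀ j, E \ ⋃₀ S ⊆ W j)
    (hB : ∀ z ∉ E, Tendsto (fun n => B n z) atTop (𝓝 (b z)))
    {η : ℕ → ℕ → ℝ → ℝ≥0∞} (hη : ∀ j n, Measurable (η j n))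
    (hv : ∀ᵐ t : ℝ, ∀ j n, ∀ c : ℝ, 0 ≤ c → η j n t ≤ ENNReal.ofReal c →
      VarLe E (L t) (W j) (B n) c)
    (hsmall : ∀ ε > 0, ∃ j, ∃ᶠ n in atTop, ∫⁻ t, η j n t ≤ ENNReal.ofReal ε) :
    ∀ᵐ t : ℝ, ∀ δ > 0, ∃ V, IsOpen V ∧ (L t ∩ E) \ ⋃₀ S ⊆ V ∧ VarLe E (L t) V b δ := by
  have h1 : ∀ k : ℕ, ∃ j, ∃ᶠ n in atTop, ∫⁻ t, η j n t ≤ ENNReal.ofReal (1 / ((k : ℝ) + 1)) :=
    fun k => hsmall _ (by positivity)
  choose j hj using h1
  set g : ℕ → ℝ → ℝ≥0∞ := fun k t => liminf (fun n => η (j k) n t) atTop with hg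
  have hgm : ∀ k, Measurable (g k) := fun k => Measurable.liminf fun n => hη (j k) n
  have h2 : ∀ k, ∫⁻ t, g k t ≤ ENNReal.ofReal (1 / ((k : ℝ) + 1)) := fun k =>
    (lintegral_liminf_le fun n => hη (j k) n).trans (liminf_le_of_frequently_le' (hj k))
  have h3 : ∫⁻ t, liminf (fun k => g k t) atTop = 0 := by
    refine le_antisymm ?_ zero_le
    refine (lintegral_liminf_le hgm).trans ?_
    have h4 : Tendsto (fun k : ℕ => ENNReal.ofReal (1 / ((k : ℝ) + 1))) atTop (𝓝 0) := by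
      rw [← ENNReal.ofReal_zero]
      exact (ENNReal.continuous_ofReal.tendsto 0).comp tendsto_one_div_add_atTop_nhds_zero_nat
    calc liminf (fun k => ∫⁻ t, g k t) atTop
        ≤ liminf (fun k : ℕ => ENNReal.ofReal (1 / ((k : ℝ) + 1))) atTop :=
          liminf_le_liminf (Eventually.of_forall h2)
      _ = 0 := h4.liminf_eq
  have h5 : ∀ᵐ t : ℝ, liminf (fun k => g k t) atTop = 0 := by
    rw [lintegral_eq_zero_iff (Measurable.liminf hgm)] at h3
    exact h3
  filter_upwards [h5, hv] with t ht hvt δ hδ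
  have h6 : ∃ k, g k t < ENNReal.ofReal δ := by
    by_contra hcon
    push Not at hcon
    have h7 : ENNReal.ofReal δ ≤ liminf (fun k => g k t) atTop :=
      le_liminf_of_le (by isBoundedDefault) (Eventually.of_forall hcon)
    rw [ht] at h7
    exact absurd h7 (not_le.2 (ENNReal.ofReal_pos.2 hδ))
  obtain ⟨k, hk⟩ := h6
  have h8 : ∃ᶠ n in atTop, η (j k) n t < ENNReal.ofReal δ :=
    frequently_lt_of_liminf_lt (by isBoundedDefault) hk
  refine ⟨W (j k), hW _, fun z hz => hSW _ ⟨hz.1.2, hz.2⟩, ?_⟩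
  refine VarLe.of_tendsto (fun z hz => hB z hz.2) fun ε hε => h8.mono fun n hn => ?_
  exact hvt (j k) n (δ + ε) (by linarith) (hn.le.trans (ENNReal.ofReal_le_ofReal (by linarith)))

/-- charges of the solids in `W` met by the level `t` -/
def sqc (Y : Set ℂ) (A : ℂ → ℝ) (P : Set (Cmp Y)) (c : Cmp Y → ℝ) (W : Set ℂ) (t : ℝ) : ℝ≥0∞ :=
  open Classical in
  ∑' K : P, if K.1.1 ⊆ W ∧ lo Y A (Nip_31.pt K.1) ≤ t ∧ t ≤ up Y A (Nip_31.pt K.1) then
    ENNReal.ofReal (c K.1) else 0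

lemma measurable_sqc {P : Set (Cmp Y)} (hP : P.Countable) (c : Cmp Y → ℝ) (W : Set ℂ) :
    Measurable (sqc Y A P c W) := by
  have : Countable P := hP.to_subtype
  unfold sqc
  refine Measurable.tsum fun K => ?_
  refine Measurable.ite ?_ measurable_const measurable_const
  by_cases h : K.1.1 ⊆ W
  · simp only [h, true_and]
    exact measurableSet_Icc
  · simp only [h, false_and, ofPred_false]
    exact MeasurableSet.empty

lemma lintegral_sqc {P : Set (Cmp Y)} (hP : P.Countable) (c : Cmp Y → ℝ) (W : Set ℂ) :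
    ∫⁻ t, sqc Y A P c W t = open Classical in ∑' K : P, if K.1.1 ⊆ W then
      ENNReal.ofReal (c K.1) * ENNReal.ofReal (Nip_31.osp Y A (Nip_31.pt K.1)) else 0 := by
  classical
  have : Countable P := hP.to_subtype
  unfold sqc
  rw [lintegral_tsum]
  · refine tsum_congr fun K => ?_
    by_cases h : K.1.1 ⊆ W
    · simp only [h, true_and, if_true]
      have h2 : (fun t : ℝ => if lo Y A (Nip_31.pt K.1) ≤ t ∧ t ≤ up Y A (Nip_31.pt K.1) then
          ENNReal.ofReal (c K.1) else 0) =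
          (Icc (lo Y A (Nip_31.pt K.1)) (up Y A (Nip_31.pt K.1))).indicator
            (fun _ => ENNReal.ofReal (c K.1)) := by
        funext t; rw [indicator_apply]; rfl
      rw [h2, lintegral_indicator_const measurableSet_Icc, Real.volume_Icc]
      rfl
    · simp only [h, false_and, if_false, lintegral_zero]
  · intro K
    refine (Measurable.ite ?_ measurable_const measurable_const).aemeasurable
    by_cases h : K.1.1 ⊆ W
    · simp only [h, true_and]
      exact measurableSet_Icc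
    · simp only [h, false_and, ofPred_false]
      exact MeasurableSet.empty

/-- the neighbourhoods `W j`: thin neighbourhoods of `Y` minus the first `j` solids -/
def Wj (Y : Set ℂ) (P : Set (Cmp Y)) [Encodable P] (j : ℕ) : Set ℂ :=
  thickening (1 / ((j : ℝ) + 1)) Y \ ⋃ K : {K : P // Encodable.encode K < j}, K.1.1.1

lemma finite_lt (P : Set (Cmp Y)) [Encodable P] (j : ℕ) :
    Finite {K : P // Encodable.encode K < j} :=
  Finite.of_injective (fun K => (⟨Encodable.encode K.1, K.2⟩ : Fin j)) fun K K' h => by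
    have := congrArg Fin.val h
    exact Subtype.ext (Encodable.encode_injective this)

lemma isOpen_Wj (hY : IsCompact Y) (P : Set (Cmp Y)) [Encodable P] (j : ℕ) :
    IsOpen (Wj Y P j) := by
  have := finite_lt P j
  exact isOpen_thickening.sdiff (isClosed_iUnion_of_finite fun K => (K.1.1.isCompact hY).isClosed)

lemma sub_Wj (P : Set (Cmp Y)) [Encodable P] (j : ℕ) :
    Y \ ⋃₀ ((fun K : Cmp Y => K.1) '' P) ⊆ Wj Y P j := by
  rintro z ⟨hz, hz'⟩
  refine ⟨self_subset_thickening (by positivity) _ hz, fun hc => hz' ?_⟩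
  obtain ⟨K, hK⟩ := mem_iUnion.1 hc
  exact mem_sUnion.2 ⟨_, ⟨K.1.1, K.1.2, rfl⟩, hK⟩

/-- energy near `Y` -/
lemma tendsto_en (hY : IsExteriorDomain Yᶜ) (hx : X0 Y x0) (ha : TT Y a) :
    Tendsto (fun j : ℕ => ∫⁻ z in thickening (1 / ((j : ℝ) + 1)) Y \ Y,
      ENNReal.ofReal (en (fun w => x0 w + a w) z)) atTop (𝓝 0) := by
  have hYc := cpt_of hY
  obtain ⟨R, hR⟩ := hYc.isBounded.exists_norm_le
  have hfin := Nip_31.en_x0_fin hY hx ha (R + 2)
  have hsub : ∀ j : ℕ, thickening (1 / ((j : ℝ) + 1)) Y \ Y ⊆ ball 0 (R + 2) \ Y := by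
    rintro j z ⟨hz, hzY⟩
    refine ⟨?_, hzY⟩
    obtain ⟨y, hy, hzy⟩ := mem_thickening_iff.1 hz
    have h1 : (1 : ℝ) / ((j : ℝ) + 1) ≤ 1 := by
      rw [div_le_one (by positivity)]; linarith [(Nat.cast_nonneg j : (0 : ℝ) ≤ j)]
    rw [mem_ball_zero_iff]
    have h2 := norm_le_norm_add_norm_sub' z y
    rw [dist_eq_norm] at hzy
    have := hR y hy
    linarith
  have hm : ∀ j : ℕ, MeasurableSet (thickening (1 / ((j : ℝ) + 1)) Y \ Y) := fun j =>
    isOpen_thickening.measurableSet.diff hYc.isClosed.measurableSet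
  set g : ℂ → ℝ≥0∞ := fun z => ENNReal.ofReal (en (fun w => x0 w + a w) z) with hg
  have hgm : Measurable g := (measurable_en' _).ennreal_ofReal
  have e : ∀ j : ℕ, ∫⁻ z in thickening (1 / ((j : ℝ) + 1)) Y \ Y, g z =
      (volume.withDensity g).restrict (ball 0 (R + 2) \ Y)
        (thickening (1 / ((j : ℝ) + 1)) Y \ Y) := by
    intro j
    rw [Measure.restrict_apply (hm j), inter_eq_left.2 (hsub j), withDensity_apply _ (hm j)]
  simp_rw [e]
  have hI : ⋂ j : ℕ, (thickening (1 / ((j : ℝ) + 1)) Y \ Y) = ∅ := by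
    ext z
    simp only [mem_iInter, mem_empty_iff_false, iff_false]
    intro hz
    refine (hz 0).2 ?_
    have hcl : z ∈ closure Y := by
      rw [Metric.mem_closure_iff]
      intro ε hε
      obtain ⟨n, hn⟩ := exists_nat_one_div_lt hε
      obtain ⟨y, hy, hzy⟩ := mem_thickening_iff.1 (hz n).1
      exact ⟨y, hy, hzy.trans hn⟩
    rwa [hYc.isClosed.closure_eq] at hcl
  have hfin2 : (volume.withDensity g).restrict (ball 0 (R + 2) \ Y) univ ≠ ∞ := by
    rw [Measure.restrict_apply_univ, withDensity_apply _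
      (isOpen_ball.measurableSet.diff hYc.isClosed.measurableSet)]
    exact hfin
  have h1 := tendsto_measure_iInter_atTop (μ := (volume.withDensity g).restrict (ball 0 (R + 2) \ Y))
    (s := fun j : ℕ => thickening (1 / ((j : ℝ) + 1)) Y \ Y)
    (fun j => (hm j).nullMeasurableSet) (fun i j hij => ?_) ⟨0, ?_⟩
  · rw [hI, measure_empty] at h1
    exact h1
  · refine sdiff_subset_sdiff_left (thickening_mono ?_ _)
    have : (i : ℝ) ≤ j := by exact_mod_cast hij
    exact one_div_le_one_div_of_le (by positivity) (by linarith)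
  · exact ne_top_of_le_ne_top hfin2 (measure_mono (subset_univ _))

/-- jumps of the solids which are not removed from `W j` -/
lemma tendsto_osc (ha : TT Y a) (P : Set (Cmp Y)) [Encodable P] :
    Tendsto (fun j : ℕ => open Classical in ∑' K : P, if K.1.1 ⊆ Wj Y P j then
      ENNReal.ofReal (osc Y a K.1.1 ^ 2) else 0) atTop (𝓝 0) := by
  classical
  set g : P → ℝ≥0∞ := fun K => ENNReal.ofReal (osc Y a K.1.1 ^ 2) with hg
  have hs : Summable fun K : P => osc Y a K.1.1 ^ 2 :=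
    ha.sum.comp_injective Subtype.val_injective
  have hfin : ∑' K : P, g K ≠ ∞ := hs.tsum_ofReal_ne_top
  have h1 : ∀ K : P, ∀ᶠ j : ℕ in atTop, ¬ K.1.1 ⊆ Wj Y P j := by
    intro K
    filter_upwards [eventually_gt_atTop (Encodable.encode K)] with j hj hc
    obtain ⟨z, hz⟩ := K.1.nonempty
    exact (hc hz).2 (mem_iUnion.2 ⟨⟨K, hj⟩, hz⟩)
  have h2 := ENNReal.tendsto_tsum_compl_atTop_zero hfin
  rw [ENNReal.tendsto_nhds_zero] at h2 ⊢
  intro ε hε
  obtain ⟨s, hs'⟩ := (h2 ε hε).exists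
  filter_upwards [(Filter.eventually_all_finset s).2 fun K _ => h1 K] with j hj
  refine le_trans ?_ hs'
  have e1 : (fun K : P => if K.1.1 ⊆ Wj Y P j then g K else 0).support ⊆
      {K : P | K ∉ s} := by
    intro K hK hKs
    exact hK (if_neg (hj K hKs))
  rw [← tsum_subtype_eq_of_support_subset e1]
  refine ENNReal.tsum_le_tsum fun K => ?_
  split_ifs
  · exact le_rfl
  · exact zero_le

/-- **from slice bounds to small variation along a.e. level** -/
theorem smv_core (hY : IsExteriorDomain Yᶜ) (hx : X0 Y x0) (ha : TT Y a)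
    {P : Set (Cmp Y)} (hP : P.Countable)
    {c : ℕ → Cmp Y → ℝ} (hc0 : ∀ n K, 0 ≤ c n K) {C : ℝ≥0∞} (hC : C ≠ ∞)
    (hcs : ∀ n, ∑' K : P, ENNReal.ofReal (c n K.1 ^ 2) ≤ C)
    {b : ℕ → ℂ → ℝ} (hb : ∀ n, LocallyLipschitzOn Yᶜ (b n))
    (hbf : ∀ z ∉ Y, Tendsto (fun n => b n z) atTop (𝓝 (f z)))
    {M : ℝ≥0∞} (hM : M ≠ ∞) (hen : ∀ n, ∫⁻ z in Yᶜ, ENNReal.ofReal (en (b n) z) ≤ M)
    (hv : ∀ n, ∀ᵐ t : ℝ, ∀ W, IsOpen W → ∀ r : ℝ, 0 ≤ r →
      mul (fun z => x0 z + a z) (b n) (W \ Y) t + sqc Y (fun z => x0 z + a z) P (c n) W t ≤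
        ENNReal.ofReal r → VarLe Y (Lv Y (fun z => x0 z + a z) t) W (b n) r) :
    ∀ᵐ t : ℝ, ∀ δ > 0, ∃ V, IsOpen V ∧
      (Lv Y (fun z => x0 z + a z) t ∩ Y) \ ⋃₀ ((fun K : Cmp Y => K.1) '' P) ⊆ V ∧
      VarLe Y (Lv Y (fun z => x0 z + a z) t) V f δ := by
  classical
  have hYc := cpt_of hY
  have hPc : Countable P := hP.to_subtype
  let _ : Encodable P := Encodable.ofCountable P
  set A : ℂ → ℝ := fun z => x0 z + a z with hA
  have hAl : LocallyLipschitzOn Yᶜ A := Nip_31.ll_x0 hx ha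
  set η : ℕ → ℕ → ℝ → ℝ≥0∞ := fun j n t =>
    mul A (b n) (Wj Y P j \ Y) t + sqc Y A P (c n) (Wj Y P j) t with hη
  refine smv_of_liminf (S := (fun K : Cmp Y => K.1) '' P) (L := fun t => Lv Y A t)
    (W := Wj Y P) (isOpen_Wj hYc P) (sub_Wj P) hbf (η := η)
    (fun j n => (measurable_mul _ _ _).add (measurable_sqc hP _ _)) ?_ ?_
  · have h1 := ae_all_iff.2 hv
    filter_upwards [h1] with t ht j n r hr0 hr
    exact ht n (Wj Y P j) (isOpen_Wj hYc P j) r hr0 hr
  · intro ε hε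
    -- constants
    set N : ℝ≥0∞ := M + C with hN
    have hNt : N ≠ ∞ := ENNReal.add_ne_top.2 ⟨hM, hC⟩
    set θ : ℝ := 2 * (N.toReal + 1) / ε with hθd
    have hN0 : 0 ≤ N.toReal := ENNReal.toReal_nonneg
    have hθ : 0 < θ := by positivity
    have h1 := tendsto_en hY hx ha
    have h2 := tendsto_osc ha P
    have h3 := ENNReal.Tendsto.const_mul (a := ENNReal.ofReal θ) (h1.add h2)
      (Or.inr ENNReal.ofReal_ne_top)
    rw [add_zero, mul_zero] at h3
    obtain ⟨j, hj⟩ := (ENNReal.tendsto_nhds_zero.1 h3 (ENNReal.ofReal (ε / 2))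
      (ENNReal.ofReal_pos.2 (by positivity))).exists
    refine ⟨j, Frequently.of_forall fun n => ?_⟩
    have hWo := isOpen_Wj hYc P j
    have hms : MeasurableSet (Wj Y P j \ Y) := hWo.measurableSet.diff hYc.isClosed.measurableSet
    have hWs : Wj Y P j \ Y ⊆ thickening (1 / ((j : ℝ) + 1)) Y \ Y := fun z hz => ⟨hz.1.1, hz.2⟩
    have hθ' : 0 < θ⁻¹ := inv_pos.2 hθ
    have hI : ∫⁻ t, η j n t = (∫⁻ t, mul A (b n) (Wj Y P j \ Y) t) +
        ∫⁻ t, sqc Y A P (c n) (Wj Y P j) t :=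
      lintegral_add_left (measurable_mul A (b n) (Wj Y P j \ Y)) _
    rw [hI, lintegral_sqc hP]
    have hA1 : ∫⁻ t, mul A (b n) (Wj Y P j \ Y) t ≤
        ENNReal.ofReal θ * (∫⁻ z in thickening (1 / ((j : ℝ) + 1)) Y \ Y, ENNReal.ofReal (en A z)) +
        ENNReal.ofReal θ⁻¹ * M := by
      refine (lintegral_mul_le hY.1 hAl (hb n) (fun z hz => hz.2) hms).trans ?_
      have h4 : ∫⁻ z in Wj Y P j \ Y, ENNReal.ofReal |wdg A (b n) z| ≤
          ∫⁻ z in Wj Y P j \ Y, (ENNReal.ofReal θ * ENNReal.ofReal (en A z) +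
            ENNReal.ofReal θ⁻¹ * ENNReal.ofReal (en (b n) z)) := by
        refine lintegral_mono fun z => ?_
        rw [← ENNReal.ofReal_mul hθ.le, ← ENNReal.ofReal_mul hθ'.le, ← ENNReal.ofReal_add
          (mul_nonneg hθ.le (en_nonneg A z)) (mul_nonneg hθ'.le (en_nonneg (b n) z))]
        exact ENNReal.ofReal_le_ofReal (wdg_le_en hθ z)
      refine h4.trans ?_
      rw [lintegral_add_left ((measurable_en' A).ennreal_ofReal.const_mul _),
        lintegral_const_mul' _ _ ENNReal.ofReal_ne_top,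
        lintegral_const_mul' _ _ ENNReal.ofReal_ne_top]
      refine add_le_add ?_ ?_
      · exact mul_le_mul_right (lintegral_mono_set hWs) _
      · exact mul_le_mul_right ((lintegral_mono_set fun z hz => hz.2).trans (hen n)) _
    have hA2 : (∑' K : P, if K.1.1 ⊆ Wj Y P j then
        ENNReal.ofReal (c n K.1) * ENNReal.ofReal (Nip_31.osp Y A (Nip_31.pt K.1)) else 0) ≤
        ENNReal.ofReal θ * (∑' K : P, if K.1.1 ⊆ Wj Y P j then
          ENNReal.ofReal (osc Y a K.1.1 ^ 2) else 0) + ENNReal.ofReal θ⁻¹ * C := by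
      refine le_trans ?_ (add_le_add_right (mul_le_mul_right (hcs n) _) _)
      rw [← ENNReal.tsum_mul_left, ← ENNReal.tsum_mul_left, ← ENNReal.tsum_add]
      refine ENNReal.tsum_le_tsum fun K => ?_
      by_cases h : K.1.1 ⊆ Wj Y P j
      · rw [if_pos h, if_pos h, Nip_31.osp_x0 hx, Nip_31.osp_eq hY ha,
          ← ENNReal.ofReal_mul (hc0 _ _), ← ENNReal.ofReal_mul hθ.le, ← ENNReal.ofReal_mul hθ'.le,
          ← ENNReal.ofReal_add (by positivity) (by positivity), mul_comm]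
        exact ENNReal.ofReal_le_ofReal (am_gm hθ _ _)
      · rw [if_neg h]; exact zero_le
    refine (add_le_add hA1 hA2).trans ?_
    have h5 : ENNReal.ofReal θ⁻¹ * N ≤ ENNReal.ofReal (ε / 2) := by
      rw [← ENNReal.ofReal_toReal hNt, ← ENNReal.ofReal_mul hθ'.le]
      refine ENNReal.ofReal_le_ofReal ?_
      rw [hθd, inv_div, div_mul_eq_mul_div, div_le_div_iff₀ (by positivity) (by norm_num)]
      nlinarith
    calc _ = ENNReal.ofReal θ * ((∫⁻ z in thickening (1 / ((j : ℝ) + 1)) Y \ Y,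
              ENNReal.ofReal (en A z)) + ∑' K : P, if K.1.1 ⊆ Wj Y P j then
              ENNReal.ofReal (osc Y a K.1.1 ^ 2) else 0) + ENNReal.ofReal θ⁻¹ * N := by
            rw [hN]; ring
      _ ≤ ENNReal.ofReal (ε / 2) + ENNReal.ofReal (ε / 2) := add_le_add hj h5
      _ = ENNReal.ofReal ε := by
            rw [← ENNReal.ofReal_add (by positivity) (by positivity), add_halves]


/-- from small variation along a.e. level to `NI`, for functions which are only continuous off `Y`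
(locally bounded, jumps in `l²`) -/
theorem ni_of_smv (hY : IsExteriorDomain Yᶜ) (hx : X0 Y x0) (ha : TT Y a)
    (hs : Swd Y (fun z => x0 z + a z)) (hfb : LB f) (hfc : ∀ z ∉ Y, ContinuousAt f z)
    (hfs : Summable fun K : Cmp Y => osc Y f K.1 ^ 2) {P : Set (Cmp Y)} (hP : P.Countable)
    (h : ∀ᵐ t : ℝ, ∀ δ > 0, ∃ V, IsOpen V ∧
      (Lv Y (fun z => x0 z + a z) t ∩ Y) \ ⋃₀ ((fun K : Cmp Y => K.1) '' P) ⊆ V ∧
      VarLe Y (Lv Y (fun z => x0 z + a z) t) V f δ) : NI Y a f := by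
  have hA := Nip_31.ll_x0 hx ha
  have hAb := Nip_31.lb_x0 hx ha
  have hdj : ∀ K : Cmp Y, dj Y f K = osc Y f K.1 := by
    intro K
    have h1 := osc_eq' hY hfb (K.subset (Nip_31.pt_mem K))
    rw [Nip_31.cc_pt] at h1
    rw [Nip_31.dj_eq, h1]
    rfl
  have hdA : ∀ K : Cmp Y, dj Y (fun z => x0 z + a z) K = osc Y a K.1 := by
    intro K
    rw [Nip_31.dj_eq, Nip_31.osp_x0 hx, Nip_31.osp_eq hY ha]
  rw [← Nip_31.ni_x0 hx]
  refine Nip_31.ni_of_acvN hY hAb hfb hfc ?_ ?_ ?_ ?_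
  · simp only [hdj]
    refine hfs.countable_support.mono fun K hK => ?_
    exact pow_ne_zero 2 hK
  · have h1 : ∀ K : Cmp Y, ENNReal.ofReal (dj Y (fun z => x0 z + a z) K) *
        ENNReal.ofReal (dj Y f K) ≤ ENNReal.ofReal (osc Y a K.1 ^ 2 + osc Y f K.1 ^ 2) := by
      intro K
      rw [hdj, hdA, ← ENNReal.ofReal_mul (osc_nonneg _ _ _)]
      refine ENNReal.ofReal_le_ofReal ?_
      nlinarith [sq_nonneg (osc Y a K.1 - osc Y f K.1), sq_nonneg (osc Y a K.1),
        sq_nonneg (osc Y f K.1)]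
    exact ne_top_of_le_ne_top (ha.sum.add hfs).tsum_ofReal_ne_top (ENNReal.tsum_le_tsum h1)
  · filter_upwards [Nip_31.pos_ae hY hA hAb (Nip_31.en_x0_fin hY hx ha)] with t ht
    obtain ⟨μ, hμ, hμC⟩ := ht
    exact ⟨Uni_659.noIsland_nLv hY hAb (fun z hz => Nip_31.contAt hY hA hz) hs t, μ,
      inferInstance, hμC⟩
  · filter_upwards [h] with t ht
    refine ⟨_, hP.image _, ?_, ht⟩
    rintro _ ⟨K, -, rfl⟩
    exact K.2

/-- small variation of an admissible function along a.e. level, off its own jumps -/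
theorem smv_of_ni (hY : IsExteriorDomain Yᶜ) (hx : X0 Y x0) (ha : TT Y a) (hf : TT Y f)
    (hni : NI Y a f) {P : Set (Cmp Y)} (hP : P.Countable) (hPf : ∀ K : Cmp Y, osc Y f K.1 ≠ 0 → K ∈ P) :
    ∀ᵐ t : ℝ, ∀ δ > 0, ∃ V, IsOpen V ∧
      (Lv Y (fun z => x0 z + a z) t ∩ Y) \ ⋃₀ ((fun K : Cmp Y => K.1) '' P) ⊆ V ∧
      VarLe Y (Lv Y (fun z => x0 z + a z) t) V f δ := by
  classical
  have hYc := cpt_of hY
  set A : ℂ → ℝ := fun z => x0 z + a z with hA
  have hAl : LocallyLipschitzOn Yᶜ A := Nip_31.ll_x0 hx ha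
  have hAb : LB A := Nip_31.lb_x0 hx ha
  have hfb : LB f := Nip_31.tt_lb hf
  have hs : Summable fun K : P => osc Y f K.1.1 ^ 2 := hf.sum.comp_injective Subtype.val_injective
  have hfin : ∫⁻ z in Yᶜ, ENNReal.ofReal (en f z) ≠ ∞ := hf.q.fin.lintegral_lt_top.ne
  -- 439's jumps
  have hgap : ∀ (u : ℂ → ℝ) (K : Cmp Y), Vs_439.gap Y u K = Nip_31.osp Y u (Nip_31.pt K) := by
    intro u K
    unfold Vs_439.gap Nip_31.osp
    rw [Vs_439.up_eq_upK (Nip_31.pt_mem K), Vs_439.lo_eq_loK (Nip_31.pt_mem K)]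
  have hJf : ∀ K : Cmp Y, K ∈ Vs_439.JJ Y f → osc Y f K.1 ≠ 0 := by
    intro K hK
    have h1 : 0 < Vs_439.gap Y f K := hK
    rw [hgap, Nip_31.osp_eq hY hf] at h1
    exact h1.ne'
  have hJa : ∀ K : Cmp Y, K ∈ Vs_439.JJ Y A → osc Y a K.1 ≠ 0 := by
    intro K hK
    have h1 : 0 < Vs_439.gap Y A K := hK
    rw [hgap, Nip_31.osp_x0 hx, Nip_31.osp_eq hY ha] at h1
    exact h1.ne'
  have hcf : (Vs_439.JJ Y f).Countable := hf.countable.mono fun K hK => hJf K hK
  have hca : (Vs_439.JJ Y A).Countable := ha.countable.mono fun K hK => hJa K hK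
  refine smv_core hY hx ha hP (c := fun _ K => osc Y f K.1) (fun _ K => osc_nonneg _ _ _)
    (C := ∑' K : P, ENNReal.ofReal (osc Y f K.1.1 ^ 2)) hs.tsum_ofReal_ne_top (fun _ => le_rfl)
    (b := fun _ => f) (fun _ => hf.q.loc) (fun z _ => tendsto_const_nhds) hfin (fun _ => le_rfl)
    fun n => ?_
  filter_upwards [Vs_439.ae_slice_null ((Nip_31.ni_x0 hx).2 hni)] with t ht W hW r hr0 hr
  refine Vs_439.varLe_of_EB hY hfb hf.q.loc.continuousOn hAb hAl.continuousOn hcf hca ht hr0 ?_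
  refine le_trans (add_le_add le_rfl ?_) hr
  unfold Vs_439.jsum sqc
  let i : Vs_439.JJ Y f → P := fun K => ⟨K.1, hPf _ (hJf _ K.2)⟩
  have hi : Function.Injective i := fun K K' h => Subtype.ext (congrArg (fun K : P => K.1) h)
  refine le_trans (ENNReal.tsum_le_tsum fun K => ?_) (ENNReal.tsum_comp_le_tsum_of_injective hi
    (fun K : P => if K.1.1 ⊆ W ∧ lo Y A (Nip_31.pt K.1) ≤ t ∧ t ≤ up Y A (Nip_31.pt K.1) then
      ENNReal.ofReal (osc Y f K.1.1) else 0))
  by_cases h : K.1.1 ⊆ W ∧ Vs_439.loK Y A K.1 ≤ t ∧ t ≤ Vs_439.upK Y A K.1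
  · rw [if_pos h, if_pos, hgap, Nip_31.osp_eq hY hf]
    rw [Vs_439.up_eq_upK (Nip_31.pt_mem _), Vs_439.lo_eq_loK (Nip_31.pt_mem _)]
    exact h
  · rw [if_neg h]; exact zero_le

end

end Crest.Agent.R105.Nie_909
end

-- ▼ part R105/Plv3_626
section

/-!
# Row 105, S0138, NI frame: LINK 2 of 444 #10384, part 3 (helper626)

The theorems of Plv1, Plv2 with 659's `NoIsland L` instead of "connected and unbounded": nothing is
needed at infinity (anchors without compact support).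
-/

set_option autoImplicit false

open MeasureTheory Set Filter Topology Metric
open scoped NNReal ENNReal

namespace Crest.Agent.R105.Plv_626

open Thin_12 Sl_732

variable {E L S' C W : Set ℂ} {S : Set (Set ℂ)} {b x y : ℂ → ℝ}

/-- **SLICES, variation form**, limits along `L` only. -/
theorem null_of_varN' (hE : IsCompact E) (hL : IsClosed L) (hLn : Uni_659.NoIsland L)
    (sat : Sat E L) (μ : Measure ℂ) [SigmaFinite μ]
    (pos : ∀ C ⊆ L \ E, IsCompact C → IsPreconnected C → C.Nontrivial → μ C ≠ 0)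
    {G : Set ℂ} (hGL : G ⊆ L ∩ E) (hGs : Sat E G)
    {β : ℂ → ℝ} (hb : ∀ z ∈ G, LimAt E L b z (β z))
    (hvar : ∀ η > 0, ∃ W, IsOpen W ∧ G ⊆ W ∧ VarLe E L W b η) :
    volume (β '' G) = 0 := by
  classical
  have hGE : G ⊆ E := fun z hz => (hGL hz).2
  refine le_antisymm (ENNReal.le_of_forall_pos_le_add fun η hη _ => ?_) zero_le
  rw [zero_add]
  obtain ⟨W, hWo, hGW, hWv⟩ := hvar η (by exact_mod_cast hη)
  have hN : ∀ z ∈ G, ∃ N, IsOpen N ∧ connectedComponentIn E z ⊆ N ∧ closure N ⊆ W ∧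
      IsCompact (closure N) ∧ Disjoint (frontier N) E := fun z hz =>
    thin_nhd hE (hGE hz) hWo ((hGs z hz (hGE hz)).trans hGW)
  choose! N hNo hzN hNW hNc hNf using hN
  have hzN' : ∀ z ∈ G, z ∈ N z := fun z hz => hzN z hz (mem_connectedComponentIn (hGE hz))
  obtain ⟨T, hTG, hTc, hTcov⟩ := TopologicalSpace.countable_cover_nhdsWithin
    (s := G) (f := N) (fun z hz => mem_nhdsWithin_of_mem_nhds ((hNo z hz).mem_nhds (hzN' z hz)))
  rcases T.eq_empty_or_nonempty with hTe | hTne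
  · have hGe : G = ∅ := by
      rw [hTe] at hTcov
      simpa using hTcov
    rw [hGe]; simp
  obtain ⟨e, he⟩ := hTc.exists_eq_range hTne
  have heG : ∀ n, e n ∈ G := fun n => hTG (by rw [he]; exact mem_range_self n)
  set O : ℕ → Set ℂ := fun k => ⋃ n ∈ Finset.range k, N (e n) with hO
  set V : ℕ → Set ℂ := fun k => ⋃ n ∈ Finset.range k, closure (N (e n)) with hV
  have hOV : ∀ k, O k ⊆ interior (V k) := by
    intro k
    refine interior_maximal ?_ (isOpen_biUnion fun n _ => hNo _ (heG n))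
    exact iUnion₂_mono fun n _ => subset_closure
  have hVc : ∀ k, IsCompact (V k) := fun k =>
    (Finset.range k).isCompact_biUnion fun n _ => hNc _ (heG n)
  have hVW : ∀ k, V k ⊆ W := fun k => iUnion₂_subset fun n _ => hNW _ (heG n)
  have hVf : ∀ k, Disjoint (frontier (V k)) E := by
    intro k
    rw [disjoint_left]
    intro z hz hzE
    rw [(hVc k).isClosed.frontier_eq] at hz
    obtain ⟨n, hn, hzn⟩ := mem_iUnion₂.1 hz.1
    have h1 : z ∉ N (e n) := fun h => hz.2 (hOV k (mem_iUnion₂.2 ⟨n, hn, h⟩))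
    have h2 : z ∈ frontier (N (e n)) := by
      rw [(hNo _ (heG n)).frontier_eq]; exact ⟨hzn, h1⟩
    exact disjoint_left.1 (hNf _ (heG n)) h2 hzE
  have hmono : Monotone O := fun k l hkl =>
    biUnion_subset_biUnion_left (by
      intro n hn
      simp only [Finset.coe_range, Set.mem_Iio] at hn ⊢
      exact lt_of_lt_of_le hn hkl)
  have hcov : G ⊆ ⋃ k, O k := by
    intro z hz
    obtain ⟨x, hx, hzx⟩ := mem_iUnion₂.1 (hTcov hz)
    rw [he] at hx
    obtain ⟨n, rfl⟩ := hx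
    exact mem_iUnion.2 ⟨n + 1, mem_iUnion₂.2 ⟨n, by simp, hzx⟩⟩
  -- one stage
  have stage : ∀ k, volume (β '' (G ∩ O k)) ≤ η := by
    intro k
    set K : Set ℂ := L ∩ V k with hK
    have hKc : IsCompact K := (hVc k).inter_left hL
    -- the classes
    set ι : Type := {C : Set ℂ // ∃ z ∈ G ∩ O k, C = connectedComponentIn K z} with hι
    have hmem : ∀ z ∈ G ∩ O k, z ∈ K := fun z hz =>
      ⟨(hGL hz.1).1, interior_subset (hOV k hz.2)⟩
    have hCc : ∀ C : ι, IsCompact C.1 := by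
      rintro ⟨C, z, hz, rfl⟩
      exact isCompact_cc hKc z
    have hCp : ∀ C : ι, IsPreconnected C.1 := by
      rintro ⟨C, z, hz, rfl⟩
      exact isPreconnected_connectedComponentIn
    have hCL : ∀ C : ι, C.1 ⊆ L := by
      rintro ⟨C, z, hz, rfl⟩
      exact (connectedComponentIn_subset _ _).trans inter_subset_left
    have hCV : ∀ C : ι, C.1 ⊆ V k := by
      rintro ⟨C, z, hz, rfl⟩
      exact (connectedComponentIn_subset _ _).trans inter_subset_right
    have hCU : ∀ C : ι, (C.1 \ E).Nonempty := by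
      rintro ⟨C, z, hz, rfl⟩
      obtain ⟨p, hp1, hp2⟩ := Uni_659.comp_meets hL hLn (hVc k) (hGL hz.1).1 (hmem z hz).2
      exact ⟨p, hp1, disjoint_left.1 (hVf k) hp2⟩
    have hCs : ∀ C : ι, Sat E C.1 := by
      rintro ⟨C, z, hz, rfl⟩ w hw hwE
      have hwK : w ∈ K := connectedComponentIn_subset _ _ hw
      have h1 : connectedComponentIn E w ⊆ K := fun x hx =>
        ⟨sat w hwK.1 hwE hx, interior_subset (cc_subset_interior (hVf k) hwE hwK.2 hx)⟩
      change connectedComponentIn E w ⊆ connectedComponentIn K z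
      rw [connectedComponentIn_eq (show w ∈ connectedComponentIn K z from hw)]
      exact isPreconnected_connectedComponentIn.subset_connectedComponentIn
        (mem_connectedComponentIn hwE) h1
    have hCd : Pairwise (Function.onFun Disjoint fun C : ι => C.1) := by
      rintro ⟨C, z, hz, rfl⟩ ⟨D, w, hw, rfl⟩ hne
      rw [Function.onFun, disjoint_left]
      intro x hx1 hx2
      apply hne
      apply Subtype.ext
      change connectedComponentIn K z = connectedComponentIn K w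
      rw [connectedComponentIn_eq hx1, connectedComponentIn_eq hx2]
    -- countably many
    have hcount : Countable ι := by
      have h1 := Measure.countable_meas_pos_of_disjoint_iUnion (μ := μ)
        (As := fun C : ι => C.1 \ E)
        (fun C => (hCc C).isClosed.measurableSet.diff hE.isClosed.measurableSet)
        (fun C D hCD => (hCd hCD).mono sdiff_subset sdiff_subset)
      have h2 : {C : ι | 0 < μ (C.1 \ E)} = univ := by
        refine eq_univ_of_forall fun C => ?_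
        obtain ⟨z, hz, hC⟩ := C.2
        obtain ⟨C', hC', h3, h4, h5⟩ := exists_sub hE (hCc C) (hCp C) (hCU C) (z := z)
          (by rw [hC]; exact mem_connectedComponentIn (hmem z hz)) (hGE hz.1)
        have h6 := pos C' (hC'.trans (sdiff_subset_sdiff_left (hCL C))) h3 h4 h5
        exact (pos_iff_ne_zero.2 h6).trans_le (measure_mono hC')
      rw [h2] at h1
      exact countable_univ_iff.1 h1
    have hsub : β '' (G ∩ O k) ⊆ ⋃ C : ι, β '' (C.1 ∩ G) := by
      rintro _ ⟨z, hz, rfl⟩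
      exact mem_iUnion.2 ⟨⟨_, z, hz, rfl⟩, z,
        ⟨mem_connectedComponentIn (hmem z hz), hz.1⟩, rfl⟩
    refine (measure_mono hsub).trans ((measure_iUnion_le _).trans ?_)
    rw [ENNReal.tsum_eq_iSup_sum]
    refine iSup_le fun F => ?_
    have hH : ∀ C : ι, ∀ p ∈ C.1 \ E, ∀ q ∈ C.1 \ E, |b p - b q| ≤ η := fun C p hp q hq =>
      hWv.one ⟨hCc C, hCp C, hCs C, subset_inter (hCL C) ((hCV C).trans (hVW k)), hp, hq⟩
    have key : ∀ ε > 0, ∑ C ∈ F, volume (β '' (C.1 ∩ G)) ≤ ENNReal.ofReal (η + F.card * ε) := by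
      intro ε hε
      have h3 : ∀ C : ι, ∃ p q : ℂ, p ∈ C.1 \ E ∧ q ∈ C.1 \ E ∧
          volume (β '' (C.1 ∩ G)) ≤ ENNReal.ofReal (|b p - b q| + ε) := by
        intro C
        obtain ⟨p, hp, q, hq, h⟩ := osc_class' hE (hCc C) (hCp C) (hCU C) (hCL C) hGE hb (hH C) hε
        exact ⟨p, q, hp, hq, h⟩
      choose p q hp hq hpq using h3
      set P : Set ℂ → ℂ := fun C => if h : ∃ z ∈ G ∩ O k, C = connectedComponentIn K z then
        p ⟨C, h⟩ else 0 with hP
      set Q : Set ℂ → ℂ := fun C => if h : ∃ z ∈ G ∩ O k, C = connectedComponentIn K z then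
        q ⟨C, h⟩ else 0 with hQ
      have hPv : ∀ C : ι, P C.1 = p C := fun C => (dif_pos C.2).trans rfl
      have hQv : ∀ C : ι, Q C.1 = q C := fun C => (dif_pos C.2).trans rfl
      have h4 := hWv (F.map (Function.Embedding.subtype _)) P Q (by
        intro C hC
        obtain ⟨D, hD, rfl⟩ := Finset.mem_map.1 hC
        rw [Function.Embedding.subtype_apply, hPv, hQv]
        exact ⟨hCc D, hCp D, hCs D, subset_inter (hCL D) ((hCV D).trans (hVW k)), hp D, hq D⟩)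
        (by
          intro C hC D hD hne
          obtain ⟨C', hC', rfl⟩ := Finset.mem_map.1 hC
          obtain ⟨D', hD', rfl⟩ := Finset.mem_map.1 hD
          exact hCd (fun h => hne (by rw [h])))
      rw [Finset.sum_map] at h4
      simp only [Function.Embedding.subtype_apply, hPv, hQv] at h4
      calc ∑ C ∈ F, volume (β '' (C.1 ∩ G)) ≤ ∑ C ∈ F, ENNReal.ofReal (|b (p C) - b (q C)| + ε) :=
            Finset.sum_le_sum fun C _ => hpq C
        _ = ENNReal.ofReal (∑ C ∈ F, (|b (p C) - b (q C)| + ε)) :=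
            (ENNReal.ofReal_sum_of_nonneg fun C _ => by positivity).symm
        _ ≤ ENNReal.ofReal (η + F.card * ε) := by
            refine ENNReal.ofReal_le_ofReal ?_
            rw [Finset.sum_add_distrib, Finset.sum_const, nsmul_eq_mul]
            linarith
    have h5 : Tendsto (fun ε : ℝ => ENNReal.ofReal ((η : ℝ) + F.card * ε)) (𝓝[>] 0)
        (𝓝 (ENNReal.ofReal ((η : ℝ) + F.card * 0))) :=
      (ENNReal.continuous_ofReal.tendsto _).comp
        (tendsto_nhdsWithin_of_tendsto_nhds (Continuous.tendsto (by fun_prop) _))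
    rw [mul_zero, add_zero, ENNReal.ofReal_coe_nnreal] at h5
    exact ge_of_tendsto h5 (eventually_nhdsWithin_of_forall fun ε hε => key ε hε)
  have h1 : β '' G = ⋃ k, β '' (G ∩ O k) := by
    rw [← image_iUnion, ← inter_iUnion, inter_eq_left.2 hcov]
  have h2 : Monotone fun k => β '' (G ∩ O k) := fun k l hkl =>
    image_mono (inter_subset_inter_right _ (hmono hkl))
  rw [h1, h2.directed_le.measure_iUnion]
  exact iSup_le stage


/-- **(Y') : limits along `L`**, Cauchy form -/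
theorem lim_alongN (hE : IsCompact E) (hL : IsClosed L) (hLn : Uni_659.NoIsland L)
    (sat : Sat E L) {x : ℂ → ℝ} (hx : ContinuousOn x Eᶜ) {z : ℂ}
    (hzL : z ∈ L) (hzE : z ∈ E)
    (hvar : ∀ η > 0, ∃ W, IsOpen W ∧ connectedComponentIn E z ⊆ W ∧ VarLe E L W x η) {δ : ℝ}
    (hδ : 0 < δ) : ∃ O, IsOpen O ∧ connectedComponentIn E z ⊆ O ∧
      ∀ p ∈ (O ∩ L) \ E, ∀ q ∈ (O ∩ L) \ E, |x p - x q| ≤ δ := by
  have hEo : IsOpen Eᶜ := hE.isClosed.isOpen_compl
  obtain ⟨W, hWo, hzW, hW⟩ := hvar (δ / 6) (by positivity)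
  obtain ⟨N, hNo, hzN, hNW, hNc, hNf⟩ := thin_nhd hE hzE hWo hzW
  set K : Set ℂ := L ∩ closure N with hK
  have hKc : IsCompact K := hNc.inter_left hL
  have hfr : Disjoint (frontier (closure N)) E := hNf.mono_left frontier_closure_subset
  have hzN' : z ∈ N := hzN (mem_connectedComponentIn hzE)
  have hzK : z ∈ K := ⟨hzL, subset_closure hzN'⟩
  -- the pieces
  have hbump : ∀ w ∈ K, (connectedComponentIn K w ∩ frontier (closure N)).Nonempty := fun w hw =>
    Uni_659.comp_meets hL hLn hNc hw.1 hw.2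
  have hpiece : ∀ w ∈ K, ∀ p ∈ connectedComponentIn K w \ E, ∀ q ∈ connectedComponentIn K w \ E,
      |x p - x q| ≤ δ / 6 := by
    intro w hw p hp q hq
    refine hW.one (C := connectedComponentIn K w) ⟨isCompact_cc hKc w,
      isPreconnected_connectedComponentIn, ?_, ?_, hp, hq⟩
    · intro v hv hvE
      have hvK : v ∈ K := connectedComponentIn_subset _ _ hv
      have h1 : connectedComponentIn E v ⊆ K := fun u hu =>
        ⟨sat v hvK.1 hvE hu, interior_subset (cc_subset_interior hfr hvE hvK.2 hu)⟩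
      rw [connectedComponentIn_eq hv]
      exact isPreconnected_connectedComponentIn.subset_connectedComponentIn
        (mem_connectedComponentIn hvE) h1
    · exact fun v hv => ⟨(connectedComponentIn_subset _ _ hv).1,
        hNW (connectedComponentIn_subset _ _ hv).2⟩
  obtain ⟨e₀, he₀, he₀f⟩ := hbump z hzK
  have he₀E : e₀ ∉ E := disjoint_left.1 hfr he₀f
  -- the open set `O₁`
  set O₁ : Set ℂ := {e | e ∈ Eᶜ ∧ |x e - x e₀| < 2 * (δ / 6)} with hO₁
  have hO₁o : IsOpen O₁ := by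
    have h1 : ContinuousOn (fun e => |x e - x e₀|) Eᶜ := (hx.sub continuousOn_const).abs
    have h2 := h1.isOpen_inter_preimage hEo (isOpen_Iio (a := 2 * (δ / 6)))
    exact h2
  have hP : IsOpen (O₁ ∪ (frontier (closure N))ᶜ) := hO₁o.union isClosed_frontier.isOpen_compl
  have hMP : connectedComponentIn K z ⊆ O₁ ∪ (frontier (closure N))ᶜ := by
    intro e he
    by_cases hef : e ∈ frontier (closure N)
    · have heE : e ∉ E := disjoint_left.1 hfr hef
      refine Or.inl ⟨heE, ?_⟩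
      have := hpiece z hzK e ⟨he, heE⟩ e₀ ⟨he₀, he₀E⟩
      linarith
    · exact Or.inr hef
  obtain ⟨K₁, h1, h2, h1K, hCK, hKP⟩ := exists_clopen hKc hzK hP hMP
  have hzK₁ : connectedComponentIn E z ⊆ K₁ := by
    refine subset_trans ?_ hCK
    refine isPreconnected_connectedComponentIn.subset_connectedComponentIn
      (mem_connectedComponentIn hzE) fun u hu => ⟨sat z hzL hzE hu, subset_closure (hzN hu)⟩
  refine ⟨N \ (K \ K₁), hNo.sdiff h2.isClosed, fun u hu => ⟨hzN hu, fun h => h.2 (hzK₁ hu)⟩, ?_⟩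
  have main : ∀ p ∈ ((N \ (K \ K₁)) ∩ L) \ E, |x p - x e₀| < 3 * (δ / 6) := by
    rintro p ⟨⟨⟨hpN, hpK₁⟩, hpL⟩, hpE⟩
    have hpK : p ∈ K := ⟨hpL, subset_closure hpN⟩
    have hpK1 : p ∈ K₁ := by
      by_contra h
      exact hpK₁ ⟨hpK, h⟩
    obtain ⟨e, he, hef⟩ := hbump p hpK
    have heE : e ∉ E := disjoint_left.1 hfr hef
    have heK₁ : e ∈ K₁ := by
      have hpre : IsPreconnected (connectedComponentIn K p) := isPreconnected_connectedComponentIn
      have hsub : connectedComponentIn K p ⊆ K₁ := by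
        refine (isPreconnected_iff_subset_of_disjoint_closed.1 hpre K₁ (K \ K₁) h1.isClosed
          h2.isClosed (fun u hu => ?_) ?_).resolve_right fun hsub => ?_
        · by_cases hu1 : u ∈ K₁
          · exact Or.inl hu1
          · exact Or.inr ⟨connectedComponentIn_subset _ _ hu, hu1⟩
        · ext u; simp only [mem_inter_iff, mem_empty_iff_false, iff_false]
          rintro ⟨-, hu, -, hu'⟩; exact hu' hu
        · exact (hsub (mem_connectedComponentIn hpK)).2 hpK1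
      exact hsub he
    have h3 := hpiece p hpK p ⟨mem_connectedComponentIn hpK, hpE⟩ e ⟨he, heE⟩
    have h4 : |x e - x e₀| < 2 * (δ / 6) := by
      rcases hKP heK₁ with h | h
      · exact h.2
      · exact absurd hef h
    calc |x p - x e₀| ≤ |x p - x e| + |x e - x e₀| := abs_sub_le _ _ _
      _ < 3 * (δ / 6) := by linarith
  intro p hp q hq
  have h3 := main p hp
  have h4 := main q hq
  rw [abs_sub_comm] at h4
  have := abs_sub_le (x p) (x e₀) (x q)
  linarith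

/-- points of `L` off `E` near the component of `z` -/
theorem exists_near_LN (hE : IsCompact E) (hL : IsClosed L) (hLn : Uni_659.NoIsland L)
    {z : ℂ} (hzL : z ∈ L) (hzE : z ∈ E) {O : Set ℂ}
    (hO : IsOpen O) (hzO : connectedComponentIn E z ⊆ O) : ∃ p, p ∈ (O ∩ L) \ E := by
  obtain ⟨N, hNo, hzN, hNO, hNc, hNf⟩ := thin_nhd hE hzE hO hzO
  obtain ⟨p, hp1, hp2⟩ := Uni_659.comp_meets hL hLn hNc hzL
    (subset_closure (hzN (mem_connectedComponentIn hzE)))
  have hp3 : p ∈ L ∩ closure N := connectedComponentIn_subset _ _ hp1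
  exact ⟨p, ⟨hNO hp3.2, hp3.1⟩, disjoint_left.1 hNf (frontier_closure_subset hp2)⟩

/-- **(Y')** existence of the limit -/
theorem exists_limN (hE : IsCompact E) (hL : IsClosed L) (hLn : Uni_659.NoIsland L)
    {x : ℂ → ℝ} {z : ℂ} (hzL : z ∈ L) (hzE : z ∈ E)
    (h : ∀ δ > 0, ∃ O, IsOpen O ∧ connectedComponentIn E z ⊆ O ∧
      ∀ p ∈ (O ∩ L) \ E, ∀ q ∈ (O ∩ L) \ E, |x p - x q| ≤ δ) : ∃ β, LimAt E L x z β := by
  set f : Filter ℂ := 𝓝ˢ (connectedComponentIn E z) ⊓ 𝓟 (L \ E) with hf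
  have hmem : ∀ O, IsOpen O → connectedComponentIn E z ⊆ O → (O ∩ L) \ E ∈ f := by
    intro O hO hzO
    rw [inter_sdiff_assoc]
    exact inter_mem_inf (hO.mem_nhdsSet.2 hzO) (mem_principal_self _)
  have hfne : f.NeBot := by
    rw [hf, inf_neBot_iff]
    intro s hs t ht
    obtain ⟨O, hO, hzO, hOs⟩ := mem_nhdsSet_iff_exists.1 hs
    obtain ⟨p, hp⟩ := exists_near_LN hE hL hLn hzL hzE hO hzO
    exact ⟨p, hOs hp.1.1, (mem_principal.1 ht) ⟨hp.1.2, hp.2⟩⟩
  have hC : Cauchy (f.map x) := by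
    rw [Metric.cauchy_iff]
    refine ⟨hfne.map x, fun ε hε => ?_⟩
    obtain ⟨O, hO, hzO, h1⟩ := h (ε / 2) (half_pos hε)
    refine ⟨x '' ((O ∩ L) \ E), image_mem_map (hmem O hO hzO), ?_⟩
    rintro _ ⟨p, hp, rfl⟩ _ ⟨q, hq, rfl⟩
    rw [Real.dist_eq]
    linarith [h1 p hp q hq]
  obtain ⟨β, hβ⟩ := CompleteSpace.complete hC
  refine ⟨β, fun δ hδ => ?_⟩
  have h1 : ∀ᶠ w in f, |x w - β| < δ := by
    have := (show Tendsto x f (𝓝 β) from hβ).eventually (Metric.ball_mem_nhds β hδ)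
    filter_upwards [this] with w hw
    simpa [Real.dist_eq] using hw
  rw [hf, eventually_inf_principal, eventually_nhdsSet_iff_exists] at h1
  obtain ⟨O, hO, hzO, hOb⟩ := h1
  exact ⟨O, hO, hzO, fun w hw => hOb w hw.1.1 ⟨hw.1.2, hw.2⟩⟩

/-- limits of `b` along `L` at the uncharged components -/
theorem exists_betaN (hE : IsCompact E) (hL : IsClosed L) (hLn : Uni_659.NoIsland L)
    (sat : Sat E L)
    (hSE : ∀ K ∈ S, ∃ z ∈ E, K = connectedComponentIn E z)
    (hx : ContinuousOn x Eᶜ) (hy : ContinuousOn y Eᶜ) (hvx : SmV E L S x) (hvy : SmV E L S y)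
    (hlip : ∀ z ∈ (L ∩ E) \ ⋃₀ S, LipAt E L x y b z) :
    ∃ β : ℂ → ℝ, ∀ z ∈ (L ∩ E) \ ⋃₀ S, LimAt E L b z (β z) := by
  have h : ∀ z ∈ (L ∩ E) \ ⋃₀ S, ∃ β, LimAt E L b z β := by
    intro z hz
    have hsat := sat_rest hSE sat
    have hzG : connectedComponentIn E z ⊆ (L ∩ E) \ ⋃₀ S := hsat z hz hz.1.2
    have hX : ∀ η > 0, ∃ W, IsOpen W ∧ connectedComponentIn E z ⊆ W ∧ VarLe E L W x η :=
      fun η hη => (hvx η hη).imp fun W h => ⟨h.1, hzG.trans h.2.1, h.2.2⟩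
    have hY : ∀ η > 0, ∃ W, IsOpen W ∧ connectedComponentIn E z ⊆ W ∧ VarLe E L W y η :=
      fun η hη => (hvy η hη).imp fun W h => ⟨h.1, hzG.trans h.2.1, h.2.2⟩
    obtain ⟨O, M, hO, hzO, hM⟩ := hlip z hz
    refine exists_limN hE hL hLn hz.1.1 hz.1.2 fun δ hδ => ?_
    have hM1 : 0 < 2 * (|M| + 1) := by positivity
    obtain ⟨O₁, hO₁, hzO₁, h1⟩ := lim_alongN hE hL hLn sat hx hz.1.1 hz.1.2 hX
      (show 0 < δ / (2 * (|M| + 1)) by positivity)
    obtain ⟨O₂, hO₂, hzO₂, h2⟩ := lim_alongN hE hL hLn sat hy hz.1.1 hz.1.2 hY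
      (show 0 < δ / (2 * (|M| + 1)) by positivity)
    refine ⟨O ∩ (O₁ ∩ O₂), hO.inter (hO₁.inter hO₂), subset_inter hzO (subset_inter hzO₁ hzO₂),
      fun p hp q hq => ?_⟩
    have h3 := hM p ⟨⟨hp.1.1.1, hp.1.2⟩, hp.2⟩ q ⟨⟨hq.1.1.1, hq.1.2⟩, hq.2⟩
    have h4 := h1 p ⟨⟨hp.1.1.2.1, hp.1.2⟩, hp.2⟩ q ⟨⟨hq.1.1.2.1, hq.1.2⟩, hq.2⟩
    have h5 := h2 p ⟨⟨hp.1.1.2.2, hp.1.2⟩, hp.2⟩ q ⟨⟨hq.1.1.2.2, hq.1.2⟩, hq.2⟩
    calc |b p - b q| ≤ M * (|x p - x q| + |y p - y q|) := h3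
      _ ≤ (|M| + 1) * (|x p - x q| + |y p - y q|) :=
          mul_le_mul_of_nonneg_right (by linarith [le_abs_self M]) (by positivity)
      _ ≤ (|M| + 1) * (δ / (2 * (|M| + 1)) + δ / (2 * (|M| + 1))) :=
          mul_le_mul_of_nonneg_left (add_le_add h4 h5) (by positivity)
      _ = δ := by field_simp; ring
  choose! β hβ using h
  exact ⟨β, hβ⟩

/-- the limit values are null -/
theorem beta_nullN (hE : IsCompact E) (hL : IsClosed L) (hLn : Uni_659.NoIsland L)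
    (sat : Sat E L) (μ : Measure ℂ) [SigmaFinite μ]
    (pos : ∀ C ⊆ L \ E, IsCompact C → IsPreconnected C → C.Nontrivial → μ C ≠ 0)
    (hSE : ∀ K ∈ S, ∃ z ∈ E, K = connectedComponentIn E z)
    (hvx : SmV E L S x) (hvy : SmV E L S y)
    (hlip : ∀ z ∈ (L ∩ E) \ ⋃₀ S, LipAt E L x y b z)
    {β : ℂ → ℝ} (hβ : ∀ z ∈ (L ∩ E) \ ⋃₀ S, LimAt E L b z (β z)) :
    volume (β '' ((L ∩ E) \ ⋃₀ S)) = 0 := by
  set G : Set ℂ := (L ∩ E) \ ⋃₀ S with hG
  have hGs : Sat E G := sat_rest hSE sat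
  have hGE : G ⊆ E := fun z hz => hz.1.2
  choose! O M hO hzO hM using hlip
  have hN : ∀ z ∈ G, ∃ N, IsOpen N ∧ connectedComponentIn E z ⊆ N ∧ closure N ⊆ O z ∧
      IsCompact (closure N) ∧ Disjoint (frontier N) E := fun z hz =>
    thin_nhd hE (hGE hz) (hO z hz) (hzO z hz)
  choose! N hNo hzN hNO hNc hNf using hN
  have hzN' : ∀ z ∈ G, z ∈ N z := fun z hz => hzN z hz (mem_connectedComponentIn (hGE hz))
  obtain ⟨T, hTG, hTc, hTcov⟩ := TopologicalSpace.countable_cover_nhdsWithin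
    (s := G) (f := N) (fun z hz => mem_nhdsWithin_of_mem_nhds ((hNo z hz).mem_nhds (hzN' z hz)))
  have hsub : β '' G ⊆ ⋃ z ∈ T, β '' (G ∩ N z) := by
    rintro _ ⟨w, hw, rfl⟩
    obtain ⟨z, hz, hwz⟩ := mem_iUnion₂.1 (hTcov hw)
    exact mem_iUnion₂.2 ⟨z, hz, w, ⟨hw, hwz⟩, rfl⟩
  refine measure_mono_null hsub ((measure_biUnion_null_iff hTc).2 fun z hzT => ?_)
  have hz := hTG hzT
  refine null_of_varN' hE hL hLn sat μ pos (G := G ∩ N z) (b := b)
    (fun w hw => hw.1.1) ?_ (fun w hw => hβ w hw.1) ?_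
  · intro w hw hwE v hv
    refine ⟨hGs w hw.1 hwE hv, ?_⟩
    have h1 := cc_subset_interior (hNf z hz) hwE hw.2 hv
    rwa [(hNo z hz).interior_eq] at h1
  · intro η hη
    have hM1 : 0 < 2 * (|M z| + 1) := by positivity
    obtain ⟨W₁, hW₁, hGW₁, h1⟩ := hvx (η / (2 * (|M z| + 1))) (by positivity)
    obtain ⟨W₂, hW₂, hGW₂, h2⟩ := hvy (η / (2 * (|M z| + 1))) (by positivity)
    refine ⟨N z ∩ (W₁ ∩ W₂), (hNo z hz).inter (hW₁.inter hW₂),
      fun w hw => ⟨hw.2, hGW₁ hw.1, hGW₂ hw.1⟩, ?_⟩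
    have h1' := h1.mono (W' := N z ∩ (W₁ ∩ W₂)) (fun w hw => hw.2.1) le_rfl
    have h2' := h2.mono (W' := N z ∩ (W₁ ∩ W₂)) (fun w hw => hw.2.2) le_rfl
    intro F p q hF hd
    have h3 := h1' F p q hF hd
    have h4 := h2' F p q hF hd
    have hmemO : ∀ C ∈ F, ∀ r ∈ C \ E, r ∈ (O z ∩ L) \ E := fun C hC r hr =>
      ⟨⟨hNO z hz (subset_closure ((hF C hC).sub hr.1).2.1), ((hF C hC).sub hr.1).1⟩, hr.2⟩
    calc ∑ C ∈ F, |b (p C) - b (q C)|
        ≤ ∑ C ∈ F, (|M z| + 1) * (|x (p C) - x (q C)| + |y (p C) - y (q C)|) := by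
          refine Finset.sum_le_sum fun C hC => ?_
          refine (hM z hz _ (hmemO C hC _ (hF C hC).hp) _ (hmemO C hC _ (hF C hC).hq)).trans ?_
          exact mul_le_mul_of_nonneg_right (by linarith [le_abs_self (M z)]) (by positivity)
      _ = (|M z| + 1) * (∑ C ∈ F, |x (p C) - x (q C)| + ∑ C ∈ F, |y (p C) - y (q C)|) := by
          rw [← Finset.mul_sum, Finset.sum_add_distrib]
      _ ≤ (|M z| + 1) * (η / (2 * (|M z| + 1)) + η / (2 * (|M z| + 1))) :=
          mul_le_mul_of_nonneg_left (add_le_add h3 h4) (by positivity)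
      _ = η := by field_simp; ring

/-- **(2')** sums over disjoint pieces -/
theorem sum_planarN (hE : IsCompact E) (hL : IsClosed L) (hLn : Uni_659.NoIsland L)
    (sat : Sat E L)
    (μ : Measure ℂ) [SigmaFinite μ]
    (pos : ∀ C ⊆ L \ E, IsCompact C → IsPreconnected C → C.Nontrivial → μ C ≠ 0)
    (hSc : S.Countable) (hSE : ∀ K ∈ S, ∃ z ∈ E, K = connectedComponentIn E z)
    (hx : ContinuousOn x Eᶜ) (hy : ContinuousOn y Eᶜ) (hb : ContinuousOn b Eᶜ)
    (hvx : SmV E L S x) (hvy : SmV E L S y)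
    (hlip : ∀ z ∈ (L ∩ E) \ ⋃₀ S, LipAt E L x y b z)
    {σ : Set ℂ → ℝ} (hσ : ∀ K ∈ S, K ⊆ L → ChLe E L b K (σ K))
    (F : Finset (Set ℂ)) (p q : Set ℂ → ℂ) (hF : ∀ C ∈ F, Piece E (L ∩ W) C (p C) (q C))
    (hd : (F : Set (Set ℂ)).PairwiseDisjoint id) :
    open Classical in
    ∑ C ∈ F, ENNReal.ofReal |b (p C) - b (q C)| ≤ ∑ C ∈ F, volume (b '' (C \ E)) +
      ∑' K : S, if K.1 ⊆ L ∩ W then ENNReal.ofReal (σ K.1) else 0 := by
  classical
  obtain ⟨β, hβ⟩ := exists_betaN hE hL hLn sat hSE hx hy hvx hvy hlip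
  have hnull := beta_nullN hE hL hLn sat μ pos hSE hvx hvy hlip hβ
  have hF' : ∀ C ∈ F, Piece E L C (p C) (q C) := fun C hC =>
    ⟨(hF C hC).cpt, (hF C hC).conn, (hF C hC).sat, fun w hw => ((hF C hC).sub hw).1,
      (hF C hC).hp, (hF C hC).hq⟩
  refine (Finset.sum_le_sum fun C hC =>
    piece_planar hE hb hSc hSE hσ hβ hnull (hF' C hC)).trans ?_
  rw [Finset.sum_add_distrib]
  refine add_le_add le_rfl ?_
  rw [← Summable.tsum_finsetSum fun i _ => ENNReal.summable]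
  refine ENNReal.tsum_le_tsum fun K => ?_
  obtain ⟨z, hz⟩ : K.1.Nonempty := by
    obtain ⟨v, hv, h⟩ := hSE K.1 K.2
    rw [h]; exact ⟨v, mem_connectedComponentIn hv⟩
  by_cases hex : ∃ C ∈ F, K.1 ⊆ C
  · obtain ⟨C, hC, hKC⟩ := hex
    rw [Finset.sum_eq_single_of_mem C hC]
    · rw [if_pos hKC, if_pos (hKC.trans (hF C hC).sub)]
    · intro D hD hDC
      rw [if_neg]
      intro hKD
      exact disjoint_left.1 (hd hD hC hDC) (hKD hz) (hKC hz)
  · rw [Finset.sum_eq_zero fun C hC => if_neg fun h => hex ⟨C, hC, h⟩]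
    exact zero_le

/-- **(2')** in the form of 439's multiplicity: charges only on the components in `S` -/
theorem varLe_planarN (hE : IsCompact E) (hL : IsClosed L) (hLn : Uni_659.NoIsland L)
    (sat : Sat E L)
    (μ : Measure ℂ) [SigmaFinite μ]
    (pos : ∀ C ⊆ L \ E, IsCompact C → IsPreconnected C → C.Nontrivial → μ C ≠ 0)
    (hSc : S.Countable) (hSE : ∀ K ∈ S, ∃ z ∈ E, K = connectedComponentIn E z)
    (hx : ContinuousOn x Eᶜ) (hy : ContinuousOn y Eᶜ) (hb : ContinuousOn b Eᶜ)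
    (hvx : SmV E L S x) (hvy : SmV E L S y)
    (hlip : ∀ z ∈ (L ∩ E) \ ⋃₀ S, LipAt E L x y b z)
    {σ : Set ℂ → ℝ} (hσ : ∀ K ∈ S, K ⊆ L → ChLe E L b K (σ K))
    {a : ℂ → ℝ} {t : ℝ} (ha : ∀ z ∈ L \ E, a z = t) {η : ℝ} (hη : 0 ≤ η)
    (h : open Classical in Vs_439.mul a b (W \ E) t +
      ∑' K : S, (if K.1 ⊆ L ∩ W then ENNReal.ofReal (σ K.1) else 0) ≤ ENNReal.ofReal η) :
    VarLe E L W b η := by
  classical
  intro F p q hF hd
  have h1 := sum_planarN hE hL hLn sat μ pos hSc hSE hx hy hb hvx hvy hlip hσ F p q hF hd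
  have h2 : ∑ C ∈ F, volume (b '' (C \ E)) ≤ Vs_439.mul a b (W \ E) t := by
    refine le_trans (Finset.sum_le_sum fun C hC => ?_) (Vs_439.sum_image_le (a := a) (b := b)
      (S := W \ E) (t := t) F (C := fun C => C) (fun C hC => (hF C hC).cpt)
      (fun C hC D hD hne => hd hC hD hne)
      fun C hC z hz hzS => ha z ⟨((hF C hC).sub hz).1, hzS.2⟩)
    refine measure_mono (image_mono fun z hz => ⟨hz.1, ((hF C hC).sub hz.1).2, hz.2⟩)
  have h3 := h1.trans ((add_le_add_left h2 _).trans h)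
  rw [← ENNReal.ofReal_sum_of_nonneg fun C _ => abs_nonneg _] at h3
  exact (ENNReal.ofReal_le_ofReal_iff hη).1 h3

end Crest.Agent.R105.Plv_626
end

-- ▼ part R105/Nie2_909

/-!
# Row 105, S0138 (NI frame), node NIEP, part 2 (helper909): the abstract theorem `nie`

`A = x0 + a` switched anchor, `P` countable set of components (solids), `X`, `y` the coordinates.
If for a.e. `t` both `X` and `y` have small variation along the level `t` of `A` near `Y` off the
solids, and the functions `b n` are near every component off the solids Lipschitz functions of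
`(X, y)` along the level (constants arbitrary) and have charges `c n K` at the solids (`Σ (c n)²`
bounded), energies bounded, `b n → f` pointwise off `Y`, `f ∈ TT`, then `NI Y a f`.
-/

set_option autoImplicit false

open MeasureTheory Set Filter Topology Metric
open scoped NNReal ENNReal

namespace Crest.Agent.R105.Nie_909

open Bd_775 Tc_808 Ni_459 Crest.AnalysisR Sl_732 IfB_641 Plv_626
open Vs_439 (mul)

noncomputable section

variable {Y : Set ℂ} {x0 a f A : ℂ → ℝ}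

/-- the underlying sets of the components in `P` -/
abbrev Sv (P : Set (Cmp Y)) : Set (Set ℂ) := (fun K : Cmp Y => K.1) '' P

lemma Sv_comp (P : Set (Cmp Y)) : ∀ K ∈ Sv P, ∃ z ∈ Y, K = connectedComponentIn Y z := by
  rintro _ ⟨K, -, rfl⟩
  exact K.2

lemma Lv_closed (hY : IsExteriorDomain Yᶜ) (hA : LB A) (t : ℝ) : IsClosed (Lv Y A t) :=
  ((lsc_lo hY hA).isClosed_preimage t).inter ((usc_up hY hA).isClosed_preimage t)

lemma Lv_sat (t : ℝ) : Sat Y (Lv Y A t) := by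
  intro z hz hzY w hw
  have h1 := up_congr_cc (u := A) hzY hw
  have h2 := lo_congr_cc (u := A) hzY hw
  refine ⟨?_, ?_⟩
  · rw [h2]; exact hz.1
  · rw [h1]; exact hz.2


/-- charges as a function of sets -/
def chS (c : Cmp Y → ℝ) (K : Set ℂ) : ℝ :=
  open Classical in if h : ∃ z ∈ Y, K = connectedComponentIn Y z then c ⟨K, h⟩ else 0

lemma chS_eq (c : Cmp Y → ℝ) (K : Cmp Y) : chS c K.1 = c K := by
  unfold chS
  rw [dif_pos K.2]
  rfl

/-- small variation of the limit along a.e. level -/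
theorem smv_planar (hY : IsExteriorDomain Yᶜ) (hx : X0 Y x0) (ha : TT Y a)
    (hs : Swd Y (fun z => x0 z + a z)) {P : Set (Cmp Y)} (hP : P.Countable)
    {X y : ℂ → ℝ} (hX : ContinuousOn X Yᶜ) (hy : ContinuousOn y Yᶜ)
    (hvX : ∀ᵐ t : ℝ, SmV Y (Lv Y (fun z => x0 z + a z) t) (Sv P) X)
    (hvy : ∀ᵐ t : ℝ, SmV Y (Lv Y (fun z => x0 z + a z) t) (Sv P) y)
    {c : ℕ → Cmp Y → ℝ} (hc0 : ∀ n K, 0 ≤ c n K) {C : ℝ≥0∞} (hC : C ≠ ∞)
    (hcs : ∀ n, ∑' K : P, ENNReal.ofReal (c n K.1 ^ 2) ≤ C)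
    {b : ℕ → ℂ → ℝ} (hb : ∀ n, LocallyLipschitzOn Yᶜ (b n))
    (hbf : ∀ z ∉ Y, Tendsto (fun n => b n z) atTop (𝓝 (f z)))
    {M : ℝ≥0∞} (hM : M ≠ ∞) (hen : ∀ n, ∫⁻ z in Yᶜ, ENNReal.ofReal (en (b n) z) ≤ M)
    (hlip : ∀ n, ∀ᵐ t : ℝ, ∀ z ∈ (Lv Y (fun z => x0 z + a z) t ∩ Y) \ ⋃₀ Sv P,
      LipAt Y (Lv Y (fun z => x0 z + a z) t) X y (b n) z)
    (hch : ∀ n, ∀ᵐ t : ℝ, ∀ K ∈ P, K.1 ⊆ Lv Y (fun z => x0 z + a z) t →
      ChLe Y (Lv Y (fun z => x0 z + a z) t) (b n) K.1 (c n K)) :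
    ∀ᵐ t : ℝ, SmV Y (Lv Y (fun z => x0 z + a z) t) (Sv P) f := by
  classical
  set A : ℂ → ℝ := fun z => x0 z + a z with hA
  have hYc := cpt_of hY
  have hAl : LocallyLipschitzOn Yᶜ A := Nip_31.ll_x0 hx ha
  have hAb : LB A := Nip_31.lb_x0 hx ha
  refine smv_core hY hx ha hP hc0 hC hcs hb hbf hM hen fun n => ?_
  filter_upwards [hvX, hvy, hlip n, hch n,
    Nip_31.pos_ae hY hAl hAb (Nip_31.en_x0_fin hY hx ha)] with t h1 h2 h3 h4 h5 W hW r hr0 hr
  obtain ⟨μ, hμ, hμC⟩ := h5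
  have hLc := Lv_closed hY hAb t
  refine varLe_planarN hYc hLc
    (Uni_659.noIsland_nLv hY hAb (fun z hz => Nip_31.contAt hY hAl hz) hs t) (Lv_sat t) μ hμC
    (hP.image _) (Sv_comp P) hX hy (hb n).continuousOn h1 h2 h3 (σ := chS (c n)) ?_
    (a := A) (t := t) ?_ hr0 ?_
  · rintro _ ⟨K, hK, rfl⟩ hKL
    rw [chS_eq]
    exact h4 K hK hKL
  · rintro z ⟨hz, hzY⟩
    have h6 := hz.1
    have h7 := hz.2
    rw [Nip_31.lo_eq hY hAl hAb hzY] at h6
    rw [Nip_31.up_eq hY hAl hAb hzY] at h7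
    exact le_antisymm h6 h7
  · refine le_trans (add_le_add le_rfl ?_) hr
    have h6 := tsum_image (fun K : Set ℂ => if K ⊆ Lv Y A t ∩ W then
      ENNReal.ofReal (chS (c n) K) else 0) (Subtype.val_injective.injOn (s := P))
    rw [show (∑' K : Sv P, if K.1 ⊆ Lv Y A t ∩ W then ENNReal.ofReal (chS (c n) K.1) else 0) =
      ∑' K : P, if K.1.1 ⊆ Lv Y A t ∩ W then ENNReal.ofReal (chS (c n) K.1.1) else 0 from h6]
    unfold sqc
    refine ENNReal.tsum_le_tsum fun K => ?_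
    by_cases h : K.1.1 ⊆ Lv Y A t ∩ W
    · have h8 := (h (Nip_31.pt_mem K.1)).1
      rw [if_pos h, if_pos ⟨fun z hz => (h hz).2, h8.1, h8.2⟩, chS_eq]
    · rw [if_neg h]; exact zero_le

/-- **the abstract theorem**, `f` continuous off `Y`, jumps in `l²` -/
theorem nieG (hY : IsExteriorDomain Yᶜ) (hx : X0 Y x0) (ha : TT Y a)
    (hs : Swd Y (fun z => x0 z + a z)) (hfb : LB f) (hfc : ∀ z ∉ Y, ContinuousAt f z)
    (hfs : Summable fun K : Cmp Y => osc Y f K.1 ^ 2) {P : Set (Cmp Y)} (hP : P.Countable)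
    {X y : ℂ → ℝ} (hX : ContinuousOn X Yᶜ) (hy : ContinuousOn y Yᶜ)
    (hvX : ∀ᵐ t : ℝ, SmV Y (Lv Y (fun z => x0 z + a z) t) (Sv P) X)
    (hvy : ∀ᵐ t : ℝ, SmV Y (Lv Y (fun z => x0 z + a z) t) (Sv P) y)
    {c : ℕ → Cmp Y → ℝ} (hc0 : ∀ n K, 0 ≤ c n K) {C : ℝ≥0∞} (hC : C ≠ ∞)
    (hcs : ∀ n, ∑' K : P, ENNReal.ofReal (c n K.1 ^ 2) ≤ C)
    {b : ℕ → ℂ → ℝ} (hb : ∀ n, LocallyLipschitzOn Yᶜ (b n))
    (hbf : ∀ z ∉ Y, Tendsto (fun n => b n z) atTop (𝓝 (f z)))
    {M : ℝ≥0∞} (hM : M ≠ ∞) (hen : ∀ n, ∫⁻ z in Yᶜ, ENNReal.ofReal (en (b n) z) ≤ M)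
    (hlip : ∀ n, ∀ᵐ t : ℝ, ∀ z ∈ (Lv Y (fun z => x0 z + a z) t ∩ Y) \ ⋃₀ Sv P,
      LipAt Y (Lv Y (fun z => x0 z + a z) t) X y (b n) z)
    (hch : ∀ n, ∀ᵐ t : ℝ, ∀ K ∈ P, K.1 ⊆ Lv Y (fun z => x0 z + a z) t →
      ChLe Y (Lv Y (fun z => x0 z + a z) t) (b n) K.1 (c n K)) :
    NI Y a f :=
  ni_of_smv hY hx ha hs hfb hfc hfs hP
    (smv_planar hY hx ha hs hP hX hy hvX hvy hc0 hC hcs hb hbf hM hen hlip hch)


end

end Crest.Agent.R105.Nie_909
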