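import Mathlib
import Crest.Agent.R165.GeoP2_67
import Crest.Agent.Lib.Bieberbach
import Crest.Agent.R105.FKd_644
import Crest.Agent.R132.Exterior
import Crest.Agent.R165.GeoP3_67
import Crest.Agent.R105.FK1_644
import Crest.Agent.R105.Red2_828
import Crest.Agent.R105.FK3_644

-- ▼ part R105/Slt1_107
section

/-!
Row 105 (helper107), slit maps, part 1: Cauchy's theorem (Dixon's proof), primitives, logarithms and square
roots in a connected open set `U` (bounded or not) such that no nonempty compact subset of `Uᶜ` is relatively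
open in `Uᶜ` (`NC U`). Adapted from R165/GeoP1_67, GeoP2_67.
-/

set_option autoImplicit false

open Set Filter Topology Metric Complex MeasureTheory

namespace Crest.Agent.R105.Slt_107

open Crest.Agent.R165.GeoPx67

noncomputable section

/-- no nonempty compact subset of `Uᶜ` is relatively open in `Uᶜ` -/
def NC (U : Set ℂ) : Prop :=
  ∀ A O : Set ℂ, IsCompact A → IsOpen O → A = O ∩ Uᶜ → A = ∅

section index

variable {K : Set ℂ} {L : (ℂ → ℂ) → ℂ}

theorem continuousOn_kernel {z : ℂ} (hz : z ∉ K) : ContinuousOn (fun w => (w - z)⁻¹) K := by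
  refine ContinuousOn.inv₀ (by fun_prop) ?_
  intro w hw h0
  exact hz (by rwa [← sub_eq_zero.1 h0])

theorem index_loc (hKc : IsCompact K) (hL : Cur K L)
    (hcl : ∀ f F : ℂ → ℂ, ContinuousOn f K → (∀ w ∈ K, HasDerivAt F (f w) w) → L f = 0)
    {z₀ : ℂ} (hz₀ : z₀ ∉ K) :
    ∀ᶠ z in 𝓝 z₀, z ∉ K ∧ L (fun w => (w - z)⁻¹) = L (fun w => (w - z₀)⁻¹) := by
  obtain ⟨δ, hδ, hδK⟩ := Metric.isOpen_iff.1 hKc.isClosed.isOpen_compl z₀ hz₀
  filter_upwards [Metric.ball_mem_nhds z₀ hδ] with z hz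
  have hzK : z ∉ K := hδK hz
  refine ⟨hzK, ?_⟩
  have hlt : ∀ w ∈ K, ‖z - z₀‖ < ‖w - z₀‖ := by
    intro w hw
    have h1 : δ ≤ ‖w - z₀‖ := by
      by_contra hcon
      push Not at hcon
      exact hδK (show w ∈ ball z₀ δ by rwa [mem_ball, dist_eq_norm]) hw
    rw [mem_ball, dist_eq_norm] at hz
    linarith
  have h0 := hcl (fun w => (w - z)⁻¹ - (w - z₀)⁻¹) (fun w => Complex.log ((w - z) / (w - z₀)))
    ((continuousOn_kernel hzK).sub (continuousOn_kernel hz₀))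
    (fun w hw => hasDerivAt_log_ratio (hlt w hw))
  have h1 : L (fun w => (w - z)⁻¹ - (w - z₀)⁻¹) =
      L (fun w => (w - z)⁻¹) - L (fun w => (w - z₀)⁻¹) := by
    have e1 := hL.add (fun w => (w - z)⁻¹) (fun w => (-1:ℂ) * (w - z₀)⁻¹)
      (continuousOn_kernel hzK) ((continuousOn_kernel hz₀).const_smul (-1:ℂ))
    have e2 := hL.smul (-1) (fun w => (w - z₀)⁻¹)
    rw [e2] at e1
    have e3 : (fun w : ℂ => (w - z)⁻¹ + (-1:ℂ) * (w - z₀)⁻¹) =
        (fun w => (w - z)⁻¹ - (w - z₀)⁻¹) := by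
      funext w; ring
    rw [e3] at e1
    rw [e1]; ring
  rw [h1] at h0
  exact sub_eq_zero.1 h0

theorem index_far
    (hcl : ∀ f F : ℂ → ℂ, ContinuousOn f K → (∀ w ∈ K, HasDerivAt F (f w) w) → L f = 0)
    {R : ℝ} (hKR : ∀ w ∈ K, ‖w‖ < R) {z : ℂ} (hz : R ≤ ‖z‖) : L (fun w => (w - z)⁻¹) = 0 := by
  have hzK : z ∉ K := fun h => absurd (hKR z h) (not_lt.2 hz)
  exact hcl _ _ (continuousOn_kernel hzK)
    (fun w hw => hasDerivAt_log_far (lt_of_lt_of_le (hKR w hw) hz))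

theorem exists_radius (hKc : IsCompact K) : ∃ R : ℝ, ∀ w ∈ K, ‖w‖ < R := by
  obtain ⟨R, hR⟩ := hKc.isBounded.subset_ball (0:ℂ)
  exact ⟨R, fun w hw => by simpa using hR hw⟩

theorem index_zero {U : Set ℂ} (hU : IsOpen U) (hNC : NC U) (hKc : IsCompact K) (hKU : K ⊆ U)
    (hL : Cur K L)
    (hcl : ∀ f F : ℂ → ℂ, ContinuousOn f K → (∀ w ∈ K, HasDerivAt F (f w) w) → L f = 0)
    {z : ℂ} (hz : z ∉ U) : L (fun w => (w - z)⁻¹) = 0 := by
  obtain ⟨R, hKR⟩ := exists_radius hKc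
  set V : Set ℂ := {z | z ∉ K ∧ L (fun w => (w - z)⁻¹) = 0} with hV
  have hVo : IsOpen V := by
    rw [isOpen_iff_mem_nhds]
    rintro z₀ ⟨hz₀, h0⟩
    filter_upwards [index_loc hKc hL hcl hz₀] with z hz
    exact ⟨hz.1, hz.2.trans h0⟩
  set W : Set ℂ := {z | z ∉ K ∧ L (fun w => (w - z)⁻¹) ≠ 0} with hW
  have hWo : IsOpen W := by
    rw [isOpen_iff_mem_nhds]
    rintro z₀ ⟨hz₀, h0⟩
    filter_upwards [index_loc hKc hL hcl hz₀] with z hz
    exact ⟨hz.1, by rw [hz.2]; exact h0⟩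
  have hA : W ∩ Uᶜ = Uᶜ ∩ Vᶜ := by
    ext y
    constructor
    · rintro ⟨⟨h1, h2⟩, h3⟩
      exact ⟨h3, fun h4 => h2 h4.2⟩
    · rintro ⟨h1, h2⟩
      exact ⟨⟨fun h => h1 (hKU h), fun h => h2 ⟨fun h => h1 (hKU h), h⟩⟩, h1⟩
  have hAc : IsCompact (W ∩ Uᶜ) := by
    refine (isCompact_closedBall (0:ℂ) R).of_isClosed_subset ?_ ?_
    · rw [hA]
      exact hU.isClosed_compl.inter hVo.isClosed_compl
    · rintro y ⟨⟨h1, h2⟩, h3⟩
      rw [mem_closedBall_zero_iff]
      by_contra hcon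
      push Not at hcon
      exact h2 (index_far hcl hKR hcon.le)
  have h0 := hNC _ W hAc hWo rfl
  by_contra hcon
  have : z ∈ W ∩ Uᶜ := ⟨⟨fun h => hz (hKU h), hcon⟩, hz⟩
  rw [h0] at this
  exact this

end index

/-! ### Dixon's theorem -/

theorem dixon' {U K : Set ℂ} {L : (ℂ → ℂ) → ℂ} (hU : IsOpen U) (hKc : IsCompact K) (hKU : K ⊆ U)
    (hL : Cur K L)
    (hcl : ∀ f F : ℂ → ℂ, ContinuousOn f K → (∀ w ∈ K, HasDerivAt F (f w) w) → L f = 0)
    (hind : ∀ z ∉ U, L (fun w => (w - z)⁻¹) = 0) {z₁ : ℂ} (hz₁ : z₁ ∉ U)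
    {g : ℂ → ℂ} (hg : DifferentiableOn ℂ g U) : L g = 0 := by
  obtain ⟨R, hKR⟩ := exists_radius hKc
  set φ : ℂ → ℂ := fun z => L (fun w => (w - z)⁻¹) with hφ
  have hcontinv : ∀ z ∉ K, ContinuousOn (fun w => (w - z)⁻¹) K := fun z hz =>
    continuousOn_kernel hz
  -- V
  set V : Set ℂ := {z | z ∉ K ∧ φ z = 0} with hV
  have hVo : IsOpen V := by
    rw [isOpen_iff_mem_nhds]
    rintro z₀ ⟨hz₀, h0⟩
    filter_upwards [index_loc hKc hL hcl hz₀] with z hz
    exact ⟨hz.1, hz.2.trans h0⟩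
  have hUcV : Uᶜ ⊆ V := fun z hz => ⟨fun h => hz (hKU h), hind z hz⟩
  -- the key statement
  have key : ∀ G : ℂ → ℂ, DifferentiableOn ℂ G U → ∀ z ∉ U, L (fun w => G w * (w - z)⁻¹) = 0 := by
    classical
    intro G hG
    have hGK : ContinuousOn G K := hG.continuousOn.mono hKU
    set h₁ : ℂ → ℂ := fun z => L (fun w => dslope G z w) with hh₁
    set h₂ : ℂ → ℂ := fun z => L (fun w => G w * (w - z)⁻¹) with hh₂
    have hd1 : DifferentiableOn ℂ h₁ U := by
      refine hL.param U (fun q => dslope G q.1 q.2) hU ?_ ?_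
      · rintro ⟨z, w⟩ ⟨hz, hw⟩
        exact (continuousAt_dslope_prod hU hG hz (hKU hw)).continuousWithinAt
      · intro w hw
        exact differentiableOn_dslope_left hU hG (hKU hw)
    have hd2 : DifferentiableOn ℂ h₂ Kᶜ := by
      refine hL.param Kᶜ (fun q => G q.2 * (q.2 - q.1)⁻¹) hKc.isClosed.isOpen_compl ?_ ?_
      · refine ContinuousOn.mul (hGK.comp continuousOn_snd (fun q hq => hq.2)) ?_
        refine ContinuousOn.inv₀ (by fun_prop) ?_
        rintro ⟨z, w⟩ ⟨hz, hw⟩ h0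
        have h1 : w = z := sub_eq_zero.1 h0
        exact hz (by rw [← h1]; exact hw)
      · intro w hw
        have hne : ∀ z ∈ Kᶜ, w - z ≠ 0 := by
          intro z hz h0
          have h1 : w = z := sub_eq_zero.1 h0
          exact hz (by rw [← h1]; exact hw)
        have hid : DifferentiableOn ℂ (fun z : ℂ => w - z) Kᶜ := by fun_prop
        exact (hid.inv hne).const_mul (G w)
    have heq : ∀ z ∈ V, z ∈ U → h₁ z = h₂ z := by
      rintro z ⟨hzK, hz0⟩ hzU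
      have e1 : h₁ z = L (fun w => G w * (w - z)⁻¹ + (-G z) * (w - z)⁻¹) := by
        refine hL.congr _ _ (fun w hw => ?_)
        have hne : w ≠ z := fun h => hzK (by rw [← h]; exact hw)
        rw [dslope_of_ne G hne, slope_def_field]
        have : w - z ≠ 0 := sub_ne_zero.2 hne
        field_simp
        ring
      have e2 := hL.add (fun w => G w * (w - z)⁻¹) (fun w => (-G z) * (w - z)⁻¹)
        (hGK.mul (hcontinv z hzK)) ((hcontinv z hzK).const_smul (-G z))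
      have e3 := hL.smul (-G z) (fun w => (w - z)⁻¹)
      rw [e1, e2, e3]
      change h₂ z + -G z * φ z = h₂ z
      rw [hz0]; ring
    set h : ℂ → ℂ := fun z => if z ∈ U then h₁ z else h₂ z with hh
    have hV2 : ∀ z ∈ V, h z = h₂ z := by
      intro z hz
      by_cases hzU : z ∈ U
      · simp only [hh, hzU, if_true]
        exact heq z hz hzU
      · simp only [hh, hzU, if_false]
    have hhd : Differentiable ℂ h := by
      intro z
      by_cases hz : z ∈ U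
      · have : h =ᶠ[𝓝 z] h₁ := by
          filter_upwards [hU.mem_nhds hz] with y hy
          simp [hh, hy]
        exact (hd1.differentiableAt (hU.mem_nhds hz)).congr_of_eventuallyEq this
      · have hzV : z ∈ V := hUcV hz
        have : h =ᶠ[𝓝 z] h₂ := by
          filter_upwards [hVo.mem_nhds hzV] with y hy
          exact hV2 y hy
        exact (hd2.differentiableAt (hKc.isClosed.isOpen_compl.mem_nhds hzV.1)).congr_of_eventuallyEq
          this
    have hlim : Tendsto h (cocompact ℂ) (𝓝 0) := by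
      obtain ⟨C, hC, hCb⟩ := hL.bound
      obtain ⟨B, hB⟩ := hKc.exists_bound_of_continuousOn hGK
      have hlim2 : Tendsto (fun z : ℂ => C * ((max B 0) * (‖z‖ - R)⁻¹)) (cocompact ℂ) (𝓝 0) := by
        have h1 : Tendsto (fun z : ℂ => ‖z‖ - R) (cocompact ℂ) atTop :=
          tendsto_atTop_add_const_right _ _ tendsto_norm_cocompact_atTop
        have h2 := (h1.inv_tendsto_atTop.const_mul (max B 0)).const_mul C
        simpa using h2
      refine squeeze_zero_norm' ?_ hlim2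
      have hev : ∀ᶠ z : ℂ in cocompact ℂ, R < ‖z‖ :=
        tendsto_norm_cocompact_atTop.eventually_gt_atTop R
      filter_upwards [hev] with z hz
      have hzK : z ∉ K := fun h => absurd (hKR z h) (not_lt.2 hz.le)
      have hzV : z ∈ V := ⟨hzK, index_far hcl hKR hz.le⟩
      rw [hV2 z hzV]
      refine hCb _ _ ?_ ?_
      · exact mul_nonneg (le_max_right _ _) (inv_nonneg.2 (by linarith))
      · intro w hw
        rw [norm_mul, norm_inv]
        have h3 : ‖z‖ - R ≤ ‖w - z‖ := by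
          have h4 : ‖z‖ - ‖w‖ ≤ ‖z - w‖ := norm_sub_norm_le z w
          rw [norm_sub_rev] at h4
          have h5 := hKR w hw
          linarith
        have h6 : 0 < ‖z‖ - R := by linarith
        gcongr
        exact (hB w hw).trans (le_max_left _ _)
    intro z hz
    have h0 : h z = 0 := hhd.apply_eq_of_tendsto_cocompact z hlim
    have : h z = h₂ z := by simp only [hh, hz, if_false]
    rw [this] at h0
    exact h0
  -- conclusion
  have hfin := key (fun w => (w - z₁) * g w)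
    ((show DifferentiableOn ℂ (fun w : ℂ => w - z₁) U by fun_prop).mul hg) z₁ hz₁
  rw [← hfin]
  refine hL.congr _ _ (fun w hw => ?_)
  have hne : w - z₁ ≠ 0 := by
    intro h0
    have : w = z₁ := sub_eq_zero.1 h0
    exact hz₁ (by rw [← this]; exact hKU hw)
  field_simp

theorem cauchy_poly' {U : Set ℂ} (hU : IsOpen U) (hNC : NC U) {z₁ : ℂ} (hz₁ : z₁ ∉ U)
    {g : ℂ → ℂ} (hg : DifferentiableOn ℂ g U)
    {a b : ℂ} {n m : ℕ} {p q : ℕ → ℂ} (hp : Poly U a b n p) (hq : Poly U a b m q) :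
    polyI p n g = polyI q m g := by
  set K : Set ℂ := (⋃ i ∈ Finset.range n, segment ℝ (p i) (p (i+1))) ∪
    (⋃ i ∈ Finset.range m, segment ℝ (q i) (q (i+1))) with hK
  have hKc : IsCompact K := by
    refine IsCompact.union ?_ ?_
    · exact (Finset.range n).isCompact_biUnion (fun i _ => isCompact_segment _ _)
    · exact (Finset.range m).isCompact_biUnion (fun i _ => isCompact_segment _ _)
  have hKU : K ⊆ U := by
    refine union_subset ?_ ?_
    · exact iUnion₂_subset (fun i hi => hp.sub i (Finset.mem_range.1 hi))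
    · exact iUnion₂_subset (fun i hi => hq.sub i (Finset.mem_range.1 hi))
  have hpK : ∀ i < n, segment ℝ (p i) (p (i+1)) ⊆ K := fun i hi =>
    subset_union_of_subset_left
      (subset_biUnion_of_mem (u := fun i => segment ℝ (p i) (p (i+1))) (Finset.mem_range.2 hi)) _
  have hqK : ∀ i < m, segment ℝ (q i) (q (i+1)) ⊆ K := fun i hi =>
    subset_union_of_subset_right
      (subset_biUnion_of_mem (u := fun i => segment ℝ (q i) (q (i+1))) (Finset.mem_range.2 hi)) _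
  have hcur : Cur K (fun f => polyI p n f - polyI q m f) := (cur_polyI hpK).sub (cur_polyI hqK)
  have hcl : ∀ f F : ℂ → ℂ, ContinuousOn f K → (∀ w ∈ K, HasDerivAt F (f w) w) →
      (fun f => polyI p n f - polyI q m f) f = 0 := fun f F hf hF => by
    simp only
    rw [polyI_prim hpK hf hF, polyI_prim hqK hf hF, hp.start, hp.fin, hq.start, hq.fin]
    ring
  have := dixon' hU hKc hKU hcur hcl (fun z hz => index_zero hU hNC hKc hKU hcur hcl hz) hz₁ hg
  exact sub_eq_zero.1 this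

/-! ### primitives, logarithms, square roots -/

theorem exists_primitive' {U : Set ℂ} (hU : IsOpen U) (hc : IsPreconnected U)
    (hNC : NC U) {z₁ : ℂ} (hz₁ : z₁ ∉ U) {g : ℂ → ℂ}
    (hg : DifferentiableOn ℂ g U) : ∃ F : ℂ → ℂ, ∀ z ∈ U, HasDerivAt F (g z) z := by
  classical
  rcases U.eq_empty_or_nonempty with rfl | ⟨a, ha⟩
  · exact ⟨0, fun z hz => absurd hz (notMem_empty z)⟩
  have hex : ∀ z : ℂ, ∃ np : ℕ × (ℕ → ℂ), z ∈ U → Poly U a z np.1 np.2 := by
    intro z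
    by_cases hz : z ∈ U
    · obtain ⟨ℓ, n, p, hp, -⟩ := exists_JL hU hc ha hz
      exact ⟨(n, p), fun _ => hp⟩
    · exact ⟨(0, fun _ => 0), fun h => absurd h hz⟩
  choose P hP using hex
  refine ⟨fun z => polyI (P z).2 (P z).1 g, fun z hz => ?_⟩
  obtain ⟨ε, hε, hεU⟩ := Metric.isOpen_iff.1 hU z hz
  obtain ⟨G, hG⟩ := (DifferentiableOn.isExactOn_ball (hg.mono hεU))
  have hev : (fun y => polyI (P y).2 (P y).1 g) =ᶠ[𝓝 z]
      fun y => polyI (P z).2 (P z).1 g + (G y - G z) := by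
    filter_upwards [Metric.ball_mem_nhds z hε] with y hy
    have hseg : segment ℝ z y ⊆ ball z ε :=
      (convex_ball z ε).segment_subset (mem_ball_self hε) hy
    obtain ⟨q, hq, hqi, -⟩ := (hP z hz).snoc (hseg.trans hεU)
    rw [cauchy_poly' hU hNC hz₁ hg (hP y (hεU hy)) hq, hqi,
      segI_prim ((hg.continuousOn.mono hεU).mono hseg) (fun w hw => hG w (hseg hw))]
  have h1 : HasDerivAt (fun y => polyI (P z).2 (P z).1 g + (G y - G z)) (g z) z :=
    ((hG z (mem_ball_self hε)).sub_const _).const_add _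
  exact h1.congr_of_eventuallyEq hev

theorem exists_log' {U : Set ℂ} (hU : IsOpen U) (hc : IsPreconnected U)
    (hNC : NC U) {z₁ : ℂ} (hz₁ : z₁ ∉ U) {f : ℂ → ℂ}
    (hf : DifferentiableOn ℂ f U) (h0 : ∀ z ∈ U, f z ≠ 0) :
    ∃ l : ℂ → ℂ, DifferentiableOn ℂ l U ∧ ∀ z ∈ U, Complex.exp (l z) = f z := by
  rcases U.eq_empty_or_nonempty with rfl | ⟨a, ha⟩
  · exact ⟨0, differentiableOn_empty, fun z hz => absurd hz (notMem_empty z)⟩
  have hd : DifferentiableOn ℂ (deriv f) U := hf.deriv hU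
  obtain ⟨F, hF⟩ := exists_primitive' hU hc hNC hz₁ (hd.div hf h0)
  have hF0 : ∀ z ∈ U, HasDerivAt (fun z => f z * Complex.exp (-F z)) 0 z := by
    intro z hz
    have h1 := (hf.differentiableAt (hU.mem_nhds hz)).hasDerivAt
    have h2 := ((hF z hz).neg).cexp
    have h3 := h1.mul h2
    refine h3.congr_deriv ?_
    have := h0 z hz
    simp only [Pi.div_apply]
    field_simp
    ring
  obtain ⟨c, hcc⟩ : ∃ c, ∀ z ∈ U, f z * Complex.exp (-F z) = c := by
    refine ⟨f a * Complex.exp (-F a), fun z hz => ?_⟩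
    obtain ⟨ℓ, hℓ⟩ := exists_JL hU hc ha hz
    have := hℓ.lipC (f := fun z => f z * Complex.exp (-F z)) hU
      (fun z hz => (hF0 z hz).differentiableAt.differentiableWithinAt) (B := 0)
      (fun z hz => by rw [(hF0 z hz).deriv]; simp) le_rfl
    rw [zero_mul, norm_le_zero_iff, sub_eq_zero] at this
    exact this
  have hc0 : c ≠ 0 := by
    rw [← hcc a ha]
    exact mul_ne_zero (h0 a ha) (Complex.exp_ne_zero _)
  refine ⟨fun z => F z + Complex.log c, fun z hz =>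
    ((hF z hz).differentiableAt.add_const _).differentiableWithinAt, fun z hz => ?_⟩
  rw [Complex.exp_add, Complex.exp_log hc0, ← hcc z hz, Complex.exp_neg]
  field_simp [Complex.exp_ne_zero]

theorem exists_sqrt' {U : Set ℂ} (hU : IsOpen U) (hc : IsPreconnected U)
    (hNC : NC U) {z₁ : ℂ} (hz₁ : z₁ ∉ U) {f : ℂ → ℂ}
    (hf : DifferentiableOn ℂ f U) (h0 : ∀ z ∈ U, f z ≠ 0) :
    ∃ s : ℂ → ℂ, DifferentiableOn ℂ s U ∧ ∀ z ∈ U, s z ^ 2 = f z := by
  obtain ⟨l, hl, hle⟩ := exists_log' hU hc hNC hz₁ hf h0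
  refine ⟨fun z => Complex.exp (l z / 2), (hl.div_const 2).cexp, fun z hz => ?_⟩
  rw [← Complex.exp_nat_mul, ← hle z hz]
  congr 1
  push_cast
  ring

end

end Crest.Agent.R105.Slt_107
end

-- ▼ part R105/Slt2_107
section

/-!
Row 105 (helper107), slit maps, part 2: the area theorem with its equality case, for
`F t = 1/t + H t`, `H` holomorphic on the unit disc, `F` injective on the punctured disc:
`‖H'(0)‖ ≤ 1`, and `‖H'(0)‖ = 1` only if `H t = H 0 + H'(0) t`.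
-/

set_option autoImplicit false

open MeasureTheory Metric Set Filter Topology
open scoped ComplexConjugate Real

namespace Crest.Agent.R105.Slt_107

open Crest.Agent.Lib.Bieberbach

theorem lower_pt_eq (b z k : ℂ) (hz : z ≠ 0) {ρ : ℝ} (hρ : ‖z‖ = ρ) :
    (1 / ρ ^ 4 + ‖b‖ ^ 2) +
      ((-(2 / (ρ:ℂ) ^ 4) * b * z ^ 2 + 2 * (-(z ^ 2) / (ρ:ℂ) ^ 4 + conj b) * (k - b))).re
      = ‖-(z ^ 2)⁻¹ + k‖ ^ 2 - ‖k - b‖ ^ 2 := by
  have hρ0 : 0 < ρ := by rw [← hρ]; exact norm_pos_iff.2 hz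
  have hρc : (ρ : ℂ) ≠ 0 := by exact_mod_cast hρ0.ne'
  have hzz : z * conj z = (ρ : ℂ) ^ 2 := by
    rw [Complex.mul_conj, Complex.normSq_eq_norm_sq, hρ]; push_cast; ring
  have hcz : conj z ≠ 0 := by
    intro h; apply hz; simpa using h
  -- conj of the principal part
  set p : ℂ := -(z ^ 2)⁻¹ + b with hp
  have hcp : conj p = -(z ^ 2) / (ρ:ℂ) ^ 4 + conj b := by
    rw [hp]
    simp only [map_add, map_neg, map_inv₀, map_pow]
    have : ((ρ:ℂ)) ^ 4 = z ^ 2 * conj z ^ 2 := by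
      rw [← mul_pow, hzz]; ring
    rw [this]
    field_simp
  have h1 : ‖-(z ^ 2)⁻¹ + k‖ ^ 2 = ‖p‖ ^ 2 + 2 * (conj p * (k - b)).re + ‖k - b‖ ^ 2 := by
    have : -(z ^ 2)⁻¹ + k = p + (k - b) := by rw [hp]; ring
    rw [this, ← Complex.normSq_eq_norm_sq, ← Complex.normSq_eq_norm_sq,
      ← Complex.normSq_eq_norm_sq, Complex.normSq_add]
    have : (p * conj (k - b)).re = (conj p * (k - b)).re := by
      simp [Complex.mul_re]
      ring
    rw [this]; ring
  have h2 : ‖p‖ ^ 2 = 1 / ρ ^ 4 + ‖b‖ ^ 2 + (-(2 / (ρ:ℂ) ^ 4) * b * z ^ 2).re := by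
    have h3 : ((‖p‖ ^ 2 : ℝ) : ℂ) = p * conj p := by
      rw [Complex.mul_conj, Complex.normSq_eq_norm_sq]
    have h4 : ((‖b‖ ^ 2 : ℝ) : ℂ) = b * conj b := by
      rw [Complex.mul_conj, Complex.normSq_eq_norm_sq]
    have h5 : p * conj p = 1 / (ρ:ℂ) ^ 4 + b * conj b + (-(conj b * (z ^ 2)⁻¹)
        - b * z ^ 2 / (ρ:ℂ)^4) := by
      rw [hcp, hp]
      field_simp
      ring
    have h6 : (conj b * (z ^ 2)⁻¹) = conj (b * z ^ 2 / (ρ:ℂ)^4) := by
      simp only [map_div₀, map_mul, map_pow, Complex.conj_ofReal]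
      have : ((ρ:ℂ)) ^ 4 = z ^ 2 * conj z ^ 2 := by
        rw [← mul_pow, hzz]; ring
      rw [this]
      field_simp
    have h7 : (‖p‖ ^ 2 : ℝ) = ((‖p‖ ^ 2 : ℝ) : ℂ).re := (Complex.ofReal_re _).symm
    rw [h7, h3, h5, ← h4, h6]
    have e1 : (-(2 / (ρ:ℂ) ^ 4) * b * z ^ 2) = (-2 : ℝ) * (b * z ^ 2 / (ρ:ℂ)^4) := by
      push_cast; ring
    rw [e1, Complex.re_ofReal_mul]
    have e2 : (1 / (ρ:ℂ) ^ 4) = ((1 / ρ ^ 4 : ℝ) : ℂ) := by push_cast; ring
    rw [e2]
    simp only [Complex.add_re, Complex.sub_re, Complex.neg_re, Complex.ofReal_re,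
      Complex.conj_re]
    ring
  rw [h1, h2, hcp, Complex.add_re]
  have e3 : (2 * (-(z ^ 2) / (ρ:ℂ) ^ 4 + conj b) * (k - b)).re =
      2 * ((-(z ^ 2) / (ρ:ℂ) ^ 4 + conj b) * (k - b)).re := by
    rw [mul_assoc]
    have : (2 : ℂ) = ((2 : ℝ) : ℂ) := by norm_num
    rw [this, Complex.re_ofReal_mul]
  rw [e3]
  ring

theorem area_lower_eq {k : ℂ → ℂ} (hk : DifferentiableOn ℂ k (ball 0 1)) {ε r : ℝ} (hε : 0 < ε)
    (hεr : ε < r) (hr : r < 1) :
    IntegrableOn (fun z : ℂ => ‖-(z ^ 2)⁻¹ + k z‖ ^ 2) (ann ε r) ∧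
    IntegrableOn (fun z : ℂ => ‖k z - k 0‖ ^ 2) (ann ε r) ∧
    π * (1 / ε ^ 2 - 1 / r ^ 2) + π * ‖k 0‖ ^ 2 * (r ^ 2 - ε ^ 2) +
      ∫ z in ann ε r, ‖k z - k 0‖ ^ 2 ≤ ∫ z in ann ε r, ‖-(z ^ 2)⁻¹ + k z‖ ^ 2 := by
  set b : ℂ := k 0 with hb
  have hkc : ContinuousOn k (ball 0 1) := hk.continuousOn
  have hsub : {z : ℂ | ε ≤ ‖z‖ ∧ ‖z‖ ≤ r} ⊆ ball 0 1 := by
    intro z hz
    rw [mem_ball_zero_iff]
    exact lt_of_le_of_lt hz.2 hr
  have hF1 : ContinuousOn (fun z : ℂ => ‖-(z ^ 2)⁻¹ + k z‖ ^ 2) {z : ℂ | ε ≤ ‖z‖ ∧ ‖z‖ ≤ r} := by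
    apply ContinuousOn.pow
    apply ContinuousOn.norm
    apply ContinuousOn.add _ (hkc.mono hsub)
    apply ContinuousOn.neg
    apply ContinuousOn.inv₀ (continuous_pow 2).continuousOn
    intro z hz
    apply pow_ne_zero
    rw [← norm_pos_iff]
    exact lt_of_lt_of_le hε hz.1
  have hF2 : ContinuousOn (fun z : ℂ => ‖k z - b‖ ^ 2) {z : ℂ | ε ≤ ‖z‖ ∧ ‖z‖ ≤ r} :=
    (((hkc.mono hsub).sub continuousOn_const).norm).pow 2
  have hF : ContinuousOn (fun z : ℂ => ‖-(z ^ 2)⁻¹ + k z‖ ^ 2 - ‖k z - b‖ ^ 2)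
      {z : ℂ | ε ≤ ‖z‖ ∧ ‖z‖ ≤ r} := hF1.sub hF2
  obtain ⟨hI1, -, -⟩ := polar_ann hε hF1
  obtain ⟨hI2, -, -⟩ := polar_ann hε hF2
  obtain ⟨hI0, hI, he⟩ := polar_ann hε hF
  refine ⟨hI1, hI2, ?_⟩
  rw [← le_sub_iff_add_le, ← integral_sub hI1 hI2, he]
  -- circle inequality
  have hcirc : ∀ ρ ∈ Ioo ε r, 2 * π * (1 / ρ ^ 3 + ‖b‖ ^ 2 * ρ) ≤
      ∫ θ in Ioo (-π) π, ρ * (‖-(((ρ : ℂ) * eu θ) ^ 2)⁻¹ + k ((ρ : ℂ) * eu θ)‖ ^ 2 -
        ‖k ((ρ : ℂ) * eu θ) - b‖ ^ 2) := by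
    intro ρ hρ
    have hρ0 : 0 < ρ := hε.trans hρ.1
    have hρ1 : ρ < 1 := hρ.2.trans hr
    set Φ : ℂ → ℂ := fun z =>
      -(2 / (ρ:ℂ) ^ 4) * b * z ^ 2 + 2 * (-(z ^ 2) / (ρ:ℂ) ^ 4 + conj b) * (k z - b) with hΦ
    have hΦd : DifferentiableOn ℂ Φ (ball 0 1) := by
      rw [hΦ]
      apply DifferentiableOn.add
      · fun_prop
      · apply DifferentiableOn.mul
        · fun_prop
        · exact hk.sub_const b
    have hΦ0 : Φ 0 = 0 := by simp [hΦ, hb]
    have hm := mean_zero hΦd hρ0 hρ1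
    rw [hΦ0, smul_zero] at hm
    have hcurve : Continuous (fun θ : ℝ => (ρ : ℂ) * eu θ) := by fun_prop
    have hmaps : ∀ θ : ℝ, (ρ : ℂ) * eu θ ∈ ball (0:ℂ) 1 := by
      intro θ
      rw [mem_ball_zero_iff, norm_smul_eu hρ0.le]; exact hρ1
    have hΦcont : Continuous (fun θ : ℝ => Φ ((ρ : ℂ) * eu θ)) :=
      hΦd.continuousOn.comp_continuous hcurve hmaps
    have hFcont : Continuous (fun θ : ℝ =>
        ρ * (‖-(((ρ : ℂ) * eu θ) ^ 2)⁻¹ + k ((ρ : ℂ) * eu θ)‖ ^ 2 -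
          ‖k ((ρ : ℂ) * eu θ) - b‖ ^ 2)) := by
      apply Continuous.mul continuous_const
      apply hF.comp_continuous hcurve
      intro θ
      simp only [mem_ofPred_eq, norm_smul_eu hρ0.le]
      exact ⟨hρ.1.le, hρ.2.le⟩
    rw [← integral_Ioc_eq_integral_Ioo, ← intervalIntegral.integral_of_le (by linarith [Real.pi_pos])]
    have hre : ∫ θ in (-π)..π, (Φ ((ρ : ℂ) * eu θ)).re = 0 := by
      have := Complex.reCLM.intervalIntegral_comp_comm
        (hΦcont.intervalIntegrable (μ := volume) (-π) π)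
      simp only [Complex.reCLM_apply] at this
      rw [this, hm]; simp
    calc 2 * π * (1 / ρ ^ 3 + ‖b‖ ^ 2 * ρ)
        = ∫ θ in (-π)..π, (ρ * (1 / ρ ^ 4 + ‖b‖ ^ 2) + ρ * (Φ ((ρ : ℂ) * eu θ)).re) := by
          have hi2 : IntervalIntegrable (fun θ : ℝ => ρ * (Φ ((ρ : ℂ) * eu θ)).re) volume (-π) π :=
            (continuous_const.mul (Complex.continuous_re.comp hΦcont)).intervalIntegrable _ _
          have hi3 : ∫ θ in (-π)..π, ρ * (Φ ((ρ : ℂ) * eu θ)).re = 0 := by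
            rw [intervalIntegral.integral_const_mul, hre, mul_zero]
          rw [intervalIntegral.integral_add (by simp) hi2, hi3, intervalIntegral.integral_const]
          simp only [smul_eq_mul]
          field_simp
          ring
      _ ≤ _ := by
          apply intervalIntegral.integral_mono_on (by linarith [Real.pi_pos])
          · exact (continuous_const.add
              (continuous_const.mul (Complex.continuous_re.comp hΦcont))).intervalIntegrable _ _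
          · exact hFcont.intervalIntegrable _ _
          · intro θ _
            rw [← mul_add]
            apply mul_le_mul_of_nonneg_left _ hρ0.le
            apply le_of_eq
            apply lower_pt_eq
            · rw [← norm_pos_iff, norm_smul_eu hρ0.le]; exact hρ0
            · exact norm_smul_eu hρ0.le θ
  have hlhs : π * (1 / ε ^ 2 - 1 / r ^ 2) + π * ‖b‖ ^ 2 * (r ^ 2 - ε ^ 2) =
      ∫ ρ in Ioo ε r, 2 * π * (1 / ρ ^ 3 + ‖b‖ ^ 2 * ρ) := by
    rw [← integral_Ioc_eq_integral_Ioo, ← intervalIntegral.integral_of_le hεr.le]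
    have hcont : ContinuousOn (fun ρ : ℝ => 2 * π * (1 / ρ ^ 3 + ‖b‖ ^ 2 * ρ)) (uIcc ε r) := by
      rw [uIcc_of_le hεr.le]
      intro x hx
      have : x ≠ 0 := (hε.trans_le hx.1).ne'
      apply ContinuousAt.continuousWithinAt
      fun_prop (disch := positivity)
    rw [intervalIntegral.integral_eq_sub_of_hasDerivAt
      (f := fun ρ : ℝ => -π * (1 / ρ ^ 2) + π * ‖b‖ ^ 2 * ρ ^ 2)]
    · ring
    · intro x hx
      rw [uIcc_of_le hεr.le] at hx
      have hx0 : x ≠ 0 := (hε.trans_le hx.1).ne'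
      have h1 : HasDerivAt (fun ρ : ℝ => 1 / ρ ^ 2) (-(2 * x) / (x ^ 2) ^ 2) x := by
        have := (hasDerivAt_pow 2 x).fun_inv (pow_ne_zero 2 hx0)
        simpa using this
      have h2 := (h1.const_mul (-π)).add ((hasDerivAt_pow 2 x).const_mul (π * ‖b‖ ^ 2))
      have h3 : -π * (-(2 * x) / (x ^ 2) ^ 2) + π * ‖b‖ ^ 2 * (((2 : ℕ) : ℝ) * x ^ (2 - 1)) =
          2 * π * (1 / x ^ 3 + ‖b‖ ^ 2 * x) := by
        norm_num
        field_simp
      rw [h3] at h2
      exact h2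
    · exact hcont.intervalIntegrable
  rw [hlhs]
  apply setIntegral_mono_on _ hI measurableSet_Ioo hcirc
  have : ContinuousOn (fun ρ : ℝ => 2 * π * (1 / ρ ^ 3 + ‖b‖ ^ 2 * ρ)) (Icc ε r) := by
    intro x hx
    have : x ≠ 0 := (hε.trans_le hx.1).ne'
    apply ContinuousAt.continuousWithinAt
    fun_prop (disch := positivity)
  exact (this.integrableOn_compact isCompact_Icc).mono_set Ioo_subset_Icc_self

theorem isPreconnected_norm_gt' {ρ : ℝ} (hρ : 0 < ρ) : IsPreconnected {w : ℂ | ρ < ‖w‖} := by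
  have h1 : {w : ℂ | ρ < ‖w‖} = Complex.exp '' {z : ℂ | Real.log ρ < z.re} := by
    ext w
    constructor
    · intro hw
      have hw' : ρ < ‖w‖ := hw
      have hw0 : w ≠ 0 := norm_pos_iff.1 (hρ.trans hw')
      refine ⟨Complex.log w, ?_, Complex.exp_log hw0⟩
      simp only [mem_ofPred_eq, Complex.log_re]
      exact Real.log_lt_log hρ hw'
    · rintro ⟨z, hz, rfl⟩
      simp only [mem_ofPred_eq, Complex.norm_exp] at hz ⊢
      exact (Real.log_lt_iff_lt_exp hρ).1 hz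
  rw [h1]
  apply IsPreconnected.image _ _ Complex.continuous_exp.continuousOn
  exact (convex_halfSpace_re_gt _).isPreconnected

/-- the exterior of an ellipse is connected -/
theorem isPreconnected_compl_ell {c : ℂ} (hc : ‖c‖ < 1) {T : ℝ} (hT : 0 < T) :
    IsPreconnected (ell c T)ᶜ := by
  have hd : LinearMap.det (lmap c) ≠ 0 := by
    rw [det_lmap]
    nlinarith [norm_nonneg c]
  set e : ℂ ≃ₗ[ℝ] ℂ := LinearEquiv.ofIsUnitDet (f := lmap c) (v := Complex.basisOneI)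
    (v' := Complex.basisOneI) (by
      rw [LinearMap.det_toMatrix]
      exact hd.isUnit) with he
  have he1 : ∀ w, e w = w - c * conj w := fun w => rfl
  have h1 : (ell c T)ᶜ = e.symm '' {w : ℂ | T < ‖w‖} := by
    ext w
    simp only [mem_compl_iff, ell, mem_ofPred_eq, not_le, mem_image]
    constructor
    · intro h
      exact ⟨e w, by rw [he1]; exact h, e.symm_apply_apply w⟩
    · rintro ⟨v, hv, rfl⟩
      rw [← he1, e.apply_symm_apply]; exact hv
  rw [h1]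
  apply IsPreconnected.image (isPreconnected_norm_gt' hT)
  exact (e.symm.toContinuousLinearEquiv.continuous).continuousOn

theorem isBounded_ell {c : ℂ} (hc : ‖c‖ < 1) {T : ℝ} : Bornology.IsBounded (ell c T) := by
  rw [isBounded_iff_subset_closedBall (0:ℂ)]
  refine ⟨T / (1 - ‖c‖), fun w hw => ?_⟩
  rw [mem_closedBall_zero_iff, le_div_iff₀ (by linarith)]
  have h1 : ‖w - c * conj w‖ ≤ T := hw
  have h2 : ‖w‖ - ‖c * conj w‖ ≤ ‖w - c * conj w‖ := norm_sub_norm_le _ _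
  rw [norm_mul, RCLike.norm_conj] at h2
  nlinarith

/-- the map `1/t + H t` tends to infinity at `0` -/
theorem tendsto_inv_add {H : ℂ → ℂ} (hH : DifferentiableOn ℂ H (ball 0 1)) :
    Tendsto (fun t : ℂ => t⁻¹ + H t) (𝓝[≠] 0) (cocompact ℂ) := by
  rw [← cobounded_eq_cocompact]
  have h1 : Tendsto (fun t : ℂ => t⁻¹) (𝓝[≠] 0) (Bornology.cobounded ℂ) :=
    tendsto_inv₀_nhdsNE_zero
  have h2 : Tendsto H (𝓝[≠] 0) (𝓝 (H 0)) :=
    ((hH.differentiableAt (ball_mem_nhds 0 one_pos)).continuousAt.tendsto).mono_left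
      nhdsWithin_le_nhds
  rw [← tendsto_norm_atTop_iff_cobounded] at h1 ⊢
  have h3 : Tendsto (fun t : ℂ => ‖t⁻¹‖ + (-‖H t‖)) (𝓝[≠] 0) atTop :=
    h1.atTop_add h2.norm.neg
  refine tendsto_atTop_mono (fun t => ?_) h3
  have := norm_sub_norm_le (t⁻¹) (-H t)
  rw [norm_neg, sub_neg_eq_add] at this
  linarith

theorem contain' {F : ℂ → ℂ} (hF : DifferentiableOn ℂ F (ball 0 1 \ {0}))
    (hinj : InjOn F (ball 0 1 \ {0})) (hinf : Tendsto F (𝓝[≠] 0) (cocompact ℂ))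
    {ε : ℝ} (hε : 0 < ε) (hε1 : ε < 1) {E : Set ℂ} (hE : IsPreconnected Eᶜ)
    (hEb : Bornology.IsBounded E) (hsph : ∀ z : ℂ, ‖z‖ = ε → F z ∈ E) :
    Eᶜ ⊆ F '' (ball 0 ε \ {0}) := by
  have hb : ball (0:ℂ) ε \ {0} ⊆ ball 0 1 \ {0} := sdiff_subset_sdiff_left (ball_subset_ball hε1.le)
  have hop : IsOpen (ball (0:ℂ) ε \ {0}) := isOpen_ball.sdiff isClosed_singleton
  -- far away near 0
  have hfar : ∀ M : ℝ, ∃ δ > 0, ∀ t : ℂ, t ≠ 0 → ‖t‖ < δ → M < ‖F t‖ := by
    intro M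
    have h1 : ∀ᶠ t in 𝓝[≠] (0:ℂ), M < ‖F t‖ := by
      have h2 : Tendsto (fun t => ‖F t‖) (𝓝[≠] 0) atTop :=
        (tendsto_norm_cocompact_atTop (E := ℂ)).comp hinf
      exact h2.eventually_gt_atTop M
    rw [eventually_nhdsWithin_iff, Metric.eventually_nhds_iff_ball] at h1
    obtain ⟨δ, hδ, h⟩ := h1
    exact ⟨δ, hδ, fun t ht htδ => h t (by rwa [mem_ball_zero_iff]) ht⟩
  apply hE.subset_left_of_subset_union (u := F '' (ball 0 ε \ {0}))
    (v := (F '' (closedBall 0 ε \ {0}))ᶜ)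
  · exact Crest.Agent.Lib.isOpen_image_of_injOn hop (hF.mono hb) (hinj.mono hb)
  · rw [isOpen_iff_mem_nhds]
    intro w hw
    obtain ⟨δ, hδ, hδF⟩ := hfar (‖w‖ + 1)
    have hcomp : IsCompact (F '' {t : ℂ | δ ≤ ‖t‖ ∧ ‖t‖ ≤ ε}) := by
      apply IsCompact.image_of_continuousOn
      · apply (isCompact_closedBall (0 : ℂ) ε).of_isClosed_subset
        · exact (isClosed_le continuous_const continuous_norm).inter
            (isClosed_le continuous_norm continuous_const)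
        · intro z hz
          simpa using hz.2
      · apply hF.continuousOn.mono
        intro t ht
        refine ⟨?_, ?_⟩
        · rw [mem_ball_zero_iff]; exact lt_of_le_of_lt ht.2 hε1
        · intro h
          rw [mem_singleton_iff] at h
          have := ht.1
          rw [h, norm_zero] at this
          linarith
    have hwn : w ∉ F '' {t : ℂ | δ ≤ ‖t‖ ∧ ‖t‖ ≤ ε} := by
      rintro ⟨t, ht, rfl⟩
      apply hw
      refine ⟨t, ⟨by simpa using ht.2, ?_⟩, rfl⟩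
      intro h
      rw [mem_singleton_iff] at h
      have := ht.1
      rw [h, norm_zero] at this
      linarith
    filter_upwards [hcomp.isClosed.isOpen_compl.mem_nhds hwn, ball_mem_nhds w one_pos] with v hv1 hv2
    rintro ⟨t, ⟨ht1, ht2⟩, rfl⟩
    by_cases h : δ ≤ ‖t‖
    · exact hv1 ⟨t, ⟨h, by simpa using ht1⟩, rfl⟩
    · push Not at h
      have h3 := hδF t ht2 h
      rw [mem_ball, dist_eq_norm] at hv2
      have h4 := norm_sub_norm_le (F t) w
      linarith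
  · rw [Set.disjoint_left]
    intro w h1 h2
    apply h2
    exact image_mono (sdiff_subset_sdiff_left ball_subset_closedBall) h1
  · intro w hw
    by_cases h : w ∈ F '' (closedBall 0 ε \ {0})
    · left
      obtain ⟨t, ⟨ht1, ht2⟩, rfl⟩ := h
      rw [mem_closedBall_zero_iff] at ht1
      rcases ht1.lt_or_eq with h3 | h3
      · exact ⟨t, ⟨by rwa [mem_ball_zero_iff], ht2⟩, rfl⟩
      · exact absurd (hsph t h3) hw
    · right; exact h
  · obtain ⟨M, hM⟩ := (isBounded_iff_subset_closedBall (0:ℂ)).1 hEb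
    obtain ⟨δ, hδ, hδF⟩ := hfar M
    set t : ℂ := ((min δ ε / 2 : ℝ) : ℂ) with ht
    have h0 : 0 < min δ ε / 2 := by positivity
    have htn : ‖t‖ = min δ ε / 2 := by
      rw [ht, Complex.norm_real, Real.norm_eq_abs, abs_of_pos h0]
    have ht0 : t ≠ 0 := by rw [← norm_pos_iff, htn]; exact h0
    have h1 : min δ ε / 2 < δ := by have := min_le_left δ ε; linarith
    have h2 : min δ ε / 2 < ε := by have := min_le_right δ ε; linarith
    refine ⟨F t, ?_, t, ⟨by rw [mem_ball_zero_iff, htn]; exact h2, ht0⟩, rfl⟩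
    intro hmem
    have h3 := hM hmem
    rw [mem_closedBall_zero_iff] at h3
    have h4 := hδF t ht0 (by rw [htn]; exact h1)
    linarith

/-- one step of the area theorem -/
theorem area_step' {h : ℂ → ℂ} (hhd : DifferentiableOn ℂ h (ball 0 1))
    (hinj : InjOn (fun t : ℂ => t⁻¹ + h t) (ball 0 1 \ {0}))
    {C : ℝ} (hC0 : 0 ≤ C)
    (hC : ∀ z : ℂ, ‖z‖ ≤ 1 / 2 → ‖h z - deriv h 0 * z‖ ≤ C * ‖z‖ ^ 2 ∧ ‖h z‖ ≤ C)
    {ε r : ℝ} (hε : 0 < ε) (hε2 : ε ≤ 1 / 2) (hεr : ε < r) (hr : r < 1)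
    (hbε : ‖deriv h 0‖ * ε ^ 2 < 1) :
    (1 / ε ^ 2 - 1 / r ^ 2) + ‖deriv h 0‖ ^ 2 * (r ^ 2 - ε ^ 2) +
      (∫ z in ann ε r, ‖deriv h z - deriv h 0‖ ^ 2) / π ≤
      (1 / ε + C * (1 + ‖deriv h 0‖) * ε ^ 2) ^ 2 /
        (1 - (‖deriv h 0‖ * ε ^ 2) ^ 2) := by
  set b : ℂ := deriv h 0 with hb
  have hkd : DifferentiableOn ℂ (deriv h) (ball 0 1) := hhd.deriv isOpen_ball
  have hopn : IsOpen (ball (0:ℂ) 1 \ {0}) := isOpen_ball.sdiff isClosed_singleton
  have hFd : DifferentiableOn ℂ (fun t : ℂ => t⁻¹ + h t) (ball 0 1 \ {0}) := by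
    apply DifferentiableOn.add
    · exact differentiableOn_id.inv (fun t ht => ht.2)
    · exact hhd.mono sdiff_subset
  set c : ℂ := b * (ε : ℂ) ^ 2 with hc
  have hcn : ‖c‖ = ‖b‖ * ε ^ 2 := by
    rw [hc, norm_mul, norm_pow, Complex.norm_real, Real.norm_eq_abs, abs_of_pos hε]
  have hc1 : ‖c‖ < 1 := by rw [hcn]; exact hbε
  set T : ℝ := 1 / ε + C * (1 + ‖b‖) * ε ^ 2 with hT
  have hT0 : 0 < T := by positivity
  have hε1 : ε < 1 := hεr.trans hr
  -- the circle `|z| = ε` is mapped into the ellipse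
  have hsph : ∀ z : ℂ, ‖z‖ = ε → z⁻¹ + h z ∈ ell c T := by
    intro z hz
    have hz0 : z ≠ 0 := by rw [← norm_pos_iff, hz]; exact hε
    simp only [ell, mem_ofPred_eq]
    have hzz : z * conj z = (ε : ℂ) ^ 2 := by
      rw [Complex.mul_conj, Complex.normSq_eq_norm_sq, hz]; push_cast; ring
    have hcz : conj z ≠ 0 := by
      intro h; apply hz0; simpa using h
    have e1 : z⁻¹ + h z - c * conj (z⁻¹ + h z) =
        z⁻¹ + (h z - b * z) - c * conj (h z) := by
      rw [map_add, map_inv₀, hc, ← hzz]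
      field_simp
      ring
    rw [e1]
    obtain ⟨k1, k2⟩ := hC z (by rw [hz]; exact hε2)
    calc ‖z⁻¹ + (h z - b * z) - c * conj (h z)‖
        ≤ ‖z⁻¹‖ + ‖h z - b * z‖ + ‖c * conj (h z)‖ :=
          (norm_sub_le _ _).trans (add_le_add_left (norm_add_le _ _) _)
      _ ≤ 1 / ε + C * ε ^ 2 + (‖b‖ * ε ^ 2) * C := by
          gcongr
          · rw [norm_inv, hz, one_div]
          · rw [← hz]; exact k1
          · rw [norm_mul, hcn, RCLike.norm_conj]
            exact mul_le_mul_of_nonneg_left k2 (by positivity)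
      _ = T := by rw [hT]; ring
  have hcont := contain' hFd hinj (tendsto_inv_add hhd) hε hε1
    (isPreconnected_compl_ell hc1 hT0) (isBounded_ell hc1) hsph
  -- the image of the annulus lies in the ellipse
  have hann1 : ann ε r ⊆ ball 0 1 \ {0} := by
    intro z hz
    refine ⟨by rw [mem_ball_zero_iff]; exact hz.2.trans hr, ?_⟩
    intro h0
    rw [mem_singleton_iff] at h0
    have := hz.1
    rw [h0, norm_zero] at this
    exact lt_asymm hε this
  have himg : (fun z => z⁻¹ + h z) '' ann ε r ⊆ ell c T := by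
    rintro _ ⟨z, hz, rfl⟩
    by_contra hcon
    obtain ⟨y, hy, hyz⟩ := hcont hcon
    have : y = z := hinj ⟨ball_subset_ball hε1.le hy.1, hy.2⟩ (hann1 hz) hyz
    have hy1 := hy.1
    rw [this, mem_ball_zero_iff] at hy1
    exact lt_asymm hy1 hz.1
  have hder : ∀ z ∈ ann ε r, HasDerivAt (fun z => z⁻¹ + h z) (-(z ^ 2)⁻¹ + deriv h z) z := by
    intro z hz
    have hz1 := hann1 hz
    have h1 : HasDerivAt h (deriv h z) z :=
      (hhd.differentiableAt (isOpen_ball.mem_nhds hz1.1)).hasDerivAt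
    exact (hasDerivAt_inv hz1.2).add h1
  have hvol := vol_image (isOpen_ann ε r).measurableSet hder (hinj.mono hann1)
  obtain ⟨hint, -, hlow⟩ := area_lower_eq hkd hε hεr hr
  have h1 : ENNReal.ofReal (∫ z in ann ε r, ‖-(z ^ 2)⁻¹ + deriv h z‖ ^ 2) ≤
      ENNReal.ofReal (π * T ^ 2 / (1 - ‖c‖ ^ 2)) := by
    rw [ofReal_integral_eq_lintegral_ofReal hint (by
      filter_upwards with z
      positivity), hvol, ← vol_ell c hc1 hT0.le]
    exact measure_mono himg
  have hp : 0 < 1 - ‖c‖ ^ 2 := by nlinarith [norm_nonneg c]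
  have h2 := (ENNReal.ofReal_le_ofReal_iff (by positivity)).1 h1
  have h3 := hlow.trans h2
  rw [hcn] at h3
  have h4 : π * ((1 / ε ^ 2 - 1 / r ^ 2) + ‖b‖ ^ 2 * (r ^ 2 - ε ^ 2) +
      (∫ z in ann ε r, ‖deriv h z - b‖ ^ 2) / π) ≤
      π * (T ^ 2 / (1 - (‖b‖ * ε ^ 2) ^ 2)) := by
    calc _ = π * (1 / ε ^ 2 - 1 / r ^ 2) + π * ‖b‖ ^ 2 * (r ^ 2 - ε ^ 2) +
        ∫ z in ann ε r, ‖deriv h z - b‖ ^ 2 := by
          have := Real.pi_pos.ne'
          field_simp
      _ ≤ _ := h3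
      _ = _ := by ring
  exact le_of_mul_le_mul_left h4 Real.pi_pos

/-- limit of the area inequality, `h 0 = 0` -/
theorem area_key {h : ℂ → ℂ} (hhd : DifferentiableOn ℂ h (ball 0 1)) (h00 : h 0 = 0)
    (hinj : InjOn (fun t : ℂ => t⁻¹ + h t) (ball 0 1 \ {0})) {s r : ℝ} (hs : 0 < s) (hsr : s < r)
    (hr1 : r < 1) :
    ‖deriv h 0‖ ^ 2 * r ^ 2 + (∫ z in ann s r, ‖deriv h z - deriv h 0‖ ^ 2) / π ≤ 1 / r ^ 2 := by
  set b : ℂ := deriv h 0 with hb
  have hr0 : 0 < r := hs.trans hsr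
  have hkd : DifferentiableOn ℂ (deriv h) (ball 0 1) := hhd.deriv isOpen_ball
  -- second order bound
  obtain ⟨C, hC0, hC⟩ : ∃ C : ℝ, 0 ≤ C ∧ ∀ z : ℂ, ‖z‖ ≤ 1 / 2 →
      ‖h z - b * z‖ ≤ C * ‖z‖ ^ 2 ∧ ‖h z‖ ≤ C := by
    set h1 : ℂ → ℂ := dslope h 0 with hh1
    have hh1d : DifferentiableOn ℂ h1 (ball 0 1) :=
      (Complex.differentiableOn_dslope (ball_mem_nhds 0 one_pos)).2 hhd
    set h2 : ℂ → ℂ := dslope h1 0 with hh2
    have hh2d : DifferentiableOn ℂ h2 (ball 0 1) :=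
      (Complex.differentiableOn_dslope (ball_mem_nhds 0 one_pos)).2 hh1d
    have hsub : closedBall (0:ℂ) (1/2) ⊆ ball 0 1 := closedBall_subset_ball (by norm_num)
    obtain ⟨C1, hC1⟩ := (isCompact_closedBall (0:ℂ) (1/2)).exists_bound_of_continuousOn
      (hh2d.continuousOn.mono hsub)
    obtain ⟨C2, hC2⟩ := (isCompact_closedBall (0:ℂ) (1/2)).exists_bound_of_continuousOn
      (hhd.continuousOn.mono hsub)
    refine ⟨max (max C1 C2) 0, le_max_right _ _, fun z hz => ?_⟩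
    have hzm : z ∈ closedBall (0:ℂ) (1/2) := by rwa [mem_closedBall_zero_iff]
    have e1 : h z = z * h1 z := by
      have := sub_smul_dslope h 0 z
      rw [sub_zero, h00, smul_eq_mul, sub_zero] at this
      rw [hh1, this]
    have e2 : h1 z - b = z * h2 z := by
      have := sub_smul_dslope h1 0 z
      rw [sub_zero, smul_eq_mul] at this
      rw [hh2, this]
      congr 1
      rw [hh1, dslope_same]
    have e3 : h z - b * z = z ^ 2 * h2 z := by
      rw [e1, show z * h1 z - b * z = z * (h1 z - b) by ring, e2]; ring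
    constructor
    · rw [e3, norm_mul, norm_pow, mul_comm]
      apply mul_le_mul_of_nonneg_right _ (by positivity)
      exact (hC1 z hzm).trans ((le_max_left _ _).trans (le_max_left _ _))
    · exact (hC2 z hzm).trans ((le_max_right _ _).trans (le_max_left _ _))
  set K : ℝ := C * (1 + ‖b‖) with hK
  set J : ℝ := (∫ z in ann s r, ‖deriv h z - b‖ ^ 2) / π with hJ
  -- the inequality for small ε
  have hineq : ∀ᶠ ε : ℝ in 𝓝[>] 0, ‖b‖ ^ 2 * (r ^ 2 - ε ^ 2) - 1 / r ^ 2 + J ≤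
      (2 * K * ε + K ^ 2 * ε ^ 4 + ‖b‖ ^ 2 * ε ^ 2) / (1 - (‖b‖ * ε ^ 2) ^ 2) := by
    have a1 : ∀ᶠ ε : ℝ in 𝓝[>] 0, ε < min (1/2) s :=
      nhdsWithin_le_nhds (gt_mem_nhds (lt_min (by norm_num) hs))
    have a2 : ∀ᶠ ε : ℝ in 𝓝[>] 0, ‖b‖ * ε ^ 2 < 1 := by
      have : Tendsto (fun ε : ℝ => ‖b‖ * ε ^ 2) (𝓝 0) (𝓝 (‖b‖ * 0 ^ 2)) := by
        apply Continuous.tendsto; fun_prop
      have h2 := this.eventually (gt_mem_nhds (show ‖b‖ * 0 ^ 2 < 1 by simp))
      exact nhdsWithin_le_nhds h2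
    filter_upwards [a1, a2, self_mem_nhdsWithin] with ε h1 h2 h3
    have hε : 0 < ε := h3
    have hεs : ε < s := h1.trans_le (min_le_right _ _)
    have h4 := area_step' hhd hinj hC0 hC hε (h1.le.trans (min_le_left _ _))
      (hεs.trans hsr) hr1 h2
    have hmono : (∫ z in ann s r, ‖deriv h z - b‖ ^ 2) ≤ ∫ z in ann ε r, ‖deriv h z - b‖ ^ 2 := by
      apply setIntegral_mono_set (area_lower_eq hkd hε (hεs.trans hsr) hr1).2.1
      · filter_upwards with z
        positivity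
      · apply LE.le.eventuallyLE
        intro z hz
        exact ⟨hεs.trans hz.1, hz.2⟩
    have hmono' : J ≤ (∫ z in ann ε r, ‖deriv h z - b‖ ^ 2) / π :=
      div_le_div_of_nonneg_right hmono Real.pi_pos.le
    have hp : 0 < 1 - (‖b‖ * ε ^ 2) ^ 2 := by
      have : 0 ≤ ‖b‖ * ε ^ 2 := by positivity
      nlinarith
    have h5 : (1 / ε + K * ε ^ 2) ^ 2 / (1 - (‖b‖ * ε ^ 2) ^ 2) - 1 / ε ^ 2 =
        (2 * K * ε + K ^ 2 * ε ^ 4 + ‖b‖ ^ 2 * ε ^ 2) / (1 - (‖b‖ * ε ^ 2) ^ 2) := by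
      have h6 : (1 / ε + K * ε ^ 2) ^ 2 - (1 - (‖b‖ * ε ^ 2) ^ 2) / ε ^ 2 =
          2 * K * ε + K ^ 2 * ε ^ 4 + ‖b‖ ^ 2 * ε ^ 2 := by
        field_simp
        ring
      rw [← h6, sub_div, div_div, mul_comm (ε ^ 2), ← div_div, div_self hp.ne']
    rw [← h5]
    change (1 / ε ^ 2 - 1 / r ^ 2) + ‖b‖ ^ 2 * (r ^ 2 - ε ^ 2) +
      (∫ z in ann ε r, ‖deriv h z - b‖ ^ 2) / π ≤
      (1 / ε + K * ε ^ 2) ^ 2 / (1 - (‖b‖ * ε ^ 2) ^ 2) at h4
    linarith
  have hl : Tendsto (fun ε : ℝ => ‖b‖ ^ 2 * (r ^ 2 - ε ^ 2) - 1 / r ^ 2 + J) (𝓝[>] 0)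
      (𝓝 (‖b‖ ^ 2 * (r ^ 2 - 0 ^ 2) - 1 / r ^ 2 + J)) := by
    apply Tendsto.mono_left _ nhdsWithin_le_nhds
    apply Continuous.tendsto (f := fun ε : ℝ => ‖b‖ ^ 2 * (r ^ 2 - ε ^ 2) - 1 / r ^ 2 + J)
    fun_prop
  have hrr : Tendsto (fun ε : ℝ =>
      (2 * K * ε + K ^ 2 * ε ^ 4 + ‖b‖ ^ 2 * ε ^ 2) / (1 - (‖b‖ * ε ^ 2) ^ 2)) (𝓝[>] 0)
      (𝓝 ((2 * K * 0 + K ^ 2 * 0 ^ 4 + ‖b‖ ^ 2 * 0 ^ 2) / (1 - (‖b‖ * 0 ^ 2) ^ 2))) := by
    apply Tendsto.mono_left _ nhdsWithin_le_nhds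
    apply Tendsto.div
    · apply Continuous.tendsto
        (f := fun ε : ℝ => 2 * K * ε + K ^ 2 * ε ^ 4 + ‖b‖ ^ 2 * ε ^ 2)
      fun_prop
    · apply Continuous.tendsto (f := fun ε : ℝ => 1 - (‖b‖ * ε ^ 2) ^ 2)
      fun_prop
    · simp
  have hfin := le_of_tendsto_of_tendsto hl hrr hineq
  have h7 : (2 * K * 0 + K ^ 2 * 0 ^ 4 + ‖b‖ ^ 2 * 0 ^ 2) / (1 - (‖b‖ * 0 ^ 2) ^ 2) = 0 := by
    simp
  rw [h7] at hfin
  simp only [ne_eq, OfNat.ofNat_ne_zero, not_false_eq_true, zero_pow, sub_zero] at hfin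
  linarith

/-- **Area theorem** (first coefficient, with the equality case). -/
theorem area_eq {H : ℂ → ℂ} (hHd : DifferentiableOn ℂ H (ball 0 1))
    (hinj : InjOn (fun t : ℂ => t⁻¹ + H t) (ball 0 1 \ {0})) :
    ‖deriv H 0‖ ≤ 1 ∧ (‖deriv H 0‖ = 1 → ∀ t ∈ ball (0:ℂ) 1, H t = H 0 + deriv H 0 * t) := by
  set h : ℂ → ℂ := fun t => H t - H 0 with hh
  have hhd : DifferentiableOn ℂ h (ball 0 1) := hHd.sub_const _
  have h00 : h 0 = 0 := by simp [hh]
  have hder : deriv h = deriv H := by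
    funext z
    rw [hh, deriv_sub_const]
  have hinj' : InjOn (fun t : ℂ => t⁻¹ + h t) (ball 0 1 \ {0}) := by
    intro x hx y hy hxy
    apply hinj hx hy
    simp only [hh] at hxy ⊢
    linear_combination hxy
  set b : ℂ := deriv H 0 with hb
  have hkd : DifferentiableOn ℂ (deriv h) (ball 0 1) := hhd.deriv isOpen_ball
  have key : ∀ s r : ℝ, 0 < s → s < r → r < 1 →
      ‖b‖ ^ 2 * r ^ 2 + (∫ z in ann s r, ‖deriv h z - b‖ ^ 2) / π ≤ 1 / r ^ 2 := by
    intro s r hs hsr hr1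
    have := area_key hhd h00 hinj' hs hsr hr1
    rw [hder] at this ⊢
    exact this
  have hnn : ∀ s r : ℝ, 0 ≤ (∫ z in ann s r, ‖deriv h z - b‖ ^ 2) / π := by
    intro s r
    apply div_nonneg _ Real.pi_pos.le
    apply integral_nonneg
    intro z
    positivity
  have h1 : ‖b‖ ≤ 1 := by
    have hlim : ‖b‖ ^ 2 * 1 ^ 2 ≤ 1 / 1 ^ 2 := by
      have t1 : Tendsto (fun r : ℝ => ‖b‖ ^ 2 * r ^ 2) (𝓝[<] 1) (𝓝 (‖b‖ ^ 2 * 1 ^ 2)) := by
        apply Tendsto.mono_left _ nhdsWithin_le_nhds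
        apply Continuous.tendsto (f := fun r : ℝ => ‖b‖ ^ 2 * r ^ 2)
        fun_prop
      have t2 : Tendsto (fun r : ℝ => 1 / r ^ 2) (𝓝[<] 1) (𝓝 (1 / 1 ^ 2)) := by
        apply Tendsto.mono_left _ nhdsWithin_le_nhds
        have : ContinuousAt (fun r : ℝ => 1 / r ^ 2) 1 := by
          fun_prop (disch := norm_num)
        exact this.tendsto
      apply le_of_tendsto_of_tendsto t1 t2
      have h2 : ∀ᶠ r : ℝ in 𝓝[<] 1, 1 / 2 < r := nhdsWithin_le_nhds (lt_mem_nhds (by norm_num))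
      filter_upwards [h2, self_mem_nhdsWithin] with r hr0 hr1
      have := key (1/2) r (by norm_num) hr0 hr1
      have := hnn (1/2) r
      linarith
    nlinarith [norm_nonneg b]
  refine ⟨h1, fun hb1 => ?_⟩
  -- the integral vanishes
  have hzero : ∀ s r : ℝ, 0 < s → s < r → r < 1 →
      ∫ z in ann s r, ‖deriv h z - b‖ ^ 2 = 0 := by
    intro s r hs hsr hr1
    apply le_antisymm
    · have hlim : (∫ z in ann s r, ‖deriv h z - b‖ ^ 2) / π ≤ 1 / 1 ^ 2 - 1 * 1 ^ 2 := by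
        have t2 : Tendsto (fun r : ℝ => 1 / r ^ 2 - 1 * r ^ 2) (𝓝[<] 1)
            (𝓝 (1 / 1 ^ 2 - 1 * 1 ^ 2)) := by
          apply Tendsto.mono_left _ nhdsWithin_le_nhds
          have : ContinuousAt (fun r : ℝ => 1 / r ^ 2 - 1 * r ^ 2) 1 := by
            fun_prop (disch := norm_num)
          exact this.tendsto
        apply ge_of_tendsto t2
        have h2 : ∀ᶠ r' : ℝ in 𝓝[<] 1, r < r' := nhdsWithin_le_nhds (lt_mem_nhds hr1)
        filter_upwards [h2, self_mem_nhdsWithin] with r' hr' hr'1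
        have h3 := key s r' hs (hsr.trans hr') hr'1
        have hmono : (∫ z in ann s r, ‖deriv h z - b‖ ^ 2) ≤
            ∫ z in ann s r', ‖deriv h z - b‖ ^ 2 := by
          have hI := (area_lower_eq hkd hs (hsr.trans hr') hr'1).2.1
          have hbb : deriv h 0 = b := by rw [hder]
          rw [hbb] at hI
          apply setIntegral_mono_set hI
          · filter_upwards with z
            positivity
          · apply LE.le.eventuallyLE
            intro z hz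
            exact ⟨hz.1, hz.2.trans hr'⟩
        have hmono' := div_le_div_of_nonneg_right hmono Real.pi_pos.le
        rw [hb1] at h3
        linarith
      norm_num at hlim
      rw [div_le_iff₀ Real.pi_pos, zero_mul] at hlim
      exact hlim
    · apply integral_nonneg
      intro z
      positivity
  -- the derivative is constant
  have hconst : ∀ z ∈ ball (0:ℂ) 1, deriv h z = b := by
    have hne : ∀ z ∈ ball (0:ℂ) 1, z ≠ 0 → deriv h z = b := by
      intro z hz hz0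
      by_contra hcon
      have hzn : 0 < ‖z‖ := norm_pos_iff.2 hz0
      rw [mem_ball_zero_iff] at hz
      set s : ℝ := ‖z‖ / 2 with hs
      set r : ℝ := (1 + ‖z‖) / 2 with hr
      have hs0 : 0 < s := by positivity
      have hsz : s < ‖z‖ := by rw [hs]; linarith
      have hzr : ‖z‖ < r := by rw [hr]; linarith
      have hr1 : r < 1 := by rw [hr]; linarith
      have hsr : s < r := hsz.trans hzr
      have h0 := hzero s r hs0 hsr hr1
      have hI := (area_lower_eq hkd hs0 hsr hr1).2.1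
      have hbb : deriv h 0 = b := by rw [hder]
      rw [hbb] at hI
      have hcont : ContinuousOn (fun z : ℂ => ‖deriv h z - b‖ ^ 2) (ann s r) := by
        have hsub : ann s r ⊆ ball 0 1 := by
          intro w hw
          rw [mem_ball_zero_iff]; exact hw.2.trans hr1
        exact (((hkd.continuousOn.mono hsub).sub continuousOn_const).norm).pow 2
      have h1 : (fun z : ℂ => ‖deriv h z - b‖ ^ 2) =ᵐ[volume.restrict (ann s r)] 0 := by
        rw [← setIntegral_eq_zero_iff_of_nonneg_ae _ hI]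
        · exact h0
        · filter_upwards with z
          positivity
      have h2 := MeasureTheory.Measure.eqOn_open_of_ae_eq h1 (isOpen_ann s r) hcont
        continuousOn_const
      have h3 := h2 (show z ∈ ann s r from ⟨hsz, hzr⟩)
      simp only [Pi.zero_apply] at h3
      exact hcon (sub_eq_zero.1 (norm_eq_zero.1 (pow_eq_zero_iff (two_ne_zero) |>.1 h3)))
    intro z hz
    by_cases hz0 : z = 0
    · rw [hz0, hder]
    · exact hne z hz hz0
  intro t ht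
  have hd : ∀ z ∈ ball (0:ℂ) 1, HasDerivAt (fun z => h z - b * z) 0 z := by
    intro z hz
    have h2 : HasDerivAt h b z := by
      have := (hhd.differentiableAt (isOpen_ball.mem_nhds hz)).hasDerivAt
      rwa [hconst z hz] at this
    have h3 := h2.sub ((hasDerivAt_id z).const_mul b)
    simp only [mul_one, sub_self] at h3
    exact h3
  have h4 := (convex_ball (0:ℂ) 1).is_const_of_fderivWithin_eq_zero (𝕜 := ℂ)
    (f := fun z => h z - b * z)
    (fun z hz => (hd z hz).differentiableAt.differentiableWithinAt) (by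
      intro x hx
      rw [fderivWithin_of_isOpen isOpen_ball hx, (hd x hx).hasFDerivAt.fderiv]
      ext
      simp) ht (mem_ball_self one_pos)
  simp only [mul_zero, sub_zero, hh] at h4
  linear_combination h4

end Crest.Agent.R105.Slt_107
end

-- ▼ part R105/Slt3_107
section

/-!
Row 105 (helper107), slit maps, part 3: Riemann map of the exterior of a continuum, and the step lemma:
if `K` is a nondegenerate continuum with connected complement, there is `h` in `Sigma(Kᶜ)` with first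
coefficient `b`, `0 ≤ Re b`, and `Re b = 0` only if `K` lies on a horizontal line.
-/

set_option autoImplicit false

open Set Filter Metric Topology
open scoped ComplexConjugate

namespace Crest.Agent.R105.Slt_107

open Crest.Agent.R132 Crest.Agent.Lib.RiemannMap Crest.Agent.R165.GeoPx67
open Crest.Agent.R105.FK_644 (Sig)

theorem isPreconnected_invDom {K : Set ℂ} (hK : IsCompact K) (hKc : IsPreconnected Kᶜ) {z₀ : ℂ}
    (hz₀ : z₀ ∈ K) : IsPreconnected (invDom K z₀) := by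
  have hg : ContinuousOn (fun z : ℂ => (z - z₀)⁻¹) Kᶜ := by
    refine ContinuousOn.inv₀ (by fun_prop) (fun z hz h0 => hz ?_)
    rw [sub_eq_zero.1 h0]; exact hz₀
  have h1 : IsPreconnected ((fun z : ℂ => (z - z₀)⁻¹) '' Kᶜ) := hKc.image _ hg
  refine h1.subset_closure ?_ ?_
  · rintro _ ⟨z, hz, rfl⟩
    right
    rw [inv_inv, add_sub_cancel]
    exact hz
  · have hne : ∀ w ∈ invDom K z₀, w ≠ 0 → w ∈ (fun z : ℂ => (z - z₀)⁻¹) '' Kᶜ := by
      intro w hw hw0
      refine ⟨z₀ + w⁻¹, hw.resolve_left hw0, ?_⟩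
      simp only [add_sub_cancel_left, inv_inv]
    intro w hw
    by_cases hw0 : w = 0
    · subst hw0
      rw [mem_closure_iff_nhds]
      intro t ht
      have h2 : t ∩ invDom K z₀ ∈ 𝓝 (0:ℂ) := inter_mem ht ((isOpen_invDom hK).mem_nhds hw)
      have h3 : (t ∩ invDom K z₀) ∩ {0}ᶜ ∈ 𝓝[≠] (0:ℂ) :=
        inter_mem (mem_nhdsWithin_of_mem_nhds h2) self_mem_nhdsWithin
      obtain ⟨y, hy⟩ := Filter.nonempty_of_mem h3
      exact ⟨y, hy.1.1, hne y hy.1.2 hy.2⟩
    · exact subset_closure (hne w hw hw0)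

theorem nc_invDom {K : Set ℂ} (hKp : IsPreconnected K) {z₀ : ℂ} (hz₀ : z₀ ∈ K) :
    NC (invDom K z₀) := by
  intro A O hA hO hAO
  by_contra hne
  obtain ⟨a, ha⟩ := nonempty_iff_ne_empty.2 hne
  have hmem : ∀ w : ℂ, w ∈ (invDom K z₀)ᶜ ↔ w ≠ 0 ∧ z₀ + w⁻¹ ∈ K := by
    intro w
    simp only [invDom, mem_compl_iff, mem_ofPred_eq, not_or, not_not, ne_eq]
  have hA0 : ∀ w ∈ A, w ≠ 0 ∧ z₀ + w⁻¹ ∈ K ∧ w ∈ O := by
    intro w hw
    rw [hAO] at hw
    exact ⟨((hmem w).1 hw.2).1, ((hmem w).1 hw.2).2, hw.1⟩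
  have hcont : ContinuousOn (fun w : ℂ => z₀ + w⁻¹) A :=
    continuousOn_const.add (continuousOn_id.inv₀ (fun w hw => (hA0 w hw).1))
  have hIc : IsClosed ((fun w : ℂ => z₀ + w⁻¹) '' A) := (hA.image_of_continuousOn hcont).isClosed
  set u : Set ℂ := {z | z ≠ z₀ ∧ (z - z₀)⁻¹ ∈ O} with hu
  have huo : IsOpen u := by
    rw [isOpen_iff_mem_nhds]
    rintro z ⟨hz1, hz2⟩
    have hc : ContinuousAt (fun z : ℂ => (z - z₀)⁻¹) z :=
      ContinuousAt.inv₀ (by fun_prop) (sub_ne_zero.2 hz1)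
    filter_upwards [isOpen_ne.mem_nhds hz1, hc.eventually (hO.mem_nhds hz2)] with y h1 h2
    exact ⟨h1, h2⟩
  have hcov : K ⊆ u ∪ ((fun w : ℂ => z₀ + w⁻¹) '' A)ᶜ := by
    intro z hz
    by_cases h : z ∈ (fun w : ℂ => z₀ + w⁻¹) '' A
    · left
      obtain ⟨w, hw, rfl⟩ := h
      obtain ⟨h1, h2, h3⟩ := hA0 w hw
      refine ⟨?_, ?_⟩
      · intro h4
        simp only [add_eq_left, inv_eq_zero] at h4
        exact h1 h4
      · simp only [add_sub_cancel_left, inv_inv]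
        exact h3
    · right; exact h
  have hz₀v : z₀ ∈ ((fun w : ℂ => z₀ + w⁻¹) '' A)ᶜ := by
    rintro ⟨w, hw, h4⟩
    simp only [add_eq_left, inv_eq_zero] at h4
    exact (hA0 w hw).1 h4
  have hau : z₀ + a⁻¹ ∈ u := by
    obtain ⟨h1, h2, h3⟩ := hA0 a ha
    refine ⟨?_, ?_⟩
    · intro h4
      simp only [add_eq_left, inv_eq_zero] at h4
      exact h1 h4
    · simp only [add_sub_cancel_left, inv_inv]
      exact h3
  obtain ⟨z, hzK, ⟨hz1, hz2⟩, hz3⟩ := hKp u _ huo hIc.isOpen_compl hcov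
    ⟨z₀ + a⁻¹, (hA0 a ha).2.1, hau⟩ ⟨z₀, hz₀, hz₀v⟩
  apply hz3
  have hne0 : (z - z₀)⁻¹ ≠ 0 := inv_ne_zero (sub_ne_zero.2 hz1)
  have he : z₀ + ((z - z₀)⁻¹)⁻¹ = z := by rw [inv_inv]; ring
  refine ⟨(z - z₀)⁻¹, ?_, he⟩
  rw [hAO]
  refine ⟨hz2, (hmem _).2 ⟨hne0, ?_⟩⟩
  rw [he]; exact hzK

/-- starting map for the Riemann mapping theorem -/
theorem exists_start {D : Set ℂ} (hDo : IsOpen D) (h0 : (0:ℂ) ∈ D)
    (hsq : ∀ h : ℂ → ℂ, DifferentiableOn ℂ h D → (∀ z ∈ D, h z ≠ 0) →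
      ∃ s : ℂ → ℂ, DifferentiableOn ℂ s D ∧ ∀ z ∈ D, s z ^ 2 = h z) {a : ℂ} (ha : a ∉ D) :
    ∃ f₀, Fam D 0 f₀ ∧ deriv f₀ 0 ≠ 0 := by
  obtain ⟨s, hs, hs2⟩ := hsq (fun w => w - a) (by fun_prop)
    (fun z hz h => ha (by rw [← sub_eq_zero.1 h]; exact hz))
  have hsne : ∀ z ∈ D, s z ≠ 0 := by
    intro z hz h
    have := hs2 z hz
    rw [h] at this
    apply ha
    have h2 : z - a = 0 := by rw [← this]; simp
    rw [← sub_eq_zero.1 h2]; exact hz
  have hsinj : InjOn s D := by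
    intro x hx y hy hxy
    have h1 := hs2 x hx
    rw [hxy, hs2 y hy] at h1
    linear_combination -h1
  have hopen : IsOpen (s '' D) := Crest.Agent.Lib.isOpen_image_of_injOn hDo hs hsinj
  obtain ⟨r, hr, hrD⟩ := Metric.isOpen_iff.1 hopen (s 0) ⟨0, h0, rfl⟩
  have hfar : ∀ z ∈ D, r ≤ ‖s z + s 0‖ := by
    intro z hz
    by_contra hcon
    push Not at hcon
    have h1 : -s z ∈ ball (s 0) r := by
      rw [mem_ball, dist_eq_norm, ← norm_neg]
      have : -(-s z - s 0) = s z + s 0 := by ring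
      rw [this]; exact hcon
    obtain ⟨y, hy, hyz⟩ := hrD h1
    have h2 := hs2 y hy
    rw [hyz] at h2
    have h3 := hs2 z hz
    have h4 : y = z := by linear_combination h3 - h2
    rw [h4] at hyz
    apply hsne z hz
    have h5 : s z + s z = 0 := by linear_combination hyz
    exact add_self_eq_zero.1 h5
  have hfne : ∀ z ∈ D, s z + s 0 ≠ 0 := fun z hz => by
    rw [← norm_pos_iff]; exact hr.trans_le (hfar z hz)
  set f : ℂ → ℂ := fun w => (r / 3 : ℝ) * ((s w + s 0)⁻¹ - (s 0 + s 0)⁻¹) with hf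
  have hfd : DifferentiableOn ℂ f D := by
    apply DifferentiableOn.const_mul
    apply DifferentiableOn.sub_const
    exact (hs.add_const _).inv hfne
  have hr3 : ((r / 3 : ℝ) : ℂ) ≠ 0 := by
    rw [Ne, Complex.ofReal_eq_zero]; positivity
  have hfinj : InjOn f D := by
    intro x hx y hy hxy
    have h1 := mul_left_cancel₀ hr3 hxy
    have h2 : (s x + s 0)⁻¹ = (s y + s 0)⁻¹ := by linear_combination h1
    have h3 := inv_injective h2
    exact hsinj hx hy (by linear_combination h3)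
  refine ⟨f, ⟨hfd, hfinj, ?_, by simp [hf]⟩, Crest.Agent.Lib.deriv_ne_zero_of_injOn hDo hfd hfinj h0⟩
  intro z hz
  rw [mem_ball_zero_iff, hf]
  simp only
  rw [norm_mul, Complex.norm_real, Real.norm_eq_abs, abs_of_pos (by positivity)]
  have h1 : ‖(s z + s 0)⁻¹‖ ≤ r⁻¹ := by
    rw [norm_inv]; exact inv_anti₀ hr (hfar z hz)
  have h2 : ‖(s 0 + s 0)⁻¹‖ ≤ r⁻¹ := by
    rw [norm_inv]; exact inv_anti₀ hr (hfar 0 h0)
  have h3 := norm_sub_le ((s z + s 0)⁻¹) ((s 0 + s 0)⁻¹)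
  have h4 : ‖(s z + s 0)⁻¹ - (s 0 + s 0)⁻¹‖ ≤ 2 * r⁻¹ := by linarith
  calc r / 3 * ‖(s z + s 0)⁻¹ - (s 0 + s 0)⁻¹‖ ≤ r / 3 * (2 * r⁻¹) := by gcongr
    _ = 2 / 3 := by field_simp
    _ < 1 := by norm_num

/-- Riemann map of the exterior of a nondegenerate continuum `K` with connected complement:
`τ : Kᶜ → punctured disc` with inverse `t ↦ z₀ + κ⁻¹ (1/t + H t)`. -/
theorem exists_ext {K : Set ℂ} (hK : IsCompact K) (hKp : IsPreconnected K)
    (hKc : IsPreconnected Kᶜ) (hKn : K.Nontrivial) :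
    ∃ (τ H : ℂ → ℂ) (κ z₀ : ℂ), κ ≠ 0 ∧ DifferentiableOn ℂ τ Kᶜ ∧
      DifferentiableOn ℂ H (ball 0 1) ∧
      (∀ z ∉ K, τ z ∈ ball (0:ℂ) 1 \ {0} ∧ z₀ + κ⁻¹ * ((τ z)⁻¹ + H (τ z)) = z) ∧
      (∀ t ∈ ball (0:ℂ) 1 \ {0}, z₀ + κ⁻¹ * (t⁻¹ + H t) ∉ K ∧
        τ (z₀ + κ⁻¹ * (t⁻¹ + H t)) = t) ∧
      Tendsto τ (cocompact ℂ) (𝓝 0) := by
  obtain ⟨z₀, hz₀, z₁, hz₁, hne⟩ := hKn
  have hDo : IsOpen (invDom K z₀) := isOpen_invDom hK
  have h0D : (0:ℂ) ∈ invDom K z₀ := zero_mem_invDom K z₀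
  have hDp := isPreconnected_invDom hK hKc hz₀
  have hNC := nc_invDom hKp hz₀
  have ha : (z₁ - z₀)⁻¹ ∉ invDom K z₀ := by
    rintro (h | h)
    · exact inv_ne_zero (sub_ne_zero.2 hne.symm) h
    · apply h
      rw [inv_inv, add_sub_cancel]; exact hz₁
  have hsq : ∀ h : ℂ → ℂ, DifferentiableOn ℂ h (invDom K z₀) → (∀ z ∈ invDom K z₀, h z ≠ 0) →
      ∃ s : ℂ → ℂ, DifferentiableOn ℂ s (invDom K z₀) ∧ ∀ z ∈ invDom K z₀, s z ^ 2 = h z :=
    fun h hd hn => exists_sqrt' hDo hDp hNC ha hd hn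
  obtain ⟨f₀, hf₀, hd₀⟩ := exists_start hDo h0D hsq ha
  obtain ⟨f, hf, hinj, himg, hf0⟩ := riemann_mapping_sqrt hDo hDp hsq h0D hf₀ hd₀
  obtain ⟨ψ, hψ, hψinj, hψimg, hψf, hfψ⟩ :=
    Crest.Agent.Lib.exists_holomorphic_inverse hDo hf hinj
  rw [himg] at hψ hψinj hψimg hfψ
  have hψ0 : ψ 0 = 0 := by
    have := hψf 0 h0D
    rwa [hf0] at this
  have h0b : (0 : ℂ) ∈ ball (0 : ℂ) 1 := mem_ball_self one_pos
  have hnh : ball (0:ℂ) 1 ∈ 𝓝 (0:ℂ) := ball_mem_nhds 0 one_pos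
  have hψne : ∀ w ∈ ball (0 : ℂ) 1, w ≠ 0 → ψ w ≠ 0 := by
    intro w hw hw0 h
    exact hw0 (hψinj hw h0b (h.trans hψ0.symm))
  have hds : ∀ w ∈ ball (0 : ℂ) 1, dslope ψ 0 w ≠ 0 := by
    intro w hw
    by_cases hw0 : w = 0
    · subst hw0
      rw [dslope_same]
      exact Crest.Agent.Lib.deriv_ne_zero_of_injOn isOpen_ball hψ hψinj h0b
    · rw [dslope_of_ne _ hw0, slope_def_field, hψ0, sub_zero, sub_zero]
      exact div_ne_zero (hψne w hw hw0) hw0
  have hdsd : DifferentiableOn ℂ (dslope ψ 0) (ball 0 1) :=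
    (Complex.differentiableOn_dslope hnh).2 hψ
  set κ : ℂ := dslope ψ 0 0 with hκ
  have hκ0 : κ ≠ 0 := hds 0 h0b
  set q : ℂ → ℂ := fun t => κ * (dslope ψ 0 t)⁻¹ with hq
  have hqd : DifferentiableOn ℂ q (ball 0 1) := (hdsd.inv hds).const_mul κ
  have hq0 : q 0 = 1 := by
    rw [hq]; simp only; rw [← hκ, mul_inv_cancel₀ hκ0]
  set H : ℂ → ℂ := dslope q 0 with hH
  have hHd : DifferentiableOn ℂ H (ball 0 1) := (Complex.differentiableOn_dslope hnh).2 hqd
  have hkey : ∀ t ∈ ball (0:ℂ) 1 \ {0}, κ⁻¹ * (t⁻¹ + H t) = (ψ t)⁻¹ := by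
    rintro t ⟨ht, ht0⟩
    have ht0' : t ≠ 0 := ht0
    have h1 := hψne t ht ht0'
    have h2 := hds t ht
    have h3 : dslope ψ 0 t = ψ t / t := by
      rw [dslope_of_ne _ ht0', slope_def_field, hψ0, sub_zero, sub_zero]
    have h4 : H t = (κ * (ψ t / t)⁻¹ - 1) / t := by
      rw [hH, dslope_of_ne _ ht0', slope_def_field, hq0, sub_zero, hq]
      simp only
      rw [h3]
    rw [h4]
    field_simp
    ring
  have hzD : ∀ z ∉ K, (z - z₀)⁻¹ ∈ invDom K z₀ ∧ (z - z₀)⁻¹ ≠ 0 := by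
    intro z hz
    refine ⟨Or.inr ?_, ?_⟩
    · rw [inv_inv, add_sub_cancel]; exact hz
    · apply inv_ne_zero
      intro h
      apply hz
      rw [sub_eq_zero.1 h]; exact hz₀
  refine ⟨fun z => f ((z - z₀)⁻¹), H, κ, z₀, hκ0, ?_, hHd, ?_, ?_, ?_⟩
  · refine hf.comp ?_ (fun z hz => (hzD z hz).1)
    refine DifferentiableOn.inv (by fun_prop) (fun z hz => ?_)
    have := (hzD z hz).2
    intro h
    rw [h, inv_zero] at this
    exact this rfl
  · intro z hz
    obtain ⟨h1, h2⟩ := hzD z hz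
    have h3 : f ((z - z₀)⁻¹) ∈ ball (0:ℂ) 1 := by
      rw [← himg]; exact ⟨_, h1, rfl⟩
    have h4 : f ((z - z₀)⁻¹) ≠ 0 := by
      intro h
      rw [← hf0] at h
      exact h2 (hinj h1 h0D h)
    refine ⟨⟨h3, h4⟩, ?_⟩
    rw [hkey _ ⟨h3, h4⟩, hψf _ h1, inv_inv]
    ring
  · intro t ht
    have h1 : ψ t ∈ invDom K z₀ := by
      rw [← hψimg]; exact ⟨t, ht.1, rfl⟩
    have h2 : ψ t ≠ 0 := hψne t ht.1 ht.2
    rw [hkey t ht]
    refine ⟨h1.resolve_left h2, ?_⟩
    simp only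
    rw [add_sub_cancel_left, inv_inv]
    exact hfψ t ht.1
  · have h1 : Tendsto (fun z : ℂ => (z - z₀)⁻¹) (cocompact ℂ) (𝓝 0) := by
      rw [← cobounded_eq_cocompact]
      have h2 : Tendsto (fun z : ℂ => z - z₀) (Bornology.cobounded ℂ) (Bornology.cobounded ℂ) := by
        simp [sub_eq_add_neg]
      exact tendsto_inv₀_cobounded.comp h2
    have h2 : ContinuousAt f 0 := (hf.differentiableAt (hDo.mem_nhds h0D)).continuousAt
    have h3 := h2.tendsto.comp h1
    rw [hf0] at h3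
    exact h3

theorem eventually_notMem {K : Set ℂ} (hK : IsCompact K) : ∀ᶠ z in cocompact ℂ, z ∉ K :=
  hK.compl_mem_cocompact

theorem eq_ofReal_of_re_eq_norm {z : ℂ} (h : z.re = ‖z‖) : z = ((‖z‖ : ℝ) : ℂ) := by
  have h1 : z.im = 0 := by
    have h2 := Complex.sq_norm z
    rw [Complex.normSq_apply, ← h] at h2
    nlinarith
  apply Complex.ext
  · rw [Complex.ofReal_re]; exact h
  · rw [Complex.ofReal_im]; exact h1

/-- the Joukowski map reaches every nonreal point -/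
theorem jouk_surj {ρ : ℝ} (hρ : 0 < ρ) {u : ℂ} (hu : u.im ≠ 0) :
    ∃ ω : ℂ, ρ < ‖ω‖ ∧ ω + (ρ:ℂ) ^ 2 * ω⁻¹ = u := by
  obtain ⟨s, hs⟩ := IsAlgClosed.exists_pow_nat_eq (u ^ 2 - 4 * (ρ:ℂ) ^ 2) (n := 2) (by norm_num)
  have hρc : (ρ:ℂ) ≠ 0 := by exact_mod_cast hρ.ne'
  have key : ∀ ω₁ ω₂ : ℂ, ω₁ * ω₂ = (ρ:ℂ) ^ 2 → ω₁ + ω₂ = u → ρ < ‖ω₁‖ →
      ∃ ω : ℂ, ρ < ‖ω‖ ∧ ω + (ρ:ℂ) ^ 2 * ω⁻¹ = u := by
    intro ω₁ ω₂ h1 h2 h3
    have h0 : ω₁ ≠ 0 := by rw [← norm_pos_iff]; exact hρ.trans h3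
    refine ⟨ω₁, h3, ?_⟩
    rw [← h1, ← h2]
    field_simp
  have hprod : ((u + s) / 2) * ((u - s) / 2) = (ρ:ℂ) ^ 2 := by
    linear_combination (-1/4 : ℂ) * hs
  have hnorm : ‖(u + s) / 2‖ * ‖(u - s) / 2‖ = ρ ^ 2 := by
    rw [← norm_mul, hprod, norm_pow, Complex.norm_real, Real.norm_eq_abs, abs_of_pos hρ]
  rcases lt_trichotomy ρ ‖(u + s) / 2‖ with h | h | h
  · exact key _ _ hprod (by ring) h
  · exfalso
    apply hu
    have h1 : (u + s) / 2 * conj ((u + s) / 2) = (ρ:ℂ) ^ 2 := by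
      rw [Complex.mul_conj, Complex.normSq_eq_norm_sq, ← h]; push_cast; ring
    have h0 : (u + s) / 2 ≠ 0 := by rw [← norm_pos_iff, ← h]; exact hρ
    have h2 : (u - s) / 2 = conj ((u + s) / 2) := by
      apply mul_left_cancel₀ h0
      rw [h1, hprod]
    have h3 : u = (u + s) / 2 + conj ((u + s) / 2) := by
      rw [← h2]; ring
    rw [h3, Complex.add_conj]
    exact Complex.ofReal_im _
  · have h4 : ρ < ‖(u - s) / 2‖ := by
      by_contra hcon
      push Not at hcon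
      have h5 := norm_nonneg ((u + s) / 2)
      nlinarith
    exact key ((u - s) / 2) ((u + s) / 2) (by rw [mul_comm]; exact hprod) (by ring) h4

/-- **Step lemma.** -/
theorem step {K : Set ℂ} (hK : IsCompact K) (hKp : IsPreconnected K)
    (hKc : IsPreconnected Kᶜ) (hKn : K.Nontrivial) :
    ∃ (h : ℂ → ℂ) (b : ℂ), Sig Kᶜ h ∧ Tendsto (fun z => z * (h z - z)) (cocompact ℂ) (𝓝 b) ∧
      0 ≤ b.re ∧ (b.re = 0 → ∃ c : ℝ, K ⊆ {z | z.im = c}) := by
  obtain ⟨τ, H, κ, z₀, hκ, hτ, hH, h1, h2, hlim⟩ := exists_ext hK hKp hKc hKn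
  have hinj : InjOn (fun t : ℂ => t⁻¹ + H t) (ball 0 1 \ {0}) := by
    intro s hs t ht hst
    simp only at hst
    have e1 := (h2 s hs).2
    rw [hst, (h2 t ht).2] at e1
    exact e1.symm
  obtain ⟨hb1, hbe⟩ := area_eq hH hinj
  set β : ℂ := deriv H 0 with hβ
  have hnh : ball (0:ℂ) 1 ∈ 𝓝 (0:ℂ) := ball_mem_nhds 0 one_pos
  have hcκ : conj κ ≠ 0 := by
    intro h; apply hκ; simpa using h
  set l : ℂ := κ / conj κ with hl
  have hl1 : ‖l‖ = 1 := by
    rw [hl, norm_div, RCLike.norm_conj, div_self (norm_pos_iff.2 hκ).ne']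
  have hτne : ∀ z ∉ K, τ z ≠ 0 := fun z hz => (h1 z hz).1.2
  set h : ℂ → ℂ := fun z => κ⁻¹ * ((τ z)⁻¹ + l * τ z) + (z₀ + κ⁻¹ * H 0) with hh
  have hform : ∀ z ∉ K, h z - z = κ⁻¹ * (l * τ z - (H (τ z) - H 0)) := by
    intro z hz
    have e := (h1 z hz).2
    rw [hh]
    simp only
    linear_combination e
  have hds : ∀ t : ℂ, H t - H 0 = t * dslope H 0 t := by
    intro t
    have := sub_smul_dslope H 0 t
    rw [sub_zero, smul_eq_mul] at this
    exact this.symm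
  have hdsc : ContinuousAt (dslope H 0) 0 :=
    (((Complex.differentiableOn_dslope hnh).2 hH).differentiableAt hnh).continuousAt
  have hHc : ContinuousAt H 0 := (hH.differentiableAt hnh).continuousAt
  have hκn : 0 < ‖κ‖ := norm_pos_iff.2 hκ
  have hA : κ⁻¹ * κ⁻¹ * l = (((‖κ‖ ^ 2)⁻¹ : ℝ) : ℂ) := by
    have e1 : ((‖κ‖ ^ 2 : ℝ) : ℂ) = κ * conj κ := by
      rw [Complex.mul_conj, Complex.normSq_eq_norm_sq]
    rw [Complex.ofReal_inv, e1, hl]
    field_simp
  have hB : ‖κ⁻¹ * κ⁻¹ * β‖ = (‖κ‖ ^ 2)⁻¹ * ‖β‖ := by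
    rw [norm_mul, norm_mul, norm_inv, ← mul_inv, ← sq]
  have hre : (κ⁻¹ * κ⁻¹ * (l - β)).re = (‖κ‖ ^ 2)⁻¹ - (κ⁻¹ * κ⁻¹ * β).re := by
    rw [mul_sub, hA, Complex.sub_re, Complex.ofReal_re]
  have hBle : (‖κ‖ ^ 2)⁻¹ * ‖β‖ ≤ (‖κ‖ ^ 2)⁻¹ := by
    have : 0 < (‖κ‖ ^ 2)⁻¹ := by positivity
    nlinarith
  refine ⟨h, κ⁻¹ * κ⁻¹ * (l - β), ⟨?_, ?_, ?_⟩, ?_, ?_, ?_⟩
  · -- holomorphic
    apply DifferentiableOn.add_const
    apply DifferentiableOn.const_mul
    exact (hτ.inv (fun z hz => hτne z hz)).add (hτ.const_mul l)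
  · -- injective
    intro x hx y hy hxy
    obtain ⟨⟨hx1, hx0⟩, hx2⟩ := h1 x hx
    obtain ⟨⟨hy1, hy0⟩, hy2⟩ := h1 y hy
    rw [mem_singleton_iff] at hx0 hy0
    rw [mem_ball_zero_iff] at hx1 hy1
    have e1 : κ⁻¹ * ((τ x)⁻¹ + l * τ x) = κ⁻¹ * ((τ y)⁻¹ + l * τ y) := by
      have := hxy
      simp only [hh] at this
      linear_combination this
    have e2 := mul_left_cancel₀ (inv_ne_zero hκ) e1
    have e3 : (τ x - τ y) * (l * (τ x * τ y) - 1) = 0 := by
      field_simp at e2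
      linear_combination e2
    have e4 : τ x = τ y := by
      rcases mul_eq_zero.1 e3 with h3 | h3
      · exact sub_eq_zero.1 h3
      · exfalso
        have h4 : ‖l * (τ x * τ y)‖ = 1 := by
          rw [sub_eq_zero.1 h3, norm_one]
        rw [norm_mul, hl1, one_mul, norm_mul] at h4
        have := norm_nonneg (τ x)
        have := norm_nonneg (τ y)
        nlinarith
    rw [← hx2, ← hy2, e4]
  · -- normalisation
    have hG : ContinuousAt (fun t : ℂ => κ⁻¹ * (l * t - (H t - H 0))) 0 := by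
      apply ContinuousAt.mul continuousAt_const
      exact (continuousAt_const.mul continuousAt_id).sub (hHc.sub continuousAt_const)
    have h3 := hG.tendsto.comp hlim
    simp only [mul_zero, sub_self] at h3
    refine h3.congr' ?_
    filter_upwards [eventually_notMem hK] with z hz
    exact (hform z hz).symm
  · -- the coefficient
    have hG : ContinuousAt (fun t : ℂ => (z₀ * t + κ⁻¹ * (1 + t * H t)) *
        (κ⁻¹ * (l - dslope H 0 t))) 0 := by
      apply ContinuousAt.mul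
      · apply ContinuousAt.add
        · exact continuousAt_const.mul continuousAt_id
        · exact continuousAt_const.mul (continuousAt_const.add (continuousAt_id.mul hHc))
      · exact continuousAt_const.mul (continuousAt_const.sub hdsc)
    have h3 := hG.tendsto.comp hlim
    simp only [mul_zero, zero_mul, add_zero, zero_add, mul_one, dslope_same] at h3
    rw [← hβ] at h3
    have h4 : κ⁻¹ * (κ⁻¹ * (l - β)) = κ⁻¹ * κ⁻¹ * (l - β) := by ring
    rw [h4] at h3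
    refine h3.congr' ?_
    filter_upwards [eventually_notMem hK] with z hz
    simp only [Function.comp]
    rw [hform z hz, hds (τ z)]
    have e := (h1 z hz).2
    have hne := hτne z hz
    have e2 : z * τ z = z₀ * τ z + κ⁻¹ * (1 + τ z * H (τ z)) := by
      linear_combination (-τ z) * e + κ⁻¹ * (mul_inv_cancel₀ hne)
    rw [← e2]
    ring
  · -- real part
    rw [hre]
    have := Complex.re_le_norm (κ⁻¹ * κ⁻¹ * β)
    linarith
  · -- equality case
    intro h0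
    rw [hre] at h0
    have h3 := Complex.re_le_norm (κ⁻¹ * κ⁻¹ * β)
    have hpos : 0 < (‖κ‖ ^ 2)⁻¹ := by positivity
    have hβ1 : ‖β‖ = 1 := by
      apply le_antisymm hb1
      rw [hB] at h3
      have h4 : (‖κ‖ ^ 2)⁻¹ * 1 ≤ (‖κ‖ ^ 2)⁻¹ * ‖β‖ := by linarith
      exact le_of_mul_le_mul_left h4 hpos
    have hlβ : β = l := by
      have h4 : (κ⁻¹ * κ⁻¹ * β).re = ‖κ⁻¹ * κ⁻¹ * β‖ := by
        rw [hB, hβ1, mul_one]; linarith
      have h5 : κ⁻¹ * κ⁻¹ * β = ((‖κ⁻¹ * κ⁻¹ * β‖ : ℝ) : ℂ) := eq_ofReal_of_re_eq_norm h4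
      rw [hB, hβ1, mul_one, ← hA] at h5
      exact mul_left_cancel₀ (mul_ne_zero (inv_ne_zero hκ) (inv_ne_zero hκ)) h5
    have hH1 := hbe hβ1
    refine ⟨(z₀ + κ⁻¹ * H 0).im, fun z hzK => ?_⟩
    by_contra hcon
    have hcon' : z.im ≠ (z₀ + κ⁻¹ * H 0).im := hcon
    have hu : (z - (z₀ + κ⁻¹ * H 0)).im ≠ 0 := by
      rw [Complex.sub_im]
      exact sub_ne_zero.2 hcon'
    obtain ⟨ω, hω, hωu⟩ := jouk_surj (inv_pos.2 hκn) hu
    have hω0 : ω ≠ 0 := by
      rw [← norm_pos_iff]; exact (inv_pos.2 hκn).trans hω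
    set t : ℂ := κ⁻¹ * ω⁻¹ with ht
    have ht0 : t ≠ 0 := mul_ne_zero (inv_ne_zero hκ) (inv_ne_zero hω0)
    have ht1 : t ∈ ball (0:ℂ) 1 := by
      rw [mem_ball_zero_iff, ht, norm_mul, norm_inv, norm_inv, ← mul_inv]
      apply inv_lt_one_of_one_lt₀
      rw [inv_lt_iff_one_lt_mul₀ hκn] at hω
      linarith
    have h4 := (h2 t ⟨ht1, ht0⟩).1
    apply h4
    have h5 : z₀ + κ⁻¹ * (t⁻¹ + H t) = z := by
      rw [hH1 t ht1, hlβ]
      have h6 : t⁻¹ = κ * ω := by rw [ht]; field_simp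
      have h7 : κ⁻¹ * (l * t) = ((‖κ‖⁻¹ : ℝ) : ℂ) ^ 2 * ω⁻¹ := by
        rw [ht]
        have h8 : ((‖κ‖⁻¹ : ℝ) : ℂ) ^ 2 = κ⁻¹ * κ⁻¹ * l := by
          rw [hA]; push_cast; rw [inv_pow]
        rw [h8]; ring
      rw [h6]
      have h9 : κ⁻¹ * (κ * ω) = ω := by field_simp
      have h10 : z₀ + κ⁻¹ * (κ * ω + (H 0 + l * t)) =
          (κ⁻¹ * (κ * ω) + κ⁻¹ * (l * t)) + (z₀ + κ⁻¹ * H 0) := by ring
      rw [h10, h9, h7, hωu]; ring
    rw [h5]; exact hzK

end Crest.Agent.R105.Slt_107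
end

-- ▼ part R105/Slt4_107
section

/-!
Row 105 (helper107), slit maps, part 4: a maximiser `f` of `Re b₁` over `Sigma(U)` has all components of
`(f '' U)ᶜ` on horizontal lines (so they are horizontal segments or points).
-/

set_option autoImplicit false

open Set Filter Metric Topology
open Crest.AnalysisR

namespace Crest.Agent.R105.Slt_107

open Crest.Agent.R105.FK_644 (Sig dom)

theorem tendsto_ratio {f : ℂ → ℂ} (h : Tendsto (fun z => f z - z) (cocompact ℂ) (𝓝 0)) :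
    Tendsto (fun z => z / f z) (cocompact ℂ) (𝓝 1) := by
  have h1 : Tendsto (fun z : ℂ => z⁻¹) (cocompact ℂ) (𝓝 0) := by
    rw [← cobounded_eq_cocompact]; exact tendsto_inv₀_cobounded
  have h2 : Tendsto (fun z => 1 + (f z - z) * z⁻¹) (cocompact ℂ) (𝓝 (1 + 0 * 0)) :=
    (h.mul h1).const_add 1
  rw [mul_zero, add_zero] at h2
  have h3 := h2.inv₀ one_ne_zero
  rw [inv_one] at h3
  refine h3.congr' ?_
  have h4 : ∀ᶠ z : ℂ in cocompact ℂ, z ∉ ({0} : Set ℂ) := eventually_notMem isCompact_singleton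
  filter_upwards [h4] with z hz
  have hz0 : z ≠ 0 := hz
  have : 1 + (f z - z) * z⁻¹ = f z / z := by field_simp; ring
  rw [this, inv_div]

theorem Sig.comp' {U K : Set ℂ} {f h : ℂ → ℂ} (hf : Sig U f) (hh : Sig Kᶜ h)
    (hK : f '' U ⊆ Kᶜ) : Sig U (h ∘ f) := by
  have hinf : Tendsto f (cocompact ℂ) (cocompact ℂ) :=
    Crest.Agent.R105.Red_828.tendsto_cocompact_of_tendsto_sub hf.inf
  refine ⟨hh.hol.comp hf.hol (fun z hz => hK ⟨z, hz, rfl⟩), ?_, ?_⟩
  · intro x hx y hy hxy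
    exact hf.inj hx hy (hh.inj (hK ⟨x, hx, rfl⟩) (hK ⟨y, hy, rfl⟩) hxy)
  · have h1 := (hh.inf.comp hinf).add hf.inf
    rw [add_zero] at h1
    refine h1.congr (fun z => ?_)
    simp only [Function.comp]
    ring

theorem coeff_comp {f h : ℂ → ℂ} {a b : ℂ}
    (hf : Tendsto (fun z => f z - z) (cocompact ℂ) (𝓝 0))
    (ha : Tendsto (fun z => z * (f z - z)) (cocompact ℂ) (𝓝 a))
    (hb : Tendsto (fun z => z * (h z - z)) (cocompact ℂ) (𝓝 b)) :
    Tendsto (fun z => z * ((h ∘ f) z - z)) (cocompact ℂ) (𝓝 (b + a)) := by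
  have hinf : Tendsto f (cocompact ℂ) (cocompact ℂ) :=
    Crest.Agent.R105.Red_828.tendsto_cocompact_of_tendsto_sub hf
  have h1 := ((tendsto_ratio hf).mul (hb.comp hinf)).add ha
  rw [one_mul] at h1
  refine h1.congr' ?_
  have h4 : ∀ᶠ z : ℂ in cocompact ℂ, f z ∉ ({0} : Set ℂ) :=
    hinf.eventually (eventually_notMem isCompact_singleton)
  filter_upwards [h4] with z hz
  have hz0 : f z ≠ 0 := hz
  simp only [Function.comp]
  field_simp
  ring

theorem isPreconnected_compl_cc {V : Set ℂ} (hV : IsExteriorDomain V) (z : ℂ) :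
    IsPreconnected (connectedComponentIn Vᶜ z)ᶜ := by
  have h := Crest.Agent.R105.FK_644.preconn_comps hV (ι := Unit) (z := fun _ => z)
    (fun i j hij => absurd (Subsingleton.elim i j) hij)
  have e : dom (fun _ : Unit => connectedComponentIn Vᶜ z) = (connectedComponentIn Vᶜ z)ᶜ := by
    unfold dom
    rw [iUnion_const]
  rwa [e] at h

/-- **Slit theorem**: a maximiser of `Re b₁` over `Sigma(U)` maps `U` onto a domain all of whose
complementary components lie on horizontal lines. -/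
theorem slit_of_max {U : Set ℂ} (hU : IsExteriorDomain U) {f : ℂ → ℂ} (hf : Sig U f) {b : ℂ}
    (hb : Tendsto (fun z => z * (f z - z)) (cocompact ℂ) (𝓝 b))
    (hmax : ∀ (g : ℂ → ℂ) (b' : ℂ), Sig U g →
      Tendsto (fun z => z * (g z - z)) (cocompact ℂ) (𝓝 b') → b'.re ≤ b.re) :
    ∀ z, z ∉ f '' U → ∃ c : ℝ, connectedComponentIn (f '' U)ᶜ z ⊆ {w | w.im = c} := by
  intro z hz
  have hinf : Tendsto f (cocompact ℂ) (cocompact ℂ) :=
    Crest.Agent.R105.Red_828.tendsto_cocompact_of_tendsto_sub hf.inf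
  have hV : IsExteriorDomain (f '' U) :=
    Crest.Agent.R105.Red_828.exteriorDomain_image hU hf.hol hf.inj hinf
  set K : Set ℂ := connectedComponentIn (f '' U)ᶜ z with hK
  have hKc : IsCompact K :=
    Crest.Agent.R105.Ends_897.isCompact_cc (Crest.Agent.R105.Ends_897.isCompact_compl hV) z
  have hKp : IsPreconnected K := isPreconnected_connectedComponentIn
  have hKo : IsPreconnected Kᶜ := isPreconnected_compl_cc hV z
  have hsub : K ⊆ (f '' U)ᶜ := connectedComponentIn_subset _ _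
  by_cases hn : K.Nontrivial
  · obtain ⟨h, b', hh, hb', hb0, hbe⟩ := step hKc hKp hKo hn
    have h1 : f '' U ⊆ Kᶜ := fun w hw hwK => hsub hwK hw
    have h2 := hmax (h ∘ f) (b' + b) (Sig.comp' hf hh h1) (coeff_comp hf.inf hb hb')
    rw [Complex.add_re] at h2
    exact hbe (by linarith)
  · rw [Set.not_nontrivial_iff] at hn
    have hzK : z ∈ K := mem_connectedComponentIn hz
    exact ⟨z.im, fun w hw => by rw [hn hw hzK]; rfl⟩

/-- a nondegenerate continuum on a horizontal line is a horizontal segment -/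
theorem eq_segment {K : Set ℂ} (hK : IsCompact K) (hp : IsPreconnected K) (hn : K.Nontrivial)
    {c : ℝ} (hc : K ⊆ {w | w.im = c}) :
    ∃ (a : ℂ) (l : ℝ), 0 < l ∧ K = segment ℝ a (a + (l : ℂ)) := by
  have hI : IsCompact (Complex.re '' K) := hK.image Complex.continuous_re
  have hIp : IsPreconnected (Complex.re '' K) := hp.image _ Complex.continuous_re.continuousOn
  have hne : (Complex.re '' K).Nonempty := hn.nonempty.image _
  have h1 : Complex.re '' K = Icc (sInf (Complex.re '' K)) (sSup (Complex.re '' K)) :=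
    eq_Icc_of_connected_compact ⟨hne, hIp⟩ hI
  set α := sInf (Complex.re '' K) with hα
  set β := sSup (Complex.re '' K) with hβ
  have hmem : ∀ w : ℂ, w ∈ K ↔ w.im = c ∧ α ≤ w.re ∧ w.re ≤ β := by
    intro w
    constructor
    · intro hw
      refine ⟨hc hw, ?_⟩
      have : w.re ∈ Complex.re '' K := ⟨w, hw, rfl⟩
      rw [h1] at this
      exact this
    · rintro ⟨h2, h3⟩
      have : w.re ∈ Complex.re '' K := by rw [h1]; exact h3
      obtain ⟨v, hv, hvw⟩ := this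
      have : v = w := Complex.ext hvw ((hc hv).trans h2.symm)
      rw [← this]; exact hv
  have hlt : α < β := by
    obtain ⟨x, hx, y, hy, hxy⟩ := hn
    have hx' := (hmem x).1 hx
    have hy' := (hmem y).1 hy
    have hre : x.re ≠ y.re := fun h => hxy (Complex.ext h (hx'.1.trans hy'.1.symm))
    rcases lt_or_gt_of_ne hre with h | h
    · linarith [hx'.2.1, hy'.2.2]
    · linarith [hy'.2.1, hx'.2.2]
  refine ⟨⟨α, c⟩, β - α, sub_pos.2 hlt, ?_⟩
  ext w
  rw [hmem, segment_eq_image']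
  simp only [add_sub_cancel_left, mem_image, mem_Icc]
  constructor
  · rintro ⟨h2, h3, h4⟩
    refine ⟨(w.re - α) / (β - α), ⟨div_nonneg (by linarith) (by linarith),
      (div_le_one (by linarith)).2 (by linarith)⟩, ?_⟩
    have h5 : β - α ≠ 0 := (sub_pos.2 hlt).ne'
    apply Complex.ext
    · simp only [Complex.real_smul, Complex.add_re, Complex.mul_re, Complex.ofReal_re,
        Complex.ofReal_im]
      field_simp
      ring
    · simp only [Complex.real_smul, Complex.add_im, Complex.mul_im, Complex.ofReal_re,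
        Complex.ofReal_im, h2]
      ring
  · rintro ⟨θ, ⟨h2, h3⟩, rfl⟩
    have h5 := sub_pos.2 hlt
    simp only [Complex.real_smul, Complex.add_re, Complex.mul_re, Complex.ofReal_re,
        Complex.ofReal_im, Complex.add_im, Complex.mul_im]
    refine ⟨by ring, ?_, ?_⟩
    · nlinarith
    · nlinarith

end Crest.Agent.R105.Slt_107
end

-- ▼ part R105/FK4_644

/-!
# Row 105, finite Koebe (helper644), part 4

* `tendsto_b1`   : the coefficient `b₁` is continuous under locally uniform convergence in `Sig U`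
* `exists_max`   : attainment of the maximum of `Re b₁` over `Sig U`
* `slit`         : the labelled parallel slit theorem `Slit`
-/

set_option autoImplicit false

open Set Filter Topology Metric Complex

namespace Crest.Agent.R105.FK_644

open Crest.AnalysisR Uni231

theorem norm_b1_sub_le {U : Set ℂ} {f g : ℂ → ℂ} (hf : Uni231.Sig U f) (hg : Uni231.Sig U g)
    {R : ℝ} (hR : 0 < R) (hRU : Ext R ⊆ U) {e : ℝ}
    (he : ∀ z ∈ sphere (0:ℂ) (2 * R), ‖f z - g z‖ ≤ e) :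
    ‖b1 f - b1 g‖ ≤ R * (e / (1 / 2)) := by
  rw [hf.b1_eq hR hRU, hg.b1_eq hR hRU, ← mul_sub, norm_mul, Complex.norm_real,
    Real.norm_eq_abs, abs_of_pos hR]
  have h1 := reg_differentiableOn hR (hf.diff.mono hRU) hf.lim
  have h2 := reg_differentiableOn hR (hg.diff.mono hRU) hg.lim
  have h0 : ball (0:ℂ) 1 ∈ 𝓝 (0:ℂ) := ball_mem_nhds 0 one_pos
  have h3 : deriv (reg f R) 0 - deriv (reg g R) 0 = deriv (fun ζ => reg f R ζ - reg g R ζ) 0 := by
    rw [deriv_fun_sub (h1.differentiableAt h0) (h2.differentiableAt h0)]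
  rw [h3]
  have h4 : closedBall (0:ℂ) (1 / 2) ⊆ ball (0:ℂ) 1 := closedBall_subset_ball (by norm_num)
  refine mul_le_mul_of_nonneg_left ?_ hR.le
  apply Complex.norm_deriv_le_of_forall_mem_sphere_norm_le (by norm_num)
  · apply DifferentiableOn.diffContOnCl
    rw [closure_ball _ (by norm_num)]
    exact (h1.sub h2).mono h4
  · intro ζ hζ
    rw [mem_sphere_zero_iff_norm] at hζ
    have hne : ζ ≠ 0 := by
      rintro rfl
      norm_num at hζ
    rw [reg_of_ne hne, reg_of_ne hne]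
    have h5 : ((R : ℂ) / ζ) ∈ sphere (0:ℂ) (2 * R) := by
      rw [mem_sphere_zero_iff_norm, norm_div, Complex.norm_real, Real.norm_eq_abs,
        abs_of_pos hR, hζ]
      ring
    have h6 := he _ h5
    have h7 : f ((R : ℂ) / ζ) - (R : ℂ) / ζ - (g ((R : ℂ) / ζ) - (R : ℂ) / ζ) =
        f ((R : ℂ) / ζ) - g ((R : ℂ) / ζ) := by ring
    rw [h7]
    exact h6

theorem tendsto_b1 {U : Set ℂ} {f : ℕ → ℂ → ℂ} {g : ℂ → ℂ} (hf : ∀ n, Uni231.Sig U (f n))
    (hg : Uni231.Sig U g) {R : ℝ} (hR : 0 < R) (hRU : Ext R ⊆ U)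
    (h : TendstoLocallyUniformlyOn f g atTop U) :
    Tendsto (fun n => b1 (f n)) atTop (𝓝 (b1 g)) := by
  rw [Metric.tendsto_nhds]
  intro ε hε
  have hS : sphere (0:ℂ) (2 * R) ⊆ U := by
    intro z hz
    apply hRU
    rw [mem_sphere_zero_iff_norm] at hz
    rw [mem_Ext, hz]
    linarith
  have h1 : TendstoUniformlyOn f g atTop (sphere (0:ℂ) (2 * R)) :=
    (tendstoLocallyUniformlyOn_iff_tendstoUniformlyOn_of_compact (isCompact_sphere _ _)).1
      (h.mono hS)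
  rw [Metric.tendstoUniformlyOn_iff] at h1
  filter_upwards [h1 (ε / (4 * R)) (by positivity)] with n hn
  rw [dist_eq_norm]
  have h2 := norm_b1_sub_le (hf n) hg hR hRU (e := ε / (4 * R)) (fun z hz => by
    have := (hn z hz).le
    rwa [dist_comm, dist_eq_norm] at this)
  refine lt_of_le_of_lt h2 ?_
  have h3 : R * (ε / (4 * R) / (1 / 2)) = ε / 2 := by
    field_simp
    ring
  rw [h3]
  linarith

/-- attainment of the maximum of `Re b₁` -/
theorem exists_max {U : Set ℂ} (hU : IsExteriorDomain U) :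
    ∃ f, Sig U f ∧ ∀ g, Sig U g → (b1 g).re ≤ (b1 f).re := by
  obtain ⟨R, hR, hRU⟩ := exists_Ext_subset hU
  set A : Set ℝ := {t | ∃ f, Uni231.Sig U f ∧ t = (b1 f).re} with hA
  have hne : A.Nonempty := ⟨_, id, sig_id U, rfl⟩
  have hbd : BddAbove A := by
    refine ⟨7 * R ^ 2, ?_⟩
    rintro t ⟨f, hf, rfl⟩
    exact (Complex.re_le_norm _).trans (hf.norm_b1_le hR hRU)
  obtain ⟨t, -, ht, htA⟩ := exists_seq_tendsto_sSup hne hbd
  choose f hf hft using htA
  obtain ⟨φ, g, hφ, hg, hlim⟩ := exists_subseq (Uk := fun _ => U) (f := f) hU.1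
    hU.2.1.isPreconnected hR hRU (Eventually.of_forall hf) (Eventually.of_forall fun _ => hRU)
    (fun K hK _ => Eventually.of_forall fun _ => hK)
  have h1 := tendsto_b1 (fun n => hf (φ n)) hg hR hRU hlim
  have h2 : Tendsto (fun n => (b1 (f (φ n))).re) atTop (𝓝 (b1 g).re) :=
    (Complex.continuous_re.tendsto _).comp h1
  have h3 : Tendsto (fun n => (b1 (f (φ n))).re) atTop (𝓝 (sSup A)) := by
    have := ht.comp hφ.tendsto_atTop
    refine this.congr fun n => ?_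
    simp only [Function.comp]
    exact hft _
  have h4 := tendsto_nhds_unique h2 h3
  refine ⟨g, Sig.ofU hg, fun h hh => ?_⟩
  rw [h4]
  exact le_csSup hbd ⟨h, hh.toU, rfl⟩

/-- **parallel slit theorem**, labelled -/
theorem slit : Slit := by
  classical
  intro n K hK
  have hU := hK.exterior
  obtain ⟨R, hR, hRU⟩ := exists_Ext_subset hU
  obtain ⟨f, hf, hmax⟩ := exists_max hU
  obtain ⟨K', hK', hL⟩ := lab hK hf
  have h1 := Slt_107.slit_of_max hU hf (hf.toU.tendsto_b1 hR hRU) (fun g b' hg hb' => by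
    have h2 := hmax g hg
    rwa [tendsto_nhds_unique (hg.toU.tendsto_b1 hR hRU) hb'] at h2)
  have h2 : ∀ i, ∃ (a : ℂ) (l : ℝ), 0 < l ∧ K' i = segment ℝ a (a + (l : ℂ)) := by
    intro i
    obtain ⟨z, hz⟩ := (hK'.conn i).nonempty
    have hz' : z ∉ f '' dom K := by
      rw [hL.img]
      exact not_mem_dom' hz
    obtain ⟨c, hc⟩ := h1 z hz'
    rw [hL.img, hK'.cc_eq hz] at hc
    exact Slt_107.eq_segment (hK'.cpt i) (hK'.conn i).isPreconnected (hK'.nt i) hc
  choose a l hl hKs using h2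
  have hs : slits (fun i => (a i, l i)) = K' := by
    funext i
    exact (hKs i).symm
  refine ⟨fun i => (a i, l i), ⟨hl, fun i j hij => ?_⟩, f, ?_⟩
  · rw [hs]
    exact hK'.disj i j hij
  · rw [hs]
    exact hL

end Crest.Agent.R105.FK_644
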