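import Crest.Agent.R193.Planar1

/-!
# Row 105, S0138, NI (#9956): plane topology (helper39)

* `splits_C` : the splitting lemma for closed sets of the plane, hence plane unicoherence
* `bump` : boundary bumping for closed connected (possibly unbounded) sets
* `isPreconnected_level` : `{lo ≤ t ≤ hi}` is connected
* `slice` : the multivalued image of a connected set is an interval
-/

set_option autoImplicit false

open Set Filter Topology Metric
open scoped ContDiff Manifold

namespace Crest.Agent.R105.Nit_39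

open Crest.Agent.R135 Crest.Agent.R193.Planar

/-- The plane splits (closed sets, not only compact ones). -/
theorem splits_E2 : Splits E2 := by
  intro K1 K2 h1 h2 hd c hc
  obtain ⟨O, hO, h1O, hO2⟩ := normal_exists_closure_subset h1 h2.isOpen_compl
    (fun x hx => disjoint_left.1 hd hx)
  obtain ⟨η, hη1, hη0, -⟩ := exists_contMDiffMap_one_nhds_of_subset_interior (n := (⊤ : ℕ∞))
    𝓘(ℝ, E2) h1 (show K1 ⊆ interior (closure O) from
      h1O.trans (interior_maximal subset_closure hO))
  have hηs : ContDiff ℝ ∞ (η : E2 → ℝ) := η.contMDiff.contDiff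
  have hη1' : ∀ x ∈ K1, ∀ᶠ y in 𝓝 x, η y = 1 := fun x hx =>
    (eventually_nhdsSet_iff_forall.1 hη1) x hx
  have hη0' : ∀ x ∈ K2, ∀ᶠ y in 𝓝 x, η y = 0 := by
    intro x hx
    have hxT : x ∉ closure O := fun h => hO2 h hx
    filter_upwards [isClosed_closure.isOpen_compl.mem_nhds hxT] with y hy using hη0 y hy
  have hex : ∀ x ∈ (univ : Set E2), (∀ᶠ y in 𝓝 x, η y = η x) ∨ (∀ᶠ y in 𝓝 x, c y = c x) := by
    intro x _
    by_cases h3 : x ∈ K1
    · left
      have := hη1' x h3
      filter_upwards [this] with y hy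
      rw [hy, this.self_of_nhds]
    by_cases h4 : x ∈ K2
    · left
      have := hη0' x h4
      filter_upwards [this] with y hy
      rw [hy, this.self_of_nhds]
    · right
      exact hc x fun h => h.elim h3 h4
  obtain ⟨g, hg, hg1, hg2⟩ := split_aux isOpen_univ convex_univ hηs hex
  have hc1 : LocConstOn K1ᶜ (fun y => η y * c y - g y) := by
    refine hg1 _ (subset_univ _) h1.isOpen_compl fun x hx => ?_
    by_cases h4 : x ∈ K2
    · left; exact hη0' x h4
    · right; exact hc x fun h => h.elim hx h4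
  have hc2 : LocConstOn K2ᶜ (fun y => (1 - η y) * c y + g y) := by
    refine hg2 _ (subset_univ _) h2.isOpen_compl fun x hx => ?_
    by_cases h3 : x ∈ K1
    · left; exact hη1' x h3
    · right; exact hc x fun h => h.elim h3 hx
  exact ⟨_, _, fun x hx => hc1 x hx, fun x hx => hc2 x hx, fun y _ => by ring⟩

theorem splits_C : Splits ℂ :=
  splits_E2.of_homeo
    (Complex.orthonormalBasisOneI.repr.toHomeomorph : ℂ ≃ₜ EuclideanSpace ℝ (Fin 2))

/-- Unicoherence of the plane. -/
theorem inter_isPreconnected {A B : Set ℂ} (hA : IsClosed A) (hB : IsClosed B)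
    (hcA : IsPreconnected A) (hcB : IsPreconnected B) (hAB : A ∪ B = univ) :
    IsPreconnected (A ∩ B) :=
  splits_C.inter_isPreconnected hA hB hcA hcB hAB

/-! ### boundary bumping -/

/-- If `L` is closed and connected, `N` open with compact closure, `q ∈ L ∩ closure N` and
`L ⊄ N`, the component of `L ∩ closure N` through `q` meets the frontier of `N`. -/
theorem bump {X : Type*} [TopologicalSpace X] [T2Space X] {L N : Set X} (hL : IsClosed L)
    (hLc : IsPreconnected L) (hN : IsOpen N) (hNc : IsCompact (closure N)) {q : X} (hqL : q ∈ L)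
    (hqN : q ∈ closure N) (hLN : ¬ L ⊆ N) :
    (connectedComponentIn (L ∩ closure N) q ∩ frontier N).Nonempty := by
  by_contra hcon
  rw [not_nonempty_iff_eq_empty] at hcon
  set F : Set X := L ∩ closure N with hF
  have hFc : IsCompact F := hNc.inter_left hL
  have hqF : q ∈ F := ⟨hqL, hqN⟩
  have : CompactSpace F := isCompact_iff_compactSpace.1 hFc
  -- the component inside the subtype
  have hcc : connectedComponentIn F q = Subtype.val '' connectedComponent (⟨q, hqF⟩ : F) :=
    connectedComponentIn_eq_image hqF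
  have hopen : IsOpen (Subtype.val ⁻¹' N : Set F) := hN.preimage continuous_subtype_val
  have hsub : connectedComponent (⟨q, hqF⟩ : F) ⊆ (Subtype.val ⁻¹' N : Set F) := by
    intro z hz
    by_contra hzN
    have h1 : (z : X) ∈ connectedComponentIn F q := by rw [hcc]; exact mem_image_of_mem _ hz
    have h2 : (z : X) ∈ frontier N := by
      rw [frontier, hN.interior_eq]
      exact ⟨z.2.2, hzN⟩
    have : (z : X) ∈ (∅ : Set X) := by rw [← hcon]; exact ⟨h1, h2⟩
    exact this
  rw [connectedComponent_eq_iInter_isClopen] at hsub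
  have : Nonempty { s : Set F // IsClopen s ∧ (⟨q, hqF⟩ : F) ∈ s } :=
    ⟨⟨univ, isClopen_univ, mem_univ _⟩⟩
  obtain ⟨D, hD⟩ := exists_subset_nhds_of_compactSpace
    (V := fun s : { s : Set F // IsClopen s ∧ (⟨q, hqF⟩ : F) ∈ s } => (s : Set F))
    (by
      intro s t
      exact ⟨⟨s.1 ∩ t.1, s.2.1.inter t.2.1, s.2.2, t.2.2⟩, inter_subset_left, inter_subset_right⟩)
    (fun s => s.2.1.1) (fun x hx => hopen.mem_nhds (hsub hx))
  obtain ⟨O, hO, hOD⟩ := isOpen_induced_iff.1 D.2.1.2
  have hDc : IsClosed (Subtype.val '' (D : Set F)) :=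
    ((D.2.1.1.isCompact).image continuous_subtype_val).isClosed
  obtain ⟨w, hwL, hwN⟩ := not_subset.1 hLN
  obtain ⟨z, hzL, ⟨hzO, hzN⟩, hzD⟩ := hLc (O ∩ N) (Subtype.val '' (D : Set F))ᶜ (hO.inter hN)
    hDc.isOpen_compl
    (by
      intro z hz
      by_cases h : z ∈ Subtype.val '' (D : Set F)
      · left
        obtain ⟨y, hy, rfl⟩ := h
        refine ⟨?_, hD hy⟩
        rw [← hOD] at hy
        exact hy
      · right; exact h)
    ⟨q, hqL, by
      have h := D.2.2
      rw [← hOD] at h
      exact h, hD D.2.2⟩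
    ⟨w, hwL, by
      rintro ⟨y, hy, rfl⟩
      exact hwN (hD hy)⟩
  apply hzD
  refine ⟨⟨z, hzL, subset_closure hzN⟩, ?_, rfl⟩
  rw [← hOD]
  exact hzO

/-! ### levels of a pair of semicontinuous functions -/

/-- The level set of a lower/upper pair is connected. -/
theorem isPreconnected_level {lo hi : ℂ → ℝ} (hlo : LowerSemicontinuous lo)
    (hhi : UpperSemicontinuous hi) (hle : ∀ z, lo z ≤ hi z) {t : ℝ}
    (h1 : IsPreconnected {z | lo z ≤ t}) (h2 : IsPreconnected {z | t ≤ hi z}) :
    IsPreconnected {z | lo z ≤ t ∧ t ≤ hi z} := by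
  refine inter_isPreconnected (A := {z | lo z ≤ t}) (B := {z | t ≤ hi z})
    (hlo.isClosed_preimage t) (hhi.isClosed_preimage t) h1 h2 ?_
  rw [eq_univ_iff_forall]
  intro z
  rcases le_total (lo z) t with h | h
  · exact Or.inl h
  · exact Or.inr (h.trans (hle z))


/-- **Slices.** The multivalued image of a connected set is an interval. -/
theorem slice {X : Type*} [TopologicalSpace X] {lo hi : X → ℝ} (hlo : LowerSemicontinuous lo)
    (hhi : UpperSemicontinuous hi) (hle : ∀ z, lo z ≤ hi z) {C : Set X} (hC : IsPreconnected C)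
    {q q' : X} (hq : q ∈ C) (hq' : q' ∈ C) {s : ℝ} (h1 : lo q' ≤ s) (h2 : s ≤ hi q) :
    ∃ z ∈ C, lo z ≤ s ∧ s ≤ hi z := by
  obtain ⟨z, hz, h3, h4⟩ := (isPreconnected_closed_iff.1 hC) {z | lo z ≤ s} {z | s ≤ hi z}
    (hlo.isClosed_preimage s) (hhi.isClosed_preimage s)
    (fun z _ => by
      rcases le_total (lo z) s with h | h
      · exact Or.inl h
      · exact Or.inr (h.trans (hle z)))
    ⟨q', hq', h1⟩ ⟨q, hq, h2⟩
  exact ⟨z, hz, h3, h4⟩

end Crest.Agent.R105.Nit_39
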