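import Crest.Agent.R105.Sl3_732_Mg
import Crest.Agent.R105.Uni3_659
import Crest.Agent.R105.Nit1_39
import Crest.Agent.R105.SkA1_8

-- ▼ part R105/Nip7_31
section

/-!
# Row 105, S0138 (T-frame), module NI of helper459, part (P2), file 7 (helper31)

* `lv_preconn` : the level sets of a switched function (= `re` far away) are preconnected.
-/

set_option autoImplicit false

open Set Filter Topology MeasureTheory Metric
open scoped ENNReal NNReal

namespace Crest.Agent.R105.Nip_31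

open Bd_775 Tc_808 Ni_459 Crest.AnalysisR Sl_732

/-- a closed set without islands whose part outside a compact set is preconnected (and nonempty)
is preconnected -/
lemma preconn_of_noIsland {S B : Set ℂ} (hS : IsClosed S) (hN : Uni_659.NoIsland S)
    (hB : IsCompact B) (hSB : IsPreconnected (S \ B)) : IsPreconnected S := by
  rw [isPreconnected_iff_subset_of_fully_disjoint_closed hS]
  intro u v hu hv huv hd
  -- the part outside `B` lies in one of them
  have key : ∀ u v : Set ℂ, IsClosed u → IsClosed v → S ⊆ u ∪ v → Disjoint u v → S \ B ⊆ u →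
      S ⊆ u := by
    intro u v hu hv huv hd hsub
    by_contra hcon
    obtain ⟨z, hz, hzu⟩ := Set.not_subset.1 hcon
    have hzv : z ∈ v := (huv hz).resolve_left hzu
    have h1 : S ∩ v ⊆ B := by
      intro x hx
      by_contra hxB
      exact disjoint_left.1 hd (hsub ⟨hx.1, hxB⟩) hx.2
    refine hN (S ∩ v) inter_subset_left ⟨z, hz, hzv⟩ (hB.of_isClosed_subset (hS.inter hv) h1)
      ⟨uᶜ, hu.isOpen_compl, ?_⟩
    ext x
    constructor
    · rintro ⟨hx, hxS⟩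
      exact ⟨hxS, (huv hxS).resolve_left hx⟩
    · rintro ⟨hxS, hxv⟩
      exact ⟨fun hxu => disjoint_left.1 hd hxu hxv, hxS⟩
  have h2 : S \ B ⊆ u ∨ S \ B ⊆ v := by
    refine isPreconnected_iff_subset_of_disjoint_closed.1 hSB u v hu hv
      (sdiff_subset.trans huv) ?_
    rw [hd.inter_eq, inter_empty]
  rcases h2 with h2 | h2
  · exact Or.inl (key u v hu hv huv hd h2)
  · exact Or.inr (key v u hv hu (by rwa [union_comm]) hd.symm h2)

/-- the closed box -/
def bx (ρ : ℝ) : Set ℂ := {z | |z.re| ≤ ρ ∧ |z.im| ≤ ρ}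

lemma bx_compact (ρ : ℝ) : IsCompact (bx ρ) := by
  refine (isCompact_closedBall (0 : ℂ) (2 * ρ)).of_isClosed_subset ?_ fun z hz => ?_
  · exact (isClosed_le Complex.continuous_re.abs continuous_const).inter
      (isClosed_le Complex.continuous_im.abs continuous_const)
  · rw [mem_closedBall_zero_iff]
    have := Complex.norm_le_abs_re_add_abs_im z
    linarith [hz.1, hz.2]

lemma norm_of_notMem_bx {ρ : ℝ} {z : ℂ} (h : z ∉ bx ρ) : ρ < ‖z‖ := by
  by_contra hcon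
  push Not at hcon
  exact h ⟨(Complex.abs_re_le_norm z).trans hcon, (Complex.abs_im_le_norm z).trans hcon⟩

lemma preconn_ge {t ρ : ℝ} (h1 : -ρ < t) (hρ : 0 < ρ) :
    IsPreconnected {z : ℂ | z ∉ bx ρ ∧ t ≤ z.re} := by
  have c1 : Convex ℝ {z : ℂ | t ≤ z.re ∧ ρ < z.im} :=
    (convex_halfSpace_re_ge t).inter (convex_halfSpace_im_gt ρ)
  have c2 : Convex ℝ {z : ℂ | ρ < z.re ∧ t ≤ z.re} :=
    (convex_halfSpace_re_gt ρ).inter (convex_halfSpace_re_ge t)
  have c3 : Convex ℝ {z : ℂ | t ≤ z.re ∧ z.im < -ρ} :=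
    (convex_halfSpace_re_ge t).inter (convex_halfSpace_im_lt (-ρ))
  set x : ℝ := max t ρ + 1 with hx
  have hxt : t < x := by rw [hx]; linarith [le_max_left t ρ]
  have hxρ : ρ < x := by rw [hx]; linarith [le_max_right t ρ]
  have h12 := IsPreconnected.union (⟨x, ρ + 1⟩ : ℂ)
    (show (⟨x, ρ + 1⟩ : ℂ) ∈ {z : ℂ | t ≤ z.re ∧ ρ < z.im} from ⟨hxt.le, by simp⟩)
    (show (⟨x, ρ + 1⟩ : ℂ) ∈ {z : ℂ | ρ < z.re ∧ t ≤ z.re} from ⟨hxρ, hxt.le⟩)
    c1.isPreconnected c2.isPreconnected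
  have h123 := IsPreconnected.union (⟨x, -ρ - 1⟩ : ℂ) (Or.inr ⟨hxρ, hxt.le⟩)
    (show (⟨x, -ρ - 1⟩ : ℂ) ∈ {z : ℂ | t ≤ z.re ∧ z.im < -ρ} from ⟨hxt.le, by simp⟩)
    h12 c3.isPreconnected
  convert h123 using 1
  ext z
  constructor
  · rintro ⟨hz, hzt⟩
    simp only [bx, mem_ofPred_eq, not_and_or, not_le, lt_abs] at hz
    rcases hz with (hz | hz) | (hz | hz)
    · exact Or.inl (Or.inr ⟨hz, hzt⟩)
    · exfalso; linarith
    · exact Or.inl (Or.inl ⟨hzt, hz⟩)
    · exact Or.inr ⟨hzt, show z.im < -ρ by linarith⟩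
  · rintro ((⟨h, h'⟩ | ⟨h, h'⟩) | ⟨h, h'⟩)
    · exact ⟨fun hb => by have := (abs_le.1 hb.2).2; linarith, h⟩
    · exact ⟨fun hb => by have := (abs_le.1 hb.1).2; linarith, h'⟩
    · exact ⟨fun hb => by have := (abs_le.1 hb.2).1; linarith, h⟩

lemma preconn_le {t ρ : ℝ} (h1 : t < ρ) (hρ : 0 < ρ) :
    IsPreconnected {z : ℂ | z ∉ bx ρ ∧ z.re ≤ t} := by
  have h := (preconn_ge (t := -t) (ρ := ρ) (by linarith) hρ).image (fun z : ℂ => -z)
    continuous_neg.continuousOn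
  convert h using 1
  ext z
  constructor
  · rintro ⟨hz, hzt⟩
    refine ⟨-z, ⟨fun hb => hz ?_, by simp only [Complex.neg_re]; linarith⟩, by simp⟩
    simpa [bx] using hb
  · rintro ⟨w, ⟨hw, hwt⟩, rfl⟩
    refine ⟨fun hb => hw (by simpa [bx] using hb), ?_⟩
    simp only [Complex.neg_re]; linarith

variable {Y : Set ℂ} {A f : ℂ → ℝ} {R t : ℝ}

lemma contAt (hY : IsExteriorDomain Yᶜ) (hf : LocallyLipschitzOn Yᶜ f) {z : ℂ} (hz : z ∉ Y) :
    ContinuousAt f z :=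
  hf.continuousOn.continuousAt ((cpt_of hY).isClosed.isOpen_compl.mem_nhds hz)

/-- **level sets of a switched function are preconnected** -/
theorem lv_preconn (hY : IsExteriorDomain Yᶜ) (hA : LocallyLipschitzOn Yᶜ A) (hAb : LB A)
    (hR : Y ⊆ ball 0 R) (hfar : ∀ z : ℂ, R ≤ ‖z‖ → A z = z.re) (hs : Swd Y A) (t : ℝ) :
    IsPreconnected (Lv Y A t) := by
  set ρ : ℝ := max R (|t| + 1) with hρ
  have hρR : R ≤ ρ := le_max_left _ _
  have hρt : |t| < ρ := by rw [hρ]; linarith [le_max_right R (|t| + 1)]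
  have hρ0 : 0 < ρ := (abs_nonneg t).trans_lt hρt
  have hout : ∀ z, z ∉ bx ρ → z ∉ Y ∧ A z = z.re := by
    intro z hz
    have h1 := norm_of_notMem_bx hz
    refine ⟨fun h => ?_, hfar z (hρR.trans h1.le)⟩
    have h2 := mem_ball_zero_iff.1 (hR h)
    linarith
  have hge : IsPreconnected {z | t ≤ up Y A z} := by
    refine preconn_of_noIsland ((usc_up hY hAb).isClosed_preimage t)
      (Uni_659.noIsland_up hY hAb (fun z hz => contAt hY hA hz) hs t) (bx_compact ρ) ?_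
    convert preconn_ge (t := t) (ρ := ρ) (by linarith [(abs_lt.1 hρt).1]) hρ0 using 1
    ext z
    constructor
    · rintro ⟨h1, h2⟩
      refine ⟨h2, ?_⟩
      obtain ⟨h3, h4⟩ := hout z h2
      rw [← h4, ← up_eq hY hA hAb h3]
      exact h1
    · rintro ⟨h2, h1⟩
      obtain ⟨h3, h4⟩ := hout z h2
      refine ⟨?_, h2⟩
      show t ≤ up Y A z
      rw [up_eq hY hA hAb h3, h4]
      exact h1
  have hle : IsPreconnected {z | lo Y A z ≤ t} := by
    refine preconn_of_noIsland ((lsc_lo hY hAb).isClosed_preimage t)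
      (Uni_659.noIsland_lo hY hAb (fun z hz => contAt hY hA hz) hs t) (bx_compact ρ) ?_
    convert preconn_le (t := t) (ρ := ρ) (abs_lt.1 hρt).2 hρ0 using 1
    ext z
    constructor
    · rintro ⟨h1, h2⟩
      refine ⟨h2, ?_⟩
      obtain ⟨h3, h4⟩ := hout z h2
      rw [← h4, ← lo_eq hY hA hAb h3]
      exact h1
    · rintro ⟨h2, h1⟩
      obtain ⟨h3, h4⟩ := hout z h2
      refine ⟨?_, h2⟩
      show lo Y A z ≤ t
      rw [lo_eq hY hA hAb h3, h4]
      exact h1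
  exact Nit_39.isPreconnected_level (lsc_lo hY hAb) (usc_up hY hAb) (lo_le_up hY hAb) hle hge

lemma lv_nonempty (hY : IsExteriorDomain Yᶜ) (hA : LocallyLipschitzOn Yᶜ A) (hAb : LB A)
    (hR : Y ⊆ ball 0 R) (hfar : ∀ z : ℂ, R ≤ ‖z‖ → A z = z.re) (t : ℝ) :
    (Lv Y A t \ Y).Nonempty := by
  have h1 : R ≤ ‖(⟨t, |R|⟩ : ℂ)‖ := by
    have := Complex.abs_im_le_norm (⟨t, |R|⟩ : ℂ)
    simp only [abs_abs] at this
    exact (le_abs_self R).trans this
  have hz : (⟨t, |R|⟩ : ℂ) ∉ Y := fun h => by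
    have := mem_ball_zero_iff.1 (hR h)
    linarith
  refine ⟨⟨t, |R|⟩, ⟨?_, ?_⟩, hz⟩
  · rw [lo_eq hY hA hAb hz, hfar _ h1]
  · rw [up_eq hY hA hAb hz, hfar _ h1]

end Crest.Agent.R105.Nip_31
end

-- ▼ part R105/Nip8_31

/-!
# Row 105, S0138 (T-frame), module NI of helper459, part (P2), file 8 (helper31): **LINP**

* `ni_iff_acv` : `NI Y a f ↔ ∀ᵐ t, ACV Y (Lv Y (x0 + a) t) f` for `a, f ∈ TT`, `x0 + a` switched;
* `linp : SkA_8.LINP`.
-/

set_option autoImplicit false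

open Set Filter Topology MeasureTheory Metric
open scoped ENNReal NNReal

namespace Crest.Agent.R105.Nip_31

open Bd_775 Tc_808 Ni_459 Crest.AnalysisR Sl_732 IfB_641

variable {Y : Set ℂ} {A f a b x0 : ℂ → ℝ} {R t : ℝ}

/-! ### `x0` does not matter on `Y` -/

lemma up_congr {u v : ℂ → ℝ} {O : Set ℂ} {z : ℂ} (hO : Nb Y z O)
    (h : ∀ w ∈ O, w ∉ Y → u w = v w) : up Y u z = up Y v z := by
  have key : ∀ u v : ℂ → ℝ, (∀ w ∈ O, w ∉ Y → u w = v w) →
      ∀ c, (∃ P, Nb Y z P ∧ ∀ w ∈ P, w ∉ Y → u w ≤ c) → ∃ P, Nb Y z P ∧ ∀ w ∈ P, w ∉ Y → v w ≤ c := by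
    rintro u v h c ⟨P, hP, hu⟩
    exact ⟨P ∩ O, hP.inter hO, fun w hw hwY => (h w hw.2 hwY) ▸ hu w hw.1 hwY⟩
  unfold up
  congr 1
  ext c
  exact ⟨key u v h c, key v u (fun w hw hwY => (h w hw hwY).symm) c⟩

lemma lo_congr {u v : ℂ → ℝ} {O : Set ℂ} {z : ℂ} (hO : Nb Y z O)
    (h : ∀ w ∈ O, w ∉ Y → u w = v w) : lo Y u z = lo Y v z := by
  unfold lo
  rw [up_congr hO fun w hw hwY => by rw [h w hw hwY]]

lemma nb_x0 (hx : X0 Y x0) {z : ℂ} (hz : z ∈ Y) : Nb Y z (tsupport x0)ᶜ :=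
  nb_of_mem hz (isClosed_tsupport x0).isOpen_compl fun _ hw hwx =>
    hx.zero hwx (connectedComponentIn_subset _ _ hw)

lemma x0_off {w : ℂ} (hw : w ∈ (tsupport x0)ᶜ) : x0 w = 0 := image_eq_zero_of_notMem_tsupport hw

lemma up_x0 (hx : X0 Y x0) {z : ℂ} (hz : z ∈ Y) : up Y (fun w => x0 w + a w) z = up Y a z :=
  up_congr (nb_x0 hx hz) fun w hw _ => by rw [x0_off hw, zero_add]

lemma lo_x0 (hx : X0 Y x0) {z : ℂ} (hz : z ∈ Y) : lo Y (fun w => x0 w + a w) z = lo Y a z :=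
  lo_congr (nb_x0 hx hz) fun w hw _ => by rw [x0_off hw, zero_add]

lemma ni_x0 (hx : X0 Y x0) : NI Y (fun w => x0 w + a w) f ↔ NI Y a f := by
  have : NP Y (fun w => x0 w + a w) f = NP Y a f := by
    ext p
    constructor <;> rintro ⟨z, hz, h1, h2, h3⟩
    · exact ⟨z, hz, by rwa [lo_x0 hx hz] at h1, by rwa [up_x0 hx hz] at h2, h3⟩
    · exact ⟨z, hz, by rwa [lo_x0 hx hz], by rwa [up_x0 hx hz], h3⟩
  unfold NI
  rw [this]

/-! ### the class `TT` -/

lemma cc_pt (K : Cmp Y) : connectedComponentIn Y (pt K) = K.1 :=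
  (congrArg Subtype.val (K.eq_of_mem (pt_mem K))).symm

lemma osp_eq (hY : IsExteriorDomain Yᶜ) (ha : TT Y a) (K : Cmp Y) :
    osp Y a (pt K) = osc Y a K.1 := by
  have := osc_eq hY ha.q.bdd (K.subset (pt_mem K))
  rw [cc_pt] at this
  exact this.symm

lemma tt_lb (ha : TT Y a) : LB a := LB.of_bdd ha.q.bdd

lemma tt_sum (hY : IsExteriorDomain Yᶜ) (ha : TT Y a) (hb : TT Y b) :
    ∑' K : Cmp Y, ENNReal.ofReal (osp Y a (pt K)) * ENNReal.ofReal (osp Y b (pt K)) ≠ ∞ := by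
  have h1 : ∀ K : Cmp Y, ENNReal.ofReal (osp Y a (pt K)) * ENNReal.ofReal (osp Y b (pt K)) ≤
      ENNReal.ofReal (osc Y a K.1 ^ 2 + osc Y b K.1 ^ 2) := by
    intro K
    rw [osp_eq hY ha, osp_eq hY hb, ← ENNReal.ofReal_mul (osc_nonneg _ _ _)]
    refine ENNReal.ofReal_le_ofReal ?_
    nlinarith [sq_nonneg (osc Y a K.1 - osc Y b K.1), sq_nonneg (osc Y a K.1),
      sq_nonneg (osc Y b K.1)]
  exact ne_top_of_le_ne_top (ha.sum.add hb.sum).tsum_ofReal_ne_top (ENNReal.tsum_le_tsum h1)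

lemma jj_countable (hY : IsExteriorDomain Yᶜ) (ha : TT Y a) : (JJ Y a).Countable := by
  refine ha.countable.mono fun K hK => ?_
  show osc Y a K.1 ≠ 0
  rw [← osp_eq hY ha, osp]
  exact fun h => hK (by linarith)

lemma jj_x0 (hx : X0 Y x0) : JJ Y (fun w => x0 w + a w) = JJ Y a := by
  ext K
  have hz := K.subset (pt_mem K)
  simp only [JJ, mem_ofPred_eq, lo_x0 hx hz, up_x0 hx hz]

lemma osp_x0 (hx : X0 Y x0) (K : Cmp Y) : osp Y (fun w => x0 w + a w) (pt K) = osp Y a (pt K) := by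
  have hz := K.subset (pt_mem K)
  unfold osp
  rw [lo_x0 hx hz, up_x0 hx hz]

lemma ll_x0 (hx : X0 Y x0) (ha : TT Y a) : LocallyLipschitzOn Yᶜ (fun w => x0 w + a w) := by
  intro z hz
  obtain ⟨K, t, ht, h⟩ := ha.q.loc hz
  obtain ⟨K', t', ht', h'⟩ := (hx.sm.of_le (by exact_mod_cast le_top) : ContDiff ℝ 1 x0).locallyLipschitz z
  refine ⟨K' + K, t' ∩ t, inter_mem (mem_nhdsWithin_of_mem_nhds ht') ht, ?_⟩
  exact (h'.mono inter_subset_left).add (h.mono inter_subset_right)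

lemma lb_x0 (hx : X0 Y x0) (ha : TT Y a) : LB (fun w => x0 w + a w) :=
  (LB.of_cont hx.sm.continuous).add (tt_lb ha)

lemma en_x0_fin (hY : IsExteriorDomain Yᶜ) (hx : X0 Y x0) (ha : TT Y a) (R : ℝ) :
    ∫⁻ z in ball 0 R \ Y, ENNReal.ofReal (en (fun w => x0 w + a w) z) ≠ ∞ := by
  have hYc : IsClosed Y := (cpt_of hY).isClosed
  have hd := ha.q.ae_diff hYc
  have hdx : Differentiable ℝ x0 := hx.sm.differentiable (by simp)
  -- bound for `en x0` on the ball
  have hc : Continuous fun z => ‖fderiv ℝ x0 z‖ ^ 2 :=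
    ((hx.sm.continuous_fderiv (by simp)).norm).pow 2
  obtain ⟨M, hM⟩ := (isCompact_closedBall (0 : ℂ) R).exists_bound_of_continuousOn hc.continuousOn
  have h1 : ∀ᵐ z ∂(volume.restrict (ball (0 : ℂ) R \ Y)),
      ENNReal.ofReal (en (fun w => x0 w + a w) z) ≤ ENNReal.ofReal (2 * M) +
        ENNReal.ofReal (2 * en a z) := by
    have hd' : ∀ᵐ z ∂(volume.restrict (ball (0 : ℂ) R \ Y)), DifferentiableAt ℝ a z :=
      ae_restrict_of_ae_restrict_of_subset (fun z hz => hz.2) hd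
    filter_upwards [hd', ae_restrict_mem (isOpen_ball.sdiff hYc).measurableSet] with z hz hzb
    have h2 := en_add_le (hdx z) hz
    have h3 : en x0 z ≤ M := by
      rw [en_eq]
      exact (le_abs_self _).trans (hM z (ball_subset_closedBall hzb.1))
    have hM0 : 0 ≤ M := (en_nonneg x0 z).trans h3
    rw [← ENNReal.ofReal_add (by linarith) (by linarith [en_nonneg a z])]
    exact ENNReal.ofReal_le_ofReal (by linarith)
  refine ne_top_of_le_ne_top ?_ (lintegral_mono_ae h1)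
  rw [lintegral_add_left measurable_const]
  refine ENNReal.add_ne_top.2 ⟨?_, ?_⟩
  · rw [lintegral_const, Measure.restrict_apply_univ]
    exact ENNReal.mul_ne_top ENNReal.ofReal_ne_top
      ((measure_mono sdiff_subset).trans_lt measure_ball_lt_top).ne
  · have h4 : IntegrableOn (fun z => 2 * en a z) (ball (0 : ℂ) R \ Y) :=
      Integrable.const_mul (ha.q.fin.mono_set fun z hz => hz.2) 2
    exact h4.lintegral_lt_top.ne

lemma wdg_x0_fin (hY : IsExteriorDomain Yᶜ) (hx : X0 Y x0) (ha : TT Y a) (hf : TT Y f) (R : ℝ) :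
    ∫⁻ z in ball 0 R \ Y, ENNReal.ofReal |wdg (fun w => x0 w + a w) f z| ≠ ∞ := by
  have h1 : ∫⁻ z in ball 0 R \ Y, ENNReal.ofReal |wdg (fun w => x0 w + a w) f z| ≤
      ∫⁻ z in ball 0 R \ Y, (ENNReal.ofReal (en (fun w => x0 w + a w) z) +
        ENNReal.ofReal (en f z)) := by
    refine lintegral_mono fun z => ?_
    rw [← ENNReal.ofReal_add (en_nonneg _ _) (en_nonneg _ _)]
    refine ENNReal.ofReal_le_ofReal ((abs_wdg_le _ f z).trans ?_)
    have := en_nonneg f z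
    have := en_nonneg (fun w => x0 w + a w) z
    linarith
  refine ne_top_of_le_ne_top ?_ h1
  rw [lintegral_add_left (measurable_en _).ennreal_ofReal]
  refine ENNReal.add_ne_top.2 ⟨en_x0_fin hY hx ha R, ?_⟩
  have h4 : IntegrableOn (en f) (ball (0 : ℂ) R \ Y) := hf.q.fin.mono_set fun z hz => hz.2
  exact h4.lintegral_lt_top.ne

/-- radius -/
lemma exists_R (hY : IsExteriorDomain Yᶜ) (hx : X0 Y x0) (hc : HasCompactSupport a) :
    ∃ R, Y ⊆ ball 0 R ∧ ∀ z : ℂ, R ≤ ‖z‖ → x0 z + a z = z.re := by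
  obtain ⟨R₁, h1⟩ := (cpt_of hY).isBounded.exists_norm_le
  obtain ⟨R₂, h2⟩ := hx.far
  obtain ⟨R₃, h3⟩ := (IsCompact.isBounded hc).exists_norm_le
  refine ⟨max (R₁ + 1) (max R₂ (R₃ + 1)), fun z hz => ?_, fun z hz => ?_⟩
  · rw [mem_ball_zero_iff]
    have := h1 z hz
    have := le_max_left (R₁ + 1) (max R₂ (R₃ + 1))
    linarith
  · have h4 : R₂ ≤ ‖z‖ := ((le_max_left _ _).trans (le_max_right _ _)).trans hz
    have h5 : R₃ + 1 ≤ ‖z‖ := ((le_max_right _ _).trans (le_max_right _ _)).trans hz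
    have h6 : a z = 0 := by
      apply image_eq_zero_of_notMem_tsupport
      intro h
      have := h3 z h
      linarith
    rw [h6, add_zero, h2 z h4]

lemma dj_eq (u : ℂ → ℝ) (K : Cmp Y) : dj Y u K = osp Y u (Nip_31.pt K) := by
  have h : Sl_732.pt K ∈ K.1 := by
    have h1 := mem_connectedComponentIn (Sl_732.pt_mem K)
    have h2 := Sl_732.pt_eq K
    rw [h2]; exact h1
  unfold dj osp
  rw [Nip_31.up_pt u K h, Nip_31.lo_pt u K h]

/-- **`NI` is `ACV` on a.e. level.** -/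
theorem ni_iff_acv (hY : IsExteriorDomain Yᶜ) (hx : X0 Y x0) (ha : TT Y a)
    (hc : HasCompactSupport a) (hs : Swd Y (fun z => x0 z + a z)) (hf : TT Y f) :
    NI Y a f ↔ ∀ᵐ t, ACV Y (Lv Y (fun z => x0 z + a z) t) f := by
  obtain ⟨R, hR, hfar⟩ := exists_R hY hx hc
  have hA := ll_x0 hx ha
  have hAb := lb_x0 hx ha
  have hyc : ∀ K : Cmp Y, osp Y (fun w => x0 w + a w) (pt K) = osp Y a (pt K) := osp_x0 hx
  constructor
  · intro hni
    have hni' : NI Y (fun z => x0 z + a z) f := (ni_x0 hx).2 hni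
    refine ni_acv hY hR hA hAb hf.q.loc (tt_lb hf) hni' (𝒥 := JJ Y a ∪ JJ Y f)
      ((jj_countable hY ha).union (jj_countable hY hf)) ?_ subset_union_right
      (wdg_x0_fin hY hx ha hf R) ?_
    · rw [jj_x0 hx]; exact subset_union_left
    · have h1 := tt_sum hY hf ha
      refine ne_top_of_le_ne_top h1 ?_
      simp_rw [hyc]
      exact ENNReal.tsum_comp_le_tsum_of_injective Subtype.val_injective
        (fun K : Cmp Y => ENNReal.ofReal (osp Y f (pt K)) * ENNReal.ofReal (osp Y a (pt K)))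
  · intro hacv
    rw [← ni_x0 hx]
    refine ni_of_acv hY hAb (tt_lb hf) (fun z hz => contAt hY hf.q.loc hz) ?_ ?_ ?_ hacv
    · refine (jj_countable hY hf).mono fun K hK => ?_
      have h1 : osp Y f (Nip_31.pt K) ≠ 0 := by rw [← dj_eq]; exact hK
      exact fun h => h1 (by unfold osp; linarith)
    · simp_rw [dj_eq, hyc]
      exact tt_sum hY ha hf
    · filter_upwards [pos_ae hY hA hAb (en_x0_fin hY hx ha)] with t ht
      obtain ⟨μ, hμ, hμC⟩ := ht
      exact ⟨lv_preconn hY hA hAb hR hfar hs t, lv_nonempty hY hA hAb hR hfar t, μ,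
        inferInstance, hμC⟩

/-- **LINP** -/
theorem linp : SkA_8.LINP := by
  intro Y x0 hY hx a ha hc hs b b' hb hb' hn hn' s t
  have hYc : IsClosed Y := (cpt_of hY).isClosed
  have hT : TT Y (fun z => s * b z + t * b' z) :=
    ((TT.const s).mul hYc hb).add hYc ((TT.const t).mul hYc hb')
  rw [ni_iff_acv hY hx ha hc hs hT]
  filter_upwards [(ni_iff_acv hY hx ha hc hs hb).1 hn, (ni_iff_acv hY hx ha hc hs hb').1 hn']
    with r h1 h2
  exact (h1.const_mul s).add (h2.const_mul t)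

end Crest.Agent.R105.Nip_31
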