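import Mathlib

/-!
Courant-Lebesgue on axis-parallel squares (everything is Tonelli on lines).
-/

open MeasureTheory Set
open scoped ENNReal NNReal

namespace Crest.Agent.R105.Sq_363

/-- open square with centre `p` and half side `s` -/
def Qo (p : ℝ × ℝ) (s : ℝ) : Set (ℝ × ℝ) :=
  Ioo (p.1 - s) (p.1 + s) ×ˢ Ioo (p.2 - s) (p.2 + s)


/-- Cauchy-Schwarz -/
theorem cs {α : Type*} [MeasurableSpace α] (μ : Measure α) {f : α → ℝ≥0∞} (hf : AEMeasurable f μ) :
    (∫⁻ x, f x ∂μ) ^ 2 ≤ μ univ * ∫⁻ x, f x ^ 2 ∂μ := by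
  have h := ENNReal.lintegral_mul_le_Lp_mul_Lq μ Real.HolderConjugate.two_two hf
    (aemeasurable_const (b := (1 : ℝ≥0∞)))
  simp only [Pi.mul_apply, mul_one, ENNReal.rpow_two, one_pow, lintegral_one] at h
  have h2 : (∫⁻ x, f x ∂μ) ^ 2 ≤ ((∫⁻ x, f x ^ 2 ∂μ) ^ (1 / (2:ℝ)) * (μ univ) ^ (1 / (2:ℝ))) ^ 2 :=
    pow_le_pow_left₀ zero_le h 2
  refine h2.trans (le_of_eq ?_)
  rw [mul_pow, ← ENNReal.rpow_natCast, ← ENNReal.rpow_natCast, ← ENNReal.rpow_mul,
    ← ENNReal.rpow_mul]
  norm_num
  rw [mul_comm]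



variable {u : ℝ × ℝ → ℝ≥0∞} {p : ℝ × ℝ}















/-- average principle with the measure `ds / s` -/
theorem exists_le_log {h : ℝ → ℝ≥0∞} (hh : Measurable h) {r R : ℝ} (hr : 0 < r) (hR : r < R)
    {N : Set ℝ} (hN : volume N = 0) :
    ∃ s ∈ Ioo r R, s ∉ N ∧
      h s * ENNReal.ofReal (Real.log (R / r)) ≤ ∫⁻ s in Ioo r R, ENNReal.ofReal (1 / s) * h s := by
  set w : ℝ → ℝ≥0∞ := fun s => ENNReal.ofReal (1 / s) with hw
  have hwm : Measurable w := by
    exact ENNReal.measurable_ofReal.comp (measurable_const.div measurable_id)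
  set μ : Measure ℝ := (volume.restrict (Ioo r R)).withDensity w with hμ
  have htot : μ univ = ENNReal.ofReal (Real.log (R / r)) := by
    rw [hμ, withDensity_apply _ MeasurableSet.univ, Measure.restrict_univ]
    have hint : IntervalIntegrable (fun s : ℝ => 1 / s) volume r R := by
      refine ContinuousOn.intervalIntegrable ?_
      refine ContinuousOn.div continuousOn_const continuousOn_id ?_
      intro x hx
      rw [uIcc_of_le hR.le] at hx
      exact (lt_of_lt_of_le hr hx.1).ne'
    have hI : ∫ s in Ioo r R, 1 / s = Real.log (R / r) := by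
      rw [← integral_Ioc_eq_integral_Ioo, ← intervalIntegral.integral_of_le hR.le,
        integral_one_div_of_pos hr (hr.trans hR)]
    rw [← hI, ofReal_integral_eq_lintegral_ofReal]
    · exact ((intervalIntegrable_iff_integrableOn_Ioo_of_le hR.le).1 hint)
    · refine (ae_restrict_iff' measurableSet_Ioo).2 (Filter.Eventually.of_forall fun s hs => ?_)
      have : 0 < s := hr.trans hs.1
      show (0:ℝ) ≤ 1 / s
      positivity
  have hlog : 0 < Real.log (R / r) := Real.log_pos ((one_lt_div hr).2 hR)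
  have hne : μ ≠ 0 := by
    intro h0
    rw [h0] at htot
    simp only [Measure.coe_zero, Pi.zero_apply] at htot
    have := ENNReal.ofReal_pos.2 hlog
    rw [← htot] at this
    exact lt_irrefl _ this
  have hnull : μ (N ∪ (Ioo r R)ᶜ) = 0 := by
    rw [measure_union_null_iff]
    constructor
    · have hac : μ ≪ volume := (withDensity_absolutelyContinuous _ _).trans
        Measure.restrict_le_self.absolutelyContinuous
      exact hac hN
    · have hac : μ ≪ volume.restrict (Ioo r R) := withDensity_absolutelyContinuous _ _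
      apply hac
      rw [Measure.restrict_apply measurableSet_Ioo.compl]
      simp
  have : IsFiniteMeasure μ := ⟨by rw [htot]; exact ENNReal.ofReal_lt_top⟩
  obtain ⟨s, hs, hle⟩ := exists_notMem_null_le_laverage hne hh.aemeasurable hnull
  have hs1 : s ∉ N := fun h => hs (Or.inl h)
  have hs2 : s ∈ Ioo r R := by
    by_contra h
    exact hs (Or.inr h)
  refine ⟨s, hs2, hs1, ?_⟩
  rw [laverage_eq, htot] at hle
  have hfin : ENNReal.ofReal (Real.log (R / r)) ≠ ∞ := ENNReal.ofReal_ne_top
  have hpos : ENNReal.ofReal (Real.log (R / r)) ≠ 0 := (ENNReal.ofReal_pos.2 hlog).ne'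
  rw [ENNReal.le_div_iff_mul_le (Or.inl hpos) (Or.inl hfin)] at hle
  refine hle.trans (le_of_eq ?_)
  rw [hμ, lintegral_withDensity_eq_lintegral_mul _ hwm hh]
  rfl




end Crest.Agent.R105.Sq_363
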