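import Crest.Agent.R105.SkA1_8
import Crest.Agent.R105.C2c_86
import Crest.Agent.R105.SkA2_8
import Crest.Agent.R105.Ata1_782
import Crest.Agent.R105.Sw1_209
import Crest.Agent.R105.Ni0_459
import Crest.Agent.R105.Mid1_987
import Crest.Agent.R105.Cof3_430
import Crest.Agent.R105.Sq1_363
import Crest.Agent.R105.Bd1_775
import Mathlib
import Crest.Agent.R165.GeoP2_67
import Crest.Agent.R216.ParamInt
import Crest.Agent.R105.Dir5_508
import Crest.Agent.R105.Nip8_31
import Crest.Agent.R105.Vs4_439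
import Crest.Agent.R105.Ni3_459

-- ▼ part R105/SkA3_8
section

/-!
# Row 105, S0138, first half: attainment (helper8)

`attain : SWITCHP → LINP → CLOSEDP → AREAP → CONVP → ATTAINP`,
`attain' ` : the same with compactly supported anchors recorded
(greedy sequence of 782, limit of 755, `osc` of the limit by 790's `att`, minimality by 782's
`SelT.attained`).
-/

set_option autoImplicit false

open MeasureTheory Set Filter Topology Metric
open scoped NNReal ENNReal ContDiff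

namespace Crest.Agent.R105.SkA_8

open Crest.AnalysisR Bd_775 IfB_641 Tc_808 Ni_459 Grd_782

theorem en_add_const (u v : ℂ → ℝ) (c : ℝ) (z : ℂ) :
    en (fun w => (u w + c) - v w) z = en (fun w => u w - v w) z := by
  have h : (fun w => (u w + c) - v w) = fun w => (u w - v w) + c := by funext w; ring
  rw [h]
  unfold en gx gy
  simp only [fderiv_add_const]

/-- connected component in `Y` of a component -/
theorem near_const {Y : Set ℂ} (b : ℂ → ℝ) (h : ∀ z ∈ Y, ∀ᶠ w in 𝓝 z, b w = b z)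
    (K : Cmp Y) : ∃ c : ℝ, ∃ O, IsOpen O ∧ K.1 ⊆ O ∧ ∀ w ∈ O, b w = c := by
  obtain ⟨z, hz⟩ := K.nonempty
  have hcc : ∀ w ∈ K.1, b w = b z := by
    intro w hw
    have hlc : IsLocallyConstant (fun p : K.1 => b p) := by
      rw [IsLocallyConstant.iff_eventually_eq]
      intro p
      exact continuous_subtype_val.continuousAt.eventually (h p.1 (K.subset p.2))
    have : PreconnectedSpace K.1 := isPreconnected_iff_preconnectedSpace.1 K.preconn
    exact hlc.apply_eq_of_preconnectedSpace ⟨w, hw⟩ ⟨z, hz⟩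
  refine ⟨b z, interior {w | b w = b z}, isOpen_interior, fun w hw => ?_,
    fun w hw => (interior_subset hw : w ∈ {w | b w = b z})⟩
  rw [mem_interior_iff_mem_nhds]
  filter_upwards [h w (K.subset hw)] with p hp
  exact hp.trans (hcc w hw)

theorem osc_locconst {Y : Set ℂ} {b : ℂ → ℝ} (h : ∀ z ∈ Y, ∀ᶠ w in 𝓝 z, b w = b z)
    (K : Cmp Y) : Tc_808.osc Y b K.1 = 0 := by
  obtain ⟨c, O, hO, hKO, hc⟩ := near_const b h K
  rw [osc_congr hO hKO (v := fun _ => c) fun z hz _ => hc z hz, osc_const]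

theorem osc_addc {Y K : Set ℂ} {u : ℂ → ℝ} (hu : ∃ M, ∀ z, |u z| ≤ M) (c : ℝ) :
    Tc_808.osc Y (fun z => u z + c) K = Tc_808.osc Y u K := by
  have hcb : ∃ M, ∀ z : ℂ, |(fun _ : ℂ => c) z| ≤ M := ⟨|c|, fun _ => le_rfl⟩
  have hcb' : ∃ M, ∀ z : ℂ, |(fun _ : ℂ => -c) z| ≤ M := ⟨|-c|, fun _ => le_rfl⟩
  obtain ⟨M, hM⟩ := hu
  have hb : ∃ M, ∀ z, |u z + c| ≤ M := ⟨M + |c|, fun z => (abs_add_le _ _).trans (by gcongr; exact hM z)⟩
  apply le_antisymm
  · have := Tc_808.osc_add_le (Y := Y) (K := K) ⟨M, hM⟩ hcb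
    rw [osc_const] at this
    linarith
  · have h2 : (fun z => (u z + c) + -c) = u := by funext z; ring
    have := Tc_808.osc_add_le (Y := Y) (K := K) hb hcb'
    rw [osc_const] at this
    simp only [h2, add_zero] at this
    exact this

theorem osc_x0 {Y : Set ℂ} {x0 : ℂ → ℝ} (hx : X0 Y x0) (u : ℂ → ℝ) (K : Cmp Y) :
    Tc_808.osc Y (fun z => x0 z + u z) K.1 = Tc_808.osc Y u K.1 := by
  refine osc_congr (O := (tsupport x0)ᶜ) (isClosed_tsupport x0).isOpen_compl ?_ ?_
  · intro z hz hz'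
    exact hx.zero hz' (K.subset hz)
  · intro z hz _
    rw [image_eq_zero_of_notMem_tsupport hz, zero_add]


end Crest.Agent.R105.SkA_8
end

-- ▼ part R105/Sw2_209
section

/-!
# Row 105, S0138: exact switching, part 2: one step over helper459's envelopes (helper209)

`st Y u = hull (lo Y u)` for `u` locally Lipschitz on `Yᶜ`, `|u - σ re| ≤ M`:
`lo Y (st Y u) = st Y u`, `up Y (st Y u) ≤ up Y u`, no bounded component of `{t < st Y u}`, and at
every point either `st Y u` is constant on an open connected saturated neighbourhood or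
`st Y u = lo Y u`.
-/

set_option autoImplicit false

open Set Filter Topology Metric Bornology
open scoped NNReal

namespace Crest.Agent.R105.Sw_209

open Ends_897 Ni_459 Crest.AnalysisR

/-- input of one step -/
structure Inp (Y : Set ℂ) (σ M R₀ : ℝ) (u : ℂ → ℝ) : Prop where
  ext : IsExteriorDomain Yᶜ
  loc : LocallyLipschitzOn Yᶜ u
  bd : ∀ z, |u z - σ * z.re| ≤ M
  sgn : σ = 1 ∨ σ = -1
  ball : Y ⊆ closedBall 0 R₀

/-- one step -/
noncomputable def st (Y : Set ℂ) (u : ℂ → ℝ) : ℂ → ℝ := hull (lo Y u)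

variable {Y : Set ℂ} {u v : ℂ → ℝ} {σ M R₀ : ℝ}

lemma abs_sgn_re (h : σ = 1 ∨ σ = -1) (z : ℂ) : |σ * z.re| ≤ ‖z‖ := by
  have h1 : |σ| = 1 := by rcases h with rfl | rfl <;> norm_num
  rw [abs_mul, h1, one_mul]
  exact Complex.abs_re_le_norm z

lemma lb_of_bd (hs : σ = 1 ∨ σ = -1) (hb : ∀ z, |u z - σ * z.re| ≤ M) : LB u := by
  intro R
  refine ⟨M + R, fun z hz => ?_⟩
  have h1 := abs_sgn_re hs z
  have h2 : u z = (u z - σ * z.re) + σ * z.re := by ring
  rw [h2]
  exact (abs_add_le _ _).trans (by linarith [hb z])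

lemma contAt_of_loc {U : Set ℂ} (hU : IsOpen U) (h : LocallyLipschitzOn U u) {z : ℂ} (hz : z ∈ U) :
    ContinuousAt u z := (h.continuousOn z hz).continuousAt (hU.mem_nhds hz)

/-! ### monotonicity of the envelopes -/

section Mono
variable (hY : IsExteriorDomain Yᶜ)
include hY

lemma up_mono (hu : LB u) (hv : LB v) (h : ∀ z, z ∉ Y → u z ≤ v z) (z : ℂ) :
    up Y u z ≤ up Y v z := by
  refine le_of_forall_gt_imp_ge_of_dense fun c hc => ?_
  obtain ⟨O, hO, h1⟩ := exists_lt_of_up_lt hY hv hc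
  exact up_le hY hu hO fun w hw hwY => (h w hwY).trans (h1 w hw hwY).le

lemma lo_mono (hu : LB u) (hv : LB v) (h : ∀ z, z ∉ Y → u z ≤ v z) (z : ℂ) :
    lo Y u z ≤ lo Y v z := by
  refine le_of_forall_lt_imp_le_of_dense fun c hc => ?_
  obtain ⟨O, hO, h1⟩ := exists_gt_of_lt_lo hY hu hc
  exact le_lo hY hv hO fun w hw hwY => (h1 w hw hwY).le.trans (h w hwY)

end Mono

/-! ### one step -/

namespace Inp

lemma lb (h : Inp Y σ M R₀ u) : LB u := lb_of_bd h.sgn h.bd

lemma contAt (h : Inp Y σ M R₀ u) {z : ℂ} (hz : z ∉ Y) : ContinuousAt u z :=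
  contAt_of_loc h.ext.1 h.loc hz

lemma lo_eq (h : Inp Y σ M R₀ u) {z : ℂ} (hz : z ∉ Y) : lo Y u z = u z :=
  lo_of_notMem h.ext h.lb hz (h.contAt hz)

lemma up_eq (h : Inp Y σ M R₀ u) {z : ℂ} (hz : z ∉ Y) : up Y u z = u z :=
  up_of_notMem h.ext h.lb hz (h.contAt hz)

lemma neg (h : Inp Y σ M R₀ u) : Inp Y (-σ) M R₀ (fun z => - u z) where
  ext := h.ext
  loc := by
    intro z hz
    obtain ⟨K, s, hs, hK⟩ := h.loc hz
    exact ⟨K, s, hs, fun x hx y hy => by simpa [edist_neg_neg] using hK hx hy⟩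
  bd := fun z => by
    have h1 := h.bd z
    rw [abs_le] at h1 ⊢
    constructor <;> linarith [h1.1, h1.2]
  sgn := by rcases h.sgn with h1 | h1 <;> rw [h1] <;> norm_num
  ball := h.ball

/-- points of the component of `z ∈ Y` -/
lemma up_bd (h : Inp Y σ M R₀ u) (hR : 0 ≤ R₀) (z : ℂ) :
    up Y u z ≤ σ * z.re + (M + 2 * R₀) := by
  by_cases hz : z ∈ Y
  · refine le_of_forall_pos_le_add fun ε hε => ?_
    have hsub : connectedComponentIn Y z ⊆ Metric.ball 0 (R₀ + ε) := fun w hw => by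
      have := h.ball (connectedComponentIn_subset _ _ hw)
      rw [mem_closedBall_zero_iff] at this
      rw [mem_ball_zero_iff]; linarith
    refine up_le h.ext h.lb (nb_of_mem hz isOpen_ball hsub) fun w hw _ => ?_
    rw [mem_ball_zero_iff] at hw
    have h1 := (abs_le.1 (h.bd w)).2
    have h2 := (abs_le.1 (abs_sgn_re h.sgn w)).2
    have h3 := (abs_le.1 (abs_sgn_re h.sgn z)).1
    have h4 := h.ball hz
    rw [mem_closedBall_zero_iff] at h4
    linarith
  · rw [h.up_eq hz]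
    have h1 := (abs_le.1 (h.bd z)).2
    linarith

lemma lo_bd (h : Inp Y σ M R₀ u) (hR : 0 ≤ R₀) (z : ℂ) :
    σ * z.re - (M + 2 * R₀) ≤ lo Y u z := by
  have := h.neg.up_bd hR z
  unfold lo
  linarith

lemma lo_le_up' (h : Inp Y σ M R₀ u) (z : ℂ) : lo Y u z ≤ up Y u z := lo_le_up h.ext h.lb z

lemma low (h : Inp Y σ M R₀ u) (hR : 0 ≤ R₀) : Low σ (M + 2 * R₀) (lo Y u) where
  lsc := lsc_lo h.ext h.lb
  bd := fun z => by
    rw [abs_le]
    constructor
    · linarith [h.lo_bd hR z]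
    · linarith [h.up_bd hR z, h.lo_le_up' z]
  sgn := h.sgn

lemma st_low (h : Inp Y σ M R₀ u) (hR : 0 ≤ R₀) : Low σ (M + 2 * R₀) (st Y u) :=
  (h.low hR).hull_low

lemma st_le (h : Inp Y σ M R₀ u) (hR : 0 ≤ R₀) (z : ℂ) : st Y u z ≤ lo Y u z :=
  (h.low hR).hull_le z

lemma st_loc (h : Inp Y σ M R₀ u) (hR : 0 ≤ R₀) : LocallyLipschitzOn Yᶜ (st Y u) := by
  refine (h.low hR).hull_loc h.ext.1 ?_
  intro z hz
  obtain ⟨K, s, hs, hK⟩ := h.loc hz
  refine ⟨K, s ∩ Yᶜ, inter_mem hs self_mem_nhdsWithin, fun x hx y hy => ?_⟩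
  rw [h.lo_eq hx.2, h.lo_eq hy.2]
  exact hK hx.1 hy.1

lemma st_inp (h : Inp Y σ M R₀ u) (hR : 0 ≤ R₀) : Inp Y σ (M + 2 * R₀) R₀ (st Y u) :=
  ⟨h.ext, h.st_loc hR, (h.st_low hR).bd, h.sgn, h.ball⟩

/-- components inside neighbourhoods -/
lemma cc_sub {t : ℝ} {z : ℂ} :
    ∀ w ∈ connectedComponentIn {w | t < lo Y u w} z,
      connectedComponentIn Y w ⊆ connectedComponentIn {w | t < lo Y u w} z := by
  intro w hw
  by_cases hwY : w ∈ Y
  · rw [← cc_eq hw]
    refine isPreconnected_connectedComponentIn.subset_connectedComponentIn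
      (mem_connectedComponentIn hwY) fun q hq => ?_
    show t < lo Y u q
    rw [lo_congr_cc hwY hq]
    exact cc_lt hw
  · rw [connectedComponentIn_eq_empty hwY]; exact empty_subset _

lemma nb_cc (h : Inp Y σ M R₀ u) {t : ℝ} {z w : ℂ}
    (hw : w ∈ connectedComponentIn {w | t < lo Y u w} z) :
    Nb Y w (connectedComponentIn {w | t < lo Y u w} z) :=
  ⟨(isOpen_lt_lo h.ext h.lb t).connectedComponentIn, hw, cc_sub w hw⟩

/-- `st Y u` is constant on the components of `Y` -/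
lemma st_cc {z w : ℂ} (hz : z ∈ Y) (hw : w ∈ connectedComponentIn Y z) :
    st Y u w = st Y u z :=
  hull_const_of_const (S := connectedComponentIn Y z) isPreconnected_connectedComponentIn
    (c := lo Y u z) (fun _ hq => lo_congr_cc hz hq) (mem_connectedComponentIn hz) hw

/-- **`st Y u` is its own lower envelope** -/
theorem lo_st (h : Inp Y σ M R₀ u) (hR : 0 ≤ R₀) (z : ℂ) : lo Y (st Y u) z = st Y u z := by
  have h' := h.st_inp hR
  by_cases hz : z ∈ Y
  · refine le_antisymm ?_ ?_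
    · refine le_of_forall_lt_imp_le_of_dense fun t ht => ?_
      obtain ⟨s, hs1, hs2⟩ := exists_between ht
      obtain ⟨O, hO, h1⟩ := exists_gt_of_lt_lo h.ext h'.lb hs2
      have hts : t < lo Y u z := by
        refine hs1.trans_le (le_lo h.ext h.lb hO fun w hw hwY => ?_)
        have h2 := h.st_le hR w
        rw [h.lo_eq hwY] at h2
        exact (h1 w hw hwY).le.trans h2
      have hzN : z ∈ connectedComponentIn {w | t < lo Y u w} z := mem_connectedComponentIn hts
      obtain ⟨w, ⟨hw, hwO⟩, hwY⟩ := ((h.nb_cc hzN).inter hO).nonempty h.ext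
      have hwt : t < st Y u w := hs1.trans (h1 w hwO hwY)
      exact le_hull (Oi_of_preconn isPreconnected_connectedComponentIn (fun q hq => cc_lt hq) hw hzN
        ((h.low hR).mem_of_lt hwt))
    · refine le_of_forall_lt_imp_le_of_dense fun t ht => ?_
      have hO : Nb Y z {w | t < st Y u w} := by
        refine nb_of_mem hz ((h.st_low hR).isOpen t) fun w hw => ?_
        show t < st Y u w
        rw [st_cc hz hw]
        exact ht
      exact le_lo h.ext h'.lb hO fun w hw _ => le_of_lt hw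
  · exact lo_of_notMem h.ext h'.lb hz (h'.contAt hz)

lemma st_le_off (h : Inp Y σ M R₀ u) (hR : 0 ≤ R₀) {z : ℂ} (hz : z ∉ Y) : st Y u z ≤ u z := by
  have := h.st_le hR z
  rwa [h.lo_eq hz] at this

lemma up_st_le (h : Inp Y σ M R₀ u) (hR : 0 ≤ R₀) (z : ℂ) : up Y (st Y u) z ≤ up Y u z :=
  up_mono h.ext (h.st_inp hR).lb h.lb (fun _ hz => h.st_le_off hR hz) z

/-- **the alternative** -/
theorem st_alt (h : Inp Y σ M R₀ u) (hR : 0 ≤ R₀) (z : ℂ) :
    (∃ N, IsOpen N ∧ IsPreconnected N ∧ z ∈ N ∧ (∀ w ∈ N, st Y u w = st Y u z) ∧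
      ∀ w ∈ N, connectedComponentIn Y w ⊆ N) ∨ st Y u z = lo Y u z := by
  rcases (h.st_le hR z).lt_or_eq with hlt | heq
  · left
    obtain ⟨N, h1, h2, h3, h4, h5⟩ := (h.low hR).hull_const hlt
    refine ⟨N, h1, h2, h3, h4, fun w hw => ?_⟩
    by_cases hwY : w ∈ Y
    · exact h5 w hw _ isPreconnected_connectedComponentIn (mem_connectedComponentIn hwY)
        fun q hq => lo_congr_cc hwY hq
    · rw [connectedComponentIn_eq_empty hwY]; exact empty_subset _
  · exact Or.inr heq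

lemma st_unb (h : Inp Y σ M R₀ u) (hR : 0 ≤ R₀) {t : ℝ} {z : ℂ} (hz : t < st Y u z) :
    ¬ IsBounded (connectedComponentIn {w | t < st Y u w} z) := (h.low hR).hull_unb hz

end Inp

end Crest.Agent.R105.Sw_209
end

-- ▼ part R105/Sw3_209
section

/-!
# Row 105, S0138: exact switching, part 3: two steps (helper209)

`sw Y u = - st Y (- st Y u)`.  For `u` locally Lipschitz on `Yᶜ` with `|u - re| ≤ M`:
* `swd_sw : Swd Y (sw Y u)` (helper459's literal form)
* `up_sw : up Y (sw Y u) = sw Y u`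
* `sw_alt` : at every point of the plane `sw Y u` is constant on an open connected saturated
  neighbourhood, or `lo Y u ≤ lo Y (sw Y u)` and `up Y (sw Y u) ≤ up Y u` there
* `sw_off` : off `Y` either `sw Y u z = u z` or `sw Y u` is constant near `z`
* `fderiv_sw` : a.e. on `Yᶜ` the derivative is that of `u` or zero
* `sw_far`
-/

set_option autoImplicit false

open Set Filter Topology Metric Bornology MeasureTheory
open scoped NNReal

namespace Crest.Agent.R105.Sw_209

open Ends_897 Ni_459 Crest.AnalysisR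

/-- two steps: exact switching -/
noncomputable def sw (Y : Set ℂ) (u : ℂ → ℝ) (z : ℂ) : ℝ := - st Y (fun w => - st Y u w) z

/-- `v` is constant on an open connected saturated neighbourhood of `z` -/
def Flat (Y : Set ℂ) (v : ℂ → ℝ) (z : ℂ) : Prop :=
  ∃ N, IsOpen N ∧ IsPreconnected N ∧ z ∈ N ∧ (∀ w ∈ N, v w = v z) ∧
    ∀ w ∈ N, connectedComponentIn Y w ⊆ N

variable {Y : Set ℂ} {u v : ℂ → ℝ} {σ M R₀ : ℝ}

lemma Flat.neg {z : ℂ} (h : Flat Y v z) : Flat Y (fun z => - v z) z := by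
  obtain ⟨N, h1, h2, h3, h4, h5⟩ := h
  exact ⟨N, h1, h2, h3, fun w hw => by show - v w = - v z; rw [h4 w hw], h5⟩

lemma Flat.nb {z : ℂ} (h : Flat Y v z) : ∃ N, Nb Y z N ∧ ∀ w ∈ N, v w = v z := by
  obtain ⟨N, h1, h2, h3, h4, h5⟩ := h
  exact ⟨N, ⟨h1, h3, h5 z h3⟩, h4⟩

/-- `v` takes countably many values on open sets -/
lemma countable_flat (v : ℂ → ℝ) :
    {s : ℝ | ∃ N : Set ℂ, IsOpen N ∧ N.Nonempty ∧ ∀ w ∈ N, v w = s}.Countable := by
  refine (countable_range fun n : ℕ => v (TopologicalSpace.denseSeq ℂ n)).mono ?_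
  rintro s ⟨N, h1, h2, h3⟩
  obtain ⟨n, hn⟩ := (TopologicalSpace.denseRange_denseSeq ℂ).exists_mem_open h1 h2
  exact ⟨n, h3 _ hn⟩

/-- envelopes of a function which is constant near `z` -/
lemma env_of_nb (hY : IsExteriorDomain Yᶜ) (hu : LB u) {z : ℂ} {N : Set ℂ} {c : ℝ}
    (hN : Nb Y z N) (hc : ∀ w ∈ N, w ∉ Y → u w = c) : lo Y u z = c ∧ up Y u z = c := by
  have h1 : c ≤ lo Y u z := le_lo hY hu hN fun w hw hwY => (hc w hw hwY).ge
  have h2 : up Y u z ≤ c := up_le hY hu hN fun w hw hwY => (hc w hw hwY).le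
  have h3 := lo_le_up hY hu z
  constructor <;> linarith

namespace Inp

/-- the steps of `sw` -/
lemma v1 (h : Inp Y σ M R₀ u) (hR : 0 ≤ R₀) : Inp Y σ (M + 2 * R₀) R₀ (st Y u) := h.st_inp hR

lemma v2 (h : Inp Y σ M R₀ u) (hR : 0 ≤ R₀) :
    Inp Y (-σ) (M + 2 * R₀ + 2 * R₀) R₀ (st Y fun w => - st Y u w) := (h.v1 hR).neg.st_inp hR

lemma sw_inp (h : Inp Y σ M R₀ u) (hR : 0 ≤ R₀) : Inp Y σ (M + 2 * R₀ + 2 * R₀) R₀ (sw Y u) := by
  have := (h.v2 hR).neg
  rw [neg_neg] at this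
  exact this

/-- **`sw Y u` is its own upper envelope** -/
theorem up_sw (h : Inp Y σ M R₀ u) (hR : 0 ≤ R₀) (z : ℂ) : up Y (sw Y u) z = sw Y u z := by
  have h1 := (h.v1 hR).neg.lo_st hR z
  unfold lo at h1
  show up Y (fun z => - st Y (fun w => - st Y u w) z) z = - st Y (fun w => - st Y u w) z
  linarith

/-- `lo` of the negative -/
lemma lo_neg (v : ℂ → ℝ) (z : ℂ) : lo Y (fun w => - v w) z = - up Y v z := by
  unfold lo; simp only [neg_neg]

lemma up_st_le_sw (h : Inp Y σ M R₀ u) (hR : 0 ≤ R₀) (z : ℂ) : up Y (st Y u) z ≤ sw Y u z := by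
  have h1 := (h.v1 hR).neg.st_le hR z
  rw [lo_neg] at h1
  show _ ≤ - st Y (fun w => - st Y u w) z
  linarith

lemma st_le_sw (h : Inp Y σ M R₀ u) (hR : 0 ≤ R₀) (z : ℂ) : st Y u z ≤ sw Y u z := by
  have h1 := h.up_st_le_sw hR z
  have h2 := (h.v1 hR).lo_le_up' z
  rw [h.lo_st hR] at h2
  exact h2.trans h1

lemma st_le_lo_sw (h : Inp Y σ M R₀ u) (hR : 0 ≤ R₀) (z : ℂ) : st Y u z ≤ lo Y (sw Y u) z := by
  rw [← h.lo_st hR z]
  exact lo_mono h.ext (h.v1 hR).lb (h.sw_inp hR).lb (fun w _ => h.st_le_sw hR w) z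

/-- the alternative for the second step -/
lemma sw_alt' (h : Inp Y σ M R₀ u) (hR : 0 ≤ R₀) (z : ℂ) :
    Flat Y (sw Y u) z ∨ sw Y u z = up Y (st Y u) z := by
  rcases (h.v1 hR).neg.st_alt hR z with h1 | h1
  · exact Or.inl (Flat.neg h1)
  · right
    rw [lo_neg] at h1
    show - st Y (fun w => - st Y u w) z = _
    linarith

/-- **the alternative** -/
theorem sw_alt (h : Inp Y σ M R₀ u) (hR : 0 ≤ R₀) (z : ℂ) :
    Flat Y (sw Y u) z ∨ (lo Y u z ≤ lo Y (sw Y u) z ∧ up Y (sw Y u) z ≤ up Y u z) := by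
  rcases h.st_alt hR z with ⟨N, h1, h2, h3, h4, h5⟩ | h1
  · left
    refine ⟨N, h1, h2, h3, fun w hw => ?_, h5⟩
    have hlo : ∀ q ∈ N, lo Y (fun w => - st Y u w) q = - st Y u z := fun q hq =>
      (env_of_nb h.ext (h.v1 hR).neg.lb ⟨h1, hq, h5 q hq⟩ fun x hx _ => by
        show - st Y u x = - st Y u z
        rw [h4 x hx]).1
    show - st Y (fun w => - st Y u w) w = - st Y (fun w => - st Y u w) z
    rw [show st Y (fun w => - st Y u w) w = st Y (fun w => - st Y u w) z from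
      hull_const_of_const h2 hlo h3 hw]
  · rcases h.sw_alt' hR z with h6 | h6
    · exact Or.inl h6
    · right
      constructor
      · rw [← h1]; exact h.st_le_lo_sw hR z
      · rw [h.up_sw hR, h6]; exact h.up_st_le hR z


/-- no bounded components of sublevel sets -/
lemma sw_lt (h : Inp Y σ M R₀ u) (hR : 0 ≤ R₀) {t : ℝ} {z : ℂ} (hz : up Y (sw Y u) z < t) :
    ¬ IsBounded (connectedComponentIn {w | up Y (sw Y u) w < t} z) := by
  have he : {w | up Y (sw Y u) w < t} = {w | -t < st Y (fun w => - st Y u w) w} := by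
    ext w
    show up Y (sw Y u) w < t ↔ -t < st Y (fun w => - st Y u w) w
    rw [h.up_sw hR]
    show - st Y (fun w => - st Y u w) w < t ↔ _
    constructor <;> intro h' <;> linarith
  have hz' : -t < st Y (fun w => - st Y u w) z := by
    have : z ∈ {w | up Y (sw Y u) w < t} := hz
    rw [he] at this
    exact this
  rw [he]
  exact (h.v1 hR).neg.st_unb hR hz'

/-- no bounded components of superlevel sets -/
lemma sw_gt (h : Inp Y σ M R₀ u) (hR : 0 ≤ R₀) {t : ℝ} {z : ℂ} (hz : t < lo Y (sw Y u) z) :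
    ¬ IsBounded (connectedComponentIn {w | t < lo Y (sw Y u) w} z) := by
  intro hb
  have hw := h.sw_inp hR
  set Z : Set ℂ := connectedComponentIn {w | t < lo Y (sw Y u) w} z with hZ
  have hzZ : z ∈ Z := mem_connectedComponentIn hz
  have hZp : IsPreconnected Z := isPreconnected_connectedComponentIn
  -- the first step is `≤ t` on `Z`
  have hle : ∀ q ∈ Z, st Y u q ≤ t := by
    intro q hq
    by_contra hcon
    push Not at hcon
    refine h.st_unb hR hcon (hb.subset ?_)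
    rw [hZ, ← cc_eq hq]
    exact isPreconnected_connectedComponentIn.subset_connectedComponentIn
      (mem_connectedComponentIn hcon) fun x hx => (cc_lt hx).trans_le (h.st_le_lo_sw hR x)
  -- `sw` is locally constant on `Z`
  have hloc : ∀ q ∈ Z, Flat Y (sw Y u) q := by
    intro q hq
    rcases h.sw_alt' hR q with h1 | h1
    · exact h1
    · exfalso
      have h2 : up Y (st Y u) q ≤ t :=
        up_le h.ext (h.v1 hR).lb (hw.nb_cc hq) fun x hx _ => hle x hx
      have h3 : t < lo Y (sw Y u) q := cc_lt hq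
      have h4 := hw.lo_le_up' q
      rw [h.up_sw hR q] at h4
      linarith
  have hcon : ∀ q ∈ Z, sw Y u q = sw Y u z := by
    intro q hq
    refine hZp.induction₂ (fun a b => sw Y u b = sw Y u a) (fun x hx => ?_)
      (fun x y w _ _ _ h1 h2 => h2.trans h1) (fun x y _ _ h1 => h1.symm) hzZ hq
    obtain ⟨N, h1, -, h3, h4, -⟩ := hloc x hx
    exact mem_nhdsWithin_of_mem_nhds (mem_of_superset (h1.mem_nhds h3) h4)
  have hc : t < sw Y u z := by
    have h4 := hw.lo_le_up' z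
    rw [h.up_sw hR z] at h4
    linarith
  -- `Z \ Y` is relatively clopen in `Yᶜ`
  have hZo : IsOpen Z := (isOpen_lt_lo h.ext hw.lb t).connectedComponentIn
  have hYc : IsClosed Y := (cpt_of h.ext).isClosed
  have hDo : IsOpen (Z \ Y) := hZo.sdiff hYc
  have hcl : ∀ x ∈ closure (Z \ Y), x ∉ Y → x ∈ Z \ Y := by
    intro x hx hxY
    have h1 : sw Y u x = sw Y u z := by
      have h2 : Tendsto (sw Y u) (𝓝[Z \ Y] x) (𝓝 (sw Y u x)) :=
        (hw.contAt hxY).mono_left nhdsWithin_le_nhds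
      have : (𝓝[Z \ Y] x).NeBot := mem_closure_iff_nhdsWithin_neBot.1 hx
      refine tendsto_nhds_unique h2 (tendsto_const_nhds.congr' ?_)
      filter_upwards [self_mem_nhdsWithin] with y hy
      exact (hcon y hy.1).symm
    have h2 : t < lo Y (sw Y u) x := by rw [hw.lo_eq hxY, h1]; exact hc
    have h3 : connectedComponentIn {w | t < lo Y (sw Y u) w} x ∈ 𝓝 x :=
      ((isOpen_lt_lo h.ext hw.lb t).connectedComponentIn).mem_nhds (mem_connectedComponentIn h2)
    obtain ⟨y, hy1, hy2, -⟩ := mem_closure_iff_nhds.1 hx _ h3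
    have h5 : connectedComponentIn {w | t < lo Y (sw Y u) w} x = Z := by
      rw [← cc_eq hy1, cc_eq hy2]
    exact ⟨h5 ▸ mem_connectedComponentIn h2, hxY⟩
  obtain ⟨y, hy1, hy2⟩ := (hw.nb_cc hzZ).nonempty h.ext
  have hsub : Yᶜ ⊆ Z \ Y := by
    refine h.ext.2.1.isPreconnected.subset_left_of_subset_union hDo isClosed_closure.isOpen_compl
      (disjoint_left.2 fun x hx hx' => hx' (subset_closure hx)) (fun x hx => ?_) ⟨y, hy2, hy1, hy2⟩
    by_cases hxc : x ∈ closure (Z \ Y)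
    · exact Or.inl (hcl x hxc hx)
    · exact Or.inr hxc
  have hall : IsBounded (univ : Set ℂ) := by
    refine (hb.union (cpt_of h.ext).isBounded).subset fun x _ => ?_
    by_cases hx : x ∈ Y
    · exact Or.inr hx
    · exact Or.inl (hsub hx).1
  exact NormedSpace.unbounded_univ ℝ ℂ hall

/-- **exact switching** -/
theorem swd_sw (h : Inp Y σ M R₀ u) (hR : 0 ≤ R₀) : Swd Y (sw Y u) :=
  ⟨fun _ _ hz => h.sw_gt hR hz, fun _ _ hz => h.sw_lt hR hz⟩

/-- far away nothing changes -/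
theorem sw_far (h : Inp Y σ M R₀ u) (hR : 0 ≤ R₀) {R : ℝ} (hRR : R₀ ≤ R)
    (hfar : ∀ z, R < ‖z‖ → u z = σ * z.re) (z : ℂ) (hz : R < ‖z‖) : sw Y u z = σ * z.re := by
  have hoff : ∀ z, R < ‖z‖ → z ∉ Y := fun z hz hzY => by
    have := h.ball hzY
    rw [mem_closedBall_zero_iff] at this
    linarith
  have h1 : ∀ z, R < ‖z‖ → st Y u z = σ * z.re := fun z hz =>
    (h.low hR).hull_far (hR.trans hRR) (fun w hw => by rw [h.lo_eq (hoff w hw), hfar w hw]) z hz
  have h2 : ∀ z, R < ‖z‖ → st Y (fun w => - st Y u w) z = (-σ) * z.re := fun z hz =>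
    ((h.v1 hR).neg.low hR).hull_far (hR.trans hRR)
      (fun w hw => by rw [(h.v1 hR).neg.lo_eq (hoff w hw), h1 w hw]; ring) z hz
  show - st Y (fun w => - st Y u w) z = _
  rw [h2 z hz]; ring

/-- **the derivative** -/
theorem fderiv_sw (h : Inp Y σ M R₀ u) (hR : 0 ≤ R₀) :
    ∀ᵐ z ∂(volume.restrict Yᶜ), DifferentiableAt ℝ u z ∧ DifferentiableAt ℝ (sw Y u) z ∧
      (fderiv ℝ (sw Y u) z = fderiv ℝ u z ∨ fderiv ℝ (sw Y u) z = 0) := by
  have hYo : IsOpen Yᶜ := h.ext.1
  filter_upwards [Bd_775.ae_diff hYo h.loc, Bd_775.ae_diff hYo (h.st_loc hR),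
    Bd_775.ae_diff hYo (h.sw_inp hR).loc, ae_restrict_mem hYo.measurableSet] with z h1 h2 h3 hz
  refine ⟨h1, h3, ?_⟩
  have key : ∀ {f : ℂ → ℝ}, LocallyLipschitzOn Yᶜ f → LB f → lo Y f =ᶠ[𝓝 z] f := by
    intro f hf hb
    filter_upwards [hYo.mem_nhds hz] with w hw
    exact lo_of_notMem h.ext hb hw (contAt_of_loc hYo hf hw)
  have e1 := key h.loc h.lb
  have e2 := key (h.v1 hR).neg.loc (h.v1 hR).neg.lb
  have h4 : fderiv ℝ (st Y u) z = fderiv ℝ u z ∨ fderiv ℝ (st Y u) z = 0 := by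
    have := (h.low hR).fderiv_hull (z := z) (e1.differentiableAt_iff.2 h1)
    rwa [e1.fderiv_eq] at this
  have h2n : DifferentiableAt ℝ (fun w => - st Y u w) z := h2.neg
  have h5 : fderiv ℝ (st Y fun w => - st Y u w) z = fderiv ℝ (fun w => - st Y u w) z ∨
      fderiv ℝ (st Y fun w => - st Y u w) z = 0 := by
    have := ((h.v1 hR).neg.low hR).fderiv_hull (z := z) (e2.differentiableAt_iff.2 h2n)
    rwa [e2.fderiv_eq] at this
  have h6 : fderiv ℝ (sw Y u) z = - fderiv ℝ (st Y fun w => - st Y u w) z := by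
    show fderiv ℝ (fun z => - st Y (fun w => - st Y u w) z) z = _
    exact fderiv_fun_neg
  have h7 : fderiv ℝ (fun w => - st Y u w) z = - fderiv ℝ (st Y u) z := fderiv_fun_neg
  rcases h5 with h5 | h5
  · rw [h7] at h5
    rw [h6, h5, neg_neg]
    exact h4
  · right
    rw [h6, h5, neg_zero]

end Inp

end Crest.Agent.R105.Sw_209
end

-- ▼ part R105/Sw4_209
section

/-!
# Row 105, S0138: exact switching, part 4: the class `x0 + TT` (helper209)

`swf Y x0 φ = sw Y (x0 + φ) - x0`.  For `φ ∈ TT Y` with compact support: `swf Y x0 φ ∈ TT Y` with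
compact support, `Swd Y (x0 + swf)`, `J` and all oscillations do not increase,
`NI Y a φ → NI Y a (swf Y x0 φ)`.
-/

set_option autoImplicit false

open Set Filter Topology Metric Bornology MeasureTheory
open scoped NNReal

namespace Crest.Agent.R105.Sw_209

open Ends_897 Ni_459 Crest.AnalysisR Bd_775 Tc_808

/-- the switched function as a perturbation of `x0` -/
noncomputable def swf (Y : Set ℂ) (x0 φ : ℂ → ℝ) (z : ℂ) : ℝ :=
  sw Y (fun z => x0 z + φ z) z - x0 z

variable {Y : Set ℂ} {x0 φ u v a : ℂ → ℝ}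

lemma add_swf (Y : Set ℂ) (x0 φ : ℂ → ℝ) :
    (fun z => x0 z + swf Y x0 φ z) = sw Y (fun z => x0 z + φ z) := by
  funext z; unfold swf; ring

/-! ### envelopes near `Y` -/

section Env
variable (hY : IsExteriorDomain Yᶜ)
include hY

lemma up_le_of_nb (hu : LB u) (hv : LB v) {z : ℂ} {N : Set ℂ} (hN : Nb Y z N)
    (h : ∀ w ∈ N, w ∉ Y → u w ≤ v w) : up Y u z ≤ up Y v z := by
  refine le_of_forall_gt_imp_ge_of_dense fun c hc => ?_
  obtain ⟨O, hO, h1⟩ := exists_lt_of_up_lt hY hv hc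
  exact up_le hY hu (hO.inter hN) fun w hw hwY => (h w hw.2 hwY).trans (h1 w hw.1 hwY).le

lemma up_congr_nb (hu : LB u) (hv : LB v) {z : ℂ} {N : Set ℂ} (hN : Nb Y z N)
    (h : ∀ w ∈ N, w ∉ Y → u w = v w) : up Y u z = up Y v z :=
  le_antisymm (up_le_of_nb hY hu hv hN fun w hw hwY => (h w hw hwY).le)
    (up_le_of_nb hY hv hu hN fun w hw hwY => (h w hw hwY).ge)

lemma lo_congr_nb (hu : LB u) (hv : LB v) {z : ℂ} {N : Set ℂ} (hN : Nb Y z N)
    (h : ∀ w ∈ N, w ∉ Y → u w = v w) : lo Y u z = lo Y v z := by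
  unfold lo
  rw [up_congr_nb hY hu.neg hv.neg hN fun w hw hwY => by rw [h w hw hwY]]

end Env

/-- the zero set of `x0` is a neighbourhood of every component -/
lemma nb_x0 (hx : IfB_641.X0 Y x0) {z : ℂ} (hz : z ∈ Y) : Nb Y z (tsupport x0)ᶜ :=
  nb_of_mem hz (isClosed_tsupport x0).isOpen_compl fun _ hw hw' =>
    hx.zero hw' (connectedComponentIn_subset _ _ hw)

lemma x0_zero {w : ℂ} (hw : w ∈ (tsupport x0)ᶜ) : x0 w = 0 := by
  by_contra h
  exact hw (subset_tsupport x0 h)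

lemma x0_bd (hx : IfB_641.X0 Y x0) : ∃ M, ∀ z, |x0 z - z.re| ≤ M := by
  obtain ⟨R, hR⟩ := hx.far
  have hc : Continuous fun z : ℂ => x0 z - z.re := hx.sm.continuous.sub Complex.continuous_re
  obtain ⟨M, hM⟩ := (isCompact_closedBall (0 : ℂ) R).exists_bound_of_continuousOn hc.continuousOn
  refine ⟨max M 0, fun z => ?_⟩
  rcases le_total ‖z‖ R with h | h
  · exact (hM z (by simpa using h)).trans (le_max_left _ _)
  · rw [hR z h, sub_self, abs_zero]; exact le_max_right _ _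

lemma x0_loc (hx : IfB_641.X0 Y x0) : LocallyLipschitzOn Yᶜ x0 :=
  Mid_987.ll_on (Mid_987.ll_smooth hx.sm) _

/-- `x0 + φ` is an input -/
lemma exists_inp (hY : IsExteriorDomain Yᶜ) (hx : IfB_641.X0 Y x0) (hφ : Q Y φ) :
    ∃ M R₀, 0 ≤ R₀ ∧ Inp Y 1 M R₀ (fun z => x0 z + φ z) := by
  obtain ⟨M, hM⟩ := x0_bd hx
  obtain ⟨N, hN⟩ := hφ.bdd
  obtain ⟨C, hC⟩ := (cpt_of hY).isBounded.exists_norm_le
  refine ⟨M + N, max C 0, le_max_right _ _, hY, ll_add (x0_loc hx) hφ.loc, fun z => ?_,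
    Or.inl rfl, fun z hz => ?_⟩
  · have h2 : x0 z + φ z - 1 * z.re = (x0 z - z.re) + φ z := by ring
    rw [h2]
    exact (abs_add_le _ _).trans (add_le_add (hM z) (hN z))
  · rw [mem_closedBall_zero_iff]
    exact (hC z hz).trans (le_max_left _ _)

section main
variable (hY : IsExteriorDomain Yᶜ) (hx : IfB_641.X0 Y x0) (hφ : Q Y φ)
include hY hx hφ

theorem swd_swf : Swd Y (fun z => x0 z + swf Y x0 φ z) := by
  obtain ⟨M, R₀, hR, h⟩ := exists_inp hY hx hφ
  rw [add_swf]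
  exact h.swd_sw hR

lemma swf_bdd : ∃ M, ∀ z, |swf Y x0 φ z| ≤ M := by
  obtain ⟨M, R₀, hR, h⟩ := exists_inp hY hx hφ
  obtain ⟨N, hN⟩ := x0_bd hx
  refine ⟨(M + 2 * R₀ + 2 * R₀) + N, fun z => ?_⟩
  have h1 := (h.sw_inp hR).bd z
  have h2 : swf Y x0 φ z = (sw Y (fun z => x0 z + φ z) z - 1 * z.re) - (x0 z - z.re) := by
    unfold swf; ring
  rw [h2]
  exact (abs_sub _ _).trans (add_le_add h1 (hN z))

lemma swf_loc : LocallyLipschitzOn Yᶜ (swf Y x0 φ) := by
  obtain ⟨M, R₀, hR, h⟩ := exists_inp hY hx hφ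
  exact ll_sub (h.sw_inp hR).loc (x0_loc hx)

/-- **envelopes of the switched function** -/
theorem swf_alt {z : ℂ} (hz : z ∈ Y) :
    Flat Y (sw Y (fun z => x0 z + φ z)) z ∨
      (lo Y φ z ≤ lo Y (swf Y x0 φ) z ∧ up Y (swf Y x0 φ) z ≤ up Y φ z) := by
  obtain ⟨M, R₀, hR, h⟩ := exists_inp hY hx hφ
  refine (h.sw_alt hR z).imp_right fun h1 => ?_
  have hs : LB (swf Y x0 φ) := LB.of_bdd (swf_bdd hY hx hφ)
  have hp : LB φ := LB.of_bdd hφ.bdd
  have e1 := lo_congr_nb hY h.lb hp (nb_x0 hx hz) fun w hw _ => by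
    rw [x0_zero hw, zero_add]
  have e2 := up_congr_nb hY h.lb hp (nb_x0 hx hz) fun w hw _ => by
    rw [x0_zero hw, zero_add]
  have e3 := lo_congr_nb hY (h.sw_inp hR).lb hs (nb_x0 hx hz) fun w hw _ => by
    unfold swf; rw [x0_zero hw, sub_zero]
  have e4 := up_congr_nb hY (h.sw_inp hR).lb hs (nb_x0 hx hz) fun w hw _ => by
    unfold swf; rw [x0_zero hw, sub_zero]
  rw [← e1, ← e2, ← e3, ← e4]
  exact h1

/-- **oscillations do not increase** -/
theorem osc_swf_le (K : Cmp Y) : osc Y (swf Y x0 φ) K.1 ≤ osc Y φ K.1 := by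
  obtain ⟨K, z, hz, rfl⟩ := K
  show osc Y (swf Y x0 φ) (connectedComponentIn Y z) ≤ osc Y φ (connectedComponentIn Y z)
  rcases swf_alt hY hx hφ hz with h1 | h1
  · obtain ⟨N, hN, hc⟩ := h1.nb
    have hN' := hN.inter (nb_x0 hx hz)
    refine (osc_le le_rfl ⟨_, hN'.op, hN'.sub, fun p hp _ q hq _ => ?_⟩).trans (osc_nonneg _ _ _)
    have e : swf Y x0 φ p = swf Y x0 φ q := by
      unfold swf
      rw [hc p hp.1, hc q hq.1, x0_zero hp.2, x0_zero hq.2]
    rw [e, sub_self, abs_zero]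
  · rw [osc_eq hY (swf_bdd hY hx hφ) hz, osc_eq hY hφ.bdd hz]
    linarith [h1.1, h1.2]

/-- far away nothing changes -/
lemma swf_far {R : ℝ} (hYR : Y ⊆ closedBall 0 R) (hR : 0 ≤ R)
    (hfar : ∀ z, R < ‖z‖ → x0 z = z.re ∧ φ z = 0) (z : ℂ) (hz : R < ‖z‖) :
    swf Y x0 φ z = 0 := by
  obtain ⟨M, R₀, hR₀, h⟩ := exists_inp hY hx hφ
  have h' : Inp Y 1 M R (fun z => x0 z + φ z) := ⟨h.ext, h.loc, h.bd, h.sgn, hYR⟩
  have h1 := h'.sw_far hR le_rfl (fun w hw => by
    obtain ⟨h2, h3⟩ := hfar w hw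
    rw [h2, h3]; ring) z hz
  unfold swf
  rw [h1, (hfar z hz).1]; ring

theorem swf_compact (hc : HasCompactSupport φ) : HasCompactSupport (swf Y x0 φ) := by
  obtain ⟨C, hC⟩ := (cpt_of hY).isBounded.exists_norm_le
  obtain ⟨R1, hR1⟩ := hx.far
  obtain ⟨D, hD⟩ := hc.isCompact.isBounded.exists_norm_le
  have h0 : (0 : ℝ) ≤ max (max C R1) (max D 0) := (le_max_right D 0).trans (le_max_right _ _)
  refine HasCompactSupport.intro (isCompact_closedBall (0 : ℂ) (max (max C R1) (max D 0)))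
    fun z hz => ?_
  rw [mem_closedBall_zero_iff, not_le] at hz
  refine swf_far hY hx hφ (fun w hw => ?_) h0 (fun w hw => ⟨?_, ?_⟩) z hz
  · rw [mem_closedBall_zero_iff]
    exact (hC w hw).trans ((le_max_left _ _).trans (le_max_left _ _))
  · exact hR1 w (((le_max_right C R1).trans (le_max_left _ _)).trans hw.le)
  · by_contra h
    have h1 := hD w (subset_tsupport φ h)
    exact absurd (h1.trans ((le_max_left D 0).trans (le_max_right _ _))) (not_le.2 hw)

/-- pointwise energies -/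
lemma en_sw_le : ∀ᵐ z ∂(volume.restrict Yᶜ), DifferentiableAt ℝ φ z ∧
    DifferentiableAt ℝ (swf Y x0 φ) z ∧
    en (sw Y (fun z => x0 z + φ z)) z ≤ en (fun z => x0 z + φ z) z := by
  obtain ⟨M, R₀, hR, h⟩ := exists_inp hY hx hφ
  filter_upwards [h.fderiv_sw hR, ae_diff hY.1 hφ.loc, ae_diff hY.1 (swf_loc hY hx hφ)]
    with z h1 h2 h3
  refine ⟨h2, h3, ?_⟩
  rcases h1.2.2 with h4 | h4
  · rw [en_eq, en_eq, h4]
  · rw [en_eq, h4]; simpa using en_nonneg _ _

omit hY hφ in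
lemma en_x0_cont : Continuous (en x0) := by
  unfold en
  exact ((Mid_987.contDiff_gx hx.sm).continuous.pow 2).add
    ((Mid_987.contDiff_gy hx.sm).continuous.pow 2)

theorem swf_q (hc : HasCompactSupport φ) : Q Y (swf Y x0 φ) := by
  refine ⟨swf_bdd hY hx hφ, swf_loc hY hx hφ, ?_⟩
  have hcs := swf_compact hY hx hφ hc
  set B := tsupport (swf Y x0 φ) with hB
  have hBm : MeasurableSet B := (isClosed_tsupport _).measurableSet
  have hi : Integrable (B.indicator fun z => 6 * en x0 z) := by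
    rw [integrable_indicator_iff hBm]
    exact ((en_x0_cont hx).const_mul 6).continuousOn.integrableOn_compact hcs.isCompact
  have hg : IntegrableOn (fun z => B.indicator (fun z => 6 * en x0 z) z + 4 * en φ z) Yᶜ :=
    hi.integrableOn.add (hφ.fin.const_mul 4)
  refine hg.mono' (measurable_en _).aestronglyMeasurable ?_
  filter_upwards [en_sw_le hY hx hφ] with z ⟨h1, h2, h3⟩
  rw [Real.norm_of_nonneg (en_nonneg _ _)]
  by_cases hz : z ∈ B
  · rw [indicator_of_mem hz]
    have hx0d : DifferentiableAt ℝ x0 z := (hx.sm.differentiable (by simp)) z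
    have e1 := en_add_le (u := x0) (v := φ) hx0d h1
    have hsd : DifferentiableAt ℝ (sw Y (fun z => x0 z + φ z)) z := by
      rw [← add_swf]; exact hx0d.add h2
    have e2 := en_sub_le (u := sw Y (fun z => x0 z + φ z)) (v := x0) hsd hx0d
    have e3 : en (swf Y x0 φ) z ≤ 2 * en (sw Y (fun z => x0 z + φ z)) z + 2 * en x0 z := e2
    linarith
  · rw [en_eq_zero_of_notMem_tsupport hz]
    have := en_nonneg φ z
    rw [indicator_of_notMem hz]
    linarith

end main

/-- the energy of `x0 + φ` -/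
lemma en_add_eq {z : ℂ} (h1 : DifferentiableAt ℝ x0 z) (h2 : DifferentiableAt ℝ φ z) :
    dot φ φ z + 2 * dot x0 φ z = en (fun z => x0 z + φ z) z - en x0 z := by
  unfold en dot
  rw [gx_add h1 h2, gy_add h1 h2]
  ring

lemma J_eq (hY : IsExteriorDomain Yᶜ) (hx : IfB_641.X0 Y x0) (hφ : Q Y φ)
    (hc : HasCompactSupport φ) :
    IntegrableOn (fun z => dot φ φ z + 2 * dot x0 φ z) Yᶜ ∧
      IfB_641.J Y x0 φ = ∫ z in Yᶜ, (dot φ φ z + 2 * dot x0 φ z) := by
  obtain ⟨h1, h2⟩ := Mid_987.di_x0 (cpt_of hY) hx hφ hc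
  have h3 : IntegrableOn (dot φ φ) Yᶜ := integrableOn_dot hφ hφ
  refine ⟨h3.add (h1.const_mul 2), ?_⟩
  rw [integral_add h3 (h1.const_mul 2), integral_const_mul]
  unfold IfB_641.J
  have h4 : ∫ z in Yᶜ, dot x0 φ z = - ∫ z, φ z * IfB_641.lap x0 z := h2
  rw [h4]
  unfold IfB_641.di
  ring

/-- **`J` does not increase** -/
theorem J_swf_le (hY : IsExteriorDomain Yᶜ) (hx : IfB_641.X0 Y x0) (hφ : Q Y φ)
    (hc : HasCompactSupport φ) : IfB_641.J Y x0 (swf Y x0 φ) ≤ IfB_641.J Y x0 φ := by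
  obtain ⟨h1, h2⟩ := J_eq hY hx hφ hc
  obtain ⟨h3, h4⟩ := J_eq hY hx (swf_q hY hx hφ hc) (swf_compact hY hx hφ hc)
  rw [h2, h4]
  refine integral_mono_ae h3 h1 ?_
  filter_upwards [en_sw_le hY hx hφ] with z ⟨e1, e2, e3⟩
  have hx0d : DifferentiableAt ℝ x0 z := (hx.sm.differentiable (by simp)) z
  rw [en_add_eq hx0d e2, en_add_eq hx0d e1, add_swf]
  linarith

theorem swf_tt (hY : IsExteriorDomain Yᶜ) (hx : IfB_641.X0 Y x0) (hφ : TT Y φ)
    (hc : HasCompactSupport φ) : TT Y (swf Y x0 φ) := by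
  refine ⟨swf_q hY hx hφ.q hc, Summable.of_nonneg_of_le (fun K => sq_nonneg _) (fun K => ?_) hφ.sum⟩
  exact pow_le_pow_left₀ (osc_nonneg _ _ _) (osc_swf_le hY hx hφ.q K) 2

/-- the oscillation part does not increase -/
theorem sum_osc_swf_le (hY : IsExteriorDomain Yᶜ) (hx : IfB_641.X0 Y x0) (hφ : TT Y φ)
    (hc : HasCompactSupport φ) :
    ∑' K : Cmp Y, osc Y (swf Y x0 φ) K.1 ^ 2 ≤ ∑' K : Cmp Y, osc Y φ K.1 ^ 2 :=
  (swf_tt hY hx hφ hc).sum.tsum_le_tsum (fun K =>
    pow_le_pow_left₀ (osc_nonneg _ _ _) (osc_swf_le hY hx hφ.q K) 2) hφ.sum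

/-! ### null image -/

/-- horizontal lines over a countable set -/
lemma null_snd {S : Set ℝ} (hS : S.Countable) : volume {p : ℝ × ℝ | p.2 ∈ S} = 0 := by
  have h : {p : ℝ × ℝ | p.2 ∈ S} = (univ : Set ℝ) ×ˢ S := by ext p; simp
  rw [h, Measure.volume_eq_prod, Measure.prod_prod, hS.measure_zero, mul_zero]

theorem ni_swf (hY : IsExteriorDomain Yᶜ) (hx : IfB_641.X0 Y x0) (hφ : TT Y φ)
    (h : NI Y a φ) : NI Y a (swf Y x0 φ) := by
  classical
  set S : Set ℝ := {s : ℝ | ∃ N : Set ℂ, IsOpen N ∧ N.Nonempty ∧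
    ∀ w ∈ N, sw Y (fun z => x0 z + φ z) w = s} with hS
  have hSc : S.Countable := countable_flat _
  -- the countable set of jumps
  have hJ : {K : Cmp Y | osc Y φ K.1 ≠ 0}.Countable := by
    have h1 := hφ.sum.countable_support
    refine h1.mono fun K hK => ?_
    rw [Function.mem_support]
    exact pow_ne_zero 2 hK
  set G : Cmp Y → ℝ × ℝ := fun K => (lo Y a K.2.choose, lo Y (swf Y x0 φ) K.2.choose) with hG
  have hsub : NP Y a (swf Y x0 φ) ⊆ NP Y a φ ∪ ({p : ℝ × ℝ | p.2 ∈ S} ∪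
      G '' {K : Cmp Y | osc Y φ K.1 ≠ 0}) := by
    rintro p ⟨z, hz, h1, h2, h3, h4⟩
    rcases swf_alt hY hx hφ.q hz with h5 | ⟨h5, h6⟩
    · right; left
      obtain ⟨N, hN, hc⟩ := h5.nb
      have hN' := hN.inter (nb_x0 hx hz)
      have e := env_of_nb (c := sw Y (fun z => x0 z + φ z) z) hY
        (LB.of_bdd (swf_bdd hY hx hφ.q)) hN' fun w hw _ => by
          unfold swf; rw [hc w hw.1, x0_zero hw.2, sub_zero]
      show p.2 ∈ S
      rw [← h3, e.1]
      exact ⟨N, hN.op, ⟨z, hN.mem⟩, hc⟩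
    · rw [h3] at h5
      rw [h4] at h6
      by_cases h7 : osc Y φ (connectedComponentIn Y z) = 0
      · left
        rw [osc_eq hY hφ.q.bdd hz] at h7
        exact ⟨z, hz, h1, h2, by linarith, by linarith⟩
      · right; right
        set K : Cmp Y := ⟨connectedComponentIn Y z, z, hz, rfl⟩ with hK
        refine ⟨K, h7, ?_⟩
        have hc1 : K.2.choose ∈ Y := K.2.choose_spec.1
        have hc2 : connectedComponentIn Y z = connectedComponentIn Y K.2.choose :=
          K.2.choose_spec.2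
        have hz' : z ∈ connectedComponentIn Y K.2.choose := hc2 ▸ mem_connectedComponentIn hz
        have e1 : lo Y a z = lo Y a K.2.choose := lo_congr_cc hc1 hz'
        have e2 : lo Y (swf Y x0 φ) z = lo Y (swf Y x0 φ) K.2.choose := lo_congr_cc hc1 hz'
        show (lo Y a K.2.choose, lo Y (swf Y x0 φ) K.2.choose) = p
        rw [← e1, ← e2, h1, h3]
  refine measure_mono_null hsub ?_
  rw [measure_union_null_iff, measure_union_null_iff]
  exact ⟨h, null_snd hSc, (hJ.image G).measure_zero _⟩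

end Crest.Agent.R105.Sw_209
end

-- ▼ part R105/Sw5_209
section

/-!
# Row 105, S0138: exact switching, part 5: the leaf `SWITCHP` of helper8's `SkA1_8` (helper209)
-/

set_option autoImplicit false

open Set Filter Topology Metric MeasureTheory

namespace Crest.Agent.R105.Sw_209

open Ni_459 Crest.AnalysisR Bd_775 Tc_808 Grd_782

/-- **the switching leaf** -/
theorem switchp : SkA_8.SWITCHP := by
  intro Y x0 hY hx φ hφ hc
  refine ⟨swf Y x0 φ, swf_tt hY hx hφ hc, swf_compact hY hx hφ.q hc, swd_swf hY hx hφ.q, ?_,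
    fun a _ _ _ h => ni_swf hY hx hφ h⟩
  unfold TJ
  exact add_le_add (J_swf_le hY hx hφ.q hc) (sum_osc_swf_le hY hx hφ hc)


end Crest.Agent.R105.Sw_209
end

-- ▼ part R105/Cnv1_755
section

/-!
# Row 105, S0138, CONV 1 (helper755): good circles (Courant-Lebesgue) around any centre

* `good_circle` : `f` locally Lipschitz on the open set `O`, the closed annulus
  `a ≤ dist z p ≤ b` in `O`, energy over the open annulus at most `E`: there is `t ∈ (a, b)` with
  `(f z - f w)^2 ≤ 2 π E / log (b / a)` on the circle of radius `t`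
-/

set_option autoImplicit false

open MeasureTheory Set Filter Topology Metric
open scoped NNReal ENNReal Real

namespace Crest.Agent.R105.Cnv_755

open Crest.Agent.R105.Cof_430 (pt pt_eq continuous_pt hasDerivAt_pt norm_cs lint_polar lint_sq)
open Crest.Agent.R105.Bd_775 (gx gy en en_eq)

theorem dist_pt (p : ℂ) {t : ℝ} (ht : 0 ≤ t) (θ : ℝ) : dist (pt p t θ) p = t := by
  rw [pt, dist_eq_norm, add_sub_cancel_left, norm_mul, norm_cs, mul_one, Complex.norm_real,
    Real.norm_of_nonneg ht]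

theorem exists_pt {p z : ℂ} {t : ℝ} (h : dist z p = t) : ∃ θ ∈ Icc (-π) π, z = pt p t θ := by
  refine ⟨Complex.arg (z - p), ⟨(Complex.neg_pi_lt_arg _).le, Complex.arg_le_pi _⟩, ?_⟩
  have h1 : ‖z - p‖ = t := by rw [← h, dist_eq_norm]
  have h2 := Complex.norm_mul_cos_add_sin_mul_I (z - p)
  rw [h1] at h2
  rw [pt, Complex.ofReal_cos, Complex.ofReal_sin, h2]
  ring

theorem lipschitz_pt (p : ℂ) {t : ℝ} (ht : 0 ≤ t) : LipschitzWith t.toNNReal (pt p t) := by
  refine lipschitzWith_of_nnnorm_deriv_le (fun θ => (hasDerivAt_pt p t θ).differentiableAt) ?_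
  intro θ
  rw [(hasDerivAt_pt p t θ).deriv, ← NNReal.coe_le_coe, coe_nnnorm, Real.coe_toNNReal _ ht]
  have e : (-Real.sin θ + Real.cos θ * Complex.I : ℂ) =
      Complex.I * (Real.cos θ + Real.sin θ * Complex.I) := by
    have := Complex.I_mul_I
    linear_combination (-Real.sin θ : ℂ) * this
  rw [e, norm_mul, norm_mul, norm_cs, Complex.norm_I, Complex.norm_real,
    Real.norm_of_nonneg ht, one_mul, mul_one]

/-- the variation along the circle is bounded by the integral of the gradient -/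
theorem osc_circle {O : Set ℂ} {f : ℂ → ℝ} (hf : LocallyLipschitzOn O f) {p : ℂ}
    {t : ℝ} (ht : 0 < t) (hsub : sphere p t ⊆ O)
    (hd : ∀ᵐ θ ∂(volume.restrict (Ioo (-π) π)), DifferentiableAt ℝ f (pt p t θ)) {z w : ℂ}
    (hz : dist z p = t) (hw : dist w p = t) :
    ENNReal.ofReal |f z - f w| ≤
      ∫⁻ θ in Ioo (-π) π, ENNReal.ofReal t * ENNReal.ofReal ‖fderiv ℝ f (pt p t θ)‖ := by
  -- Lipschitz on the circle
  obtain ⟨K, hK⟩ := (hf.mono hsub).exists_lipschitzOnWith_of_compact (isCompact_sphere p t)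
  have hL : LipschitzWith (K * t.toNNReal) (fun θ => f (pt p t θ)) := by
    have h1 : LipschitzOnWith (K * t.toNNReal) (f ∘ pt p t) univ :=
      hK.comp ((lipschitz_pt p ht.le).lipschitzOnWith (s := univ)) (fun θ _ => by
        rw [mem_sphere]; exact dist_pt p ht.le θ)
    exact lipschitzOnWith_univ.1 h1
  -- wlog ordered angles
  have key : ∀ θ1 ∈ Icc (-π) π, ∀ θ2 ∈ Icc (-π) π, θ1 ≤ θ2 →
      ENNReal.ofReal |f (pt p t θ2) - f (pt p t θ1)| ≤
      ∫⁻ θ in Ioo (-π) π, ENNReal.ofReal t * ENNReal.ofReal ‖fderiv ℝ f (pt p t θ)‖ := by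
    intro θ1 h1 θ2 h2 h12
    have hac : AbsolutelyContinuousOnInterval (fun θ => f (pt p t θ)) θ1 θ2 :=
      (hL.lipschitzOnWith (s := uIcc θ1 θ2)).absolutelyContinuousOnInterval
    have hftc := hac.integral_deriv_eq_sub
    have hsubI : Ioc θ1 θ2 ⊆ Icc (-π) π := fun x hx => ⟨h1.1.trans hx.1.le, hx.2.trans h2.2⟩
    have e1 : (volume.restrict (Icc (-π) π) : Measure ℝ) = volume.restrict (Ioo (-π) π) :=
      Measure.restrict_congr_set Ioo_ae_eq_Icc.symm
    rw [← hftc, intervalIntegral.integral_of_le h12, ← Real.norm_eq_abs]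
    calc ENNReal.ofReal ‖∫ x in Ioc θ1 θ2, deriv (fun θ => f (pt p t θ)) x‖
        ≤ ∫⁻ x in Ioc θ1 θ2, ENNReal.ofReal ‖deriv (fun θ => f (pt p t θ)) x‖ := by
          rw [ofReal_norm]
          refine (enorm_integral_le_lintegral_enorm _).trans (le_of_eq ?_)
          refine lintegral_congr fun x => ?_
          rw [ofReal_norm]
      _ ≤ ∫⁻ x in Icc (-π) π, ENNReal.ofReal ‖deriv (fun θ => f (pt p t θ)) x‖ :=
          lintegral_mono_set hsubI
      _ = ∫⁻ x in Ioo (-π) π, ENNReal.ofReal ‖deriv (fun θ => f (pt p t θ)) x‖ := by rw [e1]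
      _ ≤ _ := by
          refine lintegral_mono_ae ?_
          filter_upwards [hd] with θ hθ
          have h3 : HasDerivAt (fun θ => f (pt p t θ))
              (fderiv ℝ f (pt p t θ) (t * (-Real.sin θ + Real.cos θ * Complex.I))) θ :=
            hθ.hasFDerivAt.comp_hasDerivAt θ (hasDerivAt_pt p t θ)
          rw [h3.deriv, ← ENNReal.ofReal_mul ht.le]
          refine ENNReal.ofReal_le_ofReal ?_
          refine ((fderiv ℝ f (pt p t θ)).le_opNorm _).trans ?_
          have e : (-Real.sin θ + Real.cos θ * Complex.I : ℂ) =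
              Complex.I * (Real.cos θ + Real.sin θ * Complex.I) := by
            have := Complex.I_mul_I
            linear_combination (-Real.sin θ : ℂ) * this
          rw [e, norm_mul, norm_mul, norm_cs, Complex.norm_I, Complex.norm_real,
            Real.norm_of_nonneg ht.le, one_mul, mul_one, mul_comm]
  obtain ⟨θ1, h1, rfl⟩ := exists_pt hz
  obtain ⟨θ2, h2, rfl⟩ := exists_pt hw
  rcases le_total θ1 θ2 with h | h
  · rw [abs_sub_comm]
    exact key θ1 h1 θ2 h2 h
  · exact key θ2 h2 θ1 h1 h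

/-- **good circle** -/
theorem good_circle {O : Set ℂ} (hO : IsOpen O) {f : ℂ → ℝ} (hf : LocallyLipschitzOn O f) {p : ℂ}
    {a b : ℝ} (ha : 0 < a) (hab : a < b) (hsub : ∀ z, a < dist z p → dist z p < b → z ∈ O) {E : ℝ}
    (hE : ∫⁻ z in {z | dist z p ∈ Ioo a b}, ENNReal.ofReal (en f z) ≤ ENNReal.ofReal E) :
    ∃ t ∈ Ioo a b, ∀ z w, dist z p = t → dist w p = t →
      (f z - f w) ^ 2 * Real.log (b / a) ≤ 2 * π * max E 0 := by
  set G : ℂ → ℝ≥0∞ := fun z => ENNReal.ofReal ‖fderiv ℝ f z‖ with hG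
  have hGm : Measurable G := (measurable_fderiv ℝ f).norm.ennreal_ofReal
  have hG2 : ∀ z, G z ^ 2 = ENNReal.ofReal (en f z) := by
    intro z
    rw [hG, en_eq, ← ENNReal.ofReal_pow (norm_nonneg _)]
  -- the null set
  set D : Set ℂ := {z | DifferentiableAt ℝ f z}ᶜ ∩ {z | dist z p ∈ Ioo a b} with hD
  have hAm : MeasurableSet {z : ℂ | dist z p ∈ Ioo a b} :=
    (isOpen_Ioo.preimage (continuous_id.dist continuous_const)).measurableSet
  have hDm : MeasurableSet D :=
    (measurableSet_of_differentiableAt ℝ f).compl.inter hAm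
  have hD0 : volume D = 0 := by
    have h1 := Bd_775.ae_diff hO hf
    rw [ae_restrict_iff' hO.measurableSet] at h1
    refine measure_mono_null ?_ h1
    rintro z ⟨h2, h3⟩ h4
    exact h2 (h4 (hsub z h3.1 h3.2))
  have hpm : Measurable fun q : ℝ × ℝ => pt p q.1 q.2 := by
    unfold pt
    fun_prop
  have hN : ∀ᵐ t ∂(volume.restrict (Ioo a b)),
      ∀ᵐ θ ∂(volume.restrict (Ioo (-π) π)), DifferentiableAt ℝ f (pt p t θ) := by
    have h1 := lint_polar (G := D.indicator 1) (measurable_one.indicator hDm) p (b := b) ha.le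
    rw [lintegral_indicator_one hDm] at h1
    have h2 : volume.restrict {z | dist z p ∈ Ioo a b} D = 0 :=
      le_antisymm ((Measure.restrict_apply_le _ _).trans hD0.le) zero_le
    rw [h2] at h1
    have hm : Measurable fun t : ℝ => ∫⁻ θ in Ioo (-π) π,
        ENNReal.ofReal t * D.indicator 1 (pt p t θ) := by
      refine Measurable.lintegral_prod_right' (f := fun q : ℝ × ℝ =>
        ENNReal.ofReal q.1 * D.indicator 1 (pt p q.1 q.2)) ?_
      exact (ENNReal.measurable_ofReal.comp measurable_fst).mul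
        ((measurable_one.indicator hDm).comp hpm)
    have h3 := (lintegral_eq_zero_iff hm).1 h1
    filter_upwards [h3, ae_restrict_mem measurableSet_Ioo] with t ht htm
    have ht0 : 0 < t := ha.trans htm.1
    have hm2 : Measurable fun θ : ℝ => ENNReal.ofReal t * D.indicator (1 : ℂ → ℝ≥0∞) (pt p t θ) :=
      ((measurable_one.indicator hDm).comp (continuous_pt p t).measurable).const_mul _
    have h4 := (lintegral_eq_zero_iff hm2).1 ht
    filter_upwards [h4] with θ hθ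
    by_contra h5
    have h6 : pt p t θ ∈ D := ⟨h5, by
      show dist (pt p t θ) p ∈ Ioo a b
      rw [dist_pt p ht0.le]; exact htm⟩
    have h7 : ENNReal.ofReal t * D.indicator (1 : ℂ → ℝ≥0∞) (pt p t θ) = 0 := hθ
    rw [indicator_of_mem h6, Pi.one_apply, mul_one, ENNReal.ofReal_eq_zero] at h7
    linarith
  rw [ae_restrict_iff' measurableSet_Ioo] at hN
  -- the length function
  set L : ℝ → ℝ≥0∞ := fun t => ∫⁻ θ in Ioo (-π) π, ENNReal.ofReal t * G (pt p t θ) with hLdef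
  have hLm : Measurable L := by
    refine Measurable.lintegral_prod_right' (f := fun q : ℝ × ℝ =>
      ENNReal.ofReal q.1 * G (pt p q.1 q.2)) ?_
    exact (ENNReal.measurable_ofReal.comp measurable_fst).mul (hGm.comp hpm)
  obtain ⟨t, ht, htN, hLt⟩ := Crest.Agent.R105.Sq_363.exists_le_log (hLm.pow_const 2) ha hab hN
  have hgood : ∀ᵐ θ ∂(volume.restrict (Ioo (-π) π)), DifferentiableAt ℝ f (pt p t θ) := by
    by_contra h
    exact htN (fun h' => h (h' ht))
  have ht0 : 0 < t := ha.trans ht.1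
  have hsph : sphere p t ⊆ O := fun z hz => by
    rw [mem_sphere] at hz
    exact hsub z (by rw [hz]; exact ht.1) (by rw [hz]; exact ht.2)
  -- total bound
  have hb : ∫⁻ s in Ioo a b, ENNReal.ofReal (1 / s) * L s ^ 2 ≤
      ENNReal.ofReal (2 * π * max E 0) := by
    calc ∫⁻ s in Ioo a b, ENNReal.ofReal (1 / s) * L s ^ 2
        ≤ ∫⁻ s in Ioo a b, ENNReal.ofReal (2 * π) *
            ∫⁻ θ in Ioo (-π) π, ENNReal.ofReal s * G (pt p s θ) ^ 2 := by
          refine setLIntegral_mono' measurableSet_Ioo fun s hs => ?_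
          have hs0 : 0 < s := ha.trans hs.1
          have h1 := lint_sq (μ := volume.restrict (Ioo (-π) π))
            (g := fun θ => ENNReal.ofReal s * G (pt p s θ))
            ((hGm.comp (continuous_pt p s).measurable).const_mul _).aemeasurable
          have h2 : (volume.restrict (Ioo (-π) π)) univ = ENNReal.ofReal (2 * π) := by
            rw [Measure.restrict_apply_univ, Real.volume_Ioo]
            congr 1; ring
          rw [h2] at h1
          have h3 : ∫⁻ θ in Ioo (-π) π, (ENNReal.ofReal s * G (pt p s θ)) ^ 2 =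
              ENNReal.ofReal s * ∫⁻ θ in Ioo (-π) π, ENNReal.ofReal s * G (pt p s θ) ^ 2 := by
            rw [← lintegral_const_mul]
            · refine lintegral_congr fun θ => ?_
              ring
            · exact ((hGm.comp (continuous_pt p s).measurable).pow_const 2).const_mul _
          rw [h3] at h1
          calc ENNReal.ofReal (1 / s) * L s ^ 2 ≤ ENNReal.ofReal (1 / s) *
                ((ENNReal.ofReal s * ∫⁻ θ in Ioo (-π) π, ENNReal.ofReal s * G (pt p s θ) ^ 2) *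
                  ENNReal.ofReal (2 * π)) := by gcongr
            _ = (ENNReal.ofReal (1 / s) * ENNReal.ofReal s) * (ENNReal.ofReal (2 * π) *
                ∫⁻ θ in Ioo (-π) π, ENNReal.ofReal s * G (pt p s θ) ^ 2) := by ring
            _ = _ := by
                rw [← ENNReal.ofReal_mul (by positivity)]
                have : 1 / s * s = 1 := by field_simp
                rw [this, ENNReal.ofReal_one, one_mul]
      _ = ENNReal.ofReal (2 * π) * ∫⁻ z in {z | dist z p ∈ Ioo a b}, G z ^ 2 := by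
          rw [← lint_polar (hGm.pow_const 2) p ha.le, lintegral_const_mul]
          refine Measurable.lintegral_prod_right' (f := fun q : ℝ × ℝ =>
            ENNReal.ofReal q.1 * G (pt p q.1 q.2) ^ 2) ?_
          exact (ENNReal.measurable_ofReal.comp measurable_fst).mul ((hGm.comp hpm).pow_const 2)
      _ ≤ ENNReal.ofReal (2 * π) * ENNReal.ofReal (max E 0) := by
          gcongr
          simp only [hG2]
          exact hE.trans (ENNReal.ofReal_le_ofReal (le_max_left _ _))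
      _ = _ := by rw [← ENNReal.ofReal_mul (by positivity)]
  refine ⟨t, ht, fun z w hz hw => ?_⟩
  have h1 := osc_circle hf ht0 hsph hgood hz hw
  have hlog : 0 < Real.log (b / a) := Real.log_pos ((one_lt_div ha).2 hab)
  have h2 : ENNReal.ofReal ((f z - f w) ^ 2 * Real.log (b / a)) ≤
      ENNReal.ofReal (2 * π * max E 0) := by
    rw [ENNReal.ofReal_mul (sq_nonneg _), ← sq_abs, ENNReal.ofReal_pow (abs_nonneg _)]
    calc ENNReal.ofReal |f z - f w| ^ 2 * ENNReal.ofReal (Real.log (b / a))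
        ≤ L t ^ 2 * ENNReal.ofReal (Real.log (b / a)) := by gcongr
      _ ≤ _ := hLt.trans hb
  exact (ENNReal.ofReal_le_ofReal_iff (by positivity)).1 h2

end Crest.Agent.R105.Cnv_755
end

-- ▼ part R105/Cnv2_755
section

/-!
# Row 105, S0138, CONV 2 (helper755): averages along segments

* `line_avg` : `w` locally Lipschitz on the open set `O`, `ball p η + [0, 1] v ⊆ O`, energy over `O`
  at most `E`: there is `a ∈ ball p η` with `(w (a + v) - w a)^2 * (π η^2) ≤ ‖v‖^2 E`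
-/

set_option autoImplicit false

open MeasureTheory Set Filter Topology Metric
open scoped NNReal ENNReal Real

namespace Crest.Agent.R105.Cnv_755

open Crest.Agent.R105.Cof_430 (lint_sq)
open Crest.Agent.R105.Bd_775 (gx gy en en_eq)

theorem line_avg {O : Set ℂ} (hO : IsOpen O) {w : ℂ → ℝ} (hw : LocallyLipschitzOn O w) {p v : ℂ}
    {η : ℝ} (hη : 0 < η) (hsub : ∀ s ∈ Icc (0:ℝ) 1, ∀ a ∈ ball p η, a + s * v ∈ O) {E : ℝ}
    (hE0 : 0 ≤ E) (hE : ∫⁻ z in O, ENNReal.ofReal (en w z) ≤ ENNReal.ofReal E) :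
    ∃ a ∈ ball p η, (w (a + v) - w a) ^ 2 * (π * η ^ 2) ≤ ‖v‖ ^ 2 * E := by
  set G : ℂ → ℝ≥0∞ := fun z => ENNReal.ofReal ‖fderiv ℝ w z‖ with hG
  have hGm : Measurable G := (measurable_fderiv ℝ w).norm.ennreal_ofReal
  have hG2 : ∀ z, G z ^ 2 = ENNReal.ofReal (en w z) := by
    intro z
    rw [hG, en_eq, ← ENNReal.ofReal_pow (norm_nonneg _)]
  set g : ℂ → ℝ≥0∞ := O.indicator G with hg
  have hgm : Measurable g := hGm.indicator hO.measurableSet
  -- the null set
  set D : Set ℂ := {z | DifferentiableAt ℝ w z}ᶜ ∩ O with hD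
  have hDm : MeasurableSet D := (measurableSet_of_differentiableAt ℝ w).compl.inter hO.measurableSet
  have hD0 : volume D = 0 := by
    have h1 := Bd_775.ae_diff hO hw
    rw [ae_restrict_iff' hO.measurableSet] at h1
    refine measure_mono_null ?_ h1
    rintro z ⟨h2, h3⟩ h4
    exact h2 (h4 h3)
  have hpm : Measurable fun q : ℂ × ℝ => q.1 + (q.2 : ℂ) * v := by fun_prop
  have hN : ∀ᵐ a : ℂ, ∀ᵐ s : ℝ ∂(volume.restrict (Icc (0:ℝ) 1)), a + (s : ℂ) * v ∉ D := by
    have h1 : ∫⁻ a : ℂ, ∫⁻ s : ℝ in Icc (0:ℝ) 1,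
        D.indicator (1 : ℂ → ℝ≥0∞) (a + (s : ℂ) * v) = 0 := by
      rw [lintegral_lintegral_swap (f := fun (a : ℂ) (s : ℝ) =>
        D.indicator (1 : ℂ → ℝ≥0∞) (a + (s : ℂ) * v))
        (((measurable_one.indicator hDm).comp hpm).aemeasurable)]
      have h2 : ∀ s : ℝ, ∫⁻ a : ℂ, D.indicator (1 : ℂ → ℝ≥0∞) (a + (s : ℂ) * v) = 0 := by
        intro s
        rw [lintegral_add_right_eq_self (fun a => D.indicator (1 : ℂ → ℝ≥0∞) a),
          lintegral_indicator_one hDm, hD0]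
      simp only [h2, lintegral_zero]
    have hm : Measurable fun a : ℂ => ∫⁻ s : ℝ in Icc (0:ℝ) 1,
        D.indicator (1 : ℂ → ℝ≥0∞) (a + (s : ℂ) * v) :=
      Measurable.lintegral_prod_right' (f := fun q : ℂ × ℝ =>
        D.indicator (1 : ℂ → ℝ≥0∞) (q.1 + (q.2 : ℂ) * v)) ((measurable_one.indicator hDm).comp hpm)
    have h3 := (lintegral_eq_zero_iff hm).1 h1
    filter_upwards [h3] with a ha
    have hm2 : Measurable fun s : ℝ => D.indicator (1 : ℂ → ℝ≥0∞) (a + (s : ℂ) * v) :=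
      (measurable_one.indicator hDm).comp (by fun_prop)
    have h4 := (lintegral_eq_zero_iff hm2).1 ha
    filter_upwards [h4] with s hs h5
    have h6 : D.indicator (1 : ℂ → ℝ≥0∞) (a + (s : ℂ) * v) = 0 := hs
    rw [indicator_of_mem h5] at h6
    exact one_ne_zero h6
  -- the fundamental theorem on the segments
  have hF : ∀ᵐ a : ℂ, a ∈ ball p η → ENNReal.ofReal |w (a + v) - w a| ≤
      ∫⁻ s : ℝ in Icc (0:ℝ) 1, ENNReal.ofReal ‖v‖ * g (a + (s : ℂ) * v) := by
    filter_upwards [hN] with a ha hab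
    have hseg : ∀ s ∈ Icc (0:ℝ) 1, a + (s : ℂ) * v ∈ O := fun s hs => hsub s hs a hab
    have hcl : LipschitzWith ‖v‖₊ (fun s : ℝ => a + (s : ℂ) * v) := by
      refine LipschitzWith.of_dist_le_mul fun s t => ?_
      rw [dist_add_left, dist_eq_norm, ← sub_mul, norm_mul, mul_comm, ← Complex.ofReal_sub,
        Complex.norm_real, coe_nnnorm, Real.dist_eq, Real.norm_eq_abs]
    have hcpt : IsCompact ((fun s : ℝ => a + (s : ℂ) * v) '' Icc (0:ℝ) 1) :=
      isCompact_Icc.image hcl.continuous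
    have him : (fun s : ℝ => a + (s : ℂ) * v) '' Icc (0:ℝ) 1 ⊆ O := by
      rintro _ ⟨s, hs, rfl⟩
      exact hseg s hs
    obtain ⟨K, hK⟩ := (hw.mono him).exists_lipschitzOnWith_of_compact hcpt
    have hL : LipschitzOnWith (K * ‖v‖₊) (fun s : ℝ => w (a + (s : ℂ) * v)) (uIcc (0:ℝ) 1) := by
      rw [uIcc_of_le zero_le_one]
      exact hK.comp (hcl.lipschitzOnWith (s := Icc (0:ℝ) 1)) (fun s hs => mem_image_of_mem _ hs)
    have hftc := hL.absolutelyContinuousOnInterval.integral_deriv_eq_sub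
    simp only [Complex.ofReal_one, one_mul, Complex.ofReal_zero, zero_mul, add_zero] at hftc
    rw [← hftc, intervalIntegral.integral_of_le zero_le_one, ← Real.norm_eq_abs]
    have e1 : (volume.restrict (Ioc (0:ℝ) 1) : Measure ℝ) = volume.restrict (Icc (0:ℝ) 1) :=
      Measure.restrict_congr_set Ioc_ae_eq_Icc
    rw [e1, ofReal_norm]
    refine (enorm_integral_le_lintegral_enorm _).trans ?_
    refine lintegral_mono_ae ?_
    filter_upwards [ha, ae_restrict_mem measurableSet_Icc] with s hs hsI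
    have hsO := hseg s hsI
    have hdf : DifferentiableAt ℝ w (a + (s : ℂ) * v) := by
      by_contra h
      exact hs ⟨h, hsO⟩
    have h2 : HasDerivAt (fun s : ℝ => a + (s : ℂ) * v) v s := by
      have h := ((Complex.ofRealCLM.hasDerivAt (x := s)).mul_const v).const_add a
      simpa using h
    have h3 : HasDerivAt (fun s : ℝ => w (a + (s : ℂ) * v)) (fderiv ℝ w (a + (s : ℂ) * v) v) s :=
      hdf.hasFDerivAt.comp_hasDerivAt s h2
    rw [h3.deriv, hg, indicator_of_mem hsO, ← ENNReal.ofReal_mul (norm_nonneg _), ← ofReal_norm]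
    refine ENNReal.ofReal_le_ofReal ?_
    exact ((fderiv ℝ w (a + (s : ℂ) * v)).le_opNorm v).trans (le_of_eq (mul_comm _ _))
  -- the square integral
  have hI : ∫⁻ a in ball p η, ENNReal.ofReal ((w (a + v) - w a) ^ 2) ≤
      ENNReal.ofReal (‖v‖ ^ 2 * E) := by
    calc ∫⁻ a in ball p η, ENNReal.ofReal ((w (a + v) - w a) ^ 2)
        ≤ ∫⁻ a in ball p η, ∫⁻ s : ℝ in Icc (0:ℝ) 1,
            ENNReal.ofReal (‖v‖ ^ 2) * g (a + (s : ℂ) * v) ^ 2 := by
          refine lintegral_mono_ae ?_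
          rw [ae_restrict_iff' measurableSet_ball]
          filter_upwards [hF] with a ha hab
          have h1 := ha hab
          have h2 := lint_sq (μ := volume.restrict (Icc (0:ℝ) 1))
            (g := fun s : ℝ => ENNReal.ofReal ‖v‖ * g (a + (s : ℂ) * v))
            ((hgm.comp (by fun_prop : Measurable fun s : ℝ => a + (s : ℂ) * v)).const_mul
              _).aemeasurable
          rw [Measure.restrict_apply_univ, Real.volume_Icc, sub_zero, ENNReal.ofReal_one,
            mul_one] at h2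
          rw [← sq_abs, ENNReal.ofReal_pow (abs_nonneg _)]
          refine ((pow_le_pow_left₀ zero_le h1 2).trans h2).trans (le_of_eq ?_)
          refine lintegral_congr fun s => ?_
          rw [mul_pow, ← ENNReal.ofReal_pow (norm_nonneg _)]
      _ ≤ ∫⁻ a : ℂ, ∫⁻ s : ℝ in Icc (0:ℝ) 1,
            ENNReal.ofReal (‖v‖ ^ 2) * g (a + (s : ℂ) * v) ^ 2 := setLIntegral_le_lintegral _ _
      _ = ∫⁻ s : ℝ in Icc (0:ℝ) 1, ∫⁻ a : ℂ,
            ENNReal.ofReal (‖v‖ ^ 2) * g (a + (s : ℂ) * v) ^ 2 := by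
          rw [lintegral_lintegral_swap]
          exact (((hgm.comp hpm).pow_const 2).const_mul _).aemeasurable
      _ = ∫⁻ s : ℝ in Icc (0:ℝ) 1, ENNReal.ofReal (‖v‖ ^ 2) * ∫⁻ a : ℂ, g a ^ 2 := by
          refine lintegral_congr fun s => ?_
          rw [lintegral_const_mul]
          · rw [lintegral_add_right_eq_self (fun a => g a ^ 2)]
          · exact (hgm.comp (by fun_prop : Measurable fun a : ℂ => a + (s : ℂ) * v)).pow_const 2
      _ = ENNReal.ofReal (‖v‖ ^ 2) * ∫⁻ z in O, ENNReal.ofReal (en w z) := by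
          rw [lintegral_const, Measure.restrict_apply_univ, Real.volume_Icc, sub_zero,
            ENNReal.ofReal_one, mul_one, ← lintegral_indicator hO.measurableSet]
          congr 1
          refine lintegral_congr fun z => ?_
          rw [hg]
          by_cases hz : z ∈ O
          · rw [indicator_of_mem hz, indicator_of_mem hz, hG2]
          · rw [indicator_of_notMem hz, indicator_of_notMem hz]
            simp
      _ ≤ ENNReal.ofReal (‖v‖ ^ 2) * ENNReal.ofReal E := by gcongr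
      _ = _ := by rw [← ENNReal.ofReal_mul (by positivity)]
  have hb0 : volume (ball p η) ≠ 0 := (measure_ball_pos volume p hη).ne'
  have hbt : volume (ball p η) ≠ ∞ := measure_ball_lt_top.ne
  have hc1 : ContinuousOn (fun a => (w (a + v) - w a) ^ 2) (ball p η) := by
    have h1 : ContinuousOn w O := hw.continuousOn
    refine ((ContinuousOn.comp (t := O) h1 (by fun_prop) ?_).sub (h1.mono ?_)).pow 2
    · intro a ha
      have := hsub 1 ⟨zero_le_one, le_rfl⟩ a ha
      simpa using this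
    · intro a ha
      have := hsub 0 ⟨le_rfl, zero_le_one⟩ a ha
      simpa using this
  obtain ⟨a, ha, hle⟩ := exists_le_setLAverage hb0 hbt
    ((hc1.aemeasurable measurableSet_ball).ennreal_ofReal)
  refine ⟨a, ha, ?_⟩
  rw [setLAverage_eq, ENNReal.le_div_iff_mul_le (Or.inl hb0) (Or.inl hbt)] at hle
  have hv : volume (ball p η) = ENNReal.ofReal (π * η ^ 2) := by
    rw [Complex.volume_ball, ENNReal.ofReal_mul Real.pi_pos.le, ENNReal.ofReal_pow hη.le, mul_comm]
    congr 1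
    rw [← NNReal.coe_real_pi, ENNReal.ofReal_coe_nnreal]
  rw [hv, ← ENNReal.ofReal_mul (sq_nonneg _)] at hle
  exact (ENNReal.ofReal_le_ofReal_iff (by positivity)).1 (hle.trans hI)

end Crest.Agent.R105.Cnv_755
end

-- ▼ part R105/Cnv3_755
section

/-!
# Row 105, S0138, CONV 3 (helper755): locally uniform convergence

* `NoIs U u` : weak maximum / minimum principle on discs with boundary in `U`
* `CSeq U u` : locally Lipschitz, `NoIs`, gradients Cauchy in `L²(U)`
* `CSeq.equi` : equicontinuity on compact subsets; `CSeq.cauchy_ball`; `CSeq.exists_limit`: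
  `u n - u n z0` converges locally uniformly on `U` (`U` open, preconnected); `CSeq.bdd`
-/

set_option autoImplicit false

open MeasureTheory Set Filter Topology Metric
open scoped NNReal ENNReal Real

namespace Crest.Agent.R105.Cnv_755

open Crest.Agent.R105.Bd_775 (gx gy en en_eq)

/-- weak maximum and minimum principle -/
structure NoIs (U : Set ℂ) (u : ℂ → ℝ) : Prop where
  mx : ∀ (p : ℂ) (r t : ℝ), 0 < r → sphere p r ⊆ U → (∀ z ∈ sphere p r, u z ≤ t) →
    ∀ z ∈ ball p r ∩ U, u z ≤ t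
  mn : ∀ (p : ℂ) (r t : ℝ), 0 < r → sphere p r ⊆ U → (∀ z ∈ sphere p r, t ≤ u z) →
    ∀ z ∈ ball p r ∩ U, t ≤ u z

/-- sequences with Cauchy gradients -/
structure CSeq (U : Set ℂ) (u : ℕ → ℂ → ℝ) : Prop where
  lip : ∀ n, LocallyLipschitzOn U (u n)
  mono : ∀ n, NoIs U (u n)
  cau : ∀ ε : ℝ, 0 < ε → ∃ N, ∀ m, N ≤ m → ∀ n, N ≤ n →
    ∫⁻ z in U, ENNReal.ofReal (en (fun z => u m z - u n z) z) ≤ ENNReal.ofReal ε

theorem NoIs.circle {U : Set ℂ} (hU : IsOpen U) {u : ℂ → ℝ} (hl : LocallyLipschitzOn U u)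
    (hm : NoIs U u) {p : ℂ} {a b : ℝ} (ha : 0 < a) (hab : a < b) (hsub : closedBall p b ⊆ U)
    {E : ℝ} (hE : ∫⁻ z in closedBall p b, ENNReal.ofReal (en u z) ≤ ENNReal.ofReal E) {z w : ℂ}
    (hz : z ∈ closedBall p a) (hw : w ∈ closedBall p a) :
    (u z - u w) ^ 2 * Real.log (b / a) ≤ 2 * π * max E 0 := by
  obtain ⟨t, ht, h⟩ := good_circle hU hl ha hab
    (fun z h1 h2 => hsub (mem_closedBall.2 h2.le)) (E := E)
    ((lintegral_mono_set (fun z hz => mem_closedBall.2 hz.2.le)).trans hE)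
  have ht0 : 0 < t := ha.trans ht.1
  have hs : sphere p t ⊆ U := fun z hz => hsub (mem_closedBall.2 (by
    rw [mem_sphere] at hz; rw [hz]; exact ht.2.le))
  have hc : ContinuousOn u (sphere p t) := hl.continuousOn.mono hs
  have hne : (sphere p t).Nonempty := NormedSpace.sphere_nonempty.2 ht0.le
  obtain ⟨z1, hz1, hmax⟩ := (isCompact_sphere p t).exists_isMaxOn hne hc
  obtain ⟨z2, hz2, hmin⟩ := (isCompact_sphere p t).exists_isMinOn hne hc
  have hin : ∀ q ∈ closedBall p a, u z2 ≤ u q ∧ u q ≤ u z1 := by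
    intro q hq
    have hqb : q ∈ ball p t ∩ U := ⟨mem_ball.2 ((mem_closedBall.1 hq).trans_lt ht.1),
      hsub (closedBall_subset_closedBall hab.le hq)⟩
    exact ⟨hm.mn p t (u z2) ht0 hs (fun z hz => hmin hz) q hqb,
      hm.mx p t (u z1) ht0 hs (fun z hz => hmax hz) q hqb⟩
  have h1 := h z1 z2 (mem_sphere.1 hz1) (mem_sphere.1 hz2)
  have hlog : 0 < Real.log (b / a) := Real.log_pos ((one_lt_div ha).2 hab)
  obtain ⟨a1, a2⟩ := hin z hz
  obtain ⟨b1, b2⟩ := hin w hw
  have h2 : (u z - u w) ^ 2 ≤ (u z1 - u z2) ^ 2 := by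
    rw [← sq_abs (u z - u w)]
    exact pow_le_pow_left₀ (abs_nonneg _) (abs_le.2 ⟨by linarith, by linarith⟩) 2
  exact (mul_le_mul_of_nonneg_right h2 hlog.le).trans h1

/-- energy of a locally Lipschitz function over a compact set -/
theorem lint_en_lt_top {U : Set ℂ} (hU : IsOpen U) {u : ℂ → ℝ} (hl : LocallyLipschitzOn U u)
    {K : Set ℂ} (hK : IsCompact K) (hKU : K ⊆ U) :
    ∫⁻ z in K, ENNReal.ofReal (en u z) < ∞ := by
  obtain ⟨δ, hδ, hKδ⟩ := hK.exists_cthickening_subset_open hU hKU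
  have hK' : IsCompact (cthickening δ K) := hK.cthickening
  obtain ⟨L, hL⟩ := (hl.mono hKδ).exists_lipschitzOnWith_of_compact hK'
  have hb : ∀ z ∈ K, ENNReal.ofReal (en u z) ≤ ENNReal.ofReal ((L : ℝ) ^ 2) := by
    intro z hz
    refine ENNReal.ofReal_le_ofReal ?_
    rw [en_eq]
    have h1 : cthickening δ K ∈ 𝓝 z := by
      refine mem_of_superset (ball_mem_nhds z hδ) ?_
      intro w hw
      exact mem_cthickening_of_dist_le w z δ K hz (mem_ball.1 hw).le
    exact pow_le_pow_left₀ (norm_nonneg _) (norm_fderiv_le_of_lipschitzOn ℝ h1 hL) 2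
  calc ∫⁻ z in K, ENNReal.ofReal (en u z) ≤ ∫⁻ _z in K, ENNReal.ofReal ((L : ℝ) ^ 2) :=
        setLIntegral_mono' hK.measurableSet hb
    _ < ∞ := by
        rw [lintegral_const, Measure.restrict_apply_univ]
        exact ENNReal.mul_lt_top ENNReal.ofReal_lt_top hK.measure_lt_top

theorem en_le_two {u v : ℂ → ℝ} {z : ℂ} (hu : DifferentiableAt ℝ u z)
    (hv : DifferentiableAt ℝ v z) : en u z ≤ 2 * en (fun z => u z - v z) z + 2 * en v z := by
  have h : fderiv ℝ (fun z => u z - v z) z = fderiv ℝ u z - fderiv ℝ v z := fderiv_fun_sub hu hv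
  unfold en gx gy
  rw [h]
  simp only [_root_.sub_apply]
  nlinarith [sq_nonneg (fderiv ℝ u z 1 - 2 * fderiv ℝ v z 1),
    sq_nonneg (fderiv ℝ u z Complex.I - 2 * fderiv ℝ v z Complex.I)]

variable {U : Set ℂ} {u : ℕ → ℂ → ℝ}

/-- local energies are eventually bounded -/
theorem CSeq.loc_bdd (hU : IsOpen U) (h : CSeq U u) {K : Set ℂ} (hK : IsCompact K) (hKU : K ⊆ U) :
    ∃ (N : ℕ) (E : ℝ), 0 ≤ E ∧ ∀ n, N ≤ n →
      ∫⁻ z in K, ENNReal.ofReal (en (u n) z) ≤ ENNReal.ofReal E := by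
  obtain ⟨N, hN⟩ := h.cau 1 one_pos
  have h0 := lint_en_lt_top hU (h.lip N) hK hKU
  set A : ℝ≥0∞ := 2 * ENNReal.ofReal 1 + 2 * ∫⁻ z in K, ENNReal.ofReal (en (u N) z) with hA
  have hAt : A ≠ ∞ := ENNReal.add_ne_top.2 ⟨ENNReal.mul_ne_top (by norm_num) ENNReal.ofReal_ne_top,
    ENNReal.mul_ne_top (by norm_num) h0.ne⟩
  refine ⟨N, A.toReal, ENNReal.toReal_nonneg, fun n hn => ?_⟩
  rw [ENNReal.ofReal_toReal hAt]
  have hd1 := (ae_restrict_iff' hU.measurableSet).1 (Bd_775.ae_diff hU (h.lip n))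
  have hd2 := (ae_restrict_iff' hU.measurableSet).1 (Bd_775.ae_diff hU (h.lip N))
  calc ∫⁻ z in K, ENNReal.ofReal (en (u n) z)
      ≤ ∫⁻ z in K, (2 * ENNReal.ofReal (en (fun z => u n z - u N z) z) +
          2 * ENNReal.ofReal (en (u N) z)) := by
        refine lintegral_mono_ae ?_
        refine (ae_restrict_iff' hK.measurableSet).2 ?_
        filter_upwards [hd1, hd2] with z h1 h2 hz
        have h3 := en_le_two (h1 (hKU hz)) (h2 (hKU hz))
        refine (ENNReal.ofReal_le_ofReal h3).trans (le_of_eq ?_)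
        rw [ENNReal.ofReal_add (mul_nonneg (by norm_num) (Bd_775.en_nonneg _ _))
          (mul_nonneg (by norm_num) (Bd_775.en_nonneg _ _)), ENNReal.ofReal_mul (by norm_num),
          ENNReal.ofReal_mul (by norm_num), ENNReal.ofReal_ofNat]
    _ = 2 * (∫⁻ z in K, ENNReal.ofReal (en (fun z => u n z - u N z) z)) +
          2 * ∫⁻ z in K, ENNReal.ofReal (en (u N) z) := by
        rw [lintegral_add_left, lintegral_const_mul, lintegral_const_mul]
        · exact (Bd_775.measurable_en _).ennreal_ofReal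
        · exact (Bd_775.measurable_en _).ennreal_ofReal
        · exact (Bd_775.measurable_en _).ennreal_ofReal.const_mul _
    _ ≤ A := by
        rw [hA]
        gcongr
        exact (lintegral_mono_set hKU).trans (hN n hn N le_rfl)

/-- **equicontinuity on compact subsets** -/
theorem CSeq.equi (hU : IsOpen U) (h : CSeq U u) {K : Set ℂ} (hK : IsCompact K) (hKU : K ⊆ U)
    {ε : ℝ} (hε : 0 < ε) {ρ0 : ℝ} (hρ0 : 0 < ρ0) :
    ∃ δ : ℝ, 0 < δ ∧ δ ≤ ρ0 ∧ ∃ N : ℕ, ∀ n, N ≤ n → ∀ z ∈ K, ∀ w, dist w z ≤ δ →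
      |u n w - u n z| ≤ ε := by
  obtain ⟨ρ1, hρ1, hKρ1⟩ := hK.exists_cthickening_subset_open hU hKU
  set ρ : ℝ := min ρ1 ρ0 with hρdef
  have hρ : 0 < ρ := lt_min hρ1 hρ0
  have hKρ : cthickening ρ K ⊆ U := (cthickening_mono (min_le_left _ _) _).trans hKρ1
  obtain ⟨N, E, hE0, hE⟩ := h.loc_bdd hU hK.cthickening hKρ
  -- choose `δ`
  set T : ℝ := 2 * π * max E 0 / ε ^ 2 + 1 with hT
  have hT1 : 1 ≤ T := by
    rw [hT]
    have : 0 ≤ 2 * π * max E 0 / ε ^ 2 := by positivity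
    linarith
  set δ : ℝ := ρ * Real.exp (-T) with hδdef
  have hδ : 0 < δ := by positivity
  have hδρ : δ < ρ := by
    rw [hδdef]
    have : Real.exp (-T) < 1 := Real.exp_lt_one_iff.2 (by linarith)
    nlinarith
  refine ⟨δ, hδ, hδρ.le.trans (min_le_right _ _), N, fun n hn z hz w hw => ?_⟩
  have hcb : closedBall z ρ ⊆ cthickening ρ K := fun y hy =>
    mem_cthickening_of_dist_le y z ρ K hz (mem_closedBall.1 hy)
  have h1 := (h.mono n).circle hU (h.lip n) hδ hδρ (hcb.trans hKρ) (E := E)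
    ((lintegral_mono_set hcb).trans (hE n hn)) (mem_closedBall.2 hw)
    (mem_closedBall_self hδ.le)
  have h2 : Real.log (ρ / δ) = T := by
    rw [hδdef, div_mul_eq_div_div, div_self hρ.ne', Real.log_div one_ne_zero (Real.exp_ne_zero _),
      Real.log_one, Real.log_exp]
    ring
  rw [h2] at h1
  have h3 : 2 * π * max E 0 ≤ ε ^ 2 * T := by
    rw [hT]
    have : ε ^ 2 * (2 * π * max E 0 / ε ^ 2 + 1) = 2 * π * max E 0 + ε ^ 2 := by
      field_simp
    rw [this]
    nlinarith [sq_nonneg ε]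
  have h4 : (u n w - u n z) ^ 2 ≤ ε ^ 2 := by
    have := h1.trans h3
    exact le_of_mul_le_mul_right this (by linarith)
  exact abs_le_of_sq_le_sq h4 hε.le

/-- the differences are nearly constant on balls -/
theorem CSeq.cauchy_ball (hU : IsOpen U) (h : CSeq U u) {z0 : ℂ} {ρ : ℝ} (hρ : 0 < ρ)
    (hB : closedBall z0 (2 * ρ) ⊆ U) {ε : ℝ} (hε : 0 < ε) :
    ∃ N : ℕ, ∀ m, N ≤ m → ∀ n, N ≤ n → ∀ z ∈ ball z0 ρ, ∀ z' ∈ ball z0 ρ,
      |(u m z' - u n z') - (u m z - u n z)| ≤ ε := by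
  have hKU : closedBall z0 ρ ⊆ U := (closedBall_subset_closedBall (by linarith)).trans hB
  obtain ⟨δ, hδ, hδρ, N1, hN1⟩ := h.equi hU (isCompact_closedBall z0 ρ) hKU
    (show (0:ℝ) < ε / 8 by positivity) hρ
  set ε' : ℝ := (ε / 2) ^ 2 * (π * δ ^ 2) / (2 * ρ) ^ 2 with hε'
  have hε'0 : 0 < ε' := by positivity
  obtain ⟨N2, hN2⟩ := h.cau ε' hε'0
  refine ⟨max N1 N2, fun m hm n hn z hz z' hz' => ?_⟩
  have hw : LocallyLipschitzOn U (fun z => u m z - u n z) := Bd_775.ll_sub (h.lip m) (h.lip n)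
  have hsub : ∀ s ∈ Icc (0:ℝ) 1, ∀ a ∈ ball z δ, a + (s : ℂ) * (z' - z) ∈ U := by
    intro s hs a ha
    refine hB ?_
    have h1 : z + (s : ℂ) * (z' - z) ∈ ball z0 ρ := by
      have := (convex_ball z0 ρ).add_smul_sub_mem hz hz' hs
      rwa [Complex.real_smul] at this
    rw [mem_closedBall]
    calc dist (a + (s : ℂ) * (z' - z)) z0
        ≤ dist (a + (s : ℂ) * (z' - z)) (z + (s : ℂ) * (z' - z)) +
          dist (z + (s : ℂ) * (z' - z)) z0 := dist_triangle _ _ _
      _ = dist a z + dist (z + (s : ℂ) * (z' - z)) z0 := by rw [dist_add_right]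
      _ ≤ δ + ρ := add_le_add (mem_ball.1 ha).le (mem_ball.1 h1).le
      _ ≤ 2 * ρ := by linarith
  obtain ⟨a, ha, hle⟩ := line_avg hU hw hδ hsub hε'0.le
    (hN2 m ((le_max_right _ _).trans hm) n ((le_max_right _ _).trans hn))
  have hv : ‖z' - z‖ ≤ 2 * ρ := by
    rw [← dist_eq_norm]
    have := dist_triangle_right z' z z0
    have h1 := mem_ball.1 hz
    have h2 := mem_ball.1 hz'
    linarith
  have h5 : ((u m (a + (z' - z)) - u n (a + (z' - z))) - (u m a - u n a)) ^ 2 ≤ (ε / 2) ^ 2 := by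
    have h6 : ‖z' - z‖ ^ 2 * ε' ≤ (ε / 2) ^ 2 * (π * δ ^ 2) := by
      calc ‖z' - z‖ ^ 2 * ε' ≤ (2 * ρ) ^ 2 * ε' := by gcongr
        _ = _ := by rw [hε']; field_simp
    exact le_of_mul_le_mul_right (hle.trans h6) (by positivity)
  have h7 := abs_le_of_sq_le_sq h5 (by positivity)
  have hz1 : z ∈ closedBall z0 ρ := ball_subset_closedBall hz
  have hz1' : z' ∈ closedBall z0 ρ := ball_subset_closedBall hz'
  have hm1 := (le_max_left N1 N2).trans hm
  have hn1 := (le_max_left N1 N2).trans hn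
  have da : dist a z ≤ δ := (mem_ball.1 ha).le
  have da' : dist (a + (z' - z)) z' ≤ δ := by
    have : a + (z' - z) - z' = a - z := by ring
    rw [dist_eq_norm, this, ← dist_eq_norm]
    exact da
  have e1 := hN1 m hm1 z hz1 a da
  have e2 := hN1 n hn1 z hz1 a da
  have e3 := hN1 m hm1 z' hz1' _ da'
  have e4 := hN1 n hn1 z' hz1' _ da'
  rw [abs_le] at *
  constructor <;> linarith [e1.1, e1.2, e2.1, e2.2, e3.1, e3.2, e4.1, e4.2, h7.1, h7.2]

/-- pointwise Cauchy, base point `z0` -/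
theorem CSeq.cauchy_pt (hU : IsOpen U) (hUc : IsPreconnected U) (h : CSeq U u) {z0 z : ℂ}
    (hz0 : z0 ∈ U) (hz : z ∈ U) : ∀ ε : ℝ, 0 < ε → ∃ N, ∀ m, N ≤ m → ∀ n, N ≤ n →
      |(u m z - u n z) - (u m z0 - u n z0)| ≤ ε := by
  refine hUc.induction₂' (fun a b => ∀ ε : ℝ, 0 < ε → ∃ N, ∀ m, N ≤ m → ∀ n, N ≤ n →
      |(u m b - u n b) - (u m a - u n a)| ≤ ε) ?_ ?_ hz0 hz
  · intro a ha
    obtain ⟨r, hr, hB⟩ := Metric.isOpen_iff.1 hU a ha
    have hB' : closedBall a (2 * (r / 4)) ⊆ U :=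
      (closedBall_subset_ball (by linarith)).trans hB
    have hmem : ball a (r / 4) ∈ 𝓝[U] a := mem_nhdsWithin_of_mem_nhds (ball_mem_nhds a (by positivity))
    filter_upwards [hmem] with b hb
    constructor
    · intro ε hε
      obtain ⟨N, hN⟩ := h.cauchy_ball hU (show 0 < r / 4 by positivity) hB' hε
      exact ⟨N, fun m hm n hn => hN m hm n hn a (mem_ball_self (by positivity)) b hb⟩
    · intro ε hε
      obtain ⟨N, hN⟩ := h.cauchy_ball hU (show 0 < r / 4 by positivity) hB' hε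
      exact ⟨N, fun m hm n hn => hN m hm n hn b hb a (mem_ball_self (by positivity))⟩
  · intro a b c _ _ _ hab hbc ε hε
    obtain ⟨N1, h1⟩ := hab (ε / 2) (by positivity)
    obtain ⟨N2, h2⟩ := hbc (ε / 2) (by positivity)
    refine ⟨max N1 N2, fun m hm n hn => ?_⟩
    have e1 := h1 m ((le_max_left _ _).trans hm) n ((le_max_left _ _).trans hn)
    have e2 := h2 m ((le_max_right _ _).trans hm) n ((le_max_right _ _).trans hn)
    rw [abs_le] at *
    constructor <;> linarith [e1.1, e1.2, e2.1, e2.2]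

/-- **locally uniform convergence modulo constants** -/
theorem CSeq.exists_limit (hU : IsOpen U) (hUc : IsPreconnected U) (h : CSeq U u) {z0 : ℂ}
    (hz0 : z0 ∈ U) : ∃ x : ℂ → ℝ, ContinuousOn x U ∧
      TendstoLocallyUniformlyOn (fun n z => u n z - u n z0) x atTop U := by
  have hcau : ∀ z ∈ U, CauchySeq (fun n => u n z - u n z0) := by
    intro z hz
    rw [Metric.cauchySeq_iff]
    intro ε hε
    obtain ⟨N, hN⟩ := h.cauchy_pt hU hUc hz0 hz (ε / 2) (by positivity)
    refine ⟨N, fun m hm n hn => ?_⟩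
    rw [Real.dist_eq]
    have := hN m hm n hn
    have e : u m z - u m z0 - (u n z - u n z0) = (u m z - u n z) - (u m z0 - u n z0) := by ring
    rw [e]
    linarith
  have hlim : ∀ z, ∃ l, z ∈ U → Tendsto (fun n => u n z - u n z0) atTop (𝓝 l) := by
    intro z
    by_cases hz : z ∈ U
    · obtain ⟨l, hl⟩ := cauchySeq_tendsto_of_complete (hcau z hz)
      exact ⟨l, fun _ => hl⟩
    · exact ⟨0, fun h => absurd h hz⟩
  choose x hx using hlim
  have hloc : TendstoLocallyUniformlyOn (fun n z => u n z - u n z0) x atTop U := by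
    rw [Metric.tendstoLocallyUniformlyOn_iff]
    intro ε hε a ha
    obtain ⟨r, hr, hB⟩ := Metric.isOpen_iff.1 hU a ha
    have hB' : closedBall a (2 * (r / 4)) ⊆ U :=
      (closedBall_subset_ball (by linarith)).trans hB
    obtain ⟨N1, h1⟩ := h.cauchy_ball hU (show 0 < r / 4 by positivity) hB'
      (show 0 < ε / 4 by positivity)
    obtain ⟨N2, h2⟩ := h.cauchy_pt hU hUc hz0 ha (ε / 4) (by positivity)
    refine ⟨ball a (r / 4), mem_nhdsWithin_of_mem_nhds (ball_mem_nhds a (by positivity)), ?_⟩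
    filter_upwards [eventually_ge_atTop (max N1 N2)] with n hn y hy
    have hyU : y ∈ U := hB' (ball_subset_closedBall (ball_subset_ball (by linarith) hy))
    have hle : ∀ m, max N1 N2 ≤ m → |(u m y - u m z0) - (u n y - u n z0)| ≤ ε / 2 := by
      intro m hm
      have e1 := h1 m ((le_max_left _ _).trans hm) n ((le_max_left _ _).trans hn) a
        (mem_ball_self (by positivity)) y hy
      have e2 := h2 m ((le_max_right _ _).trans hm) n ((le_max_right _ _).trans hn)
      rw [abs_le] at *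
      constructor <;> linarith [e1.1, e1.2, e2.1, e2.2]
    have hl : |x y - (u n y - u n z0)| ≤ ε / 2 := by
      refine le_of_tendsto (((hx y hyU).sub_const _).abs) ?_
      filter_upwards [eventually_ge_atTop (max N1 N2)] with m hm
      exact hle m hm
    rw [Real.dist_eq]
    linarith
  refine ⟨x, ?_, hloc⟩
  exact hloc.continuousOn (Eventually.of_forall fun n =>
    (h.lip n).continuousOn.sub continuousOn_const).frequently

/-- bounds near the complement -/
theorem CSeq.bdd (hU : IsOpen U) (h : CSeq U u) {z0 : ℂ} {x : ℂ → ℝ}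
    (hx : TendstoLocallyUniformlyOn (fun n z => u n z - u n z0) x atTop U) (hxc : ContinuousOn x U)
    (hb : Bornology.IsBounded Uᶜ) (R : ℝ) :
    ∃ (N : ℕ) (M : ℝ), ∀ n, N ≤ n → ∀ z ∈ closedBall (0:ℂ) R ∩ U, |u n z - u n z0| ≤ M := by
  obtain ⟨R1, hR1⟩ := hb.subset_closedBall (0:ℂ)
  set R' : ℝ := max (max R R1) 0 + 1 with hR'
  have hR'0 : 0 < R' := by
    have := le_max_right (max R R1) 0
    rw [hR']; linarith
  have hRR : R < R' := by
    have := (le_max_left R R1).trans (le_max_left (max R R1) 0)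
    rw [hR']; linarith
  have hs : sphere (0:ℂ) R' ⊆ U := by
    intro z hz
    by_contra h'
    have h1 := hR1 h'
    rw [mem_closedBall] at h1
    rw [mem_sphere] at hz
    have := (le_max_right R R1).trans (le_max_left (max R R1) 0)
    rw [hz, hR'] at h1
    linarith
  have hcs := isCompact_sphere (0:ℂ) R'
  obtain ⟨M0, hM0⟩ := hcs.exists_bound_of_continuousOn (hxc.mono hs)
  have hun := (tendstoLocallyUniformlyOn_iff_forall_isCompact hU).1 hx _ hs hcs
  rw [Metric.tendstoUniformlyOn_iff] at hun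
  obtain ⟨N, hN⟩ := eventually_atTop.1 (hun 1 one_pos)
  refine ⟨N, M0 + 1, fun n hn z hz => ?_⟩
  have hsb : ∀ w ∈ sphere (0:ℂ) R', |u n w - u n z0| ≤ M0 + 1 := by
    intro w hw
    have h1 := hN n hn w hw
    have h2 := hM0 w hw
    rw [Real.dist_eq] at h1
    rw [Real.norm_eq_abs] at h2
    rw [abs_lt] at h1
    rw [abs_le] at *
    constructor <;> linarith [h1.1, h1.2, h2.1, h2.2]
  have hzb : z ∈ ball (0:ℂ) R' ∩ U := ⟨mem_ball.2 ((mem_closedBall.1 hz.1).trans_lt hRR), hz.2⟩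
  have h3 := (h.mono n).mx 0 R' (M0 + 1 + u n z0) hR'0 hs (fun w hw => by
    have := (abs_le.1 (hsb w hw)).2
    linarith) z hzb
  have h4 := (h.mono n).mn 0 R' (-(M0 + 1) + u n z0) hR'0 hs (fun w hw => by
    have := (abs_le.1 (hsb w hw)).1
    linarith) z hzb
  rw [abs_le]
  constructor <;> linarith

end Crest.Agent.R105.Cnv_755
end

-- ▼ part R105/Prim1_591
section

/-!
# R105, PRIM 1 (helper591): primitives from orthogonality

* `kk δ` : the regularised kernel `u ↦ 1/u` (equal to `1/u` for `2δ ≤ ‖u‖²`, smooth on `ℂ`)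
* `mean_rad` : radial mean value formula
* `exists_prim` (P1): `h` holomorphic on an open preconnected `U`, `Orth U h` (`∫_U h (φ_x + i φ_y) = 0` for
  real `φ ∈ C_c^∞(ℂ)` with `tsupport (fderiv φ) ⊆ U`); then `h` has a primitive on `U`
-/

set_option autoImplicit false

open Set Filter Topology Metric Complex MeasureTheory
open scoped ContDiff

namespace Crest.Agent.R105.Prim591

noncomputable section

/-! ### the kernel -/

/-- smooth step -/
def Gs (δ : ℝ) (s : ℝ) : ℝ := Real.smoothTransition ((s - δ) / δ)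

theorem contDiff_Gs (δ : ℝ) : ContDiff ℝ ∞ (Gs δ) :=
  Real.smoothTransition.contDiff.comp ((contDiff_id.sub contDiff_const).div_const δ)

theorem Gs_zero {δ s : ℝ} (hδ : 0 < δ) (hs : s ≤ δ) : Gs δ s = 0 := by
  unfold Gs
  apply Real.smoothTransition.zero_of_nonpos
  exact div_nonpos_of_nonpos_of_nonneg (by linarith) hδ.le

theorem Gs_one {δ s : ℝ} (hδ : 0 < δ) (hs : 2 * δ ≤ s) : Gs δ s = 1 := by
  unfold Gs
  apply Real.smoothTransition.one_of_one_le
  rw [le_div_iff₀ hδ]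
  linarith

/-- regularised `1/u` -/
def kk (δ : ℝ) (u : ℂ) : ℂ := (Gs δ (‖u‖ ^ 2) : ℂ) * u⁻¹

/-- radial weight -/
def ww (δ : ℝ) (u : ℂ) : ℝ := deriv (Gs δ) (‖u‖ ^ 2)

theorem contDiff_ww (δ : ℝ) : ContDiff ℝ ∞ (ww δ) :=
  ((contDiff_Gs δ).iterate_deriv 1).comp (contDiff_norm_sq ℝ)


theorem ww_of_gt {δ : ℝ} (hδ : 0 < δ) {u : ℂ} (h : 2 * δ < ‖u‖ ^ 2) : ww δ u = 0 := by
  unfold ww
  have : Gs δ =ᶠ[𝓝 (‖u‖ ^ 2)] fun _ => 1 := by
    filter_upwards [lt_mem_nhds h] with s hs using Gs_one hδ (le_of_lt hs)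
  rw [this.deriv_eq]; simp






/-! ### radial mean value formula -/

theorem circle_int {ζ : ℂ} {ρ r : ℝ} (hr : 0 < r) (hrρ : r < ρ) {h : ℂ → ℂ}
    (hh : DifferentiableOn ℂ h (ball ζ ρ)) :
    ∫ θ in Ioo (-Real.pi) Real.pi, h (ζ + (r : ℂ) * (Real.cos θ + Real.sin θ * I)) =
      (2 * Real.pi : ℝ) • h ζ := by
  have h1 : DiffContOnCl ℂ h (ball ζ |r|) := by
    refine (hh.mono ?_).diffContOnCl
    rw [closure_ball _ (by simpa using hr.ne'), abs_of_pos hr]
    exact closedBall_subset_ball hrρ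
  have h2 := h1.circleAverage
  rw [Real.circleAverage_def] at h2
  have h3 : ∫ θ in (0:ℝ)..2 * Real.pi, h (circleMap ζ r θ) = (2 * Real.pi : ℝ) • h ζ := by
    rw [← h2, smul_smul, mul_inv_cancel₀ (by positivity), one_smul]
  have h4 : Function.Periodic (fun θ => h (circleMap ζ r θ)) (2 * Real.pi) := by
    intro θ
    simp only
    rw [periodic_circleMap ζ r θ]
  have h5 := h4.intervalIntegral_add_eq 0 (-Real.pi)
  rw [zero_add, h3] at h5
  rw [← integral_Ioc_eq_integral_Ioo, ← intervalIntegral.integral_of_le (by linarith [Real.pi_pos]),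
    h5, show -Real.pi + 2 * Real.pi = Real.pi by ring]
  refine intervalIntegral.integral_congr fun θ _ => ?_
  simp only [circleMap, exp_mul_I, ofReal_cos, ofReal_sin]

theorem int_rad {δ : ℝ} (hδ : 0 < δ) :
    ∫ r in Ioi (0:ℝ), r * deriv (Gs δ) (r ^ 2) = 1 / 2 := by
  have hG := contDiff_Gs δ
  have hc : Continuous fun r : ℝ => r * deriv (Gs δ) (r ^ 2) :=
    continuous_id.mul ((hG.continuous_deriv (by simp)).comp (continuous_id.pow 2))
  have h0 : ∀ r : ℝ, 2 * δ < r ^ 2 → deriv (Gs δ) (r ^ 2) = 0 := by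
    intro r hr
    have : Gs δ =ᶠ[𝓝 (r ^ 2)] fun _ => 1 := by
      filter_upwards [lt_mem_nhds hr] with s hs using Gs_one hδ (le_of_lt hs)
    rw [this.deriv_eq]; simp
  have hd : ∀ r ∈ Ioi (0:ℝ), HasDerivAt (fun r : ℝ => Gs δ (r ^ 2) / 2)
      (r * deriv (Gs δ) (r ^ 2)) r := by
    intro r _
    have h1 : HasDerivAt (Gs δ) (deriv (Gs δ) (r ^ 2)) (r ^ 2) :=
      (hG.differentiable (by simp) _).hasDerivAt
    have h2 : HasDerivAt (fun r : ℝ => r ^ 2) (2 * r) r := by
      simpa using hasDerivAt_pow 2 r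
    have h3 : HasDerivAt (fun r : ℝ => Gs δ (r ^ 2)) (deriv (Gs δ) (r ^ 2) * (2 * r)) r :=
      HasDerivAt.comp (h₂ := Gs δ) (h := fun r : ℝ => r ^ 2) r h1 h2
    exact (h3.div_const 2).congr_deriv (by ring)
  have hi : IntegrableOn (fun r : ℝ => r * deriv (Gs δ) (r ^ 2)) (Ioi 0) := by
    have h1 : IntegrableOn (fun r : ℝ => r * deriv (Gs δ) (r ^ 2)) (Icc 0 (1 + 2 * δ)) :=
      hc.integrableOn_Icc
    refine h1.of_forall_sdiff_eq_zero measurableSet_Ioi ?_
    rintro r ⟨hr, hr'⟩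
    have hr0 : 0 < r := hr
    have : 1 + 2 * δ < r := by
      by_contra hcon
      exact hr' ⟨hr0.le, not_lt.1 hcon⟩
    rw [h0 r (by nlinarith), mul_zero]
  have hl : Tendsto (fun r : ℝ => Gs δ (r ^ 2) / 2) atTop (𝓝 (1 / 2)) := by
    refine tendsto_const_nhds.congr' ?_
    filter_upwards [eventually_gt_atTop (1 + 2 * δ)] with r hr
    rw [Gs_one hδ (by nlinarith)]
  have := integral_Ioi_of_hasDerivAt_of_tendsto
    (((hG.continuous.comp (continuous_id.pow 2)).div_const 2).continuousWithinAt) hd hi hl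
  rw [this]
  simp [Gs_zero hδ hδ.le]

/-- radial mean value formula -/
theorem mean_rad {δ ρ : ℝ} (hδ : 0 < δ) (hρ : 0 < ρ) (hδρ : 2 * δ < ρ ^ 2) {ζ : ℂ} {h : ℂ → ℂ}
    (hh : DifferentiableOn ℂ h (ball ζ ρ)) :
    ∫ w : ℂ, h (ζ + w) * (ww δ w : ℂ) = Real.pi * h ζ := by
  set Φ : ℂ → ℂ := fun w => h (ζ + w) * (ww δ w : ℂ) with hΦ
  have hΦ0 : ∀ w : ℂ, 2 * δ < ‖w‖ ^ 2 → Φ w = 0 := by
    intro w hw
    simp only [hΦ, ww_of_gt hδ hw, ofReal_zero, mul_zero]
  have hΦc : Continuous Φ := by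
    rw [continuous_iff_continuousAt]
    intro w
    by_cases hw : ‖w‖ < ρ
    · have h1 : ContinuousAt (fun w => h (ζ + w)) w := by
        refine ContinuousAt.comp (f := fun w => ζ + w) (g := h) ?_ (by fun_prop)
        exact (hh.differentiableAt (isOpen_ball.mem_nhds (by simpa using hw))).continuousAt
      exact h1.mul (continuous_ofReal.comp (contDiff_ww δ).continuous).continuousAt
    · have h1 : Φ =ᶠ[𝓝 w] fun _ => 0 := by
        have hc : Continuous fun u : ℂ => ‖u‖ ^ 2 := by fun_prop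
        have hw' : 2 * δ < ‖w‖ ^ 2 := by nlinarith [norm_nonneg w, not_lt.1 hw]
        filter_upwards [continuousAt_const.eventually_lt hc.continuousAt hw'] with v hv
          using hΦ0 v hv
      exact continuousAt_const.congr h1.symm
  rw [← Complex.integral_comp_polarCoord_symm,
    show _root_.polarCoord.target = Ioi (0:ℝ) ×ˢ Ioo (-Real.pi) Real.pi from rfl]
  set F : ℝ × ℝ → ℂ := fun p => p.1 • Φ (Complex.polarCoord.symm p) with hF
  have hFe : ∀ p : ℝ × ℝ, F p =
      p.1 • Φ ((p.1 : ℂ) * (Real.cos p.2 + Real.sin p.2 * I)) := by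
    intro p
    simp only [hF, Complex.polarCoord_symm_apply]
  have hFc : Continuous F := by
    have : F = fun p => p.1 • Φ ((p.1 : ℂ) * (Real.cos p.2 + Real.sin p.2 * I)) := by
      funext p; exact hFe p
    rw [this]
    refine continuous_fst.smul (hΦc.comp ?_)
    fun_prop
  have hnorm : ∀ r θ : ℝ, ‖(r : ℂ) * (Real.cos θ + Real.sin θ * I)‖ = |r| := by
    intro r θ
    have := Complex.norm_polarCoord_symm (r, θ)
    rwa [Complex.polarCoord_symm_apply] at this
  have hF0 : ∀ r θ : ℝ, ρ ≤ r → F (r, θ) = 0 := by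
    intro r θ hr
    rw [hFe]
    simp only
    rw [hΦ0 _ (by rw [hnorm, sq_abs]; nlinarith), smul_zero]
  have hFi : IntegrableOn F (Ioi (0:ℝ) ×ˢ Ioo (-Real.pi) Real.pi) (volume.prod volume) := by
    have h1 : IntegrableOn F (Icc (0:ℝ) ρ ×ˢ Icc (-Real.pi) Real.pi) (volume.prod volume) :=
      hFc.continuousOn.integrableOn_compact (isCompact_Icc.prod isCompact_Icc)
    refine h1.of_forall_sdiff_eq_zero (measurableSet_Ioi.prod measurableSet_Ioo) ?_
    rintro ⟨r, θ⟩ ⟨⟨hr, hθ⟩, hr'⟩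
    have hr0 : 0 < r := hr
    have : ρ < r := by
      by_contra hcon
      exact hr' ⟨⟨hr0.le, not_lt.1 hcon⟩, ⟨hθ.1.le, hθ.2.le⟩⟩
    exact hF0 r θ this.le
  have h1 : ∫ p in Ioi (0:ℝ) ×ˢ Ioo (-Real.pi) Real.pi, F p
      = ∫ r in Ioi (0:ℝ), ∫ θ in Ioo (-Real.pi) Real.pi, F (r, θ) := setIntegral_prod F hFi
  rw [h1]
  have h2 : ∀ r ∈ Ioi (0:ℝ), ∫ θ in Ioo (-Real.pi) Real.pi, F (r, θ)
      = ((r * deriv (Gs δ) (r ^ 2) : ℝ) : ℂ) * ((2 * Real.pi : ℝ) • h ζ) := by
    intro r hr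
    have hr0 : 0 < r := hr
    by_cases hrρ : r < ρ
    · rw [← circle_int hr0 hrρ hh, ← integral_const_mul]
      refine setIntegral_congr_fun measurableSet_Ioo fun θ _ => ?_
      rw [hFe]
      simp only [hΦ]
      have : ww δ ((r : ℂ) * (Real.cos θ + Real.sin θ * I)) = deriv (Gs δ) (r ^ 2) := by
        unfold ww
        rw [hnorm, sq_abs]
      rw [this, real_smul]
      push_cast
      ring
    · have h3 : ∫ θ in Ioo (-Real.pi) Real.pi, F (r, θ) = 0 := by
        rw [setIntegral_congr_fun measurableSet_Ioo (g := fun _ => (0:ℂ))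
          (fun θ _ => hF0 r θ (not_lt.1 hrρ))]
        simp
      rw [h3]
      have h4 : deriv (Gs δ) (r ^ 2) = 0 := by
        have : Gs δ =ᶠ[𝓝 (r ^ 2)] fun _ => 1 := by
          filter_upwards [lt_mem_nhds (show 2 * δ < r ^ 2 by nlinarith [not_lt.1 hrρ])] with s hs
            using Gs_one hδ (le_of_lt hs)
        rw [this.deriv_eq]; simp
      rw [h4]; simp
  rw [setIntegral_congr_fun measurableSet_Ioi h2, integral_mul_const, integral_complex_ofReal,
    int_rad hδ, real_smul]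
  push_cast
  ring

/-! ### the potential of a polygon -/

open Crest.Agent.R165.GeoPx67 Crest.Agent.R216













end

end Crest.Agent.R105.Prim591
end

-- ▼ part R105/Prim2_591
section

/-!
# R105, PRIM 2 (helper591): behaviour at infinity of holomorphic functions on `{R < ‖z‖}`

* `tendsto_inv` : transport of limits at `∞` to punctured neighbourhoods of `0`
* `tendsto_of_re_bdd` (INF1): `Re q` bounded ⟹ `q → c`
* `sq_le`, `mul_tendsto_zero` : `π |h ζ|² ≤ (M/δ) ∫_{B(ζ,ρ)} |h|²`, `z h(z) → 0` for `h ∈ L²`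
* `sub_le_of_tendsto` : `k → a` ⟹ `|k z - a| ≤ C/|z|`
* `sq_decay` (INF2): `h ∈ L²` ⟹ `|h z| ≤ C/|z|²`
* `prim_tendsto`, `prim_decay` (INF3): `p' = h ∈ L²` ⟹ `p → c`, `|p z - c| ≤ C/|z|`
-/

set_option autoImplicit false

open Set Filter Topology Metric Complex MeasureTheory

namespace Crest.Agent.R105.Prim591

noncomputable section

theorem tendsto_inv_cocompact : Tendsto (fun ζ : ℂ => ζ⁻¹) (𝓝[≠] 0) (cocompact ℂ) := by
  rw [← Metric.cobounded_eq_cocompact]
  exact tendsto_inv₀_nhdsNE_zero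

theorem tendsto_inv_nhdsNE : Tendsto (fun z : ℂ => z⁻¹) (cocompact ℂ) (𝓝[≠] 0) := by
  refine tendsto_nhdsWithin_iff.2 ⟨?_, ?_⟩
  · rw [← Metric.cobounded_eq_cocompact]
    exact tendsto_inv₀_cobounded
  have : ∀ᶠ z : ℂ in cocompact ℂ, z ≠ 0 := by
    have h := (isCompact_singleton (x := (0:ℂ))).compl_mem_cocompact
    filter_upwards [h] with z hz using hz
  filter_upwards [this] with z hz
  simpa using hz


/-! ### `L²` decay -/

theorem exists_ww_le : ∃ M : ℝ, 0 ≤ M ∧ ∀ δ > 0, ∀ u : ℂ, |ww δ u| ≤ M / δ := by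
  have hc : Continuous (deriv Real.smoothTransition) :=
    (Real.smoothTransition.contDiff (n := 1)).continuous_deriv le_rfl
  obtain ⟨M, hM⟩ := isCompact_Icc.exists_bound_of_continuousOn (s := Icc (0:ℝ) 1) hc.continuousOn
  have hb : ∀ x, |deriv Real.smoothTransition x| ≤ max M 0 := by
    intro x
    by_cases hx : x ∈ Icc (0:ℝ) 1
    · exact (hM x hx).trans (le_max_left _ _)
    · rw [mem_Icc, not_and_or, not_le, not_le] at hx
      have : deriv Real.smoothTransition x = 0 := by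
        rcases hx with hx | hx
        · have h1 : Real.smoothTransition =ᶠ[𝓝 x] fun _ => 0 := by
            filter_upwards [gt_mem_nhds hx] with s hs
              using Real.smoothTransition.zero_of_nonpos (le_of_lt hs)
          rw [h1.deriv_eq]; simp
        · have h1 : Real.smoothTransition =ᶠ[𝓝 x] fun _ => 1 := by
            filter_upwards [lt_mem_nhds hx] with s hs
              using Real.smoothTransition.one_of_one_le (le_of_lt hs)
          rw [h1.deriv_eq]; simp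
      rw [this]; simp
  refine ⟨max M 0, le_max_right _ _, fun δ hδ u => ?_⟩
  unfold ww
  have h1 : HasDerivAt (Gs δ) (deriv Real.smoothTransition ((‖u‖ ^ 2 - δ) / δ) * (1 / δ))
      (‖u‖ ^ 2) := by
    have h2 : HasDerivAt (fun s : ℝ => (s - δ) / δ) (1 / δ) (‖u‖ ^ 2) :=
      ((hasDerivAt_id (‖u‖ ^ 2)).sub_const δ).div_const δ
    have h3 : HasDerivAt Real.smoothTransition
        (deriv Real.smoothTransition ((‖u‖ ^ 2 - δ) / δ)) ((‖u‖ ^ 2 - δ) / δ) :=
      ((Real.smoothTransition.contDiff (n := 1)).differentiable (by simp) _).hasDerivAt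
    exact HasDerivAt.comp (h₂ := Real.smoothTransition) (h := fun s : ℝ => (s - δ) / δ)
      (‖u‖ ^ 2) h3 h2
  rw [h1.deriv, abs_mul, abs_of_pos (by positivity : (0:ℝ) < 1 / δ), mul_one_div]
  gcongr
  exact hb _

theorem sq_le {M δ ρ : ℝ} (hM : ∀ δ > 0, ∀ u : ℂ, |ww δ u| ≤ M / δ) (hδ : 0 < δ) (hρ : 0 < ρ)
    (hδρ : 2 * δ < ρ ^ 2) {ζ : ℂ} {h : ℂ → ℂ} (hh : DifferentiableOn ℂ h (ball ζ ρ))
    (hi : IntegrableOn (fun w => ‖h w‖ ^ 2) (ball ζ ρ)) :
    Real.pi * ‖h ζ‖ ^ 2 ≤ M / δ * ∫ w in ball ζ ρ, ‖h w‖ ^ 2 := by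
  have h1 := mean_rad hδ hρ hδρ (h := fun z => h z ^ 2) (hh.pow 2)
  have h2 : Real.pi * ‖h ζ‖ ^ 2 = ‖(Real.pi : ℂ) * h ζ ^ 2‖ := by
    rw [norm_mul, norm_pow, norm_real, Real.norm_eq_abs, abs_of_pos Real.pi_pos]
  rw [h2, ← h1]
  have h3 : ∀ w : ℂ, w ∉ ball ζ ρ → ‖h w‖ ^ 2 * |ww δ (w - ζ)| = 0 := by
    intro w hw
    rw [mem_ball, dist_eq_norm, not_lt] at hw
    rw [ww_of_gt hδ (by nlinarith [norm_nonneg (w - ζ)])]
    simp
  calc ‖∫ w : ℂ, h (ζ + w) ^ 2 * (ww δ w : ℂ)‖ ≤ ∫ w : ℂ, ‖h (ζ + w) ^ 2 * (ww δ w : ℂ)‖ :=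
        norm_integral_le_integral_norm _
    _ = ∫ w : ℂ, ‖h (ζ + w)‖ ^ 2 * |ww δ (ζ + w - ζ)| := by
        refine integral_congr_ae (Eventually.of_forall fun w => ?_)
        simp only [norm_mul, norm_pow, norm_real, Real.norm_eq_abs, add_sub_cancel_left]
    _ = ∫ w : ℂ, ‖h w‖ ^ 2 * |ww δ (w - ζ)| :=
        integral_add_left_eq_self (fun w => ‖h w‖ ^ 2 * |ww δ (w - ζ)|) ζ
    _ = ∫ w in ball ζ ρ, ‖h w‖ ^ 2 * |ww δ (w - ζ)| :=
        (setIntegral_eq_integral_of_forall_compl_eq_zero h3).symm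
    _ ≤ ∫ w in ball ζ ρ, M / δ * ‖h w‖ ^ 2 := by
        refine integral_mono_of_nonneg (Eventually.of_forall fun w => by positivity)
          (hi.const_mul _) (Eventually.of_forall fun w => ?_)
        simp only
        rw [mul_comm]
        exact mul_le_mul_of_nonneg_right (hM δ hδ _) (by positivity)
    _ = M / δ * ∫ w in ball ζ ρ, ‖h w‖ ^ 2 := integral_const_mul _ _

/-- `z h(z) → 0` at infinity if `h` is holomorphic and `L²` near infinity -/
theorem mul_tendsto_zero {R : ℝ} {h : ℂ → ℂ} (hd : ∀ z, R < ‖z‖ → DifferentiableAt ℂ h z)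
    (hi : IntegrableOn (fun w => ‖h w‖ ^ 2) {z : ℂ | R < ‖z‖}) :
    Tendsto (fun z => z * h z) (cocompact ℂ) (𝓝 0) := by
  obtain ⟨M, hM0, hM⟩ := exists_ww_le
  set T : ℝ → ℝ := fun r => ∫ w in {z : ℂ | r < ‖z‖}, ‖h w‖ ^ 2 with hT
  have hT0 : Tendsto T atTop (𝓝 0) := by
    have h1 := tendsto_setIntegral_of_antitone (μ := (volume : Measure ℂ))
      (f := fun w : ℂ => ‖h w‖ ^ 2) (s := fun r : ℝ => {z : ℂ | r < ‖z‖})
      (fun r => (isOpen_lt continuous_const continuous_norm).measurableSet)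
      (fun a b hab z hz => lt_of_le_of_lt hab hz) ⟨R, hi⟩
    have h2 : (⋂ r : ℝ, {z : ℂ | r < ‖z‖}) = ∅ := by
      ext z
      simp only [mem_iInter, mem_ofPred_eq, mem_empty_iff_false, iff_false, not_forall, not_lt]
      exact ⟨‖z‖, le_rfl⟩
    rw [h2] at h1
    simpa using h1
  have hev : ∀ᶠ z : ℂ in cocompact ℂ, max 1 (2 * R + 1) ≤ ‖z‖ :=
    tendsto_norm_cocompact_atTop.eventually_ge_atTop _
  -- bound
  have hbd : ∀ z : ℂ, max 1 (2 * R + 1) ≤ ‖z‖ →
      ‖z * h z‖ ^ 2 ≤ (16 * M / Real.pi) * T (‖z‖ / 2) := by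
    intro z hz
    have hz1 : 1 ≤ ‖z‖ := (le_max_left _ _).trans hz
    have hz2 : 2 * R + 1 ≤ ‖z‖ := (le_max_right _ _).trans hz
    have hsub : ball z (‖z‖ / 2) ⊆ {w : ℂ | ‖z‖ / 2 < ‖w‖} := by
      intro w hw
      rw [mem_ball, dist_eq_norm] at hw
      have := norm_sub_norm_le z w
      rw [norm_sub_rev] at this
      show ‖z‖ / 2 < ‖w‖
      linarith
    have hsub2 : {w : ℂ | ‖z‖ / 2 < ‖w‖} ⊆ {w : ℂ | R < ‖w‖} := by
      intro w hw
      have : ‖z‖ / 2 < ‖w‖ := hw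
      show R < ‖w‖
      linarith
    have h1 := sq_le hM (δ := ‖z‖ ^ 2 / 16) (ρ := ‖z‖ / 2) (by positivity) (by positivity)
      (by nlinarith) (ζ := z) (h := h)
      (fun w hw => (hd w (hsub2 (hsub hw))).differentiableWithinAt)
      (hi.mono_set (hsub.trans hsub2))
    have h2 : ∫ w in ball z (‖z‖ / 2), ‖h w‖ ^ 2 ≤ T (‖z‖ / 2) :=
      setIntegral_mono_set (hi.mono_set hsub2) (Eventually.of_forall fun w => by positivity)
        (LE.le.eventuallyLE hsub)
    have h3 : Real.pi * ‖h z‖ ^ 2 ≤ M / (‖z‖ ^ 2 / 16) * T (‖z‖ / 2) :=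
      h1.trans (mul_le_mul_of_nonneg_left h2 (by positivity))
    have h4 : ‖z * h z‖ ^ 2 = ‖z‖ ^ 2 / Real.pi * (Real.pi * ‖h z‖ ^ 2) := by
      rw [norm_mul]; field_simp
    rw [h4]
    calc ‖z‖ ^ 2 / Real.pi * (Real.pi * ‖h z‖ ^ 2)
        ≤ ‖z‖ ^ 2 / Real.pi * (M / (‖z‖ ^ 2 / 16) * T (‖z‖ / 2)) :=
          mul_le_mul_of_nonneg_left h3 (by positivity)
      _ = (16 * M / Real.pi) * T (‖z‖ / 2) := by field_simp
  have hlim : Tendsto (fun z : ℂ => (16 * M / Real.pi) * T (‖z‖ / 2)) (cocompact ℂ) (𝓝 0) := by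
    have h1 : Tendsto (fun z : ℂ => ‖z‖ / 2) (cocompact ℂ) atTop :=
      tendsto_norm_cocompact_atTop.atTop_div_const (by norm_num)
    simpa using (hT0.comp h1).const_mul (16 * M / Real.pi)
  have hsq : Tendsto (fun z : ℂ => ‖z * h z‖ ^ 2) (cocompact ℂ) (𝓝 0) :=
    squeeze_zero' (Eventually.of_forall fun z => by positivity)
      (hev.mono fun z hz => hbd z hz) hlim
  rw [tendsto_zero_iff_norm_tendsto_zero]
  have h5 := (Real.continuous_sqrt.tendsto 0).comp hsq
  simp only [Real.sqrt_zero] at h5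
  refine h5.congr fun z => ?_
  simp only [Function.comp_apply]
  exact Real.sqrt_sq (norm_nonneg _)

/-- removable singularity at infinity: if `k → a` at infinity then `k = a + O(1/z)` -/
theorem sub_le_of_tendsto {R : ℝ} {k : ℂ → ℂ} {a : ℂ} (hd : ∀ z, R < ‖z‖ → DifferentiableAt ℂ k z)
    (hl : Tendsto k (cocompact ℂ) (𝓝 a)) : ∃ C R₁ : ℝ, 0 ≤ C ∧ 0 < R₁ ∧
      ∀ z, R₁ < ‖z‖ → ‖k z - a‖ ≤ C / ‖z‖ := by
  set g : ℂ → ℂ := fun ζ => k ζ⁻¹ with hg
  have hfar : ∀ᶠ ζ : ℂ in 𝓝[≠] 0, R < ‖ζ⁻¹‖ :=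
    tendsto_inv_cocompact.eventually (tendsto_norm_cocompact_atTop.eventually_gt_atTop R)
  have hgd : ∀ᶠ ζ in 𝓝[≠] (0:ℂ), DifferentiableAt ℂ g ζ := by
    filter_upwards [hfar, self_mem_nhdsWithin] with ζ hζ hζ0
    exact DifferentiableAt.comp (g := k) ζ (hd _ hζ) (differentiableAt_inv hζ0)
  have hgl : Tendsto g (𝓝[≠] 0) (𝓝 a) := hl.comp tendsto_inv_cocompact
  have hda : DifferentiableAt ℂ (Function.update g 0 a) 0 := by
    have h1 : ∀ᶠ ζ in 𝓝 (0:ℂ), ζ ≠ 0 → DifferentiableAt ℂ g ζ := by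
      rwa [eventually_nhdsWithin_iff] at hgd
    have h2 : ContinuousAt (Function.update g 0 a) 0 := continuousAt_update_same.2 hgl
    have h3 : ∀ᶠ ζ in 𝓝[≠] (0:ℂ), DifferentiableAt ℂ (Function.update g 0 a) ζ := by
      filter_upwards [hgd, self_mem_nhdsWithin] with ζ hζ hζ0
      have h4 : Function.update g 0 a =ᶠ[𝓝 ζ] g := by
        filter_upwards [isOpen_compl_singleton.mem_nhds hζ0] with y hy
        exact Function.update_of_ne hy _ _
      exact h4.differentiableAt_iff.2 hζ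
    exact (analyticAt_of_differentiable_on_punctured_nhds_of_continuousAt h3 h2).differentiableAt
  have hO := hda.isBigO_sub
  obtain ⟨C, hC⟩ := hO.bound
  simp only [Function.update_self, sub_zero] at hC
  obtain ⟨ε, hε, hball⟩ := Metric.eventually_nhds_iff.1 hC
  refine ⟨|C|, ε⁻¹, abs_nonneg _, by positivity, fun z hz => ?_⟩
  have hz0 : 0 < ‖z‖ := lt_trans (by positivity) hz
  have hzne : z ≠ 0 := norm_pos_iff.1 hz0
  have h1 : dist z⁻¹ 0 < ε := by
    rw [dist_zero_right, norm_inv]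
    exact inv_lt_of_inv_lt₀ hε hz
  have h2 := hball h1
  rw [Function.update_of_ne (inv_ne_zero hzne)] at h2
  simp only [hg, inv_inv, norm_inv] at h2
  calc ‖k z - a‖ ≤ C * ‖z‖⁻¹ := h2
    _ ≤ |C| * ‖z‖⁻¹ := mul_le_mul_of_nonneg_right (le_abs_self C) (by positivity)
    _ = |C| / ‖z‖ := by rw [div_eq_mul_inv]

/-- (INF2) -/
theorem sq_decay {R : ℝ} {h : ℂ → ℂ} (hd : ∀ z, R < ‖z‖ → DifferentiableAt ℂ h z)
    (hi : IntegrableOn (fun w => ‖h w‖ ^ 2) {z : ℂ | R < ‖z‖}) :
    ∃ C R₁ : ℝ, 0 ≤ C ∧ 0 < R₁ ∧ ∀ z, R₁ < ‖z‖ → ‖h z‖ ≤ C / ‖z‖ ^ 2 := by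
  obtain ⟨C, R₁, hC, hR₁, hb⟩ := sub_le_of_tendsto (k := fun z => z * h z) (R := R)
    (fun z hz => differentiableAt_id.mul (hd z hz)) (mul_tendsto_zero hd hi)
  refine ⟨C, R₁, hC, hR₁, fun z hz => ?_⟩
  have hz0 : 0 < ‖z‖ := lt_trans hR₁ hz
  have h1 := hb z hz
  rw [sub_zero, norm_mul] at h1
  rw [le_div_iff₀ (by positivity)]
  rw [le_div_iff₀ hz0] at h1
  calc ‖h z‖ * ‖z‖ ^ 2 = ‖z‖ * ‖h z‖ * ‖z‖ := by ring
    _ ≤ C := h1

theorem isPreconnected_far {R : ℝ} (hR : 0 ≤ R) : IsPreconnected {z : ℂ | R < ‖z‖} := by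
  have h1 : {z : ℂ | R < ‖z‖} = (fun p : ℝ × ℝ => (p.1 : ℂ) * exp (p.2 * I)) ''
      (Ioi R ×ˢ univ) := by
    ext z
    constructor
    · intro hz
      exact ⟨(‖z‖, arg z), ⟨hz, trivial⟩, norm_mul_exp_arg_mul_I z⟩
    · rintro ⟨⟨r, θ⟩, ⟨hr, -⟩, rfl⟩
      have hr' : R < r := hr
      show R < ‖(r : ℂ) * exp (θ * I)‖
      rw [norm_mul, Complex.norm_exp_ofReal_mul_I, mul_one, Complex.norm_real,
        Real.norm_of_nonneg (hR.trans hr'.le)]
      exact hr'
  rw [h1]
  refine IsPreconnected.image ?_ _ (by fun_prop)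
  exact isPreconnected_Ioi.prod isPreconnected_univ

/-- a primitive of `O(1/z²)` has a limit at infinity -/
theorem prim_tendsto {R : ℝ} {h p : ℂ → ℂ} (hd : ∀ z, R < ‖z‖ → DifferentiableAt ℂ h z)
    {C : ℝ} (hb : ∀ z, R < ‖z‖ → ‖h z‖ ≤ C / ‖z‖ ^ 2) (hp : ∀ z, R < ‖z‖ → HasDerivAt p (h z) z) :
    ∃ c, Tendsto p (cocompact ℂ) (𝓝 c) := by
  set k : ℂ → ℂ := fun ζ => -((ζ ^ 2)⁻¹ * h ζ⁻¹) with hk
  have hfar : ∀ᶠ ζ : ℂ in 𝓝[≠] 0, R < ‖ζ⁻¹‖ :=
    tendsto_inv_cocompact.eventually (tendsto_norm_cocompact_atTop.eventually_gt_atTop R)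
  have hkd : ∀ᶠ ζ in 𝓝[≠] (0:ℂ), DifferentiableAt ℂ k ζ := by
    filter_upwards [hfar, self_mem_nhdsWithin] with ζ hζ hζ0
    have h1 : DifferentiableAt ℂ (fun ζ : ℂ => h ζ⁻¹) ζ :=
      DifferentiableAt.comp (g := h) ζ (hd _ hζ) (differentiableAt_inv hζ0)
    have h2 : DifferentiableAt ℂ (fun ζ : ℂ => (ζ ^ 2)⁻¹) ζ :=
      (differentiableAt_id.pow 2).inv (pow_ne_zero 2 hζ0)
    exact (h2.mul h1).neg
  have hkb : IsBoundedUnder (· ≤ ·) (𝓝[≠] (0:ℂ)) fun z => ‖k z - k 0‖ := by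
    refine ⟨C + ‖k 0‖, eventually_map.2 ?_⟩
    filter_upwards [hfar, self_mem_nhdsWithin] with ζ hζ hζ0
    refine norm_sub_le_of_le ?_ le_rfl
    have h1 := hb _ hζ
    have h2 : 0 < ‖ζ‖ := norm_pos_iff.2 hζ0
    simp only [hk, norm_neg, norm_mul, norm_inv, norm_pow]
    rw [norm_inv] at h1
    calc (‖ζ‖ ^ 2)⁻¹ * ‖h ζ⁻¹‖ ≤ (‖ζ‖ ^ 2)⁻¹ * (C / (‖ζ‖⁻¹) ^ 2) :=
          mul_le_mul_of_nonneg_left h1 (by positivity)
      _ = C := by field_simp
  obtain ⟨s, hs, hsd⟩ : ∃ s ∈ 𝓝 (0:ℂ), ∀ ζ ∈ s, ζ ≠ 0 → DifferentiableAt ℂ k ζ ∧ R < ‖ζ⁻¹‖ := by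
    have := hkd.and hfar
    rw [eventually_nhdsWithin_iff] at this
    exact ⟨_, this, fun ζ hζ hζ0 => hζ hζ0⟩
  set K : ℂ → ℂ := Function.update k 0 (limUnder (𝓝[≠] (0:ℂ)) k) with hK
  have hKd : DifferentiableOn ℂ K s := by
    rw [hK]
    exact differentiableOn_update_limUnder_of_isLittleO hs
      (fun ζ hζ => (hsd ζ hζ.1 hζ.2).1.differentiableWithinAt) hkb.isLittleO_sub_self_inv
  obtain ⟨r, hr, hrs⟩ := Metric.mem_nhds_iff.1 hs
  obtain ⟨Q, hQ⟩ := (hKd.mono hrs).isExactOn_ball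
  -- the far region
  set R' : ℝ := max (max R 0) r⁻¹ with hR'
  have hR'0 : 0 ≤ R' := (le_max_right _ _).trans (le_max_left _ _)
  have hmem : ∀ z : ℂ, R' < ‖z‖ → R < ‖z‖ ∧ z ≠ 0 ∧ z⁻¹ ∈ ball (0:ℂ) r := by
    intro z hz
    have h1 : R < ‖z‖ := lt_of_le_of_lt ((le_max_left _ _).trans (le_max_left _ _)) hz
    have h2 : r⁻¹ < ‖z‖ := lt_of_le_of_lt (le_max_right _ _) hz
    have h3 : z ≠ 0 := by
      rintro rfl
      rw [norm_zero] at h2
      exact absurd h2 (not_lt.2 (by positivity))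
    refine ⟨h1, h3, ?_⟩
    rw [mem_ball_zero_iff, norm_inv]
    exact inv_lt_of_inv_lt₀ hr h2
  have hder : ∀ z : ℂ, R' < ‖z‖ → HasDerivAt (fun z => p z - Q z⁻¹) 0 z := by
    intro z hz
    obtain ⟨h1, h2, h3⟩ := hmem z hz
    have h4 := hp z h1
    have h5 : HasDerivAt (fun z : ℂ => z⁻¹) (-(z ^ 2)⁻¹) z := hasDerivAt_inv h2
    have h6 : HasDerivAt (fun z : ℂ => Q z⁻¹) (K z⁻¹ * -(z ^ 2)⁻¹) z :=
      HasDerivAt.comp (h₂ := Q) z (hQ _ h3) h5
    refine (h4.sub h6).congr_deriv ?_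
    rw [hK, Function.update_of_ne (inv_ne_zero h2)]
    simp only [hk, inv_inv, inv_pow]
    field_simp
    ring
  obtain ⟨z1, hz1⟩ : ∃ z1 : ℂ, R' < ‖z1‖ := ⟨((R' + 1 : ℝ) : ℂ), by
    rw [norm_real, Real.norm_of_nonneg (by linarith)]; linarith⟩
  have hopen : IsOpen {z : ℂ | R' < ‖z‖} := isOpen_lt continuous_const continuous_norm
  have hconst : ∀ z : ℂ, R' < ‖z‖ → p z - Q z⁻¹ = p z1 - Q z1⁻¹ := by
    intro z hz
    refine hopen.is_const_of_deriv_eq_zero (f := fun z => p z - Q z⁻¹) (isPreconnected_far hR'0)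
      (fun w hw => (hder w hw).differentiableAt.differentiableWithinAt)
      (fun w hw => (hder w hw).deriv) hz hz1
  have hQl : Tendsto (fun z : ℂ => Q z⁻¹) (cocompact ℂ) (𝓝 (Q 0)) := by
    have h1 : ContinuousAt Q 0 := (hQ 0 (mem_ball_self hr)).continuousAt
    exact h1.tendsto.comp (tendsto_inv_nhdsNE.mono_right nhdsWithin_le_nhds)
  refine ⟨Q 0 + (p z1 - Q z1⁻¹), ?_⟩
  refine (hQl.add tendsto_const_nhds).congr' ?_
  filter_upwards [tendsto_norm_cocompact_atTop.eventually_gt_atTop R'] with z hz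
  rw [← hconst z hz]; ring


end

end Crest.Agent.R105.Prim591
end

-- ▼ part R105/Cnv4_755
section

/-!
# Row 105, S0138, CONV 4 (helper755): the limit is the real part of a holomorphic function

* `lp_lim`, `lim_int` : limits in `L²`
* `CSeq.exists_hol` : if `∫_U dot (u n) ψ → 0` for all test functions of 508 then `u n - u n z0`
  converges locally uniformly on `U` to `Re F`, `F` holomorphic on `U`, with the gradients in `L²(U)`
* `CSeq.at_inf` : `F z - z → c` at infinity if `u n - re` has finite energy near infinity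
-/

set_option autoImplicit false

open MeasureTheory Set Filter Topology Metric Complex
open scoped NNReal ENNReal Real ComplexConjugate ContDiff

namespace Crest.Agent.R105.Cnv_755

open Crest.Agent.R105.Bd_775 (en en_eq)
open Crest.Agent.R105.Dir_508 Crest.Agent.R165.Cl1x722 Crest.Agent.R165.Cl3x722
  Crest.Agent.R165.Cl4x722

theorem eLp2 (f : ℂ → ℂ) (μ : Measure ℂ) : eLpNorm f 2 μ ^ 2 = ∫⁻ z, ‖f z‖ₑ ^ 2 ∂μ := by
  have h := eLpNorm_nnreal_pow_eq_lintegral (f := f) (μ := μ) (p := 2) two_ne_zero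
  simp only [NNReal.coe_ofNat, ENNReal.rpow_ofNat] at h
  rw [← h]
  norm_num

theorem lp_lim {μ : Measure ℂ} {g : ℕ → ℂ → ℂ} (hg : ∀ n, MemLp (g n) 2 μ)
    (hc : ∀ ε : ℝ, 0 < ε → ∃ N, ∀ m, N ≤ m → ∀ n, N ≤ n →
      ∫⁻ z, ‖g m z - g n z‖ₑ ^ 2 ∂μ ≤ ENNReal.ofReal ε) :
    ∃ H, MemLp H 2 μ ∧ Tendsto (fun n => ∫⁻ z, ‖g n z - H z‖ₑ ^ 2 ∂μ) atTop (𝓝 0) := by
  have hcau : CauchySeq (fun n => (hg n).toLp (g n)) := by
    rw [EMetric.cauchySeq_iff]
    intro ε hε
    rcases eq_or_ne ε ⊤ with rfl | hεt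
    · exact ⟨0, fun m _ n _ => edist_lt_top _ _⟩
    · have hr : 0 < (ε.toReal / 2) ^ 2 := by
        have := ENNReal.toReal_pos hε.ne' hεt
        positivity
      obtain ⟨N, hN⟩ := hc _ hr
      refine ⟨N, fun m hm n hn => ?_⟩
      rw [Lp.edist_toLp_toLp]
      have h1 := hN m hm n hn
      have h2 : eLpNorm (g m - g n) 2 μ ^ 2 ≤ ENNReal.ofReal (ε.toReal / 2) ^ 2 := by
        rw [eLp2, ← ENNReal.ofReal_pow (by positivity)]
        exact h1
      have h3 : eLpNorm (g m - g n) 2 μ ≤ ENNReal.ofReal (ε.toReal / 2) :=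
        (ENNReal.pow_le_pow_left_iff two_ne_zero).1 h2
      refine h3.trans_lt ?_
      conv_rhs => rw [← ENNReal.ofReal_toReal hεt]
      have := ENNReal.toReal_pos hε.ne' hεt
      exact (ENNReal.ofReal_lt_ofReal_iff this).2 (by linarith)
  obtain ⟨H, hH⟩ := cauchySeq_tendsto_of_complete hcau
  refine ⟨H, Lp.memLp H, ?_⟩
  have h1 := (Lp.tendsto_Lp_iff_tendsto_eLpNorm' _ _).1 hH
  have h2 : Tendsto (fun n => eLpNorm (g n - ⇑H) 2 μ) atTop (𝓝 0) := by
    refine h1.congr fun n => eLpNorm_congr_ae ?_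
    exact ((hg n).coeFn_toLp).sub EventuallyEq.rfl
  have h3 : Tendsto (fun n => eLpNorm (g n - ⇑H) 2 μ ^ 2) atTop (𝓝 (0 ^ 2)) :=
    ((ENNReal.continuous_pow 2).tendsto 0).comp h2
  simp only [eLp2] at h3
  simpa using h3

theorem lim_int {μ : Measure ℂ} {g : ℕ → ℂ → ℂ} {H β : ℂ → ℂ} (hg : ∀ n, MemLp (g n) 2 μ)
    (hH : MemLp H 2 μ) (ht : Tendsto (fun n => ∫⁻ z, ‖g n z - H z‖ₑ ^ 2 ∂μ) atTop (𝓝 0))
    (hβ : MemLp β 2 μ) :
    Tendsto (fun n => ∫ z, g n z * β z ∂μ) atTop (𝓝 (∫ z, H z * β z ∂μ)) := by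
  refine tendsto_integral_of_L1 _ (hH.integrable_mul hβ).aestronglyMeasurable
    (Eventually.of_forall fun n => (hg n).integrable_mul hβ) ?_
  have hb : ∀ n, ∫⁻ z, ‖g n z * β z - H z * β z‖ₑ ∂μ ≤
      (∫⁻ z, ‖g n z - H z‖ₑ ^ 2 ∂μ) ^ (1 / (2:ℝ)) * (∫⁻ z, ‖β z‖ₑ ^ 2 ∂μ) ^ (1 / (2:ℝ)) := by
    intro n
    have h := ENNReal.lintegral_mul_le_Lp_mul_Lq μ Real.HolderConjugate.two_two
      (f := fun z => ‖g n z - H z‖ₑ) (g := fun z => ‖β z‖ₑ)
      (((hg n).sub hH).1.enorm) hβ.1.enorm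
    simp only [Pi.mul_apply, ENNReal.rpow_two] at h
    refine le_trans (le_of_eq ?_) h
    refine lintegral_congr fun z => ?_
    rw [← enorm_mul, sub_mul]
  have hfin : (∫⁻ z, ‖β z‖ₑ ^ 2 ∂μ) ^ (1 / (2:ℝ)) ≠ ⊤ := by
    refine ENNReal.rpow_ne_top_of_nonneg (by norm_num) ?_
    rw [← eLp2]
    exact ENNReal.pow_ne_top hβ.2.ne
  have h0 : Tendsto (fun n => (∫⁻ z, ‖g n z - H z‖ₑ ^ 2 ∂μ) ^ (1 / (2:ℝ)) *
      (∫⁻ z, ‖β z‖ₑ ^ 2 ∂μ) ^ (1 / (2:ℝ))) atTop (𝓝 0) := by
    have h1 : Tendsto (fun n => (∫⁻ z, ‖g n z - H z‖ₑ ^ 2 ∂μ) ^ (1 / (2:ℝ))) atTop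
        (𝓝 ((0:ℝ≥0∞) ^ (1 / (2:ℝ)))) :=
      ((ENNReal.continuous_rpow_const).tendsto 0).comp ht
    rw [ENNReal.zero_rpow_of_pos (by norm_num)] at h1
    have h2 := ENNReal.Tendsto.mul_const h1 (Or.inr hfin)
    rwa [zero_mul] at h2
  exact tendsto_of_tendsto_of_tendsto_of_le_of_le tendsto_const_nhds h0 (fun _ => zero_le) hb

theorem enorm_gr_sq (u : ℂ → ℝ) (z : ℂ) : ‖gr u z‖ₑ ^ 2 = ENNReal.ofReal (en u z) := by
  rw [← norm_gr_sq, ENNReal.ofReal_pow (norm_nonneg _), ofReal_norm]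

theorem gr_sub {u v : ℂ → ℝ} {z : ℂ} (hu : DifferentiableAt ℝ u z) (hv : DifferentiableAt ℝ v z) :
    gr (fun z => u z - v z) z = gr u z - gr v z := by
  unfold gr
  rw [fderiv_fun_sub hu hv]
  simp only [_root_.sub_apply]
  push_cast
  ring

theorem gr_sub_const (u : ℂ → ℝ) (c : ℝ) (z : ℂ) : gr (fun z => u z - c) z = gr u z := by
  unfold gr
  rw [fderiv_sub_const]

variable {U : Set ℂ} {u : ℕ → ℂ → ℝ}

/-- **the limit is the real part of a holomorphic function** -/
theorem CSeq.exists_hol (hU : IsOpen U) (hUc : IsPreconnected U) (h : CSeq U u) {z0 : ℂ}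
    (hz0 : z0 ∈ U)
    (hEL : ∀ ψ : ℂ → ℝ, Tst U ψ → Tendsto (fun n => ∫ z in U, Bd_775.dot (u n) ψ z) atTop (𝓝 0)) :
    ∃ (F : ℂ → ℂ) (N : ℕ) (H : ℂ → ℂ), DifferentiableOn ℂ F U ∧
      TendstoLocallyUniformlyOn (fun n z => u n z - u n z0) (fun z => (F z).re) atTop U ∧
      Tendsto (fun n => ∫⁻ z in U, ENNReal.ofReal (en (fun z => u n z - (F z).re) z)) atTop (𝓝 0) ∧
      MemLp H 2 (volume.restrict U) ∧ (∀ᵐ z, z ∈ U → conj (deriv F z) = H z + gr (u N) z) := by
  obtain ⟨x, hxc, hx⟩ := h.exists_limit hU hUc hz0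
  obtain ⟨N, hN⟩ := h.cau 1 one_pos
  set μ : Measure ℂ := volume.restrict U with hμ
  have hd : ∀ n, ∀ᵐ z ∂μ, DifferentiableAt ℝ (u n) z := fun n => Bd_775.ae_diff hU (h.lip n)
  set g : ℕ → ℂ → ℂ := fun n => gr (fun z => u (N + n) z - u N z) with hg
  have hgm : ∀ n, MemLp (g n) 2 μ := by
    intro n
    refine ⟨(measurable_gr _).aestronglyMeasurable, ?_⟩
    have h1 : eLpNorm (g n) 2 μ ^ 2 ≤ ENNReal.ofReal 1 := by
      rw [eLp2]
      simp only [hg, enorm_gr_sq]
      exact hN (N + n) (Nat.le_add_right _ _) N le_rfl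
    by_contra h2
    rw [not_lt, top_le_iff] at h2
    rw [h2] at h1
    simp at h1
  have hgd : ∀ n, ∀ᵐ z ∂μ, g n z = gr (u (N + n)) z - gr (u N) z := by
    intro n
    filter_upwards [hd (N + n), hd N] with z h1 h2
    exact gr_sub h1 h2
  obtain ⟨H, hH, hHl⟩ := lp_lim hgm (by
    intro ε hε
    obtain ⟨N1, h1⟩ := h.cau ε hε
    refine ⟨N1, fun m hm n hn => ?_⟩
    refine le_trans (le_of_eq ?_) (h1 (N + m) (hm.trans (Nat.le_add_left _ _)) (N + n)
      (hn.trans (Nat.le_add_left _ _)))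
    refine lintegral_congr_ae ?_
    filter_upwards [hgd m, hgd n, hd (N + m), hd (N + n)] with z e1 e2 d1 d2
    rw [e1, e2, ← enorm_gr_sq, gr_sub d1 d2]
    congr 2
    ring)
  set G : ℂ → ℂ := fun z => H z + gr (u N) z with hG
  have hGl : LocallyIntegrableOn G U := (locInt_of_memLp hU hH).add (locInt_gr hU (h.lip N))
  have hxl : LocallyIntegrableOn x U := hxc.locallyIntegrableOn hU.measurableSet
  -- test functions in `L²`
  have hcpt : ∀ β : ℂ → ℂ, Continuous β → HasCompactSupport β → MemLp β 2 μ := fun β h1 h2 =>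
    (h1.memLp_of_hasCompactSupport h2).restrict U
  have hsplit : ∀ (n : ℕ) (β : ℂ → ℂ), Continuous β → HasCompactSupport β → tsupport β ⊆ U →
      ∫ z in U, gr (u (N + n)) z * β z =
        (∫ z in U, g n z * β z) + ∫ z in U, gr (u N) z * β z := by
    intro n β h1 h2 h3
    have i1 : Integrable (fun z => g n z * β z) μ := (hgm n).integrable_mul (hcpt β h1 h2)
    have i2 : Integrable (fun z => gr (u N) z * β z) μ := by
      have := integrable_mul_test (locInt_gr hU (h.lip N)) h1 h2 h3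
      exact this.restrict
    rw [← integral_add i1 i2]
    refine integral_congr_ae ?_
    filter_upwards [hgd n] with z hz
    rw [hz]
    ring
  have hsplitG : ∀ β : ℂ → ℂ, Continuous β → HasCompactSupport β → tsupport β ⊆ U →
      ∫ z in U, G z * β z = (∫ z in U, H z * β z) + ∫ z in U, gr (u N) z * β z := by
    intro β h1 h2 h3
    have i1 : Integrable (fun z => H z * β z) μ := hH.integrable_mul (hcpt β h1 h2)
    have i2 : Integrable (fun z => gr (u N) z * β z) μ := by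
      have := integrable_mul_test (locInt_gr hU (h.lip N)) h1 h2 h3
      exact this.restrict
    rw [← integral_add i1 i2]
    refine integral_congr_ae (ae_of_all _ fun z => ?_)
    simp only [hG]
    ring
  have hlimG : ∀ β : ℂ → ℂ, Continuous β → HasCompactSupport β → tsupport β ⊆ U →
      Tendsto (fun n => ∫ z in U, gr (u (N + n)) z * β z) atTop (𝓝 (∫ z in U, G z * β z)) := by
    intro β h1 h2 h3
    rw [hsplitG β h1 h2 h3]
    refine ((lim_int hgm hH hHl (hcpt β h1 h2)).add_const _).congr fun n => ?_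
    rw [hsplit n β h1 h2 h3]
  have hset : ∀ (Y β : ℂ → ℂ), tsupport β ⊆ U → ∫ z in U, Y z * β z = ∫ z, Y z * β z := by
    intro Y β h3
    refine setIntegral_eq_integral_of_forall_compl_eq_zero fun z hz => ?_
    rw [image_eq_zero_of_notMem_tsupport fun h' => hz (h3 h'), mul_zero]
  -- the shifted functions
  have hv : ∀ n, LocallyLipschitzOn U (fun z => u n z - u n z0) := fun n =>
    Bd_775.ll_sub (h.lip n) (fun z _ => ⟨0, univ, univ_mem, by
      intro a _ b _; simp⟩)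
  -- weak gradient
  have hw : ∀ ψ : ℂ → ℝ, ContDiff ℝ ∞ ψ → HasCompactSupport ψ → tsupport ψ ⊆ U →
      ∫ z, (x z : ℂ) * gr ψ z = - ∫ z, (ψ z : ℂ) * G z := by
    intro ψ h1 h2 h3
    have hgc : Continuous (gr ψ) := continuous_gr (h1.of_le (by exact_mod_cast le_top))
    have hT : Tst U ψ := Tst.of_supp h1 h2 h3
    have hgs : tsupport (gr ψ) ⊆ U := (tsupport_gr ψ).trans hT.sub
    have hgcpt : HasCompactSupport (gr ψ) := hT.cpt_gr
    have hψc : Continuous (fun z => (ψ z : ℂ)) := continuous_ofReal.comp h1.continuous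
    have hψs1 : tsupport (fun z => (ψ z : ℂ)) ⊆ tsupport ψ := closure_mono fun z hz => by
      intro h'
      exact hz (by simp [h'])
    have hψs : tsupport (fun z => (ψ z : ℂ)) ⊆ U := hψs1.trans h3
    have hψcpt : HasCompactSupport (fun z => (ψ z : ℂ)) :=
      h2.of_isClosed_subset (isClosed_tsupport _) hψs1
    -- left side
    have hL : Tendsto (fun n => ∫ z, ((u n z - u n z0 : ℝ) : ℂ) * gr ψ z) atTop
        (𝓝 (∫ z, (x z : ℂ) * gr ψ z)) := by
      have hun := (tendstoLocallyUniformlyOn_iff_forall_isCompact hU).1 hx _ hgs hgcpt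
      rw [Metric.tendstoUniformlyOn_iff] at hun
      have hK : IsCompact (tsupport (gr ψ)) := hgcpt
      obtain ⟨M, hM⟩ := hK.exists_bound_of_continuousOn (hxc.mono hgs)
      refine tendsto_integral_filter_of_dominated_convergence (fun z => (M + 1) * ‖gr ψ z‖) ?_ ?_
        ?_ ?_
      · refine Eventually.of_forall fun n => ?_
        have := integrable_mul_test
          (((continuous_ofReal.comp_continuousOn (hv n).continuousOn).locallyIntegrableOn
            hU.measurableSet : LocallyIntegrableOn (fun z => ((u n z - u n z0 : ℝ) : ℂ)) U))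
          hgc hgcpt hgs
        exact this.aestronglyMeasurable
      · filter_upwards [hun 1 one_pos] with n hn
        refine ae_of_all _ fun z => ?_
        by_cases hz : z ∈ tsupport (gr ψ)
        · rw [norm_mul, Complex.norm_real]
          refine mul_le_mul_of_nonneg_right ?_ (norm_nonneg _)
          have e1 := hn z hz
          have e2 := hM z hz
          rw [Real.dist_eq, abs_lt] at e1
          rw [Real.norm_eq_abs, abs_le] at e2
          rw [Real.norm_eq_abs, abs_le]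
          constructor <;> linarith [e1.1, e1.2, e2.1, e2.2]
        · rw [image_eq_zero_of_notMem_tsupport hz]
          simp
      · exact (hgc.norm.integrable_of_hasCompactSupport hgcpt.norm).const_mul _
      · refine ae_of_all _ fun z => ?_
        by_cases hz : z ∈ tsupport (gr ψ)
        · have := hx.tendsto_at (hgs hz)
          exact ((continuous_ofReal.tendsto _).comp this).mul_const _
        · rw [image_eq_zero_of_notMem_tsupport hz]
          simp
    have hL' := hL.comp (tendsto_add_atTop_nat N)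
    -- right side
    have hR := (hlimG _ hψc hψcpt hψs).neg
    have heq : ∀ n, ∫ z, ((u (n + N) z - u (n + N) z0 : ℝ) : ℂ) * gr ψ z =
        - ∫ z in U, gr (u (N + n)) z * (ψ z : ℂ) := by
      intro n
      rw [weak_gr hU (hv (n + N)) h1 h2 h3, hset _ _ hψs, add_comm N n]
      congr 1
      refine integral_congr_ae (ae_of_all _ fun z => ?_)
      simp only [gr_sub_const]
      ring
    have h5 : Tendsto (fun n => - ∫ z in U, gr (u (N + n)) z * (ψ z : ℂ)) atTop
        (𝓝 (∫ z, (x z : ℂ) * gr ψ z)) := hL'.congr fun n => heq n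
    rw [tendsto_nhds_unique h5 hR, hset _ _ hψs]
    congr 1
    refine integral_congr_ae (ae_of_all _ fun z => ?_)
    simp only
    ring
  -- orthogonality
  have hT : ∀ ψ : ℂ → ℝ, Tst U ψ → ∫ z, conj (G z) * gr ψ z = 0 := by
    intro ψ hψ
    have hgc : Continuous (gr ψ) := continuous_gr (hψ.sm.of_le (by exact_mod_cast le_top))
    have hgs : tsupport (gr ψ) ⊆ U := (tsupport_gr ψ).trans hψ.sub
    set β : ℂ → ℂ := fun z => conj (gr ψ z) with hβ
    have hβc : Continuous β := continuous_conj.comp hgc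
    have hβs1 : tsupport β ⊆ tsupport (gr ψ) := closure_mono fun z hz => by
      intro h'
      exact hz (by simp [hβ, h'])
    have hβs : tsupport β ⊆ U := hβs1.trans hgs
    have hβcpt : HasCompactSupport β :=
      hψ.cpt_gr.of_isClosed_subset (isClosed_tsupport _) hβs1
    have h1 := hlimG β hβc hβcpt hβs
    have h2 : ∀ n, ∫ z in U, gr (u (N + n)) z * β z =
        conj (((∫ z in U, Bd_775.dot (u (N + n)) ψ z : ℝ) : ℂ)) := by
      intro n
      have hcl : LocallyIntegrableOn (fun z => conj (gr (u (N + n)) z)) U := by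
        intro z hz
        obtain ⟨s, hs, hi⟩ := locInt_gr hU (h.lip (N + n)) z hz
        exact ⟨s, hs,
          (Complex.conjLIE.toContinuousLinearEquiv.toContinuousLinearMap.integrable_comp hi : _)⟩
      have h3 := int_conj_gr (hψ.int_gr hcl)
      rw [wdg_tst hU (h.lip (N + n)) hψ, ofReal_zero, zero_mul, add_zero] at h3
      have h4 : ∫ z in U, Bd_775.dot (u (N + n)) ψ z = ∫ z, Tra_937.dot (u (N + n)) ψ z := by
        refine setIntegral_eq_integral_of_forall_compl_eq_zero fun z hz => ?_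
        exact dot_of_notMem fun h' => hz (hψ.sub h')
      rw [h4, ← h3, ← integral_conj, hset _ _ hβs]
      refine integral_congr_ae (ae_of_all _ fun z => ?_)
      simp [hβ]
    have h3 : Tendsto (fun n => ∫ z in U, gr (u (N + n)) z * β z) atTop (𝓝 0) := by
      have h4 := (hEL ψ hψ).comp (tendsto_add_atTop_nat N)
      have h5 : Tendsto (fun n : ℕ => conj (((∫ z in U, Bd_775.dot (u (n + N)) ψ z : ℝ) : ℂ)))
          atTop (𝓝 (conj ((0 : ℝ) : ℂ))) :=
        (continuous_conj.tendsto _).comp ((continuous_ofReal.tendsto _).comp h4)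
      rw [ofReal_zero, map_zero] at h5
      refine h5.congr fun n => ?_
      rw [h2 n, add_comm]
    have h4 : ∫ z, G z * β z = 0 := by
      rw [← hset _ _ hβs]
      exact tendsto_nhds_unique h1 h3
    have h5 := congrArg conj h4
    rw [← integral_conj, map_zero] at h5
    rw [← h5]
    refine integral_congr_ae (ae_of_all _ fun z => ?_)
    simp [hβ]
  obtain ⟨F, hF, hFx, hFG⟩ := completion_weak hU hxl hGl hw hT
  have hre : EqOn (fun z => (F z).re) x U := by
    refine Measure.eqOn_open_of_ae_eq (μ := (volume : Measure ℂ)) ?_ hU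
      (continuous_re.comp_continuousOn hF.continuousOn) hxc
    rw [Filter.EventuallyEq, ae_restrict_iff' hU.measurableSet]
    exact hFx
  refine ⟨F, N, H, hF, ?_, ?_, hH, ?_⟩
  · exact hx.congr_right fun z hz => (hre hz).symm
  · have h1 : ∀ n, ∫⁻ z in U, ENNReal.ofReal (en (fun z => u (N + n) z - (F z).re) z) =
        ∫⁻ z, ‖g n z - H z‖ₑ ^ 2 ∂μ := by
      intro n
      refine lintegral_congr_ae ?_
      filter_upwards [hd (N + n), hgd n, (ae_restrict_iff' hU.measurableSet).2 hFG,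
        ae_restrict_mem hU.measurableSet] with z d1 e1 e2 hz
      have hFd : DifferentiableAt ℂ F z := (hF z hz).differentiableAt (hU.mem_nhds hz)
      have d3 : DifferentiableAt ℝ (fun z => (F z).re) z :=
        reCLM.differentiableAt.comp z (hFd.restrictScalars ℝ)
      rw [← enorm_gr_sq, gr_sub d1 d3, gr_re_hol hFd, ← e2, e1]
      congr 2
      simp only [hG]
      ring
    have h2 : Tendsto (fun n => ∫⁻ z in U,
        ENNReal.ofReal (en (fun z => u (N + n) z - (F z).re) z)) atTop (𝓝 0) :=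
      hHl.congr fun n => (h1 n).symm
    have h3 : Tendsto (fun n => ∫⁻ z in U,
        ENNReal.ofReal (en (fun z => u (n + N) z - (F z).re) z)) atTop (𝓝 0) := by
      refine h2.congr fun n => ?_
      rw [add_comm]
    exact (tendsto_add_atTop_iff_nat N).1 h3
  · filter_upwards [hFG] with z hz hzU
    rw [← hz hzU]

/-- behaviour at infinity -/
theorem at_inf {F H : ℂ → ℂ} {v : ℂ → ℝ} (hU : IsOpen U) (hF : DifferentiableOn ℂ F U)
    (hH : MemLp H 2 (volume.restrict U)) (hG : ∀ᵐ z, z ∈ U → conj (deriv F z) = H z + gr v z)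
    (hv : LocallyLipschitzOn U v) {R : ℝ} (hR : {z : ℂ | R < ‖z‖} ⊆ U)
    (hfin : ∫⁻ z in {z : ℂ | R < ‖z‖}, ENNReal.ofReal (en (fun z => v z - z.re) z) ≠ ⊤) :
    ∃ c, Tendsto (fun z => F z - z) (cocompact ℂ) (𝓝 c) := by
  set W : Set ℂ := {z : ℂ | R < ‖z‖} with hW
  have hWo : IsOpen W := isOpen_lt continuous_const continuous_norm
  have hFd : ∀ z ∈ W, DifferentiableAt ℂ F z := fun z hz =>
    (hF z (hR hz)).differentiableAt (hU.mem_nhds (hR hz))
  have hvd : ∀ᵐ z, z ∈ U → DifferentiableAt ℝ v z :=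
    (ae_restrict_iff' hU.measurableSet).1 (Bd_775.ae_diff hU hv)
  -- `F' - 1` is square integrable
  have h1 : ∀ᵐ z ∂(volume.restrict W), conj (deriv F z - 1) = H z + gr (fun z => v z - z.re) z := by
    rw [ae_restrict_iff' hWo.measurableSet]
    filter_upwards [hG, hvd] with z e1 e2 hz
    have e3 : gr (fun z : ℂ => z.re) z = 1 := by
      unfold gr
      have : fderiv ℝ (fun z : ℂ => z.re) z = reCLM := reCLM.fderiv
      rw [this]
      simp
    have d3 : DifferentiableAt ℝ (fun z : ℂ => z.re) z := reCLM.differentiableAt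
    rw [gr_sub (e2 (hR hz)) d3, e3, map_sub, map_one, e1 (hR hz)]
    ring
  have h2 : MemLp (gr (fun z => v z - z.re)) 2 (volume.restrict W) := by
    refine ⟨(measurable_gr _).aestronglyMeasurable, ?_⟩
    by_contra h3
    rw [not_lt, top_le_iff] at h3
    have h4 := eLp2 (gr (fun z => v z - z.re)) (volume.restrict W)
    simp only [enorm_gr_sq] at h4
    rw [h3] at h4
    apply hfin
    rw [← h4]
    simp
  have h3 : MemLp H 2 (volume.restrict W) := hH.mono_measure (Measure.restrict_mono hR le_rfl)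
  have h4 : MemLp (fun z => conj (deriv F z - 1)) 2 (volume.restrict W) :=
    (memLp_congr_ae (h1 : (fun z => conj (deriv F z - 1)) =ᵐ[volume.restrict W] _)).2 (h3.add h2)
  have h5 : IntegrableOn (fun z => ‖deriv F z - 1‖ ^ 2) W := by
    have h6 := (memLp_two_iff_integrable_sq_norm h4.1).1 h4
    refine h6.congr (ae_of_all _ fun z => ?_)
    simp only [RCLike.norm_conj]
  have h6 : ∀ z : ℂ, R < ‖z‖ → DifferentiableAt ℂ (fun z => deriv F z - 1) z := by
    intro z hz
    have h7 : DifferentiableOn ℂ (deriv F) U := hF.deriv hU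
    exact ((h7 z (hR hz)).differentiableAt (hU.mem_nhds (hR hz))).sub_const _
  obtain ⟨C, R1, hC, hR1, hb⟩ := Prim591.sq_decay h6 h5
  refine Prim591.prim_tendsto (R := max R R1) (h := fun z => deriv F z - 1) (C := C) ?_ ?_ ?_
  · intro z hz
    exact h6 z ((le_max_left _ _).trans_lt hz)
  · intro z hz
    exact hb z ((le_max_right _ _).trans_lt hz)
  · intro z hz
    have := (hFd z ((le_max_left _ _).trans_lt hz)).hasDerivAt.sub (hasDerivAt_id z)
    exact this

end Crest.Agent.R105.Cnv_755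
end

-- ▼ part R105/Cnv5_755

/-!
# Row 105, S0138, CONV 5 (helper755): `SkA_8.CONVP`

* `noIs_of_swd` : switched functions satisfy the weak maximum principle on discs
* `convp : SkA_8.CONVP`
-/

set_option autoImplicit false

open MeasureTheory Set Filter Topology Metric
open scoped NNReal ENNReal Real ContDiff

namespace Crest.Agent.R105.Cnv_755

open Crest.AnalysisR Bd_775 IfB_641 Tc_808 Ni_459 Grd_782
open Crest.Agent.R105.Dir_508 (Tst gr gr_of_notMem)

/-- switched functions satisfy the weak maximum principle -/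
theorem noIs_of_swd {Y : Set ℂ} (hY : IsExteriorDomain Yᶜ) {x : ℂ → ℝ} (hl : LB x)
    (hc : ∀ z ∉ Y, ContinuousAt x z) (hs : Swd Y x) : NoIs Yᶜ x := by
  have key : ∀ (S : Set ℂ) (p : ℂ) (r : ℝ) (z : ℂ), z ∈ ball p r → z ∈ S →
      (∀ w ∈ sphere p r, w ∉ S) → Bornology.IsBounded (connectedComponentIn S z) := by
    intro S p r z hz hzS hsph
    have h1 : connectedComponentIn S z ⊆ ball p r := by
      have hpc : IsPreconnected (connectedComponentIn S z) := isPreconnected_connectedComponentIn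
      have hcov : connectedComponentIn S z ⊆ ball p r ∪ (closedBall p r)ᶜ := by
        intro w hw
        rcases lt_trichotomy (dist w p) r with h | h | h
        · exact Or.inl (mem_ball.2 h)
        · exact absurd (connectedComponentIn_subset _ _ hw) (hsph w (mem_sphere.2 h))
        · exact Or.inr (fun h' => absurd (mem_closedBall.1 h') (not_le.2 h))
      refine hpc.subset_left_of_subset_union isOpen_ball isClosed_closedBall.isOpen_compl ?_ hcov
        ⟨z, mem_connectedComponentIn hzS, hz⟩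
      exact disjoint_left.2 fun w h1 h2 => h2 (ball_subset_closedBall h1)
    exact isBounded_ball.subset h1
  constructor
  · intro p r t _ hsub hsph z hz
    by_contra hcon
    push Not at hcon
    have hz2 : z ∉ Y := hz.2
    have h1 : t < lo Y x z := by rw [lo_of_notMem hY hl hz2 (hc z hz2)]; exact hcon
    refine hs.gt t z h1 (key {w | t < lo Y x w} p r z hz.1 h1 fun w hw hwS => ?_)
    have hw2 : w ∉ Y := hsub hw
    have h2 : t < lo Y x w := hwS
    rw [lo_of_notMem hY hl hw2 (hc w hw2)] at h2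
    exact absurd (hsph w hw) (not_le.2 h2)
  · intro p r t _ hsub hsph z hz
    by_contra hcon
    push Not at hcon
    have hz2 : z ∉ Y := hz.2
    have h1 : up Y x z < t := by rw [up_of_notMem hY hl hz2 (hc z hz2)]; exact hcon
    refine hs.lt t z h1 (key {w | up Y x w < t} p r z hz.1 h1 fun w hw hwS => ?_)
    have hw2 : w ∉ Y := hsub hw
    have h2 : up Y x w < t := hwS
    rw [up_of_notMem hY hl hw2 (hc w hw2)] at h2
    exact absurd (hsph w hw) (not_le.2 h2)

/-- real integrals of energies -/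
theorem lint_en_eq {U : Set ℂ} {f : ℂ → ℝ} (h : IntegrableOn (en f) U) :
    ∫⁻ z in U, ENNReal.ofReal (en f z) = ENNReal.ofReal (∫ z in U, en f z) :=
  (ofReal_integral_eq_lintegral_ofReal h (ae_of_all _ fun _ => en_nonneg _ _)).symm

theorem int_en_eq (U : Set ℂ) (f : ℂ → ℝ) :
    ∫ z in U, en f z = (∫⁻ z in U, ENNReal.ofReal (en f z)).toReal :=
  integral_eq_lintegral_of_nonneg_ae (ae_of_all _ fun _ => en_nonneg _ _)
    (measurable_en f).aestronglyMeasurable

theorem en_congr {f g : ℂ → ℝ} {z : ℂ} (h : f =ᶠ[𝓝 z] g) : en f z = en g z := by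
  unfold en gx gy
  rw [h.fderiv_eq]

theorem ll_hol {U : Set ℂ} (hU : IsOpen U) {p0 : ℂ → ℂ} (hp0 : DifferentiableOn ℂ p0 U) :
    LocallyLipschitzOn U fun z => (p0 z).re := by
  intro z hz
  have h1 : ContDiffAt ℂ 1 p0 z :=
    ((hp0.analyticAt (hU.mem_nhds hz)).contDiffAt).of_le (by exact_mod_cast le_top)
  obtain ⟨K, t, ht, hK⟩ := (h1.restrict_scalars ℝ).exists_lipschitzOnWith
  refine ⟨1 * K, t, mem_nhdsWithin_of_mem_nhds ht, ?_⟩
  have h2 : LipschitzWith 1 (fun z : ℂ => z.re) := by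
    refine LipschitzWith.of_dist_le_mul fun a b => ?_
    rw [Real.dist_eq, ← Complex.sub_re, NNReal.coe_one, one_mul, dist_eq_norm]
    exact Complex.abs_re_le_norm _
  exact h2.comp_lipschitzOnWith hK

/-- **the node CONV**, general form: no condition at infinity, no minimality -/
theorem conv_gen {Y : Set ℂ} {x0 : ℂ → ℝ} (hY : IsExteriorDomain Yᶜ) (hx : X0 Y x0)
    {u : ℕ → ℂ → ℝ} (htt : ∀ n, TT Y (u n)) (hswd : ∀ n, Swd Y (fun z => x0 z + u n z))
    (hcau : ∀ ε > 0, ∃ n₀, ∀ i ≥ n₀, ∀ j ≥ n₀, ∫ z in Yᶜ, en (fun w => u i w - u j w) z ≤ ε)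
    (hEL : ∀ ψ, TT Y ψ → HasCompactSupport ψ → (∀ z ∈ Y, ∀ᶠ w in 𝓝 z, ψ w = ψ z) →
      Tendsto (fun n => di Y (u n) ψ - ∫ z, ψ z * lap x0 z) atTop (𝓝 0)) :
    ∃ (F : ℂ → ℂ) (ψ : ℂ → ℝ) (c : ℕ → ℝ), DifferentiableOn ℂ F Yᶜ ∧
      (∀ z ∈ Yᶜ, (F z).re = x0 z + ψ z) ∧
      (∃ c' : ℂ, Tendsto (fun z => F z - z) (cocompact ℂ) (𝓝 c')) ∧ Q Y ψ ∧
      (∀ A, IsCompact A → A ⊆ Yᶜ → TendstoUniformlyOn (fun n z => u n z + c n) ψ atTop A) ∧
      Tendsto (fun n => ∫ z in Yᶜ, en (fun w => (u n w + c n) - ψ w) z) atTop (𝓝 0) := by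
  have hYc : IsCompact Y := cpt_of hY
  have hU : IsOpen Yᶜ := hY.1
  have hUc : IsPreconnected Yᶜ := hY.2.1.isPreconnected
  obtain ⟨z0, hz0⟩ := hY.2.1.nonempty
  have hx1 : ContDiff ℝ 1 x0 := hx.sm.of_le (by exact_mod_cast le_top)
  have hxl : LocallyLipschitzOn Yᶜ x0 := hx1.locallyLipschitz.locallyLipschitzOn
  set v : ℕ → ℂ → ℝ := fun n z => x0 z + u n z with hv
  have hvl : ∀ n, LocallyLipschitzOn Yᶜ (v n) := fun n => ll_add hxl (htt n).q.loc
  have hLB : ∀ n, LB (v n) := fun n => (LB.of_cont hx.sm.continuous).add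
    (LB.of_bdd (htt n).q.bdd)
  have hvc : ∀ n, ∀ z ∉ Y, ContinuousAt (v n) z := fun n z hz =>
    (hvl n).continuousOn.continuousAt (hU.mem_nhds hz)
  have hsubeq : ∀ i j, (fun z => v i z - v j z) = fun z => u i z - u j z := by
    intro i j
    funext z
    simp only [hv]
    ring
  have hqs : ∀ i j, IntegrableOn (en fun z => u i z - u j z) Yᶜ := fun i j =>
    (TT_sub hYc.isClosed (htt i) (htt j)).q.fin
  have hC : CSeq Yᶜ v := by
    refine ⟨hvl, fun n => noIs_of_swd hY (hLB n) (hvc n) (hswd n), fun ε hε => ?_⟩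
    obtain ⟨N, hN⟩ := hcau ε hε
    refine ⟨N, fun i hi j hj => ?_⟩
    rw [hsubeq, lint_en_eq (hqs i j)]
    exact ENNReal.ofReal_le_ofReal (hN i hi j hj)
  have hELv : ∀ ψ : ℂ → ℝ, Tst Yᶜ ψ →
      Tendsto (fun n => ∫ z in Yᶜ, Bd_775.dot (v n) ψ z) atTop (𝓝 0) := by
    intro ψ hψ
    have hlc : LC Y ψ := Tst.lc hψ
    have h1 := hEL ψ (TT.lc hlc) hψ.cpt hlc.lc
    refine h1.congr fun n => ?_
    have hgr : ∀ (f : ℂ → ℝ) (z : ℂ), z ∉ tsupport (fderiv ℝ ψ) → Bd_775.dot f ψ z = 0 := by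
      intro f z hz
      unfold Bd_775.dot gx gy
      rw [image_eq_zero_of_notMem_tsupport hz]
      simp
    have h2 : ∫ z in Yᶜ, Bd_775.dot x0 ψ z = - ∫ z, ψ z * lap x0 z := by
      rw [← Dir_508.int_dot_smooth hx.sm hψ.sm hψ.cpt]
      refine setIntegral_eq_integral_of_forall_compl_eq_zero fun z hz => ?_
      exact hgr _ _ fun h' => hz (hψ.sub h')
    have hq0 : Q Y ψ := (TT.lc hlc).q
    have i1 : IntegrableOn (Bd_775.dot (u n) ψ) Yᶜ := Bd_775.integrableOn_dot (htt n).q hq0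
    have i2 : IntegrableOn (Bd_775.dot x0 ψ) Yᶜ := by
      have hcont : Continuous (Bd_775.dot x0 ψ) := by
        have c1 := hx1.continuous_fderiv one_ne_zero
        have c2 := (hψ.sm.of_le (by exact_mod_cast le_top) : ContDiff ℝ 1 ψ).continuous_fderiv
          one_ne_zero
        unfold Bd_775.dot gx gy
        exact ((c1.clm_apply continuous_const).mul (c2.clm_apply continuous_const)).add
          ((c1.clm_apply continuous_const).mul (c2.clm_apply continuous_const))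
      refine (hcont.integrable_of_hasCompactSupport ?_).integrableOn
      refine HasCompactSupport.intro (hψ.cpt.fderiv ℝ) fun z hz => hgr _ _ hz
    have h3 : ∫ z in Yᶜ, Bd_775.dot (v n) ψ z =
        (∫ z in Yᶜ, Bd_775.dot x0 ψ z) + ∫ z in Yᶜ, Bd_775.dot (u n) ψ z := by
      rw [← integral_add i2 i1]
      refine integral_congr_ae ?_
      filter_upwards [Bd_775.ae_diff hU (htt n).q.loc] with z hz
      unfold Bd_775.dot gx gy
      simp only [hv]
      rw [fderiv_fun_add (hx1.differentiable one_ne_zero z) hz]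
      simp only [_root_.add_apply]
      ring
    rw [h3, h2]
    unfold di
    ring
  obtain ⟨F, N, H, hF, hFv, hFe, hH, hHF⟩ := hC.exists_hol hU hUc hz0 hELv
  have hFre : LocallyLipschitzOn Yᶜ fun z => (F z).re := ll_hol hU hF
  -- infinity
  obtain ⟨R0, hR0⟩ := hx.far
  obtain ⟨R1, hR1⟩ := hY.2.2
  set R : ℝ := max (max R0 R1) 0 with hR
  have hR0' : R0 ≤ R := (le_max_left _ _).trans (le_max_left _ _)
  have hR1' : R1 ≤ R := (le_max_right _ _).trans (le_max_left _ _)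
  have hsub : {z : ℂ | R < ‖z‖} ⊆ Yᶜ := fun z hz => hR1 z (hR1'.trans_lt hz)
  have hWo : IsOpen {z : ℂ | R < ‖z‖} := isOpen_lt continuous_const continuous_norm
  have hx0far : ∀ z : ℂ, R < ‖z‖ → x0 z = z.re := fun z hz => hR0 z (hR0'.trans hz.le)
  have hinf : ∃ c' : ℂ, Tendsto (fun z => F z - z) (cocompact ℂ) (𝓝 c') := by
    refine at_inf hU hF hH hHF (hvl N) hsub ?_
    have h1 : ∫⁻ z in {z : ℂ | R < ‖z‖}, ENNReal.ofReal (en (fun z => v N z - z.re) z) =
        ∫⁻ z in {z : ℂ | R < ‖z‖}, ENNReal.ofReal (en (u N) z) := by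
      refine setLIntegral_congr_fun hWo.measurableSet fun z hz => ?_
      congr 1
      apply en_congr
      filter_upwards [hWo.mem_nhds hz] with w hw
      simp only [hv]
      rw [hx0far w hw]
      ring
    rw [h1]
    refine ne_top_of_le_ne_top ?_ (lintegral_mono_set hsub)
    rw [lint_en_eq (htt N).q.fin]
    exact ENNReal.ofReal_ne_top
  -- the limit function
  classical
  set ψ : ℂ → ℝ := fun z => if z ∈ Y then 0 else (F z).re - x0 z with hψdef
  have hψU : ∀ z ∈ Yᶜ, ψ z = (F z).re - x0 z := fun z hz => if_neg hz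
  have hψnh : ∀ z ∈ Yᶜ, ψ =ᶠ[𝓝 z] fun z => (F z).re - x0 z := by
    intro z hz
    filter_upwards [hU.mem_nhds hz] with w hw
    exact hψU w hw
  set c : ℕ → ℝ := fun n => - v n z0 with hc
  have hψl : LocallyLipschitzOn Yᶜ ψ := by
    have h1 : LocallyLipschitzOn Yᶜ fun z => (F z).re - x0 z := ll_sub hFre hxl
    intro z hz
    obtain ⟨K, t, ht, hK⟩ := h1 hz
    refine ⟨K, t ∩ Yᶜ, inter_mem ht self_mem_nhdsWithin, ?_⟩
    intro a ha b hb
    rw [hψU a ha.2, hψU b hb.2]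
    exact hK ha.1 hb.1
  -- locally uniform convergence
  have hconv : ∀ A, IsCompact A → A ⊆ Yᶜ →
      TendstoUniformlyOn (fun n z => u n z + c n) ψ atTop A := by
    intro A hA hAY
    have h1 := (tendstoLocallyUniformlyOn_iff_forall_isCompact hU).1 hFv A hAY hA
    rw [Metric.tendstoUniformlyOn_iff] at h1 ⊢
    intro ε hε
    filter_upwards [h1 ε hε] with n hn z hz
    have h2 := hn z hz
    rw [Real.dist_eq] at h2 ⊢
    rw [hψU z (hAY hz)]
    have e : (F z).re - x0 z - (u n z + c n) = (F z).re - (v n z - v n z0) := by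
      simp only [hc, hv]
      ring
    rw [e]
    exact h2
  -- energies of the differences
  have hen : ∀ n, ∫⁻ z in Yᶜ, ENNReal.ofReal (en (fun w => (u n w + c n) - ψ w) z) =
      ∫⁻ z in Yᶜ, ENNReal.ofReal (en (fun z => v n z - (F z).re) z) := by
    intro n
    refine setLIntegral_congr_fun hU.measurableSet fun z hz => ?_
    have e : (fun w => (u n w + c n) - ψ w) =ᶠ[𝓝 z] fun w => (v n w - (F w).re) + c n := by
      filter_upwards [hψnh z hz] with w hw
      rw [hw]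
      simp only [hv]
      ring
    congr 1
    rw [en_congr e]
    unfold en gx gy
    rw [fderiv_add_const]
  -- energy of `ψ`
  have hψfin : IntegrableOn (en ψ) Yᶜ := by
    obtain ⟨n, hn⟩ := (hFe.eventually (gt_mem_nhds (zero_lt_one : (0:ℝ≥0∞) < 1))).exists
    have hd1 := Bd_775.ae_diff hU (htt n).q.loc
    have hd2 := Bd_775.ae_diff hU hψl
    refine ⟨(measurable_en ψ).aestronglyMeasurable, ?_⟩
    rw [hasFiniteIntegral_iff_ofReal (ae_of_all _ fun z => en_nonneg _ _)]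
    calc ∫⁻ z in Yᶜ, ENNReal.ofReal (en ψ z)
        ≤ ∫⁻ z in Yᶜ, (2 * ENNReal.ofReal (en (fun w => (u n w + c n) - ψ w) z) +
            2 * ENNReal.ofReal (en (u n) z)) := by
          refine lintegral_mono_ae ?_
          filter_upwards [hd1, hd2] with z h1 h2
          have h1' : DifferentiableAt ℝ (fun w => u n w + c n) z := h1.add_const _
          have h3 := en_le_two h2 h1'
          have h4 : en (fun w => ψ w - (u n w + c n)) z = en (fun w => (u n w + c n) - ψ w) z := by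
            unfold en gx gy
            rw [fderiv_fun_sub h2 h1', fderiv_fun_sub h1' h2]
            simp only [_root_.sub_apply]
            ring
          have h5 : en (fun w => u n w + c n) z = en (u n) z := by
            unfold en gx gy
            rw [fderiv_add_const]
          rw [h4, h5] at h3
          refine (ENNReal.ofReal_le_ofReal h3).trans (le_of_eq ?_)
          rw [ENNReal.ofReal_add (mul_nonneg (by norm_num) (en_nonneg _ _))
            (mul_nonneg (by norm_num) (en_nonneg _ _)), ENNReal.ofReal_mul (by norm_num),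
            ENNReal.ofReal_mul (by norm_num), ENNReal.ofReal_ofNat]
      _ = 2 * (∫⁻ z in Yᶜ, ENNReal.ofReal (en (fun w => (u n w + c n) - ψ w) z)) +
            2 * ∫⁻ z in Yᶜ, ENNReal.ofReal (en (u n) z) := by
          rw [lintegral_add_left, lintegral_const_mul, lintegral_const_mul]
          · exact (measurable_en _).ennreal_ofReal
          · exact (measurable_en _).ennreal_ofReal
          · exact (measurable_en _).ennreal_ofReal.const_mul _
      _ < ⊤ := by
          rw [hen n, lint_en_eq (htt n).q.fin]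
          refine ENNReal.add_lt_top.2 ⟨ENNReal.mul_lt_top (by norm_num)
            (lt_of_lt_of_le hn (le_of_lt ENNReal.one_lt_top)), ENNReal.mul_lt_top (by norm_num)
            ENNReal.ofReal_lt_top⟩
  -- bounds
  have hbdd : ∃ M, ∀ z, |ψ z| ≤ M := by
    obtain ⟨c', hc'⟩ := hinf
    have h1 : ∀ᶠ z in cocompact ℂ, ‖F z - z‖ ≤ ‖c'‖ + 1 := by
      have := hc'.norm.eventually (gt_mem_nhds (show ‖c'‖ < ‖c'‖ + 1 by linarith))
      exact this.mono fun z hz => le_of_lt hz
    obtain ⟨R2, hR2⟩ : ∃ R2 : ℝ, ∀ z : ℂ, R2 < ‖z‖ → ‖F z - z‖ ≤ ‖c'‖ + 1 := by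
      rw [← Metric.cobounded_eq_cocompact] at h1
      obtain ⟨R2, -, h2⟩ := (Metric.hasBasis_cobounded_compl_closedBall (0:ℂ)).eventually_iff.1 h1
      exact ⟨R2, fun z hz => h2 (fun h' => absurd (mem_closedBall_zero_iff.1 h') (not_le.2 hz))⟩
    set R3 : ℝ := max R2 R with hR3
    obtain ⟨N1, M1, hM1⟩ := hC.bdd hU hFv (Complex.continuous_re.comp_continuousOn hF.continuousOn)
      (by rw [compl_compl]; exact hYc.isBounded) R3
    obtain ⟨M2, hM2⟩ := (isCompact_closedBall (0:ℂ) R3).exists_bound_of_continuousOn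
      hx.sm.continuous.continuousOn
    refine ⟨max 0 (max (‖c'‖ + 1) (M1 + M2)), fun z => ?_⟩
    by_cases hz : z ∈ Y
    · simp only [hψdef, if_pos hz, abs_zero]
      exact le_max_left _ _
    · rw [hψU z hz]
      by_cases hzR : R3 < ‖z‖
      · rw [hx0far z ((le_max_right _ _).trans_lt hzR)]
        have h3 := hR2 z ((le_max_left _ _).trans_lt hzR)
        have h4 : |(F z).re - z.re| ≤ ‖F z - z‖ := by
          rw [← Complex.sub_re]
          exact Complex.abs_re_le_norm _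
        exact (h4.trans h3).trans ((le_max_left _ _).trans (le_max_right _ _))
      · rw [not_lt] at hzR
        have hzb : z ∈ closedBall (0:ℂ) R3 := mem_closedBall_zero_iff.2 hzR
        have h3 : |(F z).re| ≤ M1 := by
          have h4 := (hFv.tendsto_at (show z ∈ Yᶜ from hz)).abs
          refine le_of_tendsto h4 ?_
          filter_upwards [eventually_ge_atTop N1] with n hn
          exact hM1 n hn z ⟨hzb, hz⟩
        have h4 := hM2 z hzb
        rw [Real.norm_eq_abs] at h4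
        have h5 : |(F z).re - x0 z| ≤ M1 + M2 := (abs_sub _ _).trans (add_le_add h3 h4)
        exact h5.trans ((le_max_right _ _).trans (le_max_right _ _))
  refine ⟨F, ψ, c, hF, ?_, hinf, ⟨hbdd, hψl, hψfin⟩, hconv, ?_⟩
  · intro z hz
    rw [hψU z hz]
    ring
  · have h1 : ∀ n, ∫ z in Yᶜ, en (fun w => (u n w + c n) - ψ w) z =
        (∫⁻ z in Yᶜ, ENNReal.ofReal (en (fun z => v n z - (F z).re) z)).toReal := by
      intro n
      rw [int_en_eq, hen]
    simp only [h1]
    have h2 := (ENNReal.tendsto_toReal (ENNReal.zero_ne_top)).comp hFe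
    rw [ENNReal.toReal_zero] at h2
    exact h2

/-- **the node CONV** -/
theorem convp : SkA_8.CONVP := fun _ _ hY hx _ _ _ hS hEL =>
  conv_gen hY hx hS.tt hS.swd hS.cauchy hEL

end Crest.Agent.R105.Cnv_755
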