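import Crest.Agent.R105.Fk6_286
import Crest.Agent.R105.FK3_644
import Mathlib
import Crest.Agent.R105.FK1_644
import Crest.Agent.Lib.RiemannMap
import Crest.Agent.R105.FKd_644
import Crest.Agent.R105.FK2_644
import Crest.Agent.R105.FK4_644
import Crest.Agent.R105.Cofa1_917_Mg
import Crest.Agent.R105.Cof5_430
import Crest.Agent.R105.Top1_8
import Crest.Agent.R105.SkA4_8
import Crest.Agent.R105.Uw6_913
import Crest.Agent.R105.Nip9_31
import Crest.Agent.R105.Ta7_937
import Crest.Agent.R105.SkT1_137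

-- ▼ part R105/Fk7_286
section

/-!
# R105, finite Koebe theorem (helper286), part 7: uniqueness of labelled maps of disc domains

* `uniqDisc : UniqDisc`, `uniqSlit' : UniqSlit`
-/

set_option autoImplicit false

open Set Filter Topology Complex Metric MeasureTheory
open scoped ContDiff ComplexConjugate Real

namespace Crest.Agent.R105.Fk_286

open Crest.Agent.R105.FK_644 Crest.Agent.Lib.Bieberbach

/-- (F3a) -/
theorem uniqSlit' : UniqSlit := uniqSlit fun _ _ hy => (fam_slits hy).compl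

theorem ev_ball {c : ℂ} {r : ℝ} (hr : 0 ≤ r) {P : ℂ → Prop}
    (hP : ∀ᶠ z in 𝓝ˢ (closedBall c r), P z) :
    ∀ᶠ δ : ℝ in 𝓝[>] 0, ∀ z ∈ closedBall c (r + δ), P z := by
  obtain ⟨O, hO, hKO, hOP⟩ := mem_nhdsSet_iff_exists.1 hP
  obtain ⟨δ0, hδ0, hsub⟩ := (isCompact_closedBall c r).exists_cthickening_subset_open hO hKO
  rw [cthickening_closedBall hδ0.le hr] at hsub
  filter_upwards [Ioo_mem_nhdsGT hδ0] with δ hδ z hz
  apply hOP
  apply hsub
  exact closedBall_subset_closedBall (by linarith [hδ.2]) hz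

variable {n : ℕ} {x x' : Fin n → ℂ × ℝ}

theorem vol_discs (hx : x ∈ X n) :
    (volume (⋃ i, discs x i)).toReal = ∑ i, π * (x i).2 ^ 2 := by
  have h1 : volume (⋃ i, discs x i) = ∑ i, volume (discs x i) := by
    rw [measure_iUnion (fun i j hij => hx.2 i j hij) fun i => measurableSet_closedBall,
      tsum_fintype]
  have h2 : ∀ i, (volume (discs x i)).toReal = π * (x i).2 ^ 2 := by
    intro i
    rw [discs, Complex.volume_closedBall]
    simp [(hx.1 i).le, ENNReal.toReal_mul, mul_comm]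
  rw [h1, ENNReal.toReal_sum]
  · exact Finset.sum_congr rfl fun i _ => h2 i
  · intro i _
    exact (isCompact_closedBall _ _).measure_lt_top.ne

/-- the energy of `f - id` on compact sets vanishes -/
theorem energy_le (hx : x ∈ X n) (hx' : x' ∈ X n) {f : ℂ → ℂ}
    (hf : LMap (discs x) (discs x') f) {L : Set ℂ} (hL : IsCompact L)
    (hLU : L ⊆ dom (discs x)) : ∫ z in L, ‖deriv f z - 1‖ ^ 2 ≤ 0 := by
  set E : Set ℂ := ⋃ i, discs x' i with hE
  have hEm : MeasurableSet E := (cpt_iUnion (cpt_discs x')).isClosed.measurableSet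
  have hEd : Disjoint (f '' dom (discs x)) E := by
    rw [hf.img]; exact disjoint_compl_left
  have hr : ∀ i, 0 < (x i).2 := hx.1
  set I : ℝ := ∫ z in L, ‖deriv f z - 1‖ ^ 2 with hI
  -- the inequality with parameters
  have h1 : ∀ ε > 0, ∀ᶠ δ : ℝ in 𝓝[>] 0, I ≤
      (∑ i, π * (2 * ((x i).2 + δ) ^ 2 * ((x' i).2 + ε) / ((x i).2 + δ / 2) -
        ((x i).2 + δ / 2) ^ 2)) - ∑ i, π * (x' i).2 ^ 2 := by
    intro ε hε
    -- (1) disjointness
    have e1 : ∀ᶠ δ : ℝ in 𝓝[>] 0, ∀ i j, i ≠ j →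
        Disjoint (closedBall (x i).1 ((x i).2 + δ)) (closedBall (x j).1 ((x j).2 + δ)) := by
      rw [eventually_all]; intro i
      rw [eventually_all]; intro j
      by_cases hij : i = j
      · exact Eventually.of_forall fun δ h => absurd hij h
      · have h2 : (x i).2 + (x j).2 < dist (x i).1 (x j).1 :=
          (disjoint_closedBall_closedBall_iff (hr i).le (hr j).le).1 (hx.2 i j hij)
        have h3 : Tendsto (fun δ : ℝ => (x i).2 + δ + ((x j).2 + δ)) (𝓝[>] 0)
            (𝓝 ((x i).2 + 0 + ((x j).2 + 0))) := by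
          apply Tendsto.mono_left _ nhdsWithin_le_nhds
          apply Continuous.tendsto; fun_prop
        rw [add_zero, add_zero] at h3
        filter_upwards [h3.eventually (gt_mem_nhds h2), self_mem_nhdsWithin] with δ h4 h5 _
        have h6 : (0 : ℝ) < δ := h5
        exact (disjoint_closedBall_closedBall_iff (by linarith [hr i]) (by linarith [hr j])).2 h4
    -- (2) `L`
    have e2 : ∀ᶠ δ : ℝ in 𝓝[>] 0, ∀ i, ∀ z ∈ closedBall (x i).1 ((x i).2 + δ), z ∉ L := by
      rw [eventually_all]; intro i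
      apply ev_ball (hr i).le
      apply hL.isClosed.isOpen_compl.mem_nhdsSet.2
      intro z hz hzL
      exact hLU hzL (mem_iUnion.2 ⟨i, hz⟩)
    -- (3) the labels
    have e3 : ∀ᶠ δ : ℝ in 𝓝[>] 0, ∀ i, ∀ z ∈ closedBall (x i).1 ((x i).2 + δ),
        z ∈ dom (discs x) → ‖f z - (x' i).1‖ ≤ (x' i).2 + ε := by
      rw [eventually_all]; intro i
      apply ev_ball (hr i).le
      have h2 : ∀ᶠ w in 𝓝ˢ (discs x' i), ‖w - (x' i).1‖ < (x' i).2 + ε :=
        (isOpen_lt (by fun_prop) continuous_const :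
          IsOpen {w : ℂ | ‖w - (x' i).1‖ < (x' i).2 + ε}).mem_nhdsSet.2 fun w hw => by
            rw [discs, mem_closedBall, dist_eq_norm] at hw
            show ‖w - (x' i).1‖ < (x' i).2 + ε
            linarith
      have h3 := hf.lab i h2
      rw [mem_map, mem_inf_principal] at h3
      filter_upwards [h3] with z hz hzU
      exact (hz hzU).le
    filter_upwards [e1, e2, e3, self_mem_nhdsWithin] with δ h2 h3 h4 h5
    have hδ : (0 : ℝ) < δ := h5
    have h6 := key_ineq (x := x) (α := fun i => (x i).2 + δ / 2) (β := fun i => (x i).2 + δ)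
      (M := fun i => (x' i).2 + ε) (c' := fun i => (x' i).1) hr
      (fun i => by linarith) (fun i => by linarith) h2 hf.sig hEm hEd
      (fun i z hz => by
        have hz1 : z ∈ closedBall (x i).1 ((x i).2 + δ) := by
          rw [mem_closedBall, dist_eq_norm]; exact hz.2
        apply h4 i z hz1
        intro hmem
        obtain ⟨j, hj⟩ := mem_iUnion.1 hmem
        by_cases hij : i = j
        · subst hij
          rw [discs, mem_closedBall, dist_eq_norm] at hj
          have := hz.1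
          linarith
        · exact disjoint_left.1 (h2 i j hij) hz1
            (closedBall_subset_closedBall (by linarith) hj))
      hL (fun i => disjoint_left.2 fun z hzL hz => h3 i z hz hzL)
    rw [vol_discs hx'] at h6
    exact h6
  -- `δ → 0`
  have h2 : ∀ ε > 0, I ≤ (∑ i, π * (2 * (x i).2 * ((x' i).2 + ε) - (x i).2 ^ 2)) -
      ∑ i, π * (x' i).2 ^ 2 := by
    intro ε hε
    have h3 : Tendsto (fun δ : ℝ => (∑ i, π * (2 * ((x i).2 + δ) ^ 2 * ((x' i).2 + ε) /
        ((x i).2 + δ / 2) - ((x i).2 + δ / 2) ^ 2)) - ∑ i, π * (x' i).2 ^ 2) (𝓝[>] 0)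
        (𝓝 ((∑ i, π * (2 * (x i).2 * ((x' i).2 + ε) - (x i).2 ^ 2)) -
          ∑ i, π * (x' i).2 ^ 2)) := by
      apply Tendsto.sub_const
      apply tendsto_finsetSum
      intro i _
      apply Tendsto.const_mul
      have hp := hr i
      have h4 : Tendsto (fun δ : ℝ => 2 * ((x i).2 + δ) ^ 2 * ((x' i).2 + ε) /
          ((x i).2 + δ / 2) - ((x i).2 + δ / 2) ^ 2) (𝓝 0)
          (𝓝 (2 * ((x i).2 + 0) ^ 2 * ((x' i).2 + ε) /
          ((x i).2 + 0 / 2) - ((x i).2 + 0 / 2) ^ 2)) := by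
        apply ContinuousAt.tendsto (f := fun δ : ℝ => 2 * ((x i).2 + δ) ^ 2 * ((x' i).2 + ε) /
          ((x i).2 + δ / 2) - ((x i).2 + δ / 2) ^ 2)
        apply ContinuousAt.sub
        · apply ContinuousAt.div
          · fun_prop
          · fun_prop
          · simp only [zero_div, add_zero]; exact hp.ne'
        · fun_prop
      have h5 : 2 * ((x i).2 + 0) ^ 2 * ((x' i).2 + ε) / ((x i).2 + 0 / 2) -
          ((x i).2 + 0 / 2) ^ 2 = 2 * (x i).2 * ((x' i).2 + ε) - (x i).2 ^ 2 := by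
        field_simp
        ring
      rw [h5] at h4
      exact h4.mono_left nhdsWithin_le_nhds
    exact ge_of_tendsto h3 (h1 ε hε)
  -- `ε → 0`
  have h3 : Tendsto (fun ε : ℝ => (∑ i, π * (2 * (x i).2 * ((x' i).2 + ε) - (x i).2 ^ 2)) -
      ∑ i, π * (x' i).2 ^ 2) (𝓝[>] 0)
      (𝓝 ((∑ i, π * (2 * (x i).2 * ((x' i).2 + 0) - (x i).2 ^ 2)) -
      ∑ i, π * (x' i).2 ^ 2)) := by
    apply Tendsto.mono_left _ nhdsWithin_le_nhds
    apply Continuous.tendsto (f := fun ε : ℝ =>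
      (∑ i, π * (2 * (x i).2 * ((x' i).2 + ε) - (x i).2 ^ 2)) - ∑ i, π * (x' i).2 ^ 2)
    fun_prop
  have h4 := ge_of_tendsto h3 (eventually_mem_nhdsWithin.mono fun ε hε => h2 ε hε)
  refine h4.trans ?_
  rw [← Finset.sum_sub_distrib]
  apply Finset.sum_nonpos
  intro i _
  have : π * (2 * (x i).2 * ((x' i).2 + 0) - (x i).2 ^ 2) - π * (x' i).2 ^ 2 =
      -(π * ((x i).2 - (x' i).2) ^ 2) := by ring
  rw [this]
  exact neg_nonpos.2 (by positivity)

theorem discs_sphere_closure (hx : x ∈ X n) {i : Fin n} {z : ℂ}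
    (hz : z ∈ sphere (x i).1 (x i).2) : z ∈ closure (dom (discs x)) := by
  have hr := hx.1 i
  have hzi : z ∈ discs x i := sphere_subset_closedBall hz
  -- the curve `c + (1 + t) (z - c)`
  have h1 : ∀ᶠ t : ℝ in 𝓝[>] 0, (x i).1 + ((1 + t : ℝ) : ℂ) * (z - (x i).1) ∈ dom (discs x) := by
    have hcont : Tendsto (fun t : ℝ => (x i).1 + ((1 + t : ℝ) : ℂ) * (z - (x i).1)) (𝓝 0)
        (𝓝 z) := by
      have : Continuous fun t : ℝ => (x i).1 + ((1 + t : ℝ) : ℂ) * (z - (x i).1) := by fun_prop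
      have h2 := this.tendsto 0
      simpa using h2
    have h3 : ∀ j, j ≠ i → ∀ᶠ t : ℝ in 𝓝[>] 0,
        (x i).1 + ((1 + t : ℝ) : ℂ) * (z - (x i).1) ∉ discs x j := by
      intro j hj
      have h5 : (discs x j)ᶜ ∈ 𝓝 z := (cpt_discs x j).isClosed.isOpen_compl.mem_nhds
        (disjoint_left.1 (hx.2 i j (Ne.symm hj)) hzi)
      exact (hcont.mono_left nhdsWithin_le_nhds).eventually h5
    have h4 : ∀ᶠ t : ℝ in 𝓝[>] 0, ∀ j, j ≠ i →
        (x i).1 + ((1 + t : ℝ) : ℂ) * (z - (x i).1) ∉ discs x j := by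
      rw [eventually_all]; intro j
      by_cases hj : j = i
      · exact Eventually.of_forall fun t h => absurd hj h
      · filter_upwards [h3 j hj] with t ht _ using ht
    filter_upwards [h4, self_mem_nhdsWithin] with t ht ht0
    have ht1 : (0 : ℝ) < t := ht0
    intro hmem
    obtain ⟨j, hj⟩ := mem_iUnion.1 hmem
    by_cases hji : j = i
    · subst hji
      rw [discs, mem_closedBall, dist_eq_norm, add_sub_cancel_left, norm_mul, norm_real,
        Real.norm_eq_abs, abs_of_pos (by linarith)] at hj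
      rw [mem_sphere, dist_eq_norm] at hz
      rw [hz] at hj
      nlinarith
    · exact ht j hji hj
  have hcont : Tendsto (fun t : ℝ => (x i).1 + ((1 + t : ℝ) : ℂ) * (z - (x i).1)) (𝓝[>] 0)
      (𝓝 z) := by
    apply Tendsto.mono_left _ nhdsWithin_le_nhds
    have : Continuous fun t : ℝ => (x i).1 + ((1 + t : ℝ) : ℂ) * (z - (x i).1) := by fun_prop
    have h2 := this.tendsto 0
    simpa using h2
  exact mem_closure_of_tendsto hcont h1

theorem closedBall_inj {c c' : ℂ} {r r' : ℝ} (hr : 0 < r) (hr' : 0 < r')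
    (h : closedBall c r = closedBall c' r') : c = c' ∧ r = r' := by
  have key : ∀ {c c' : ℂ} {r r' : ℝ}, 0 < r → closedBall c r ⊆ closedBall c' r' →
      dist c c' + r ≤ r' := by
    intro c c' r r' hr hs
    by_cases hcc : c = c'
    · subst hcc
      have h1 : c + (r : ℂ) ∈ closedBall c r := by
        rw [mem_closedBall, dist_eq_norm, add_sub_cancel_left, norm_real, Real.norm_eq_abs,
          abs_of_pos hr]
      have h2 := hs h1
      rw [mem_closedBall, dist_eq_norm, add_sub_cancel_left, norm_real, Real.norm_eq_abs,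
          abs_of_pos hr] at h2
      simpa using h2
    · have hn : 0 < ‖c - c'‖ := norm_pos_iff.2 (sub_ne_zero.2 hcc)
      have h1 : c + ((r / ‖c - c'‖ : ℝ) : ℂ) * (c - c') ∈ closedBall c r := by
        rw [mem_closedBall, dist_eq_norm, add_sub_cancel_left, norm_mul, norm_real,
          Real.norm_eq_abs, abs_of_pos (div_pos hr hn), div_mul_cancel₀ _ hn.ne']
      have h2 := hs h1
      have h3 : c + ((r / ‖c - c'‖ : ℝ) : ℂ) * (c - c') - c' =
          ((1 + r / ‖c - c'‖ : ℝ) : ℂ) * (c - c') := by push_cast; ring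
      rw [mem_closedBall, dist_eq_norm, h3, norm_mul, norm_real, Real.norm_eq_abs,
        abs_of_pos (by positivity), add_mul, one_mul, div_mul_cancel₀ _ hn.ne'] at h2
      rw [dist_eq_norm]
      exact h2
  have h1 := key hr h.subset
  have h2 := key hr' h.symm.subset
  rw [dist_comm] at h2
  have h3 := dist_nonneg (x := c) (y := c')
  have h4 : dist c c' = 0 := by linarith
  exact ⟨dist_eq_zero.1 h4, by linarith⟩

/-- (F3b) uniqueness for disc domains -/
theorem uniqDisc : UniqDisc := by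
  intro n x x' hx hx' f hf
  have hU : IsOpen (dom (discs x)) := isOpen_dom (cpt_discs x)
  have hUc : IsPreconnected (dom (discs x)) := (fam_discs hx).compl
  have hdc : ContinuousOn (deriv f) (dom (discs x)) := (hf.sig.hol.deriv hU).continuousOn
  -- the derivative is one
  have h1 : ∀ z ∈ dom (discs x), deriv f z = 1 := by
    intro z0 hz0
    obtain ⟨ρ, hρ, hsub⟩ := Metric.nhds_basis_closedBall.mem_iff.1 (hU.mem_nhds hz0)
    have hL := energy_le hx hx' hf (isCompact_closedBall z0 ρ) hsub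
    have hFc : ContinuousOn (fun z => ‖deriv f z - 1‖ ^ 2) (closedBall z0 ρ) :=
      ((hdc.mono hsub).sub continuousOn_const).norm.pow 2
    have hFi : IntegrableOn (fun z => ‖deriv f z - 1‖ ^ 2) (closedBall z0 ρ) :=
      hFc.integrableOn_compact (isCompact_closedBall z0 ρ)
    have h0 : ∫ z in closedBall z0 ρ, ‖deriv f z - 1‖ ^ 2 = 0 :=
      le_antisymm hL (integral_nonneg fun z => by positivity)
    have h2 := (setIntegral_eq_zero_iff_of_nonneg_ae
      (Eventually.of_forall fun z => by positivity) hFi).1 h0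
    have h3 : (fun z => ‖deriv f z - 1‖ ^ 2) =ᵐ[volume.restrict (ball z0 ρ)] fun _ => (0 : ℝ) :=
      ae_restrict_of_ae_restrict_of_subset ball_subset_closedBall h2
    have h4 := Measure.eqOn_open_of_ae_eq h3 isOpen_ball (hFc.mono ball_subset_closedBall)
      continuousOn_const (mem_ball_self hρ)
    simp only at h4
    have h5 : ‖deriv f z0 - 1‖ = 0 := by
      rcases pow_eq_zero_iff (two_ne_zero) |>.1 h4 with h; exact h
    exact sub_eq_zero.1 (norm_eq_zero.1 h5)
  -- `f - id` is constant, hence zero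
  have hgd : DifferentiableOn ℂ (fun z => f z - z) (dom (discs x)) :=
    hf.sig.hol.sub differentiableOn_id
  have hg' : (dom (discs x)).EqOn (deriv fun z => f z - z) 0 := by
    intro z hz
    have h2 : HasDerivAt (fun z => f z - z) (deriv f z - 1) z :=
      ((hf.sig.hol.differentiableAt (hU.mem_nhds hz)).hasDerivAt).sub (hasDerivAt_id z)
    rw [h2.deriv, h1 z hz, sub_self]; rfl
  obtain ⟨a, ha⟩ := hU.exists_is_const_of_deriv_eq_zero hUc hgd hg'
  have ha0 : a = 0 := by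
    have h2 : Tendsto (fun z => f z - z) (cocompact ℂ) (𝓝 a) :=
      tendsto_const_nhds.congr' ((dom_cocompact (cpt_discs x)).mono fun z hz => (ha z hz).symm)
    exact tendsto_nhds_unique h2 hf.sig.inf
  have hid : ∀ z ∈ dom (discs x), f z = z := fun z hz => by
    have := ha z hz
    rw [ha0] at this
    exact sub_eq_zero.1 this
  have hsub : ∀ i, discs x i ⊆ discs x' i := by
    intro i
    rw [discs, ← convexHull_sphere_eq_closedBall _ (hx.1 i).le]
    apply convexHull_min _ (convex_closedBall _ _)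
    intro z hz
    exact sub_of_id hf (cpt_discs x') hid i (sphere_subset_closedBall hz)
      (discs_sphere_closure hx hz)
  have hdom : dom (discs x) = dom (discs x') := by
    rw [← hf.img]
    ext z
    constructor
    · intro h; exact ⟨z, h, hid z h⟩
    · rintro ⟨w, hw, rfl⟩; rw [hid w hw]; exact hw
  have hun : ⋃ i, discs x i = ⋃ i, discs x' i := by
    have := congrArg compl hdom
    rwa [compl_dom, compl_dom] at this
  funext i
  have heq : discs x i = discs x' i := by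
    refine Subset.antisymm (hsub i) fun z h => ?_
    have h2 : z ∈ ⋃ j, discs x j := by rw [hun]; exact mem_iUnion.2 ⟨i, h⟩
    obtain ⟨j, hj⟩ := mem_iUnion.1 h2
    by_cases hij : i = j
    · rw [hij]; exact hj
    · exact absurd (hsub j hj) (disjoint_left.1 (hx'.2 i j hij) h)
  obtain ⟨e1, e2⟩ := closedBall_inj (hx.1 i) (hx'.1 i) heq
  exact Prod.ext e1 e2

end Crest.Agent.R105.Fk_286
end

-- ▼ part R105/Sig1_731
section

/-!
R105 / Sig1_731: Hurwitz and Montel.
-/

set_option autoImplicit false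

open Set Metric Filter Complex
open scoped Topology

namespace Crest.Agent.R105.Sig731

/-- Minimum modulus form of Hurwitz: if `g` is holomorphic and zero free on a closed ball then the
minimum of its modulus over the sphere bounds the modulus at the centre. -/
theorem exists_zero_of_small {g : ℂ → ℂ} {c : ℂ} {r δ : ℝ} (hr : 0 < r) (hδ : 0 < δ)
    (hd : DifferentiableOn ℂ g (closedBall c r)) (hs : ∀ z ∈ sphere c r, δ ≤ ‖g z‖)
    (hc : ‖g c‖ < δ) : ∃ z ∈ ball c r, g z = 0 := by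
  by_contra hne
  push Not at hne
  have hne' : ∀ z ∈ closedBall c r, g z ≠ 0 := by
    intro z hz h0
    rcases (mem_closedBall.1 hz).lt_or_eq with h | h
    · exact hne z (mem_ball.2 h) h0
    · have := hs z (mem_sphere.2 h)
      rw [h0, norm_zero] at this
      linarith
  have hcl : closure (ball c r) = closedBall c r := closure_ball c hr.ne'
  have hdc : DiffContOnCl ℂ (fun z => (g z)⁻¹) (ball c r) := by
    apply DifferentiableOn.diffContOnCl
    rw [hcl]
    exact hd.inv hne'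
  have := Complex.norm_le_of_forall_mem_frontier_norm_le (isBounded_ball) hdc (C := δ⁻¹)
    (fun z hz => by
      rw [frontier_ball c hr.ne'] at hz
      rw [norm_inv]
      exact inv_anti₀ hδ (hs z hz)) (z := c) (subset_closure (mem_ball_self hr))
  rw [norm_inv] at this
  have h0 : 0 < ‖g c‖ := norm_pos_iff.2 (hne' c (mem_closedBall_self hr.le))
  have := (inv_le_inv₀ h0 hδ).1 this
  linarith

/-- If `f` is analytic on an open preconnected set and not constant, then around each point `c`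
there are arbitrarily small circles on which `f - f c` is bounded away from zero. -/
theorem exists_radius {f : ℂ → ℂ} {U : Set ℂ} (hU : IsOpen U) (hUc : IsPreconnected U)
    (hf : DifferentiableOn ℂ f U) {c : ℂ} (hc : c ∈ U) (hnc : ¬ ∀ z ∈ U, f z = f c)
    {ρ : ℝ} (hρ : 0 < ρ) :
    ∃ r, 0 < r ∧ r < ρ ∧ closedBall c r ⊆ U ∧ ∃ δ > 0, ∀ z ∈ sphere c r, δ ≤ ‖f z - f c‖ := by
  have han : AnalyticOnNhd ℂ f U := hf.analyticOnNhd hU
  have hac : AnalyticAt ℂ (fun z => f z - f c) c := (han c hc).sub analyticAt_const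
  rcases hac.eventually_eq_zero_or_eventually_ne_zero with h | h
  · exfalso
    apply hnc
    have := (han.sub (analyticOnNhd_const (v := f c))).eqOn_zero_of_preconnected_of_eventuallyEq_zero
      hUc hc h
    intro z hz
    have := this hz
    simpa [sub_eq_zero] using this
  · rw [eventually_nhdsWithin_iff] at h
    obtain ⟨ε, hε, hε'⟩ := Metric.eventually_nhds_iff.1 h
    obtain ⟨ε2, hε2, hε2'⟩ := Metric.isOpen_iff.1 hU c hc
    set r := min (min ε ε2) ρ / 2 with hr
    have hr0 : 0 < r := by positivity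
    have hr1 : r < ε := by
      have : min (min ε ε2) ρ ≤ ε := (min_le_left _ _).trans (min_le_left _ _)
      have : 0 < min (min ε ε2) ρ := by positivity
      linarith
    have hr2 : r < ε2 := by
      have : min (min ε ε2) ρ ≤ ε2 := (min_le_left _ _).trans (min_le_right _ _)
      have : 0 < min (min ε ε2) ρ := by positivity
      linarith
    have hr3 : r < ρ := by
      have : min (min ε ε2) ρ ≤ ρ := min_le_right _ _
      have : 0 < min (min ε ε2) ρ := by positivity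
      linarith
    have hsub : closedBall c r ⊆ U := (closedBall_subset_ball hr2).trans hε2'
    refine ⟨r, hr0, hr3, hsub, ?_⟩
    have hcomp : IsCompact (sphere c r) := isCompact_sphere c r
    have hne : (sphere c r).Nonempty := NormedSpace.sphere_nonempty.mpr hr0.le
    have hcont : ContinuousOn (fun z => ‖f z - f c‖) (sphere c r) :=
      ((hf.continuousOn.mono (sphere_subset_closedBall.trans hsub)).sub continuousOn_const).norm
    obtain ⟨z0, hz0, hmin⟩ := hcomp.exists_isMinOn hne hcont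
    refine ⟨‖f z0 - f c‖, ?_, fun z hz => hmin hz⟩
    have hz0' : dist z0 c = r := mem_sphere.1 hz0
    have : f z0 - f c ≠ 0 := hε' (by rw [hz0']; exact hr1) (by
      intro h
      rw [mem_singleton_iff.1 h, dist_self] at hz0'
      linarith)
    exact norm_pos_iff.2 this

/-- Uniform surjectivity (Hurwitz, quantitative): if `F n → f` locally uniformly on `U`, `f` not
constant, then every `w` close to `f c` is a value of `F n` near `c`, for all large `n`. -/
theorem hurwitz_value {ι : Type*} {l : Filter ι} {F : ι → ℂ → ℂ} {f : ℂ → ℂ} {U : Set ℂ}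
    (hU : IsOpen U) (hUc : IsPreconnected U) (hF : ∀ᶠ n in l, DifferentiableOn ℂ (F n) U)
    (hf : DifferentiableOn ℂ f U)
    (hlim : TendstoLocallyUniformlyOn F f l U) {c : ℂ} (hc : c ∈ U)
    (hnc : ¬ ∀ z ∈ U, f z = f c) {ρ : ℝ} (hρ : 0 < ρ) :
    ∃ η > 0, ∀ᶠ n in l, ∀ w ∈ ball (f c) η, ∃ z ∈ ball c ρ ∩ U, F n z = w := by
  obtain ⟨r, hr0, hrρ, hsub, δ, hδ, hs⟩ := exists_radius hU hUc hf hc hnc hρ
  have hunif : TendstoUniformlyOn F f l (closedBall c r) :=
    (tendstoLocallyUniformlyOn_iff_forall_isCompact hU).1 hlim _ hsub (isCompact_closedBall c r)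
  refine ⟨δ / 4, by positivity, ?_⟩
  have h1 := Metric.tendstoUniformlyOn_iff.1 hunif (δ / 4) (by positivity)
  filter_upwards [h1, hF] with n hn hFn
  intro w hw
  obtain ⟨z, hz, hz0⟩ := exists_zero_of_small (g := fun z => F n z - w) (c := c) (r := r)
    (δ := δ / 2) hr0 (by positivity) ((hFn.mono hsub).sub (differentiableOn_const _))
    (by
      intro z hz
      have h2 := hs z hz
      have h3 := hn z (sphere_subset_closedBall hz)
      have h4 := mem_ball.1 hw
      rw [dist_eq_norm] at h3 h4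
      have : f z - f c = (F n z - w) + (f z - F n z) + (w - f c) := by ring
      have h5 : ‖f z - f c‖ ≤ ‖F n z - w‖ + ‖f z - F n z‖ + ‖w - f c‖ := by
        rw [this]; exact norm_add₃_le
      linarith)
    (by
      have h3 := hn c (mem_closedBall_self hr0.le)
      have h4 := mem_ball.1 hw
      rw [dist_eq_norm] at h3 h4
      have : F n c - w = -(f c - F n c) - (w - f c) := by ring
      have h5 : ‖F n c - w‖ ≤ ‖f c - F n c‖ + ‖w - f c‖ := by
        rw [this]
        refine (norm_sub_le _ _).trans ?_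
        rw [norm_neg]
      linarith)
  refine ⟨z, ⟨ball_subset_ball hrρ.le hz, hsub (ball_subset_closedBall hz)⟩, ?_⟩
  simpa [sub_eq_zero] using hz0



end Crest.Agent.R105.Sig731
end

-- ▼ part R105/Sig2_731
section

/-!
R105 / Sig2_731: a covering theorem (Koebe with constant 1/32) and growth in the class Sigma.
-/

set_option autoImplicit false

open Set Metric Filter Complex
open scoped Topology

namespace Crest.Agent.R105.Sig731

/-- Square roots of zero free holomorphic functions on balls. -/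
theorem exists_sqrt {f : ℂ → ℂ} {c : ℂ} {r : ℝ} (hr : 0 < r)
    (hf : DifferentiableOn ℂ f (ball c r)) (hne : ∀ z ∈ ball c r, f z ≠ 0) {w : ℂ}
    (hw : w ^ 2 = f c) :
    ∃ F : ℂ → ℂ, DifferentiableOn ℂ F (ball c r) ∧ F c = w ∧ ∀ z ∈ ball c r, F z ^ 2 = f z := by
  obtain ⟨L, hL⟩ := ((hf.deriv isOpen_ball).div hf hne).isExactOn_ball
  have hfd : ∀ z ∈ ball c r, HasDerivAt f (deriv f z) z := fun z hz =>
    ((hf z hz).differentiableAt (isOpen_ball.mem_nhds hz)).hasDerivAt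
  have hhd : ∀ z ∈ ball c r, HasDerivAt (fun z => f z * exp (-(L z))) 0 z := by
    intro z hz
    have h1 := (hfd z hz).mul ((hL z hz).neg.cexp)
    have h2 := hne z hz
    have h3 : deriv f z * cexp ((-L) z) + f z * (cexp ((-L) z) * -(deriv f / f) z) = 0 := by
      have h4 : (deriv f / f) z = deriv f z / f z := rfl
      rw [h4]
      field_simp
      ring
    rw [h3] at h1
    exact h1
  have hconst : ∀ z ∈ ball c r, f z * exp (-(L z)) = f c * exp (-(L c)) := by
    intro z hz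
    exact IsOpen.is_const_of_deriv_eq_zero isOpen_ball (convex_ball c r).isPreconnected
      (fun y hy => (hhd y hy).differentiableAt.differentiableWithinAt)
      (fun y hy => (hhd y hy).deriv) hz (mem_ball_self hr)
  refine ⟨fun z => w * exp ((L z - L c) / 2), ?_, by simp, ?_⟩
  · intro z hz
    exact (((((hL z hz).sub_const (L c)).div_const 2).cexp).const_mul
      w).differentiableAt.differentiableWithinAt
  · intro z hz
    have h1 := hconst z hz
    have h2 : (w * exp ((L z - L c) / 2)) ^ 2 = w ^ 2 * exp (L z - L c) := by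
      rw [mul_pow, ← Complex.exp_nat_mul]
      congr 2
      push_cast
      ring
    rw [h2, hw, sub_eq_add_neg, Complex.exp_add]
    have h3 : exp (-(L z)) * exp (L z) = 1 := by rw [← Complex.exp_add]; simp
    calc f c * (exp (L z) * exp (-(L c))) = (f c * exp (-(L c))) * exp (L z) := by ring
      _ = (f z * exp (-(L z))) * exp (L z) := by rw [h1]
      _ = f z * (exp (-(L z)) * exp (L z)) := by ring
      _ = f z := by rw [h3, mul_one]

/-- Koebe type covering theorem with constant `1/32`, normalised form. -/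
theorem cover_one {f : ℂ → ℂ} (hf : DifferentiableOn ℂ f (ball 0 1)) (hinj : InjOn f (ball 0 1))
    (h0 : f 0 = 0) (h1 : deriv f 0 = 1) : ball (0 : ℂ) (1 / 32) ⊆ f '' ball 0 1 := by
  have hm0 : (0 : ℂ) ∈ ball (0 : ℂ) 1 := mem_ball_self one_pos
  -- images of open balls are open
  have hopen : ∀ {g : ℂ → ℂ}, DifferentiableOn ℂ g (ball 0 1) → InjOn g (ball 0 1) →
      ∀ s ⊆ ball (0 : ℂ) 1, IsOpen s → IsOpen (g '' s) := by
    intro g hg hgi s hs hso
    rcases (hg.analyticOnNhd isOpen_ball).is_constant_or_isOpen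
      (convex_ball (0 : ℂ) 1).isPreconnected with h | h
    · exfalso
      obtain ⟨w, hw⟩ := h
      have hh : (1 / 2 : ℂ) ∈ ball (0 : ℂ) 1 := by simp; norm_num
      have := hgi hm0 hh (by rw [hw _ hm0, hw _ hh])
      norm_num at this
    · exact h s hs hso
  by_contra hcon
  obtain ⟨w, hw, hw'⟩ := not_subset.1 hcon
  set O : Set ℂ := (f '' ball 0 1)ᶜ with hO
  have hOcl : IsClosed O := (hopen hf hinj _ subset_rfl isOpen_ball).isClosed_compl
  have hOne : O.Nonempty := ⟨w, hw'⟩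
  obtain ⟨w1, hw1, hw1d⟩ := hOcl.exists_infDist_eq_dist hOne 0
  have hr0 : ∀ v, ‖v‖ < ‖w1‖ → v ∈ f '' ball 0 1 := by
    intro v hv
    by_contra hv'
    have := infDist_le_dist_of_mem (x := (0 : ℂ)) (show v ∈ O from hv')
    rw [hw1d, dist_zero_left, dist_zero_left] at this
    linarith
  have hw1le : ‖w1‖ < 1 / 32 := by
    have := infDist_le_dist_of_mem (x := (0 : ℂ)) (show w ∈ O from hw')
    rw [hw1d, dist_zero_left, dist_zero_left] at this
    have := mem_ball_zero_iff.1 hw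
    linarith
  have hw1ne : w1 ≠ 0 := by
    rintro rfl
    exact hw1 ⟨0, hm0, h0⟩
  have hw1pos : 0 < ‖w1‖ := norm_pos_iff.2 hw1ne
  obtain ⟨F, hFd, hF0, hF2⟩ := exists_sqrt (f := fun z => 1 - f z / w1) (c := 0) (r := 1) one_pos
    ((differentiableOn_const _).sub (hf.div_const _)) (by
      intro z hz h
      apply hw1
      refine ⟨z, hz, ?_⟩
      have h2 : f z / w1 = 1 := by linear_combination -h
      rwa [div_eq_one_iff_eq hw1ne] at h2) (w := 1) (by simp [h0])
  have hFf : ∀ a ∈ ball (0 : ℂ) 1, ∀ b ∈ ball (0 : ℂ) 1, F a ^ 2 = F b ^ 2 → a = b := by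
    intro a ha b hb h
    rw [hF2 a ha, hF2 b hb] at h
    apply hinj ha hb
    have : f a / w1 = f b / w1 := by linear_combination -h
    field_simp at this
    exact this
  have hFinj : InjOn F (ball 0 1) := fun a ha b hb h => hFf a ha b hb (by rw [h])
  have hFne : ∀ a ∈ ball (0 : ℂ) 1, F a ≠ 0 := by
    intro a ha h
    have := hF2 a ha
    rw [h] at this
    apply hw1
    refine ⟨a, ha, ?_⟩
    have h2 : f a / w1 = 1 := by linear_combination this
    rwa [div_eq_one_iff_eq hw1ne] at h2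
  have hFneg : ∀ a ∈ ball (0 : ℂ) 1, ∀ b ∈ ball (0 : ℂ) 1, F a ≠ - F b := by
    intro a ha b hb h
    have hab := hFf a ha b hb (by rw [h]; ring)
    subst hab
    apply hFne a ha
    have : 2 * F a = 0 := by linear_combination h
    simpa using this
  -- the values near 1 are attained
  have hA : ball (1 : ℂ) (2 / 5) ⊆ F '' ball 0 1 := by
    have hAo : IsOpen (F '' ball 0 1) := hopen hFd hFinj _ subset_rfl isOpen_ball
    have hBo : IsOpen ((fun z => - F z) '' ball 0 1) :=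
      hopen hFd.neg (fun a ha b hb h => hFinj ha hb (neg_injective h)) _ subset_rfl isOpen_ball
    have hcov : ball (1 : ℂ) (2 / 5) ⊆ F '' ball 0 1 ∪ (fun z => - F z) '' ball 0 1 := by
      intro u hu
      have hu' : ‖u - 1‖ < 2 / 5 := by rwa [mem_ball, dist_eq_norm] at hu
      have h3 : ‖1 - u ^ 2‖ < 1 := by
        have e : 1 - u ^ 2 = -((u - 1) * ((u - 1) + 2)) := by ring
        rw [e, norm_neg, norm_mul]
        have h4 : ‖(u - 1) + 2‖ ≤ ‖u - 1‖ + 2 := by
          refine (norm_add_le _ _).trans ?_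
          simp
        have h5 : 0 ≤ ‖u - 1‖ := norm_nonneg _
        nlinarith
      obtain ⟨b, hb, hb'⟩ := hr0 (w1 * (1 - u ^ 2)) (by
        rw [norm_mul]
        nlinarith)
      have h6 : F b ^ 2 = u ^ 2 := by
        rw [hF2 b hb, hb']
        field_simp
        ring
      rcases sq_eq_sq_iff_eq_or_eq_neg.1 h6 with h | h
      · exact Or.inl ⟨b, hb, h⟩
      · exact Or.inr ⟨b, hb, by simp [h]⟩
    have hpre := (convex_ball (1 : ℂ) (2 / 5)).isPreconnected
    refine hpre.subset_left_of_subset_union hAo hBo ?_ hcov ⟨1, mem_ball_self (by norm_num), 0, hm0,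
      hF0⟩
    rw [Set.disjoint_left]
    rintro _ ⟨a, ha, rfl⟩ ⟨b, hb, hab⟩
    exact hFneg a ha b hb hab.symm
  have hfar : ∀ a ∈ ball (0 : ℂ) 1, 2 / 5 ≤ ‖F a + 1‖ := by
    intro a ha
    by_contra hlt
    push Not at hlt
    obtain ⟨b, hb, hb'⟩ := hA (show -F a ∈ ball (1 : ℂ) (2 / 5) by
      rw [mem_ball, dist_eq_norm]
      have e : -F a - 1 = -(F a + 1) := by ring
      rw [e, norm_neg]
      exact hlt)
    exact hFneg b hb a ha hb'
  have hFa1 : ∀ a ∈ ball (0 : ℂ) 1, F a + 1 ≠ 0 := by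
    intro a ha h
    have := hfar a ha
    rw [h, norm_zero] at this
    norm_num at this
  have hGd : DifferentiableOn ℂ (fun z => (F z + 1)⁻¹) (ball 0 1) :=
    (hFd.add_const 1).inv hFa1
  have hG0 : (F 0 + 1)⁻¹ = (1 / 2 : ℂ) := by rw [hF0]; norm_num
  have hmaps : MapsTo (fun z => (F z + 1)⁻¹) (ball (0 : ℂ) 1) (ball ((fun z => (F z + 1)⁻¹) 0) 4) := by
    intro z hz
    simp only [hG0]
    rw [mem_ball, dist_eq_norm]
    have h3 : ‖(F z + 1)⁻¹‖ ≤ 5 / 2 := by
      rw [norm_inv]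
      have := inv_anti₀ (by norm_num) (hfar z hz)
      norm_num at this ⊢
      exact this
    have h4 : ‖(F z + 1)⁻¹ - 1 / 2‖ ≤ ‖(F z + 1)⁻¹‖ + ‖(1 / 2 : ℂ)‖ := norm_sub_le _ _
    have h5 : ‖(1 / 2 : ℂ)‖ = 1 / 2 := by simp
    rw [h5] at h4
    linarith
  have hGder := Complex.norm_deriv_le_div_of_mapsTo_ball hGd
    (hmaps.mono_right ball_subset_closedBall) one_pos
  have hFd0 : HasDerivAt F (deriv F 0) 0 :=
    ((hFd 0 hm0).differentiableAt (isOpen_ball.mem_nhds hm0)).hasDerivAt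
  have hfd0 : HasDerivAt f 1 0 := by
    rw [← h1]
    exact ((hf 0 hm0).differentiableAt (isOpen_ball.mem_nhds hm0)).hasDerivAt
  have hGder' : HasDerivAt (fun z => (F z + 1)⁻¹) (-(deriv F 0) / (F 0 + 1) ^ 2) 0 :=
    (hFd0.add_const 1).inv (hFa1 0 hm0)
  rw [hGder'.deriv] at hGder
  have hsq : HasDerivAt (fun z => F z ^ 2) (2 * F 0 * deriv F 0) 0 := by
    have := hFd0.pow 2
    have e : ((2 : ℕ) : ℂ) * F 0 ^ (2 - 1) * deriv F 0 = 2 * F 0 * deriv F 0 := by norm_num
    rw [e] at this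
    exact this
  have hsq' : HasDerivAt (fun z => F z ^ 2) (-(1 / w1)) 0 := by
    have h3 : HasDerivAt (fun z => 1 - f z / w1) (-(1 / w1)) 0 := by
      simpa using (hfd0.div_const w1).const_sub 1
    apply h3.congr_of_eventuallyEq
    filter_upwards [isOpen_ball.mem_nhds hm0] with z hz
    exact hF2 z hz
  have heq := hsq.unique hsq'
  rw [hF0] at heq
  have hFd0n : ‖deriv F 0‖ = 1 / (2 * ‖w1‖) := by
    have : deriv F 0 = -(1 / w1) / 2 := by linear_combination heq / 2
    rw [this, norm_div, norm_neg, norm_div]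
    simp
    field_simp
  rw [hF0] at hGder
  have h4 : ‖-(deriv F 0) / (1 + 1) ^ 2‖ = 1 / (8 * ‖w1‖) := by
    rw [norm_div, norm_neg, hFd0n]
    norm_num
    field_simp
    norm_num
  rw [h4] at hGder
  have h5 : 1 / (8 * ‖w1‖) ≤ 4 := by simpa using hGder
  rw [div_le_iff₀ (by positivity)] at h5
  linarith

/-- Koebe type covering theorem with constant `1/32`. -/
theorem cover_ball {f : ℂ → ℂ} {c : ℂ} {ρ : ℝ} (hρ : 0 < ρ)
    (hf : DifferentiableOn ℂ f (ball c ρ)) (hinj : InjOn f (ball c ρ)) :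
    ball (f c) (ρ * ‖deriv f c‖ / 32) ⊆ f '' ball c ρ := by
  by_cases hd : deriv f c = 0
  · rw [hd]
    simp
  have hmc : c ∈ ball c ρ := mem_ball_self hρ
  have hd' : 0 < ‖deriv f c‖ := norm_pos_iff.2 hd
  have hρc : (ρ : ℂ) ≠ 0 := by exact_mod_cast hρ.ne'
  set a : ℂ := ρ * deriv f c with ha
  have ha0 : a ≠ 0 := mul_ne_zero hρc hd
  have hmap : ∀ z ∈ ball (0 : ℂ) 1, c + ρ * z ∈ ball c ρ := by
    intro z hz
    rw [mem_ball, dist_eq_norm]
    rw [mem_ball_zero_iff] at hz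
    simp only [add_sub_cancel_left, norm_mul, norm_real, Real.norm_eq_abs, abs_of_pos hρ]
    nlinarith
  have hfd0 : HasDerivAt f (deriv f c) c :=
    ((hf c hmc).differentiableAt (isOpen_ball.mem_nhds hmc)).hasDerivAt
  have hin : HasDerivAt (fun z : ℂ => c + ρ * z) (ρ : ℂ) 0 := by
    simpa using ((hasDerivAt_id (0 : ℂ)).const_mul (ρ : ℂ)).const_add c
  have hder : HasDerivAt (fun z => (f (c + ρ * z) - f c) / a) 1 0 := by
    have h2 : HasDerivAt f (deriv f c) (c + ρ * 0) := by simpa using hfd0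
    have := ((h2.comp (0 : ℂ) hin).sub_const (f c)).div_const a
    have e : deriv f c * (ρ : ℂ) / a = 1 := by
      rw [ha]
      field_simp
    rw [e] at this
    exact this
  have hone := cover_one (f := fun z => (f (c + ρ * z) - f c) / a)
    (by
      have h2 : DifferentiableOn ℂ (fun z : ℂ => c + ρ * z) (ball 0 1) :=
        (differentiableOn_const c).add ((differentiableOn_const _).mul differentiableOn_id)
      exact (((hf.comp h2 hmap).sub_const (f c)).div_const a))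
    (by
      intro z hz z' hz' h
      simp only at h
      have h3 : f (c + ρ * z) = f (c + ρ * z') := by
        field_simp at h
        linear_combination h
      have := hinj (hmap z hz) (hmap z' hz') h3
      have h4 : (ρ : ℂ) * z = ρ * z' := by linear_combination this
      exact mul_left_cancel₀ hρc h4)
    (by simp) hder.deriv
  intro w hw
  obtain ⟨z, hz, hz'⟩ := hone (show (w - f c) / a ∈ ball (0 : ℂ) (1 / 32) by
    rw [mem_ball_zero_iff, norm_div, div_lt_iff₀ (norm_pos_iff.2 ha0), ha, norm_mul, norm_real,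
      Real.norm_eq_abs, abs_of_pos hρ]
    rw [mem_ball, dist_eq_norm] at hw
    linarith)
  refine ⟨c + ρ * z, hmap z hz, ?_⟩
  simp only at hz'
  field_simp at hz'
  linear_combination hz'

end Crest.Agent.R105.Sig731
end

-- ▼ part R105/Sig3_731
section

/-!
R105 / Sig3_731: the class Sigma: growth, omitted values.
-/

set_option autoImplicit false

open Set Metric Filter Complex
open scoped Topology

namespace Crest.Agent.R105.Sig731

/-- The class `Sigma(U)`: univalent maps of `U` normalised by `f z = z + o(1)` at infinity. -/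
def Sig (U : Set ℂ) (f : ℂ → ℂ) : Prop :=
  DifferentiableOn ℂ f U ∧ InjOn f U ∧ Tendsto (fun z => f z - z) (cocompact ℂ) (𝓝 0)

theorem tendsto_inv_cocompact : Tendsto (fun ζ : ℂ => ζ⁻¹) (𝓝[≠] 0) (cocompact ℂ) := by
  rw [← Metric.cobounded_eq_cocompact]
  exact tendsto_inv₀_nhdsNE_zero

theorem isOpen_ext (R : ℝ) : IsOpen {z : ℂ | R < ‖z‖} := isOpen_lt continuous_const continuous_norm

theorem mem_ext_of_inv {R : ℝ} (hR : 0 < R) {ζ : ℂ} (hζ : ζ ∈ ball (0 : ℂ) R⁻¹) (h0 : ζ ≠ 0) :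
    R < ‖ζ⁻¹‖ := by
  rw [mem_ball_zero_iff] at hζ
  rw [norm_inv]
  rw [lt_inv_comm₀ hR (norm_pos_iff.2 h0)]
  exact hζ

/-- Removal of the singularity at infinity. -/
theorem ext_inf {R : ℝ} (hR : 0 < R) {φ : ℂ → ℂ} {L : ℂ}
    (hφ : DifferentiableOn ℂ φ {z | R < ‖z‖}) (hlim : Tendsto φ (cocompact ℂ) (𝓝 L)) :
    DifferentiableOn ℂ (fun ζ => if ζ = 0 then L else φ ζ⁻¹) (ball 0 R⁻¹) := by
  classical
  have hne : ∀ ζ ∈ ball (0 : ℂ) R⁻¹, ζ ≠ 0 →
      DifferentiableAt ℂ (fun ζ => if ζ = 0 then L else φ ζ⁻¹) ζ := by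
    intro ζ hζ h0
    have h1 : DifferentiableAt ℂ (fun ζ => φ ζ⁻¹) ζ := by
      have h2 := (hφ _ (mem_ext_of_inv hR hζ h0)).differentiableAt
        ((isOpen_ext R).mem_nhds (mem_ext_of_inv hR hζ h0))
      exact h2.comp ζ (differentiableAt_inv h0)
    apply h1.congr_of_eventuallyEq
    filter_upwards [isOpen_ne.mem_nhds h0] with z hz
    rw [if_neg hz]
  intro ζ hζ
  by_cases h0 : ζ = 0
  · subst h0
    apply DifferentiableAt.differentiableWithinAt
    apply AnalyticAt.differentiableAt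
    apply Complex.analyticAt_of_differentiable_on_punctured_nhds_of_continuousAt
    · rw [eventually_nhdsWithin_iff]
      filter_upwards [isOpen_ball.mem_nhds hζ] with z hz hz0
      exact hne z hz hz0
    · have : ContinuousAt (fun ζ : ℂ => if ζ = 0 then L else φ ζ⁻¹) 0 ↔
          Tendsto (fun ζ : ℂ => if ζ = 0 then L else φ ζ⁻¹) (𝓝[≠] 0) (𝓝 L) := by
        rw [continuousAt_iff_punctured_nhds]
        simp
      rw [this]
      have h1 : Tendsto (fun ζ : ℂ => φ ζ⁻¹) (𝓝[≠] 0) (𝓝 L) := hlim.comp tendsto_inv_cocompact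
      apply h1.congr'
      filter_upwards [self_mem_nhdsWithin] with z hz
      have hz' : z ≠ 0 := hz
      simp only [if_neg hz']
  · exact (hne ζ hζ h0).differentiableWithinAt

/-- The transformed map `1 / (g (1/ζ) - w₀)`. -/
noncomputable def hmap (g : ℂ → ℂ) (w₀ : ℂ) (ζ : ℂ) : ℂ := if ζ = 0 then 0 else (g ζ⁻¹ - w₀)⁻¹

theorem hmap_spec {r : ℝ} (hr : 0 < r) {g : ℂ → ℂ} {w₀ : ℂ}
    (hg : DifferentiableOn ℂ g {z | r < ‖z‖}) (hinj : InjOn g {z | r < ‖z‖})
    (hlim : Tendsto (fun z => g z - z) (cocompact ℂ) (𝓝 0))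
    (hw : ∀ z, r < ‖z‖ → g z ≠ w₀) :
    HasDerivAt (hmap g w₀) 1 0 ∧ DifferentiableOn ℂ (hmap g w₀) (ball 0 r⁻¹) ∧
      InjOn (hmap g w₀) (ball 0 r⁻¹) := by
  classical
  have h1 : HasDerivAt (hmap g w₀) 1 0 := by
    rw [hasDerivAt_iff_tendsto_slope_zero]
    have h2 : Tendsto (fun t : ℂ => (t * (g t⁻¹ - t⁻¹) + 1 - t * w₀)⁻¹) (𝓝[≠] 0) (𝓝 1) := by
      have h3 : Tendsto (fun t : ℂ => g t⁻¹ - t⁻¹) (𝓝[≠] 0) (𝓝 0) :=
        hlim.comp tendsto_inv_cocompact
      have h4 : Tendsto (fun t : ℂ => t) (𝓝[≠] 0) (𝓝 0) := tendsto_id.mono_left nhdsWithin_le_nhds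
      have h5 := (((h4.mul h3).add_const 1).sub (h4.mul_const w₀)).inv₀ (by simp)
      simpa using h5
    apply h2.congr'
    filter_upwards [self_mem_nhdsWithin] with t ht
    have ht' : t ≠ 0 := ht
    simp only [hmap, zero_add, if_neg ht', if_true, sub_zero, smul_eq_mul]
    rw [← mul_inv]
    congr 1
    field_simp
    ring
  refine ⟨h1, ?_, ?_⟩
  · intro ζ hζ
    by_cases h0 : ζ = 0
    · subst h0
      exact h1.differentiableAt.differentiableWithinAt
    · apply DifferentiableAt.differentiableWithinAt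
      have h2 := (hg _ (mem_ext_of_inv hr hζ h0)).differentiableAt
        ((isOpen_ext r).mem_nhds (mem_ext_of_inv hr hζ h0))
      have h3 : DifferentiableAt ℂ (fun ζ => (g ζ⁻¹ - w₀)⁻¹) ζ :=
        ((h2.comp ζ (differentiableAt_inv h0)).sub_const w₀).inv
          (sub_ne_zero.2 (hw _ (mem_ext_of_inv hr hζ h0)))
      apply h3.congr_of_eventuallyEq
      filter_upwards [isOpen_ne.mem_nhds h0] with z hz
      simp only [hmap]
      rw [if_neg hz]
  · intro a ha b hb hab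
    simp only [hmap] at hab
    by_cases ha0 : a = 0
    · by_cases hb0 : b = 0
      · rw [ha0, hb0]
      · rw [if_pos ha0, if_neg hb0] at hab
        exact absurd hab.symm (inv_ne_zero (sub_ne_zero.2 (hw _ (mem_ext_of_inv hr hb hb0))))
    · by_cases hb0 : b = 0
      · rw [if_pos hb0, if_neg ha0] at hab
        exact absurd hab (inv_ne_zero (sub_ne_zero.2 (hw _ (mem_ext_of_inv hr ha ha0))))
      · rw [if_neg ha0, if_neg hb0] at hab
        have h2 := hinj (mem_ext_of_inv hr ha ha0) (mem_ext_of_inv hr hb hb0)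
          (sub_left_injective (inv_injective hab))
        exact inv_injective h2

/-- Values far from an omitted value are attained. -/
theorem attained_of_far {r : ℝ} (hr : 0 < r) {g : ℂ → ℂ} {w₀ : ℂ}
    (hg : DifferentiableOn ℂ g {z | r < ‖z‖}) (hinj : InjOn g {z | r < ‖z‖})
    (hlim : Tendsto (fun z => g z - z) (cocompact ℂ) (𝓝 0))
    (hw : ∀ z, r < ‖z‖ → g z ≠ w₀) {w : ℂ} (hfar : 32 * r < ‖w - w₀‖) :
    ∃ z, r < ‖z‖ ∧ g z = w := by
  classical
  obtain ⟨h1, h2, h3⟩ := hmap_spec hr hg hinj hlim hw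
  have hr' : 0 < r⁻¹ := inv_pos.2 hr
  have hcov := cover_ball hr' h2 h3
  rw [h1.deriv] at hcov
  have hh0 : hmap g w₀ 0 = 0 := by simp [hmap]
  rw [hh0, norm_one, mul_one] at hcov
  have hpos : 0 < ‖w - w₀‖ := by
    have : 0 < 32 * r := by positivity
    linarith
  have hmem : (w - w₀)⁻¹ ∈ ball (0 : ℂ) (r⁻¹ / 32) := by
    rw [mem_ball_zero_iff, norm_inv]
    have : r⁻¹ / 32 = (32 * r)⁻¹ := by
      rw [mul_inv]; ring
    rw [this]
    exact inv_strictAnti₀ (by positivity) hfar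
  obtain ⟨ζ, hζ, hζ'⟩ := hcov hmem
  have hne : (w - w₀)⁻¹ ≠ 0 := inv_ne_zero (norm_pos_iff.1 hpos)
  have h0 : ζ ≠ 0 := by
    rintro rfl
    rw [hh0] at hζ'
    exact hne hζ'.symm
  refine ⟨ζ⁻¹, mem_ext_of_inv hr hζ h0, ?_⟩
  simp only [hmap, if_neg h0] at hζ'
  exact sub_left_injective (inv_injective hζ')

/-- Linear growth with respect to an omitted value. -/
theorem growth_of_omitted {r : ℝ} (hr : 0 < r) {g : ℂ → ℂ} {w₀ : ℂ}
    (hg : DifferentiableOn ℂ g {z | r < ‖z‖}) (hinj : InjOn g {z | r < ‖z‖})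
    (hlim : Tendsto (fun z => g z - z) (cocompact ℂ) (𝓝 0))
    (hw : ∀ z, r < ‖z‖ → g z ≠ w₀) {z : ℂ} (hz : r < ‖z‖) :
    ‖g z - w₀‖ ≤ 32 * ‖z‖ := by
  classical
  obtain ⟨h1, h2, h3⟩ := hmap_spec hr hg hinj hlim hw
  by_contra hcon
  push Not at hcon
  have hz0 : 0 < ‖z‖ := hr.trans hz
  have hzr : ‖z‖⁻¹ < r⁻¹ := inv_strictAnti₀ hr hz
  have hsub : ball (0 : ℂ) ‖z‖⁻¹ ⊆ ball 0 r⁻¹ := ball_subset_ball hzr.le
  have hcov := cover_ball (inv_pos.2 hz0) (h2.mono hsub) (h3.mono hsub)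
  rw [h1.deriv] at hcov
  have hh0 : hmap g w₀ 0 = 0 := by simp [hmap]
  rw [hh0, norm_one, mul_one] at hcov
  have hzne : z ≠ 0 := norm_pos_iff.1 hz0
  have hval : hmap g w₀ z⁻¹ = (g z - w₀)⁻¹ := by
    simp only [hmap, if_neg (inv_ne_zero hzne), inv_inv]
  have hmem : hmap g w₀ z⁻¹ ∈ ball (0 : ℂ) (‖z‖⁻¹ / 32) := by
    rw [mem_ball_zero_iff, hval, norm_inv]
    have : ‖z‖⁻¹ / 32 = (32 * ‖z‖)⁻¹ := by
      rw [mul_inv]; ring
    rw [this]
    exact inv_strictAnti₀ (by positivity) hcon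
  obtain ⟨ζ, hζ, hζ'⟩ := hcov hmem
  have hzm : z⁻¹ ∈ ball (0 : ℂ) r⁻¹ := by
    rw [mem_ball_zero_iff, norm_inv]; exact hzr
  have := h3 (hsub hζ) hzm hζ'
  rw [this, mem_ball_zero_iff, norm_inv] at hζ
  exact lt_irrefl _ hζ

/-- `g` tends to infinity. -/
theorem eventually_norm_gt {g : ℂ → ℂ} (hlim : Tendsto (fun z => g z - z) (cocompact ℂ) (𝓝 0))
    (M : ℝ) : ∃ r > 0, ∀ z, r < ‖z‖ → M < ‖g z‖ := by
  have h1 := (Metric.tendsto_nhds.1 hlim) 1 one_pos
  rw [← Metric.cobounded_eq_cocompact] at h1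
  obtain ⟨r, hr⟩ := (hasBasis_cobounded_norm (E := ℂ)).eventually_iff.1 h1
  refine ⟨max (max r 1) (M + 2), lt_of_lt_of_le one_pos ((le_max_right _ _).trans (le_max_left _ _)),
    fun z hz => ?_⟩
  have hz1 : r ≤ ‖z‖ := ((le_max_left _ _).trans (le_max_left _ _)).trans hz.le
  have hz2 : M + 2 < ‖z‖ := lt_of_le_of_lt (le_max_right _ _) hz
  have h2 : dist (g z - z) 0 < 1 := hr.2 hz1
  rw [dist_zero_right] at h2
  have h3 : ‖z‖ ≤ ‖g z‖ + ‖g z - z‖ := by
    have : z = g z - (g z - z) := by ring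
    calc ‖z‖ = ‖g z - (g z - z)‖ := by rw [← this]
      _ ≤ _ := norm_sub_le _ _
  linarith

/-- Univalent maps of the exterior of a disc omit a value. -/
theorem exists_omitted {R : ℝ} (hR : 0 < R) {g : ℂ → ℂ}
    (hg : DifferentiableOn ℂ g {z | R < ‖z‖}) (hinj : InjOn g {z | R < ‖z‖})
    (hlim : Tendsto (fun z => g z - z) (cocompact ℂ) (𝓝 0)) :
    ∃ w₀, ∀ z, R < ‖z‖ → g z ≠ w₀ := by
  by_contra hcon
  push Not at hcon
  obtain ⟨r0, hr0, hr0'⟩ := eventually_norm_gt hlim 0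
  set r1 := max r0 (R + 1) with hr1
  have hr1pos : 0 < r1 := lt_of_lt_of_le hr0 (le_max_left _ _)
  have hRr1 : R < r1 := lt_of_lt_of_le (by linarith) (le_max_right _ _)
  have hsub1 : {z : ℂ | r1 < ‖z‖} ⊆ {z | R < ‖z‖} := fun z hz => hRr1.trans hz
  have hw : ∀ z, r1 < ‖z‖ → g z ≠ 0 := by
    intro z hz
    have := hr0' z (lt_of_le_of_lt (le_max_left _ _) hz)
    exact norm_pos_iff.1 this
  have hatt : ∀ w, 32 * r1 < ‖w‖ → ∃ z, r1 < ‖z‖ ∧ g z = w := by
    intro w hw'
    exact attained_of_far hr1pos (hg.mono hsub1) (hinj.mono hsub1) hlim hw (by simpa using hw')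
  -- open mapping
  have hopen : ∀ s ⊆ {z : ℂ | R < ‖z‖}, IsOpen s → IsOpen (g '' s) := by
    intro s hs hso
    rw [isOpen_iff_mem_nhds]
    rintro _ ⟨a, ha, rfl⟩
    have haR := hs ha
    have han : AnalyticAt ℂ g a := (hg.analyticOnNhd (isOpen_ext R)) a haR
    rcases han.eventually_constant_or_nhds_le_map_nhds with h | h
    · exfalso
      have h2 : ∀ᶠ z in 𝓝 a, R < ‖z‖ := (isOpen_ext R).mem_nhds haR
      obtain ⟨ε, hε, hε'⟩ := Metric.eventually_nhds_iff.1 (h.and h2)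
      have h3 : dist (a + (ε / 2 : ℝ)) a < ε := by
        rw [dist_eq_norm]
        simp only [add_sub_cancel_left, norm_real, Real.norm_eq_abs]
        rw [abs_of_pos (by positivity)]
        linarith
      have h4 := hε' h3
      have h5 := hinj h4.2 haR h4.1
      have : ((ε / 2 : ℝ) : ℂ) = 0 := by linear_combination h5
      rw [ofReal_eq_zero] at this
      linarith
    · exact h (image_mem_map (hso.mem_nhds ha))
  set K : Set ℂ := {z | R < ‖z‖ ∧ ‖z‖ ≤ r1} with hK
  have hgK : g '' K = (g '' {z : ℂ | r1 < ‖z‖})ᶜ := by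
    ext w
    constructor
    · rintro ⟨z, hz, rfl⟩ ⟨z', hz', h⟩
      have := hinj (hsub1 hz') hz.1 h
      subst this
      exact absurd hz.2 (not_le.2 hz')
    · intro hw'
      obtain ⟨z, hz, rfl⟩ := hcon w
      refine ⟨z, ⟨hz, ?_⟩, rfl⟩
      by_contra hlt
      exact hw' ⟨z, not_le.1 hlt, rfl⟩
  have hgKc : IsCompact (g '' K) := by
    apply (isCompact_closedBall (0 : ℂ) (32 * r1)).of_isClosed_subset
    · rw [hgK]
      exact (hopen _ hsub1 (isOpen_ext r1)).isClosed_compl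
    · intro w hw'
      rw [mem_closedBall_zero_iff]
      by_contra hlt
      rw [hgK] at hw'
      obtain ⟨z, hz, hz'⟩ := hatt w (not_le.1 hlt)
      exact hw' ⟨z, hz, hz'⟩
  let zn : ℕ → ℂ := fun n => ((R + (r1 - R) * (1 / ((n : ℝ) + 1)) : ℝ) : ℂ)
  have hznn : ∀ n, ‖zn n‖ = R + (r1 - R) * (1 / ((n : ℝ) + 1)) := by
    intro n
    simp only [zn, norm_real, Real.norm_eq_abs]
    rw [abs_of_pos]
    have : 0 < r1 - R := by linarith
    positivity
  have hznK : ∀ n, zn n ∈ K := by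
    intro n
    have h1 : 0 < r1 - R := by linarith
    have h2 : 0 < 1 / ((n : ℝ) + 1) := by positivity
    have h3 : 1 / ((n : ℝ) + 1) ≤ 1 := by
      rw [div_le_one (by positivity)]
      have : (0 : ℝ) ≤ n := Nat.cast_nonneg n
      linarith
    refine ⟨?_, ?_⟩
    · rw [hznn]
      have := mul_pos h1 h2
      linarith
    · rw [hznn]
      nlinarith
  obtain ⟨a, ⟨z', hz'K, hz'a⟩, φ, hφ, hφlim⟩ :=
    hgKc.tendsto_subseq (fun n => mem_image_of_mem g (hznK n))
  have hz'R : R < ‖z'‖ := hz'K.1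
  set ε := (‖z'‖ - R) / 2 with hε
  have hεpos : 0 < ε := by rw [hε]; linarith
  have hball : ball z' ε ⊆ {z : ℂ | R < ‖z‖} := by
    intro y hy
    have h1 := mem_ball.1 hy
    have h2 := norm_sub_norm_le z' y
    rw [← dist_eq_norm, dist_comm] at h2
    change R < ‖y‖
    have : ‖z'‖ - R = 2 * ε := by rw [hε]; ring
    linarith
  have hnb : g '' ball z' ε ∈ 𝓝 a := by
    rw [← hz'a]
    exact (hopen _ hball isOpen_ball).mem_nhds ⟨z', mem_ball_self hεpos, rfl⟩
  have hev := hφlim.eventually_mem hnb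
  have hlimz : Tendsto (fun n => ‖zn (φ n)‖) atTop (𝓝 R) := by
    have h1 : Tendsto (fun n : ℕ => R + (r1 - R) * (1 / ((n : ℝ) + 1))) atTop
        (𝓝 (R + (r1 - R) * 0)) :=
      (tendsto_one_div_add_atTop_nhds_zero_nat.const_mul _).const_add _
    rw [mul_zero, add_zero] at h1
    have h2 := h1.comp hφ.tendsto_atTop
    refine h2.congr fun n => ?_
    simp only [Function.comp]
    rw [hznn]
  have hev2 : ∀ᶠ n in atTop, ‖zn (φ n)‖ < R + ε :=
    hlimz.eventually (gt_mem_nhds (by linarith))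
  obtain ⟨n, hn1, hn2⟩ := (hev.and hev2).exists
  obtain ⟨y, hy, hy'⟩ := hn1
  have := hinj (hball hy) (hznK (φ n)).1 hy'
  rw [← this] at hn2
  have h1 := mem_ball.1 hy
  have h2 := norm_sub_norm_le z' y
  rw [← dist_eq_norm, dist_comm] at h2
  have : ‖z'‖ - R = 2 * ε := by rw [hε]; ring
  linarith

/-- Maximum principle at infinity. -/
theorem ext_max {R r : ℝ} (hR : 0 < R) (hRr : R < r) {φ : ℂ → ℂ} {L : ℂ} {M : ℝ}
    (hφ : DifferentiableOn ℂ φ {z | R < ‖z‖}) (hlim : Tendsto φ (cocompact ℂ) (𝓝 L))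
    (hM : ∀ z, ‖z‖ = r → ‖φ z‖ ≤ M) :
    ‖L‖ ≤ M ∧ ∀ z, r < ‖z‖ → ‖φ z‖ ≤ M := by
  classical
  have hr : 0 < r := hR.trans hRr
  have hd := ext_inf hR hφ hlim
  have hri : 0 < r⁻¹ := inv_pos.2 hr
  have hlt : r⁻¹ < R⁻¹ := inv_strictAnti₀ hR hRr
  have hdc : DiffContOnCl ℂ (fun ζ => if ζ = 0 then L else φ ζ⁻¹) (ball 0 r⁻¹) := by
    apply DifferentiableOn.diffContOnCl
    rw [closure_ball _ hri.ne']
    exact hd.mono (closedBall_subset_ball hlt)
  have hb : ∀ ζ ∈ frontier (ball (0 : ℂ) r⁻¹), ‖(fun ζ => if ζ = 0 then L else φ ζ⁻¹) ζ‖ ≤ M := by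
    intro ζ hζ
    rw [frontier_ball _ hri.ne', mem_sphere_zero_iff_norm] at hζ
    have h0 : ζ ≠ 0 := by
      rintro rfl
      rw [norm_zero] at hζ
      exact hri.ne hζ
    simp only [if_neg h0]
    apply hM
    rw [norm_inv, hζ, inv_inv]
  have key := fun ζ (hζ : ζ ∈ closure (ball (0 : ℂ) r⁻¹)) =>
    Complex.norm_le_of_forall_mem_frontier_norm_le isBounded_ball hdc hb hζ
  refine ⟨?_, ?_⟩
  · have := key 0 (subset_closure (mem_ball_self hri))
    simpa using this
  · intro z hz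
    have hz0 : z ≠ 0 := by
      rintro rfl
      rw [norm_zero] at hz
      exact absurd hz (not_lt.2 hr.le)
    have hm : z⁻¹ ∈ ball (0 : ℂ) r⁻¹ := by
      rw [mem_ball_zero_iff, norm_inv]
      exact inv_strictAnti₀ hr hz
    have := key z⁻¹ (subset_closure hm)
    simpa only [if_neg (inv_ne_zero hz0), inv_inv] using this

/-- Schwarz lemma at infinity. -/
theorem ext_schwarz {R r : ℝ} (hR : 0 < R) (hRr : R < r) {φ : ℂ → ℂ} {M : ℝ} (hM0 : 0 < M)
    (hφ : DifferentiableOn ℂ φ {z | R < ‖z‖}) (hlim : Tendsto φ (cocompact ℂ) (𝓝 0))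
    (hM : ∀ z, ‖z‖ = r → ‖φ z‖ ≤ M) :
    ∀ z, r < ‖z‖ → ‖φ z‖ ≤ M * r / ‖z‖ := by
  classical
  have hr : 0 < r := hR.trans hRr
  intro z hz
  have hz0 : z ≠ 0 := by
    rintro rfl
    rw [norm_zero] at hz
    exact absurd hz (not_lt.2 hr.le)
  have hri : 0 < r⁻¹ := inv_pos.2 hr
  have hlt : r⁻¹ < R⁻¹ := inv_strictAnti₀ hR hRr
  have hd := (ext_inf hR hφ hlim).mono (ball_subset_ball hlt.le)
  have hm := (ext_max hR hRr hφ hlim hM).2
  have hmaps : MapsTo (fun ζ => if ζ = 0 then (0 : ℂ) else φ ζ⁻¹) (ball 0 r⁻¹)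
      (closedBall ((fun ζ => if ζ = 0 then (0 : ℂ) else φ ζ⁻¹) 0) M) := by
    intro ζ hζ
    simp only [if_true, mem_closedBall_zero_iff]
    by_cases h0 : ζ = 0
    · simp [h0, hM0.le]
    · simp only [if_neg h0]
      exact hm _ (mem_ext_of_inv hr hζ h0)
  have hzm : z⁻¹ ∈ ball (0 : ℂ) r⁻¹ := by
    rw [mem_ball_zero_iff, norm_inv]
    exact inv_strictAnti₀ hr hz
  have := Complex.dist_le_div_mul_dist_of_mapsTo_ball hd hmaps hzm
  simp only [if_neg (inv_ne_zero hz0), inv_inv, if_true, dist_zero_right, norm_inv] at this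
  calc ‖φ z‖ ≤ M / r⁻¹ * ‖z‖⁻¹ := this
    _ = M * r / ‖z‖ := by rw [div_inv_eq_mul, div_eq_mul_inv]

/-- Growth in the exterior of a disc: every omitted value has modulus `≤ 33 R` and
`‖g z - z‖ ≤ 66 R² / ‖z‖`. -/
theorem growth {R : ℝ} (hR : 0 < R) {g : ℂ → ℂ}
    (hg : DifferentiableOn ℂ g {z | R < ‖z‖}) (hinj : InjOn g {z | R < ‖z‖})
    (hlim : Tendsto (fun z => g z - z) (cocompact ℂ) (𝓝 0)) :
    (∀ w, (∀ z, R < ‖z‖ → g z ≠ w) → ‖w‖ ≤ 33 * R) ∧
      ∀ z, R < ‖z‖ → ‖g z - z‖ ≤ 66 * R ^ 2 / ‖z‖ := by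
  have h1 : ∀ w, (∀ z, R < ‖z‖ → g z ≠ w) → ‖w‖ ≤ 33 * R := by
    intro w hw
    by_contra hcon
    push Not at hcon
    set r := (R + ‖w‖ / 33) / 2 with hr
    have hRr : R < r := by rw [hr]; linarith
    have hr2 : 33 * r < ‖w‖ := by rw [hr]; linarith
    have h2 := (ext_max (φ := fun z => g z - z - w) (L := -w) (M := 33 * r) hR hRr
      ((hg.sub differentiableOn_id).sub_const w) (by simpa using hlim.sub_const w) (by
        intro z hz
        have h3 := growth_of_omitted hR hg hinj hlim hw (z := z) (by rw [hz]; exact hRr)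
        have e : g z - z - w = (g z - w) - z := by ring
        rw [e]
        have h4 := norm_sub_le (g z - w) z
        rw [hz] at h3 h4
        linarith)).1
    rw [norm_neg] at h2
    linarith
  refine ⟨h1, ?_⟩
  obtain ⟨w₀, hw₀⟩ := exists_omitted hR hg hinj hlim
  have hw₀n := h1 w₀ hw₀
  have h2 : ∀ r, R < r → ∀ z, r < ‖z‖ → ‖g z - z‖ ≤ 66 * r * r / ‖z‖ := by
    intro r hRr
    have hr : 0 < r := hR.trans hRr
    apply ext_schwarz (φ := fun z => g z - z) hR hRr (by positivity)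
      (hg.sub differentiableOn_id) hlim
    intro z hz
    have h3 := growth_of_omitted hR hg hinj hlim hw₀ (z := z) (by rw [hz]; exact hRr)
    have e : g z - z = (g z - w₀) + w₀ - z := by ring
    rw [e]
    have h4 := norm_sub_le ((g z - w₀) + w₀) z
    have h5 := norm_add_le (g z - w₀) w₀
    rw [hz] at h3 h4
    linarith
  intro z hz
  have hz0 : 0 < ‖z‖ := hR.trans hz
  have hcont : Tendsto (fun r : ℝ => 66 * r * r / ‖z‖) (𝓝[>] R) (𝓝 (66 * R * R / ‖z‖)) := by
    have : Continuous fun r : ℝ => 66 * r * r / ‖z‖ := by fun_prop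
    exact (this.tendsto R).mono_left nhdsWithin_le_nhds
  have hev : ∀ᶠ r in 𝓝[>] R, ‖g z - z‖ ≤ 66 * r * r / ‖z‖ := by
    have h5 : ∀ᶠ r in 𝓝[>] R, r < ‖z‖ := nhdsWithin_le_nhds (gt_mem_nhds hz)
    filter_upwards [self_mem_nhdsWithin, h5] with r hr hrz
    exact h2 r hr z hrz
  have := ge_of_tendsto hcont hev
  calc ‖g z - z‖ ≤ 66 * R * R / ‖z‖ := this
    _ = 66 * R ^ 2 / ‖z‖ := by ring

section Sig

variable {U : Set ℂ} {f : ℂ → ℂ} {R : ℝ}

theorem Sig.mono {V : Set ℂ} (hf : Sig U f) (h : V ⊆ U) : Sig V f :=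
  ⟨hf.1.mono h, hf.2.1.mono h, hf.2.2⟩

theorem Sig.norm_sub_le (hR : 0 < R) (hU : ∀ z, R < ‖z‖ → z ∈ U) (hf : Sig U f) {z : ℂ}
    (hz : R < ‖z‖) : ‖f z - z‖ ≤ 66 * R ^ 2 / ‖z‖ :=
  (growth hR (hf.1.mono hU) (hf.2.1.mono hU) hf.2.2).2 z hz


theorem Sig.norm_omitted_le (hR : 0 < R) (hU : ∀ z, R < ‖z‖ → z ∈ U) (hf : Sig U f) {w : ℂ}
    (hw : ∀ z, R < ‖z‖ → f z ≠ w) : ‖w‖ ≤ 33 * R :=
  (growth hR (hf.1.mono hU) (hf.2.1.mono hU) hf.2.2).1 w hw

/-- The complement of the image lies in a fixed ball. -/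
theorem Sig.compl_subset (hR : 0 < R) (hU : ∀ z, R < ‖z‖ → z ∈ U) (hf : Sig U f) :
    (f '' U)ᶜ ⊆ closedBall 0 (33 * R) := by
  intro w hw
  rw [mem_closedBall_zero_iff]
  exact hf.norm_omitted_le hR hU fun z hz h => hw ⟨z, hU z hz, h⟩

/-- The bounded part of `U` is mapped into a fixed ball. -/
theorem Sig.norm_le_of_norm_le (hR : 0 < R) (hU : ∀ z, R < ‖z‖ → z ∈ U) (hf : Sig U f) {z : ℂ}
    (hz : z ∈ U) {r : ℝ} (hr : R ≤ r) (hzr : ‖z‖ ≤ r) : ‖f z‖ ≤ 33 * r := by
  refine hf.norm_omitted_le (hR.trans_le hr) (fun w hw => hU w (lt_of_le_of_lt hr hw)) ?_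
  intro z' hz' h
  have := hf.2.1 (hU z' (lt_of_le_of_lt hr hz')) hz h
  subst this
  exact absurd hzr (not_le.2 hz')

/-- Uniform local bound. -/
theorem Sig.norm_le (hR : 0 < R) (hU : ∀ z, R < ‖z‖ → z ∈ U) (hf : Sig U f) {z : ℂ}
    (hz : z ∈ U) : ‖f z‖ ≤ 33 * (R + ‖z‖) :=
  hf.norm_le_of_norm_le hR hU hz (by have := norm_nonneg z; linarith)
    (by linarith)


end Sig

end Crest.Agent.R105.Sig731
end

-- ▼ part R105/Lim1_107
section

/-!
Row 105 (helper107), limits of normalised univalent maps on varying domains, along an ultrafilter.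

* `Exh p U U'`   : every point of `U'` has a ball which is contained in `U n`, `p`-eventually
* `sig_limit`    : `F n ∈ Sig (U n)` converge locally uniformly on `U'` to some `f ∈ Sig U'`
* `hurwitz_loc`, `kernel`, `comp_limit`
-/

set_option autoImplicit false

open Set Filter Topology Metric Complex

namespace Crest.Agent.R105.Lim_107

open Crest.AnalysisR Crest.Agent.R105.FK_644

/-- every point of `U'` has a ball which is eventually contained in `U n` -/
def Exh (p : Filter ℕ) (U : ℕ → Set ℂ) (U' : Set ℂ) : Prop :=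
  ∀ z ∈ U', ∃ r > 0, ball z r ⊆ U' ∧ ∀ᶠ n in p, ball z r ⊆ U n

theorem lip_of_bound {f : ℂ → ℂ} {c : ℂ} {R M : ℝ} (hR : 0 < R) (hM : 0 < M)
    (hf : DifferentiableOn ℂ f (ball c R)) (hb : ∀ z ∈ ball c R, ‖f z‖ ≤ M)
    {z w : ℂ} (hz : z ∈ ball c (R / 2)) (hw : w ∈ ball c (R / 2)) :
    ‖f z - f w‖ ≤ 2 * M / R * ‖z - w‖ := by
  have hMc : (M : ℂ) ≠ 0 := by exact_mod_cast hM.ne'
  have h1 := Crest.Agent.Lib.RiemannMap.norm_sub_le_of_ball (f := fun z => (M : ℂ)⁻¹ * f z) hR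
    (hf.const_mul _) (fun z hz => by
      rw [norm_mul, norm_inv, Complex.norm_real, Real.norm_eq_abs, abs_of_pos hM,
        inv_mul_le_iff₀ hM, mul_one]
      exact hb z hz) hz hw
  rw [← mul_sub, norm_mul, norm_inv, Complex.norm_real, Real.norm_eq_abs, abs_of_pos hM,
    inv_mul_le_iff₀ hM] at h1
  calc ‖f z - f w‖ ≤ M * (2 / R * ‖z - w‖) := h1
    _ = _ := by ring

/-- Montel along an ultrafilter, local form. -/
theorem montel_uf {p : Ultrafilter ℕ} {U' : Set ℂ} {F : ℕ → ℂ → ℂ}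
    (h : ∀ z ∈ U', ∃ r > 0, ball z r ⊆ U' ∧ ∃ M > 0, ∀ᶠ n in (p : Filter ℕ),
      DifferentiableOn ℂ (F n) (ball z r) ∧ ∀ w ∈ ball z r, ‖F n w‖ ≤ M) :
    ∃ f : ℂ → ℂ, DifferentiableOn ℂ f U' ∧ TendstoLocallyUniformlyOn F f p U' := by
  have hlim_ex : ∀ z, ∃ y, z ∈ U' → Tendsto (fun n => F n z) p (𝓝 y) := by
    intro z
    by_cases hz : z ∈ U'
    · obtain ⟨r, hr, -, M, hM, hev⟩ := h z hz
      have hcomp : IsCompact (closedBall (0 : ℂ) M) := isCompact_closedBall 0 M
      obtain ⟨y, -, hy⟩ := hcomp.ultrafilter_le_nhds (p.map fun n => F n z) (by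
        rw [Ultrafilter.coe_map, le_principal_iff, mem_map]
        filter_upwards [hev] with n hn
        rw [mem_preimage, mem_closedBall_zero_iff]
        exact hn.2 z (mem_ball_self hr))
      exact ⟨y, fun _ => by rwa [Ultrafilter.coe_map] at hy⟩
    · exact ⟨0, fun h => absurd h hz⟩
  choose f hf using hlim_ex
  have hloc : TendstoLocallyUniformlyOn F f p U' := by
    rw [Metric.tendstoLocallyUniformlyOn_iff]
    intro ε hε x hx
    obtain ⟨R, hR, hRU, M, hM, hev⟩ := h x hx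
    obtain ⟨δ, hδdef⟩ : ∃ δ, δ = min (R / 2) (ε * R / (8 * M)) := ⟨_, rfl⟩
    have hδ : 0 < δ := by rw [hδdef]; positivity
    have hδ1 : δ ≤ R / 2 := by rw [hδdef]; exact min_le_left _ _
    have hδ2 : δ ≤ ε * R / (8 * M) := by rw [hδdef]; exact min_le_right _ _
    refine ⟨ball x δ, mem_nhdsWithin_of_mem_nhds (ball_mem_nhds x hδ), ?_⟩
    have h1 : ∀ y ∈ ball x δ, ∀ᶠ n in (p : Filter ℕ), ‖F n y - F n x‖ ≤ ε / 4 := by
      intro y hy
      filter_upwards [hev] with n hn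
      have h := lip_of_bound hR hM hn.1 hn.2
        (ball_subset_ball hδ1 hy) (mem_ball_self (by positivity : 0 < R / 2))
      refine h.trans ?_
      rw [mem_ball, dist_eq_norm] at hy
      calc 2 * M / R * ‖y - x‖ ≤ 2 * M / R * (ε * R / (8 * M)) := by gcongr; linarith
        _ = ε / 4 := by field_simp; norm_num
    have h2 : ∀ y ∈ ball x δ, ‖f y - f x‖ ≤ ε / 4 := by
      intro y hy
      have hyU : y ∈ U' := hRU (ball_subset_ball (by linarith) hy)
      exact le_of_tendsto ((hf y hyU).sub (hf x hx)).norm (h1 y hy)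
    filter_upwards [Metric.tendsto_nhds.1 (hf x hx) (ε / 4) (by positivity), hev] with n hn hn2 y hy
    have e1 := h2 y hy
    have e2 : ‖F n y - F n x‖ ≤ ε / 4 := by
      have h := lip_of_bound hR hM hn2.1 hn2.2
        (ball_subset_ball hδ1 hy) (mem_ball_self (by positivity : 0 < R / 2))
      refine h.trans ?_
      rw [mem_ball, dist_eq_norm] at hy
      calc 2 * M / R * ‖y - x‖ ≤ 2 * M / R * (ε * R / (8 * M)) := by gcongr; linarith
        _ = ε / 4 := by field_simp; norm_num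
    rw [← dist_eq_norm] at e1 e2
    rw [dist_comm] at hn e2
    calc dist (f y) (F n y) ≤ dist (f y) (f x) + dist (f x) (F n x) + dist (F n x) (F n y) :=
          dist_triangle4 _ _ _ _
      _ < ε := by linarith
  refine ⟨f, ?_, hloc⟩
  intro z hz
  obtain ⟨r, hr, hrU, M, hM, hev⟩ := h z hz
  have h3 : DifferentiableOn ℂ f (ball z r) := by
    apply (hloc.mono hrU).differentiableOn _ isOpen_ball
    filter_upwards [hev] with n hn using hn.1
  exact (h3.differentiableAt (ball_mem_nhds z hr)).differentiableWithinAt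

/-- a normalised function is not constant on a ball -/
theorem not_const {U' : Set ℂ} (hU' : IsExteriorDomain U') {f : ℂ → ℂ}
    (hd : DifferentiableOn ℂ f U') (hn : Tendsto (fun z => f z - z) (cocompact ℂ) (𝓝 0))
    {a : ℂ} {r : ℝ} (hr : 0 < r) (hb : ball a r ⊆ U') : ¬ ∀ z ∈ ball a r, f z = f a := by
  intro hc
  have han : AnalyticOnNhd ℂ (fun z => f z - f a) U' :=
    (hd.sub_const _).analyticOnNhd hU'.1
  have h1 : (fun z => f z - f a) =ᶠ[𝓝 a] 0 := by
    filter_upwards [ball_mem_nhds a hr] with z hz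
    simp [hc z hz]
  have h2 := han.eqOn_zero_of_preconnected_of_eventuallyEq_zero hU'.2.1.isPreconnected
    (hb (mem_ball_self hr)) h1
  obtain ⟨R, hR⟩ := hU'.2.2
  have h3 : Tendsto (fun z : ℂ => ‖f a - z‖) (cocompact ℂ) (𝓝 0) := by
    have h4 := hn.norm
    rw [norm_zero] at h4
    refine h4.congr' ?_
    have h5 : ∀ᶠ z : ℂ in cocompact ℂ, R < ‖z‖ :=
      tendsto_norm_cocompact_atTop.eventually_gt_atTop R
    filter_upwards [h5] with z hz
    have := h2 (hR z hz)
    simp only [Pi.zero_apply] at this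
    rw [sub_eq_zero.1 this]
  have h6 : Tendsto (fun z : ℂ => ‖f a - z‖) (cocompact ℂ) atTop := by
    have h7 : Tendsto (fun z : ℂ => ‖z‖ + (-‖f a‖)) (cocompact ℂ) atTop :=
      tendsto_atTop_add_const_right _ _ tendsto_norm_cocompact_atTop
    refine tendsto_atTop_mono (fun z => ?_) h7
    have := norm_sub_norm_le z (f a)
    rw [norm_sub_rev] at this
    linarith
  exact not_tendsto_nhds_of_tendsto_atTop h6 0 h3

section

variable {p : Ultrafilter ℕ} {U : ℕ → Set ℂ} {U' : Set ℂ} {F : ℕ → ℂ → ℂ} {f : ℂ → ℂ}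

theorem hurwitz_loc0 (hU' : IsExteriorDomain U') (hex : Exh p U U')
    (hF : ∀ n, DifferentiableOn ℂ (F n) (U n)) (hd : DifferentiableOn ℂ f U')
    (hn : Tendsto (fun z => f z - z) (cocompact ℂ) (𝓝 0))
    (hlim : TendstoLocallyUniformlyOn F f p U') {a : ℂ} (ha : a ∈ U') {ρ : ℝ} (hρ : 0 < ρ) :
    ∃ r > 0, r ≤ ρ ∧ ball a r ⊆ U' ∧ (∀ᶠ n in (p : Filter ℕ), ball a r ⊆ U n) ∧
      ∃ η > 0, ∀ᶠ n in (p : Filter ℕ), ball (f a) η ⊆ F n '' (ball a r) := by
  obtain ⟨r0, hr0, hrU, hev⟩ := hex a ha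
  set r := min r0 ρ with hr
  have hrpos : 0 < r := lt_min hr0 hρ
  have hsub : ball a r ⊆ ball a r0 := ball_subset_ball (min_le_left _ _)
  have hsub' : ball a r ⊆ U' := hsub.trans hrU
  have hevr : ∀ᶠ n in (p : Filter ℕ), ball a r ⊆ U n := by
    filter_upwards [hev] with n h using hsub.trans h
  obtain ⟨η, hη, hη2⟩ := Sig731.hurwitz_value (F := F) (f := f) (l := (p : Filter ℕ))
    (U := ball a r) isOpen_ball (convex_ball a r).isPreconnected
    (by filter_upwards [hevr] with n h using (hF n).mono h) (hd.mono hsub') (hlim.mono hsub')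
    (mem_ball_self hrpos) (not_const hU' hd hn hrpos hsub') hrpos
  refine ⟨r, hrpos, min_le_right _ _, hsub', hevr, η, hη, ?_⟩
  filter_upwards [hη2] with n h w hw
  obtain ⟨z, hz, hzw⟩ := h w hw
  exact ⟨z, hz.1, hzw⟩

/-- limit of normalised univalent maps -/
theorem sig_limit (hU' : IsExteriorDomain U') {R : ℝ} (hR : 0 < R)
    (hUR : ∀ n z, R < ‖z‖ → z ∈ U n) (hUR' : ∀ z, R < ‖z‖ → z ∈ U')
    (hex : Exh p U U') (hF : ∀ n, Sig (U n) (F n)) :
    ∃ f : ℂ → ℂ, Sig U' f ∧ TendstoLocallyUniformlyOn F f p U' := by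
  have hF' : ∀ n, Sig731.Sig (U n) (F n) := fun n => ⟨(hF n).hol, (hF n).inj, (hF n).inf⟩
  obtain ⟨f, hfd, hfl⟩ := montel_uf (p := p) (U' := U') (F := F) (by
    intro z hz
    obtain ⟨r, hr, hrU, hev⟩ := hex z hz
    refine ⟨r, hr, hrU, 33 * (R + (‖z‖ + r)), by have := norm_nonneg z; positivity, ?_⟩
    filter_upwards [hev] with n hn
    refine ⟨(hF n).hol.mono hn, fun w hw => ?_⟩
    refine ((hF' n).norm_le hR (hUR n) (hn hw)).trans ?_
    rw [mem_ball, dist_eq_norm] at hw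
    have := norm_sub_norm_le w z
    linarith)
  have hinf : Tendsto (fun z => f z - z) (cocompact ℂ) (𝓝 0) := by
    have h1 : Tendsto (fun z : ℂ => 66 * R ^ 2 / ‖z‖) (cocompact ℂ) (𝓝 0) :=
      Filter.Tendsto.const_div_atTop tendsto_norm_cocompact_atTop _
    refine squeeze_zero_norm' ?_ h1
    have h5 : ∀ᶠ z : ℂ in cocompact ℂ, R < ‖z‖ :=
      tendsto_norm_cocompact_atTop.eventually_gt_atTop R
    filter_upwards [h5] with z hz
    have h2 : Tendsto (fun n => ‖F n z - z‖) p (𝓝 ‖f z - z‖) :=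
      ((hfl.tendsto_at (hUR' z hz)).sub_const z).norm
    exact le_of_tendsto h2 (Eventually.of_forall fun n =>
      (hF' n).norm_sub_le hR (hUR n) hz)
  refine ⟨f, ⟨hfd, ?_, hinf⟩, hfl⟩
  intro a ha b hb hab
  by_contra hne
  have hd0 : 0 < dist a b / 2 := by
    have := dist_pos.2 hne
    positivity
  obtain ⟨r, hr, hrρ, hrU, hrn, η, hη, hηn⟩ :=
    hurwitz_loc0 hU' hex (fun n => (hF n).hol) hfd hinf hfl ha hd0
  obtain ⟨s, hs, hsρ, hsU, hsn, θ, hθ, hθn⟩ :=
    hurwitz_loc0 hU' hex (fun n => (hF n).hol) hfd hinf hfl hb hd0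
  obtain ⟨n, h1, h2, h3, h4⟩ := (hrn.and (hηn.and (hsn.and hθn))).exists
  obtain ⟨z, hz, hz2⟩ := h2 (mem_ball_self hη)
  obtain ⟨w, hw, hw2⟩ := h4 (mem_ball_self hθ)
  have h5 : z = w := (hF n).inj (h1 hz) (h3 hw) (by rw [hz2, hw2, hab])
  rw [← h5] at hw
  rw [mem_ball] at hz hw
  have h6 := dist_triangle_left a b z
  linarith

theorem hurwitz_loc (hU' : IsExteriorDomain U') (hex : Exh p U U')
    (hF : ∀ n, Sig (U n) (F n)) (hf : Sig U' f)
    (hlim : TendstoLocallyUniformlyOn F f p U') {a : ℂ} (ha : a ∈ U') {ρ : ℝ} (hρ : 0 < ρ) :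
    ∃ r > 0, r ≤ ρ ∧ ball a r ⊆ U' ∧ (∀ᶠ n in (p : Filter ℕ), ball a r ⊆ U n) ∧
      ∃ η > 0, ∀ᶠ n in (p : Filter ℕ), ball (f a) η ⊆ F n '' (ball a r) :=
  hurwitz_loc0 hU' hex (fun n => (hF n).hol) hf.hol hf.inf hlim ha hρ

/-- limits of omitted values are omitted -/
theorem kernel (hU' : IsExteriorDomain U') (hex : Exh p U U')
    (hF : ∀ n, Sig (U n) (F n)) (hf : Sig U' f)
    (hlim : TendstoLocallyUniformlyOn F f p U') {w : ℕ → ℂ} {q : ℂ}
    (hw : ∀ᶠ n in (p : Filter ℕ), w n ∉ F n '' U n) (hwq : Tendsto w p (𝓝 q)) : q ∉ f '' U' := by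
  rintro ⟨a, ha, rfl⟩
  obtain ⟨r, hr, -, -, hrn, η, hη, hηn⟩ := hurwitz_loc hU' hex hF hf hlim ha one_pos
  have h1 : ∀ᶠ n in (p : Filter ℕ), w n ∈ ball (f a) η := hwq.eventually (ball_mem_nhds _ hη)
  obtain ⟨n, h2, h3, h4, h5⟩ := (hrn.and (hηn.and (hw.and h1))).exists
  obtain ⟨z, hz, hzw⟩ := h3 h5
  exact h4 ⟨z, h2 hz, hzw⟩

/-- composition of limits -/
theorem comp_limit {V' : Set ℂ} {H : ℕ → ℂ → ℂ} {h : ℂ → ℂ} (hV' : IsOpen V')
    (hhd : ContinuousOn h V') (hex : Exh p U U')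
    (hlim : TendstoLocallyUniformlyOn F f p U') (hlimh : TendstoLocallyUniformlyOn H h p V')
    (hinv : ∀ n, ∀ z ∈ U n, H n (F n z) = z) {a : ℂ} (ha : a ∈ U') (hfa : f a ∈ V') :
    h (f a) = a := by
  have h1 : Tendsto (fun n => F n a) p (𝓝 (f a)) := hlim.tendsto_at ha
  have h2 : Tendsto (fun n => H n (F n a)) p (𝓝 (h (f a))) := by
    apply hlimh.tendsto_comp (hhd _ hfa) hfa
    rw [hV'.nhdsWithin_eq hfa]
    exact h1
  have h3 : Tendsto (fun n => H n (F n a)) p (𝓝 a) := by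
    obtain ⟨r, hr, -, hrn⟩ := hex a ha
    refine tendsto_const_nhds.congr' ?_
    filter_upwards [hrn] with n hn
    exact (hinv n a (hn (mem_ball_self hr))).symm
  exact tendsto_nhds_unique h2 h3

end

end Crest.Agent.R105.Lim_107
end

-- ▼ part R105/Yn1_107
section

/-!
Row 105 (helper107), (F5): the space `Y n` of disjoint horizontal slits is connected.
-/

set_option autoImplicit false

open Set Filter Metric Topology

namespace Crest.Agent.R105.Yn_107

open Crest.Agent.R105.FK_644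

theorem mem_seg {a w : ℂ} {l : ℝ} (hl : 0 ≤ l) :
    w ∈ segment ℝ a (a + (l : ℂ)) ↔ w.im = a.im ∧ a.re ≤ w.re ∧ w.re ≤ a.re + l := by
  rw [segment_eq_image']
  simp only [add_sub_cancel_left, mem_image, mem_Icc]
  constructor
  · rintro ⟨θ, ⟨h2, h3⟩, rfl⟩
    simp only [Complex.real_smul, Complex.add_re, Complex.mul_re, Complex.ofReal_re,
        Complex.ofReal_im, Complex.add_im, Complex.mul_im]
    refine ⟨by ring, ?_, ?_⟩
    · nlinarith
    · nlinarith
  · rintro ⟨h1, h2, h3⟩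
    rcases hl.eq_or_lt with h0 | h0
    · refine ⟨0, ⟨le_rfl, zero_le_one⟩, ?_⟩
      rw [zero_smul, add_zero]
      exact Complex.ext (by linarith) h1.symm
    · refine ⟨(w.re - a.re) / l, ⟨div_nonneg (by linarith) h0.le,
        (div_le_one h0).2 (by linarith)⟩, ?_⟩
      apply Complex.ext
      · simp only [Complex.real_smul, Complex.add_re, Complex.mul_re, Complex.ofReal_re,
          Complex.ofReal_im]
        field_simp
        ring
      · simp only [Complex.real_smul, Complex.add_im, Complex.mul_im, Complex.ofReal_re,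
          Complex.ofReal_im, h1]
        ring

/-- shrinking the slits -/
theorem shrink {n : ℕ} {x : Fin n → ℂ × ℝ} (hx : x ∈ Y n) {δ : ℝ} (hδ : 0 < δ)
    (hδx : ∀ i, δ ≤ (x i).2) : segment ℝ x (fun i => ((x i).1, δ)) ⊆ Y n := by
  intro y hy
  rw [segment_eq_image'] at hy
  obtain ⟨θ, ⟨h0, h1⟩, rfl⟩ := hy
  have h2 : ∀ i, ((x + θ • ((fun i => ((x i).1, δ)) - x)) i).1 = (x i).1 := by
    intro i; simp
  have h3 : ∀ i, ((x + θ • ((fun i => ((x i).1, δ)) - x)) i).2 = (x i).2 + θ * (δ - (x i).2) := by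
    intro i; simp
  have h4 : ∀ i, 0 < (x i).2 + θ * (δ - (x i).2) := by
    intro i
    have := hδx i
    nlinarith
  have h5 : ∀ i, (x i).2 + θ * (δ - (x i).2) ≤ (x i).2 := by
    intro i
    have := hδx i
    nlinarith
  refine ⟨fun i => by rw [h3]; exact h4 i, fun i j hij => ?_⟩
  have h6 : ∀ i, slits (x + θ • ((fun i => ((x i).1, δ)) - x)) i ⊆ slits x i := by
    intro i w hw
    unfold slits at hw ⊢
    rw [h2, h3, mem_seg (h4 i).le] at hw
    rw [mem_seg (hx.1 i).le]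
    exact ⟨hw.1, hw.2.1, hw.2.2.trans (by linarith [h5 i])⟩
  exact (hx.2 i j hij).mono (h6 i) (h6 j)

theorem base_ne {n : ℕ} {x : Fin n → ℂ × ℝ} (hx : x ∈ Y n) {i j : Fin n} (hij : i ≠ j) :
    (x i).1 ≠ (x j).1 := by
  intro h
  have h1 := hx.2 i j hij
  rw [Set.disjoint_left] at h1
  apply h1 (left_mem_segment ℝ (x i).1 _)
  unfold slits
  rw [h]
  exact left_mem_segment ℝ (x j).1 _

/-- short slits at distant points are disjoint -/
theorem mem_Y_of_far {n : ℕ} {a : Fin n → ℂ} {δ : ℝ} (hδ : 0 < δ)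
    (h : ∀ i j, i ≠ j → δ < ‖a i - a j‖) : (fun i => (a i, δ)) ∈ Y n := by
  refine ⟨fun i => hδ, fun i j hij => ?_⟩
  rw [Set.disjoint_left]
  intro w hwi hwj
  unfold slits at hwi hwj
  rw [mem_seg hδ.le] at hwi hwj
  simp only at hwi hwj
  have h1 := h i j hij
  have h2 : ‖a i - a j‖ ≤ |(a i - a j).re| + |(a i - a j).im| := Complex.norm_le_abs_re_add_abs_im _
  have h3 : (a i - a j).im = 0 := by
    rw [Complex.sub_im]; linarith [hwi.1, hwj.1]
  have h4 : |(a i - a j).re| ≤ δ := by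
    rw [Complex.sub_re, abs_le]
    constructor
    · linarith [hwi.2.2, hwj.2.1]
    · linarith [hwj.2.2, hwi.2.1]
  rw [h3, abs_zero, add_zero] at h2
  linarith

/-- (F5) -/
theorem connY : ConnY := by
  intro n
  apply isPreconnected_of_forall_pair
  intro x hx y hy
  set L : Fin n → ℂ → ℂ := fun i s => (x i).1 + s * ((y i).1 - (x i).1) with hL
  have hLc : ∀ i, Continuous (L i) := by
    intro i
    rw [hL]
    fun_prop
  -- bad parameters
  set S : Set ℂ := {s | ∃ i j, i ≠ j ∧ L i s = L j s} with hS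
  have hSf : S.Countable := by
    have h1 : S ⊆ ⋃ i, ⋃ j, {s | i ≠ j ∧ L i s = L j s} := by
      rintro s ⟨i, j, h⟩
      rw [mem_iUnion₂]
      exact ⟨i, j, h⟩
    refine Set.Countable.mono h1 ?_
    refine countable_iUnion fun i => countable_iUnion fun j => ?_
    apply Set.Subsingleton.countable
    rintro s ⟨hij, hs⟩ t ⟨-, ht⟩
    have hne := base_ne hx hij
    simp only [hL] at hs ht
    set A := (x i).1 - (x j).1 with hA
    set B := (y i).1 - (x i).1 - ((y j).1 - (x j).1) with hB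
    have e1 : A + s * B = 0 := by rw [hA, hB]; linear_combination hs
    have e2 : A + t * B = 0 := by rw [hA, hB]; linear_combination ht
    have hA0 : A ≠ 0 := sub_ne_zero.2 hne
    have hB0 : B ≠ 0 := by
      intro h
      rw [h, mul_zero, add_zero] at e1
      exact hA0 e1
    have e3 : (s - t) * B = 0 := by linear_combination e1 - e2
    rcases mul_eq_zero.1 e3 with h | h
    · exact sub_eq_zero.1 h
    · exact absurd h hB0
  have hpc : IsPathConnected Sᶜ := by
    apply hSf.isPathConnected_compl_of_one_lt_rank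
    rw [Complex.rank_real_complex]
    norm_num
  have h0 : (0:ℂ) ∈ Sᶜ := by
    rintro ⟨i, j, hij, h⟩
    simp only [hL, zero_mul, add_zero] at h
    exact base_ne hx hij h
  have h1 : (1:ℂ) ∈ Sᶜ := by
    rintro ⟨i, j, hij, h⟩
    simp only [hL, one_mul, add_sub_cancel] at h
    exact base_ne hy hij h
  obtain ⟨γ, hγ⟩ := hpc.joinedIn 0 h0 1 h1
  set P : Set ℂ := range γ with hP
  have hPc : IsCompact P := isCompact_range γ.continuous
  have hPp : IsPreconnected P := isPreconnected_range γ.continuous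
  have hPS : ∀ s ∈ P, s ∉ S := by
    rintro _ ⟨t, rfl⟩
    exact hγ t
  have h0P : (0:ℂ) ∈ P := ⟨0, γ.source⟩
  have h1P : (1:ℂ) ∈ P := ⟨1, γ.target⟩
  -- the small length
  have hev : ∀ᶠ δ : ℝ in 𝓝[>] 0, (∀ i, δ ≤ (x i).2) ∧ (∀ i, δ ≤ (y i).2) ∧
      ∀ i j, i ≠ j → ∀ s ∈ P, δ < ‖L i s - L j s‖ := by
    have hpos : ∀ r : ℝ, 0 < r → ∀ᶠ δ : ℝ in 𝓝[>] 0, δ < r := fun r hr =>
      nhdsWithin_le_nhds (gt_mem_nhds hr)
    refine (eventually_all.2 fun i => ?_).and ((eventually_all.2 fun i => ?_).and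
      (eventually_all.2 fun i => eventually_all.2 fun j => ?_))
    · filter_upwards [hpos _ (hx.1 i)] with δ h using h.le
    · filter_upwards [hpos _ (hy.1 i)] with δ h using h.le
    · by_cases hij : i = j
      · filter_upwards with δ h
        exact absurd hij h
      · have hcont : ContinuousOn (fun s => ‖L i s - L j s‖) P :=
          (((hLc i).sub (hLc j)).norm).continuousOn
        obtain ⟨s₀, hs₀, hmin⟩ := hPc.exists_isMinOn ⟨0, h0P⟩ hcont
        have hd : 0 < ‖L i s₀ - L j s₀‖ := by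
          rw [norm_pos_iff, sub_ne_zero]
          intro h
          exact hPS s₀ hs₀ ⟨i, j, hij, h⟩
        filter_upwards [hpos _ hd] with δ h _ s hs
        exact h.trans_le (hmin hs)
  obtain ⟨δ, ⟨hδx, hδy, hδP⟩, hδ⟩ := (hev.and self_mem_nhdsWithin).exists
  have hδ0 : 0 < δ := hδ
  set Φ : ℂ → Fin n → ℂ × ℝ := fun s i => (L i s, δ) with hΦ
  have hΦc : Continuous Φ := by
    rw [hΦ]
    apply continuous_pi
    intro i
    exact (hLc i).prodMk continuous_const
  have hT2 : Φ '' P ⊆ Y n := by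
    rintro _ ⟨s, hs, rfl⟩
    exact mem_Y_of_far hδ0 (fun i j hij => hδP i j hij s hs)
  have e0 : Φ 0 = fun i => ((x i).1, δ) := by
    rw [hΦ]; funext i; simp [hL]
  have e1 : Φ 1 = fun i => ((y i).1, δ) := by
    rw [hΦ]; funext i; simp [hL]
  have hT1 := shrink hx hδ0 hδx
  have hT3 := shrink hy hδ0 hδy
  have p1 : IsPreconnected (segment ℝ x (fun i => ((x i).1, δ))) :=
    (convex_segment _ _).isPreconnected
  have p3 : IsPreconnected (segment ℝ y (fun i => ((y i).1, δ))) :=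
    (convex_segment _ _).isPreconnected
  have p2 : IsPreconnected (Φ '' P) := hPp.image _ hΦc.continuousOn
  have q1 : IsPreconnected (segment ℝ x (fun i => ((x i).1, δ)) ∪ Φ '' P) :=
    p1.union (fun i => ((x i).1, δ)) (right_mem_segment ℝ _ _) ⟨0, h0P, e0⟩ p2
  have q2 : IsPreconnected ((segment ℝ x (fun i => ((x i).1, δ)) ∪ Φ '' P) ∪
      segment ℝ y (fun i => ((y i).1, δ))) :=
    q1.union (fun i => ((y i).1, δ)) (Or.inr ⟨1, h1P, e1⟩) (right_mem_segment ℝ _ _) p3
  exact ⟨_, union_subset (union_subset hT1 hT2) hT3, Or.inl (Or.inl (left_mem_segment ℝ _ _)),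
    Or.inr (left_mem_segment ℝ _ _), q2⟩

end Crest.Agent.R105.Yn_107
end

-- ▼ part R105/Lim2_107
section

/-!
Row 105 (helper107), limits of labelled maps, part 2: convex shapes (discs, slits), semicontinuity, labels.
-/

set_option autoImplicit false

open Set Filter Topology Metric Complex

namespace Crest.Agent.R105.Lim_107

open Crest.AnalysisR Crest.Agent.R105.FK_644

/-- convex shapes depending on a point and a size -/
structure Shape (S : ℂ × ℝ → Set ℂ) : Prop where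
  cpt : ∀ q, IsCompact (S q)
  cvx : ∀ q, Convex ℝ (S q)
  base : ∀ q, 0 ≤ q.2 → q.1 ∈ S q
  tip : ∀ q, 0 ≤ q.2 → q.1 + (q.2 : ℂ) ∈ S q
  closed : IsClosed {z : (ℂ × ℝ) × ℂ | 0 ≤ z.1.2 ∧ z.2 ∈ S z.1}
  lower : ∀ q, 0 ≤ q.2 → ∀ w ∈ S q, ∃ u : ℂ, q.1 + q.2 * u = w ∧
    ∀ q' : ℂ × ℝ, 0 ≤ q'.2 → q'.1 + q'.2 * u ∈ S q'

def discS (q : ℂ × ℝ) : Set ℂ := closedBall q.1 q.2

def slitS (q : ℂ × ℝ) : Set ℂ := segment ℝ q.1 (q.1 + (q.2 : ℂ))

theorem shape_disc : Shape discS where
  cpt q := isCompact_closedBall _ _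
  cvx q := convex_closedBall _ _
  base q hq := mem_closedBall_self hq
  tip q hq := by
    rw [discS, mem_closedBall, dist_eq_norm, add_sub_cancel_left, Complex.norm_real,
      Real.norm_eq_abs, abs_of_nonneg hq]
  closed := by
    have h1 : IsClosed {z : (ℂ × ℝ) × ℂ | 0 ≤ z.1.2} :=
      isClosed_le continuous_const (by fun_prop)
    have h2 : IsClosed {z : (ℂ × ℝ) × ℂ | dist z.2 z.1.1 ≤ z.1.2} :=
      isClosed_le (by fun_prop) (by fun_prop)
    exact h1.inter h2
  lower q hq w hw := by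
    rw [discS, mem_closedBall, dist_eq_norm] at hw
    rcases hq.eq_or_lt with h0 | h0
    · refine ⟨0, ?_, fun q' hq' => ?_⟩
      · rw [← h0, norm_le_zero_iff, sub_eq_zero] at hw
        rw [mul_zero, add_zero, hw]
      · rw [mul_zero, add_zero]; exact mem_closedBall_self hq'
    · have hc : (q.2 : ℂ) ≠ 0 := by exact_mod_cast h0.ne'
      refine ⟨(w - q.1) / q.2, by field_simp; ring, fun q' hq' => ?_⟩
      rw [discS, mem_closedBall, dist_eq_norm, add_sub_cancel_left, norm_mul, norm_div,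
        Complex.norm_real, Complex.norm_real, Real.norm_eq_abs, Real.norm_eq_abs,
        abs_of_nonneg hq', abs_of_pos h0]
      have : ‖w - q.1‖ / q.2 ≤ 1 := (div_le_one h0).2 hw
      nlinarith

theorem mem_slitS {q : ℂ × ℝ} (hq : 0 ≤ q.2) {w : ℂ} :
    w ∈ slitS q ↔ w.im = q.1.im ∧ q.1.re ≤ w.re ∧ w.re ≤ q.1.re + q.2 :=
  Crest.Agent.R105.Yn_107.mem_seg hq

theorem shape_slit : Shape slitS where
  cpt q := by
    unfold slitS
    rw [segment_eq_image']
    exact isCompact_Icc.image (by fun_prop)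
  cvx q := convex_segment _ _
  base q _ := left_mem_segment ℝ _ _
  tip q _ := right_mem_segment ℝ _ _
  closed := by
    have h1 : {z : (ℂ × ℝ) × ℂ | 0 ≤ z.1.2 ∧ z.2 ∈ slitS z.1} =
        {z : (ℂ × ℝ) × ℂ | 0 ≤ z.1.2} ∩ ({z | z.2.im = z.1.1.im} ∩
          ({z | z.1.1.re ≤ z.2.re} ∩ {z | z.2.re ≤ z.1.1.re + z.1.2})) := by
      ext z
      simp only [mem_ofPred_eq, mem_inter_iff]
      constructor
      · rintro ⟨h, h2⟩
        exact ⟨h, (mem_slitS h).1 h2⟩
      · rintro ⟨h, h2⟩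
        exact ⟨h, (mem_slitS h).2 h2⟩
    rw [h1]
    refine (isClosed_le continuous_const (by fun_prop)).inter (IsClosed.inter ?_ (IsClosed.inter ?_ ?_))
    · exact isClosed_eq (Complex.continuous_im.comp (by fun_prop))
        (Complex.continuous_im.comp (by fun_prop))
    · exact isClosed_le (Complex.continuous_re.comp (by fun_prop))
        (Complex.continuous_re.comp (by fun_prop))
    · exact isClosed_le (Complex.continuous_re.comp (by fun_prop))
        ((Complex.continuous_re.comp (by fun_prop)).add (by fun_prop))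
  lower q hq w hw := by
    unfold slitS at hw
    rw [segment_eq_image'] at hw
    obtain ⟨θ, hθ, rfl⟩ := hw
    refine ⟨(θ : ℂ), ?_, fun q' hq' => ?_⟩
    · simp only [add_sub_cancel_left, Complex.real_smul]
      ring
    · unfold slitS
      rw [segment_eq_image']
      refine ⟨θ, hθ, ?_⟩
      simp only [add_sub_cancel_left, Complex.real_smul]
      ring

theorem Shape.pos {S : ℂ × ℝ → Set ℂ} (hS : Shape S) {q : ℂ × ℝ} (hq : 0 ≤ q.2)
    (hn : (S q).Nontrivial) : 0 < q.2 := by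
  rcases hq.eq_or_lt with h0 | h0
  · exfalso
    obtain ⟨a, ha, b, hb, hab⟩ := hn
    obtain ⟨u, hu, -⟩ := hS.lower q hq a ha
    obtain ⟨v, hv, -⟩ := hS.lower q hq b hb
    rw [← h0, Complex.ofReal_zero, zero_mul, add_zero] at hu hv
    exact hab (hu.symm.trans hv)
  · exact h0

variable {S : ℂ × ℝ → Set ℂ} {p : Ultrafilter ℕ}

/-- upper semicontinuity -/
theorem Shape.usc (hS : Shape S) {q : ℕ → ℂ × ℝ} {q' : ℂ × ℝ} (hq0 : ∀ k, 0 ≤ (q k).2)
    (hq : Tendsto q p (𝓝 q')) {N : Set ℂ} (hN : IsOpen N) (hSN : S q' ⊆ N) :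
    ∀ᶠ k in (p : Filter ℕ), S (q k) ⊆ N := by
  classical
  by_contra hcon
  rw [← Ultrafilter.eventually_not] at hcon
  have hex : ∀ k, ∃ u : ℂ, ¬ S (q k) ⊆ N → u ∈ S (0, 1) ∧ (q k).1 + (q k).2 * u ∈ S (q k) ∧
      (q k).1 + (q k).2 * u ∉ N := by
    intro k
    by_cases h : S (q k) ⊆ N
    · exact ⟨0, fun h' => absurd h h'⟩
    · obtain ⟨w, hw, hwN⟩ := not_subset.1 h
      obtain ⟨u, hu, hu2⟩ := hS.lower (q k) (hq0 k) w hw
      have h1 := hu2 (0, 1) zero_le_one
      simp only [zero_add, Complex.ofReal_one, one_mul] at h1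
      exact ⟨u, fun _ => ⟨h1, hu2 _ (hq0 k), by rw [hu]; exact hwN⟩⟩
  choose u hu using hex
  have hev : ∀ᶠ k in (p : Filter ℕ), u k ∈ S (0, 1) := by
    filter_upwards [hcon] with k hk using (hu k hk).1
  obtain ⟨v, -, hv⟩ := (hS.cpt (0, 1)).ultrafilter_le_nhds (p.map u) (by
    rw [Ultrafilter.coe_map, le_principal_iff, mem_map]
    exact hev)
  rw [Ultrafilter.coe_map] at hv
  have hv' : Tendsto u p (𝓝 v) := hv
  have h1 : Tendsto (fun k => (q k).1) p (𝓝 q'.1) := (continuous_fst.tendsto _).comp hq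
  have h2 : Tendsto (fun k => (q k).2) p (𝓝 q'.2) := (continuous_snd.tendsto _).comp hq
  have h3 : Tendsto (fun k => (((q k).2 : ℝ) : ℂ)) p (𝓝 (q'.2 : ℂ)) :=
    (Complex.continuous_ofReal.tendsto _).comp h2
  have h4 : Tendsto (fun k => (q k).1 + (q k).2 * u k) p (𝓝 (q'.1 + q'.2 * v)) :=
    h1.add (h3.mul hv')
  have h5 : (q', q'.1 + q'.2 * v) ∈ {z : (ℂ × ℝ) × ℂ | 0 ≤ z.1.2 ∧ z.2 ∈ S z.1} := by
    apply hS.closed.mem_of_tendsto (hq.prodMk_nhds h4)
    filter_upwards [hcon] with k hk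
    exact ⟨hq0 k, (hu k hk).2.1⟩
  have h6 : q'.1 + q'.2 * v ∈ Nᶜ := by
    apply hN.isClosed_compl.mem_of_tendsto h4
    filter_upwards [hcon] with k hk
    exact (hu k hk).2.2
  exact h6 (hSN h5.2)

/-- lower semicontinuity -/
theorem Shape.lsc (hS : Shape S) {q : ℕ → ℂ × ℝ} {q' : ℂ × ℝ} (hq0 : ∀ k, 0 ≤ (q k).2)
    (hq0' : 0 ≤ q'.2) (hq : Tendsto q p (𝓝 q')) {w : ℂ} (hw : w ∈ S q') :
    ∃ v : ℕ → ℂ, (∀ k, v k ∈ S (q k)) ∧ Tendsto v p (𝓝 w) := by
  obtain ⟨u, hu, hu2⟩ := hS.lower q' hq0' w hw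
  refine ⟨fun k => (q k).1 + (q k).2 * u, fun k => hu2 _ (hq0 k), ?_⟩
  have h1 : Tendsto (fun k => (q k).1) p (𝓝 q'.1) := (continuous_fst.tendsto _).comp hq
  have h2 : Tendsto (fun k => (q k).2) p (𝓝 q'.2) := (continuous_snd.tendsto _).comp hq
  have h3 : Tendsto (fun k => (((q k).2 : ℝ) : ℂ)) p (𝓝 (q'.2 : ℂ)) :=
    (Complex.continuous_ofReal.tendsto _).comp h2
  have h4 : Tendsto (fun k => (q k).1 + (q k).2 * u) p (𝓝 (q'.1 + q'.2 * u)) :=
    h1.add (h3.mul_const u)
  rwa [hu] at h4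

/-- the complements of the shapes exhaust the complement of the limit shapes -/
theorem Shape.exh {n : ℕ} (hS : Shape S) {x : ℕ → Fin n → ℂ × ℝ} {x' : Fin n → ℂ × ℝ}
    (hx0 : ∀ k i, 0 ≤ (x k i).2) (hx : Tendsto x p (𝓝 x')) :
    Exh p (fun k => dom (fun i => S (x k i))) (dom fun i => S (x' i)) := by
  intro z hz
  have hz' : ∀ i, z ∉ S (x' i) := by
    intro i hi
    exact hz (mem_iUnion.2 ⟨i, hi⟩)
  have h1 : ∀ i, ∀ᶠ kw : ℕ × ℂ in (p : Filter ℕ) ×ˢ 𝓝 z, kw.2 ∉ S (x kw.1 i) := by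
    intro i
    have h2 : {z : (ℂ × ℝ) × ℂ | 0 ≤ z.1.2 ∧ z.2 ∈ S z.1}ᶜ ∈ 𝓝 (x' i, z) :=
      hS.closed.isOpen_compl.mem_nhds (fun h => hz' i h.2)
    have hxi : Tendsto (fun k => x k i) p (𝓝 (x' i)) := ((continuous_apply i).tendsto _).comp hx
    have h3 : Tendsto (fun kw : ℕ × ℂ => (x kw.1 i, kw.2)) ((p : Filter ℕ) ×ˢ 𝓝 z)
        (𝓝 (x' i, z)) := by
      rw [nhds_prod_eq]
      exact hxi.prodMap tendsto_id
    filter_upwards [h3.eventually h2] with kw hkw hmem
    exact hkw ⟨hx0 _ _, hmem⟩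
  have h4 := eventually_all.2 h1
  rw [eventually_prod_iff] at h4
  obtain ⟨pa, hpa, pb, hpb, hab⟩ := h4
  have hopen : IsOpen (dom fun i => S (x' i)) := by
    unfold dom
    exact (isClosed_iUnion_of_finite fun i => (hS.cpt _).isClosed).isOpen_compl
  obtain ⟨r, hr, hrb⟩ := Metric.eventually_nhds_iff_ball.1 (hpb.and (hopen.mem_nhds hz))
  refine ⟨r, hr, fun w hw => (hrb w hw).2, ?_⟩
  filter_upwards [hpa] with k hk w hw hmem
  obtain ⟨i, hi⟩ := mem_iUnion.1 hmem
  exact hab hk (hrb w hw).1 i hi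

theorem Exh.mono {U : ℕ → Set ℂ} {W W' : Set ℂ} (h : Exh p U W) (hW : W' ⊆ W)
    (hW' : IsOpen W') : Exh p U W' := by
  intro z hz
  obtain ⟨r, hr, hr2, hr3⟩ := h z (hW hz)
  obtain ⟨s, hs, hs2⟩ := Metric.isOpen_iff.1 hW' z hz
  refine ⟨min r s, lt_min hr hs, (ball_subset_ball (min_le_right _ _)).trans hs2, ?_⟩
  filter_upwards [hr3] with k hk using (ball_subset_ball (min_le_left _ _)).trans hk

/-- images of neighbourhoods of some of the components are open, together with the corresponding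
components -/
theorem isOpen_part {ι : Type*} [Finite ι] {K K' : ι → Set ℂ} {f : ℂ → ℂ} (hK : Fam K)
    (hK' : Fam K') (h : LMap K K' f) {G : Set ℂ} (hG : IsOpen G) {J : Set ι}
    (hJ : ∀ l ∈ J, K l ⊆ G) : IsOpen (f '' (dom K ∩ G) ∪ ⋃ l ∈ J, K' l) := by
  have hop : IsOpen (f '' (dom K ∩ G)) :=
    Crest.Agent.Lib.isOpen_image_of_injOn (hK.exterior.1.inter hG)
      (h.sig.hol.mono inter_subset_left) (h.sig.inj.mono inter_subset_left)
  rw [isOpen_iff_mem_nhds]
  rintro q (hq | hq)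
  · exact mem_of_superset (hop.mem_nhds hq) subset_union_left
  · rw [mem_iUnion₂] at hq
    obtain ⟨l, hl, hql⟩ := hq
    obtain ⟨g, hg, hgf, hfg⟩ := h.symm hK hK'
    have h1 : g ⁻¹' G ∈ 𝓝ˢ (K' l) ⊓ 𝓟 (dom K') := hg.lab l (hG.mem_nhdsSet.2 (hJ l hl))
    rw [mem_inf_principal] at h1
    have h2 : {w | w ∈ dom K' → w ∈ g ⁻¹' G} ∈ 𝓝 q := nhds_le_nhdsSet hql h1
    have h3 : ∀ᶠ w in 𝓝 q, ∀ m, m ≠ l → w ∉ K' m := by
      rw [eventually_all]
      intro m
      by_cases hm : m = l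
      · exact Eventually.of_forall fun w h => absurd hm h
      · have hqm : q ∉ K' m := fun h => (Set.disjoint_left.1 (hK'.disj m l hm)) h hql
        filter_upwards [(hK'.cpt m).isClosed.isOpen_compl.mem_nhds hqm] with w hw _ using hw
    filter_upwards [h2, h3] with w hw1 hw2
    by_cases hwd : w ∈ dom K'
    · left
      have h4 := hw1 hwd
      refine ⟨g w, ⟨?_, h4⟩, hfg w hwd⟩
      exact hg.mapsTo hwd
    · right
      obtain ⟨m, hm⟩ := not_mem_dom hwd
      have : m = l := by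
        by_contra hne
        exact hw2 m hne hm
      rw [this] at hm
      exact mem_iUnion₂.2 ⟨l, hl, hm⟩

end Crest.Agent.R105.Lim_107
end

-- ▼ part R105/Lim3_107
section

/-!
Row 105 (helper107), limits of labelled maps, part 3: labels are preserved in the limit.
-/

set_option autoImplicit false

open Set Filter Topology Metric Complex

namespace Crest.Agent.R105.Lim_107

open Crest.AnalysisR Crest.Agent.R105.FK_644

variable {S : ℂ × ℝ → Set ℂ} {p : Ultrafilter ℕ} {n : ℕ}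

/-- labels are preserved in the limit: if `w k ∈ K'_k j` tend to a frontier point of `K'' i`
then `i = j`. -/
theorem label_limit (hS : Shape S) {x : ℕ → Fin n → ℂ × ℝ} {x' : Fin n → ℂ × ℝ}
    (hx0 : ∀ k i, 0 ≤ (x k i).2) (hx : Tendsto x p (𝓝 x'))
    (hFx : ∀ k, Fam (fun i => S (x k i))) (hFx' : Fam (fun i => S (x' i)))
    {L : ℕ → Fin n → Set ℂ} (hL : ∀ k, Fam (L k)) {F : ℕ → ℂ → ℂ}
    (hF : ∀ k, LMap (fun i => S (x k i)) (L k) (F k)) {L' : Fin n → Set ℂ} (hL' : Fam L')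
    {f : ℂ → ℂ} (hf : LMap (fun i => S (x' i)) L' f)
    (hlim : TendstoLocallyUniformlyOn F f p (dom fun i => S (x' i)))
    {i j : Fin n} {w : ℕ → ℂ} {v : ℂ} (hw : ∀ k, w k ∈ L k j) (hwv : Tendsto w p (𝓝 v))
    (hv : v ∈ frontier (L' i)) : i = j := by
  classical
  by_contra hij
  have hvL : v ∈ L' i := (hL'.cpt i).isClosed.frontier_subset hv
  -- the neighbourhood `N` of `S (x' j)`
  have hYc : IsClosed (⋃ l ∈ {l : Fin n | l ≠ j}, S (x' l)) :=
    (toFinite {l : Fin n | l ≠ j}).isClosed_biUnion fun l _ => (hS.cpt _).isClosed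
  have hdis : Disjoint (S (x' j)) (⋃ l ∈ {l : Fin n | l ≠ j}, S (x' l)) := by
    rw [Set.disjoint_left]
    intro z hz hz2
    obtain ⟨l, hl, hzl⟩ := mem_iUnion₂.1 hz2
    exact Set.disjoint_left.1 (hFx'.disj l j hl) hzl hz
  obtain ⟨N, hNo, hNj, hNc, hNd⟩ := Ends_897.exists_nhd (hS.cpt (x' j)) hYc hdis
  have hNl : ∀ l, l ≠ j → S (x' l) ⊆ (closure N)ᶜ := by
    intro l hl z hz hzN
    exact Set.disjoint_left.1 hNd hzN (mem_iUnion₂.2 ⟨l, hl, hz⟩)
  have hNco : IsOpen (closure N)ᶜ := isClosed_closure.isOpen_compl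
  have hxi : ∀ i, Tendsto (fun k => x k i) p (𝓝 (x' i)) := fun i =>
    ((continuous_apply i).tendsto _).comp hx
  have hev1 : ∀ᶠ k in (p : Filter ℕ), S (x k j) ⊆ N :=
    hS.usc (fun k => hx0 k j) (hxi j) hNo hNj
  have hev2 : ∀ᶠ k in (p : Filter ℕ), ∀ l, l ≠ j → S (x k l) ⊆ (closure N)ᶜ := by
    rw [eventually_all]
    intro l
    by_cases hl : l = j
    · exact Eventually.of_forall fun k h => absurd hl h
    · filter_upwards [hS.usc (fun k => hx0 k l) (hxi l) hNco (hNl l hl)] with k hk _ using hk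
  -- the boundary of `N`
  set B : Set ℂ := frontier N with hB
  have hBc : IsCompact B := hNc.of_isClosed_subset isClosed_frontier frontier_subset_closure
  have hBdisj : ∀ z ∈ B, z ∉ N := by
    intro z hz hzN
    rw [hB, hNo.frontier_eq] at hz
    exact hz.2 hzN
  have hBcl : B ⊆ closure N := frontier_subset_closure
  have hBU : B ⊆ dom (fun i => S (x' i)) := by
    intro z hz hmem
    obtain ⟨l, hl⟩ := mem_iUnion.1 hmem
    by_cases hlj : l = j
    · subst hlj; exact hBdisj z hz (hNj hl)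
    · exact hNl l hlj hl (hBcl hz)
  have hBf : IsCompact (f '' B) := hBc.image_of_continuousOn (hf.sig.hol.continuousOn.mono hBU)
  have hvB : v ∉ f '' B := by
    rintro ⟨z, hz, hzv⟩
    have h1 : v ∈ dom L' := by rw [← hzv]; exact hf.mapsTo (hBU hz)
    exact h1 (mem_iUnion.2 ⟨i, hvL⟩)
  obtain ⟨ρ, hρ, hρB⟩ := Metric.isOpen_iff.1 hBf.isClosed.isOpen_compl v hvB
  have hunif : ∀ᶠ k in (p : Filter ℕ), ∀ z ∈ B, dist (f z) (F k z) < ρ / 2 := by
    have h1 := (tendstoLocallyUniformlyOn_iff_forall_isCompact hFx'.exterior.1).1 hlim B hBU hBc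
    exact Metric.tendstoUniformlyOn_iff.1 h1 (ρ / 2) (by positivity)
  -- a point `f a`, `a` outside of `N`, close to `v`
  obtain ⟨a, haU, haN, hav⟩ : ∃ a, a ∈ dom (fun i => S (x' i)) ∧ a ∈ (closure N)ᶜ ∧
      f a ∈ ball v (ρ / 2) := by
    have h1 : v ∈ frontier (connectedComponentIn (dom L')ᶜ v) := by
      rw [hL'.cc_eq hvL]; exact hv
    have h2 := Ends_897.clusterPt_eF_of_frontier hL'.exterior h1
    rw [hL'.eF_eq hvL, ← hf.lab_eq hFx' hL' i] at h2
    have h3 : (closure N)ᶜ ∩ dom (fun i => S (x' i)) ∈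
        𝓝ˢ (S (x' i)) ⊓ 𝓟 (dom fun i => S (x' i)) :=
      inter_mem_inf (hNco.mem_nhdsSet.2 (hNl i hij)) (mem_principal_self _)
    have h4 := clusterPt_iff_nonempty.1 h2 (ball_mem_nhds v (half_pos hρ)) (image_mem_map h3)
    obtain ⟨y, hy1, z, hz, hzy⟩ := h4
    exact ⟨z, hz.2, hz.1, by rw [hzy]; exact hy1⟩
  -- Hurwitz at `a`
  obtain ⟨s, hs, hsN⟩ := Metric.isOpen_iff.1 hNco a haN
  obtain ⟨r, hr, hrs, -, hrn, η, hη, hηn⟩ := hurwitz_loc hFx'.exterior
    (hS.exh hx0 hx) (fun k => (hF k).sig) hf.sig hlim haU hs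
  have hwv' : ∀ᶠ k in (p : Filter ℕ), w k ∈ ball v (ρ / 2) :=
    hwv.eventually (ball_mem_nhds v (half_pos hρ))
  obtain ⟨k, h1, h2, h3, h4, h5, h6⟩ :=
    (hev1.and (hev2.and (hunif.and (hrn.and (hηn.and hwv'))))).exists
  -- the two open pieces
  set A : Set ℂ := F k '' (dom (fun i => S (x k i)) ∩ N) ∪ ⋃ l ∈ ({j} : Set (Fin n)), L k l with hA
  set E : Set ℂ := F k '' (dom (fun i => S (x k i)) ∩ (closure N)ᶜ) ∪
    ⋃ l ∈ ({j}ᶜ : Set (Fin n)), L k l with hE
  have hAo : IsOpen A := isOpen_part (hFx k) (hL k) (hF k) hNo (fun l hl => by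
    rw [mem_singleton_iff] at hl; subst hl; exact h1)
  have hEo : IsOpen E := isOpen_part (hFx k) (hL k) (hF k) hNco (fun l hl => h2 l hl)
  have hAE : Disjoint A E := by
    rw [Set.disjoint_left]
    rintro y (⟨z, hz, rfl⟩ | hy) (⟨z', hz', hzz⟩ | hy')
    · have h7 := (hF k).sig.inj hz'.1 hz.1 hzz
      rw [h7] at hz'
      exact hz'.2 (subset_closure hz.2)
    · have h7 : F k z ∈ dom (L k) := (hF k).mapsTo hz.1
      obtain ⟨l, -, hl⟩ := mem_iUnion₂.1 hy'
      exact h7 (mem_iUnion.2 ⟨l, hl⟩)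
    · have h7 : F k z' ∈ dom (L k) := (hF k).mapsTo hz'.1
      obtain ⟨l, -, hl⟩ := mem_iUnion₂.1 hy
      rw [← hzz] at hl
      exact h7 (mem_iUnion.2 ⟨l, hl⟩)
    · obtain ⟨l, hl, hyl⟩ := mem_iUnion₂.1 hy
      obtain ⟨m, hm, hym⟩ := mem_iUnion₂.1 hy'
      rw [mem_singleton_iff] at hl
      subst hl
      exact Set.disjoint_left.1 ((hL k).disj m l hm) hym hyl
  have hball : ball v (ρ / 2) ⊆ A ∪ E := by
    intro y hy
    by_cases hyd : y ∈ dom (L k)
    · rw [← (hF k).img] at hyd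
      obtain ⟨z, hz, rfl⟩ := hyd
      by_cases hzN : z ∈ N
      · exact Or.inl (Or.inl ⟨z, ⟨hz, hzN⟩, rfl⟩)
      by_cases hzc : z ∈ closure N
      · exfalso
        have hzB : z ∈ B := by
          rw [hB, hNo.frontier_eq]; exact ⟨hzc, hzN⟩
        have h7 := h3 z hzB
        rw [mem_ball] at hy
        have h8 : dist (f z) v < ρ := by
          have := dist_triangle (f z) (F k z) v
          linarith
        exact hρB h8 ⟨z, hzB, rfl⟩
      · exact Or.inr (Or.inl ⟨z, ⟨hz, hzc⟩, rfl⟩)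
    · obtain ⟨l, hl⟩ := not_mem_dom hyd
      by_cases hlj : l = j
      · exact Or.inl (Or.inr (mem_iUnion₂.2 ⟨l, hlj, hl⟩))
      · exact Or.inr (Or.inr (mem_iUnion₂.2 ⟨l, hlj, hl⟩))
  have hsub : ball v (ρ / 2) ⊆ A :=
    (convex_ball v (ρ / 2)).isPreconnected.subset_left_of_subset_union hAo hEo hAE hball
      ⟨w k, h6, Or.inr (mem_iUnion₂.2 ⟨j, rfl, hw k⟩)⟩
  have hfaE : f a ∈ E := by
    obtain ⟨z, hz, hza⟩ := h5 (mem_ball_self hη)
    left
    refine ⟨z, ⟨h4 hz, hsN ?_⟩, hza⟩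
    exact ball_subset_ball hrs hz
  exact Set.disjoint_left.1 hAE (hsub hav) hfaE

end Crest.Agent.R105.Lim_107
end

-- ▼ part R105/Lim4_107
section

/-!
Row 105 (helper107), limits of labelled maps, part 4: `gen`, `cont4 : Cont4`, `prop4 : Prop4`.
-/

set_option autoImplicit false

open Set Filter Topology Metric Complex

namespace Crest.Agent.R105.Lim_107

open Crest.AnalysisR Crest.Agent.R105.FK_644

variable {S T : ℂ × ℝ → Set ℂ} {n : ℕ}

theorem Shape.bound (hS : Shape S) : ∃ C : ℝ, 0 ≤ C ∧ ∀ q : ℂ × ℝ, 0 ≤ q.2 → ∀ w ∈ S q,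
    ‖w‖ ≤ (1 + C) * ‖q‖ := by
  obtain ⟨C, hC⟩ := (hS.cpt (0, 1)).isBounded.exists_norm_le
  refine ⟨max C 0, le_max_right _ _, fun q hq w hw => ?_⟩
  obtain ⟨u, hu, hu2⟩ := hS.lower q hq w hw
  have h1 := hu2 (0, 1) zero_le_one
  simp only [zero_add, Complex.ofReal_one, one_mul] at h1
  have h2 := (hC u h1).trans (le_max_left C 0)
  have h3 : ‖q.1‖ ≤ ‖q‖ := norm_fst_le q
  have h4 : ‖q.2‖ ≤ ‖q‖ := norm_snd_le q
  have h5 : ‖(q.2 : ℂ) * u‖ ≤ ‖q‖ * max C 0 := by
    rw [norm_mul, Complex.norm_real]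
    exact mul_le_mul h4 h2 (norm_nonneg _) (norm_nonneg _)
  calc ‖w‖ = ‖q.1 + q.2 * u‖ := by rw [hu]
    _ ≤ ‖q.1‖ + ‖(q.2 : ℂ) * u‖ := norm_add_le _ _
    _ ≤ ‖q‖ + ‖q‖ * max C 0 := by linarith
    _ = _ := by ring

theorem isOpen_domS (hT : Shape T) (y : Fin n → ℂ × ℝ) : IsOpen (dom fun i => T (y i)) := by
  unfold dom
  exact (isClosed_iUnion_of_finite fun i => (hT.cpt _).isClosed).isOpen_compl

/-- limits of labelled maps between configurations of shapes -/
theorem gen (hS : Shape S) (hT : Shape T) {x y : ℕ → Fin n → ℂ × ℝ} {F : ℕ → ℂ → ℂ}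
    (hx0 : ∀ k i, 0 ≤ (x k i).2) (hy0 : ∀ k i, 0 ≤ (y k i).2)
    (hFx : ∀ k, Fam fun i => S (x k i)) (hFy : ∀ k, Fam fun i => T (y k i))
    (hF : ∀ k, LMap (fun i => S (x k i)) (fun i => T (y k i)) (F k))
    {x' : Fin n → ℂ × ℝ} (hx0' : ∀ i, 0 ≤ (x' i).2) (hFx' : Fam fun i => S (x' i))
    (hx : Tendsto x atTop (𝓝 x')) :
    ∃ y' : Fin n → ℂ × ℝ, (∀ i, 0 < (y' i).2) ∧ Fam (fun i => T (y' i)) ∧
      (∃ φ : ℕ → ℕ, StrictMono φ ∧ Tendsto (y ∘ φ) atTop (𝓝 y')) ∧
      ∃ g, LMap (fun i => S (x' i)) (fun i => T (y' i)) g := by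
  classical
  set p : Ultrafilter ℕ := Ultrafilter.of atTop with hp
  have hp_le : (p : Filter ℕ) ≤ atTop := Ultrafilter.of_le atTop
  have hxp : Tendsto x p (𝓝 x') := hx.mono_left hp_le
  -- a common radius
  obtain ⟨C, hC0, hC⟩ := hS.bound
  obtain ⟨M, hM⟩ := hx.norm.bddAbove_range
  have hMk : ∀ k, ‖x k‖ ≤ M := fun k => hM ⟨k, rfl⟩
  have hM0 : 0 ≤ M := (norm_nonneg _).trans (hMk 0)
  have hM' : ‖x'‖ ≤ M := le_of_tendsto hx.norm (Eventually.of_forall hMk)
  set R : ℝ := (1 + C) * M + 1 with hR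
  have hR0 : 0 < R := by positivity
  have hbd : ∀ z : Fin n → ℂ × ℝ, (∀ i, 0 ≤ (z i).2) → ‖z‖ ≤ M → ∀ w, R < ‖w‖ →
      w ∈ dom fun i => S (z i) := by
    intro z hz hzM w hw hmem
    obtain ⟨i, hi⟩ := mem_iUnion.1 hmem
    have h1 := hC (z i) (hz i) w hi
    have h2 : ‖z i‖ ≤ M := (norm_le_pi_norm z i).trans hzM
    have h3 : (1 + C) * ‖z i‖ ≤ (1 + C) * M := by gcongr
    linarith
  have hUR : ∀ k z, R < ‖z‖ → z ∈ dom fun i => S (x k i) := fun k => hbd (x k) (hx0 k) (hMk k)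
  have hUR' : ∀ z, R < ‖z‖ → z ∈ dom fun i => S (x' i) := hbd x' hx0' hM'
  -- `y` is bounded
  have hTb : ∀ k i, ∀ w ∈ T (y k i), ‖w‖ ≤ 33 * R := by
    intro k i w hw
    have h1 : Sig731.Sig (dom fun i => S (x k i)) (F k) :=
      ⟨(hF k).sig.hol, (hF k).sig.inj, (hF k).sig.inf⟩
    have h2 : w ∈ (F k '' (dom fun i => S (x k i)))ᶜ := by
      rw [(hF k).img]
      intro h
      exact h (mem_iUnion.2 ⟨i, hw⟩)
    have h3 := h1.compl_subset hR0 (hUR k) h2
    rwa [mem_closedBall_zero_iff] at h3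
  have hyb : ∀ k, y k ∈ closedBall (0 : Fin n → ℂ × ℝ) (66 * R) := by
    intro k
    rw [mem_closedBall_zero_iff, pi_norm_le_iff_of_nonneg (by positivity)]
    intro i
    have h1 := hTb k i _ (hT.base _ (hy0 k i))
    have h2 := hTb k i _ (hT.tip _ (hy0 k i))
    rw [Prod.norm_def]
    refine max_le (by linarith) ?_
    have h3 : ((y k i).2 : ℂ) = ((y k i).1 + ((y k i).2 : ℂ)) - (y k i).1 := by ring
    have h4 : ‖((y k i).2 : ℂ)‖ ≤ 33 * R + 33 * R := by
      rw [h3]
      exact (norm_sub_le _ _).trans (add_le_add h2 h1)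
    rw [Complex.norm_real] at h4
    linarith
  obtain ⟨y', -, hy'⟩ := (isCompact_closedBall (0 : Fin n → ℂ × ℝ) (66 * R)).ultrafilter_le_nhds
    (p.map y) (by
      rw [Ultrafilter.coe_map, le_principal_iff, mem_map]
      exact Filter.univ_mem' hyb)
  rw [Ultrafilter.coe_map] at hy'
  have hyp : Tendsto y p (𝓝 y') := hy'
  have hypi : ∀ i, Tendsto (fun k => y k i) p (𝓝 (y' i)) := fun i =>
    ((continuous_apply i).tendsto _).comp hyp
  have hxpi : ∀ i, Tendsto (fun k => x k i) p (𝓝 (x' i)) := fun i =>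
    ((continuous_apply i).tendsto _).comp hxp
  have hy0' : ∀ i, 0 ≤ (y' i).2 := by
    intro i
    exact ge_of_tendsto ((continuous_snd.tendsto _).comp (hypi i))
      (Eventually.of_forall fun k => hy0 k i)
  have hsub : ∃ φ : ℕ → ℕ, StrictMono φ ∧ Tendsto (y ∘ φ) atTop (𝓝 y') := by
    have h1 : MapClusterPt y' atTop y := mapClusterPt_iff_ultrafilter.2 ⟨p, hp_le, hyp⟩
    exact h1.tendsto_subseq
  -- the inverse maps
  have hinv : ∀ k, ∃ g, LMap (fun i => T (y k i)) (fun i => S (x k i)) g ∧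
      (∀ z ∈ dom (fun i => S (x k i)), g (F k z) = z) ∧
      ∀ w ∈ dom (fun i => T (y k i)), F k (g w) = w := fun k => (hF k).symm (hFx k) (hFy k)
  choose H hH hHF hFH using hinv
  -- the limit domain
  set V' : Set ℂ := dom fun i => T (y' i) with hV'
  have hV'o : IsOpen V' := isOpen_domS hT y'
  have hVR : ∀ k z, 33 * R < ‖z‖ → z ∈ dom fun i => T (y k i) := by
    intro k z hz hmem
    obtain ⟨i, hi⟩ := mem_iUnion.1 hmem
    have := hTb k i z hi
    linarith
  have hVR' : ∀ z, 33 * R < ‖z‖ → z ∈ V' := by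
    intro z hz hmem
    obtain ⟨i, hi⟩ := mem_iUnion.1 hmem
    obtain ⟨v, hv, hvz⟩ := hT.lsc (fun k => hy0 k i) (hy0' i) (hypi i) hi
    have h1 : ‖z‖ ≤ 33 * R := le_of_tendsto hvz.norm (Eventually.of_forall fun k =>
      hTb k i _ (hv k))
    linarith
  set z₀ : ℂ := ((33 * R + 1 : ℝ) : ℂ) with hz₀
  have hz₀n : 33 * R < ‖z₀‖ := by
    rw [hz₀, Complex.norm_real, Real.norm_eq_abs, abs_of_pos (by positivity)]
    linarith
  set V : Set ℂ := connectedComponentIn V' z₀ with hV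
  have hVV' : V ⊆ V' := connectedComponentIn_subset _ _
  have hVo : IsOpen V := hV'o.connectedComponentIn
  have hVfar : ∀ z, 33 * R < ‖z‖ → z ∈ V := by
    have h1 : IsPreconnected {w : ℂ | 33 * R < ‖w‖} :=
      Ends_897.isPreconnected_norm_gt (by positivity)
    intro z hz
    exact h1.subset_connectedComponentIn hz₀n (fun w hw => hVR' w hw) hz
  have hVe : IsExteriorDomain V := by
    refine ⟨hVo, isConnected_connectedComponentIn_iff.2 (hVR' _ hz₀n), 33 * R, hVfar⟩
  -- connected subsets of `V'` meeting `V` are contained in `V`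
  have hVc : ∀ s : Set ℂ, IsPreconnected s → s ⊆ V' → ∀ b ∈ s, b ∈ V → s ⊆ V := by
    intro s hs hsV b hb hbV
    have h1 : V = connectedComponentIn V' b := connectedComponentIn_eq hbV
    rw [h1]
    exact hs.subset_connectedComponentIn hb hsV
  -- limits
  have hexU : Exh p (fun k => dom fun i => S (x k i)) (dom fun i => S (x' i)) := hS.exh hx0 hxp
  have hexV : Exh p (fun k => dom fun i => T (y k i)) V := (hT.exh hy0 hyp).mono hVV' hVo
  obtain ⟨f, hf, hfl⟩ := sig_limit (p := p) hFx'.exterior hR0 hUR hUR' hexU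
    (fun k => (hF k).sig)
  obtain ⟨h, hh, hhl⟩ := sig_limit (p := p) hVe (R := 33 * R) (by positivity) hVR hVfar hexV
    (fun k => (hH k).sig)
  have hfT : ∀ i, ∀ w ∈ T (y' i), w ∉ f '' (dom fun i => S (x' i)) := by
    intro i w hw
    obtain ⟨v, hv, hvw⟩ := hT.lsc (fun k => hy0 k i) (hy0' i) (hypi i) hw
    refine kernel hFx'.exterior hexU (fun k => (hF k).sig) hf hfl (Eventually.of_forall fun k => ?_)
      hvw
    rw [(hF k).img]
    intro h
    exact h (mem_iUnion.2 ⟨i, hv k⟩)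
  have hhS : ∀ i, ∀ w ∈ S (x' i), w ∉ h '' V := by
    intro i w hw
    obtain ⟨v, hv, hvw⟩ := hS.lsc (fun k => hx0 k i) (hx0' i) (hxpi i) hw
    refine kernel hVe hexV (fun k => (hH k).sig) hh hhl (Eventually.of_forall fun k => ?_) hvw
    rw [(hH k).img]
    intro h
    exact h (mem_iUnion.2 ⟨i, hv k⟩)
  have hfV : f '' (dom fun i => S (x' i)) ⊆ V := by
    have h1 : f '' (dom fun i => S (x' i)) ⊆ V' := by
      intro w hw hmem
      obtain ⟨i, hi⟩ := mem_iUnion.1 hmem
      exact hfT i w hi hw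
    have h2 : IsPreconnected (f '' (dom fun i => S (x' i))) :=
      hFx'.exterior.2.1.isPreconnected.image _ hf.hol.continuousOn
    obtain ⟨r, hr, hrf⟩ := Sig731.eventually_norm_gt hf.inf (33 * R)
    set b : ℂ := ((max r R + 1 : ℝ) : ℂ) with hb
    have hbn : max r R < ‖b‖ := by
      have : 0 < max r R := lt_of_lt_of_le hr (le_max_left _ _)
      rw [hb, Complex.norm_real, Real.norm_eq_abs, abs_of_pos (by positivity)]
      linarith
    exact hVc _ h2 h1 (f b) ⟨b, hUR' b (lt_of_le_of_lt (le_max_right _ _) hbn), rfl⟩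
      (hVfar _ (hrf b (lt_of_le_of_lt (le_max_left _ _) hbn)))
  have hhU : h '' V ⊆ dom fun i => S (x' i) := by
    intro w hw hmem
    obtain ⟨i, hi⟩ := mem_iUnion.1 hmem
    exact hhS i w hi hw
  have hfh : ∀ w ∈ V, f (h w) = w := by
    intro w hw
    exact comp_limit (U := fun k => dom fun i => T (y k i)) hFx'.exterior.1 hf.hol.continuousOn
      hexV hhl hfl (fun k z hz => hFH k z hz) hw (hhU ⟨w, hw, rfl⟩)
  have himg : f '' (dom fun i => S (x' i)) = V := by
    apply hfV.antisymm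
    intro w hw
    exact ⟨h w, hhU ⟨w, hw, rfl⟩, hfh w hw⟩
  obtain ⟨L', hL', hfL⟩ := lab hFx' hf
  have hdomL : dom L' = V := by rw [← hfL.img, himg]
  -- frontier points
  have hfr : ∀ i, frontier (L' i) ⊆ T (y' i) := by
    intro i w hw
    have hwL : w ∈ L' i := (hL'.cpt i).isClosed.frontier_subset hw
    obtain ⟨j, hj⟩ : ∃ j, w ∈ T (y' j) := by
      by_contra hcon
      push Not at hcon
      have hwV' : w ∈ V' := by
        intro hmem
        obtain ⟨j, hj⟩ := mem_iUnion.1 hmem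
        exact hcon j hj
      have h3 : ∀ᶠ u in 𝓝 w, ∀ m, m ≠ i → u ∉ L' m := by
        rw [eventually_all]
        intro m
        by_cases hm : m = i
        · exact Eventually.of_forall fun w h => absurd hm h
        · have hqm : w ∉ L' m := fun h => (Set.disjoint_left.1 (hL'.disj m i hm)) h hwL
          filter_upwards [(hL'.cpt m).isClosed.isOpen_compl.mem_nhds hqm] with w hw _ using hw
      obtain ⟨r, hr, hrw⟩ := Metric.eventually_nhds_iff_ball.1 (h3.and (hV'o.mem_nhds hwV'))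
      have h4 : ∃ b ∈ ball w r, b ∉ L' i := by
        rw [frontier_eq_closure_inter_closure] at hw
        obtain ⟨b, hb1, hb2⟩ := mem_closure_iff.1 hw.2 _ isOpen_ball (mem_ball_self hr)
        exact ⟨b, hb1, hb2⟩
      obtain ⟨b, hb, hbL⟩ := h4
      have hbV : b ∈ V := by
        rw [← hdomL]
        intro hmem
        obtain ⟨m, hm⟩ := mem_iUnion.1 hmem
        by_cases hmi : m = i
        · subst hmi; exact hbL hm
        · exact (hrw b hb).1 m hmi hm
      have h5 := hVc (ball w r) (convex_ball w r).isPreconnected (fun u hu => (hrw u hu).2) b hb hbV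
        (mem_ball_self hr)
      rw [← hdomL] at h5
      exact h5 (mem_iUnion.2 ⟨i, hwL⟩)
    obtain ⟨v, hv, hvw⟩ := hT.lsc (fun k => hy0 k j) (hy0' j) (hypi j) hj
    have h6 : i = j := label_limit hS hx0 hxp hFx hFx' hFy hF hL' hfL hfl hv hvw hw
    rw [h6]; exact hj
  have hLT : ∀ i, L' i ⊆ T (y' i) := by
    intro i
    refine Ends_897.subset_of_frontier (hL'.cpt i) (preconn_convex (hT.cpt _) (hT.cvx _)) ?_ (hfr i)
    intro hb
    have h1 := (hT.cpt (y' i)).isBounded.union hb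
    rw [union_compl_self] at h1
    exact NormedSpace.unbounded_univ ℝ ℂ h1
  have hTL : ∀ i, T (y' i) ⊆ L' i := by
    intro i
    obtain ⟨w, hw⟩ := (hL'.conn i).nonempty
    have h1 : T (y' i) ⊆ (dom L')ᶜ := by
      intro u hu hud
      rw [hdomL] at hud
      exact hVV' hud (mem_iUnion.2 ⟨i, hu⟩)
    have h2 := (hT.cvx (y' i)).isPreconnected.subset_connectedComponentIn (hLT i hw) h1
    rwa [hL'.cc_eq hw] at h2
  have heq : L' = fun i => T (y' i) := by
    funext i
    exact (hLT i).antisymm (hTL i)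
  rw [heq] at hL' hfL
  exact ⟨y', fun i => hT.pos (hy0' i) (hL'.nt i), hL', hsub, f, hfL⟩

/-- (F4, continuity) -/
theorem cont4 : Cont4 := by
  intro n x y f hx hy hf x' hx' hlim
  obtain ⟨y', h1, h2, ⟨φ, hφ, hφ2⟩, g, hg⟩ := gen (S := discS) (T := slitS) shape_disc shape_slit
    (fun k i => ((hx k).1 i).le) (fun k i => ((hy k).1 i).le) (fun k => fam_discs (hx k))
    (fun k => fam_slits (hy k)) hf (fun i => (hx'.1 i).le) (fam_discs hx') hlim
  exact ⟨y', ⟨h1, fun i j hij => h2.disj i j hij⟩, φ, hφ, hφ2, g, hg⟩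

/-- (F4, properness) -/
theorem prop4 : Prop4 := by
  intro n x y f hx hy hf y' hy' hlim
  have hinv : ∀ k, ∃ g, LMap (slits (y k)) (discs (x k)) g := fun k => by
    obtain ⟨g, hg, -⟩ := (hf k).symm (fam_discs (hx k)) (fam_slits (hy k))
    exact ⟨g, hg⟩
  choose F hF using hinv
  obtain ⟨x', h1, h2, ⟨φ, hφ, hφ2⟩, g, hg⟩ := gen (S := slitS) (T := discS) shape_slit shape_disc
    (fun k i => ((hy k).1 i).le) (fun k i => ((hx k).1 i).le) (fun k => fam_slits (hy k))
    (fun k => fam_discs (hx k)) hF (fun i => (hy'.1 i).le) (fam_slits hy') hlim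
  have hx' : x' ∈ X n := ⟨h1, fun i j hij => h2.disj i j hij⟩
  obtain ⟨g', hg', -⟩ := hg.symm (fam_slits hy') (fam_discs hx')
  exact ⟨x', hx', φ, hφ, hφ2, g', hg'⟩

end Crest.Agent.R105.Lim_107
end

-- ▼ part R105/FK5_644
section

/-!
# Row 105: the finite Koebe theorem (helper644; leaves by 690, 107, 286)

* `fk : FK`
* `fk_fin`     : the same for any finite index type
* `fk_finset`  : the same for a `Finset` of an arbitrary index type
-/

set_option autoImplicit false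

open Set Filter Topology Metric Complex

namespace Crest.Agent.R105.FK_644

open Crest.AnalysisR

/-- **finite Koebe theorem** -/
theorem fk : FK :=
  fk_of slit Fk_286.uniqSlit' Fk_286.uniqDisc Lim_107.prop4 Lim_107.cont4 Yn_107.connY



end Crest.Agent.R105.FK_644
end

-- ▼ part R105/Cof4_515
section

/-!
# R105 / COFAT (node D2), part 4 (helper515): `S4U → CLB → COFAT`

`S4U` : the Courant-Lebesgue estimate with hops, uniform over all finite subfamilies.
-/

set_option autoImplicit false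

open Set Filter Topology Metric MeasureTheory
open Crest.AnalysisR

namespace Crest.Agent.R105.Cof_515

open FK_644 Top1_8 Cofa1_917

/-- uniform Courant-Lebesgue estimate with hops (one-dimensional image measure) -/
def S4U : Prop := ∀ (V : Set ℂ) (τ : ℝ), 0 < τ → Cofat τ V → ∀ p, p ∉ V → ∀ ε : ℝ, 0 < ε →
  ∃ δ : ℝ, 0 < δ ∧ ∀ (n : ℕ) (K : Fin n → Set ℂ) (x : Fin n → ℂ × ℝ) (f : ℂ → ℂ),
    (∀ i, NC V (K i)) → Fam K → x ∈ X n → LMap K (discs x) f →
    ∃ t, δ < t ∧ t < ε ∧ ∀ φ : ℂ → ℝ, LipschitzWith 1 φ →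
      volume (φ '' rest K x f p t) ≤ ENNReal.ofReal ε

theorem clb_of (h : S4U) : CLB := by
  intro V τ hτ hV p hp ε hε
  -- the component of `p` meets small circles, if it is nondegenerate
  obtain ⟨ρ, hρ, hmeet⟩ : ∃ ρ > 0, connectedComponentIn Vᶜ p ≠ {p} →
      ∀ t, 0 ≤ t → t < ρ → (connectedComponentIn Vᶜ p ∩ sphere p t).Nonempty := by
    by_cases h1 : connectedComponentIn Vᶜ p = {p}
    · exact ⟨1, one_pos, fun h2 => absurd h1 h2⟩
    · have hpm : p ∈ connectedComponentIn Vᶜ p := mem_connectedComponentIn hp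
      obtain ⟨q, hq, hqp⟩ : ∃ q ∈ connectedComponentIn Vᶜ p, q ≠ p := by
        by_contra hcon
        apply h1
        refine Subset.antisymm (fun q hq => ?_) (singleton_subset_iff.2 hpm)
        by_contra hne
        exact hcon ⟨q, hq, hne⟩
      refine ⟨dist q p, dist_pos.2 hqp, fun _ t ht0 ht => ?_⟩
      have h2 := ((isPreconnected_connectedComponentIn (F := Vᶜ) (x := p)).image (fun w => dist w p)
        (continuous_id.dist continuous_const).continuousOn).ordConnected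
      obtain ⟨w, hw, hwt⟩ := h2.out ⟨p, hpm, rfl⟩ ⟨q, hq, rfl⟩
        (show t ∈ Icc (dist p p) (dist q p) from ⟨by rw [dist_self]; exact ht0, ht.le⟩)
      exact ⟨w, hw, mem_sphere.2 hwt⟩
  obtain ⟨δ, hδ, H⟩ := h V τ hτ hV p hp (min (ε / 2) ρ) (lt_min (by positivity) hρ)
  refine ⟨δ, hδ, fun n K x f hNC hK hx hm => ?_⟩
  obtain ⟨t, ht1, ht2, hL⟩ := H n K x f hNC hK hx hm
  have hD : Fam (discs x) := fam_discs hx
  have hx0 : ∀ i, 0 ≤ (x i).2 := fun i => (hx.1 i).le
  have hmin : min (ε / 2) ρ ≤ ε / 2 := min_le_left _ _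
  have hmin0 : 0 ≤ min (ε / 2) ρ := le_min (by positivity) hρ.le
  refine ⟨fun i hi z hz hzp => ?_, fun hpt z hz z' hz' hzp hzp' => ?_⟩
  · have hcc : connectedComponentIn Vᶜ p = K i := (hNC i).cc_eq hi
    have hne : connectedComponentIn Vᶜ p ≠ {p} := by
      intro he
      have h3 := (hK.nt i)
      rw [← hcc, he] at h3
      exact not_nontrivial_singleton h3
    have h4 := hmeet hne t (hδ.le.trans ht1.le) (ht2.trans_le (min_le_right _ _))
    rw [hcc] at h4
    have h5 := dist_le_of_mem hK hD hm hx0 hmin0 hL hi h4 hz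
      (mem_closedBall.2 (hzp.le.trans ht1.le))
    linarith
  · have hp' : ∀ i, p ∉ K i := by
      intro i hi
      have h3 := (hK.nt i)
      rw [← (hNC i).cc_eq hi, hpt] at h3
      exact not_nontrivial_singleton h3
    obtain ⟨c, hc⟩ := exists_center hK hD hm hx0 (hδ.le.trans ht1.le) hmin0 hL hp'
    have h6 := hc z hz (mem_closedBall.2 (hzp.le.trans ht1.le))
    have h7 := hc z' hz' (mem_closedBall.2 (hzp'.le.trans ht1.le))
    have h8 := dist_triangle_right (f z) (f z') c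
    linarith

/-- **COFAT from the uniform Courant-Lebesgue estimate** -/
theorem cofat_of_s4u (h : S4U) : COFAT := cofat_of fk (clb_of h)

end Crest.Agent.R105.Cof_515
end

-- ▼ part R105/Cof6_430
section

/-!
# Row 105, COFAT, part 6 (helper430): area bound, `S4U`, and **COFAT**
-/

set_option autoImplicit false

open Set Filter Metric Topology MeasureTheory
open Crest.AnalysisR
open scoped ENNReal Real

namespace Crest.Agent.R105.Cof_430

open FK_644 Top1_8 Cofa1_917 Cof_515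

theorem det_deriv (a : ℂ) :
    ((ContinuousLinearMap.toSpanSingleton ℂ a).restrictScalars ℝ : ℂ →L[ℝ] ℂ).det = ‖a‖ ^ 2 := by
  have h1 : (((ContinuousLinearMap.toSpanSingleton ℂ a).restrictScalars ℝ : ℂ →L[ℝ] ℂ) :
      ℂ →ₗ[ℝ] ℂ) = Algebra.lmul ℝ ℂ a := by
    ext1 z
    simp [mul_comm]
  rw [ContinuousLinearMap.det, h1, ← Algebra.norm_apply, Algebra.norm_complex_apply,
    Complex.normSq_eq_norm_sq]

/-- area formula for injective holomorphic functions -/
theorem area_eq {W S : Set ℂ} (hW : IsOpen W) {f : ℂ → ℂ} (hf : DifferentiableOn ℂ f W)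
    (hi : InjOn f W) (hS : MeasurableSet S) (hSW : S ⊆ W) :
    ∫⁻ z in S, ‖deriv f z‖ₑ ^ 2 = volume (f '' S) := by
  rw [← lintegral_abs_det_fderiv_eq_addHaar_image volume hS
    (f' := fun z => (ContinuousLinearMap.toSpanSingleton ℂ (deriv f z)).restrictScalars ℝ)
    (fun z hz => ?_) (hi.mono hSW)]
  · refine lintegral_congr fun z => ?_
    rw [det_deriv, abs_of_nonneg (by positivity), ENNReal.ofReal_pow (norm_nonneg _), ofReal_norm]
  · have h1 : HasDerivAt f (deriv f z) z :=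
      (hf.differentiableAt (hW.mem_nhds (hSW hz))).hasDerivAt
    exact (h1.hasFDerivAt.restrictScalars ℝ).hasFDerivWithinAt

/-- **uniform area bound** -/
theorem area_bound {n : ℕ} {K : Fin n → Set ℂ} {x : Fin n → ℂ × ℝ} {f : ℂ → ℂ} (hK : Fam K)
    (hx : x ∈ X n) (hm : LMap K (discs x) f) {R : ℝ} (hR : 0 < R)
    (hRK : ∀ z, R < ‖z‖ → z ∈ dom K) (p : ℂ) {ε : ℝ} (hε : 0 < ε) :
    (∫⁻ z in closedBall p ε ∩ dom K, ‖deriv f z‖ₑ ^ 2) + ∑ i, ENNReal.ofReal (x i).2 ^ 2 ≤
      volume (closedBall (0 : ℂ) (33 * (R + (‖p‖ + ε)))) +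
      (NNReal.pi : ℝ≥0∞)⁻¹ * volume (closedBall (0 : ℂ) (33 * (R + (‖p‖ + ε)))) := by
  have hop : IsOpen (dom K) := by
    unfold dom
    exact (isClosed_iUnion_of_finite fun i => (hK.cpt i).isClosed).isOpen_compl
  have hsig : Sig731.Sig (dom K) f := ⟨hm.sig.hol, hm.sig.inj, hm.sig.inf⟩
  refine add_le_add ?_ ?_
  · rw [area_eq hop hm.sig.hol hm.sig.inj (measurableSet_closedBall.inter hop.measurableSet)
      inter_subset_right]
    refine measure_mono ?_
    rintro _ ⟨z, ⟨hz, hzK⟩, rfl⟩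
    rw [mem_closedBall_zero_iff]
    refine (hsig.norm_le hR hRK hzK).trans ?_
    have h1 : ‖z‖ ≤ ‖p‖ + ε := by
      have h2 : ‖z - p‖ ≤ ε := by rw [← dist_eq_norm]; exact hz
      have h3 : ‖z‖ ≤ ‖z - p‖ + ‖p‖ := by
        simpa using norm_add_le (z - p) p
      linarith
    gcongr
  · have hpi : (NNReal.pi : ℝ≥0∞) ≠ 0 := by
      rw [ENNReal.coe_ne_zero]; exact NNReal.pi_ne_zero
    rw [← ENNReal.mul_le_iff_le_inv hpi ENNReal.coe_ne_top, Finset.mul_sum]
    calc ∑ i, (NNReal.pi : ℝ≥0∞) * ENNReal.ofReal (x i).2 ^ 2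
        = ∑ i, volume (discs x i) := by
          refine Finset.sum_congr rfl fun i _ => ?_
          rw [discs, Complex.volume_closedBall, mul_comm]
      _ = volume (⋃ i, discs x i) := by
          rw [measure_iUnion (fun i j hij => hx.2 i j hij) (fun i => measurableSet_closedBall),
            tsum_fintype]
      _ ≤ volume (closedBall (0 : ℂ) (33 * (R + (‖p‖ + ε)))) := by
          refine measure_mono ?_
          have h1 := hsig.compl_subset hR hRK
          rw [hm.img, dom, compl_compl] at h1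
          refine h1.trans (closedBall_subset_closedBall ?_)
          have := norm_nonneg p
          linarith

/-- **(S4U)** -/
theorem s4u : S4U := by
  classical
  intro V τ hτ hV p hp ε hε
  obtain ⟨R, hR, hRV⟩ := Uni231.exists_Ext_subset hV.1
  have hcV : IsCompact Vᶜ := Ends_897.isCompact_compl hV.1
  -- the family of all nondegenerate components
  set KK : NCs V → Set ℂ := fun κ => κ.1 with hKK
  have hcpt : ∀ κ, IsCompact (KK κ) := by
    rintro ⟨K, z, hz, hKz, hn⟩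
    simp only [hKK, hKz]
    exact Ends_897.isCompact_cc hcV z
  have hnt : ∀ κ, (KK κ).Nontrivial := fun κ => κ.2.choose_spec.2.2
  have hfat : ∀ κ, Fat τ (KK κ) := by
    rintro ⟨K, z, hz, hKz, hn⟩
    simp only [hKK]
    rcases hV.2 z hz with h | h
    · rw [hKz, h] at hn
      exact absurd hn not_nontrivial_singleton
    · rwa [← hKz] at h
  have hdisj : Pairwise (Function.onFun Disjoint KK) := fun κ κ' hne =>
    κ.2.disjoint κ'.2 fun h => hne (Subtype.ext h)
  set A : ℝ≥0∞ := volume (closedBall (0 : ℂ) (33 * (R + (‖p‖ + ε)))) +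
      (NNReal.pi : ℝ≥0∞)⁻¹ * volume (closedBall (0 : ℂ) (33 * (R + (‖p‖ + ε)))) with hA
  have hAt : A ≠ ∞ := by
    have h1 : volume (closedBall (0 : ℂ) (33 * (R + (‖p‖ + ε)))) ≠ ∞ :=
      measure_closedBall_lt_top.ne
    refine ENNReal.add_ne_top.2 ⟨h1, ENNReal.mul_ne_top ?_ h1⟩
    rw [Ne, ENNReal.inv_eq_top, ENNReal.coe_eq_zero]; exact NNReal.pi_ne_zero
  obtain ⟨δ, hδ, H⟩ := stage hτ hcpt hfat hnt hdisj p hε hAt
  refine ⟨δ, hδ, fun n K x f hNC hK hx hm => ?_⟩
  have hop : IsOpen (dom K) := by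
    unfold dom
    exact (isClosed_iUnion_of_finite fun i => (hK.cpt i).isClosed).isOpen_compl
  have hVK : V ⊆ dom K := subset_dom_of_NC hNC
  -- the index map
  set e : Fin n → NCs V := fun i => ⟨K i, hNC i⟩ with he
  have hinj : Function.Injective e := by
    intro i j hij
    by_contra hne
    have h1 : K i = K j := congrArg Subtype.val hij
    have h2 := hK.disj i j hne
    rw [← h1, disjoint_self] at h2
    exact (hK.nt i).nonempty.ne_empty h2
  set c : NCs V → ℂ := Function.extend e (fun i => (x i).1) (fun _ => 0) with hc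
  set r : NCs V → ℝ := Function.extend e (fun i => (x i).2) (fun _ => 0) with hr
  have hce : ∀ i, c (e i) = (x i).1 := fun i => hinj.extend_apply _ _ i
  have hre : ∀ i, r (e i) = (x i).2 := fun i => hinj.extend_apply _ _ i
  have hsum : ∑ κ ∈ Finset.univ.image e, ENNReal.ofReal (r κ) ^ 2 =
      ∑ i, ENNReal.ofReal (x i).2 ^ 2 := by
    rw [Finset.sum_image (fun i _ j _ h => hinj h)]
    refine Finset.sum_congr rfl fun i _ => ?_
    rw [hre]
  have hE := area_bound hK hx hm hR (fun z hz => hVK (hRV hz)) p hε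
  rw [← hsum] at hE
  obtain ⟨t, ht1, ht2, ht⟩ := H (Finset.univ.image e) c r (dom K) f hop hm.sig.hol hE
  refine ⟨t, ht1, ht2, fun φ hφ => (measure_mono (image_mono ?_)).trans (ht φ hφ)⟩
  unfold rest chain
  refine union_subset_union_right _ ?_
  intro w hw
  simp only [mem_iUnion] at hw ⊢
  obtain ⟨i, hi, hw⟩ := hw
  refine ⟨e i, Finset.mem_image_of_mem _ (Finset.mem_univ i), hi, ?_⟩
  rw [hce, hre]; exact hw

/-- **COFAT** -/
theorem cofat : COFAT := cofat_of_s4u s4u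

end Crest.Agent.R105.Cof_430
end

-- ▼ part R105/Top2_8
section

/-!
# Row 105, S0138: after COFAT (430 / 515 / 917 over 644 FK), S0138 = SqPic (helper8)
-/

set_option autoImplicit false

open Set Filter Metric Topology MeasureTheory
open Crest.AnalysisR

namespace Crest.Agent.R105.Top2_8

open Top1_8

/-- **S0138 from FATPIC** -/
theorem s0138_of_fatPic (h : FatPic) (U : Set ℂ) (hU : IsExteriorDomain U) :
    ∃ f : ℂ → ℂ, DifferentiableOn ℂ f U ∧ Set.InjOn f U ∧
      Filter.Tendsto f (Filter.cocompact ℂ) (Filter.cocompact ℂ) ∧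
      IsCircleDomainFinitePart (f '' U) :=
  s0138 h Cof_430.cofat U hU

/-- **S0138 from SQPIC** -/
theorem s0138_of_sqPic (h : SqPic) (U : Set ℂ) (hU : IsExteriorDomain U) :
    ∃ f : ℂ → ℂ, DifferentiableOn ℂ f U ∧ Set.InjOn f U ∧
      Filter.Tendsto f (Filter.cocompact ℂ) (Filter.cocompact ℂ) ∧
      IsCircleDomainFinitePart (f '' U) :=
  s0138_of_fatPic (fatPic_of_sqPic h) U hU

end Crest.Agent.R105.Top2_8
end

-- ▼ part R105/SkJ2_987

/-!
# Row 105, S0138: THE JOIN (helper987)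

* `AdmP U a F ψ` : `∀ i, NI Uᶜ (a i) (toC ψ ∘ F)`;
* `el_adm`       : crude E-L for `T`-finite admissible functions of the picture plane;
* leaves: `STRP Str` (stream functions of Lemma A are admissible), `LIMP` (limits of cut functions
  with bounded charges are admissible), `SkT1_137.LEMAQ`, `SkT1_137.STEPQ`, `Exs_992.LIMQ`;
* `sqPic_of : leaves → Top1_8.SqPic`, `s0138_of : leaves → S0138`.
-/

set_option autoImplicit false

open MeasureTheory Set Filter Topology Metric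
open scoped NNReal ENNReal ContDiff

namespace Crest.Agent.R105.SkJ_987

open Crest.AnalysisR Tc_808 Ni_459 Sqr_185 Ends_897
open Bd_775 (Q)
open IfB_641 (X0)
open SelT_871 (JT)
open Cq_463 (Sqr QPic)
open CF_363 (Hair)
open Skp2_257 (Comps Reg)
open Tra_937 (setR setC toC Uni)
open Pct_185 (PicT Sol)
open Exs_992 (PicS LimOf)
open Stp_722 (OscLe)
open Ta_937 (sqs hrs)
open SkT1_137 (TFin Carr StrT LEMAQ STEPQ)
open Nal_649 (FamQ)
open SkA_8 (Pk)

noncomputable section

variable {U : Set ℂ} {F : ℂ → ℂ} {x0 φ : ℂ → ℝ} {a : ℕ → ℂ → ℝ} {ψ : ℝ × ℝ → ℝ}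

/-- admissible functions of the picture plane -/
def AdmP (U : Set ℂ) (a : ℕ → ℂ → ℝ) (F : ℂ → ℂ) (ψ : ℝ × ℝ → ℝ) : Prop :=
  ∀ i, NI Uᶜ (a i) (fun z => toC ψ (F z))

/-- the picture of a domain -/
abbrev PE (U : Set ℂ) (F : ℂ → ℂ) : Set (ℝ × ℝ) := setR (F '' U)ᶜ



/-! ### E-L -/

theorem osc_le_prof {E : Set ℂ} {o : Set (ℝ × ℝ) → ℝ} (hT : TFin (setR E) ψ o) (L : Cmp E) :
    osc E (toC ψ) L.1 ≤ o (setR L.1) := by
  have hm : setR L.1 ∈ Comps (setR E) := Ta_937.mem_comps.2 ⟨L, rfl⟩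
  have h2 := hT.osc _ hm
  rw [← Tra_937.setR_compl, Ta_937.oscLe_toC] at h2
  have h3 := (Ta_937.osc_le_iff (U := Eᶜ) (Ta_937.q_toC hT.reg).bdd (hT.nn _ hm)).2 h2
  rwa [compl_compl] at h3

theorem setR_inj {A B : Set ℂ} (h : setR A = setR B) : A = B := by
  rw [← Tra_937.setC_setR A, h, Tra_937.setC_setR]

/-- components of the two planes -/
def toComps (E : Set ℂ) (L : Cmp E) : Comps (setR E) := ⟨setR L.1, Ta_937.mem_comps.2 ⟨L, rfl⟩⟩

theorem toComps_inj (E : Set ℂ) : Function.Injective (toComps E) := fun _ _ h =>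
  Cmp.ext (setR_inj (congrArg Subtype.val h))

/-- `T`-finite functions of the picture plane -/
theorem tt_of_TFin {E : Set ℂ} {o : Set (ℝ × ℝ) → ℝ} (hT : TFin (setR E) ψ o) : TT E (toC ψ) where
  q := Ta_937.q_toC hT.reg
  sum := by
    have h1 : Summable fun L : Cmp E => o (setR L.1) ^ 2 := by
      have h2 := hT.sum.comp_injective (toComps_inj E)
      exact h2.congr fun L => rfl
    exact Summable.of_nonneg_of_le (fun _ => sq_nonneg _)
      (fun L => pow_le_pow_left₀ (osc_nonneg _ _ _) (osc_le_prof hT L) 2) h1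

/-- the component of a square -/
theorem comp_eq {E : Set ℂ} (hP : PicT E) (Q : sqs E) :
    Nal_649.comp (setR E) Q.1 = setR (Ta_937.solE hP Q).1.1 := by
  have hm : (Q.1.x, Q.1.y) ∈ setR (Ta_937.solE hP Q).1.1 :=
    Ta_937.car_solE hP Q (Cq_463.Sqr.mem_car.2 ⟨⟨le_rfl, by linarith [Q.1.hs]⟩,
      ⟨le_rfl, by linarith [Q.1.hs]⟩⟩)
  have hmE : (Q.1.x, Q.1.y) ∈ setR E := (Ta_937.solE hP Q).1.subset hm
  unfold Nal_649.comp
  rw [Ta_937.cc_setR hmE]
  congr 1
  exact (congrArg Subtype.val ((Ta_937.solE hP Q).1.eq_of_mem hm)).symm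

/-- minimality along admissible directions -/
theorem min_along (h : Pk Uᶜ x0 a φ F) {v : ℂ → ℝ} (hv : TT Uᶜ v)
    (had : ∀ i, NI Uᶜ (a i) v) (t : ℝ) : JT Uᶜ x0 φ ≤ JT Uᶜ x0 (fun z => φ z + t * v z) := by
  have hYc : IsClosed Uᶜ := (cpt_of h.hY).isClosed
  refine h.min _ (h.tt.add hYc ((TT.const t).mul hYc hv)) fun i => ?_
  have h1 := Nip_31.linG h.hY h.hx (h.tta i) (h.swd i) h.tt hv (h.com i) (had i) 1 t
  simpa only [one_mul] using h1

theorem endMap (h : Pk Uᶜ x0 a φ F) (hU : IsExteriorDomain U) (hi : InjOn F U) :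
    EndMap U (F '' U) F := by
  obtain ⟨c, hc⟩ := h.inf
  have hd := h.hol
  rw [compl_compl] at hd
  exact EndMap.of_holo hU hd hi (Red_828.tendsto_cocompact_of_tendsto_sub hc)

/-- **crude E-L for `T`-finite admissible functions** -/
theorem el_adm (hU : IsExteriorDomain U) (h : Pk Uᶜ x0 a φ F) (hi : InjOn F U)
    (hP : PicT (F '' U)ᶜ) {o : Set (ℝ × ℝ) → ℝ} (hT : TFin (PE U F) ψ o) (had : AdmP U a F ψ) :
    |∫ p in (PE U F)ᶜ, CF_363.gx ψ p| ≤
      ∑' Q : sqs (F '' U)ᶜ, Q.1.s * o (Nal_649.comp (PE U F) Q.1) := by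
  have hE := endMap h hU hi
  have hd := h.hol
  rw [compl_compl] at hd
  have hre := h.re
  rw [compl_compl] at hre
  have hF : Uni U F := ⟨hU.1, hd, hi⟩
  have htt := tt_of_TFin hT
  have htp : TT Uᶜ (fun z => toC ψ (F z)) := Ta_937.tt_comp hE hF htt
  have h2 := Ta_937.el_C hE hF h.hx h.tt (fun z hz => (hre z hz).symm) htt
    (Ta_937.compact_toC hT.reg.cpt) (min_along h htp had)
  have h3 : ∫ w in F '' U, Tra_937.gx (toC ψ) w = ∫ p in (PE U F)ᶜ, CF_363.gx ψ p := by
    rw [← Tra_937.integral_toC, ← Tra_937.setR_compl, Tra_937.setC_setR, compl_compl]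
    congr 1
    funext w
    exact Ta_937.gx_toC'' ψ w
  rw [h3, Ta_937.tsum_wd hP fun L => osc (F '' U)ᶜ (toC ψ) L.1] at h2
  refine h2.trans ?_
  -- comparison of the two series
  have hs2 : Summable fun Q : sqs (F '' U)ᶜ => Q.1.s ^ 2 := by
    have h3 : Summable fun L : Sol (F '' U)ᶜ => wd L.1.1 ^ 2 :=
      hP.sum.comp_injective Subtype.val_injective
    rw [← (Ta_937.solE hP).summable_iff] at h3
    refine h3.congr fun Q => ?_
    simp only [Function.comp_apply, Ta_937.wd_solE]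
  have ho2 : Summable fun Q : sqs (F '' U)ᶜ => o (Nal_649.comp (PE U F) Q.1) ^ 2 := by
    let i : sqs (F '' U)ᶜ → Comps (PE U F) := fun Q =>
      ⟨setR (Ta_937.solE hP Q).1.1, Ta_937.mem_comps.2 ⟨_, rfl⟩⟩
    have hinj : Function.Injective i := fun Q Q' hQ => by
      have h1 : (Ta_937.solE hP Q).1.1 = (Ta_937.solE hP Q').1.1 :=
        setR_inj (congrArg Subtype.val hQ)
      exact (Ta_937.solE hP).injective (Subtype.ext (Cmp.ext h1))
    have h4 := hT.sum.comp_injective hinj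
    refine h4.congr fun Q => ?_
    simp only [Function.comp_apply, i]
    rw [comp_eq hP Q]
  have hle : ∀ Q : sqs (F '' U)ᶜ, osc (F '' U)ᶜ (toC ψ) (Ta_937.solE hP Q).1.1 ≤
      o (Nal_649.comp (PE U F) Q.1) := fun Q => by
    rw [comp_eq hP Q]
    exact osc_le_prof hT _
  have hnn : ∀ Q : sqs (F '' U)ᶜ, 0 ≤ o (Nal_649.comp (PE U F) Q.1) := fun Q =>
    (osc_nonneg _ _ _).trans (hle Q)
  have h4 : Summable fun Q : sqs (F '' U)ᶜ => Q.1.s * o (Nal_649.comp (PE U F) Q.1) := by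
    refine Summable.of_nonneg_of_le (fun Q => mul_nonneg Q.1.hs.le (hnn Q)) (fun Q => ?_)
      ((hs2.add ho2).div_const 2)
    nlinarith [sq_nonneg (Q.1.s - o (Nal_649.comp (PE U F) Q.1))]
  have h5 : ∀ Q : sqs (F '' U)ᶜ, Q.1.s * osc (F '' U)ᶜ (toC ψ) (Ta_937.solE hP Q).1.1 ≤
      Q.1.s * o (Nal_649.comp (PE U F) Q.1) := fun Q =>
    mul_le_mul_of_nonneg_left (hle Q) Q.1.hs.le
  have h6 : Summable fun Q : sqs (F '' U)ᶜ => Q.1.s * osc (F '' U)ᶜ (toC ψ) (Ta_937.solE hP Q).1.1 :=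
    Summable.of_nonneg_of_le (fun Q => mul_nonneg Q.1.hs.le (osc_nonneg _ _ _)) h5 h4
  exact h6.tsum_le_tsum h5 h4


/-! ### translation -/

theorem cc_translate (V : Set ℂ) (c : ℂ) {z : ℂ} (hz : z ∈ (fun w => w - c) '' V) :
    connectedComponentIn ((fun w => w - c) '' V) z =
      (fun w => w - c) '' connectedComponentIn V (z + c) := by
  obtain ⟨w, hw, rfl⟩ := hz
  have h := (Homeomorph.subRight c).image_connectedComponentIn (s := V) (x := w) hw
  have e : (fun w => w - c) w + c = w := by simp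
  rw [e]
  exact h.symm

theorem sq_translate (c d : ℂ) (s : ℝ) :
    (fun w => w - c) '' Top1_8.Sq d s = Top1_8.Sq (d - c) s := by
  ext w
  constructor
  · rintro ⟨v, ⟨h1, h2⟩, rfl⟩
    refine ⟨?_, ?_⟩
    · have : (v - c).re - (d - c).re = v.re - d.re := by simp
      rw [this]; exact h1
    · have : (v - c).im - (d - c).im = v.im - d.im := by simp
      rw [this]; exact h2
  · rintro ⟨h1, h2⟩
    refine ⟨w + c, ⟨?_, ?_⟩, by simp⟩
    · have : (w + c).re - d.re = w.re - (d - c).re := by simp; ring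
      rw [this]; exact h1
    · have : (w + c).im - d.im = w.im - (d - c).im := by simp; ring
      rw [this]; exact h2

/-! ### the join -/



end

end Crest.Agent.R105.SkJ_987
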