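import Crest.Agent.R105.Prod1_412

-- ▼ part R105/Prod2_412
section

/-! Row 105, PROD (helper412), part 2: slabs, good weights, the doubling of a product. -/

open MeasureTheory Set Filter Topology

namespace Crest.Agent.R105.Prod_412

/-- Algebra `A` of continuous functions on the rectangle `[t0,t1] × [y0,y1]`, `D a` = the a.e.
derivative in the first variable, `el` = the weight `1` is good. -/
structure Slab (A : Set (ℝ × ℝ → ℝ)) (D : (ℝ × ℝ → ℝ) → (ℝ × ℝ → ℝ)) (t0 t1 y0 y1 : ℝ) :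
    Prop where
  const : ∀ c : ℝ, (fun _ : ℝ × ℝ => c) ∈ A
  add : ∀ a ∈ A, ∀ b ∈ A, (fun p => a p + b p) ∈ A
  mul : ∀ a ∈ A, ∀ b ∈ A, (fun p => a p * b p) ∈ A
  cont : ∀ a ∈ A, ContinuousOn a (Icc t0 t1 ×ˢ Icc y0 y1)
  int : ∀ a ∈ A, IntegrableOn (D a) (Icc t0 t1 ×ˢ Icc y0 y1)
  der : ∀ a ∈ A, ∀ᵐ p ∂((volume : Measure (ℝ × ℝ)).restrict (Icc t0 t1 ×ˢ Icc y0 y1)),
    HasDerivAt (fun s => a (s, p.2)) (D a p) p.1
  el : ∀ a ∈ A, ∀ t ∈ Icc t0 t1, ∀ t' ∈ Icc t0 t1, t ≤ t' →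
    (∫ y in y0..y1, a (t', y)) - (∫ y in y0..y1, a (t, y)) =
      ∫ s in t..t', ∫ y in y0..y1, D a (s, y)

/-- `Lebesgue` on a compact interval -/
noncomputable abbrev leb (a b : ℝ) : Measure ℝ := (volume : Measure ℝ).restrict (Icc a b)

theorem leb_prod (a b c d : ℝ) : (leb a b).prod (leb c d) =
    (volume : Measure (ℝ × ℝ)).restrict (Icc a b ×ˢ Icc c d) := by
  rw [leb, leb, Measure.prod_restrict]; rfl

theorem intervalIntegral_eq {a b : ℝ} (hab : a ≤ b) (f : ℝ → ℝ) :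
    ∫ x in a..b, f x = ∫ x, f x ∂(leb a b) := by
  rw [intervalIntegral.integral_of_le hab, leb, integral_Icc_eq_integral_Ioc]

/-- good weights -/
def Good (A : Set (ℝ × ℝ → ℝ)) (D : (ℝ × ℝ → ℝ) → (ℝ × ℝ → ℝ)) (t0 t1 y0 y1 : ℝ)
    (w : ℝ → ℝ) : Prop :=
  ∀ a ∈ A, ∀ t ∈ Icc t0 t1, ∀ t' ∈ Icc t0 t1, t ≤ t' →
    (∫ y, w y * a (t', y) ∂(leb y0 y1)) - (∫ y, w y * a (t, y) ∂(leb y0 y1)) =
      ∫ s in t..t', ∫ y, w y * D a (s, y) ∂(leb y0 y1)

variable {A : Set (ℝ × ℝ → ℝ)} {D : (ℝ × ℝ → ℝ) → (ℝ × ℝ → ℝ)} {t0 t1 y0 y1 : ℝ}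

theorem Slab.good_one (h : Slab A D t0 t1 y0 y1) (hy : y0 ≤ y1) :
    Good A D t0 t1 y0 y1 (fun _ => 1) := by
  intro a ha t ht t' ht' htt
  have := h.el a ha t ht t' ht' htt
  simp only [one_mul]
  rw [← intervalIntegral_eq hy, ← intervalIntegral_eq hy, this]
  congr 1
  ext s
  rw [intervalIntegral_eq hy]

/-- the box -/
abbrev box3 (t0 t1 y0 y1 : ℝ) : Set (ℝ × (ℝ × ℝ)) := Icc t0 t1 ×ˢ (Icc y0 y1 ×ˢ Icc y0 y1)

/-- three variable identity -/
def Idn (t0 t1 y0 y1 : ℝ) (W : ℝ × ℝ → ℝ) (H K : ℝ × (ℝ × ℝ) → ℝ) : Prop :=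
  ∀ t ∈ Icc t0 t1, ∀ t' ∈ Icc t0 t1, t ≤ t' →
    (∫ q, W q * H (t', q) ∂((leb y0 y1).prod (leb y0 y1))) -
      (∫ q, W q * H (t, q) ∂((leb y0 y1).prod (leb y0 y1))) =
      ∫ p in (Ioc t t' ×ˢ (univ : Set (ℝ × ℝ))), W p.2 * K p ∂(bet (leb t0 t1) (leb y0 y1))

theorem ae_mem_sq (y0 y1 : ℝ) : ∀ᵐ q ∂((leb y0 y1).prod (leb y0 y1)),
    q ∈ Icc y0 y1 ×ˢ Icc y0 y1 := by
  rw [leb_prod]
  exact ae_restrict_mem (measurableSet_Icc.prod measurableSet_Icc)

theorem bet_eq (t0 t1 y0 y1 : ℝ) : bet (leb t0 t1) (leb y0 y1) =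
    (volume : Measure (ℝ × (ℝ × ℝ))).restrict (box3 t0 t1 y0 y1) := by
  rw [bet, leb_prod, leb, Measure.prod_restrict]; rfl

theorem measurableSet_box3 (t0 t1 y0 y1 : ℝ) : MeasurableSet (box3 t0 t1 y0 y1) :=
  measurableSet_Icc.prod (measurableSet_Icc.prod measurableSet_Icc)

theorem isCompact_box3 (t0 t1 y0 y1 : ℝ) : IsCompact (box3 t0 t1 y0 y1) :=
  isCompact_Icc.prod (isCompact_Icc.prod isCompact_Icc)

theorem ae_mem_box (t0 t1 y0 y1 : ℝ) : ∀ᵐ p ∂(bet (leb t0 t1) (leb y0 y1)),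
    p ∈ box3 t0 t1 y0 y1 := by
  rw [bet_eq]
  exact ae_restrict_mem (measurableSet_box3 _ _ _ _)

theorem slice_aesm {H : ℝ × (ℝ × ℝ) → ℝ} (hH : ContinuousOn H (box3 t0 t1 y0 y1)) {t : ℝ}
    (ht : t ∈ Icc t0 t1) :
    AEStronglyMeasurable (fun q => H (t, q)) ((leb y0 y1).prod (leb y0 y1)) := by
  rw [leb_prod]
  have : ContinuousOn (fun q => H (t, q)) (Icc y0 y1 ×ˢ Icc y0 y1) :=
    hH.comp (by fun_prop) (fun q hq => ⟨ht, hq⟩)
  exact this.aestronglyMeasurable (measurableSet_Icc.prod measurableSet_Icc)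

theorem box_aesm {H : ℝ × (ℝ × ℝ) → ℝ} (hH : ContinuousOn H (box3 t0 t1 y0 y1)) :
    AEStronglyMeasurable H (bet (leb t0 t1) (leb y0 y1)) := by
  rw [bet_eq]
  exact hH.aestronglyMeasurable (measurableSet_box3 _ _ _ _)

/-- limits in the identity -/
theorem Idn.lim {W : ℝ × ℝ → ℝ} (hW : Continuous W) {H K : ℕ → ℝ × (ℝ × ℝ) → ℝ}
    {H0 K0 : ℝ × (ℝ × ℝ) → ℝ} {B : ℝ} {G : ℝ × (ℝ × ℝ) → ℝ}
    (hG : Integrable G (bet (leb t0 t1) (leb y0 y1)))
    (hH : ∀ n, ContinuousOn (H n) (box3 t0 t1 y0 y1))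
    (hHb : ∀ n, ∀ p ∈ box3 t0 t1 y0 y1, |H n p| ≤ B)
    (hHl : ∀ p ∈ box3 t0 t1 y0 y1, Tendsto (fun n => H n p) atTop (𝓝 (H0 p)))
    (hK : ∀ n, AEStronglyMeasurable (K n) (bet (leb t0 t1) (leb y0 y1)))
    (hKb : ∀ n, ∀ᵐ p ∂(bet (leb t0 t1) (leb y0 y1)), |K n p| ≤ G p)
    (hKl : ∀ᵐ p ∂(bet (leb t0 t1) (leb y0 y1)), Tendsto (fun n => K n p) atTop (𝓝 (K0 p)))
    (h : ∀ n, Idn t0 t1 y0 y1 W (H n) (K n)) : Idn t0 t1 y0 y1 W H0 K0 := by
  obtain ⟨C, hC⟩ : ∃ C, ∀ q ∈ Icc y0 y1 ×ˢ Icc y0 y1, ‖W q‖ ≤ C :=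
    (isCompact_Icc.prod isCompact_Icc).exists_bound_of_continuousOn hW.continuousOn
  intro t ht t' ht' htt
  have hL : ∀ s ∈ Icc t0 t1, Tendsto (fun n => ∫ q, W q * H n (s, q)
      ∂((leb y0 y1).prod (leb y0 y1))) atTop
      (𝓝 (∫ q, W q * H0 (s, q) ∂((leb y0 y1).prod (leb y0 y1)))) := by
    intro s hs
    apply tendsto_integral_of_dominated_convergence (fun _ => C * B)
    · intro n
      exact hW.aestronglyMeasurable.mul (slice_aesm (hH n) hs)
    · exact integrable_const _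
    · intro n
      filter_upwards [ae_mem_sq y0 y1] with q hq
      rw [norm_mul]
      exact mul_le_mul (hC q hq) (hHb n _ ⟨hs, hq⟩) (norm_nonneg _)
        ((norm_nonneg _).trans (hC q hq))
    · filter_upwards [ae_mem_sq y0 y1] with q hq
      exact (hHl _ ⟨hs, hq⟩).const_mul _
  have hR : Tendsto (fun n => ∫ p in (Ioc t t' ×ˢ (univ : Set (ℝ × ℝ))), W p.2 * K n p
      ∂(bet (leb t0 t1) (leb y0 y1))) atTop
      (𝓝 (∫ p in (Ioc t t' ×ˢ (univ : Set (ℝ × ℝ))), W p.2 * K0 p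
      ∂(bet (leb t0 t1) (leb y0 y1)))) := by
    apply tendsto_integral_of_dominated_convergence (fun p => C * G p)
    · intro n
      exact ((hW.comp continuous_snd).aestronglyMeasurable.mul (hK n)).restrict
    · exact (hG.const_mul C).restrict
    · intro n
      apply ae_restrict_of_ae
      filter_upwards [ae_mem_box t0 t1 y0 y1, hKb n] with p hp hpn
      rw [norm_mul]
      exact mul_le_mul (hC p.2 hp.2) hpn (norm_nonneg _) ((norm_nonneg _).trans (hC p.2 hp.2))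
    · apply ae_restrict_of_ae
      filter_upwards [hKl] with p hp
      exact hp.const_mul _
  refine tendsto_nhds_unique ?_ hR
  have := (hL t' ht').sub (hL t ht)
  refine this.congr (fun n => ?_)
  exact h n t ht t' ht' htt

theorem Idn.congr {W : ℝ × ℝ → ℝ} {H K H' K' : ℝ × (ℝ × ℝ) → ℝ}
    (h : Idn t0 t1 y0 y1 W H K) (hH : ∀ p ∈ box3 t0 t1 y0 y1, H p = H' p)
    (hK : ∀ᵐ p ∂(bet (leb t0 t1) (leb y0 y1)), K p = K' p) : Idn t0 t1 y0 y1 W H' K' := by
  intro t ht t' ht' htt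
  have h1 : ∀ s ∈ Icc t0 t1, ∫ q, W q * H' (s, q) ∂((leb y0 y1).prod (leb y0 y1)) =
      ∫ q, W q * H (s, q) ∂((leb y0 y1).prod (leb y0 y1)) := by
    intro s hs
    apply integral_congr_ae
    filter_upwards [ae_mem_sq y0 y1] with q hq
    rw [hH _ ⟨hs, hq⟩]
  rw [h1 t' ht', h1 t ht, h t ht t' ht' htt]
  apply integral_congr_ae
  apply ae_restrict_of_ae
  filter_upwards [hK] with p hp
  rw [hp]

end Crest.Agent.R105.Prod_412
end

-- ▼ part R105/Prod3_412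
section

/-! Row 105, PROD (helper412), part 3: doubling of a product. -/

open MeasureTheory Set Filter Topology

namespace Crest.Agent.R105.Prod_412

variable {A : Set (ℝ × ℝ → ℝ)} {D : (ℝ × ℝ → ℝ) → (ℝ × ℝ → ℝ)} {t0 t1 y0 y1 : ℝ}

theorem Slab.int' (h : Slab A D t0 t1 y0 y1) {a : ℝ × ℝ → ℝ} (ha : a ∈ A) :
    Integrable (D a) ((leb t0 t1).prod (leb y0 y1)) := by
  rw [leb_prod]; exact h.int a ha

theorem cont1 {a : ℝ × ℝ → ℝ} (ha : ContinuousOn a (Icc t0 t1 ×ˢ Icc y0 y1)) :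
    ContinuousOn (fun p : ℝ × (ℝ × ℝ) => a (p.1, p.2.1)) (box3 t0 t1 y0 y1) :=
  ha.comp (by fun_prop) (fun p hp => ⟨hp.1, hp.2.1⟩)

theorem cont2 {a : ℝ × ℝ → ℝ} (ha : ContinuousOn a (Icc t0 t1 ×ˢ Icc y0 y1)) :
    ContinuousOn (fun p : ℝ × (ℝ × ℝ) => a (p.1, p.2.2)) (box3 t0 t1 y0 y1) :=
  ha.comp (by fun_prop) (fun p hp => ⟨hp.1, hp.2.2⟩)

theorem int_mul_cont {f g : ℝ × (ℝ × ℝ) → ℝ} (hf : Integrable f (bet (leb t0 t1) (leb y0 y1)))
    (hg : ContinuousOn g (box3 t0 t1 y0 y1)) :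
    Integrable (fun p => f p * g p) (bet (leb t0 t1) (leb y0 y1)) := by
  rw [bet_eq] at hf ⊢
  exact IntegrableOn.mul_continuousOn hf hg (isCompact_box3 _ _ _ _)


theorem slice_int {f : ℝ × ℝ → ℝ} (hf : Integrable f ((leb t0 t1).prod (leb y0 y1))) {w : ℝ → ℝ}
    (hw : Continuous w) :
    Integrable (fun p : ℝ × ℝ => w p.2 * f p) ((leb t0 t1).prod (leb y0 y1)) := by
  rw [leb_prod] at hf ⊢
  have hc : ContinuousOn (fun p : ℝ × ℝ => w p.2) (Icc t0 t1 ×ˢ Icc y0 y1) := by fun_prop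
  exact IntegrableOn.continuousOn_mul hc hf (isCompact_Icc.prod isCompact_Icc)

theorem leb_restrict {t t' : ℝ} (ht : t ∈ Icc t0 t1) (ht' : t' ∈ Icc t0 t1) :
    (leb t0 t1).restrict (Ioc t t') = (volume : Measure ℝ).restrict (Ioc t t') := by
  rw [leb, Measure.restrict_restrict measurableSet_Ioc]
  congr 1
  apply inter_eq_left.mpr
  exact fun x hx => ⟨ht.1.trans hx.1.le, hx.2.trans ht'.2⟩

theorem ival {f : ℝ → ℝ} (hf : Integrable f (leb t0 t1)) {t t' : ℝ} (ht : t ∈ Icc t0 t1)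
    (ht' : t' ∈ Icc t0 t1) (htt : t ≤ t') : IntervalIntegrable f volume t t' := by
  rw [intervalIntegrable_iff_integrableOn_Ioc_of_le htt, IntegrableOn, ← leb_restrict ht ht']
  exact hf.restrict

/-- Fubini for the right hand sides -/
theorem rhs_fubini {W : ℝ × ℝ → ℝ} (hW : Continuous W) {K : ℝ × (ℝ × ℝ) → ℝ}
    (hK : Integrable K (bet (leb t0 t1) (leb y0 y1))) {t t' : ℝ} (ht : t ∈ Icc t0 t1)
    (ht' : t' ∈ Icc t0 t1) (htt : t ≤ t') :
    ∫ p in (Ioc t t' ×ˢ (univ : Set (ℝ × ℝ))), W p.2 * K p ∂(bet (leb t0 t1) (leb y0 y1)) =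
      ∫ s in t..t', ∫ q, W q * K (s, q) ∂((leb y0 y1).prod (leb y0 y1)) := by
  have h1 : Integrable (fun p : ℝ × (ℝ × ℝ) => W p.2 * K p) (bet (leb t0 t1) (leb y0 y1)) := by
    have := int_mul_cont hK (g := fun p => W p.2) (by fun_prop)
    exact this.congr (ae_of_all _ fun p => mul_comm _ _)
  rw [bet, setIntegral_prod _ h1.integrableOn, leb_restrict ht ht',
    intervalIntegral.integral_of_le htt]
  simp only [Measure.restrict_univ]

/-- the doubling of a product of functions of `A` -/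
theorem idn_prod (h : Slab A D t0 t1 y0 y1) {w1 w2 : ℝ → ℝ} (hw1 : Continuous w1)
    (hw2 : Continuous w2) (g1 : Good A D t0 t1 y0 y1 w1) (g2 : Good A D t0 t1 y0 y1 w2)
    {a b : ℝ × ℝ → ℝ} (ha : a ∈ A) (hb : b ∈ A) :
    Integrable (fun p : ℝ × (ℝ × ℝ) => D a (p.1, p.2.1) * b (p.1, p.2.2) +
      a (p.1, p.2.1) * D b (p.1, p.2.2)) (bet (leb t0 t1) (leb y0 y1)) ∧
    Idn t0 t1 y0 y1 (fun q => w1 q.1 * w2 q.2) (fun p => a (p.1, p.2.1) * b (p.1, p.2.2))
      (fun p => D a (p.1, p.2.1) * b (p.1, p.2.2) + a (p.1, p.2.1) * D b (p.1, p.2.2)) := by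
  have hDa := h.int' ha
  have hDb := h.int' hb
  have hK1 : Integrable (fun p : ℝ × (ℝ × ℝ) => D a (p.1, p.2.1) * b (p.1, p.2.2))
      (bet (leb t0 t1) (leb y0 y1)) := int_mul_cont (integrable1 hDa) (cont2 (h.cont b hb))
  have hK2 : Integrable (fun p : ℝ × (ℝ × ℝ) => a (p.1, p.2.1) * D b (p.1, p.2.2))
      (bet (leb t0 t1) (leb y0 y1)) :=
    (int_mul_cont (integrable2 hDb) (cont1 (h.cont a ha))).congr
      (ae_of_all _ fun p => mul_comm _ _)
  have hK : Integrable (fun p : ℝ × (ℝ × ℝ) => D a (p.1, p.2.1) * b (p.1, p.2.2) +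
      a (p.1, p.2.1) * D b (p.1, p.2.2)) (bet (leb t0 t1) (leb y0 y1)) := hK1.add hK2
  refine ⟨hK, ?_⟩
  intro t ht t' ht' htt
  rw [rhs_fubini (W := fun q => w1 q.1 * w2 q.2) (by fun_prop) hK ht ht' htt]
  set f : ℝ → ℝ := fun s => ∫ y, w1 y * a (s, y) ∂(leb y0 y1) with hf
  set g : ℝ → ℝ := fun s => ∫ y, w2 y * b (s, y) ∂(leb y0 y1) with hg
  set f1 : ℝ → ℝ := fun s => ∫ y, w1 y * D a (s, y) ∂(leb y0 y1) with hf1
  set g1' : ℝ → ℝ := fun s => ∫ y, w2 y * D b (s, y) ∂(leb y0 y1) with hg1'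
  have if1 : Integrable f1 (leb t0 t1) := (slice_int hDa hw1).integral_prod_left
  have ig1 : Integrable g1' (leb t0 t1) := (slice_int hDb hw2).integral_prod_left
  have key := prod_rule (f := f) (g := g) (f1 := f1) (g1 := g1') htt (ival if1 ht ht' htt)
    (ival ig1 ht ht' htt)
    (fun s hs => by
      have := g1 a ha t ht s ⟨ht.1.trans hs.1, hs.2.trans ht'.2⟩ hs.1
      linarith)
    (fun s hs => by
      have := g2 b hb t ht s ⟨ht.1.trans hs.1, hs.2.trans ht'.2⟩ hs.1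
      linarith)
  have hl : ∀ s, ∫ q : ℝ × ℝ, (w1 q.1 * w2 q.2) * (a (s, q.1) * b (s, q.2))
      ∂((leb y0 y1).prod (leb y0 y1)) = f s * g s := by
    intro s
    rw [hf, hg, ← integral_prod_mul]
    congr 1
    ext q
    ring
  rw [hl, hl, key]
  apply intervalIntegral.integral_congr_ae
  have e1 := (slice_int hDa hw1).prod_right_ae
  have e2 := (slice_int hDb hw2).prod_right_ae
  rw [leb, ae_restrict_iff' measurableSet_Icc] at e1 e2
  filter_upwards [e1, e2] with s hs1 hs2 hs3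
  rw [uIoc_of_le htt] at hs3
  have hs : s ∈ Icc t0 t1 := ⟨ht.1.trans hs3.1.le, hs3.2.trans ht'.2⟩
  have i1 := hs1 hs
  have i2 := hs2 hs
  have ca : Integrable (fun y => w1 y * a (s, y)) (leb y0 y1) := by
    apply ContinuousOn.integrableOn_compact isCompact_Icc
    exact hw1.continuousOn.mul ((h.cont a ha).comp (by fun_prop) (fun y hy => ⟨hs, hy⟩))
  have cb : Integrable (fun y => w2 y * b (s, y)) (leb y0 y1) := by
    apply ContinuousOn.integrableOn_compact isCompact_Icc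
    exact hw2.continuousOn.mul ((h.cont b hb).comp (by fun_prop) (fun y hy => ⟨hs, hy⟩))
  have j1 : Integrable (fun q : ℝ × ℝ => (w1 q.1 * D a (s, q.1)) * (w2 q.2 * b (s, q.2)))
    ((leb y0 y1).prod (leb y0 y1)) := i1.mul_prod cb
  have j2 : Integrable (fun q : ℝ × ℝ => (w1 q.1 * a (s, q.1)) * (w2 q.2 * D b (s, q.2)))
    ((leb y0 y1).prod (leb y0 y1)) := ca.mul_prod i2
  have : f1 s * g s + f s * g1' s =
      (∫ q : ℝ × ℝ, (w1 q.1 * D a (s, q.1)) * (w2 q.2 * b (s, q.2))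
        ∂((leb y0 y1).prod (leb y0 y1))) +
      ∫ q : ℝ × ℝ, (w1 q.1 * a (s, q.1)) * (w2 q.2 * D b (s, q.2))
        ∂((leb y0 y1).prod (leb y0 y1)) := by
    rw [integral_prod_mul (f := fun y => w1 y * D a (s, y)) (g := fun y => w2 y * b (s, y)),
      integral_prod_mul (f := fun y => w1 y * a (s, y)) (g := fun y => w2 y * D b (s, y))]
  rw [this, ← integral_add j1 j2]
  congr 1
  ext q
  ring

end Crest.Agent.R105.Prod_412
end

-- ▼ part R105/Prod4_412
section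

/-! Row 105, PROD (helper412), part 4: the span of the products, polynomials of a difference. -/

open MeasureTheory Set Filter Topology

namespace Crest.Agent.R105.Prod_412

variable {A : Set (ℝ × ℝ → ℝ)} {D : (ℝ × ℝ → ℝ) → (ℝ × ℝ → ℝ)} {t0 t1 y0 y1 : ℝ}

theorem slice_integrable {H : ℝ × (ℝ × ℝ) → ℝ} (hH : ContinuousOn H (box3 t0 t1 y0 y1))
    {W : ℝ × ℝ → ℝ} (hW : Continuous W) {t : ℝ} (ht : t ∈ Icc t0 t1) :
    Integrable (fun q => W q * H (t, q)) ((leb y0 y1).prod (leb y0 y1)) := by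
  rw [leb_prod]
  apply ContinuousOn.integrableOn_compact (isCompact_Icc.prod isCompact_Icc)
  exact hW.continuousOn.mul (hH.comp (by fun_prop) (fun q hq => ⟨ht, hq⟩))

theorem W_int {W : ℝ × ℝ → ℝ} (hW : Continuous W) {K : ℝ × (ℝ × ℝ) → ℝ}
    (hK : Integrable K (bet (leb t0 t1) (leb y0 y1))) :
    Integrable (fun p : ℝ × (ℝ × ℝ) => W p.2 * K p) (bet (leb t0 t1) (leb y0 y1)) := by
  have := int_mul_cont hK (g := fun p => W p.2) (by fun_prop)
  exact this.congr (ae_of_all _ fun p => mul_comm _ _)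

/-- a function of three variables for which everything is known -/
structure HH (t0 t1 y0 y1 : ℝ) (W : ℝ × ℝ → ℝ) (H K : ℝ × (ℝ × ℝ) → ℝ) : Prop where
  cont : ContinuousOn H (box3 t0 t1 y0 y1)
  int : Integrable K (bet (leb t0 t1) (leb y0 y1))
  der : ∀ᵐ p ∂(bet (leb t0 t1) (leb y0 y1)), HasDerivAt (fun s => H (s, p.2)) (K p) p.1
  idn : Idn t0 t1 y0 y1 W H K

theorem HH.add {W : ℝ × ℝ → ℝ} (hW : Continuous W) {H K H' K' : ℝ × (ℝ × ℝ) → ℝ}
    (h : HH t0 t1 y0 y1 W H K) (h' : HH t0 t1 y0 y1 W H' K') :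
    HH t0 t1 y0 y1 W (H + H') (K + K') := by
  refine ⟨h.cont.add h'.cont, h.int.add h'.int, ?_, ?_⟩
  · filter_upwards [h.der, h'.der] with p h1 h2
    exact h1.add h2
  · intro t ht t' ht' htt
    have e1 : ∀ s ∈ Icc t0 t1, ∫ q, W q * (H + H') (s, q) ∂((leb y0 y1).prod (leb y0 y1)) =
        (∫ q, W q * H (s, q) ∂((leb y0 y1).prod (leb y0 y1))) +
        ∫ q, W q * H' (s, q) ∂((leb y0 y1).prod (leb y0 y1)) := by
      intro s hs
      rw [← integral_add (slice_integrable h.cont hW hs) (slice_integrable h'.cont hW hs)]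
      congr 1
      ext q
      simp only [Pi.add_apply]
      ring
    have e2 : ∫ p in (Ioc t t' ×ˢ (univ : Set (ℝ × ℝ))), W p.2 * (K + K') p
        ∂(bet (leb t0 t1) (leb y0 y1)) =
        (∫ p in (Ioc t t' ×ˢ (univ : Set (ℝ × ℝ))), W p.2 * K p
          ∂(bet (leb t0 t1) (leb y0 y1))) +
        ∫ p in (Ioc t t' ×ˢ (univ : Set (ℝ × ℝ))), W p.2 * K' p
          ∂(bet (leb t0 t1) (leb y0 y1)) := by
      rw [← integral_add (W_int hW h.int).restrict (W_int hW h'.int).restrict]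
      congr 1
      ext q
      simp only [Pi.add_apply]
      ring
    rw [e1 t' ht', e1 t ht, e2, ← h.idn t ht t' ht' htt, ← h'.idn t ht t' ht' htt]
    ring

theorem HH.smul {W : ℝ × ℝ → ℝ} (c : ℝ) {H K : ℝ × (ℝ × ℝ) → ℝ}
    (h : HH t0 t1 y0 y1 W H K) : HH t0 t1 y0 y1 W (c • H) (c • K) := by
  refine ⟨h.cont.const_smul c, h.int.smul c, ?_, ?_⟩
  · filter_upwards [h.der] with p h1
    exact h1.const_smul c
  · intro t ht t' ht' htt
    have e1 : ∀ s, ∫ q, W q * (c • H) (s, q) ∂((leb y0 y1).prod (leb y0 y1)) =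
        c * ∫ q, W q * H (s, q) ∂((leb y0 y1).prod (leb y0 y1)) := by
      intro s
      rw [← integral_const_mul]
      congr 1
      ext q
      simp only [Pi.smul_apply, smul_eq_mul]
      ring
    have e2 : ∫ p in (Ioc t t' ×ˢ (univ : Set (ℝ × ℝ))), W p.2 * (c • K) p
        ∂(bet (leb t0 t1) (leb y0 y1)) =
        c * ∫ p in (Ioc t t' ×ˢ (univ : Set (ℝ × ℝ))), W p.2 * K p
          ∂(bet (leb t0 t1) (leb y0 y1)) := by
      rw [← integral_const_mul]
      congr 1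
      ext q
      simp only [Pi.smul_apply, smul_eq_mul]
      ring
    rw [e1, e1, e2, ← h.idn t ht t' ht' htt]
    ring

theorem HH.zero {W : ℝ × ℝ → ℝ} : HH t0 t1 y0 y1 W 0 0 := by
  refine ⟨continuousOn_const, integrable_zero _ _ _, ?_, ?_⟩
  · exact ae_of_all _ fun p => hasDerivAt_const _ _
  · intro t ht t' ht' htt
    simp

/-- a.e. derivative in the first copy -/
theorem Slab.der1 (h : Slab A D t0 t1 y0 y1) {a : ℝ × ℝ → ℝ} (ha : a ∈ A) :
    ∀ᵐ p ∂(bet (leb t0 t1) (leb y0 y1)),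
      HasDerivAt (fun s => a (s, p.2.1)) (D a (p.1, p.2.1)) p.1 := by
  have := h.der a ha
  rw [← leb_prod] at this
  exact (qmp1 (leb t0 t1) (leb y0 y1)).ae this

theorem Slab.der2 (h : Slab A D t0 t1 y0 y1) {a : ℝ × ℝ → ℝ} (ha : a ∈ A) :
    ∀ᵐ p ∂(bet (leb t0 t1) (leb y0 y1)),
      HasDerivAt (fun s => a (s, p.2.2)) (D a (p.1, p.2.2)) p.1 := by
  have := h.der a ha
  rw [← leb_prod] at this
  exact (qmp2 (leb t0 t1) (leb y0 y1)).ae this

theorem HH_prod (h : Slab A D t0 t1 y0 y1) {w1 w2 : ℝ → ℝ} (hw1 : Continuous w1)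
    (hw2 : Continuous w2) (g1 : Good A D t0 t1 y0 y1 w1) (g2 : Good A D t0 t1 y0 y1 w2)
    {a b : ℝ × ℝ → ℝ} (ha : a ∈ A) (hb : b ∈ A) :
    HH t0 t1 y0 y1 (fun q => w1 q.1 * w2 q.2) (fun p => a (p.1, p.2.1) * b (p.1, p.2.2))
      (fun p => D a (p.1, p.2.1) * b (p.1, p.2.2) + a (p.1, p.2.1) * D b (p.1, p.2.2)) := by
  obtain ⟨i1, i2⟩ := idn_prod h hw1 hw2 g1 g2 ha hb
  refine ⟨(cont1 (h.cont a ha)).mul (cont2 (h.cont b hb)), i1, ?_, i2⟩
  filter_upwards [h.der1 ha, h.der2 hb] with p h1 h2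
  exact h1.mul h2

/-- finite sums of products -/
def TT (A : Set (ℝ × ℝ → ℝ)) : Submodule ℝ (ℝ × (ℝ × ℝ) → ℝ) :=
  Submodule.span ℝ {H | ∃ a ∈ A, ∃ b ∈ A, H = fun p => a (p.1, p.2.1) * b (p.1, p.2.2)}

theorem TT_mem {a b : ℝ × ℝ → ℝ} (ha : a ∈ A) (hb : b ∈ A) :
    (fun p : ℝ × (ℝ × ℝ) => a (p.1, p.2.1) * b (p.1, p.2.2)) ∈ TT A :=
  Submodule.subset_span ⟨a, ha, b, hb, rfl⟩

theorem TT_mul (h : Slab A D t0 t1 y0 y1) {H H' : ℝ × (ℝ × ℝ) → ℝ} (hH : H ∈ TT A)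
    (hH' : H' ∈ TT A) : (H * H') ∈ TT A := by
  refine Submodule.span_induction ?_ ?_ ?_ ?_ hH
  · rintro x ⟨a, ha, b, hb, rfl⟩
    refine Submodule.span_induction ?_ ?_ ?_ ?_ hH'
    · rintro y ⟨c, hc, d, hd, rfl⟩
      convert TT_mem (h.mul a ha c hc) (h.mul b hb d hd) using 1
      ext p
      simp only [Pi.mul_apply]
      ring
    · simp
    · intro x y _ _ hx hy
      rw [mul_add]
      exact add_mem hx hy
    · intro c x _ hx
      rw [mul_smul_comm]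
      exact Submodule.smul_mem _ _ hx
  · simp
  · intro x y _ _ hx hy
    rw [add_mul]
    exact add_mem hx hy
  · intro c x _ hx
    rw [smul_mul_assoc]
    exact Submodule.smul_mem _ _ hx

theorem TT_const (h : Slab A D t0 t1 y0 y1) (c : ℝ) : (fun _ => c) ∈ TT A := by
  have := TT_mem (h.const c) (h.const 1)
  simpa using this

theorem TT_fst (h : Slab A D t0 t1 y0 y1) {a : ℝ × ℝ → ℝ} (ha : a ∈ A) :
    (fun p : ℝ × (ℝ × ℝ) => a (p.1, p.2.1)) ∈ TT A := by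
  have := TT_mem ha (h.const 1)
  simpa using this

theorem TT_snd (h : Slab A D t0 t1 y0 y1) {a : ℝ × ℝ → ℝ} (ha : a ∈ A) :
    (fun p : ℝ × (ℝ × ℝ) => a (p.1, p.2.2)) ∈ TT A := by
  have := TT_mem (h.const 1) ha
  simpa using this

theorem TT_diff (h : Slab A D t0 t1 y0 y1) {a : ℝ × ℝ → ℝ} (ha : a ∈ A) :
    (fun p : ℝ × (ℝ × ℝ) => a (p.1, p.2.1) - a (p.1, p.2.2)) ∈ TT A :=
  sub_mem (TT_fst h ha) (TT_snd h ha)

theorem TT_pow (h : Slab A D t0 t1 y0 y1) {H : ℝ × (ℝ × ℝ) → ℝ} (hH : H ∈ TT A) (n : ℕ) :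
    H ^ n ∈ TT A := by
  induction n with
  | zero => rw [pow_zero]; exact TT_const h 1
  | succ n ih => rw [pow_succ]; exact TT_mul h ih hH

theorem TT_poly (h : Slab A D t0 t1 y0 y1) {H : ℝ × (ℝ × ℝ) → ℝ} (hH : H ∈ TT A)
    (P : Polynomial ℝ) : (fun p => P.eval (H p)) ∈ TT A := by
  have : (fun p => P.eval (H p)) = ∑ i ∈ Finset.range (P.natDegree + 1), P.coeff i • H ^ i := by
    ext p
    rw [Polynomial.eval_eq_sum_range]
    simp [Finset.sum_apply]
  rw [this]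
  exact Submodule.sum_mem _ fun i _ => Submodule.smul_mem _ _ (TT_pow h hH i)

theorem TT_HH (h : Slab A D t0 t1 y0 y1) {w1 w2 : ℝ → ℝ} (hw1 : Continuous w1)
    (hw2 : Continuous w2) (g1 : Good A D t0 t1 y0 y1 w1) (g2 : Good A D t0 t1 y0 y1 w2)
    {H : ℝ × (ℝ × ℝ) → ℝ} (hH : H ∈ TT A) :
    ∃ K, HH t0 t1 y0 y1 (fun q => w1 q.1 * w2 q.2) H K := by
  refine Submodule.span_induction ?_ ?_ ?_ ?_ hH
  · rintro x ⟨a, ha, b, hb, rfl⟩
    exact ⟨_, HH_prod h hw1 hw2 g1 g2 ha hb⟩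
  · exact ⟨0, HH.zero⟩
  · rintro x y _ _ ⟨K, hK⟩ ⟨K', hK'⟩
    exact ⟨_, hK.add (by fun_prop) hK'⟩
  · rintro c x _ ⟨K, hK⟩
    exact ⟨_, hK.smul c⟩

/-- uniqueness of `K` -/
theorem HH.unique {W : ℝ × ℝ → ℝ} {H K K' : ℝ × (ℝ × ℝ) → ℝ} (h : HH t0 t1 y0 y1 W H K)
    (h' : ∀ᵐ p ∂(bet (leb t0 t1) (leb y0 y1)), HasDerivAt (fun s => H (s, p.2)) (K' p) p.1) :
    ∀ᵐ p ∂(bet (leb t0 t1) (leb y0 y1)), K p = K' p := by
  filter_upwards [h.der, h'] with p h1 h2
  exact h1.unique h2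

theorem exists_antideriv (p : Polynomial ℝ) :
    ∃ P : Polynomial ℝ, P.derivative = p ∧ P.eval 0 = 0 := by
  induction p using Polynomial.induction_on' with
  | add p q hp hq =>
    obtain ⟨P, h1, h2⟩ := hp
    obtain ⟨Q, h3, h4⟩ := hq
    exact ⟨P + Q, by simp [h1, h3], by simp [h2, h4]⟩
  | monomial n c =>
    refine ⟨Polynomial.monomial (n + 1) (c / (n + 1)), ?_, ?_⟩
    · rw [Polynomial.derivative_monomial_succ]
      congr 1
      field_simp
    · simp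

end Crest.Agent.R105.Prod_412
end

-- ▼ part R105/Prod5_412
section

/-! Row 105, PROD (helper412), part 5: one variable Weierstrass. -/

open MeasureTheory Set Filter Topology

namespace Crest.Agent.R105.Prod_412

variable {A : Set (ℝ × ℝ → ℝ)} {D : (ℝ × ℝ → ℝ) → (ℝ × ℝ → ℝ)} {t0 t1 y0 y1 : ℝ}

/-- `κ g(e)`, `g = ∫ ρ`, for `κ` in the span of the products -/
theorem idn_comp (h : Slab A D t0 t1 y0 y1) {w1 w2 : ℝ → ℝ} (hw1 : Continuous w1)
    (hw2 : Continuous w2) (g1 : Good A D t0 t1 y0 y1 w1) (g2 : Good A D t0 t1 y0 y1 w2)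
    {κ κ' e e' : ℝ × (ℝ × ℝ) → ℝ} (hκ : κ ∈ TT A) (he : e ∈ TT A)
    (hκ' : HH t0 t1 y0 y1 (fun q => w1 q.1 * w2 q.2) κ κ')
    (he' : HH t0 t1 y0 y1 (fun q => w1 q.1 * w2 q.2) e e')
    {ρ : ℝ → ℝ} (hρ : Continuous ρ) :
    HH t0 t1 y0 y1 (fun q => w1 q.1 * w2 q.2) (fun p => κ p * ∫ r in (0 : ℝ)..(e p), ρ r)
      (fun p => κ' p * (∫ r in (0 : ℝ)..(e p), ρ r) + κ p * (ρ (e p) * e' p)) := by
  obtain ⟨M, hM⟩ : ∃ M, ∀ p ∈ box3 t0 t1 y0 y1, ‖e p‖ ≤ M :=
    (isCompact_box3 t0 t1 y0 y1).exists_bound_of_continuousOn he'.cont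
  obtain ⟨Cκ, hCκ⟩ : ∃ M, ∀ p ∈ box3 t0 t1 y0 y1, ‖κ p‖ ≤ M :=
    (isCompact_box3 t0 t1 y0 y1).exists_bound_of_continuousOn hκ'.cont
  obtain ⟨Cρ, hCρ⟩ : ∃ C, ∀ x ∈ Icc (-M) M, ‖ρ x‖ ≤ C :=
    isCompact_Icc.exists_bound_of_continuousOn hρ.continuousOn
  have hgd : ∀ x, HasDerivAt (fun x => ∫ r in (0 : ℝ)..x, ρ r) (ρ x) x := fun x =>
    intervalIntegral.integral_hasDerivAt_right (hρ.intervalIntegrable _ _)
      hρ.aestronglyMeasurable.stronglyMeasurableAtFilter hρ.continuousAt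
  have hgc : Continuous (fun x => ∫ r in (0 : ℝ)..x, ρ r) :=
    continuous_iff_continuousAt.mpr fun x => (hgd x).continuousAt
  have hcont : ContinuousOn (fun p => κ p * ∫ r in (0 : ℝ)..(e p), ρ r) (box3 t0 t1 y0 y1) :=
    hκ'.cont.mul (hgc.comp_continuousOn he'.cont)
  have hint : Integrable (fun p => κ' p * (∫ r in (0 : ℝ)..(e p), ρ r) + κ p * (ρ (e p) * e' p))
      (bet (leb t0 t1) (leb y0 y1)) := by
    refine (int_mul_cont hκ'.int (hgc.comp_continuousOn he'.cont)).add ?_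
    have h1 := int_mul_cont he'.int (hκ'.cont.mul (hρ.comp_continuousOn he'.cont))
    refine h1.congr (ae_of_all _ fun p => ?_)
    simp only [Pi.mul_apply, Function.comp_apply]
    ring
  have hder : ∀ᵐ p ∂(bet (leb t0 t1) (leb y0 y1)),
      HasDerivAt (fun s => κ (s, p.2) * ∫ r in (0 : ℝ)..(e (s, p.2)), ρ r)
      (κ' p * (∫ r in (0 : ℝ)..(e p), ρ r) + κ p * (ρ (e p) * e' p)) p.1 := by
    filter_upwards [hκ'.der, he'.der] with p h1 h2
    have h3 : HasDerivAt (fun s => ∫ r in (0 : ℝ)..(e (s, p.2)), ρ r) (ρ (e p) * e' p) p.1 :=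
      HasDerivAt.comp (h := fun s => e (s, p.2)) (h₂ := fun x => ∫ r in (0 : ℝ)..x, ρ r) p.1
        (hgd (e (p.1, p.2))) h2
    exact h1.mul h3
  refine ⟨hcont, hint, hder, ?_⟩
  -- polynomials
  have hpoly : ∀ n : ℕ, ∃ p : Polynomial ℝ, ∀ x ∈ Icc (-M) M, |p.eval x - ρ x| < 1 / ((n : ℝ) + 1) :=
    fun n => exists_polynomial_near_of_continuousOn (-M) M ρ hρ.continuousOn _ (by positivity)
  choose p hp using hpoly
  choose P hP hP0 using fun n => exists_antideriv (p n)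
  have hPg : ∀ n, ∀ x ∈ Icc (-M) M, |(P n).eval x - ∫ r in (0 : ℝ)..x, ρ r| ≤ M * (1 / ((n : ℝ) + 1)) := by
    intro n x hx
    have hM0 : 0 ≤ M := by
      have := hx.1.trans hx.2
      linarith
    have hPd : ∀ x, HasDerivAt (fun x => (P n).eval x) ((p n).eval x) x := by
      intro x
      have := (P n).hasDerivAt x
      rwa [hP n] at this
    have e1 : (P n).eval x = ∫ r in (0 : ℝ)..x, (p n).eval r := by
      rw [intervalIntegral.integral_eq_sub_of_hasDerivAt (f := fun x => (P n).eval x)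
        (fun y _ => hPd y) ((p n).continuous.intervalIntegrable _ _), hP0 n, sub_zero]
    rw [e1, ← intervalIntegral.integral_sub ((p n).continuous.intervalIntegrable _ _)
      (hρ.intervalIntegrable _ _)]
    have e2 := intervalIntegral.norm_integral_le_of_norm_le_const (a := (0 : ℝ)) (b := x)
      (f := fun r => (p n).eval r - ρ r) (C := 1 / ((n : ℝ) + 1)) (fun r hr => by
        refine (hp n r ?_).le
        rcases le_total 0 x with h0 | h0
        · rw [uIoc_of_le h0] at hr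
          exact ⟨by linarith [hr.1], hr.2.trans hx.2⟩
        · rw [uIoc_of_ge h0] at hr
          exact ⟨hx.1.trans hr.1.le, hr.2.trans hM0⟩)
    rw [Real.norm_eq_abs, sub_zero] at e2
    refine e2.trans ?_
    rw [mul_comm]
    exact mul_le_mul_of_nonneg_right (abs_le.mpr hx) (by positivity)
  have hbox : ∀ q ∈ box3 t0 t1 y0 y1, e q ∈ Icc (-M) M := fun q hq => abs_le.mp (hM q hq)
  obtain ⟨Cg, hCg⟩ : ∃ C, ∀ x ∈ Icc (-M) M, ‖∫ r in (0 : ℝ)..x, ρ r‖ ≤ C :=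
    isCompact_Icc.exists_bound_of_continuousOn hgc.continuousOn
  have htends : Tendsto (fun n : ℕ => 1 / ((n : ℝ) + 1)) atTop (𝓝 0) :=
    tendsto_one_div_add_atTop_nhds_zero_nat
  have hle1 : ∀ n : ℕ, 1 / ((n : ℝ) + 1) ≤ 1 := by
    intro n
    rw [div_le_one (by positivity)]
    linarith [(n.cast_nonneg : (0 : ℝ) ≤ n)]
  have hPl : ∀ x ∈ Icc (-M) M, Tendsto (fun n => (P n).eval x) atTop
      (𝓝 (∫ r in (0 : ℝ)..x, ρ r)) := by
    intro x hx
    rw [tendsto_iff_norm_sub_tendsto_zero]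
    refine squeeze_zero (fun n => norm_nonneg _) (fun n => hPg n x hx) ?_
    simpa using htends.const_mul M
  have hpl : ∀ x ∈ Icc (-M) M, Tendsto (fun n => (p n).eval x) atTop (𝓝 (ρ x)) := by
    intro x hx
    rw [tendsto_iff_norm_sub_tendsto_zero]
    exact squeeze_zero (fun n => norm_nonneg _) (fun n => (hp n x hx).le) htends
  have hPb : ∀ n, ∀ x ∈ Icc (-M) M, |(P n).eval x| ≤ Cg + M := by
    intro n x hx
    have hM0 : 0 ≤ M := by
      have := hx.1.trans hx.2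
      linarith
    have a1 := hPg n x hx
    have a2 : |∫ r in (0 : ℝ)..x, ρ r| ≤ Cg := hCg x hx
    have a3 : M * (1 / ((n : ℝ) + 1)) ≤ M * 1 := mul_le_mul_of_nonneg_left (hle1 n) hM0
    have a4 := abs_sub_abs_le_abs_sub ((P n).eval x) (∫ r in (0 : ℝ)..x, ρ r)
    linarith
  have hpb : ∀ n, ∀ x ∈ Icc (-M) M, |(p n).eval x| ≤ Cρ + 1 := by
    intro n x hx
    have a1 := hp n x hx
    have a2 : |ρ x| ≤ Cρ := hCρ x hx
    have a4 := abs_sub_abs_le_abs_sub ((p n).eval x) (ρ x)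
    linarith [hle1 n]
  -- the identities for the polynomials
  have hHn : ∀ n, HH t0 t1 y0 y1 (fun q => w1 q.1 * w2 q.2)
      (fun q => κ q * (P n).eval (e q))
      (fun q => κ' q * (P n).eval (e q) + κ q * ((p n).eval (e q) * e' q)) := by
    intro n
    have hmem : (fun q => κ q * (P n).eval (e q)) ∈ TT A := TT_mul h hκ (TT_poly h he (P n))
    obtain ⟨K, hK⟩ := TT_HH h hw1 hw2 g1 g2 hmem
    have hd : ∀ᵐ q ∂(bet (leb t0 t1) (leb y0 y1)),
        HasDerivAt (fun s => κ (s, q.2) * (P n).eval (e (s, q.2)))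
        (κ' q * (P n).eval (e q) + κ q * ((p n).eval (e q) * e' q)) q.1 := by
      filter_upwards [hκ'.der, he'.der] with q h1 h2
      have h3 : HasDerivAt (fun s => (P n).eval (e (s, q.2))) ((p n).eval (e q) * e' q) q.1 := by
        have := (P n).hasDerivAt (e (q.1, q.2))
        rw [hP n] at this
        exact this.comp q.1 h2
      exact h1.mul h3
    have hu := hK.unique hd
    exact ⟨hK.cont, hK.int.congr hu, hd, hK.idn.congr (fun _ _ => rfl) hu⟩
  refine Idn.lim (W := fun q => w1 q.1 * w2 q.2) (by fun_prop)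
    (H := fun n q => κ q * (P n).eval (e q))
    (K := fun n q => κ' q * (P n).eval (e q) + κ q * ((p n).eval (e q) * e' q))
    (B := Cκ * (Cg + M)) (G := fun q => |κ' q| * (Cg + M) + Cκ * ((Cρ + 1) * |e' q|))
    ?_ (fun n => (hHn n).cont) ?_ ?_ (fun n => (hHn n).int.aestronglyMeasurable) ?_ ?_
    (fun n => (hHn n).idn)
  · exact (hκ'.int.abs.mul_const _).add ((he'.int.abs.const_mul _).const_mul _)
  · intro n q hq
    rw [abs_mul]
    exact mul_le_mul (hCκ q hq) (hPb n _ (hbox q hq)) (abs_nonneg _)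
      ((norm_nonneg _).trans (hCκ q hq))
  · intro q hq
    exact (hPl _ (hbox q hq)).const_mul _
  · intro n
    filter_upwards [ae_mem_box t0 t1 y0 y1] with q hq
    refine (abs_add_le _ _).trans ?_
    rw [abs_mul, abs_mul, abs_mul]
    refine add_le_add ?_ ?_
    · exact mul_le_mul_of_nonneg_left (hPb n _ (hbox q hq)) (abs_nonneg _)
    · exact mul_le_mul (hCκ q hq) (mul_le_mul_of_nonneg_right (hpb n _ (hbox q hq)) (abs_nonneg _))
        (by positivity) ((norm_nonneg _).trans (hCκ q hq))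
  · filter_upwards [ae_mem_box t0 t1 y0 y1] with q hq
    exact ((hPl _ (hbox q hq)).const_mul _).add
      (((hpl _ (hbox q hq)).mul_const _).const_mul _)

end Crest.Agent.R105.Prod_412
end

-- ▼ part R105/Prod6_412
section

/-! Row 105, PROD (helper412), part 6: the sign kernel. -/

open MeasureTheory Set Filter Topology

namespace Crest.Agent.R105.Prod_412

variable {A : Set (ℝ × ℝ → ℝ)} {D : (ℝ × ℝ → ℝ) → (ℝ × ℝ → ℝ)} {t0 t1 y0 y1 : ℝ}

/-- sign of `q.1 - q.2` -/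
noncomputable def sg (q : ℝ × ℝ) : ℝ := if q.2 < q.1 then 1 else if q.1 < q.2 then -1 else 0

theorem sg_anti (y y' : ℝ) : sg (y', y) = - sg (y, y') := by
  unfold sg
  simp only
  split_ifs <;> first | (exfalso; linarith) | simp

theorem abs_sg_le (q : ℝ × ℝ) : |sg q| ≤ 1 := by
  unfold sg
  split_ifs <;> simp

theorem measurable_sg : Measurable sg := by
  unfold sg
  refine Measurable.ite ?_ measurable_const (Measurable.ite ?_ measurable_const measurable_const)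
  · exact measurableSet_lt measurable_snd measurable_fst
  · exact measurableSet_lt measurable_fst measurable_snd

/-- the kernel `sign (y - y')` is a finite sum of products wherever `a` separates -/
def SignK (A : Set (ℝ × ℝ → ℝ)) (t0 t1 y0 y1 : ℝ) : Prop :=
  ∀ a ∈ A, ∀ d : ℝ, 0 < d → ∃ κ ∈ TT A, ∀ t ∈ Icc t0 t1, ∀ y ∈ Icc y0 y1, ∀ y' ∈ Icc y0 y1,
    d ≤ |a (t, y) - a (t, y')| → κ (t, (y, y')) = sg (y, y')

/-- the cut-off -/
noncomputable def rh (d x : ℝ) : ℝ := min 1 (max 0 ((|x| - d) / d))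

theorem rh_cont (d : ℝ) : Continuous (rh d) := by
  unfold rh
  fun_prop

theorem rh_nonneg (d x : ℝ) : 0 ≤ rh d x := le_min zero_le_one (le_max_left _ _)

theorem rh_le (d x : ℝ) : rh d x ≤ 1 := min_le_left _ _

theorem rh_zero {d x : ℝ} (hd : 0 < d) (hx : |x| ≤ d) : rh d x = 0 := by
  unfold rh
  have : (|x| - d) / d ≤ 0 := div_nonpos_of_nonpos_of_nonneg (by linarith) hd.le
  rw [max_eq_left this, min_eq_right zero_le_one]

theorem rh_one {d x : ℝ} (hd : 0 < d) (hx : 2 * d ≤ |x|) : rh d x = 1 := by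
  unfold rh
  have : 1 ≤ (|x| - d) / d := by
    rw [le_div_iff₀ hd]; linarith
  rw [min_eq_left (le_max_of_le_right this)]

theorem rg_zero {d x : ℝ} (hd : 0 < d) (hx : |x| ≤ d) : ∫ r in (0 : ℝ)..x, rh d r = 0 := by
  rw [intervalIntegral.integral_congr (g := fun _ => (0 : ℝ))]
  · simp
  · intro r hr
    apply rh_zero hd
    refine le_trans ?_ hx
    rcases le_total 0 x with h0 | h0
    · rw [uIcc_of_le h0] at hr
      rw [abs_of_nonneg hr.1, abs_of_nonneg h0]; exact hr.2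
    · rw [uIcc_of_ge h0] at hr
      rw [abs_of_nonpos hr.2, abs_of_nonpos h0]; linarith [hr.1]

theorem rg_le (d x : ℝ) : |∫ r in (0 : ℝ)..x, rh d r| ≤ |x| := by
  have := intervalIntegral.norm_integral_le_of_norm_le_const (a := (0 : ℝ)) (b := x)
    (f := rh d) (C := 1) (fun r _ => by
      rw [Real.norm_eq_abs, abs_of_nonneg (rh_nonneg d r)]; exact rh_le d r)
  simpa using this

/-- `d = 1/(n+1)` -/
noncomputable def dn (n : ℕ) : ℝ := 1 / ((n : ℝ) + 1)

theorem dn_pos (n : ℕ) : 0 < dn n := by unfold dn; positivity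

theorem rh_tendsto {x : ℝ} (hx : x ≠ 0) : Tendsto (fun n => rh (dn n) x) atTop (𝓝 1) := by
  have h1 : Tendsto dn atTop (𝓝 0) := tendsto_one_div_add_atTop_nhds_zero_nat
  have h2 : ∀ᶠ n in atTop, dn n < |x| / 2 :=
    h1.eventually (gt_mem_nhds (by positivity))
  refine tendsto_const_nhds.congr' ?_
  filter_upwards [h2] with n hn
  rw [rh_one (dn_pos n) (by linarith)]

theorem rg_tendsto (x : ℝ) : Tendsto (fun n => ∫ r in (0 : ℝ)..x, rh (dn n) r) atTop (𝓝 x) := by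
  have h : Tendsto (fun n => ∫ r in (0 : ℝ)..x, rh (dn n) r) atTop
      (𝓝 (∫ _ in (0 : ℝ)..x, (1 : ℝ))) := by
    apply intervalIntegral.tendsto_integral_filter_of_dominated_convergence (fun _ => 1)
    · exact Eventually.of_forall fun n => (rh_cont _).aestronglyMeasurable
    · refine Eventually.of_forall fun n => ae_of_all _ fun r _ => ?_
      rw [Real.norm_eq_abs, abs_of_nonneg (rh_nonneg _ r)]; exact rh_le _ r
    · exact intervalIntegrable_const
    · have h0 : ∀ᵐ r : ℝ, r ≠ 0 := by simp [ae_iff, measure_singleton]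
      filter_upwards [h0] with r hr _
      exact rh_tendsto hr
  simpa using h

section swap

variable {lam : Measure ℝ} {nu : Measure (ℝ × ℝ)} [SFinite lam] [SFinite nu]

theorem ae_section {R : ℝ × (ℝ × ℝ) → Prop} (h : ∀ᵐ p ∂(lam.prod nu), R p) :
    ∀ᵐ q ∂nu, ∀ᵐ s ∂lam, R (s, q) := by
  have h1 : ∀ᵐ r ∂(nu.prod lam), R r.swap :=
    (Measure.measurePreserving_swap (μ := nu) (ν := lam)).quasiMeasurePreserving.ae h
  exact Measure.ae_ae_of_ae_prod h1

theorem ae_of_section {S : Set (ℝ × (ℝ × ℝ))} (hS : MeasurableSet S)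
    (h : ∀ᵐ q ∂nu, ∀ᵐ s ∂lam, (s, q) ∈ S) : ∀ᵐ p ∂(lam.prod nu), p ∈ S := by
  have h1 : ∀ᵐ r ∂(nu.prod lam), r.swap ∈ S :=
    (Measure.ae_prod_iff_ae_ae (measurable_swap hS)).mpr h
  have h2 := (Measure.measurePreserving_swap (μ := lam) (ν := nu)).quasiMeasurePreserving.ae h1
  simpa using h2

end swap

/-- `e = 0` implies `e' = 0` almost everywhere -/
theorem zero_ae {e e' : ℝ × (ℝ × ℝ) → ℝ} (he : ContinuousOn e (box3 t0 t1 y0 y1))
    (he' : Integrable e' (bet (leb t0 t1) (leb y0 y1)))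
    (hd : ∀ᵐ p ∂(bet (leb t0 t1) (leb y0 y1)), HasDerivAt (fun s => e (s, p.2)) (e' p) p.1) :
    ∀ᵐ p ∂(bet (leb t0 t1) (leb y0 y1)), e p = 0 → e' p = 0 := by
  have m1 := box_aesm he
  have m2 := he'.aestronglyMeasurable
  set e1 := m1.mk e with he1
  set e2 := m2.mk e' with he2
  have a1 : ∀ᵐ p ∂(bet (leb t0 t1) (leb y0 y1)), e p = e1 p := m1.ae_eq_mk
  have a2 : ∀ᵐ p ∂(bet (leb t0 t1) (leb y0 y1)), e' p = e2 p := m2.ae_eq_mk
  have s1 : Measurable e1 := m1.stronglyMeasurable_mk.measurable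
  have s2 : Measurable e2 := m2.stronglyMeasurable_mk.measurable
  have hS : MeasurableSet {p : ℝ × (ℝ × ℝ) | e1 p = 0 → e2 p = 0} := by
    have : {p : ℝ × (ℝ × ℝ) | e1 p = 0 → e2 p = 0} = {p | e1 p = 0}ᶜ ∪ {p | e2 p = 0} := by
      ext p
      simp only [mem_ofPred_eq, mem_union, mem_compl_iff]
      tauto
    rw [this]
    exact (measurableSet_eq_fun s1 measurable_const).compl.union
      (measurableSet_eq_fun s2 measurable_const)
  have hsec : ∀ᵐ p ∂(bet (leb t0 t1) (leb y0 y1)),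
      p ∈ {p : ℝ × (ℝ × ℝ) | e1 p = 0 → e2 p = 0} := by
    apply ae_of_section hS
    filter_upwards [ae_section a1, ae_section a2, ae_section hd] with q h1 h2 h3
    have h4 := zero_deriv_ae (fun s => e (s, q)) (fun s => e' (s, q))
    have h5 : ∀ᵐ x ∂(leb t0 t1), e (x, q) = 0 → HasDerivAt (fun s => e (s, q)) (e' (x, q)) x →
      e' (x, q) = 0 := ae_restrict_of_ae h4
    filter_upwards [h1, h2, h3, h5] with s b1 b2 b3 b4
    intro b5
    rw [← b1] at b5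
    rw [← b2]
    exact b4 b5 b3
  filter_upwards [a1, a2, hsec] with p b1 b2 b3
  intro b4
  rw [b2]
  apply b3
  rw [← b1]
  exact b4

theorem ae_mem_Ioo (t0 t1 y0 y1 : ℝ) : ∀ᵐ p ∂(bet (leb t0 t1) (leb y0 y1)),
    p.1 ∈ Ioo t0 t1 := by
  have h1 : ∀ᵐ s ∂(leb t0 t1), s ∈ Ioo t0 t1 := by
    rw [leb, ← restrict_Ioo_eq_restrict_Icc]
    exact ae_restrict_mem measurableSet_Ioo
  exact Measure.quasiMeasurePreserving_fst.ae h1

/-- the doubling with the sign kernel -/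
theorem idn_sg (h : Slab A D t0 t1 y0 y1) (hs : SignK A t0 t1 y0 y1) {w1 w2 : ℝ → ℝ}
    (hw1 : Continuous w1) (hw2 : Continuous w2) (g1 : Good A D t0 t1 y0 y1 w1)
    (g2 : Good A D t0 t1 y0 y1 w2) {a : ℝ × ℝ → ℝ} (ha : a ∈ A) :
    Idn t0 t1 y0 y1 (fun q => w1 q.1 * w2 q.2)
      (fun p => sg p.2 * (a (p.1, p.2.1) - a (p.1, p.2.2)))
      (fun p => sg p.2 * (D a (p.1, p.2.1) - D a (p.1, p.2.2))) := by
  set e : ℝ × (ℝ × ℝ) → ℝ := fun p => a (p.1, p.2.1) - a (p.1, p.2.2) with he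
  set e' : ℝ × (ℝ × ℝ) → ℝ := fun p => D a (p.1, p.2.1) - D a (p.1, p.2.2) with he'
  have heT : e ∈ TT A := TT_diff h ha
  have hdere : ∀ᵐ p ∂(bet (leb t0 t1) (leb y0 y1)),
      HasDerivAt (fun s => e (s, p.2)) (e' p) p.1 := by
    filter_upwards [h.der1 ha, h.der2 ha] with p h1 h2
    exact h1.sub h2
  have hHe : HH t0 t1 y0 y1 (fun q => w1 q.1 * w2 q.2) e e' := by
    obtain ⟨K, hK⟩ := TT_HH h hw1 hw2 g1 g2 heT
    have hu := hK.unique hdere
    exact ⟨hK.cont, hK.int.congr hu, hdere, hK.idn.congr (fun _ _ => rfl) hu⟩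
  -- the approximations
  have key : ∀ d : ℝ, 0 < d →
      ContinuousOn (fun p : ℝ × (ℝ × ℝ) => sg p.2 * ∫ r in (0 : ℝ)..(e p), rh d r)
        (box3 t0 t1 y0 y1) ∧
      Idn t0 t1 y0 y1 (fun q => w1 q.1 * w2 q.2)
        (fun p => sg p.2 * ∫ r in (0 : ℝ)..(e p), rh d r)
        (fun p => sg p.2 * (rh d (e p) * e' p)) := by
    intro d hd
    obtain ⟨κ, hκT, hκ⟩ := hs a ha d hd
    obtain ⟨κ', hκ'⟩ := TT_HH h hw1 hw2 g1 g2 hκT
    have hc := idn_comp h hw1 hw2 g1 g2 hκT heT hκ' hHe (rh_cont d)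
    have heq : ∀ p ∈ box3 t0 t1 y0 y1, κ p * (∫ r in (0 : ℝ)..(e p), rh d r) =
        sg p.2 * ∫ r in (0 : ℝ)..(e p), rh d r := by
      intro p hp
      by_cases hcase : |e p| ≤ d
      · rw [rg_zero hd hcase]; simp
      · rw [hκ p.1 hp.1 p.2.1 hp.2.1 p.2.2 hp.2.2 (le_of_lt (not_le.mp hcase))]
    have hder2 : ∀ᵐ p ∂(bet (leb t0 t1) (leb y0 y1)),
        HasDerivAt (fun s => κ (s, p.2) * ∫ r in (0 : ℝ)..(e (s, p.2)), rh d r)
        (sg p.2 * (rh d (e p) * e' p)) p.1 := by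
      filter_upwards [hdere, ae_mem_box t0 t1 y0 y1, ae_mem_Ioo t0 t1 y0 y1] with p h1 h2 h3
      have hgd : HasDerivAt (fun x => ∫ r in (0 : ℝ)..x, rh d r) (rh d (e (p.1, p.2)))
          (e (p.1, p.2)) :=
        intervalIntegral.integral_hasDerivAt_right ((rh_cont d).intervalIntegrable _ _)
          (rh_cont d).aestronglyMeasurable.stronglyMeasurableAtFilter (rh_cont d).continuousAt
      have h4 : HasDerivAt (fun s => ∫ r in (0 : ℝ)..(e (s, p.2)), rh d r)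
          (rh d (e p) * e' p) p.1 :=
        HasDerivAt.comp (h := fun s => e (s, p.2)) (h₂ := fun x => ∫ r in (0 : ℝ)..x, rh d r) p.1
          hgd h1
      have h5 := h4.const_mul (sg p.2)
      refine h5.congr_of_eventuallyEq ?_
      filter_upwards [isOpen_Ioo.mem_nhds h3] with s hs
      exact heq (s, p.2) ⟨⟨hs.1.le, hs.2.le⟩, h2.2⟩
    have hu := hc.unique hder2
    exact ⟨hc.cont.congr fun p hp => (heq p hp).symm, hc.idn.congr heq hu⟩
  have hz := zero_ae hHe.cont hHe.int hHe.der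
  obtain ⟨M, hM⟩ : ∃ M, ∀ p ∈ box3 t0 t1 y0 y1, ‖e p‖ ≤ M :=
    (isCompact_box3 t0 t1 y0 y1).exists_bound_of_continuousOn hHe.cont
  refine Idn.lim (W := fun q => w1 q.1 * w2 q.2) (by fun_prop)
    (H := fun n p => sg p.2 * ∫ r in (0 : ℝ)..(e p), rh (dn n) r)
    (K := fun n p => sg p.2 * (rh (dn n) (e p) * e' p)) (B := 1 * M) (G := fun p => 1 * (1 * |e' p|))
    ?_ (fun n => (key _ (dn_pos n)).1) ?_ ?_ ?_ ?_ ?_ (fun n => (key _ (dn_pos n)).2)
  · exact (hHe.int.abs.const_mul _).const_mul _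
  · intro n p hp
    rw [abs_mul]
    exact mul_le_mul (abs_sg_le _) ((rg_le _ _).trans (hM p hp)) (abs_nonneg _) zero_le_one
  · intro p hp
    exact (rg_tendsto (e p)).const_mul _
  · intro n
    have m1 := box_aesm hHe.cont
    have m2 : AEStronglyMeasurable (fun p => rh (dn n) (e p)) (bet (leb t0 t1) (leb y0 y1)) :=
      (rh_cont _).comp_aestronglyMeasurable m1
    exact (measurable_sg.comp measurable_snd).aestronglyMeasurable.mul
      (m2.mul hHe.int.aestronglyMeasurable)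
  · intro n
    refine ae_of_all _ fun p => ?_
    rw [abs_mul, abs_mul]
    refine mul_le_mul (abs_sg_le _) (mul_le_mul_of_nonneg_right ?_ (abs_nonneg _))
      (by positivity) zero_le_one
    rw [abs_of_nonneg (rh_nonneg _ _)]
    exact rh_le _ _
  · filter_upwards [hz] with p hp
    refine Filter.Tendsto.const_mul (sg p.2) (f := fun n => rh (dn n) (e p) * e' p) ?_
    by_cases h0 : e p = 0
    · have h1 : e' p = 0 := hp h0
      have h2 : (fun n => rh (dn n) (e p) * e' p) = fun _ => e' p := by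
        ext n
        rw [h1, mul_zero]
      rw [h2]
      exact tendsto_const_nhds
    · have h3 := (rh_tendsto h0).mul_const (e' p)
      rwa [one_mul] at h3

end Crest.Agent.R105.Prod_412
end

-- ▼ part R105/Prod7_412
section

/-! Row 105, PROD (helper412), part 7: the product lemma. -/

open MeasureTheory Set Filter Topology

namespace Crest.Agent.R105.Prod_412

variable {A : Set (ℝ × ℝ → ℝ)} {D : (ℝ × ℝ → ℝ) → (ℝ × ℝ → ℝ)} {t0 t1 y0 y1 : ℝ}

/-- `∫ w(y') sign(y - y') dy'` -/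
noncomputable def Sg (y0 y1 : ℝ) (w : ℝ → ℝ) (y : ℝ) : ℝ := ∫ y', w y' * sg (y, y') ∂(leb y0 y1)

theorem sg_aesm (y0 y1 : ℝ) : AEStronglyMeasurable sg ((leb y0 y1).prod (leb y0 y1)) :=
  measurable_sg.aestronglyMeasurable

theorem mul_sg_int {f : ℝ × ℝ → ℝ} (hf : Integrable f ((leb y0 y1).prod (leb y0 y1))) :
    Integrable (fun q => sg q * f q) ((leb y0 y1).prod (leb y0 y1)) :=
  hf.bdd_mul (sg_aesm y0 y1) (ae_of_all _ fun q => abs_sg_le q)

theorem leb_int {w : ℝ → ℝ} (hw : Continuous w) : Integrable w (leb y0 y1) :=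
  hw.continuousOn.integrableOn_compact isCompact_Icc

theorem leb_mul_int {f w : ℝ → ℝ} (hf : Integrable f (leb y0 y1)) (hw : Continuous w) :
    Integrable (fun y => w y * f y) (leb y0 y1) :=
  IntegrableOn.continuousOn_mul hw.continuousOn hf isCompact_Icc

theorem eval_sg {w1 w2 : ℝ → ℝ} (hw1 : Continuous w1) (hw2 : Continuous w2) {f : ℝ → ℝ}
    (hf : Integrable f (leb y0 y1)) :
    ∫ q : ℝ × ℝ, (w1 q.1 * w2 q.2) * (sg q * (f q.1 - f q.2)) ∂((leb y0 y1).prod (leb y0 y1)) =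
      ∫ y, (w1 y * Sg y0 y1 w2 y + w2 y * Sg y0 y1 w1 y) * f y ∂(leb y0 y1) := by
  have j1 : Integrable (fun q : ℝ × ℝ => sg q * ((w1 q.1 * f q.1) * w2 q.2))
      ((leb y0 y1).prod (leb y0 y1)) :=
    mul_sg_int ((leb_mul_int hf hw1).mul_prod (leb_int hw2))
  have j2 : Integrable (fun q : ℝ × ℝ => sg q * (w1 q.1 * (w2 q.2 * f q.2)))
      ((leb y0 y1).prod (leb y0 y1)) :=
    mul_sg_int ((leb_int hw1).mul_prod (leb_mul_int hf hw2))
  have e1 : ∫ q : ℝ × ℝ, (w1 q.1 * w2 q.2) * (sg q * (f q.1 - f q.2))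
      ∂((leb y0 y1).prod (leb y0 y1)) =
      (∫ q : ℝ × ℝ, sg q * ((w1 q.1 * f q.1) * w2 q.2) ∂((leb y0 y1).prod (leb y0 y1))) -
      ∫ q : ℝ × ℝ, sg q * (w1 q.1 * (w2 q.2 * f q.2)) ∂((leb y0 y1).prod (leb y0 y1)) := by
    rw [← integral_sub j1 j2]
    congr 1
    ext q
    ring
  have k1 : ∀ y, ∫ y', sg (y, y') * ((w1 y * f y) * w2 y') ∂(leb y0 y1) =
      (w1 y * f y) * Sg y0 y1 w2 y := by
    intro y
    rw [Sg, ← integral_const_mul]
    congr 1
    ext y'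
    ring
  have k2 : ∀ y', ∫ y, sg (y, y') * (w1 y * (w2 y' * f y')) ∂(leb y0 y1) =
      - ((w2 y' * f y') * Sg y0 y1 w1 y') := by
    intro y'
    rw [Sg, ← integral_const_mul, ← integral_neg]
    congr 1
    ext y
    rw [sg_anti y' y]
    ring
  have i1 : Integrable (fun y => (w1 y * f y) * Sg y0 y1 w2 y) (leb y0 y1) :=
    j1.integral_prod_left.congr (ae_of_all _ fun y => k1 y)
  have i2 : Integrable (fun y => - ((w2 y * f y) * Sg y0 y1 w1 y)) (leb y0 y1) :=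
    j2.integral_prod_right.congr (ae_of_all _ fun y => k2 y)
  rw [e1, integral_prod _ j1, integral_prod_symm _ j2]
  simp only [k1, k2]
  rw [← integral_sub i1 i2]
  congr 1
  ext y
  ring

theorem Sg_eq {w : ℝ → ℝ} (hw : Continuous w) {y : ℝ} (hy : y ∈ Icc y0 y1) :
    Sg y0 y1 w y = 2 * (∫ r in y0..y, w r) - ∫ r in y0..y1, w r := by
  have hle := hy.1.trans hy.2
  have hi : Integrable (fun y' => w y' * sg (y, y')) (leb y0 y1) := by
    have := (leb_int (y0 := y0) (y1 := y1) hw).bdd_mul (f := fun y' => sg (y, y'))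
      (measurable_sg.comp (measurable_const.prodMk measurable_id)).aestronglyMeasurable
      (ae_of_all _ fun q => abs_sg_le _)
    exact this.congr (ae_of_all _ fun q => mul_comm _ _)
  have h1 : IntervalIntegrable (fun y' => w y' * sg (y, y')) volume y0 y :=
    ival hi ⟨le_rfl, hle⟩ hy hy.1
  have h2 : IntervalIntegrable (fun y' => w y' * sg (y, y')) volume y y1 :=
    ival hi hy ⟨hle, le_rfl⟩ hy.2
  rw [Sg, ← intervalIntegral_eq hle, ← intervalIntegral.integral_add_adjacent_intervals h1 h2,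
    ← intervalIntegral.integral_add_adjacent_intervals (hw.intervalIntegrable y0 y)
      (hw.intervalIntegrable y y1)]
  have e1 : ∫ y' in y0..y, w y' * sg (y, y') = ∫ r in y0..y, w r := by
    apply intervalIntegral.integral_congr_ae
    have h0 : ∀ᵐ r : ℝ, r ≠ y := by simp [ae_iff, measure_singleton]
    filter_upwards [h0] with r hr hr2
    rw [uIoc_of_le hy.1] at hr2
    have : r < y := lt_of_le_of_ne hr2.2 hr
    simp [sg, this]
  have e2 : ∫ y' in y..y1, w y' * sg (y, y') = - ∫ r in y..y1, w r := by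
    rw [← intervalIntegral.integral_neg]
    apply intervalIntegral.integral_congr_ae
    refine ae_of_all _ fun r hr2 => ?_
    rw [uIoc_of_le hy.2] at hr2
    have h3 : ¬ r < y := not_lt.mpr hr2.1.le
    simp [sg, hr2.1, h3]
  rw [e1, e2]
  ring

theorem Good.congr {w w' : ℝ → ℝ} (h : Good A D t0 t1 y0 y1 w)
    (hw : ∀ y ∈ Icc y0 y1, w y = w' y) : Good A D t0 t1 y0 y1 w' := by
  intro a ha t ht t' ht' htt
  have e : ∀ f : ℝ → ℝ, ∫ y, w' y * f y ∂(leb y0 y1) = ∫ y, w y * f y ∂(leb y0 y1) := by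
    intro f
    apply integral_congr_ae
    filter_upwards [ae_restrict_mem measurableSet_Icc] with y hy
    rw [hw y hy]
  simp only [e]
  exact h a ha t ht t' ht' htt

theorem Slab.ae_sec (h : Slab A D t0 t1 y0 y1) {a : ℝ × ℝ → ℝ} (ha : a ∈ A) :
    ∀ᵐ s : ℝ, s ∈ Icc t0 t1 → Integrable (fun y => D a (s, y)) (leb y0 y1) := by
  have := (h.int' ha).prod_right_ae
  rwa [leb, ae_restrict_iff' measurableSet_Icc] at this

theorem Slab.slice (h : Slab A D t0 t1 y0 y1) {a : ℝ × ℝ → ℝ} (ha : a ∈ A) {t : ℝ}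
    (ht : t ∈ Icc t0 t1) : Integrable (fun y => a (t, y)) (leb y0 y1) := by
  apply ContinuousOn.integrableOn_compact isCompact_Icc
  exact (h.cont a ha).comp (by fun_prop) (fun y hy => ⟨ht, hy⟩)

theorem Good.add (h : Slab A D t0 t1 y0 y1) {w w' : ℝ → ℝ} (hw : Continuous w)
    (hw' : Continuous w') (g : Good A D t0 t1 y0 y1 w) (g' : Good A D t0 t1 y0 y1 w') :
    Good A D t0 t1 y0 y1 (fun y => w y + w' y) := by
  intro a ha t ht t' ht' htt
  have e : ∀ f : ℝ → ℝ, Integrable f (leb y0 y1) → ∫ y, (w y + w' y) * f y ∂(leb y0 y1) =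
      (∫ y, w y * f y ∂(leb y0 y1)) + ∫ y, w' y * f y ∂(leb y0 y1) := by
    intro f hf
    rw [← integral_add (leb_mul_int hf hw) (leb_mul_int hf hw')]
    congr 1
    ext y
    ring
  rw [e _ (h.slice ha ht'), e _ (h.slice ha ht)]
  have e2 : ∫ s in t..t', ∫ y, (w y + w' y) * D a (s, y) ∂(leb y0 y1) =
      ∫ s in t..t', ((∫ y, w y * D a (s, y) ∂(leb y0 y1)) +
        ∫ y, w' y * D a (s, y) ∂(leb y0 y1)) := by
    apply intervalIntegral.integral_congr_ae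
    filter_upwards [h.ae_sec ha] with s hs hs2
    rw [uIoc_of_le htt] at hs2
    exact e _ (hs ⟨ht.1.trans hs2.1.le, hs2.2.trans ht'.2⟩)
  rw [e2, intervalIntegral.integral_add
    (ival (slice_int (h.int' ha) hw).integral_prod_left ht ht' htt)
    (ival (slice_int (h.int' ha) hw').integral_prod_left ht ht' htt),
    ← g a ha t ht t' ht' htt, ← g' a ha t ht t' ht' htt]
  ring

theorem Good.smul (c : ℝ) {w : ℝ → ℝ} (g : Good A D t0 t1 y0 y1 w) :
    Good A D t0 t1 y0 y1 (fun y => c * w y) := by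
  intro a ha t ht t' ht' htt
  have e : ∀ f : ℝ → ℝ, ∫ y, (c * w y) * f y ∂(leb y0 y1) =
      c * ∫ y, w y * f y ∂(leb y0 y1) := by
    intro f
    rw [← integral_const_mul]
    congr 1
    ext y
    ring
  simp only [e]
  rw [intervalIntegral.integral_const_mul, ← g a ha t ht t' ht' htt]
  ring

/-- THE PRODUCT LEMMA -/
theorem Good.prod (h : Slab A D t0 t1 y0 y1) (hs : SignK A t0 t1 y0 y1) {w1 w2 : ℝ → ℝ}
    (hw1 : Continuous w1) (hw2 : Continuous w2) (g1 : Good A D t0 t1 y0 y1 w1)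
    (g2 : Good A D t0 t1 y0 y1 w2) :
    Good A D t0 t1 y0 y1
      (fun y => w1 y * (∫ r in y0..y, w2 r) + w2 y * ∫ r in y0..y, w1 r) := by
  have hW : ∀ w : ℝ → ℝ, Continuous w → Continuous (fun y => ∫ r in y0..y, w r) := fun w hw =>
    intervalIntegral.continuous_primitive (fun _ _ => hw.intervalIntegrable _ _) _
  have hΩ : Good A D t0 t1 y0 y1 (fun y => w1 y * Sg y0 y1 w2 y + w2 y * Sg y0 y1 w1 y) := by
    intro a ha t ht t' ht' htt
    have hid := idn_sg h hs hw1 hw2 g1 g2 ha t ht t' ht' htt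
    have hK : Integrable (fun p : ℝ × (ℝ × ℝ) => sg p.2 * (D a (p.1, p.2.1) - D a (p.1, p.2.2)))
        (bet (leb t0 t1) (leb y0 y1)) := by
      have h1 := (integrable1 (h.int' ha)).sub (integrable2 (h.int' ha))
      exact h1.bdd_mul (measurable_sg.comp measurable_snd).aestronglyMeasurable
        (ae_of_all _ fun q => abs_sg_le _)
    rw [rhs_fubini (W := fun q => w1 q.1 * w2 q.2) (by fun_prop) hK ht ht' htt] at hid
    rw [← eval_sg hw1 hw2 (h.slice ha ht'), ← eval_sg hw1 hw2 (h.slice ha ht)]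
    have e2 : ∫ s in t..t', ∫ y, (w1 y * Sg y0 y1 w2 y + w2 y * Sg y0 y1 w1 y) * D a (s, y)
        ∂(leb y0 y1) = ∫ s in t..t', ∫ q : ℝ × ℝ, (w1 q.1 * w2 q.2) *
          (sg q * (D a (s, q.1) - D a (s, q.2))) ∂((leb y0 y1).prod (leb y0 y1)) := by
      apply intervalIntegral.integral_congr_ae
      filter_upwards [h.ae_sec ha] with s hs hs2
      rw [uIoc_of_le htt] at hs2
      exact (eval_sg hw1 hw2 (hs ⟨ht.1.trans hs2.1.le, hs2.2.trans ht'.2⟩)).symm
    rw [e2]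
    exact hid
  have c1 := (g1.smul (∫ r in y0..y1, w2 r))
  have c2 := (g2.smul (∫ r in y0..y1, w1 r))
  have hΩ' : Good A D t0 t1 y0 y1 (fun y =>
      2 * (w1 y * (∫ r in y0..y, w2 r) + w2 y * ∫ r in y0..y, w1 r) -
        ((∫ r in y0..y1, w2 r) * w1 y + (∫ r in y0..y1, w1 r) * w2 y)) := by
    refine hΩ.congr fun y hy => ?_
    rw [Sg_eq hw1 hy, Sg_eq hw2 hy]
    ring
  have k1 := Good.add h (by fun_prop) (by fun_prop) c1 c2
  have k2 := Good.add h
    (w := fun y => 2 * (w1 y * (∫ r in y0..y, w2 r) + w2 y * ∫ r in y0..y, w1 r) -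
        ((∫ r in y0..y1, w2 r) * w1 y + (∫ r in y0..y1, w1 r) * w2 y))
    (w' := fun y => (∫ r in y0..y1, w2 r) * w1 y + (∫ r in y0..y1, w1 r) * w2 y)
    (by have := hW w1 hw1; have := hW w2 hw2; fun_prop) (by fun_prop) hΩ' k1
  have k3 := k2.smul (1 / 2)
  refine k3.congr fun y _ => ?_
  ring

end Crest.Agent.R105.Prod_412
end

-- ▼ part R105/Prod8_412
section

/-! Row 105, PROD (helper412), part 8: all continuous weights are good; the functions of `A` are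
absolutely continuous on almost every horizontal line. -/

open MeasureTheory Set Filter Topology

namespace Crest.Agent.R105.Prod_412

variable {A : Set (ℝ × ℝ → ℝ)} {D : (ℝ × ℝ → ℝ) → (ℝ × ℝ → ℝ)} {t0 t1 y0 y1 : ℝ}

theorem good_pow (h : Slab A D t0 t1 y0 y1) (hy : y0 ≤ y1) (hs : SignK A t0 t1 y0 y1) (n : ℕ) :
    Good A D t0 t1 y0 y1 (fun y => ((n : ℝ) + 1) * (y - y0) ^ n) := by
  have hprim : ∀ (n : ℕ) (y : ℝ), ∫ r in y0..y, ((n : ℝ) + 1) * (r - y0) ^ n = (y - y0) ^ (n + 1) := by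
    intro n y
    have hd : ∀ x ∈ uIcc y0 y, HasDerivAt (fun x => (x - y0) ^ (n + 1))
        (((n : ℝ) + 1) * (x - y0) ^ n) x := by
      intro x _
      have h1 : HasDerivAt (fun x : ℝ => x - y0) 1 x := (hasDerivAt_id x).sub_const y0
      have h2 := h1.fun_pow (n + 1)
      have h3 : (((n + 1 : ℕ) : ℝ) * (x - y0) ^ (n + 1 - 1) * 1) =
          ((n : ℝ) + 1) * (x - y0) ^ n := by
        push_cast
        rw [mul_one]
      rw [h3] at h2
      exact h2
    have hc : Continuous (fun r : ℝ => ((n : ℝ) + 1) * (r - y0) ^ n) := by fun_prop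
    rw [intervalIntegral.integral_eq_sub_of_hasDerivAt hd (hc.intervalIntegrable _ _)]
    simp
  induction n with
  | zero =>
    refine (h.good_one hy).congr fun y _ => ?_
    simp
  | succ n ih =>
    have hc : Continuous (fun r : ℝ => ((n : ℝ) + 1) * (r - y0) ^ n) := by fun_prop
    have k := Good.prod h hs hc (continuous_const (y := (1 : ℝ))) ih (h.good_one hy)
    refine k.congr fun y _ => ?_
    simp only [hprim]
    have e1 : ∫ _ in y0..y, (1 : ℝ) = y - y0 := by simp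
    rw [e1]
    push_cast
    ring

theorem good_poly (h : Slab A D t0 t1 y0 y1) (hy : y0 ≤ y1) (hs : SignK A t0 t1 y0 y1)
    (P : Polynomial ℝ) : Good A D t0 t1 y0 y1 (fun y => P.eval (y - y0)) := by
  induction P using Polynomial.induction_on' with
  | add p q hp hq =>
    simp only [Polynomial.eval_add]
    exact Good.add h (p.continuous.comp (continuous_id.sub continuous_const))
      (q.continuous.comp (continuous_id.sub continuous_const)) hp hq
  | monomial n c =>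
    have k := (good_pow h hy hs n).smul (c / ((n : ℝ) + 1))
    refine k.congr fun y _ => ?_
    rw [Polynomial.eval_monomial]
    have : ((n : ℝ) + 1) ≠ 0 := by positivity
    field_simp

/-- 2D form of the right hand side -/
theorem rhs2 {f : ℝ × ℝ → ℝ} (hf : Integrable f ((leb t0 t1).prod (leb y0 y1))) {t t' : ℝ}
    (ht : t ∈ Icc t0 t1) (ht' : t' ∈ Icc t0 t1) (htt : t ≤ t') :
    ∫ s in t..t', ∫ y, f (s, y) ∂(leb y0 y1) =
      ∫ p in (Ioc t t' ×ˢ (univ : Set ℝ)), f p ∂((leb t0 t1).prod (leb y0 y1)) := by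
  rw [setIntegral_prod _ hf.integrableOn, leb_restrict ht ht',
    intervalIntegral.integral_of_le htt]
  simp only [Measure.restrict_univ]

theorem rhs2_swap {f : ℝ × ℝ → ℝ} (hf : Integrable f ((leb t0 t1).prod (leb y0 y1))) {t t' : ℝ}
    (ht : t ∈ Icc t0 t1) (ht' : t' ∈ Icc t0 t1) (htt : t ≤ t') :
    ∫ s in t..t', ∫ y, f (s, y) ∂(leb y0 y1) =
      ∫ y, (∫ s in t..t', f (s, y)) ∂(leb y0 y1) := by
  rw [intervalIntegral.integral_of_le htt]
  simp only [intervalIntegral.integral_of_le htt]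
  rw [← leb_restrict ht ht']
  have h1 : Integrable f (((leb t0 t1).restrict (Ioc t t')).prod (leb y0 y1)) := by
    have := hf.restrict (s := Ioc t t' ×ˢ (univ : Set ℝ))
    rwa [← Measure.prod_restrict, Measure.restrict_univ] at this
  exact integral_integral_swap (f := fun x y => f (x, y)) h1

theorem good_all (h : Slab A D t0 t1 y0 y1) (hy : y0 ≤ y1) (hs : SignK A t0 t1 y0 y1)
    {w : ℝ → ℝ} (hw : Continuous w) : Good A D t0 t1 y0 y1 w := by
  have hpoly : ∀ n : ℕ, ∃ p : Polynomial ℝ, ∀ x ∈ Icc 0 (y1 - y0),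
      |p.eval x - w (x + y0)| < 1 / ((n : ℝ) + 1) :=
    fun n => exists_polynomial_near_of_continuousOn 0 (y1 - y0) (fun x => w (x + y0))
      (by fun_prop) _ (by positivity)
  choose p hp using hpoly
  set v : ℕ → ℝ → ℝ := fun n y => (p n).eval (y - y0) with hv
  have hvc : ∀ n, Continuous (v n) := fun n => (p n).continuous.comp (by fun_prop)
  have hvg : ∀ n, Good A D t0 t1 y0 y1 (v n) := fun n => good_poly h hy hs (p n)
  have hvw : ∀ n, ∀ y ∈ Icc y0 y1, |v n y - w y| < 1 / ((n : ℝ) + 1) := by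
    intro n y hy'
    have := hp n (y - y0) ⟨by linarith [hy'.1], by linarith [hy'.2]⟩
    simpa [hv] using this
  have htends : Tendsto (fun n : ℕ => 1 / ((n : ℝ) + 1)) atTop (𝓝 0) :=
    tendsto_one_div_add_atTop_nhds_zero_nat
  have hle1 : ∀ n : ℕ, 1 / ((n : ℝ) + 1) ≤ 1 := by
    intro n
    rw [div_le_one (by positivity)]
    linarith [(n.cast_nonneg : (0 : ℝ) ≤ n)]
  have hvl : ∀ y ∈ Icc y0 y1, Tendsto (fun n => v n y) atTop (𝓝 (w y)) := by
    intro y hy'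
    rw [tendsto_iff_norm_sub_tendsto_zero]
    exact squeeze_zero (fun n => norm_nonneg _) (fun n => (hvw n y hy').le) htends
  obtain ⟨C, hC⟩ : ∃ C, ∀ y ∈ Icc y0 y1, ‖w y‖ ≤ C :=
    isCompact_Icc.exists_bound_of_continuousOn hw.continuousOn
  have hvb : ∀ n, ∀ y ∈ Icc y0 y1, |v n y| ≤ C + 1 := by
    intro n y hy'
    have a1 := hvw n y hy'
    have a2 : |w y| ≤ C := hC y hy'
    have a4 := abs_sub_abs_le_abs_sub (v n y) (w y)
    linarith [hle1 n]
  intro a ha t ht t' ht' htt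
  have hL : ∀ s ∈ Icc t0 t1, Tendsto (fun n => ∫ y, v n y * a (s, y) ∂(leb y0 y1)) atTop
      (𝓝 (∫ y, w y * a (s, y) ∂(leb y0 y1))) := by
    intro s hs'
    apply tendsto_integral_of_dominated_convergence (fun y => (C + 1) * |a (s, y)|)
    · intro n
      exact (hvc n).aestronglyMeasurable.mul (h.slice ha hs').aestronglyMeasurable
    · exact (h.slice ha hs').abs.const_mul _
    · intro n
      filter_upwards [ae_restrict_mem measurableSet_Icc] with y hy'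
      rw [norm_mul]
      exact mul_le_mul_of_nonneg_right (hvb n y hy') (abs_nonneg _)
    · filter_upwards [ae_restrict_mem measurableSet_Icc] with y hy'
      exact (hvl y hy').mul_const _
  have hm : ∀ᵐ q ∂((leb t0 t1).prod (leb y0 y1)), q.2 ∈ Icc y0 y1 := by
    rw [leb_prod]
    filter_upwards [ae_restrict_mem (measurableSet_Icc.prod measurableSet_Icc)] with q hq
    exact hq.2
  have hR : Tendsto (fun n => ∫ s in t..t', ∫ y, v n y * D a (s, y) ∂(leb y0 y1)) atTop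
      (𝓝 (∫ s in t..t', ∫ y, w y * D a (s, y) ∂(leb y0 y1))) := by
    have e : ∀ u : ℝ → ℝ, Continuous u → ∫ s in t..t', ∫ y, u y * D a (s, y) ∂(leb y0 y1) =
        ∫ q in (Ioc t t' ×ˢ (univ : Set ℝ)), u q.2 * D a q ∂((leb t0 t1).prod (leb y0 y1)) :=
      fun u hu => rhs2 (slice_int (h.int' ha) hu) ht ht' htt
    rw [e w hw]
    simp only [fun n => e (v n) (hvc n)]
    apply tendsto_integral_of_dominated_convergence (fun q => (C + 1) * |D a q|)
    · intro n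
      exact (((hvc n).comp continuous_snd).aestronglyMeasurable.mul
        (h.int' ha).aestronglyMeasurable).restrict
    · exact ((h.int' ha).abs.const_mul _).restrict
    · intro n
      apply ae_restrict_of_ae
      filter_upwards [hm] with q hq
      rw [norm_mul]
      exact mul_le_mul_of_nonneg_right (hvb n _ hq) (abs_nonneg _)
    · apply ae_restrict_of_ae
      filter_upwards [hm] with q hq
      exact (hvl _ hq).mul_const _
  refine tendsto_nhds_unique ?_ hR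
  refine ((hL t' ht').sub (hL t ht)).congr fun n => ?_
  exact hvg n a ha t ht t' ht' htt

/-- two times -/
theorem acl_two (h : Slab A D t0 t1 y0 y1) (hy : y0 ≤ y1) (hs : SignK A t0 t1 y0 y1)
    {a : ℝ × ℝ → ℝ} (ha : a ∈ A) {t t' : ℝ} (ht : t ∈ Icc t0 t1) (ht' : t' ∈ Icc t0 t1)
    (htt : t ≤ t') :
    ∀ᵐ y ∂(leb y0 y1), a (t', y) - a (t, y) = ∫ s in t..t', D a (s, y) := by
  have hI : Integrable (fun y => ∫ s in t..t', D a (s, y)) (leb y0 y1) := by
    have h1 : Integrable (D a) (((leb t0 t1).restrict (Ioc t t')).prod (leb y0 y1)) := by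
      have := (h.int' ha).restrict (s := Ioc t t' ×ˢ (univ : Set ℝ))
      rwa [← Measure.prod_restrict, Measure.restrict_univ] at this
    rw [leb_restrict ht ht'] at h1
    have := h1.integral_prod_right
    simpa only [intervalIntegral.integral_of_le htt] using this
  have hF : Integrable (fun y => (a (t', y) - a (t, y)) - ∫ s in t..t', D a (s, y))
      (leb y0 y1) := ((h.slice ha ht').sub (h.slice ha ht)).sub hI
  have hz : ∀ᵐ y ∂(leb y0 y1), (a (t', y) - a (t, y)) - ∫ s in t..t', D a (s, y) = 0 := by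
    apply ae_eq_zero_of_integral_contDiff_smul_eq_zero hF.locallyIntegrable
    intro g hg _
    have hgc : Continuous g := hg.continuous
    have k := good_all h hy hs hgc a ha t ht t' ht' htt
    rw [rhs2_swap (slice_int (h.int' ha) hgc) ht ht' htt] at k
    simp only [intervalIntegral.integral_const_mul] at k
    have e : ∫ y, g y • ((a (t', y) - a (t, y)) - (∫ s in t..t', D a (s, y))) ∂(leb y0 y1) =
        ((∫ y, g y * a (t', y) ∂(leb y0 y1)) - ∫ y, g y * a (t, y) ∂(leb y0 y1)) -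
        ∫ y, g y * (∫ s in t..t', D a (s, y)) ∂(leb y0 y1) := by
      have q1 : Integrable (fun y => g y * a (t', y) - g y * a (t, y)) (leb y0 y1) :=
        (leb_mul_int (h.slice ha ht') hgc).sub (leb_mul_int (h.slice ha ht) hgc)
      rw [← integral_sub (leb_mul_int (h.slice ha ht') hgc) (leb_mul_int (h.slice ha ht) hgc),
        ← integral_sub q1 (leb_mul_int hI hgc)]
      congr 1
      ext y
      simp only [smul_eq_mul]
      ring
    rw [e, k, sub_self]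
  filter_upwards [hz] with y hy'
  linarith

/-- PLANARITY IN THE FIRST DIRECTION: for almost every `y` the function `a(.,y)` is the primitive
of `D a (.,y)` -/
theorem acl (h : Slab A D t0 t1 y0 y1) (hy : y0 ≤ y1) (hs : SignK A t0 t1 y0 y1)
    {a : ℝ × ℝ → ℝ} (ha : a ∈ A) :
    ∀ᵐ y ∂(leb y0 y1), IntegrableOn (fun s => D a (s, y)) (Icc t0 t1) ∧
      ∀ t ∈ Icc t0 t1, ∀ t' ∈ Icc t0 t1, a (t', y) - a (t, y) = ∫ s in t..t', D a (s, y) := by
  rcases lt_or_ge t1 t0 with hlt | hle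
  · refine ae_of_all _ fun y => ⟨?_, ?_⟩
    · rw [Icc_eq_empty (not_le.mpr hlt)]; exact integrableOn_empty
    · intro t ht; exact absurd (ht.1.trans ht.2) (not_le.mpr hlt)
  have hsec : ∀ᵐ y ∂(leb y0 y1), Integrable (fun s => D a (s, y)) (leb t0 t1) :=
    (h.int' ha).prod_left_ae
  have ht0 : t0 ∈ Icc t0 t1 := ⟨le_rfl, hle⟩
  have hQ : ∀ᵐ y ∂(leb y0 y1), ∀ r : ℚ, (r : ℝ) ∈ Icc t0 t1 →
      a ((r : ℝ), y) - a (t0, y) = ∫ s in t0..(r : ℝ), D a (s, y) := by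
    rw [ae_all_iff]
    intro r
    by_cases hr : (r : ℝ) ∈ Icc t0 t1
    · filter_upwards [acl_two h hy hs ha ht0 hr hr.1] with y h1 _
      exact h1
    · exact ae_of_all _ fun y h1 => absurd h1 hr
  filter_upwards [hsec, hQ, ae_restrict_mem measurableSet_Icc] with y h1 h2 hyI
  refine ⟨h1, ?_⟩
  have hint : IntervalIntegrable (fun s => D a (s, y)) volume t0 t1 :=
    ival h1 ht0 ⟨hle, le_rfl⟩ hle
  have main : ∀ t ∈ Icc t0 t1, a (t, y) - a (t0, y) = ∫ s in t0..t, D a (s, y) := by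
    rcases hle.eq_or_lt with heq | hlt
    · intro t ht
      have : t = t0 := le_antisymm (by rw [heq]; exact ht.2) ht.1
      rw [this]; simp
    have hEq : EqOn (fun t => a (t, y) - a (t0, y)) (fun t => ∫ s in t0..t, D a (s, y))
        (Ioo t0 t1 ∩ range ((↑) : ℚ → ℝ)) := by
      rintro t ⟨ht, r, rfl⟩
      exact h2 r ⟨ht.1.le, ht.2.le⟩
    have hcf : ContinuousOn (fun t => a (t, y) - a (t0, y)) (Icc t0 t1) := by
      apply ContinuousOn.sub _ continuousOn_const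
      exact (h.cont a ha).comp (by fun_prop) (fun t ht => ⟨ht, hyI⟩)
    have hcg : ContinuousOn (fun t => ∫ s in t0..t, D a (s, y)) (Icc t0 t1) := by
      have := intervalIntegral.continuousOn_primitive_interval (μ := volume)
        (f := fun s => D a (s, y)) (a := t0) (b := t1)
        (by rw [uIcc_of_le hle]; exact h1)
      rwa [uIcc_of_le hle] at this
    have := hEq.of_subset_closure hcf hcg (fun t ht => ⟨ht.1.1.le, ht.1.2.le⟩) (by
      have hd : Dense (range ((↑) : ℚ → ℝ)) := Rat.denseRange_cast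
      have h3 := hd.open_subset_closure_inter (isOpen_Ioo (a := t0) (b := t1))
      have h4 := closure_mono h3
      rw [closure_Ioo hlt.ne, closure_closure] at h4
      exact h4)
    exact this
  intro t ht t' ht'
  have k1 := main t ht
  have k2 := main t' ht'
  have i1 : IntervalIntegrable (fun s => D a (s, y)) volume t0 t := ival h1 ht0 ht ht.1
  have i2 : IntervalIntegrable (fun s => D a (s, y)) volume t0 t' := ival h1 ht0 ht' ht'.1
  rw [← intervalIntegral.integral_interval_sub_left i2 i1]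
  linarith

end Crest.Agent.R105.Prod_412
end

-- ▼ part R105/Prod9_412

/-! Row 105, PROD (helper412), part 9: the sign kernel from order convexity of the classes. -/

open MeasureTheory Set Filter Topology
open scoped ContDiff

namespace Crest.Agent.R105.Prod_412

variable {A : Set (ℝ × ℝ → ℝ)} {D : (ℝ × ℝ → ℝ) → (ℝ × ℝ → ℝ)} {t0 t1 y0 y1 : ℝ}

/-- algebraic separation of two compact sets -/
theorem exists_sep {X : Type*} [TopologicalSpace X] {T : Set (X → ℝ)}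
    (one : (1 : X → ℝ) ∈ T) (mul : ∀ f ∈ T, ∀ g ∈ T, f * g ∈ T)
    (sub : ∀ f ∈ T, ∀ g ∈ T, f - g ∈ T) {K L : Set X} (hK : IsCompact K) (hL : IsCompact L)
    (h : ∀ x ∈ K, ∀ y ∈ L, ∃ ψ ∈ T, (∀ᶠ z in 𝓝[K] x, ψ z = 1) ∧ ∀ᶠ z in 𝓝[L] y, ψ z = 0) :
    ∃ κ ∈ T, (∀ x ∈ K, κ x = 1) ∧ ∀ y ∈ L, κ y = 0 := by
  have step1 : ∀ x ∈ K, ∃ ψ ∈ T, (∀ᶠ z in 𝓝[K] x, ψ z = 1) ∧ ∀ y ∈ L, ψ y = 0 := by
    intro x hx
    refine hL.induction_on (p := fun s => ∃ ψ ∈ T, (∀ᶠ z in 𝓝[K] x, ψ z = 1) ∧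
      ∀ y ∈ s, ψ y = 0) ?_ ?_ ?_ ?_
    · exact ⟨1, one, Eventually.of_forall fun z => rfl, fun y hy => absurd hy (notMem_empty y)⟩
    · rintro s t hst ⟨ψ, h1, h2, h3⟩
      exact ⟨ψ, h1, h2, fun y hy => h3 y (hst hy)⟩
    · rintro s t ⟨ψ, h1, h2, h3⟩ ⟨φ, g1, g2, g3⟩
      refine ⟨ψ * φ, mul _ h1 _ g1, ?_, ?_⟩
      · filter_upwards [h2, g2] with z a b
        rw [Pi.mul_apply, a, b, one_mul]
      · rintro y (hy | hy)
        · rw [Pi.mul_apply, h3 y hy, zero_mul]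
        · rw [Pi.mul_apply, g3 y hy, mul_zero]
    · intro y hy
      obtain ⟨ψ, h1, h2, h3⟩ := h x hx y hy
      exact ⟨{z | ψ z = 0}, h3, ψ, h1, h2, fun z hz => hz⟩
  refine hK.induction_on (p := fun s => ∃ κ ∈ T, (∀ x ∈ s, κ x = 1) ∧
      ∀ y ∈ L, κ y = 0) ?_ ?_ ?_ ?_
  · refine ⟨1 - 1, sub _ one _ one, fun y hy => absurd hy (notMem_empty y), fun y _ => by simp⟩
  · rintro s t hst ⟨ψ, h1, h2, h3⟩
    exact ⟨ψ, h1, fun y hy => h2 y (hst hy), h3⟩
  · rintro s t ⟨ψ, h1, h2, h3⟩ ⟨φ, g1, g2, g3⟩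
    refine ⟨1 - (1 - ψ) * (1 - φ), sub _ one _ (mul _ (sub _ one _ h1) _ (sub _ one _ g1)), ?_, ?_⟩
    · rintro x (hx | hx)
      · simp [h2 x hx]
      · simp [g2 x hx]
    · intro y hy
      simp [h3 y hy, g3 y hy]
  · intro x hx
    obtain ⟨ψ, h1, h2, h3⟩ := step1 x hx
    exact ⟨{z | ψ z = 1}, h2, ψ, h1, fun z hz => hz, h3⟩

/-- The classes of `A` are order convex on vertical lines: the sign kernel is a finite sum of
products. -/
theorem signK_of_ord (h : Slab A D t0 t1 y0 y1)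
    (comp : ∀ b ∈ A, ∀ τ : ℝ → ℝ, ContDiff ℝ ∞ τ → (∃ K, LipschitzWith K τ) →
      HasCompactSupport τ → (fun p => τ (b p)) ∈ A)
    (ord : ∀ t ∈ Icc t0 t1, ∀ s ∈ Icc t0 t1, ∀ y ∈ Icc y0 y1, ∀ y' ∈ Icc y0 y1,
      ∀ u ∈ Icc y0 y1, ∀ u' ∈ Icc y0 y1, y' < y → u < u' →
      (∀ b ∈ A, b (t, y) = b (s, u)) → (∀ b ∈ A, b (t, y') = b (s, u')) →
      ∀ b ∈ A, b (t, y) = b (t, y')) :
    SignK A t0 t1 y0 y1 := by
  intro a ha d hd
  set e : ℝ × (ℝ × ℝ) → ℝ := fun p => a (p.1, p.2.1) - a (p.1, p.2.2) with he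
  have hec : ContinuousOn e (box3 t0 t1 y0 y1) := (cont1 (h.cont a ha)).sub (cont2 (h.cont a ha))
  have hbc : IsClosed (box3 t0 t1 y0 y1) := (isCompact_box3 _ _ _ _).isClosed
  have hcl : IsClosed (box3 t0 t1 y0 y1 ∩ {p | d ≤ |e p|}) := by
    have := hec.abs.preimage_isClosed_of_isClosed hbc (isClosed_Ici (a := d))
    exact this
  have hne : ∀ p : ℝ × (ℝ × ℝ), d ≤ |e p| → p.2.1 ≠ p.2.2 := by
    intro p hp heq
    have : e p = 0 := by simp only [he]; rw [heq]; ring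
    rw [this, abs_zero] at hp
    linarith
  set K : Set (ℝ × (ℝ × ℝ)) := (box3 t0 t1 y0 y1 ∩ {p | d ≤ |e p|}) ∩ {p | p.2.2 ≤ p.2.1} with hKd
  set L : Set (ℝ × (ℝ × ℝ)) := (box3 t0 t1 y0 y1 ∩ {p | d ≤ |e p|}) ∩ {p | p.2.1 ≤ p.2.2} with hLd
  have hK : IsCompact K := by
    refine (isCompact_box3 t0 t1 y0 y1).of_isClosed_subset ?_ (fun p hp => hp.1.1)
    exact hcl.inter (isClosed_le (by fun_prop) (by fun_prop))
  have hL : IsCompact L := by
    refine (isCompact_box3 t0 t1 y0 y1).of_isClosed_subset ?_ (fun p hp => hp.1.1)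
    exact hcl.inter (isClosed_le (by fun_prop) (by fun_prop))
  -- separation of one pair by one function of one variable
  have hbump : ∀ b ∈ A, ∀ m : ℝ × (ℝ × ℝ) → ℝ × ℝ, Continuous m →
      (∀ p ∈ box3 t0 t1 y0 y1, m p ∈ Icc t0 t1 ×ˢ Icc y0 y1) →
      (∀ c ∈ A, (fun p => c (m p)) ∈ TT A) →
      ∀ p ∈ K, ∀ q ∈ L, b (m p) ≠ b (m q) →
      ∃ ψ ∈ (TT A : Set (ℝ × (ℝ × ℝ) → ℝ)), (∀ᶠ z in 𝓝[K] p, ψ z = 1) ∧
        ∀ᶠ z in 𝓝[L] q, ψ z = 0 := by
    intro b hb m hm hmb hmT p hp q hq hbpq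
    have hδ : 0 < |b (m p) - b (m q)| := abs_pos.mpr (sub_ne_zero.mpr hbpq)
    set δ := |b (m p) - b (m q)| with hδd
    let f : ContDiffBump (b (m p)) := ⟨δ / 4, δ / 2, by positivity, by linarith⟩
    have hfs : ContDiff ℝ ∞ (f : ℝ → ℝ) := f.contDiff
    have hfc : HasCompactSupport (f : ℝ → ℝ) := f.hasCompactSupport
    have hfl : ∃ C, LipschitzWith C (f : ℝ → ℝ) :=
      ContDiff.lipschitzWith_of_hasCompactSupport hfc hfs (by simp)
    refine ⟨fun z => f (b (m z)), hmT _ (comp b hb f hfs hfl hfc), ?_, ?_⟩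
    · have hc : ContinuousWithinAt (fun z => b (m z)) K p := by
        have : ContinuousOn (fun z => b (m z)) (box3 t0 t1 y0 y1) :=
          (h.cont b hb).comp hm.continuousOn hmb
        exact (this p hp.1.1).mono (fun z hz => hz.1.1)
      have := hc (Metric.closedBall_mem_nhds (b (m p)) (show 0 < δ / 4 by positivity))
      filter_upwards [this] with z hz
      exact f.one_of_mem_closedBall hz
    · have hc : ContinuousWithinAt (fun z => b (m z)) L q := by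
        have : ContinuousOn (fun z => b (m z)) (box3 t0 t1 y0 y1) :=
          (h.cont b hb).comp hm.continuousOn hmb
        exact (this q hq.1.1).mono (fun z hz => hz.1.1)
      have := hc (Metric.ball_mem_nhds (b (m q)) (show 0 < δ / 2 by positivity))
      filter_upwards [this] with z hz
      apply f.zero_of_le_dist
      have h1 : dist (b (m z)) (b (m q)) < δ / 2 := hz
      have h2 : δ = dist (b (m p)) (b (m q)) := by rw [hδd, Real.dist_eq]
      have h3 := dist_triangle (b (m p)) (b (m z)) (b (m q))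
      show δ / 2 ≤ dist (b (m z)) (b (m p))
      rw [dist_comm (b (m z)) (b (m p))]
      linarith
  have hpair : ∀ p ∈ K, ∀ q ∈ L, ∃ ψ ∈ (TT A : Set (ℝ × (ℝ × ℝ) → ℝ)),
      (∀ᶠ z in 𝓝[K] p, ψ z = 1) ∧ ∀ᶠ z in 𝓝[L] q, ψ z = 0 := by
    intro p hp q hq
    by_cases c1 : ∃ b ∈ A, b (p.1, p.2.1) ≠ b (q.1, q.2.1)
    · obtain ⟨b, hb, hne1⟩ := c1
      exact hbump b hb (fun p => (p.1, p.2.1)) (by fun_prop) (fun p hp => ⟨hp.1, hp.2.1⟩)
        (fun c hc => TT_fst h hc) p hp q hq hne1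
    by_cases c2 : ∃ b ∈ A, b (p.1, p.2.2) ≠ b (q.1, q.2.2)
    · obtain ⟨b, hb, hne1⟩ := c2
      exact hbump b hb (fun p => (p.1, p.2.2)) (by fun_prop) (fun p hp => ⟨hp.1, hp.2.2⟩)
        (fun c hc => TT_snd h hc) p hp q hq hne1
    exfalso
    push Not at c1 c2
    have l1 : p.2.2 < p.2.1 := lt_of_le_of_ne hp.2 (hne p hp.1.2).symm
    have l2 : q.2.1 < q.2.2 := lt_of_le_of_ne hq.2 (hne q hq.1.2)
    have := ord p.1 hp.1.1.1 q.1 hq.1.1.1 p.2.1 hp.1.1.2.1 p.2.2 hp.1.1.2.2 q.2.1 hq.1.1.2.1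
      q.2.2 hq.1.1.2.2 l1 l2 c1 c2 a ha
    have h0 : e p = 0 := by simp only [he]; rw [this]; ring
    have h1 : d ≤ |e p| := hp.1.2
    rw [h0, abs_zero] at h1
    linarith
  obtain ⟨κ, hκ, h1, h2⟩ := exists_sep (T := (TT A : Set (ℝ × (ℝ × ℝ) → ℝ))) (TT_const h 1)
    (fun f hf g hg => TT_mul h hf hg) (fun f hf g hg => sub_mem hf hg) hK hL hpair
  refine ⟨(2 : ℝ) • κ - fun _ => 1, sub_mem (Submodule.smul_mem _ _ hκ) (TT_const h 1), ?_⟩
  intro t ht y hy y' hy' hdd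
  have hbox : (t, (y, y')) ∈ box3 t0 t1 y0 y1 := ⟨ht, hy, hy'⟩
  simp only [Pi.sub_apply, Pi.smul_apply, smul_eq_mul]
  rcases lt_trichotomy y' y with hlt | heq | hlt
  · rw [h1 (t, (y, y')) ⟨⟨hbox, hdd⟩, hlt.le⟩]
    simp [sg, hlt]
    norm_num
  · exact absurd heq.symm (hne (t, (y, y')) hdd)
  · rw [h2 (t, (y, y')) ⟨⟨hbox, hdd⟩, hlt.le⟩]
    simp [sg, hlt, hlt.not_gt]

/-- order convexity from convex fibres of a map `π` -/
theorem ord_of_convex {S : Type*} (π : ℝ × ℝ → S)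
    (hA : ∀ b ∈ A, ∀ p q : ℝ × ℝ, π p = π q → b p = b q)
    (sep : ∀ p ∈ Icc t0 t1 ×ˢ Icc y0 y1, ∀ q ∈ Icc t0 t1 ×ˢ Icc y0 y1,
      (∀ b ∈ A, b p = b q) → π p = π q)
    (fib : ∀ p q : ℝ × ℝ, π p = π q → ∀ r ∈ segment ℝ p q, π r = π p) :
    ∀ t ∈ Icc t0 t1, ∀ s ∈ Icc t0 t1, ∀ y ∈ Icc y0 y1, ∀ y' ∈ Icc y0 y1,
      ∀ u ∈ Icc y0 y1, ∀ u' ∈ Icc y0 y1, y' < y → u < u' →
      (∀ b ∈ A, b (t, y) = b (s, u)) → (∀ b ∈ A, b (t, y') = b (s, u')) →
      ∀ b ∈ A, b (t, y) = b (t, y') := by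
  intro t ht s hs y hy y' hy' u hu u' hu' l1 l2 e1 e2 b hb
  have p1 : π (t, y) = π (s, u) := sep _ ⟨ht, hy⟩ _ ⟨hs, hu⟩ e1
  have p2 : π (t, y') = π (s, u') := sep _ ⟨ht, hy'⟩ _ ⟨hs, hu'⟩ e2
  -- the crossing point
  set c : ℝ := (y - y') / ((y - y') + (u' - u)) with hc
  have hden : 0 < (y - y') + (u' - u) := by linarith
  have hc0 : 0 ≤ c := div_nonneg (by linarith) hden.le
  have hc1 : c ≤ 1 := by rw [hc, div_le_one hden]; linarith
  set r : ℝ × ℝ := ((1 - c) * t + c * s, (1 - c) * y + c * u) with hr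
  have hcr : (1 - c) * y + c * u = (1 - c) * y' + c * u' := by
    rw [hc]
    field_simp
    ring
  have r1 : r ∈ segment ℝ ((t, y) : ℝ × ℝ) (s, u) :=
    ⟨1 - c, c, by linarith, hc0, by ring, by simp [hr]⟩
  have r2 : r ∈ segment ℝ ((t, y') : ℝ × ℝ) (s, u') :=
    ⟨1 - c, c, by linarith, hc0, by ring, by simp [hr, hcr]⟩
  have := (fib _ _ p1 r r1).symm.trans (fib _ _ p2 r r2)
  exact hA b hb _ _ this

/-- FINAL FORM: planarity from `el` and convex fibres -/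
theorem acl_of_fibres (h : Slab A D t0 t1 y0 y1) (hy : y0 ≤ y1)
    (comp : ∀ b ∈ A, ∀ τ : ℝ → ℝ, ContDiff ℝ ∞ τ → (∃ K, LipschitzWith K τ) →
      HasCompactSupport τ → (fun p => τ (b p)) ∈ A)
    {S : Type*} (π : ℝ × ℝ → S)
    (hA : ∀ b ∈ A, ∀ p q : ℝ × ℝ, π p = π q → b p = b q)
    (sep : ∀ p ∈ Icc t0 t1 ×ˢ Icc y0 y1, ∀ q ∈ Icc t0 t1 ×ˢ Icc y0 y1,
      (∀ b ∈ A, b p = b q) → π p = π q)
    (fib : ∀ p q : ℝ × ℝ, π p = π q → ∀ r ∈ segment ℝ p q, π r = π p)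
    {a : ℝ × ℝ → ℝ} (ha : a ∈ A) :
    ∀ᵐ y ∂((volume : Measure ℝ).restrict (Icc y0 y1)),
      IntegrableOn (fun s => D a (s, y)) (Icc t0 t1) ∧
      ∀ t ∈ Icc t0 t1, ∀ t' ∈ Icc t0 t1, a (t', y) - a (t, y) = ∫ s in t..t', D a (s, y) :=
  acl h hy (signK_of_ord h comp (ord_of_convex π hA sep fib)) ha

end Crest.Agent.R105.Prod_412
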