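import Mathlib
import Crest.Agent.R105.Ni0_459
import Crest.Agent.R105.Pln0_868
import Crest.Agent.R105.Prod9_412
import Crest.Agent.R105.Thin1_12
import Crest.Agent.R105.SkJ2_987
import Crest.Agent.R105.Psq0_425

-- ▼ part R105/Cdf1_377
section

/-!
# Row 105, S0138 (NI frame): the stream function on a compact family of hairs has null joint image

`psi = G ∘ x` on the family (`G` monotone, `x` = abscissa of the hair), `u` = any measurable
function of the hair: off countably many values of `G` the hair is determined by the value of `G`,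
so `{(u K, psi K)}` lies in a measurable graph over the second axis and countably many horizontal
lines: it is Lebesgue null.  (Replaces NULLIM: nothing is asked of `u`.)
-/

set_option autoImplicit false

open MeasureTheory Set

namespace Crest.Agent.R105.Cdf_377

/-- the graph of a measurable function over the second axis is null -/
theorem volume_graph_snd {f : ℝ → ℝ} (hf : Measurable f) :
    volume {p : ℝ × ℝ | p.1 = f p.2} = 0 := by
  have hm : MeasurableSet {p : ℝ × ℝ | p.1 = f p.2} :=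
    measurableSet_eq_fun measurable_fst (hf.comp measurable_snd)
  rw [Measure.volume_eq_prod, Measure.prod_apply_symm hm]
  simp

/-- the values which a monotone function takes more than once are countable -/
theorem countable_plateau {G : ℝ → ℝ} (hG : Monotone G) :
    {w | ∃ s s', s < s' ∧ G s = w ∧ G s' = w}.Countable := by
  refine ((countable_range ((↑) : ℚ → ℝ)).image G).mono ?_
  rintro w ⟨s, s', hlt, h1, h2⟩
  obtain ⟨q, hq1, hq2⟩ := exists_rat_btwn hlt
  exact ⟨q, mem_range_self q, le_antisymm ((hG hq2.le).trans h2.le) (h1.symm.le.trans (hG hq1.le))⟩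

/-- horizontal lines at countably many heights are null -/
theorem volume_snd_countable {D : Set ℝ} (hD : D.Countable) :
    volume {p : ℝ × ℝ | p.2 ∈ D} = 0 := by
  have : {p : ℝ × ℝ | p.2 ∈ D} = univ ×ˢ D := by ext p; simp
  rw [this, Measure.volume_eq_prod, Measure.prod_prod, hD.measure_zero, mul_zero]

/-- generalised inverse on `[a, b]` -/
noncomputable def inv (G : ℝ → ℝ) (a b w : ℝ) : ℝ := sSup ({a} ∪ {s | s ∈ Icc a b ∧ G s ≤ w})

theorem inv_mono (G : ℝ → ℝ) {a b : ℝ} (hab : a ≤ b) : Monotone (inv G a b) := by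
  intro w w' h
  refine csSup_le_csSup ⟨b, ?_⟩ ⟨a, Or.inl rfl⟩ (union_subset_union_right _ ?_)
  · rintro s (hs | hs)
    · rw [mem_singleton_iff] at hs; rw [hs]; exact hab
    · exact hs.1.2
  · rintro s ⟨h1, h2⟩
    exact ⟨h1, h2.trans h⟩

theorem inv_eq {G : ℝ → ℝ} (hG : Monotone G) {a b s : ℝ} (hs : s ∈ Icc a b)
    (hD : ∀ s', s < s' → G s' ≠ G s) : inv G a b (G s) = s := by
  refine IsGreatest.csSup_eq ⟨Or.inr ⟨hs, le_rfl⟩, ?_⟩
  rintro r (hr | ⟨_, hr⟩)
  · rw [mem_singleton_iff] at hr; rw [hr]; exact hs.1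
  · by_contra hlt
    rw [not_le] at hlt
    exact hD r hlt (le_antisymm hr (hG hlt.le))

/-- **joint image of a measurable function and a monotone function of one variable**, compact
range -/
theorem volume_image_Icc {v G : ℝ → ℝ} (hv : Measurable v) (hG : Monotone G) (a b : ℝ) :
    volume ((fun s => (v s, G s)) '' Icc a b) = 0 := by
  rcases lt_or_ge b a with hab | hab
  · rw [Icc_eq_empty (not_le.2 hab)]; simp
  have hf : Measurable (fun w => v (inv G a b w)) := hv.comp (inv_mono G hab).measurable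
  refine measure_mono_null ?_ (measure_union_null (volume_graph_snd hf)
    (volume_snd_countable (countable_plateau hG)))
  rintro _ ⟨s, hs, rfl⟩
  by_cases hD : ∀ s', s < s' → G s' ≠ G s
  · left
    show v s = v (inv G a b (G s))
    rw [inv_eq hG hs hD]
  · right
    push Not at hD
    obtain ⟨s', h1, h2⟩ := hD
    exact ⟨s, s', h1, rfl, h2⟩

/-- **joint image of a measurable function and a monotone function of one variable is null** -/
theorem volume_image {v G : ℝ → ℝ} (hv : Measurable v) (hG : Monotone G) :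
    volume (range fun s => (v s, G s)) = 0 := by
  refine measure_mono_null ?_ ((measure_iUnion_null_iff
    (s := fun n : ℕ => (fun s => (v s, G s)) '' Icc (-(n : ℝ)) n)).2
    fun n => volume_image_Icc hv hG _ _)
  rintro _ ⟨s, rfl⟩
  obtain ⟨n, hn⟩ := exists_nat_ge |s|
  exact mem_iUnion.2 ⟨n, s, abs_le.1 hn, rfl⟩

theorem volume_image_anti {v G : ℝ → ℝ} (hv : Measurable v) (hG : Antitone G) :
    volume (range fun s => (v s, G s)) = 0 := by
  have h := volume_image (v := fun s => v (-s)) (hv.comp measurable_neg)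
    (G := fun s => G (-s)) (fun s s' hs => hG (neg_le_neg hs))
  refine measure_mono_null ?_ h
  rintro _ ⟨s, rfl⟩
  exact ⟨-s, by simp⟩

/-- **NULL JOINT IMAGE ON A FAMILY** `X` = a type of components, `x` = abscissa, `psi = G ∘ x` with
`G` monotone (the distribution function of the flux), `u K = v (x K)` with `v` measurable
(`v s = up (s, B)` for a level `B` crossed by the whole family, `up` upper semicontinuous). -/
theorem volume_family {X : Type*} (S : Set X) {x u ψ : X → ℝ} {v G : ℝ → ℝ} (hv : Measurable v)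
    (hG : Monotone G ∨ Antitone G) (hu : ∀ K ∈ S, u K = v (x K)) (hψ : ∀ K ∈ S, ψ K = G (x K)) :
    volume ((fun K => (u K, ψ K)) '' S) = 0 := by
  have h : volume (range fun s => (v s, G s)) = 0 := by
    rcases hG with h | h
    · exact volume_image hv h
    · exact volume_image_anti hv h
  refine measure_mono_null ?_ h
  rintro _ ⟨K, hK, rfl⟩
  exact ⟨x K, by simp [hu K hK, hψ K hK]⟩


end Crest.Agent.R105.Cdf_377
end

-- ▼ part R105/Cdf2_377
section

/-!
# Row 105, S0138 (NI frame): the admissibility of the stream function of a hair family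

`NPon Y a b F` = the part of `NP Y a b` over `F`.
* `volume_NPon_family`: on a family of components which cross the height `B` and on which
  `psi = G ∘ re` with `G` monotone, the joint image with ANY `u` is null (`up Y u` is u.s.c.)
* `NI.of_local`: `NI` is a germwise, countably local condition
* `NI.of_family`: the two together: `NI Y u psi` for the stream function of a hair family
-/

set_option autoImplicit false

open MeasureTheory Set Filter Topology Metric

namespace Crest.Agent.R105.Cdf_377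

open Ni_459 Crest.AnalysisR

variable {Y F : Set ℂ} {a b u ψ : ℂ → ℝ}

/-- values over `F` at the components where neither `a` nor `b` jumps -/
def NPon (Y : Set ℂ) (a b : ℂ → ℝ) (F : Set ℂ) : Set (ℝ × ℝ) :=
  {p | ∃ z ∈ F, lo Y a z = p.1 ∧ up Y a z = p.1 ∧ lo Y b z = p.2 ∧ up Y b z = p.2}






/-- **measurability of the envelope along a horizontal line** -/
theorem measurable_up_line (hY : IsExteriorDomain Yᶜ) (hu : LB u) (B : ℝ) :
    Measurable fun s : ℝ => up Y u (⟨s, B⟩ : ℂ) := by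
  have h1 : Measurable (up Y u) := (usc_up hY hu).measurable
  have h2 : Measurable fun s : ℝ => (⟨s, B⟩ : ℂ) := by
    have : (fun s : ℝ => (⟨s, B⟩ : ℂ)) = fun s : ℝ => (s : ℂ) + (B : ℂ) * Complex.I := by
      funext s
      apply Complex.ext <;> simp
    rw [this]
    exact (Complex.measurable_ofReal.add measurable_const)
  exact h1.comp h2

/-- **(1) the stream function of a hair family: null joint image on the family, for every `u`.**
`g` = union of the family, `hB` = the component of each point contains the point of the height `B`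
with the same abscissa (vertical segments which cross the height `B`) -/
theorem volume_NPon_family (hY : IsExteriorDomain Yᶜ) (hu : LB u) {g : Set ℂ} {B : ℝ} {G : ℝ → ℝ}
    (hG : Monotone G ∨ Antitone G) (hgY : g ⊆ Y)
    (hB : ∀ z ∈ g, (⟨z.re, B⟩ : ℂ) ∈ connectedComponentIn Y z)
    (hψ : ∀ z ∈ g, lo Y ψ z = up Y ψ z → up Y ψ z = G z.re) : volume (NPon Y u ψ g) = 0 := by
  have h := volume_family (X := ℂ) {z ∈ g | lo Y ψ z = up Y ψ z} (x := fun z => z.re)
    (u := up Y u) (ψ := up Y ψ) (measurable_up_line hY hu B) hG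
    (fun z hz => (up_congr_cc (hgY hz.1) (hB z hz.1)).symm) (fun z hz => hψ z hz.1 hz.2)
  refine measure_mono_null ?_ h
  rintro p ⟨z, hz, -, h1, h3, h2⟩
  exact ⟨z, ⟨hz, h3.trans h2.symm⟩, Prod.ext h1 h2⟩




end Crest.Agent.R105.Cdf_377
namespace Crest.Agent.R105.Cdf_377.NI
end Crest.Agent.R105.Cdf_377.NI
end

-- ▼ part R105/Plh1_412
section

/-! Row 105 (helper412): `PicAlg` (868) ⟹ horizontal absolute continuity, part 1: cut-offs,
the classes of `A`, order. -/

open MeasureTheory Set Filter Topology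
open scoped ContDiff NNReal

namespace Crest.Agent.R105.Plh_412

open Pln_868 CF_363

/-- Lipschitz cut-off between a compact and a closed set -/
theorem exists_cutoff {K L : Set (ℝ × ℝ)} (hK : IsCompact K) (hL : IsClosed L)
    (hd : Disjoint K L) : ∃ κ : ℝ × ℝ → ℝ, (∃ C, LipschitzWith C κ) ∧ HasCompactSupport κ ∧
      (∀ p, 0 ≤ κ p ∧ κ p ≤ 1) ∧ (∃ U, IsOpen U ∧ K ⊆ U ∧ ∀ p ∈ U, κ p = 1) ∧
      ∃ V, IsOpen V ∧ L ⊆ V ∧ ∀ p ∈ V, κ p = 0 := by
  rcases K.eq_empty_or_nonempty with rfl | hne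
  · refine ⟨fun _ => 0, ⟨0, LipschitzWith.const 0⟩, HasCompactSupport.zero,
      fun p => ⟨le_rfl, zero_le_one⟩, ⟨∅, isOpen_empty, Subset.rfl, by simp⟩,
      ⟨univ, isOpen_univ, subset_univ _, fun p _ => rfl⟩⟩
  obtain ⟨δ, hδ, hdis⟩ := hd.exists_thickenings hK hL
  set κ : ℝ × ℝ → ℝ := fun p => max 0 (min 1 (2 - 3 / δ * Metric.infDist p K)) with hκ
  have hlip : LipschitzWith (Real.toNNReal (3 / δ)) κ := by
    have h0 : LipschitzWith 1 (fun p : ℝ × ℝ => Metric.infDist p K) := Metric.lipschitz_infDist_pt K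
    have h1 : LipschitzWith (Real.toNNReal (3 / δ)) (fun x : ℝ => 2 - 3 / δ * x) := by
      apply LipschitzWith.of_dist_le_mul
      intro x y
      rw [Real.dist_eq, Real.dist_eq, Real.coe_toNNReal _ (by positivity),
        show 2 - 3 / δ * x - (2 - 3 / δ * y) = 3 / δ * (y - x) by ring, abs_mul,
        abs_of_pos (show 0 < 3 / δ by positivity), abs_sub_comm]
    have h2 := (h1.comp h0)
    rw [mul_one] at h2
    exact (h2.const_min 1).const_max 0
  have hout : ∀ p, 2 * δ / 3 ≤ Metric.infDist p K → κ p = 0 := by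
    intro p hp
    simp only [hκ]
    have : 2 - 3 / δ * Metric.infDist p K ≤ 0 := by
      have h1 : 3 / δ * (2 * δ / 3) = 2 := by field_simp
      have h2 : 3 / δ * (2 * δ / 3) ≤ 3 / δ * Metric.infDist p K :=
        mul_le_mul_of_nonneg_left hp (by positivity)
      linarith
    rw [max_eq_left]
    exact (min_le_right _ _).trans this
  refine ⟨κ, ⟨_, hlip⟩, ?_, ?_, ⟨{p | Metric.infDist p K < δ / 3}, ?_, ?_, ?_⟩,
    ⟨{p | 2 * δ / 3 < Metric.infDist p K}, ?_, ?_, ?_⟩⟩
  · apply HasCompactSupport.of_support_subset_isCompact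
      (K := Metric.cthickening δ K) (hK.cthickening)
    intro p hp
    by_contra hnot
    apply hp
    apply hout
    have h1 : p ∉ Metric.thickening δ K := fun h1 =>
      hnot (Metric.thickening_subset_cthickening δ K h1)
    rw [Metric.mem_thickening_iff_infDist_lt hne] at h1
    push Not at h1
    linarith
  · intro p
    exact ⟨le_max_left _ _, max_le zero_le_one (min_le_left _ _)⟩
  · exact isOpen_lt (Metric.continuous_infDist_pt K) continuous_const
  · intro p hp
    have : Metric.infDist p K = 0 := Metric.infDist_zero_of_mem hp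
    simp only [mem_ofPred_eq, this]
    positivity
  · intro p hp
    simp only [hκ]
    have h1 : 1 ≤ 2 - 3 / δ * Metric.infDist p K := by
      have h1 : 3 / δ * (δ / 3) = 1 := by field_simp
      have h2 : 3 / δ * Metric.infDist p K ≤ 3 / δ * (δ / 3) :=
        mul_le_mul_of_nonneg_left (le_of_lt hp) (by positivity)
      linarith
    rw [min_eq_left h1, max_eq_right zero_le_one]
  · exact isOpen_lt continuous_const (Metric.continuous_infDist_pt K)
  · intro p hp
    have h1 : p ∉ Metric.thickening δ K := fun h =>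
      (Set.disjoint_left.mp hdis h) (Metric.self_subset_thickening hδ L hp)
    rw [Metric.mem_thickening_iff_infDist_lt hne] at h1
    push Not at h1
    simp only [mem_ofPred_eq]
    linarith
  · intro p hp
    exact hout p (le_of_lt hp)


variable {E : Set (ℝ × ℝ)} {A : (ℝ × ℝ → ℝ) → Prop}









end Crest.Agent.R105.Plh_412
end

-- ▼ part R105/SkJ3_987

/-!
# Row 105, S0138: stream functions of Lemma A are admissible (helper987)

* `TCont E f o`  : continuity off `E`, boundedness, oscillation profile in `ℓ²`;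
* `PLAP`         : leaf: planar limits with `TCont` are admissible;
* `off_null`     : the joint image of an anchor and a stream function is null off the family
                   (countably many clopen pieces, `κ f`);
* `strq_adm`     : with the strip half: null image.
-/

set_option autoImplicit false

open MeasureTheory Set Filter Topology Metric
open scoped NNReal ENNReal ContDiff

namespace Crest.Agent.R105.SkJ_987

open Crest.AnalysisR Tc_808 Ni_459 Ends_897
open Sqr_185 (wd)
open Bd_775 (Q)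
open IfB_641 (X0)
open Cq_463 (Sqr QPic)
open CF_363 (Hair)
open Skp2_257 (Comps Reg)
open Tra_937 (setR setC toC Uni)
open Pct_185 (PicT Sol)
open Exs_992 (PicS LimOf)
open Stp_722 (OscLe)
open Ta_937 (sqs hrs)
open SkT1_137 (TFin StrT LEMAQ STEPQ)
open Nal_649 (FamQ)
open SkA_8 (Pk)
open Psq_425 (LimAt PlaLim)
open Cdf_377 (NPon)

noncomputable section

/-- regularity of a planar limit -/
structure TCont (E : Set (ℝ × ℝ)) (f : ℝ × ℝ → ℝ) (o : Set (ℝ × ℝ) → ℝ) : Prop where
  cont : ContinuousOn f Eᶜ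
  bdd : ∃ C : ℝ, ∀ p, |f p| ≤ C
  nn : ∀ P ∈ Comps E, 0 ≤ o P
  osc : ∀ P ∈ Comps E, OscLe Eᶜ P f (o P)
  sum : Summable fun P : Comps E => o P.1 ^ 2


/-! ### envelopes of asymptotically equal functions -/

section env
variable {E : Set ℂ} {a b u : ℂ → ℝ} {z : ℂ}

theorem up_le_of_close (hE : IsExteriorDomain Eᶜ) (ha : LB a) (hb : LB b)
    (h : ∀ ε > 0, ∃ O, Nb E z O ∧ ∀ w ∈ O, w ∉ E → |a w - b w| ≤ ε) : up E a z ≤ up E b z := by
  refine le_of_forall_pos_le_add fun ε hε => ?_
  obtain ⟨O, hO, h1⟩ := h (ε / 2) (by positivity)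
  obtain ⟨P, hP, h2⟩ := exists_lt_of_up_lt hE hb (show up E b z < up E b z + ε / 2 by linarith)
  refine up_le hE ha (hO.inter hP) fun w hw hwE => ?_
  have h3 := (abs_le.1 (h1 w hw.1 hwE)).2
  have h4 := h2 w hw.2 hwE
  linarith

theorem up_eq_of_close' (hE : IsExteriorDomain Eᶜ) (ha : LB a) (hb : LB b)
    (h : ∀ ε > 0, ∃ O, Nb E z O ∧ ∀ w ∈ O, w ∉ E → |a w - b w| ≤ ε) : up E a z = up E b z := by
  refine le_antisymm (up_le_of_close hE ha hb h) (up_le_of_close hE hb ha fun ε hε => ?_)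
  obtain ⟨O, hO, h1⟩ := h ε hε
  exact ⟨O, hO, fun w hw hwE => by rw [abs_sub_comm]; exact h1 w hw hwE⟩

theorem lo_eq_of_close' (hE : IsExteriorDomain Eᶜ) (ha : LB a) (hb : LB b)
    (h : ∀ ε > 0, ∃ O, Nb E z O ∧ ∀ w ∈ O, w ∉ E → |a w - b w| ≤ ε) : lo E a z = lo E b z := by
  unfold lo
  rw [up_eq_of_close' hE ha.neg hb.neg fun ε hε => ?_]
  obtain ⟨O, hO, h1⟩ := h ε hε
  refine ⟨O, hO, fun w hw hwE => ?_⟩
  have := h1 w hw hwE
  rwa [show -a w - -b w = -(a w - b w) by ring, abs_neg]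

end env

/-! ### components of the two planes -/

variable {E : Set ℂ} {g : Set (Set (ℝ × ℝ))} {ψ f : ℝ × ℝ → ℝ} {u : ℂ → ℝ} {𝒬 : Set Sqr}

/-- the component of `z` in the picture plane -/
def pc (E : Set ℂ) (z : ℂ) : Set (ℝ × ℝ) := setR (connectedComponentIn E z)

theorem pc_mem {z : ℂ} (hz : z ∈ E) : pc E z ∈ Comps (setR E) :=
  Ta_937.mem_comps.2 ⟨Cmp.of hz, rfl⟩

theorem mem_pc {z : ℂ} (hz : z ∈ E) : (z.re, z.im) ∈ pc E z :=
  show (⟨z.re, z.im⟩ : ℂ) ∈ connectedComponentIn E z from mem_connectedComponentIn hz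

theorem pc_eq {z : ℂ} (hz : z ∈ E) : pc E z = connectedComponentIn (setR E) (z.re, z.im) := by
  have h : (z.re, z.im) ∈ setR E := hz
  rw [Ta_937.cc_setR h]
  rfl

/-- open sets of the picture plane around the component are neighbourhoods -/
theorem nb_of_pc {z : ℂ} (hz : z ∈ E) {O : Set (ℝ × ℝ)} (hO : IsOpen O) (h : pc E z ⊆ O) :
    Nb E z (setC O) :=
  nb_of_mem hz (Tra_937.isOpen_setC.2 hO) fun w hw => h (show (w.re, w.im) ∈ pc E z from hw)

theorem comps_eq {R : Set (ℝ × ℝ)} {P P' : Set (ℝ × ℝ)} (hP : P ∈ Comps R) (hP' : P' ∈ Comps R)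
    {p : ℝ × ℝ} (h : p ∈ P) (h' : p ∈ P') : P = P' := by
  obtain ⟨x, hx, rfl⟩ := hP
  obtain ⟨x', hx', rfl⟩ := hP'
  rw [connectedComponentIn_eq h, connectedComponentIn_eq h']

/-! ### the off half -/

theorem plaLim_bdd {R : Set (ℝ × ℝ)} (h : PlaLim R 𝒬 f) : ∃ C : ℝ, ∀ p ∉ R, |f p| ≤ C := by
  obtain ⟨fn, -, -, ⟨C, hC⟩, hlim, -⟩ := h
  exact ⟨C, fun p hp => le_of_tendsto (hlim p hp).abs (Eventually.of_forall fun n => hC n p)⟩

theorem plaLim_congr {R : Set (ℝ × ℝ)} {f' : ℝ × ℝ → ℝ} (h : PlaLim R 𝒬 f)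
    (he : ∀ p ∉ R, f' p = f p) : PlaLim R 𝒬 f' := by
  obtain ⟨fn, h1, h2, h3, hlim, h5⟩ := h
  exact ⟨fn, h1, h2, h3, fun p hp => by rw [he p hp]; exact hlim p hp, h5⟩

open Classical in
/-- **the off half**: off the family the joint image is null -/
theorem off_null (hE : IsExteriorDomain Eᶜ) (hψ : LB (toC ψ)) {o : Set (ℝ × ℝ) → ℝ}
    (hnn : ∀ P ∈ Comps (setR E), 0 ≤ o P)
    (hosc : ∀ P ∈ Comps (setR E), OscLe (setR E)ᶜ P ψ (o P))
    (hsum : Summable fun P : Comps (setR E) => o P.1 ^ 2)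
    (hgs : g ⊆ Comps (setR E)) (hgc : IsCompact (⋃₀ g)) (hfc : ContinuousOn f (setR E)ᶜ)
    (hlim : ∀ P ∈ Comps (setR E), LimAt (setR E) P (fun p => ψ p - f p) 0)
    (hpla : ∀ (κ : ℝ × ℝ → ℝ) (L : ℝ≥0), LipschitzWith L κ → HasCompactSupport κ →
      (∃ O, IsOpen O ∧ ⋃₀ g ⊆ O ∧ ∀ p ∈ O, κ p = 0) → PlaLim (setR E) 𝒬 fun p => κ p * f p)
    (hNI : ∀ (f : ℝ × ℝ → ℝ) (o : Set (ℝ × ℝ) → ℝ), PlaLim (setR E) 𝒬 f → TCont (setR E) f o →
      NI E u (toC f)) :
    volume (NPon E u (toC ψ) {z | z ∈ E ∧ pc E z ∉ g}) = 0 := by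
  set R := setR E with hR
  have hEc : IsCompact E := cpt_of hE
  have hRc : IsCompact R := Ta_937.isCompact_setR hEc
  set G : Set (ℝ × ℝ) := ⋃₀ g with hG
  -- the clopen pieces
  let ι := {A : Set (ℝ × ℝ) // IsCompact A ∧ IsCompact (R \ A) ∧ A ⊆ R ∧ A ⊆ Gᶜ}
  obtain ⟨T, hTc, hT⟩ := TopologicalSpace.isOpen_iUnion_countable
    (fun A : ι => (R \ A.1)ᶜ) (fun A => A.2.2.1.isClosed.isOpen_compl)
  -- every component off the family is in one of the pieces of `T`
  have hcov : ∀ z ∈ E, pc E z ∉ g → ∃ A ∈ T, pc E z ⊆ A.1 := by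
    intro z hz hzg
    have hzR : (z.re, z.im) ∈ R := hz
    have hW : connectedComponentIn R (z.re, z.im) ⊆ Gᶜ := by
      rw [← pc_eq hz]
      rintro p hp ⟨P, hP, hpP⟩
      apply hzg
      rw [comps_eq (pc_mem hz) (hgs hP) hp hpP]
      exact hP
    obtain ⟨A, hA, hA', hAR, hcA, hAG⟩ := Thin_12.exists_clopen hRc hzR
      hgc.isClosed.isOpen_compl hW
    have h1 : (z.re, z.im) ∈ ⋃ A : ι, (R \ A.1)ᶜ := by
      refine mem_iUnion.2 ⟨⟨A, hA, hA', hAR, hAG⟩, fun hc => hc.2 ?_⟩
      exact hcA (mem_connectedComponentIn hzR)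
    rw [← hT] at h1
    obtain ⟨B, hB, hzB⟩ := mem_iUnion₂.1 h1
    have hzB' : (z.re, z.im) ∈ B.1 := by
      by_contra hc
      exact hzB ⟨hzR, hc⟩
    refine ⟨B, hB, ?_⟩
    have hcon : IsPreconnected (pc E z) := by
      rw [pc_eq hz]; exact isPreconnected_connectedComponentIn
    have hsub : pc E z ⊆ B.1 ∪ (R \ B.1) := by
      intro p hp
      have hpR : p ∈ R := by
        have h2 : pc E z ⊆ R := by rw [pc_eq hz]; exact connectedComponentIn_subset _ _
        exact h2 hp
      by_cases h : p ∈ B.1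
      · exact Or.inl h
      · exact Or.inr ⟨hpR, h⟩
    rcases isPreconnected_iff_subset_of_disjoint_closed.1 hcon _ _ B.2.1.isClosed
      B.2.2.1.isClosed hsub (by
        rw [eq_empty_iff_forall_notMem]
        rintro p ⟨-, h1, h2⟩
        exact h2.2 h1) with h | h
    · exact h
    · exact absurd hzB' (h (mem_pc hz)).2
  -- the functions `κ f`
  set f' : ℝ × ℝ → ℝ := fun p => if p ∈ R then 0 else f p with hf'
  have hf'R : ∀ p ∉ R, f' p = f p := fun p hp => if_neg hp
  have hex : ∀ A : ι, ∃ β : ℂ → ℝ, LB β ∧ NI E u β ∧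
      ∀ z ∈ E, pc E z ⊆ A.1 → ∀ ε > 0, ∃ O, Nb E z O ∧ ∀ w ∈ O, w ∉ E → |toC ψ w - β w| ≤ ε := by
    intro A
    obtain ⟨κ, ⟨L, hκ⟩, hκc, hκ01, ⟨O₁, hO₁, hAO₁, h1⟩, ⟨O₀, hO₀, hRO₀, h0⟩⟩ :=
      Plh_412.exists_cutoff A.2.1 A.2.2.1.isClosed disjoint_sdiff_self_right
    have hGO : ⋃₀ g ⊆ O₀ := by
      intro p hp
      refine hRO₀ ⟨?_, fun hc => A.2.2.2.2 hc hp⟩
      obtain ⟨P, hP, hpP⟩ := hp
      obtain ⟨x, hx, rfl⟩ := hgs hP
      exact connectedComponentIn_subset _ _ hpP
    have hp0 := hpla κ L hκ hκc ⟨O₀, hO₀, hGO, h0⟩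
    have hp1 : PlaLim R 𝒬 (fun p => κ p * f' p) := plaLim_congr hp0 fun p hp => by rw [hf'R p hp]
    obtain ⟨C, hC⟩ := plaLim_bdd hp1
    have hbdd : ∃ C : ℝ, ∀ p, |κ p * f' p| ≤ C := by
      refine ⟨max C 0, fun p => ?_⟩
      by_cases hp : p ∈ R
      · simp only [hf', if_pos hp, mul_zero, abs_zero]; exact le_max_right _ _
      · exact (hC p hp).trans (le_max_left _ _)
    set oA : Set (ℝ × ℝ) → ℝ := fun P => if P ⊆ A.1 then o P else 0 with hoA
    have hTC : TCont R (fun p => κ p * f' p) oA := by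
      refine ⟨?_, hbdd, ?_, ?_, ?_⟩
      · refine hκ.continuous.continuousOn.mul ?_
        exact hfc.congr fun p hp => hf'R p hp
      · intro P hP
        simp only [hoA]
        split_ifs
        · exact hnn P hP
        · exact le_rfl
      · intro P hP
        by_cases hPA : P ⊆ A.1
        · simp only [hoA, if_pos hPA]
          intro ε hε
          obtain ⟨O, hO, hPO, h2⟩ := hosc P hP (ε / 3) (by positivity)
          obtain ⟨O', hO', hPO', h3⟩ := hlim P hP (ε / 3) (by positivity)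
          refine ⟨O ∩ O' ∩ O₁, (hO.inter hO').inter hO₁,
            subset_inter (subset_inter hPO hPO') (hPA.trans hAO₁), ?_⟩
          rintro q ⟨⟨⟨hq1, hq2⟩, hq3⟩, hqR⟩ q' ⟨⟨⟨hq1', hq2'⟩, hq3'⟩, hqR'⟩
          simp only [h1 q hq3, h1 q' hq3', one_mul, hf'R q hqR, hf'R q' hqR']
          have e1 := abs_le.1 (h2 q ⟨hq1, hqR⟩ q' ⟨hq1', hqR'⟩)
          have e2 := h3 q ⟨hq2, hqR⟩
          have e3 := h3 q' ⟨hq2', hqR'⟩
          rw [sub_zero] at e2 e3
          have e2' := abs_le.1 e2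
          have e3' := abs_le.1 e3
          rw [abs_le]
          constructor <;> linarith [e1.1, e1.2, e2'.1, e2'.2, e3'.1, e3'.2]
        · simp only [hoA, if_neg hPA]
          -- `P ⊆ R \ A`
          have hPR : P ⊆ R := by
            obtain ⟨x, hx, rfl⟩ := hP
            exact connectedComponentIn_subset _ _
          have hPc : IsPreconnected P := by
            obtain ⟨x, hx, rfl⟩ := hP
            exact isPreconnected_connectedComponentIn
          have hPB : P ⊆ R \ A.1 := by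
            have hsub : P ⊆ A.1 ∪ (R \ A.1) := by
              intro p hp
              by_cases h : p ∈ A.1
              · exact Or.inl h
              · exact Or.inr ⟨hPR hp, h⟩
            rcases isPreconnected_iff_subset_of_disjoint_closed.1 hPc _ _ A.2.1.isClosed
              A.2.2.1.isClosed hsub (by
                rw [eq_empty_iff_forall_notMem]
                rintro p ⟨-, h1, h2⟩
                exact h2.2 h1) with h | h
            · exact absurd h hPA
            · exact h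
          intro ε hε
          refine ⟨O₀, hO₀, hPB.trans hRO₀, ?_⟩
          rintro q ⟨hq, -⟩ q' ⟨hq', -⟩
          simp only [h0 q hq, h0 q' hq', zero_mul, sub_zero, abs_zero]
          linarith
      · refine Summable.of_nonneg_of_le (fun _ => sq_nonneg _) (fun P => ?_) hsum
        simp only [hoA]
        split_ifs
        · exact le_rfl
        · rw [zero_pow two_ne_zero]; exact sq_nonneg _
    refine ⟨toC fun p => κ p * f' p, ?_, hNI _ oA hp1 hTC, ?_⟩
    · obtain ⟨C, hC⟩ := hbdd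
      exact LB.of_bdd ⟨C, fun z => hC _⟩
    · intro z hz hzA ε hε
      obtain ⟨O', hO', hPO', h3⟩ := hlim _ (pc_mem hz) ε hε
      refine ⟨setC (O' ∩ O₁), nb_of_pc hz (hO'.inter hO₁)
        (subset_inter hPO' (hzA.trans hAO₁)), fun w hw hwE => ?_⟩
      have hw1 : (w.re, w.im) ∈ O' := hw.1
      have hw2 : (w.re, w.im) ∈ O₁ := hw.2
      have hwR : (w.re, w.im) ∉ R := hwE
      have h4 := h3 (w.re, w.im) ⟨hw1, hwR⟩
      rw [sub_zero] at h4
      show |ψ (w.re, w.im) - κ (w.re, w.im) * f' (w.re, w.im)| ≤ ε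
      rw [h1 _ hw2, one_mul, hf'R _ hwR]
      exact h4
  choose β hβ hβN hβc using hex
  refine measure_mono_null (t := ⋃ A ∈ T, NP E u (β A)) ?_
    ((measure_biUnion_null_iff hTc).2 fun A _ => hβN A)
  rintro p ⟨z, ⟨hz, hzg⟩, h1, h2, h3, h4⟩
  obtain ⟨A, hA, hzA⟩ := hcov z hz hzg
  refine mem_iUnion₂.2 ⟨A, hA, z, hz, h1, h2, ?_, ?_⟩
  · rw [← lo_eq_of_close' hE hψ (hβ A) (hβc A z hz hzA)]; exact h3
  · rw [← up_eq_of_close' hE hψ (hβ A) (hβc A z hz hzA)]; exact h4

/-! ### glue -/

/-- **the strip half**: vertical segments crossing a common level -/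
theorem strip_null (hE : IsExteriorDomain Eᶜ) (hu : LB u) (hψ : LB (toC ψ)) {Bm Bp : ℝ}
    (hg : FamQ (setR E) g Bm Bp)
    (hs : ∃ C : Set (Set (ℝ × ℝ)), C.Countable ∧ ∃ F : ℝ → ℝ, Antitone F ∧
      ∀ P ∈ g, P ∉ C → ∃ K : Hair, P = K.car ∧ LimAt (setR E) P ψ (F K.x)) :
    volume (NPon E u (toC ψ) {z | z ∈ E ∧ pc E z ∈ g}) = 0 := by
  classical
  obtain ⟨C, hC, F, hF, h⟩ := hs
  -- the members outside `C`
  have h1 : volume (NPon E u (toC ψ) {z | z ∈ E ∧ pc E z ∈ g ∧ pc E z ∉ C}) = 0 := by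
    have key : ∀ z ∈ {z | z ∈ E ∧ pc E z ∈ g ∧ pc E z ∉ C}, ∃ K : Hair, pc E z = K.car ∧
        LimAt (setR E) (pc E z) ψ (F K.x) ∧ K.x = z.re := by
      rintro z ⟨hz, hzg, hzC⟩
      obtain ⟨K, hK, hL⟩ := h _ hzg hzC
      refine ⟨K, hK, hL, ?_⟩
      have h2 : (z.re, z.im) ∈ K.car := by rw [← hK]; exact mem_pc hz
      exact (CF_363.Hair.mem_car.1 h2).1.symm
    refine Cdf_377.volume_NPon_family (B := Bm) (G := F) hE hu (Or.inr hF) (fun z hz => hz.1)
      (fun z hz => ?_) (fun z hz _ => ?_)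
    · obtain ⟨K, hK, -, hx⟩ := key z hz
      obtain ⟨⟨p, hp, hp2⟩, ⟨q, hq, hq2⟩⟩ := hg.crs _ hz.2.1
      have hlt := hg.lt
      rw [hK] at hp hq
      have hp' := CF_363.Hair.mem_car.1 hp
      have hq' := CF_363.Hair.mem_car.1 hq
      have : ((z.re, Bm) : ℝ × ℝ) ∈ pc E z := by
        rw [hK]
        exact CF_363.Hair.mem_car.2 ⟨hx.symm, by linarith [hp'.2.1], by linarith [hq'.2.2]⟩
      exact this
    · obtain ⟨K, hK, hL, hx⟩ := key z hz
      refine (up_eq_of_close hE hψ (z := z) (s := F z.re) fun ε hε => ?_).1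
      obtain ⟨O, hO, hPO, hc⟩ := hL ε hε
      refine ⟨setC O, nb_of_pc hz.1 hO hPO, fun w hw hwE => ?_⟩
      have h3 := hc (w.re, w.im) ⟨hw, hwE⟩
      rw [hx] at h3
      exact h3
  -- the countably many members in `C`
  have h2 : volume (NPon E u (toC ψ) {z | z ∈ E ∧ pc E z ∈ C}) = 0 := by
    have hcount : (NPon E u (toC ψ) {z | z ∈ E ∧ pc E z ∈ C}).Countable := by
      have hr : ∀ P ∈ C, ∀ z, z ∈ E → pc E z = P → ∀ z', z' ∈ E → pc E z' = P →
          connectedComponentIn E z' = connectedComponentIn E z := by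
        intro P _ z _ hzP z' _ hzP'
        exact setR_inj (hzP'.trans hzP.symm)
      let v : Set (ℝ × ℝ) → ℝ × ℝ := fun P =>
        if h : ∃ z, z ∈ E ∧ pc E z = P then (up E u h.choose, up E (toC ψ) h.choose) else 0
      refine (hC.image v).mono ?_
      rintro p ⟨z, ⟨hz, hzC⟩, -, h3, -, h4⟩
      refine ⟨pc E z, hzC, ?_⟩
      have hex : ∃ z', z' ∈ E ∧ pc E z' = pc E z := ⟨z, hz, rfl⟩
      simp only [v]
      rw [dif_pos hex]
      have h5 := hex.choose_spec
      have h6 : connectedComponentIn E hex.choose = connectedComponentIn E z :=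
        hr _ hzC z hz rfl _ h5.1 h5.2
      have h7 : hex.choose ∈ connectedComponentIn E z := by
        rw [← h6]; exact mem_connectedComponentIn h5.1
      rw [up_congr_cc hz h7, up_congr_cc hz h7, h3, h4]
    exact hcount.measure_zero _
  refine measure_mono_null ?_ (measure_union_null h1 h2)
  rintro p ⟨z, ⟨hz, hzg⟩, h'⟩
  by_cases hzC : pc E z ∈ C
  · exact Or.inr ⟨z, ⟨hz, hzC⟩, h'⟩
  · exact Or.inl ⟨z, ⟨hz, hzg, hzC⟩, h'⟩

variable {U : Set ℂ} {F : ℂ → ℂ} {x0 φ : ℂ → ℝ} {a : ℕ → ℂ → ℝ}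


end

end Crest.Agent.R105.SkJ_987
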