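import Mathlib
import Crest.Agent.R105.Nie2_909
import Crest.Agent.R105.Nie4_909

-- ▼ part R105/Nod1_281
section

/-!
# Row 105, S0138 (NI frame), node E13, NO NODE, part 1 (helper281)

The tent function `tent q R w = (1 - |w - q|_∞ / R)⁺`, its oscillation on a closed square, and the
count `Σ (chg)² ≤ 16` for disjoint squares meeting the box of radius `R` about `q`.
-/

set_option autoImplicit false

open MeasureTheory Set Filter Topology Metric
open scoped NNReal ENNReal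

namespace Crest.Agent.R105.Nod_281

noncomputable section

/-- sup norm -/
def nm (w : ℂ) : ℝ := max |w.re| |w.im|

/-- tent -/
def tent (q : ℂ) (R : ℝ) (w : ℂ) : ℝ := max 0 (1 - nm (w - q) / R)

/-- closed square -/
def CSq (c : ℂ) (r : ℝ) : Set ℂ := {w : ℂ | |w.re - c.re| ≤ r ∧ |w.im - c.im| ≤ r}

/-- open square -/
def OSq (c : ℂ) (r : ℝ) : Set ℂ := {w : ℂ | |w.re - c.re| < r ∧ |w.im - c.im| < r}

lemma nm_nonneg (w : ℂ) : 0 ≤ nm w := (abs_nonneg _).trans (le_max_left _ _)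

lemma nm_le_norm (w : ℂ) : nm w ≤ ‖w‖ :=
  max_le (Complex.abs_re_le_norm w) (Complex.abs_im_le_norm w)

lemma norm_le_nm (w : ℂ) : ‖w‖ ≤ 2 * nm w := by
  have h1 := Complex.norm_le_abs_re_add_abs_im w
  have h2 : |w.re| ≤ nm w := le_max_left _ _
  have h3 : |w.im| ≤ nm w := le_max_right _ _
  linarith

lemma nm_add_le (w w' : ℂ) : nm (w + w') ≤ nm w + nm w' := by
  refine max_le ?_ ?_
  · rw [Complex.add_re]
    exact (abs_add_le _ _).trans (add_le_add (le_max_left _ _) (le_max_left _ _))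
  · rw [Complex.add_im]
    exact (abs_add_le _ _).trans (add_le_add (le_max_right _ _) (le_max_right _ _))

lemma nm_neg (w : ℂ) : nm (-w) = nm w := by
  unfold nm; simp

lemma nm_le_add (w : ℂ) : nm w ≤ |w.re| + |w.im| :=
  max_le (le_add_of_nonneg_right (abs_nonneg _)) (le_add_of_nonneg_left (abs_nonneg _))

lemma nm_sq_le (w : ℂ) : nm w ^ 2 ≤ w.re ^ 2 + w.im ^ 2 := by
  unfold nm
  rcases max_choice |w.re| |w.im| with h | h <;> rw [h, sq_abs]
  · nlinarith [sq_nonneg w.im]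
  · nlinarith [sq_nonneg w.re]

lemma continuous_nm : Continuous nm := by
  unfold nm
  exact (Complex.continuous_re.abs).max (Complex.continuous_im.abs)

lemma abs_nm_sub_le (q w w' : ℂ) : |nm (w - q) - nm (w' - q)| ≤ nm (w - w') := by
  rw [abs_le]
  constructor
  · have h := nm_add_le (w - q) (w' - w)
    rw [show w - q + (w' - w) = w' - q by ring] at h
    have h2 : nm (w' - w) = nm (w - w') := by rw [← nm_neg]; congr 1; ring
    linarith
  · have h := nm_add_le (w' - q) (w - w')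
    rw [show w' - q + (w - w') = w - q by ring] at h
    linarith

section
variable {q : ℂ} {R : ℝ}

lemma tent_nonneg (w : ℂ) : 0 ≤ tent q R w := le_max_left _ _

lemma tent_le_one (hR : 0 < R) (w : ℂ) : tent q R w ≤ 1 := by
  refine max_le zero_le_one ?_
  have : 0 ≤ nm (w - q) / R := div_nonneg (nm_nonneg _) hR.le
  linarith

lemma tent_zero (hR : 0 < R) {w : ℂ} (h : R ≤ nm (w - q)) : tent q R w = 0 := by
  refine max_eq_left ?_
  have : 1 ≤ nm (w - q) / R := (one_le_div hR).2 h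
  linarith

lemma tent_ge (w : ℂ) : 1 - nm (w - q) / R ≤ tent q R w := le_max_right _ _

lemma tent_lip (hR : 0 < R) (w w' : ℂ) : |tent q R w - tent q R w'| ≤ nm (w - w') / R := by
  have h1 : |tent q R w - tent q R w'| ≤ |(1 - nm (w - q) / R) - (1 - nm (w' - q) / R)| := by
    unfold tent
    have := abs_max_sub_max_le_abs (0 : ℝ) (1 - nm (w - q) / R) (1 - nm (w' - q) / R)
    rw [max_comm 0, max_comm 0]
    simpa [max_comm] using abs_max_sub_max_le_abs (1 - nm (w - q) / R) (1 - nm (w' - q) / R) (0 : ℝ)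
  refine h1.trans ?_
  have h2 : (1 - nm (w - q) / R) - (1 - nm (w' - q) / R) = -((nm (w - q) - nm (w' - q)) / R) := by
    ring
  rw [h2, abs_neg, abs_div, abs_of_pos hR]
  gcongr
  exact abs_nm_sub_le q w w'

lemma continuous_tent : Continuous (tent q R) := by
  unfold tent
  exact continuous_const.max (continuous_const.sub
    ((continuous_nm.comp (continuous_id.sub continuous_const)).div_const _))

/-- the charge of a square -/
def chg (q : ℂ) (R : ℝ) (c : ℂ) (r : ℝ) : ℝ :=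
  open Classical in if ∃ w ∈ CSq c r, nm (w - q) < R then min 1 (2 * r / R) else 0

lemma chg_nonneg (hR : 0 < R) {c : ℂ} {r : ℝ} (hr : 0 ≤ r) : 0 ≤ chg q R c r := by
  unfold chg
  split_ifs
  · exact le_min zero_le_one (by positivity)
  · exact le_rfl

lemma tent_osc (hR : 0 < R) {c : ℂ} {r : ℝ} {w w' : ℂ} (hw : w ∈ CSq c r)
    (hw' : w' ∈ CSq c r) : |tent q R w - tent q R w'| ≤ chg q R c r := by
  unfold chg
  split_ifs with h
  · refine le_min ?_ ?_
    · rw [abs_le]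
      have h1 := tent_nonneg (q := q) (R := R) w
      have h2 := tent_nonneg (q := q) (R := R) w'
      have h3 := tent_le_one (q := q) hR w
      have h4 := tent_le_one (q := q) hR w'
      constructor <;> linarith
    · refine (tent_lip hR w w').trans ?_
      gcongr
      refine max_le ?_ ?_
      · rw [Complex.sub_re, abs_le]
        have h1 := abs_le.1 hw.1
        have h2 := abs_le.1 hw'.1
        constructor <;> linarith [h1.1, h1.2, h2.1, h2.2]
      · rw [Complex.sub_im, abs_le]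
        have h1 := abs_le.1 hw.2
        have h2 := abs_le.1 hw'.2
        constructor <;> linarith [h1.1, h1.2, h2.1, h2.2]
  · have h1 : R ≤ nm (w - q) := not_lt.1 fun h' => h ⟨w, hw, h'⟩
    have h2 : R ≤ nm (w' - q) := not_lt.1 fun h' => h ⟨w', hw', h'⟩
    rw [tent_zero hR h1, tent_zero hR h2]
    simp

end

/-- open box -/
def Bx (a b m : ℝ) : Set ℂ := {w : ℂ | w.re ∈ Ioo a (a + m) ∧ w.im ∈ Ioo b (b + m)}

lemma volume_Bx (a b : ℝ) {m : ℝ} (hm : 0 ≤ m) : volume (Bx a b m) = ENNReal.ofReal (m ^ 2) := by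
  have h1 : Bx a b m = Complex.measurableEquivRealProd ⁻¹' (Ioo a (a + m) ×ˢ Ioo b (b + m)) := by
    ext w; rfl
  rw [h1, Complex.volume_preserving_equiv_real_prod.measure_preimage_equiv, Measure.volume_eq_prod,
    Measure.prod_prod, Real.volume_Ioo, Real.volume_Ioo, ← ENNReal.ofReal_mul (by linarith)]
  congr 1
  ring

lemma measurableSet_Bx (a b m : ℝ) : MeasurableSet (Bx a b m) :=
  (measurableSet_Ioo.preimage Complex.measurable_re).inter
    (measurableSet_Ioo.preimage Complex.measurable_im)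

lemma sub_int {c r w m q R : ℝ} (h1 : |w - c| ≤ r) (h2 : m ≤ 2 * r) (h3 : 0 ≤ m) (h4 : m ≤ R)
    (h5 : |w - q| < R) : ∃ α, c - r ≤ α ∧ α + m ≤ c + r ∧ q - 2 * R ≤ α ∧ α + m ≤ q + 2 * R := by
  rw [abs_le] at h1
  rw [abs_lt] at h5
  refine ⟨max (c - r) (w - m), le_max_left _ _, ?_, ?_, ?_⟩
  · rcases max_choice (c - r) (w - m) with h | h <;> rw [h] <;> linarith [h1.1, h1.2]
  · refine le_trans ?_ (le_max_right _ _)
    linarith [h5.1]
  · have : max (c - r) (w - m) ≤ w := max_le (by linarith [h1.1]) (by linarith)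
    linarith [h5.2]

/-- **count**: disjoint squares meeting a box -/
theorem sum_chg {ι : Type*} [Countable ι] {q : ℂ} {R : ℝ} (hR : 0 < R) {c : ι → ℂ} {r : ι → ℝ}
    (hr : ∀ i, 0 < r i) (hd : Pairwise (Function.onFun Disjoint fun i => OSq (c i) (r i))) :
    ∑' i, ENNReal.ofReal (chg q R (c i) (r i) ^ 2) ≤ 16 := by
  classical
  have key : ∀ i, ∃ T : Set ℂ, MeasurableSet T ∧ T ⊆ OSq (c i) (r i) ∧
      T ⊆ Bx (q.re - 2 * R) (q.im - 2 * R) (4 * R) ∧
      volume T = ENNReal.ofReal (R ^ 2 * chg q R (c i) (r i) ^ 2) := by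
    intro i
    by_cases h : ∃ w ∈ CSq (c i) (r i), nm (w - q) < R
    · obtain ⟨w, hw, hwq⟩ := h
      have hch : chg q R (c i) (r i) = min 1 (2 * r i / R) := if_pos ⟨w, hw, hwq⟩
      set m : ℝ := min R (2 * r i) with hm
      have hm0 : 0 < m := lt_min hR (by have := hr i; linarith)
      have hmR : R * chg q R (c i) (r i) = m := by
        rw [hch, hm, mul_min_of_nonneg _ _ hR.le, mul_one, mul_div_cancel₀ _ hR.ne']
      have h1 : |w.re - q.re| < R := lt_of_le_of_lt (le_max_left _ _) hwq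
      have h2 : |w.im - q.im| < R := lt_of_le_of_lt (le_max_right _ _) hwq
      obtain ⟨α, a1, a2, a3, a4⟩ := sub_int hw.1 (min_le_right _ _) hm0.le (min_le_left _ _) h1
      obtain ⟨β, b1, b2, b3, b4⟩ := sub_int hw.2 (min_le_right _ _) hm0.le (min_le_left _ _) h2
      refine ⟨Bx α β m, measurableSet_Bx _ _ _, ?_, ?_, ?_⟩
      · rintro z ⟨⟨z1, z2⟩, z3, z4⟩
        exact ⟨abs_lt.2 ⟨by linarith, by linarith⟩, abs_lt.2 ⟨by linarith, by linarith⟩⟩
      · rintro z ⟨⟨z1, z2⟩, z3, z4⟩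
        exact ⟨⟨by linarith, by linarith⟩, by linarith, by linarith⟩
      · rw [volume_Bx _ _ hm0.le, ← hmR, mul_pow]
    · refine ⟨∅, MeasurableSet.empty, empty_subset _, empty_subset _, ?_⟩
      have hch : chg q R (c i) (r i) = 0 := if_neg h
      rw [hch]; simp
  choose T hTm hTs hTb hTv using key
  have h1 : ∑' i, volume (T i) ≤ ENNReal.ofReal ((4 * R) ^ 2) := by
    rw [← measure_iUnion (fun i j hij => (hd hij).mono (hTs i) (hTs j)) hTm,
      ← volume_Bx (q.re - 2 * R) (q.im - 2 * R) (by linarith : 0 ≤ 4 * R)]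
    exact measure_mono (iUnion_subset hTb)
  have h2 : ENNReal.ofReal (R ^ 2) * ∑' i, ENNReal.ofReal (chg q R (c i) (r i) ^ 2) ≤
      ENNReal.ofReal (R ^ 2) * 16 := by
    rw [← ENNReal.tsum_mul_left]
    calc ∑' i, ENNReal.ofReal (R ^ 2) * ENNReal.ofReal (chg q R (c i) (r i) ^ 2)
        = ∑' i, volume (T i) := by
          refine tsum_congr fun i => ?_
          rw [hTv, ← ENNReal.ofReal_mul (by positivity)]
      _ ≤ ENNReal.ofReal ((4 * R) ^ 2) := h1
      _ = ENNReal.ofReal (R ^ 2) * 16 := by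
          rw [show (16 : ℝ≥0∞) = ENNReal.ofReal 16 by norm_num, ← ENNReal.ofReal_mul (by positivity)]
          congr 1; ring
  exact (ENNReal.mul_le_mul_iff_right (by simpa using hR.ne') ENNReal.ofReal_ne_top).1 h2

end

end Crest.Agent.R105.Nod_281
end

-- ▼ part R105/Nod2_281
section

/-!
# Row 105, S0138 (NI frame), node E13, NO NODE, part 2 (helper281): the tent along `F`

`b = tent q R ∘ F`: locally Lipschitz, energy `≤ (en X + en y) / R²` on `{|F - q|_∞ < R}`, `0`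
elsewhere; slice inequality for `b` with charges on the squares.
-/

set_option autoImplicit false

open MeasureTheory Set Filter Topology Metric
open scoped NNReal ENNReal

namespace Crest.Agent.R105.Nod_281

open Bd_775 Tc_808 Ni_459 Crest.AnalysisR Sl_732 IfB_641 Plv_626 Nie_909
open Vs_439 (mul measurable_mul lintegral_mul_le am_gm wdg_le_en measurable_en')

noncomputable section

variable {Y : Set ℂ} {x0 a : ℂ → ℝ} {F : ℂ → ℂ} {q : ℂ} {R : ℝ}

lemma nm_smul (s : ℝ) (w : ℂ) : nm (s • w) = |s| * nm w := by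
  unfold nm
  rw [Complex.smul_re, Complex.smul_im, smul_eq_mul, smul_eq_mul, abs_mul, abs_mul,
    mul_max_of_nonneg _ _ (abs_nonneg s)]

/-- derivative of a function controlled by `F` -/
lemma fd_bound {b : ℂ → ℝ} {z : ℂ} (hF : DifferentiableAt ℝ F z) {M : ℝ} (hM : 0 ≤ M)
    (h : ∀ w, |b w - b z| ≤ M * nm (F w - F z)) (v : ℂ) :
    |fderiv ℝ b z v| ≤ M * nm (fderiv ℝ F z v) := by
  by_cases hb : DifferentiableAt ℝ b z
  · have h1 := hb.hasFDerivAt.hasLineDerivAt v
    have h2 := hF.hasFDerivAt.hasLineDerivAt v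
    unfold HasLineDerivAt at h1 h2
    rw [hasDerivAt_iff_tendsto_slope_zero] at h1 h2
    refine le_of_tendsto_of_tendsto h1.abs
      (((continuous_nm.tendsto _).comp h2).const_mul M) ?_
    filter_upwards with s
    simp only [Function.comp, zero_add, zero_smul, add_zero]
    rw [smul_eq_mul, abs_mul, nm_smul]
    have h3 := h (z + s • v)
    calc |s⁻¹| * |b (z + s • v) - b z| ≤ |s⁻¹| * (M * nm (F (z + s • v) - F z)) := by gcongr
      _ = M * (|s⁻¹| * nm (F (z + s • v) - F z)) := by ring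
  · rw [fderiv_zero_of_not_differentiableAt hb]
    simp only [zero_apply, abs_zero]
    exact mul_nonneg hM (nm_nonneg _)

/-- coordinates of the derivative -/
lemma fd_re {z : ℂ} (hF : DifferentiableAt ℝ F z) (v : ℂ) :
    (fderiv ℝ F z v).re = fderiv ℝ (fun w => (F w).re) z v := by
  have h := (Complex.reCLM.hasFDerivAt.comp z hF.hasFDerivAt).fderiv
  have h2 : (fun w => (F w).re) = (Complex.reCLM ∘ F) := rfl
  rw [h2, h]; rfl

lemma fd_im {z : ℂ} (hF : DifferentiableAt ℝ F z) (v : ℂ) :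
    (fderiv ℝ F z v).im = fderiv ℝ (fun w => (F w).im) z v := by
  have h := (Complex.imCLM.hasFDerivAt.comp z hF.hasFDerivAt).fderiv
  have h2 : (fun w => (F w).im) = (Complex.imCLM ∘ F) := rfl
  rw [h2, h]; rfl

lemma en_bound {b : ℂ → ℝ} {z : ℂ} (hF : DifferentiableAt ℝ F z) {M : ℝ} (hM : 0 ≤ M)
    (h : ∀ w, |b w - b z| ≤ M * nm (F w - F z)) :
    en b z ≤ M ^ 2 * (en (fun w => (F w).re) z + en (fun w => (F w).im) z) := by
  have key : ∀ v, (fderiv ℝ b z v) ^ 2 ≤
      M ^ 2 * ((fderiv ℝ (fun w => (F w).re) z v) ^ 2 + (fderiv ℝ (fun w => (F w).im) z v) ^ 2) := by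
    intro v
    have h1 := fd_bound hF hM h v
    have h2 := nm_sq_le (fderiv ℝ F z v)
    rw [fd_re hF, fd_im hF] at h2
    have h3 : (fderiv ℝ b z v) ^ 2 ≤ (M * nm (fderiv ℝ F z v)) ^ 2 := by
      rw [← sq_abs (fderiv ℝ b z v)]
      exact pow_le_pow_left₀ (abs_nonneg _) h1 2
    rw [mul_pow] at h3
    exact h3.trans (mul_le_mul_of_nonneg_left h2 (sq_nonneg M))
  unfold en gx gy
  have := key 1
  have := key Complex.I
  nlinarith

/-- the tent along `F` -/
def bt (F : ℂ → ℂ) (q : ℂ) (R : ℝ) (z : ℂ) : ℝ := tent q R (F z)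

lemma bt_lip (hR : 0 < R) (z w : ℂ) : |bt F q R z - bt F q R w| ≤ R⁻¹ * nm (F z - F w) := by
  have := tent_lip (q := q) hR (F z) (F w)
  rw [div_eq_inv_mul] at this
  exact this

lemma bt_ll (hR : 0 < R) (hFl : LocallyLipschitzOn Yᶜ F) : LocallyLipschitzOn Yᶜ (bt F q R) := by
  intro x hx
  obtain ⟨K, t, ht, hK⟩ := hFl hx
  refine ⟨R⁻¹.toNNReal * K, t, ht, ?_⟩
  refine LipschitzOnWith.of_dist_le_mul fun p hp w hw => ?_
  have h1 := bt_lip (F := F) (q := q) hR p w
  have h2 := hK.dist_le_mul p hp w hw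
  rw [Real.dist_eq, NNReal.coe_mul, Real.coe_toNNReal _ (inv_nonneg.2 hR.le), mul_assoc]
  refine h1.trans (mul_le_mul_of_nonneg_left ?_ (inv_nonneg.2 hR.le))
  rw [dist_eq_norm] at h2
  exact (nm_le_norm _).trans h2

lemma bt_en (hR : 0 < R) {z : ℂ} (hF : DifferentiableAt ℝ F z) :
    en (bt F q R) z ≤ (R⁻¹) ^ 2 * (en (fun w => (F w).re) z + en (fun w => (F w).im) z) :=
  en_bound hF (inv_nonneg.2 hR.le) fun w => bt_lip hR w z

lemma bt_fderiv_zero (hR : 0 < R) {z : ℂ} (hz : R ≤ nm (F z - q)) : fderiv ℝ (bt F q R) z = 0 := by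
  have h1 : IsLocalMin (bt F q R) z := by
    refine Filter.Eventually.of_forall fun w => ?_
    change tent q R (F z) ≤ tent q R (F w)
    rw [tent_zero hR hz]
    exact tent_nonneg _
  exact h1.fderiv_eq_zero

lemma wdg_bt_zero (A : ℂ → ℝ) (hR : 0 < R) {z : ℂ} (hz : R ≤ nm (F z - q)) :
    wdg A (bt F q R) z = 0 := by
  unfold wdg gx gy
  rw [bt_fderiv_zero hR hz]
  simp

/-- the charge at a solid -/
lemma bt_ch (hR : 0 < R) {L K : Set ℂ} {c : ℂ} {r : ℝ}
    (h : ∀ δ > 0, ∃ O, IsOpen O ∧ K ⊆ O ∧ ∀ z ∈ (O ∩ L) \ Y, ∃ w ∈ CSq c r, ‖F z - w‖ < δ) :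
    ChLe Y L (bt F q R) K (chg q R c r) := by
  intro δ hδ
  obtain ⟨O, hO, hKO, h1⟩ := h (R * δ / 2) (by positivity)
  refine ⟨O, hO, hKO, fun p hp p' hp' => ?_⟩
  obtain ⟨w, hw, hpw⟩ := h1 p hp
  obtain ⟨w', hw', hpw'⟩ := h1 p' hp'
  have e1 : |tent q R (F p) - tent q R w| ≤ δ / 2 := by
    refine (tent_lip hR _ _).trans ?_
    rw [div_le_iff₀ hR]
    have := (nm_le_norm (F p - w)).trans hpw.le
    linarith
  have e2 : |tent q R (F p') - tent q R w'| ≤ δ / 2 := by
    refine (tent_lip hR _ _).trans ?_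
    rw [div_le_iff₀ hR]
    have := (nm_le_norm (F p' - w')).trans hpw'.le
    linarith
  have e3 := tent_osc (q := q) hR hw hw'
  change |tent q R (F p) - tent q R (F p')| ≤ _
  rw [abs_le] at e1 e2 e3 ⊢
  constructor <;> linarith [e1.1, e1.2, e2.1, e2.2, e3.1, e3.2]

/-- **slices**: a level which accumulates at `q` -/
theorem slice_one (hY : IsExteriorDomain Yᶜ) (hx : X0 Y x0) (ha : TT Y a)
    (hs : Swd Y (fun z => x0 z + a z)) {P : Set (Cmp Y)} (hP : P.Countable)
    (hFc : ContinuousOn F Yᶜ) (hfar : Tendsto (fun z => ‖F z‖) (cocompact ℂ) atTop)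
    (hvX : ∀ᵐ t : ℝ, SmV Y (Lv Y (fun z => x0 z + a z) t) (Sv P) (fun z => (F z).re))
    (hvy : ∀ᵐ t : ℝ, SmV Y (Lv Y (fun z => x0 z + a z) t) (Sv P) (fun z => (F z).im))
    {c : Cmp Y → ℂ} {r : Cmp Y → ℝ}
    (hat : ∀ᵐ t : ℝ, ∀ K ∈ P, K.1 ⊆ Lv Y (fun z => x0 z + a z) t → ∀ δ > 0, ∃ O, IsOpen O ∧
      K.1 ⊆ O ∧ ∀ z ∈ (O ∩ Lv Y (fun z => x0 z + a z) t) \ Y, ∃ w ∈ CSq (c K) (r K),
        ‖F z - w‖ < δ) (q : ℂ) :
    ∀ᵐ t : ℝ, (∀ δ > 0, ∃ z ∈ Lv Y (fun z => x0 z + a z) t \ Y, ‖F z - q‖ < δ) →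
      ∀ R : ℝ, 0 < R → R ≤ 1 → 1 ≤ mul (fun z => x0 z + a z) (bt F q R) (univ \ Y) t +
        sqc Y (fun z => x0 z + a z) P (fun K => chg q R (c K) (r K)) univ t := by
  classical
  set A : ℂ → ℝ := fun z => x0 z + a z with hA
  have hYc := cpt_of hY
  have hAl : LocallyLipschitzOn Yᶜ A := Nip_31.ll_x0 hx ha
  have hAb : LB A := Nip_31.lb_x0 hx ha
  filter_upwards [hvX, hvy, hat,
    Nip_31.pos_ae hY hAl hAb (Nip_31.en_x0_fin hY hx ha)] with t h1 h2 h4 h5 hT R hR hR1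
  obtain ⟨μ, hμ, hμC⟩ := h5
  have hLc := Lv_closed hY hAb t
  have hLn := Uni_659.noIsland_nLv hY hAb (fun z hz => Nip_31.contAt hY hAl hz) hs t
  by_contra hlt
  push Not at hlt
  set g : ℝ≥0∞ := mul A (bt F q R) (univ \ Y) t +
    sqc Y A P (fun K => chg q R (c K) (r K)) univ t with hg
  have hgt : g ≠ ∞ := (hlt.trans ENNReal.one_lt_top).ne
  have hg1 : g.toReal < 1 := by
    have := (ENNReal.toReal_lt_toReal hgt ENNReal.one_ne_top).2 hlt
    simpa using this
  have hbc : ContinuousOn (bt F q R) Yᶜ := continuous_tent.comp_continuousOn hFc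
  have hV : VarLe Y (Lv Y A t) univ (bt F q R) g.toReal := by
    refine varLe_planarN hYc hLc hLn (Lv_sat t) μ hμC
      (hP.image _) (Sv_comp P) (Complex.continuous_re.comp_continuousOn hFc)
      (Complex.continuous_im.comp_continuousOn hFc) hbc h1 h2 ?_
      (σ := chS (fun K => chg q R (c K) (r K))) ?_
      (a := A) (t := t) ?_ ENNReal.toReal_nonneg ?_
    · intro z _
      refine ⟨univ, R⁻¹, isOpen_univ, subset_univ _, fun p _ p' _ => ?_⟩
      refine (bt_lip hR p p').trans (mul_le_mul_of_nonneg_left ?_ (inv_nonneg.2 hR.le))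
      have := nm_le_add (F p - F p')
      rwa [Complex.sub_re, Complex.sub_im] at this
    · rintro _ ⟨K, hK, rfl⟩ hKL
      rw [chS_eq]
      exact bt_ch hR (h4 K hK hKL)
    · rintro z ⟨hz, hzY⟩
      have h6 := hz.1
      have h7 := hz.2
      rw [Nip_31.lo_eq hY hAl hAb hzY] at h6
      rw [Nip_31.up_eq hY hAl hAb hzY] at h7
      exact le_antisymm h6 h7
    · rw [ENNReal.ofReal_toReal hgt, hg]
      refine add_le_add le_rfl ?_
      have h6 := tsum_image (fun K : Set ℂ => if K ⊆ Lv Y A t ∩ univ then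
        ENNReal.ofReal (chS (fun K => chg q R (c K) (r K)) K) else 0)
        (Subtype.val_injective.injOn (s := P))
      rw [show (∑' K : Sv P, if K.1 ⊆ Lv Y A t ∩ univ then
          ENNReal.ofReal (chS (fun K => chg q R (c K) (r K)) K.1) else 0) =
        ∑' K : P, if K.1.1 ⊆ Lv Y A t ∩ univ then
          ENNReal.ofReal (chS (fun K => chg q R (c K) (r K)) K.1.1) else 0 from h6]
      unfold sqc
      refine ENNReal.tsum_le_tsum fun K => ?_
      by_cases h : K.1.1 ⊆ Lv Y A t ∩ univ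
      · have h8 := (h (Nip_31.pt_mem K.1)).1
        rw [if_pos h, if_pos ⟨fun z hz => (h hz).2, h8.1, h8.2⟩, chS_eq]
      · rw [if_neg h]; exact zero_le
  -- a big ball
  obtain ⟨ρ, hYρ, hρ⟩ : ∃ ρ : ℝ, Y ⊆ ball 0 ρ ∧ ∀ z : ℂ, ρ ≤ ‖z‖ → ‖q‖ + 3 ≤ ‖F z‖ := by
    have e1 := hfar.eventually_ge_atTop (‖q‖ + 3)
    rw [← Metric.cobounded_eq_cocompact, ← comap_norm_atTop, eventually_comap] at e1
    obtain ⟨ρ1, e2⟩ := eventually_atTop.1 e1
    obtain ⟨ρ2, e3⟩ := hYc.isBounded.exists_norm_le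
    refine ⟨max ρ1 (ρ2 + 1), fun z hz => ?_, fun z hz => ?_⟩
    · rw [mem_ball_zero_iff]
      exact lt_of_le_of_lt (e3 z hz) ((lt_add_one _).trans_le (le_max_right _ _))
    · exact e2 ‖z‖ ((le_max_left _ _).trans hz) z rfl
  have hbz : ∀ z : ℂ, ρ ≤ ‖z‖ → bt F q R z = 0 := by
    intro z hz
    refine tent_zero hR ?_
    have e1 := hρ z hz
    have e2 := norm_le_nm (F z - q)
    have e3 := norm_sub_norm_le (F z) q
    linarith
  have key : ∀ δ > 0, 1 - δ ≤ g.toReal := by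
    intro δ hδ
    obtain ⟨p, hp, hpq⟩ := hT (min (R * δ) 1) (lt_min (by positivity) one_pos)
    have hbp : 1 - δ ≤ bt F q R p := by
      refine le_trans ?_ (tent_ge (F p))
      have e1 : nm (F p - q) / R ≤ δ := by
        rw [div_le_iff₀ hR]
        have := (nm_le_norm (F p - q)).trans (hpq.le.trans (min_le_left _ _))
        linarith
      linarith
    have hpρ : ‖p‖ < ρ := by
      by_contra hcon
      push Not at hcon
      have e1 := hρ p hcon
      have e3 := norm_sub_norm_le (F p) q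
      have e4 := hpq.trans_le (min_le_right _ _)
      linarith
    have hN : IsCompact (closedBall (0 : ℂ) ρ) := isCompact_closedBall 0 ρ
    have hρ0 : 0 < ρ := (norm_nonneg p).trans_lt hpρ
    obtain ⟨y, hy1, hy2⟩ := Uni_659.comp_meets hLc hLn hN hp.1
      (mem_closedBall_zero_iff.2 hpρ.le)
    set D := connectedComponentIn (Lv Y A t ∩ closedBall 0 ρ) p with hD
    have hDs : D ⊆ Lv Y A t ∩ closedBall 0 ρ := connectedComponentIn_subset _ _
    have hpD : p ∈ D := mem_connectedComponentIn ⟨hp.1, mem_closedBall_zero_iff.2 hpρ.le⟩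
    rw [frontier_closedBall _ hρ0.ne', mem_sphere_zero_iff_norm] at hy2
    have hyY : y ∉ Y := fun h => by
      have := mem_ball_zero_iff.1 (hYρ h)
      linarith
    have hpc : Piece Y (Lv Y A t ∩ univ) D p y := by
      refine ⟨Thin_12.isCompact_cc (hN.inter_left hLc) p, isPreconnected_connectedComponentIn, ?_,
        fun z hz => ⟨(hDs hz).1, mem_univ _⟩, ⟨hpD, hp.2⟩, ⟨hy1, hyY⟩⟩
      intro u hu huY
      have e1 : connectedComponentIn Y u ⊆ Lv Y A t ∩ closedBall 0 ρ := fun w hw =>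
        ⟨Lv_sat t u (hDs hu).1 huY hw,
          ball_subset_closedBall (hYρ (connectedComponentIn_subset _ _ hw))⟩
      rw [hD, connectedComponentIn_eq hu]
      exact isPreconnected_connectedComponentIn.subset_connectedComponentIn
        (mem_connectedComponentIn huY) e1
    have e5 := hV.one hpc
    rw [hbz y hy2.ge, sub_zero] at e5
    exact hbp.trans ((le_abs_self _).trans e5)
  have := le_of_forall_pos_le_add (a := (1 : ℝ)) (b := g.toReal) fun δ hδ => by
    linarith [key δ hδ]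
  linarith

end

end Crest.Agent.R105.Nod_281
end

-- ▼ part R105/Nod3_281
section

/-!
# Row 105, S0138 (NI frame), node E13, NO NODE, part 3 (helper281): **`no_node`**

Courant-Lebesgue along a.e. level of an anchor with charges on the squares only: a point `q` of the
picture plane which is neither in the picture of the domain nor in a closed square is not a limit
point of `F` along a.e. level.
-/

set_option autoImplicit false

open MeasureTheory Set Filter Topology Metric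
open scoped NNReal ENNReal

namespace Crest.Agent.R105.Nod_281

open Bd_775 Tc_808 Ni_459 Crest.AnalysisR Sl_732 IfB_641 Plv_626 Nie_909
open Vs_439 (mul measurable_mul lintegral_mul_le am_gm wdg_le_en measurable_en')

noncomputable section

variable {Y : Set ℂ} {x0 a : ℂ → ℝ} {F : ℂ → ℂ} {q : ℂ} {R : ℝ}

/-- the part of the domain which is mapped near `q` -/
def GG (Y : Set ℂ) (F : ℂ → ℂ) (q : ℂ) (R : ℝ) : Set ℂ := {z | z ∉ Y ∧ nm (F z - q) < R}

lemma isOpen_GG (hY : IsOpen Yᶜ) (hFc : ContinuousOn F Yᶜ) : IsOpen (GG Y F q R) := by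
  have h1 : GG Y F q R = Yᶜ ∩ F ⁻¹' {w | nm (w - q) < R} := rfl
  rw [h1]
  exact hFc.isOpen_inter_preimage hY
    (isOpen_lt (continuous_nm.comp (continuous_id.sub continuous_const)) continuous_const)

/-- a sequence of radii -/
def Rn (n : ℕ) : ℝ := 1 / ((n : ℝ) + 1)

lemma Rn_pos (n : ℕ) : 0 < Rn n := by unfold Rn; positivity

lemma Rn_le_one (n : ℕ) : Rn n ≤ 1 := by
  unfold Rn
  rw [div_le_one (by positivity)]; linarith [(Nat.cast_nonneg n : (0 : ℝ) ≤ n)]

lemma tendsto_Rn : Tendsto Rn atTop (𝓝 0) := tendsto_one_div_add_atTop_nhds_zero_nat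

lemma Rn_anti {i j : ℕ} (h : i ≤ j) : Rn j ≤ Rn i := by
  unfold Rn
  have : (i : ℝ) ≤ j := by exact_mod_cast h
  exact one_div_le_one_div_of_le (by positivity) (by linarith)

/-- the energy of the anchor near `q` -/
theorem tendsto_E (hY : IsExteriorDomain Yᶜ) (hx : X0 Y x0) (ha : TT Y a)
    (hFc : ContinuousOn F Yᶜ) (hfar : Tendsto (fun z => ‖F z‖) (cocompact ℂ) atTop)
    (hqU : ∀ z ∉ Y, F z ≠ q) :
    Tendsto (fun n => ∫⁻ z in GG Y F q (Rn n), ENNReal.ofReal (en (fun w => x0 w + a w) z))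
      atTop (𝓝 0) := by
  obtain ⟨ρ, hρ⟩ : ∃ ρ : ℝ, ∀ z : ℂ, ρ ≤ ‖z‖ → ‖q‖ + 3 ≤ ‖F z‖ := by
    have e1 := hfar.eventually_ge_atTop (‖q‖ + 3)
    rw [← Metric.cobounded_eq_cocompact, ← comap_norm_atTop, eventually_comap] at e1
    obtain ⟨ρ1, e2⟩ := eventually_atTop.1 e1
    exact ⟨ρ1, fun z hz => e2 ‖z‖ hz z rfl⟩
  have hfin := Nip_31.en_x0_fin hY hx ha ρ
  have hsub : ∀ n : ℕ, GG Y F q (Rn n) ⊆ ball 0 ρ \ Y := by
    rintro n z ⟨hzY, hz⟩
    refine ⟨?_, hzY⟩
    rw [mem_ball_zero_iff]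
    by_contra hcon
    push Not at hcon
    have e1 := hρ z hcon
    have e2 := norm_le_nm (F z - q)
    have e3 := norm_sub_norm_le (F z) q
    have e4 := Rn_le_one n
    linarith
  have hm : ∀ n : ℕ, MeasurableSet (GG Y F q (Rn n)) := fun n =>
    (isOpen_GG hY.1 hFc).measurableSet
  set g : ℂ → ℝ≥0∞ := fun z => ENNReal.ofReal (en (fun w => x0 w + a w) z) with hg
  have e : ∀ n : ℕ, ∫⁻ z in GG Y F q (Rn n), g z =
      (volume.withDensity g).restrict (ball 0 ρ \ Y) (GG Y F q (Rn n)) := by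
    intro n
    rw [Measure.restrict_apply (hm n), inter_eq_left.2 (hsub n), withDensity_apply _ (hm n)]
  simp_rw [e]
  have hI : ⋂ n : ℕ, GG Y F q (Rn n) = ∅ := by
    ext z
    simp only [mem_iInter, mem_empty_iff_false, iff_false]
    intro hz
    have h1 : 0 < nm (F z - q) := by
      have h2 := norm_le_nm (F z - q)
      have h3 : 0 < ‖F z - q‖ := norm_pos_iff.2 (sub_ne_zero.2 (hqU z (hz 0).1))
      linarith
    obtain ⟨n, hn⟩ := (tendsto_Rn.eventually (gt_mem_nhds h1)).exists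
    exact absurd (hz n).2 (not_lt.2 hn.le)
  have hfin2 : (volume.withDensity g).restrict (ball 0 ρ \ Y) univ ≠ ∞ := by
    rw [Measure.restrict_apply_univ, withDensity_apply _
      (isOpen_ball.measurableSet.diff (cpt_of hY).isClosed.measurableSet)]
    exact hfin
  have h1 := tendsto_measure_iInter_atTop (μ := (volume.withDensity g).restrict (ball 0 ρ \ Y))
    (s := fun n : ℕ => GG Y F q (Rn n))
    (fun n => (hm n).nullMeasurableSet) (fun i j hij => ?_) ⟨0, ?_⟩
  · rw [hI, measure_empty] at h1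
    exact h1
  · exact fun z hz => ⟨hz.1, hz.2.trans_le (Rn_anti hij)⟩
  · exact ne_top_of_le_ne_top hfin2 (measure_mono (subset_univ _))

/-- a closed square which misses `q` stays away from `q` -/
lemma chg_zero {c : ℂ} {r : ℝ} (hq : q ∉ CSq c r) : ∀ᶠ n in atTop, chg q (Rn n) c r = 0 := by
  have h1 : ∃ ε > 0, ∀ w ∈ CSq c r, ε ≤ nm (w - q) := by
    have h2 : r < |q.re - c.re| ∨ r < |q.im - c.im| := by
      by_contra hcon
      push Not at hcon
      exact hq hcon
    rcases h2 with h2 | h2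
    · refine ⟨|q.re - c.re| - r, by linarith, fun w hw => ?_⟩
      have h3 : |w.re - q.re| ≤ nm (w - q) := le_max_left _ _
      have h4 : |q.re - c.re| ≤ |w.re - q.re| + |w.re - c.re| := by
        have := abs_sub_le q.re w.re c.re
        rwa [abs_sub_comm q.re w.re] at this
      linarith [hw.1]
    · refine ⟨|q.im - c.im| - r, by linarith, fun w hw => ?_⟩
      have h3 : |w.im - q.im| ≤ nm (w - q) := le_max_right _ _
      have h4 : |q.im - c.im| ≤ |w.im - q.im| + |w.im - c.im| := by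
        have := abs_sub_le q.im w.im c.im
        rwa [abs_sub_comm q.im w.im] at this
      linarith [hw.2]
  obtain ⟨ε, hε, h1⟩ := h1
  filter_upwards [tendsto_Rn.eventually (gt_mem_nhds hε)] with n hn
  refine if_neg ?_
  rintro ⟨w, hw, hwq⟩
  linarith [h1 w hw]

/-- the jumps at the squares near `q` -/
theorem tendsto_S (ha : TT Y a) {P : Set (Cmp Y)} {c : Cmp Y → ℂ}
    {r : Cmp Y → ℝ} (hq : ∀ K ∈ P, q ∉ CSq (c K) (r K)) :
    Tendsto (fun n : ℕ => open Classical in ∑' K : P, if chg q (Rn n) (c K.1) (r K.1) ≠ 0 then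
      ENNReal.ofReal (osc Y a K.1.1 ^ 2) else 0) atTop (𝓝 0) := by
  classical
  set g : P → ℝ≥0∞ := fun K => ENNReal.ofReal (osc Y a K.1.1 ^ 2) with hg
  have hs : Summable fun K : P => osc Y a K.1.1 ^ 2 :=
    ha.sum.comp_injective Subtype.val_injective
  have hfin : ∑' K : P, g K ≠ ∞ := hs.tsum_ofReal_ne_top
  have h1 : ∀ K : P, ∀ᶠ n : ℕ in atTop, ¬ chg q (Rn n) (c K.1) (r K.1) ≠ 0 := by
    intro K
    filter_upwards [chg_zero (hq K.1 K.2)] with n hn
    simpa using hn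
  have h2 := ENNReal.tendsto_tsum_compl_atTop_zero hfin
  rw [ENNReal.tendsto_nhds_zero] at h2 ⊢
  intro ε hε
  obtain ⟨s, hs'⟩ := (h2 ε hε).exists
  filter_upwards [(Filter.eventually_all_finset s).2 fun K _ => h1 K] with n hn
  refine le_trans ?_ hs'
  have e1 : (fun K : P => if chg q (Rn n) (c K.1) (r K.1) ≠ 0 then g K else 0).support ⊆
      {K : P | K ∉ s} := by
    intro K hK hKs
    exact hK (if_neg (hn K hKs))
  rw [← tsum_subtype_eq_of_support_subset e1]
  refine ENNReal.tsum_le_tsum fun K => ?_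
  split_ifs
  · exact le_rfl
  · exact zero_le

/-- the integral of the slice bound -/
theorem int_bound (hY : IsExteriorDomain Yᶜ) (hx : X0 Y x0) (ha : TT Y a)
    {P : Set (Cmp Y)} (hP : P.Countable) (hF : ∀ z ∉ Y, DifferentiableAt ℝ F z)
    (hFl : LocallyLipschitzOn Yᶜ F) {c : Cmp Y → ℂ} {r : Cmp Y → ℝ} (hr : ∀ K ∈ P, 0 < r K)
    (hd : P.PairwiseDisjoint fun K => OSq (c K) (r K)) {C : ℝ} (hR : 0 < R)
    (harea : ∫⁻ z in GG Y F q R, ENNReal.ofReal (en (fun z => (F z).re) z +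
      en (fun z => (F z).im) z) ≤ ENNReal.ofReal (C * R ^ 2)) {θ : ℝ} (hθ : 0 < θ) :
    ∫⁻ t, (mul (fun z => x0 z + a z) (bt F q R) (univ \ Y) t +
      sqc Y (fun z => x0 z + a z) P (fun K => chg q R (c K) (r K)) univ t) ≤
    ENNReal.ofReal θ * ((∫⁻ z in GG Y F q R, ENNReal.ofReal (en (fun w => x0 w + a w) z)) +
      (open Classical in ∑' K : P, if chg q R (c K.1) (r K.1) ≠ 0 then
        ENNReal.ofReal (osc Y a K.1.1 ^ 2) else 0)) + ENNReal.ofReal θ⁻¹ * (ENNReal.ofReal C + 16) := by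
  classical
  have hYc := cpt_of hY
  set A : ℂ → ℝ := fun z => x0 z + a z with hA
  have hAl : LocallyLipschitzOn Yᶜ A := Nip_31.ll_x0 hx ha
  have hθ' : 0 < θ⁻¹ := inv_pos.2 hθ
  have hms : MeasurableSet (univ \ Y) := MeasurableSet.univ.diff hYc.isClosed.measurableSet
  have hG : MeasurableSet (GG Y F q R) := (isOpen_GG hY.1 hFl.continuousOn).measurableSet
  have hGs : GG Y F q R ⊆ univ \ Y := fun z hz => ⟨mem_univ _, hz.1⟩
  have hA1 : ∫⁻ t, mul A (bt F q R) (univ \ Y) t ≤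
      ENNReal.ofReal θ * (∫⁻ z in GG Y F q R, ENNReal.ofReal (en A z)) +
      ENNReal.ofReal θ⁻¹ * ENNReal.ofReal C := by
    refine (lintegral_mul_le hY.1 hAl (bt_ll hR hFl) (fun z hz => hz.2) hms).trans ?_
    have h4 : ∫⁻ z in univ \ Y, ENNReal.ofReal |wdg A (bt F q R) z| ≤
        ∫⁻ z in GG Y F q R, (ENNReal.ofReal θ * ENNReal.ofReal (en A z) +
          ENNReal.ofReal θ⁻¹ * (ENNReal.ofReal (R⁻¹ ^ 2) * ENNReal.ofReal
            (en (fun z => (F z).re) z + en (fun z => (F z).im) z))) := by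
      rw [← lintegral_indicator hG, ← lintegral_indicator hms]
      refine lintegral_mono fun z => ?_
      by_cases hzY : z ∈ univ \ Y
      · rw [indicator_of_mem hzY]
        by_cases hzG : z ∈ GG Y F q R
        · rw [indicator_of_mem hzG]
          have e1 := wdg_le_en (a := A) (b := bt F q R) hθ z
          have e2 := bt_en (q := q) hR (hF z hzY.2)
          have e3 : 0 ≤ en (fun z => (F z).re) z + en (fun z => (F z).im) z :=
            add_nonneg (en_nonneg _ z) (en_nonneg _ z)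
          have e4 : ENNReal.ofReal (θ * en A z + θ⁻¹ * (R⁻¹ ^ 2 *
              (en (fun z => (F z).re) z + en (fun z => (F z).im) z))) =
              ENNReal.ofReal θ * ENNReal.ofReal (en A z) + ENNReal.ofReal θ⁻¹ *
                (ENNReal.ofReal (R⁻¹ ^ 2) * ENNReal.ofReal
                  (en (fun z => (F z).re) z + en (fun z => (F z).im) z)) := by
            rw [ENNReal.ofReal_add (mul_nonneg hθ.le (en_nonneg A z)) (by positivity),
              ENNReal.ofReal_mul hθ.le, ENNReal.ofReal_mul hθ'.le, ENNReal.ofReal_mul (by positivity)]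
          rw [← e4]
          refine ENNReal.ofReal_le_ofReal (e1.trans ?_)
          exact add_le_add le_rfl (mul_le_mul_of_nonneg_left e2 hθ'.le)
        · rw [indicator_of_notMem hzG]
          have e1 : R ≤ nm (F z - q) := not_lt.1 fun h => hzG ⟨hzY.2, h⟩
          rw [wdg_bt_zero A hR e1]
          simp
      · rw [indicator_of_notMem hzY]
        exact zero_le
    refine h4.trans ?_
    rw [lintegral_add_left ((measurable_en' A).ennreal_ofReal.const_mul _),
      lintegral_const_mul' _ _ ENNReal.ofReal_ne_top, lintegral_const_mul' _ _ ENNReal.ofReal_ne_top,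
      lintegral_const_mul' _ _ ENNReal.ofReal_ne_top]
    refine add_le_add le_rfl (mul_le_mul_right ?_ _)
    calc ENNReal.ofReal (R⁻¹ ^ 2) * ∫⁻ z in GG Y F q R, ENNReal.ofReal
          (en (fun z => (F z).re) z + en (fun z => (F z).im) z)
        ≤ ENNReal.ofReal (R⁻¹ ^ 2) * ENNReal.ofReal (C * R ^ 2) := mul_le_mul_right harea _
      _ = ENNReal.ofReal C := by
          rw [← ENNReal.ofReal_mul (by positivity)]
          congr 1
          field_simp
  have hPc : Countable P := hP.to_subtype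
  have hc16 : ∑' K : P, ENNReal.ofReal (chg q R (c K.1) (r K.1) ^ 2) ≤ 16 := by
    refine sum_chg hR (fun K : P => hr K.1 K.2) fun K K' hKK => ?_
    exact hd K.2 K'.2 fun h => hKK (Subtype.ext h)
  have hA2 : ∫⁻ t, sqc Y A P (fun K => chg q R (c K) (r K)) univ t ≤
      ENNReal.ofReal θ * (∑' K : P, if chg q R (c K.1) (r K.1) ≠ 0 then
        ENNReal.ofReal (osc Y a K.1.1 ^ 2) else 0) + ENNReal.ofReal θ⁻¹ * 16 := by
    rw [lintegral_sqc hP]
    refine le_trans ?_ (add_le_add_right (mul_le_mul_right hc16 _) _)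
    rw [← ENNReal.tsum_mul_left, ← ENNReal.tsum_mul_left, ← ENNReal.tsum_add]
    refine ENNReal.tsum_le_tsum fun K => ?_
    rw [if_pos (subset_univ _)]
    by_cases h : chg q R (c K.1) (r K.1) = 0
    · rw [h]; simp
    · rw [if_pos h, Nip_31.osp_x0 hx, Nip_31.osp_eq hY ha,
        ← ENNReal.ofReal_mul (chg_nonneg hR (hr K.1 K.2).le), ← ENNReal.ofReal_mul hθ.le,
        ← ENNReal.ofReal_mul hθ'.le,
        ← ENNReal.ofReal_add (by positivity) (by positivity), mul_comm]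
      exact ENNReal.ofReal_le_ofReal (am_gm hθ _ _)
  rw [lintegral_add_left (measurable_mul A (bt F q R) (univ \ Y))]
  refine (add_le_add hA1 hA2).trans (le_of_eq ?_)
  ring

/-- **NO NODE** -/
theorem no_node (hY : IsExteriorDomain Yᶜ) (hx : X0 Y x0) (ha : TT Y a)
    (hs : Swd Y (fun z => x0 z + a z)) {P : Set (Cmp Y)} (hP : P.Countable)
    (hF : ∀ z ∉ Y, DifferentiableAt ℝ F z) (hFl : LocallyLipschitzOn Yᶜ F)
    (hfar : Tendsto (fun z => ‖F z‖) (cocompact ℂ) atTop)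
    (hvX : ∀ᵐ t : ℝ, SmV Y (Lv Y (fun z => x0 z + a z) t) (Sv P) (fun z => (F z).re))
    (hvy : ∀ᵐ t : ℝ, SmV Y (Lv Y (fun z => x0 z + a z) t) (Sv P) (fun z => (F z).im))
    {c : Cmp Y → ℂ} {r : Cmp Y → ℝ} (hr : ∀ K ∈ P, 0 < r K)
    (hd : P.PairwiseDisjoint fun K => OSq (c K) (r K))
    (hat : ∀ᵐ t : ℝ, ∀ K ∈ P, K.1 ⊆ Lv Y (fun z => x0 z + a z) t → ∀ δ > 0, ∃ O, IsOpen O ∧
      K.1 ⊆ O ∧ ∀ z ∈ (O ∩ Lv Y (fun z => x0 z + a z) t) \ Y, ∃ w ∈ CSq (c K) (r K),
        ‖F z - w‖ < δ) {C : ℝ}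
    (harea : ∀ R, 0 < R → R ≤ 1 → ∫⁻ z in GG Y F q R, ENNReal.ofReal (en (fun z => (F z).re) z +
      en (fun z => (F z).im) z) ≤ ENNReal.ofReal (C * R ^ 2))
    (hqU : ∀ z ∉ Y, F z ≠ q) (hq : ∀ K ∈ P, q ∉ CSq (c K) (r K)) :
    ∀ᵐ t : ℝ, ∃ δ > 0, ∀ z ∈ Lv Y (fun z => x0 z + a z) t \ Y, δ ≤ ‖F z - q‖ := by
  classical
  set A : ℂ → ℝ := fun z => x0 z + a z with hA
  have h1 := slice_one hY hx ha hs hP hFl.continuousOn hfar hvX hvy hat q
  set T : Set ℝ := {t | ∀ δ > 0, ∃ z ∈ Lv Y A t \ Y, ‖F z - q‖ < δ} with hT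
  have hT0 : volume T = 0 := by
    refine le_antisymm (ENNReal.le_of_forall_pos_le_add fun ε hε _ => ?_) zero_le
    rw [zero_add]
    set N : ℝ≥0∞ := ENNReal.ofReal C + 16 with hN
    have hNt : N ≠ ∞ := ENNReal.add_ne_top.2 ⟨ENNReal.ofReal_ne_top, by simp⟩
    have hε' : (0 : ℝ) < ε := by exact_mod_cast hε
    set θ : ℝ := 2 * (N.toReal + 1) / ε with hθd
    have hN0 : 0 ≤ N.toReal := ENNReal.toReal_nonneg
    have hθ : 0 < θ := by positivity
    have hθ' : 0 < θ⁻¹ := inv_pos.2 hθ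
    have h2 := tendsto_E (q := q) hY hx ha hFl.continuousOn hfar hqU
    have h3 := tendsto_S ha hq
    have h4 := ENNReal.Tendsto.const_mul (a := ENNReal.ofReal θ) (h2.add h3)
      (Or.inr ENNReal.ofReal_ne_top)
    rw [add_zero, mul_zero] at h4
    obtain ⟨n, hn⟩ := (ENNReal.tendsto_nhds_zero.1 h4 (ENNReal.ofReal (ε / 2))
      (ENNReal.ofReal_pos.2 (by positivity))).exists
    have h5 := int_bound (q := q) hY hx ha hP hF hFl hr hd (Rn_pos n)
      (harea (Rn n) (Rn_pos n) (Rn_le_one n)) hθ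
    have h6 : ENNReal.ofReal θ⁻¹ * N ≤ ENNReal.ofReal (ε / 2) := by
      rw [← ENNReal.ofReal_toReal hNt, ← ENNReal.ofReal_mul hθ'.le]
      refine ENNReal.ofReal_le_ofReal ?_
      rw [hθd, inv_div, div_mul_eq_mul_div, div_le_div_iff₀ (by positivity) (by norm_num)]
      nlinarith
    have h7 : T ≤ᵐ[volume] {t | 1 ≤ mul A (bt F q (Rn n)) (univ \ Y) t +
        sqc Y A P (fun K => chg q (Rn n) (c K) (r K)) univ t} := by
      filter_upwards [h1] with t ht htT
      exact ht htT (Rn n) (Rn_pos n) (Rn_le_one n)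
    refine (measure_mono_ae h7).trans ?_
    have h8 := mul_meas_ge_le_lintegral (μ := (volume : Measure ℝ))
      ((measurable_mul A (bt F q (Rn n)) (univ \ Y)).add
        (measurable_sqc (Y := Y) (A := A) hP (fun K => chg q (Rn n) (c K) (r K)) univ)) 1
    rw [one_mul] at h8
    refine h8.trans (h5.trans ?_)
    refine (add_le_add hn h6).trans (le_of_eq ?_)
    rw [← ENNReal.ofReal_add (by positivity) (by positivity), add_halves, ENNReal.ofReal_coe_nnreal]
  have h9 : ∀ᵐ t : ℝ, t ∉ T := by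
    rw [ae_iff]
    simpa using hT0
  filter_upwards [h9] with t ht
  simp only [hT, mem_ofPred_eq, not_forall, not_exists, not_and, not_lt, exists_prop] at ht
  exact ht

end

end Crest.Agent.R105.Nod_281
end

-- ▼ part R105/Nod4_281

/-!
# Row 105, S0138 (NI frame), node E13, NO NODE, part 4 (helper281): adapter to 909's `HCi`

`no_node_pk` : package `Pk` + picture `PicT` + `LYi` + `ATNi` for ONE anchor `a i`, `q` off `F '' U`
and off the closed squares: a.e. level of `x0 + a i` stays away from `q`.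
`hc_of`      : if `F` reaches ONE point `q` of the picture component of `K` (`osc φ K = 0`) along
a.e. level between the two values of the anchor at `K`, then the anchor does not jump at `K`.
-/

set_option autoImplicit false

open MeasureTheory Set Filter Topology Metric
open scoped NNReal ENNReal

namespace Crest.Agent.R105.Nod_281

open Crest.AnalysisR Tc_808 Ends_897 Plv_626 Nie_909
open Ni_459 (Lv)
open Bd_775 (Q en)
open IfB_641 (X0)
open Cq_463 (Sqr)
open Skp2_257 (Comps)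
open Tra_937 (setR Uni)
open Pct_185 (PicT)
open Ta_937 (sqs corE)
open SkA_8 (Pk)
open SkJ_987 (PE endMap)
open Sqr_185 (SqK wd)

noncomputable section

/-- centre of a square -/
def ctr (Q : Sqr) : ℂ := ⟨Q.x + Q.s / 2, Q.y + Q.s / 2⟩

lemma mem_CSq_ctr {Q : Sqr} {w : ℂ} : w ∈ CSq (ctr Q) (Q.s / 2) ↔ (w.re, w.im) ∈ Q.car := by
  simp only [CSq, ctr, mem_ofPred_eq, abs_le, Sqr.mem_car]
  constructor
  · rintro ⟨⟨h1, h2⟩, h3, h4⟩
    exact ⟨⟨by linarith, by linarith⟩, by linarith, by linarith⟩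
  · rintro ⟨⟨h1, h2⟩, h3, h4⟩
    exact ⟨⟨by linarith, by linarith⟩, by linarith, by linarith⟩

lemma OSq_subset_CSq (c : ℂ) (r : ℝ) : OSq c r ⊆ CSq c r := fun _ hw => ⟨hw.1.le, hw.2.le⟩

lemma volume_nm_ball (q : ℂ) {R : ℝ} (hR : 0 < R) :
    volume {w : ℂ | nm (w - q) < R} = ENNReal.ofReal (4 * R ^ 2) := by
  have h1 : {w : ℂ | nm (w - q) < R} = Bx (q.re - R) (q.im - R) (2 * R) := by
    ext w
    simp only [nm, Bx, mem_ofPred_eq, max_lt_iff, abs_lt, Complex.sub_re, Complex.sub_im, mem_Ioo]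
    constructor
    · rintro ⟨⟨h1, h2⟩, h3, h4⟩
      exact ⟨⟨by linarith, by linarith⟩, by linarith, by linarith⟩
    · rintro ⟨⟨h1, h2⟩, h3, h4⟩
      exact ⟨⟨by linarith, by linarith⟩, by linarith, by linarith⟩
  rw [h1, volume_Bx _ _ (by positivity)]
  congr 1
  ring

variable {U : Set ℂ} {F : ℂ → ℂ} {x0 φ : ℂ → ℝ} {a : ℕ → ℂ → ℝ}

/-- area of the part of the domain which is mapped near `q` -/
theorem area_GG (hF : Uni U F) {q : ℂ} {R : ℝ} (hR : 0 < R) :
    ∫⁻ z in GG Uᶜ F q R, ENNReal.ofReal (en (fun z => (F z).re) z + en (fun z => (F z).im) z)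
      ≤ ENNReal.ofReal (8 * R ^ 2) := by
  have hUo : IsOpen Uᶜᶜ := by rw [compl_compl]; exact hF.op
  have hFc : ContinuousOn F Uᶜᶜ := by rw [compl_compl]; exact hF.hol.continuousOn
  have hm : MeasurableSet (GG Uᶜ F q R) := (isOpen_GG hUo hFc).measurableSet
  have hsub : GG Uᶜ F q R ⊆ U := fun z hz => not_not.1 hz.1
  have himg : F '' GG Uᶜ F q R ⊆ {w : ℂ | nm (w - q) < R} := by
    rintro _ ⟨z, hz, rfl⟩
    exact hz.2
  calc ∫⁻ z in GG Uᶜ F q R, ENNReal.ofReal (en (fun z => (F z).re) z + en (fun z => (F z).im) z)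
      ≤ ∫⁻ z in GG Uᶜ F q R, (ENNReal.ofReal (en (fun z => (F z).re) z) +
        ENNReal.ofReal (en (fun z => (F z).im) z)) := lintegral_mono fun z => ENNReal.ofReal_add_le
    _ = (∫⁻ z in GG Uᶜ F q R, ENNReal.ofReal (en (fun z => (F z).re) z)) +
        ∫⁻ z in GG Uᶜ F q R, ENNReal.ofReal (en (fun z => (F z).im) z) :=
        lintegral_add_left (Vs_439.measurable_en' _).ennreal_ofReal _
    _ = volume (F '' GG Uᶜ F q R) + volume (F '' GG Uᶜ F q R) := by
        have e1 : ∫⁻ z in GG Uᶜ F q R, ENNReal.ofReal (en (fun z => (F z).re) z) =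
            volume (F '' GG Uᶜ F q R) := hF.lintegral_en_re hm hsub
        have e2 : ∫⁻ z in GG Uᶜ F q R, ENNReal.ofReal (en (fun z => (F z).im) z) =
            volume (F '' GG Uᶜ F q R) := hF.lintegral_en_im hm hsub
        rw [e1, e2]
    _ ≤ ENNReal.ofReal (4 * R ^ 2) + ENNReal.ofReal (4 * R ^ 2) := by
        have := (measure_mono himg).trans (volume_nm_ball q hR).le
        exact add_le_add this this
    _ = ENNReal.ofReal (8 * R ^ 2) := by
        rw [← ENNReal.ofReal_add (by positivity) (by positivity)]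
        congr 1
        ring

section
variable (hU : IsExteriorDomain U) (h : Pk Uᶜ x0 a φ F) (hi : InjOn F U) (hP : PicT (F '' U)ᶜ)
include hU h hi hP

/-- the square of a solid -/
theorem exists_sqK (K : Cmp Uᶜ) (hK : K ∈ JP Uᶜ φ) :
    ∃ Q ∈ sqs (F '' U)ᶜ, SqK (corE (endMap h hU hi) K).1 Q.x Q.y Q.s := by
  have h1 : 0 < wd (corE (endMap h hU hi) K).1 := by
    rw [← osc_wd hU h hi hP K]
    exact lt_of_le_of_ne (osc_nonneg _ _ _) (Ne.symm hK)
  obtain ⟨Q, hQ, hQK, -⟩ := Ta_937.exists_sqr hP h1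
  exact ⟨Q, hQ, hQK⟩

/-- **no node**, package form -/
theorem no_node_pk (i : ℕ) (hL : LYi U x0 φ (a i) F) (hA : ATNi U x0 (a i) F) {q : ℂ}
    (hqU : q ∉ F '' U) (hq : ∀ Q ∈ sqs (F '' U)ᶜ, (q.re, q.im) ∉ Q.car) :
    ∀ᵐ t : ℝ, ∃ δ > 0, ∀ z ∈ U, x0 z + a i z = t → δ ≤ ‖F z - q‖ := by
  classical
  have hF := uni_of hU h hi hP
  have hE := endMap h hU hi
  have hYo : IsOpen (Uᶜᶜ : Set ℂ) := by rw [compl_compl]; exact hF.op
  set sq : Cmp Uᶜ → Sqr := fun K => if hK : K ∈ JP Uᶜ φ then (exists_sqK hU h hi hP K hK).choose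
    else ⟨0, 0, 1, one_pos⟩ with hsq
  have hsq1 : ∀ K ∈ JP Uᶜ φ, sq K ∈ sqs (F '' U)ᶜ ∧ SqK (corE hE K).1 (sq K).x (sq K).y (sq K).s := by
    intro K hK
    have h1 := (exists_sqK hU h hi hP K hK).choose_spec
    simp only [hsq, dif_pos hK]
    exact h1
  have hder : ∀ z ∉ Uᶜ, DifferentiableAt ℂ F z := fun z hz =>
    hF.hol.differentiableAt (hF.op.mem_nhds (not_not.1 hz))
  have hFl : LocallyLipschitzOn Uᶜᶜ F := by
    rw [compl_compl]
    have h1 : ContDiffOn ℂ 1 F U := hF.hol.contDiffOn hF.op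
    intro z hz
    have h2 : ContDiffAt ℝ 1 F z := ((h1.contDiffAt (hF.op.mem_nhds hz))).restrict_scalars ℝ
    obtain ⟨C, s, hs, hC⟩ := h2.exists_lipschitzOnWith
    exact ⟨C, s, mem_nhdsWithin_of_mem_nhds hs, hC⟩
  have hfar : Tendsto (fun z => ‖F z‖) (cocompact ℂ) atTop :=
    tendsto_norm_cocompact_atTop.comp hE.inf
  have hr : ∀ K ∈ JP Uᶜ φ, 0 < (sq K).s / 2 := fun K _ => half_pos (sq K).hs
  have hsub : ∀ K ∈ JP Uᶜ φ, ∀ w ∈ CSq (ctr (sq K)) ((sq K).s / 2), (w.re, w.im) ∈ setR (corE hE K).1 :=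
    fun K hK w hw => Ta_937.sqK_car (hsq1 K hK).2 (mem_CSq_ctr.1 hw)
  have hd : (JP Uᶜ φ).PairwiseDisjoint fun K => OSq (ctr (sq K)) ((sq K).s / 2) := by
    intro K hK K' hK' hne
    refine Set.disjoint_left.2 fun w hw hw' => hne ?_
    have h1 := hsub K hK w (OSq_subset_CSq _ _ hw)
    have h2 := hsub K' hK' w (OSq_subset_CSq _ _ hw')
    exact (corE hE).injective (Ta_937.cmp_unique h1 h2)
  have hlv : ∀ t : ℝ, ∀ z ∈ Lv Uᶜ (fun z => x0 z + a i z) t, z ∉ Uᶜ → x0 z + a i z = t := by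
    intro t z hz hzY
    have hAl : LocallyLipschitzOn Uᶜᶜ (fun z => x0 z + a i z) := Nip_31.ll_x0 h.hx (h.tta i)
    have hAb := Nip_31.lb_x0 h.hx (h.tta i)
    have hc := Nip_31.contAt h.hY hAl hzY
    have h1 := Ni_459.up_of_notMem h.hY hAb hzY hc
    have h2 := Ni_459.lo_of_notMem h.hY hAb hzY hc
    exact le_antisymm (h2 ▸ hz.1) (h1 ▸ hz.2)
  have hlv' : ∀ t : ℝ, ∀ z ∈ U, x0 z + a i z = t → z ∈ Lv Uᶜ (fun z => x0 z + a i z) t := by
    intro t z hz hzt
    have hzY : z ∉ Uᶜ := not_not.2 hz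
    have hAl : LocallyLipschitzOn Uᶜᶜ (fun z => x0 z + a i z) := Nip_31.ll_x0 h.hx (h.tta i)
    have hAb := Nip_31.lb_x0 h.hx (h.tta i)
    have hc := Nip_31.contAt h.hY hAl hzY
    have h1 := Ni_459.up_of_notMem h.hY hAb hzY hc
    have h2 := Ni_459.lo_of_notMem h.hY hAb hzY hc
    exact ⟨h2.le.trans hzt.le, hzt.ge.trans h1.ge⟩
  have hat : ∀ᵐ t : ℝ, ∀ K ∈ JP Uᶜ φ, K.1 ⊆ Lv Uᶜ (fun z => x0 z + a i z) t → ∀ δ > 0,
      ∃ O, IsOpen O ∧ K.1 ⊆ O ∧ ∀ z ∈ (O ∩ Lv Uᶜ (fun z => x0 z + a i z) t) \ Uᶜ,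
        ∃ w ∈ CSq (ctr (sq K)) ((sq K).s / 2), ‖F z - w‖ < δ := by
    filter_upwards [hA] with t ht K hK _ δ hδ
    have h1 := hsq1 K hK
    obtain ⟨O, hO, hPO, hO2⟩ := ht (sq K) h1.1 (setR (corE hE K).1)
      (Ta_937.mem_comps.2 ⟨corE hE K, rfl⟩) (Ta_937.sqK_car h1.2) (δ / 2) (half_pos hδ)
    have hOc : IsOpen {w : ℂ | (w.re, w.im) ∈ O} :=
      hO.preimage (Complex.continuous_re.prodMk Complex.continuous_im)
    have hLO : (corE hE K).1 ⊆ {w : ℂ | (w.re, w.im) ∈ O} := by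
      intro w hw
      exact hPO (show (⟨w.re, w.im⟩ : ℂ) ∈ (corE hE K).1 from hw)
    obtain ⟨O', hO', hKO', hpull⟩ := Ta_937.exists_nhd_pull hE K hOc hLO
    refine ⟨O', hO', hKO', ?_⟩
    rintro z ⟨⟨hzO, hzL⟩, hzY⟩
    have hzU : z ∈ U := not_not.1 hzY
    have h2 := hO2 z hzU (hpull z hzO hzU) (hlv t z hzL hzY)
    obtain ⟨p, hp, hpd⟩ := (infDist_lt_iff (sq K).nonempty).1 h2
    refine ⟨⟨p.1, p.2⟩, mem_CSq_ctr.2 hp, ?_⟩
    rw [Prod.dist_eq, max_lt_iff, Real.dist_eq, Real.dist_eq] at hpd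
    have h3 := Complex.norm_le_abs_re_add_abs_im (F z - ⟨p.1, p.2⟩)
    simp only [Complex.sub_re, Complex.sub_im] at h3
    linarith [hpd.1, hpd.2]
  have hmain := no_node (q := q) (C := 8) h.hY h.hx (h.tta i) (h.swd i) (P := JP Uᶜ φ)
    h.tt.countable (fun z hz => (hder z hz).restrictScalars ℝ) hFl hfar (smv_re hU h hi hP i) hL
    (c := fun K => ctr (sq K)) (r := fun K => (sq K).s / 2) hr hd hat
    (fun R hR _ => area_GG hF hR)
    (fun z hz hzq => hqU ⟨z, not_not.1 hz, hzq⟩)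
    (fun K hK hqK => hq (sq K) (hsq1 K hK).1 (mem_CSq_ctr.1 hqK))
  filter_upwards [hmain] with t ht
  obtain ⟨δ, hδ, h1⟩ := ht
  exact ⟨δ, hδ, fun z hz hzt => h1 z ⟨hlv' t z hz hzt, not_not.2 hz⟩⟩

/-- points of a flat component are off `F '' U` and off the squares -/
theorem off_of_flat (K : Cmp Uᶜ) (hK : osc Uᶜ φ K.1 = 0) {q : ℂ}
    (hq : q ∈ (corE (endMap h hU hi) K).1) :
    q ∉ F '' U ∧ ∀ Q ∈ sqs (F '' U)ᶜ, (q.re, q.im) ∉ Q.car := by
  refine ⟨(corE (endMap h hU hi) K).subset hq, ?_⟩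
  rintro Q ⟨L, hQL⟩ hqQ
  have h1 : (q.re, q.im) ∈ setR L.1 := Ta_937.sqK_car hQL hqQ
  have h2 : (q.re, q.im) ∈ setR (corE (endMap h hU hi) K).1 := hq
  have h3 := Ta_937.cmp_unique h1 h2
  have h4 := Ta_937.sqK_wd hP.cpt hQL
  rw [h3, ← osc_wd hU h hi hP K, hK] at h4
  exact absurd h4 Q.hs.ne



end

end

end Crest.Agent.R105.Nod_281
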