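import Crest.Agent.R105.Nod4_281
import Crest.Agent.R105.Jex1_987

-- ▼ part R105/Nod5_281
section

/-!
# Row 105, S0138 (NI frame), node E13, NO NODE, part 5 (helper281): input in `LimAt` form

`end_of_lim` : if `Im F` has the same limit `β0` at `K` (`osc φ K = 0`) along a.e. level between the
two values of the anchor, then the clause `H` of `hci_of` holds with `q = x_K + i β0`.
-/

set_option autoImplicit false

open MeasureTheory Set Filter Topology Metric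
open scoped NNReal ENNReal

namespace Crest.Agent.R105.Nod_281

open Crest.AnalysisR Tc_808 Ends_897 Plv_626 Nie_909
open Ni_459 (Lv)
open Bd_775 (Q en)
open IfB_641 (X0)
open Cq_463 (Sqr)
open Skp2_257 (Comps)
open Tra_937 (setR Uni)
open Pct_185 (PicT)
open Ta_937 (sqs corE)
open SkA_8 (Pk)
open SkJ_987 (PE endMap)
open Sqr_185 (SqK wd)

noncomputable section

variable {U : Set ℂ} {F : ℂ → ℂ} {x0 φ : ℂ → ℝ} {a : ℕ → ℂ → ℝ}

section
variable (hU : IsExteriorDomain U) (h : Pk Uᶜ x0 a φ F) (hi : InjOn F U) (hP : PicT (F '' U)ᶜ)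
include hU h hi hP

/-- a flat component lies on a vertical line -/
theorem re_flat (K : Cmp Uᶜ) (hK : osc Uᶜ φ K.1 = 0) :
    ∀ w ∈ (corE (endMap h hU hi) K).1, w.re = Sqr_185.lo (corE (endMap h hU hi) K).1 := by
  intro w hw
  have h1 : wd (corE (endMap h hU hi) K).1 = 0 := by
    rw [← osc_wd hU h hi hP K, hK]
  have hc := (corE (endMap h hU hi) K).isCompact hP.cpt
  have h2 := Sqr_185.lo_le hc hw
  have h3 := Sqr_185.le_hi hc hw
  unfold wd at h1
  linarith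




end

end

end Crest.Agent.R105.Nod_281
end

-- ▼ part R105/Nod6_281

/-!
# Row 105, S0138 (NI frame), node E13, part 6 (helper281): `HCo Om` from `LYo Om`, `ATNo Om` and the
coincidence of all ends at the flat components where the anchor jumps

`ENDi`  : along a.e. level between the two values of `α` at a flat component `K`, `F` reaches ONE point
of the picture component of `K` (written without the correspondence `corE`),
`ENDLi` : the same in the form "`Im F` has the same limit along a.e. such level" (630's output).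
-/

set_option autoImplicit false

open MeasureTheory Set Filter Topology Metric
open scoped NNReal ENNReal ContDiff

namespace Crest.Agent.R105.Nod_281

open Crest.AnalysisR Tc_808 Ends_897 Plv_626 Nie_909 Jex_987
open Ni_459 (Lv)
open IfB_641 (X0)
open Pct_185 (PicT)
open Ta_937 (sqs corE)
open SkA_8 (Pk)
open SkJ_987 (PE endMap)

noncomputable section

/-- all ends at a flat component where `α` jumps coincide -/
def ENDi (U : Set ℂ) (x0 φ α : ℂ → ℝ) (F : ℂ → ℂ) : Prop :=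
  ∀ K : Cmp Uᶜ, osc Uᶜ φ K.1 = 0 → osc Uᶜ α K.1 ≠ 0 → ∃ k ∈ K.1, ∃ q : ℂ, q ∉ F '' U ∧
    (∀ Q ∈ sqs (F '' U)ᶜ, (q.re, q.im) ∉ Q.car) ∧
    ∀ᵐ t : ℝ, t ∈ Ioo (Ni_459.lo Uᶜ (fun z => x0 z + α z) k)
      (Ni_459.up Uᶜ (fun z => x0 z + α z) k) →
      ∀ ε > 0, ∃ z ∈ U, x0 z + α z = t ∧ ‖F z - q‖ < ε

/-- the same with limits -/
def ENDLi (U : Set ℂ) (x0 φ α : ℂ → ℝ) (F : ℂ → ℂ) : Prop :=
  ∀ K : Cmp Uᶜ, osc Uᶜ φ K.1 = 0 → osc Uᶜ α K.1 ≠ 0 → ∃ k ∈ K.1, ∃ β0 : ℝ,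
    ∀ᵐ t : ℝ, t ∈ Ioo (Ni_459.lo Uᶜ (fun z => x0 z + α z) k)
      (Ni_459.up Uᶜ (fun z => x0 z + α z) k) →
      LimAt Uᶜ (Lv Uᶜ (fun z => x0 z + α z) t) (fun z => (F z).im) k β0

/-- for every anchor -/
def ENDo (Om : Kind) : Prop := ForPk Om fun U x0 a φ F => ∀ i, ENDi U x0 φ (a i) F

/-- for every anchor -/
def ENDLo (Om : Kind) : Prop := ForPk Om fun U x0 a φ F => ∀ i, ENDLi U x0 φ (a i) F

section
variable {U : Set ℂ} {F : ℂ → ℂ} {x0 φ : ℂ → ℝ} {a : ℕ → ℂ → ℝ}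
variable (hU : IsExteriorDomain U) (h : Pk Uᶜ x0 a φ F) (hi : InjOn F U) (hP : PicT (F '' U)ᶜ)
include hU h hi hP

theorem endi_of_corE (i : ℕ)
    (H : ∀ K : Cmp Uᶜ, osc Uᶜ φ K.1 = 0 → osc Uᶜ (a i) K.1 ≠ 0 →
      ∃ k ∈ K.1, ∃ q ∈ (corE (endMap h hU hi) K).1,
        ∀ᵐ t : ℝ, t ∈ Ioo (Ni_459.lo Uᶜ (fun z => x0 z + a i z) k)
          (Ni_459.up Uᶜ (fun z => x0 z + a i z) k) →
          ∀ ε > 0, ∃ z ∈ U, x0 z + a i z = t ∧ ‖F z - q‖ < ε) : ENDi U x0 φ (a i) F := by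
  intro K hK hne
  obtain ⟨k, hk, q, hq, hend⟩ := H K hK hne
  obtain ⟨h1, h2⟩ := off_of_flat hU h hi hP K hK hq
  exact ⟨k, hk, q, h1, h2, hend⟩


/-- **`HCi` from `ENDi`** -/
theorem hci_of_endi (i : ℕ) (hL : LYi U x0 φ (a i) F) (hA : ATNi U x0 (a i) F)
    (H : ENDi U x0 φ (a i) F) : HCi U φ (a i) := by
  intro K hK
  by_contra hne
  obtain ⟨k, hk, q, h1, h2, hend⟩ := H K hK hne
  have h3 := no_node_pk hU h hi hP i hL hA h1 h2
  have hkY : k ∈ Uᶜ := K.subset hk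
  have hcc : K.1 = connectedComponentIn Uᶜ k := congrArg Subtype.val (K.eq_of_mem hk)
  have hAb := Nip_31.lb_x0 h.hx (h.tta i)
  have h4 : osc Uᶜ (a i) K.1 = Ni_459.up Uᶜ (fun z => x0 z + a i z) k -
      Ni_459.lo Uᶜ (fun z => x0 z + a i z) k := by
    rw [hcc, Ni_459.osc_eq h.hY (h.tta i).q.bdd hkY, Nip_31.lo_x0 h.hx hkY, Nip_31.up_x0 h.hx hkY]
  have h5 : Ni_459.lo Uᶜ (fun z => x0 z + a i z) k < Ni_459.up Uᶜ (fun z => x0 z + a i z) k := by
    have := Ni_459.lo_le_up h.hY hAb k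
    refine lt_of_le_of_ne this fun hh => hne ?_
    rw [h4, hh, sub_self]
  have h9 : ∃ᶠ t in ae (volume : Measure ℝ), t ∈ Ioo (Ni_459.lo Uᶜ (fun z => x0 z + a i z) k)
      (Ni_459.up Uᶜ (fun z => x0 z + a i z) k) := by
    rw [frequently_ae_iff]
    show volume (Ioo _ _) ≠ 0
    rw [Real.volume_Ioo, Ne, ENNReal.ofReal_eq_zero, not_le]
    linarith
  obtain ⟨t, ht, ⟨δ, hδ, h7⟩, h8⟩ := (h9.and_eventually (h3.and hend)).exists
  obtain ⟨z, hz, hzt, hlt⟩ := h8 ht δ hδ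
  exact absurd (h7 z hz hzt) (not_le.2 hlt)

end

/-- **`HCo` from `LYo`, `ATNo`, `ENDo`** -/
theorem hco_of {Om : Kind} (hL : LYo Om) (hA : ATNo Om) (hE : ENDo Om) : HCo Om := by
  intro U x0 a φ F h hO hi hP i
  have hU : IsExteriorDomain U := by have := h.hY; rwa [compl_compl] at this
  exact hci_of_endi hU h hi hP i (hL U x0 a φ F h hO hi hP i) (hA U x0 a φ F h hO hi hP i)
    (hE U x0 a φ F h hO hi hP i)


end

end Crest.Agent.R105.Nod_281
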