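import Crest.Agent.R105.E13_499
import Crest.Agent.R105.Pj2_403
import Crest.Agent.R105.Bvy1_253_Mg
import Crest.Agent.R105.Lin2_642
import Crest.Agent.R105.Yv6_319
import Crest.Agent.R105.Sk3a_157
import Crest.Agent.R105.Pct5_185
import Crest.Agent.R105.Nod4_281
import Crest.Agent.R105.Nod6_281

-- ▼ part R105/Gl7_987
section

/-!
# Row 105, S0138, node E13: 403's `SolEnds` from 499's `ENDS`, `BVN`, `BVY`, `ATNE` (helper987)
-/

set_option autoImplicit false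

open MeasureTheory Set Filter Topology Metric
open scoped NNReal ENNReal ContDiff

namespace Crest.Agent.R105.Gl_987

open Crest.AnalysisR Ni_459 Tc_808 Ends_897 Ta_937
open Cq_463 (Sqr)
open Pct_185 (PicT)
open Sqr_185 (sec SqK wd)
open SkA_8 (Pk)
open E13_499
open Pj_403 (EndTop EndBot SolEnds endTop_of_lim endBot_of_lim isCompact_sec')

noncomputable section


variable {Y : Set ℂ} {x0 φ A : ℂ → ℝ} {a b : ℕ → ℂ → ℝ} {F P : ℂ → ℂ} {i : ℕ}

theorem pu_apply (h : Pk Y x0 a φ F) (w : ℂ → ℝ) {z : ℂ} (hz : z ∈ Yᶜ) : pu h w (F z) = w z :=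
  push_comp (Uw6_913.endMap h) w hz


/-- points of the line close to the section of the component are close to the component -/
theorem near_line (hE : EndMap Yᶜ (F '' Yᶜ) F) (hE' : EndMap Yᶜ (P '' Yᶜ) P) (K : Cmp Yᶜᶜ)
    {O : Set ℂ} (hO : IsOpen O) (hK : (corE hE K).1 ⊆ O) {t v₀ : ℝ}
    (hv : (⟨t, v₀⟩ : ℂ) ∈ (corE hE' K).1) :
    ∀ᶠ v in 𝓝 v₀, ∀ z ∈ Yᶜ, P z = ⟨t, v⟩ → F z ∈ O := by
  obtain ⟨O1, hO1, hK1, h1⟩ := exists_nhd_pull hE K hO hK
  obtain ⟨O2, hO2, hK2, h2⟩ := exists_nhd_push hE' K hO1 hK1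
  have hc : Continuous fun y : ℝ => (⟨t, y⟩ : ℂ) :=
    Sqr_185.continuous_mk.comp (continuous_const.prodMk continuous_id)
  have h3 : ∀ᶠ v in 𝓝 v₀, (⟨t, v⟩ : ℂ) ∈ O2 :=
    hc.continuousAt.eventually_mem (hO2.mem_nhds (hK2 hv))
  filter_upwards [h3] with v hv z hz hzv
  exact h1 z (h2 z hz (by rw [hzv]; exact hv)) hz

theorem inv_eq (hE' : EndMap Yᶜ (P '' Yᶜ) P) {ζ : ℂ} (hζ : ζ ∉ (P '' Yᶜ)ᶜ) :
    hE'.inv ζ ∈ Yᶜ ∧ P (hE'.inv ζ) = ζ := by
  obtain ⟨z, hz, rfl⟩ := not_not.1 hζ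
  rw [hE'.inv_left hz]
  exact ⟨hz, rfl⟩

/-- end limits of `Re F` lie in the range of the square -/
theorem x_range (h : Pk Y x0 a φ F) (hb : Pk Y x0 b (a i) P) (K : Cmp Yᶜᶜ) {Q : Sqr}
    (hS : SqK (cF h K).1 Q.x Q.y Q.s) {t v₀ x : ℝ} {S : Set ℝ}
    (hv : (⟨t, v₀⟩ : ℂ) ∈ (cF hb K).1) (hSE : ∀ v ∈ S, (⟨t, v⟩ : ℂ) ∉ (P '' Yᶜ)ᶜ)
    (hne : (𝓝[S] v₀).NeBot)
    (hx : Tendsto (fun v : ℝ => pu hb (fun z => (F z).re) ⟨t, v⟩) (𝓝[S] v₀) (𝓝 x)) :
    x ∈ Icc Q.x (Q.x + Q.s) := by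
  have key : ∀ ε > 0, Q.x - ε ≤ x ∧ x ≤ Q.x + Q.s + ε := by
    intro ε hε
    have hO : IsOpen {w : ℂ | Q.x - ε < w.re ∧ w.re < Q.x + Q.s + ε} :=
      (isOpen_lt continuous_const Complex.continuous_re).inter
        (isOpen_lt Complex.continuous_re continuous_const)
    have hK : (corE (Uw6_913.endMap h) K).1 ⊆ {w : ℂ | Q.x - ε < w.re ∧ w.re < Q.x + Q.s + ε} := by
      intro w hw
      have := hS.re_mem w hw
      exact ⟨by linarith [this.1], by linarith [this.2]⟩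
    have h1 := near_line (Uw6_913.endMap h) (Uw6_913.endMap hb) K hO hK hv
    have h2 : ∀ᶠ v in 𝓝[S] v₀, pu hb (fun z => (F z).re) ⟨t, v⟩ ∈
        Icc (Q.x - ε) (Q.x + Q.s + ε) := by
      filter_upwards [h1.filter_mono nhdsWithin_le_nhds, self_mem_nhdsWithin] with v hv1 hvS
      obtain ⟨h3, h4⟩ := inv_eq (Uw6_913.endMap hb) (hSE v hvS)
      have h5 := hv1 _ h3 h4
      show (F ((Uw6_913.endMap hb).inv ⟨t, v⟩)).re ∈ _
      exact ⟨h5.1.le, h5.2.le⟩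
    have h3 := isClosed_Icc.mem_of_tendsto hx h2
    exact h3
  constructor
  · exact le_of_forall_pos_le_add fun ε hε => by linarith [(key ε hε).1]
  · exact le_of_forall_pos_le_add fun ε hε => (key ε hε).2


end

end Crest.Agent.R105.Gl_987
end

-- ▼ part R105/Gl8_987
section

/-!
# Row 105, S0138, node E13: 403's `SolEnds` from `ATNE` only (helper987)

The end limits exist by 642's `ends` over 31's `bvl_x`, `bvl_u` and 253's `bvl_y`.
-/

set_option autoImplicit false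

open MeasureTheory Set Filter Topology Metric
open scoped NNReal ENNReal ContDiff

namespace Crest.Agent.R105.Gl_987

open Crest.AnalysisR Ni_459 Tc_808 Ends_897 Ta_937
open Cq_463 (Sqr)
open Pct_185 (PicT)
open Sqr_185 (sec SqK wd)
open SkA_8 (Pk)
open E13_499
open Pj_403 (EndTop EndBot SolEnds endTop_of_lim endBot_of_lim isCompact_sec')

noncomputable section

variable {Y : Set ℂ} {x0 φ A : ℂ → ℝ} {a b : ℕ → ℂ → ℝ} {F P : ℂ → ℂ} {i : ℕ}

theorem topF_eq' {E : Set ℂ} {L : Set ℂ} {t : ℝ} (hL : IsCompact L) (hne : (sec L t).Nonempty) :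
    Lin_642.topF E L t = TopF E L t := Lin_642.topF_eq hL hne

theorem botF_eq' {E : Set ℂ} {L : Set ℂ} {t : ℝ} (hL : IsCompact L) (hne : (sec L t).Nonempty) :
    Lin_642.botF E L t = BotF E L t := Lin_642.botF_eq hL hne

theorem neBots {E : Set ℂ} (hE : IsCompact E) (L : Cmp E) {t : ℝ}
    (ht : t ∈ Icc (Sqr_185.lo L.1) (Sqr_185.hi L.1)) :
    (TopF E L.1 t).NeBot ∧ (BotF E L.1 t).NeBot := by
  have hL := L.isCompact hE
  have hne := Sqr_185.sec_nonempty hL L.preconn L.nonempty ht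
  rw [← topF_eq' hL hne, ← botF_eq' hL hne]
  exact ⟨Lin_642.topF_neBot hE L ht, Lin_642.botF_neBot hE L ht⟩

theorem endsOf {E : Set ℂ} (hE : IsCompact E) {w : ℂ → ℝ} (hw : Bvl_31.BVL E w) (L : Cmp E) :
    EndsOf E L w (Lin_642.tp E L.1 w) (Lin_642.bt E L.1 w) := by
  have hL := L.isCompact hE
  filter_upwards [Lin_642.ends hE hw L] with t ht hto
  have ht2 : t ∈ Icc (Sqr_185.lo L.1) (Sqr_185.hi L.1) := ⟨hto.1.le, hto.2.le⟩
  have hne := Sqr_185.sec_nonempty hL L.preconn L.nonempty ht2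
  rw [← topF_eq' hL hne, ← botF_eq' hL hne]
  exact ht ht2

theorem exists_ed (h : Pk Y x0 a φ F) (hb : Pk Y x0 b (a i) P) (K : Cmp Yᶜᶜ) :
    ∃ xT xB yT yB vT vB : ℝ → ℝ, Ed h hb K xT xB yT yB vT vB := by
  have hcF : IsCompact (F '' Yᶜ)ᶜ := (Uw6_913.picT h).2.cpt
  have hcP : IsCompact (P '' Yᶜ)ᶜ := (Uw6_913.picT hb).2.cpt
  have b1 : Bvl_31.BVL (P '' Yᶜ)ᶜ (pu hb fun z => (F z).re) :=
    Bvl_31.bvl_x h hb fun z hz => pu_apply hb _ hz
  have b2 : Bvl_31.BVL (P '' Yᶜ)ᶜ (pu hb fun z => (F z).im) := by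
    refine (Bvy_253.bvl_y h hb).congr fun ζ hζ => ?_
    obtain ⟨z, hz, rfl⟩ := not_not.1 hζ
    rw [Yv_319.yP_apply _ hz]
    exact (pu_apply hb (fun z => (F z).im) hz).symm
  have b3 : Bvl_31.BVL (F '' Yᶜ)ᶜ (pu h fun z => (P z).re) :=
    Bvl_31.bvl_u h hb fun z hz => pu_apply h _ hz
  exact ⟨_, _, _, _, _, _, endsOf hcP b1 _, endsOf hcP b2 _, endsOf hcF b3 _⟩

/-- **`SolEnds`** -/
theorem solEnds_of_atne (hA : ATNE) : SolEnds := by
  intro U x0 a φ F h i b P hb hE hE' hPF hPP K Q hQ hS hw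
  obtain ⟨Y, rfl⟩ : ∃ Y, U = Yᶜ := ⟨Uᶜ, (compl_compl U).symm⟩
  have h' : Pk Y x0 a φ F := by have := h; rwa [compl_compl] at this
  have hb' : Pk Y x0 b (a i) P := by have := hb; rwa [compl_compl] at this
  have hcF : IsCompact (F '' Yᶜ)ᶜ := hPF.cpt
  have hcP : IsCompact (P '' Yᶜ)ᶜ := hPP.cpt
  have n1 := fun t ht => neBots hcP (cF hb' K) (t := t) ht
  obtain ⟨xT, xB, yT, yB, vT, vB, hEd⟩ := exists_ed h' hb' K
  obtain ⟨hx, hy, hv⟩ := hEd
  -- the square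
  have hs : 0 < Q.s := Q.hs
  have g1 : Q.x = Sqr_185.lo (cF h' K).1 := (sqK_lo hcF hS).symm
  have g2 : Q.s = wd (cF h' K).1 := (sqK_wd hcF hS).symm
  have hS' : SqK (cF h' K).1 (Sqr_185.lo (cF h' K).1) Q.y Q.s := by rw [← g1]; exact hS
  have hat := hA Y x0 φ a b F P i K h' hb' Q.y Q.s xT xB yT yB vT vB hs hS' g2 ⟨hx, hy, hv⟩
  filter_upwards [hx, hy, hat] with t tx ty ta ht
  have ht2 : t ∈ Icc (Sqr_185.lo (cF hb' K).1) (Sqr_185.hi (cF hb' K).1) := ⟨ht.1.le, ht.2.le⟩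
  obtain ⟨ne1, ne2⟩ := n1 t ht2
  have hLc : IsCompact (cF hb' K).1 := (cF hb' K).isCompact hcP
  have hsc := isCompact_sec' hLc t
  have hsne : (sec (cF hb' K).1 t).Nonempty :=
    Sqr_185.sec_nonempty hLc (cF hb' K).preconn (cF hb' K).nonempty ht2
  have htop : (⟨t, sSup (sec (cF hb' K).1 t)⟩ : ℂ) ∈ (cF hb' K).1 := hsc.sSup_mem hsne
  have hbot : (⟨t, sInf (sec (cF hb' K).1 t)⟩ : ℂ) ∈ (cF hb' K).1 := hsc.sInf_mem hsne
  obtain ⟨tx1, tx2⟩ := tx ht
  obtain ⟨ty1, ty2⟩ := ty ht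
  obtain ⟨ta1, ta2⟩ := ta ht
  have x1 := x_range h' hb' K hS (S := {v | (⟨t, v⟩ : ℂ) ∉ (P '' Yᶜ)ᶜ ∧
    sSup (sec (cF hb' K).1 t) < v}) htop (fun v hv => hv.1) ne1 tx1
  have x2 := x_range h' hb' K hS (S := {v | (⟨t, v⟩ : ℂ) ∉ (P '' Yᶜ)ᶜ ∧
    v < sInf (sec (cF hb' K).1 t)}) hbot (fun v hv => hv.1) ne2 tx2
  constructor
  · refine endTop_of_lim (E := (P '' Yᶜ)ᶜ) (X := pu hb' fun z => (F z).re)
      (Y := pu hb' fun z => (F z).im) (fun z hz hc => hc (mem_image_of_mem P hz))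
      (fun z hz => pu_apply hb' _ hz) (fun z hz => pu_apply hb' _ hz) tx1 ty1 ⟨x1, ta1⟩
  · refine endBot_of_lim (E := (P '' Yᶜ)ᶜ) (X := pu hb' fun z => (F z).re)
      (Y := pu hb' fun z => (F z).im) (fun z hz hc => hc (mem_image_of_mem P hz))
      (fun z hz => pu_apply hb' _ hz) (fun z hz => pu_apply hb' _ hz) tx2 ty2 ⟨x2, ta2⟩

end

end Crest.Agent.R105.Gl_987
end

-- ▼ part R105/Eta1_179
section

/-!
# R105 (S0138, HCi): ends of levels at a free hair, part 1 (helper179)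

* `pair_le` : `|∫ G' Φ| ≤ ∫ |G'| W` for all `G ∈ C_c^∞(α, β)` gives `|Φ t0 - Φ t1| ≤ W t0 + W t1`
  for a.e. `t0, t1` in `(α, β)`.
-/

set_option autoImplicit false

open Set Filter MeasureTheory Metric
open scoped Topology NNReal ContDiff ENNReal Convolution

namespace Crest.Agent.R105.Eta_179

/-- the standard bumps -/
noncomputable def bp (n : ℕ) : ContDiffBump (0 : ℝ) :=
  ⟨1 / (2 * ((n:ℝ) + 1)), 1 / ((n:ℝ) + 1), by positivity, by
    rw [div_lt_div_iff₀ (by positivity) (by positivity)]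
    nlinarith [(Nat.cast_nonneg n : (0:ℝ) ≤ n)]⟩

theorem bp_tendsto : Tendsto (fun n => (bp n).rOut) atTop (𝓝 0) :=
  tendsto_one_div_add_atTop_nhds_zero_nat

/-- bump averages converge at a.e. point -/
theorem ae_bp {h : ℝ → ℝ} (hh : Integrable h) :
    ∀ᵐ x, Tendsto (fun n => ∫ s, (bp n).normed volume (x - s) * h s) atTop (𝓝 (h x)) := by
  have h2 : ∀ᶠ n in atTop, (bp n).rOut ≤ 2 * (bp n).rIn := by
    refine Eventually.of_forall fun n => ?_
    show (1:ℝ) / ((n:ℝ) + 1) ≤ 2 * (1 / (2 * ((n:ℝ) + 1)))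
    rw [← mul_div_assoc, mul_one, div_mul_eq_div_div, div_self two_ne_zero]
  filter_upwards [ContDiffBump.ae_convolution_tendsto_right_of_locallyIntegrable (μ := volume)
    bp_tendsto h2 hh.locallyIntegrable] with x hx
  refine hx.congr fun n => ?_
  rw [convolution_lsmul_swap]
  simp only [smul_eq_mul]

/-- a smooth function with total integral zero and support in `[l, r]` is the derivative of a
function with support in `[l, r]` -/
theorem exists_prim {g : ℝ → ℝ} (hg : ContDiff ℝ ∞ g) {l r : ℝ} (hlr : l ≤ r)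
    (h0 : ∀ s, s ∉ Icc l r → g s = 0) (hI : ∫ s, g s = 0) :
    ∃ G : ℝ → ℝ, ContDiff ℝ ∞ G ∧ HasCompactSupport G ∧ tsupport G ⊆ Icc l r ∧ deriv G = g := by
  obtain ⟨h1, h2⟩ := Sct_636.prim_smooth hg
  have hc : ∀ a b, IntervalIntegrable g volume a b := fun a b =>
    hg.continuous.intervalIntegrable a b
  set G : ℝ → ℝ := fun x => (∫ t in (0 : ℝ)..x, g t) - ∫ t in (0 : ℝ)..l, g t with hG
  have hGx : ∀ x, G x = ∫ t in l..x, g t := fun x => by
    simp only [hG]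
    rw [intervalIntegral.integral_interval_sub_left (hc _ _) (hc _ _)]
  have hz : ∀ x, x ∉ Icc l r → G x = 0 := by
    intro x hx
    rw [hGx]
    rw [mem_Icc, not_and_or, not_le, not_le] at hx
    rcases hx with hx | hx
    · refine intervalIntegral.integral_zero_ae (Eventually.of_forall fun s hs => ?_)
      rw [uIoc_of_ge hx.le] at hs
      rcases eq_or_lt_of_le hs.2 with h | h
      · -- s = l
        subst h
        by_contra hne
        have hcont : ContinuousAt g s := hg.continuous.continuousAt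
        have h3 : ∀ᶠ y in 𝓝 s, g y ≠ 0 := hcont.eventually_ne hne
        obtain ⟨y, hy, hy'⟩ := (h3.filter_mono nhdsWithin_le_nhds).and
          (self_mem_nhdsWithin : Iio s ∈ 𝓝[<] s) |>.exists
        exact hy (h0 y fun h => absurd h.1 (not_le.2 hy'))
      · exact h0 s fun h' => absurd h'.1 (not_le.2 h)
    · have h3 : ∫ t in l..x, g t = ∫ t, g t := by
        refine intervalIntegral.integral_eq_integral_of_support_subset (μ := volume) fun s hs => ?_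
        have hsI : s ∈ Icc l r := by
          by_contra h; exact hs (h0 s h)
        refine ⟨lt_of_le_of_ne hsI.1 ?_, hsI.2.trans hx.le⟩
        rintro rfl
        apply hs
        by_contra hne
        have hcont : ContinuousAt g l := hg.continuous.continuousAt
        have h3 : ∀ᶠ y in 𝓝 l, g y ≠ 0 := hcont.eventually_ne hne
        obtain ⟨y, hy, hy'⟩ := (h3.filter_mono nhdsWithin_le_nhds).and
          (self_mem_nhdsWithin : Iio l ∈ 𝓝[<] l) |>.exists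
        exact hy (h0 y fun h => absurd h.1 (not_le.2 hy'))
      rw [h3, hI]
  have hs : tsupport G ⊆ Icc l r := by
    refine closure_minimal (fun x hx => ?_) isClosed_Icc
    by_contra h; exact hx (hz x h)
  refine ⟨G, h1.sub contDiff_const, HasCompactSupport.of_support_subset_isCompact isCompact_Icc
    (subset_tsupport G |>.trans hs), hs, ?_⟩
  funext x
  have : deriv G x = deriv (fun x => ∫ t in (0 : ℝ)..x, g t) x := by
    simp only [hG]; rw [deriv_sub_const]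
  rw [this, h2]

/-- **pairs of levels** -/
theorem pair_le {Φ W : ℝ → ℝ} (hΦ : Integrable Φ) (hW : Integrable W) {α β : ℝ}
    (h : ∀ G : ℝ → ℝ, ContDiff ℝ ∞ G → HasCompactSupport G → tsupport G ⊆ Ioo α β →
      |∫ t, deriv G t * Φ t| ≤ ∫ t, |deriv G t| * W t) (hW0 : ∀ t, 0 ≤ W t) {t0 t1 : ℝ}
    (m0 : t0 ∈ Ioo α β) (m1 : t1 ∈ Ioo α β)
    (a1 : Tendsto (fun n => ∫ s, (bp n).normed volume (t0 - s) * Φ s) atTop (𝓝 (Φ t0)))
    (a2 : Tendsto (fun n => ∫ s, (bp n).normed volume (t0 - s) * W s) atTop (𝓝 (W t0)))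
    (b1 : Tendsto (fun n => ∫ s, (bp n).normed volume (t1 - s) * Φ s) atTop (𝓝 (Φ t1)))
    (b2 : Tendsto (fun n => ∫ s, (bp n).normed volume (t1 - s) * W s) atTop (𝓝 (W t1))) :
    |Φ t0 - Φ t1| ≤ W t0 + W t1 := by
  have hlim : Tendsto (fun n => |(∫ s, (bp n).normed volume (t0 - s) * Φ s) -
      ∫ s, (bp n).normed volume (t1 - s) * Φ s|) atTop (𝓝 |Φ t0 - Φ t1|) := (a1.sub b1).abs
  have hlim' : Tendsto (fun n => (∫ s, (bp n).normed volume (t0 - s) * W s) +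
      ∫ s, (bp n).normed volume (t1 - s) * W s) atTop (𝓝 (W t0 + W t1)) := a2.add b2
  refine le_of_tendsto_of_tendsto hlim hlim' ?_
  set δ : ℝ := min (min (t0 - α) (β - t0)) (min (t1 - α) (β - t1)) / 2 with hδ
  have hδ0 : 0 < δ := by
    have h1 : 0 < t0 - α := by linarith [m0.1]
    have h2 : 0 < β - t0 := by linarith [m0.2]
    have h3 : 0 < t1 - α := by linarith [m1.1]
    have h4 : 0 < β - t1 := by linarith [m1.2]
    rw [hδ]; positivity
  have d1 : δ < t0 - α := by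
    have := min_le_left (min (t0 - α) (β - t0)) (min (t1 - α) (β - t1))
    have := min_le_left (t0 - α) (β - t0)
    linarith
  have d2 : δ < β - t0 := by
    have := min_le_left (min (t0 - α) (β - t0)) (min (t1 - α) (β - t1))
    have := min_le_right (t0 - α) (β - t0)
    linarith
  have d3 : δ < t1 - α := by
    have := min_le_right (min (t0 - α) (β - t0)) (min (t1 - α) (β - t1))
    have := min_le_left (t1 - α) (β - t1)
    linarith
  have d4 : δ < β - t1 := by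
    have := min_le_right (min (t0 - α) (β - t0)) (min (t1 - α) (β - t1))
    have := min_le_right (t1 - α) (β - t1)
    linarith
  filter_upwards [bp_tendsto.eventually (gt_mem_nhds hδ0)] with n hn
  set g : ℝ → ℝ := fun s => (bp n).normed volume (t0 - s) - (bp n).normed volume (t1 - s) with hg
  have c0 : ∀ x : ℝ, ContDiff ℝ ∞ fun s => (bp n).normed volume (x - s) := fun x =>
    (bp n).contDiff_normed.comp (contDiff_const.sub contDiff_id)
  have k0 : ∀ x : ℝ, HasCompactSupport fun s => (bp n).normed volume (x - s) := fun x =>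
    (bp n).hasCompactSupport_normed.comp_homeomorph (Homeomorph.subLeft x)
  have i0 : ∀ x : ℝ, Integrable fun s => (bp n).normed volume (x - s) := fun x =>
    (c0 x).continuous.integrable_of_hasCompactSupport (k0 x)
  have I0 : ∀ x : ℝ, ∫ s, (bp n).normed volume (x - s) = 1 := fun x => by
    rw [integral_sub_left_eq_self (fun s => (bp n).normed volume s) volume x]
    exact (bp n).integral_normed
  have z0 : ∀ x s : ℝ, δ ≤ |x - s| → (bp n).normed volume (x - s) = 0 := by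
    intro x s hxs
    by_contra hne
    have h1 : x - s ∈ Function.support ((bp n).normed volume) := hne
    rw [(bp n).support_normed_eq, mem_ball, dist_zero_right, Real.norm_eq_abs] at h1
    linarith
  have iΦ : ∀ {f : ℝ → ℝ}, Integrable f → ∀ x : ℝ,
      Integrable fun s => (bp n).normed volume (x - s) * f s := by
    intro f hf x
    obtain ⟨M, hM⟩ := (k0 x).exists_bound_of_continuous (c0 x).continuous
    exact hf.bdd_mul (c := M) (c0 x).continuous.aestronglyMeasurable (Eventually.of_forall hM)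
  set l : ℝ := min t0 t1 - δ with hl
  set r : ℝ := max t0 t1 + δ with hr
  have hlr : l ≤ r := by
    have := min_le_max (a := t0) (b := t1); rw [hl, hr]; linarith
  have hout : ∀ s, s ∉ Icc l r → δ ≤ |t0 - s| ∧ δ ≤ |t1 - s| := by
    intro s hs
    rw [mem_Icc, not_and_or, not_le, not_le] at hs
    have e1 := min_le_left t0 t1; have e2 := min_le_right t0 t1
    have e3 := le_max_left t0 t1; have e4 := le_max_right t0 t1
    rcases hs with hs | hs
    · constructor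
      · exact le_trans (by linarith) (le_abs_self _)
      · exact le_trans (by linarith) (le_abs_self _)
    · constructor
      · rw [← abs_neg]; exact le_trans (by linarith) (le_abs_self _)
      · rw [← abs_neg]; exact le_trans (by linarith) (le_abs_self _)
  obtain ⟨G, G1, G2, G3, G4⟩ := exists_prim (g := g) ((c0 t0).sub (c0 t1)) hlr (fun s hs => by
    obtain ⟨e1, e2⟩ := hout s hs
    simp only [hg]; rw [z0 t0 s e1, z0 t1 s e2, sub_zero]) (by
    simp only [hg]; rw [integral_sub (i0 t0) (i0 t1), I0, I0, sub_self])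
  have hsub : Icc l r ⊆ Ioo α β := by
    intro s hs
    have e1 : min t0 t1 = t0 ∨ min t0 t1 = t1 := min_choice _ _
    have e2 : max t0 t1 = t0 ∨ max t0 t1 = t1 := max_choice _ _
    refine ⟨?_, ?_⟩
    · rcases e1 with e | e <;> rw [e] at hl <;> linarith [hs.1]
    · rcases e2 with e | e <;> rw [e] at hr <;> linarith [hs.2]
  have key := h G G1 G2 (G3.trans hsub)
  rw [G4] at key
  have e1 : ∫ t, g t * Φ t = (∫ s, (bp n).normed volume (t0 - s) * Φ s) -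
      ∫ s, (bp n).normed volume (t1 - s) * Φ s := by
    rw [← integral_sub (iΦ hΦ t0) (iΦ hΦ t1)]
    congr 1; ext s; simp only [hg]; ring
  have e2 : ∫ t, |g t| * W t ≤ (∫ s, (bp n).normed volume (t0 - s) * W s) +
      ∫ s, (bp n).normed volume (t1 - s) * W s := by
    rw [← integral_add (iΦ hW t0) (iΦ hW t1)]
    have hgc : Continuous fun s => |g s| := ((c0 t0).sub (c0 t1)).continuous.abs
    have hgi : Integrable fun t => |g t| * W t := by
      have hk : HasCompactSupport g := (k0 t0).sub (k0 t1)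
      obtain ⟨M, hM⟩ := hk.exists_bound_of_continuous ((c0 t0).sub (c0 t1)).continuous
      exact hW.bdd_mul (c := M) hgc.aestronglyMeasurable (Eventually.of_forall fun s => by
        rw [Real.norm_eq_abs, abs_abs]; exact hM s)
    refine integral_mono hgi ((iΦ hW t0).add (iΦ hW t1)) fun s => ?_
    have n0 := (bp n).nonneg_normed (μ := volume) (t0 - s)
    have n1 := (bp n).nonneg_normed (μ := volume) (t1 - s)
    have : |g s| ≤ (bp n).normed volume (t0 - s) + (bp n).normed volume (t1 - s) := by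
      simp only [hg]
      rw [abs_le]; constructor <;> linarith
    calc |g s| * W s ≤ ((bp n).normed volume (t0 - s) + (bp n).normed volume (t1 - s)) * W s :=
          mul_le_mul_of_nonneg_right this (hW0 s)
      _ = _ := by ring
  rw [e1] at key
  exact key.trans e2

end Crest.Agent.R105.Eta_179
end

-- ▼ part R105/Eta2_179
section

/-!
# R105 (S0138, HCi): ends of levels at a free hair, part 2 (helper179): the cut picture

`E` compact with interval sections, `L0` a component which contains the box `[c1,c2] x [b1,b2]`.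
* `cutE`, `yc` : the strip without the middle of the box, `y` cut off to the strip
* `yd_cut`, `stokes_cut` : 319's data and Stokes formula there
* `ELZ` : E-L for test functions which are `c L * G (re)` near every component `L ≠ L0`
* `cut_ineq` : `|∫ G' Φ_χ| ≤ ∫ |G'| W_χ` for `G` with support in the window
-/

set_option autoImplicit false

open Set Filter MeasureTheory Metric
open scoped Topology NNReal ContDiff ENNReal

namespace Crest.Agent.R105.Eta_179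

open Tc_808 Bd_775 Sqr_185 Yv_319
open Sct_636 (LCE)
open Pct_185 (Sol pt pt_mem)

noncomputable section

variable {E : Set ℂ} {y χ : ℂ → ℝ} {c1 c2 b1 b2 d1 d2 : ℝ} {θ : ℝ → ℝ}

/-- the strip without the middle of the box -/
def cutE (E : Set ℂ) (c1 c2 b1 b2 : ℝ) : Set ℂ := {z | z ∈ E ∧ z.re ∈ Icc c1 c2 ∧ z.im ∉ Ioo b1 b2}

/-- `y` cut off to the strip -/
def yc (E : Set ℂ) (θ : ℝ → ℝ) (y : ℂ → ℝ) (w : ℂ) : ℝ := θ w.re * Eᶜ.indicator y w

theorem cutE_sub : cutE E c1 c2 b1 b2 ⊆ E := fun _ h => h.1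

theorem isCompact_cutE (hE : IsCompact E) : IsCompact (cutE E c1 c2 b1 b2) := by
  have h1 : IsClosed {z : ℂ | z.re ∈ Icc c1 c2} := isClosed_Icc.preimage Complex.continuous_re
  have h2 : IsClosed {z : ℂ | z.im ∉ Ioo b1 b2} :=
    (isOpen_Ioo.preimage Complex.continuous_im).isClosed_compl
  have : cutE E c1 c2 b1 b2 = E ∩ ({z : ℂ | z.re ∈ Icc c1 c2} ∩ {z : ℂ | z.im ∉ Ioo b1 b2}) := by
    ext z; simp only [cutE, mem_inter_iff, mem_ofPred_eq]
  rw [this]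
  exact hE.inter_right (h1.inter h2)

/-- the window function -/
structure Win (θ : ℝ → ℝ) (c1 c2 d1 d2 : ℝ) : Prop where
  sm : ContDiff ℝ ∞ θ
  mem : ∀ s, θ s ∈ Icc (0:ℝ) 1
  supp : tsupport θ ⊆ Ioo c1 c2
  one : ∀ s ∈ Ioo d1 d2, θ s = 1
  d1 : c1 ≤ d1
  d2 : d2 ≤ c2

theorem exists_win (h1 : c1 < d1) (h3 : d2 < c2) : ∃ θ, Win θ c1 c2 d1 d2 := by
  obtain ⟨f, hf1, hf0, hf01⟩ := exists_contMDiffMap_zero_one_of_isClosed
    (modelWithCornersSelf ℝ ℝ) (n := ⊤) (s := (Ioo ((c1 + d1) / 2) ((d2 + c2) / 2))ᶜ)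
    (t := Icc d1 d2) isOpen_Ioo.isClosed_compl isClosed_Icc (by
      rw [disjoint_left]
      intro x hx hx'
      exact hx ⟨by linarith [hx'.1], by linarith [hx'.2]⟩)
  refine ⟨f, f.contMDiff.contDiff, hf01, ?_, fun s hs => hf0 (Ioo_subset_Icc_self hs), h1.le, h3.le⟩
  have : tsupport f ⊆ Icc ((c1 + d1) / 2) ((d2 + c2) / 2) := by
    refine closure_minimal (fun x hx => ?_) isClosed_Icc
    by_contra hn
    exact hx (hf1 fun h => hn (Ioo_subset_Icc_self h))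
  exact this.trans fun x hx => ⟨by linarith [hx.1], by linarith [hx.2]⟩

/-- near a point of `E` off the cut picture `yc = 0` -/
theorem yc_zero (hθ : Win θ c1 c2 d1 d2)
    (hbox : ∀ z : ℂ, z.re ∈ Icc c1 c2 → z.im ∈ Icc b1 b2 → z ∈ E) {z : ℂ} (hz : z ∈ E)
    (hz' : z ∉ cutE E c1 c2 b1 b2) : ∀ᶠ w in 𝓝 z, yc E θ y w = 0 := by
  by_cases h : z.re ∈ tsupport θ
  · have h1 : z.re ∈ Ioo c1 c2 := hθ.supp h
    have h2 : z.im ∈ Ioo b1 b2 := by
      by_contra hn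
      exact hz' ⟨hz, Ioo_subset_Icc_self h1, hn⟩
    have e1 : ∀ᶠ w : ℂ in 𝓝 z, w.re ∈ Ioo c1 c2 :=
      Complex.continuous_re.continuousAt.eventually (isOpen_Ioo.mem_nhds h1)
    have e2 : ∀ᶠ w : ℂ in 𝓝 z, w.im ∈ Ioo b1 b2 :=
      Complex.continuous_im.continuousAt.eventually (isOpen_Ioo.mem_nhds h2)
    filter_upwards [e1, e2] with w h3 h4
    have h5 : w ∈ E := hbox w (Ioo_subset_Icc_self h3) (Ioo_subset_Icc_self h4)
    unfold yc
    rw [indicator_of_notMem (show w ∉ Eᶜ from fun h => h h5), mul_zero]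
  · have e1 : ∀ᶠ w : ℂ in 𝓝 z, w.re ∈ (tsupport θ)ᶜ :=
      Complex.continuous_re.continuousAt.eventually
        ((isClosed_tsupport θ).isOpen_compl.mem_nhds h)
    filter_upwards [e1] with w h3
    unfold yc
    rw [image_eq_zero_of_notMem_tsupport h3, zero_mul]

/-- off `E` the function is `θ(re) y` -/
theorem yc_eq (hE : IsClosed E) {z : ℂ} (hz : z ∉ E) :
    ∀ᶠ w in 𝓝 z, yc E θ y w = θ w.re * y w := by
  filter_upwards [hE.isOpen_compl.mem_nhds hz] with w hw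
  unfold yc; rw [indicator_of_mem hw]

/-- the truncation on a ball -/
theorem exists_trunc (hE : IsClosed E) (hy : YD E y) (hθ : Win θ c1 c2 d1 d2) (R : ℝ) :
    ∃ κ : ℂ → ℝ, (∀ w ∈ ball (0:ℂ) R, κ w = 1) ∧ Q E (fun w => (κ w * θ w.re) * y w) := by
  let κ : ContDiffBump (0 : ℂ) := ⟨|R| + 1, |R| + 2, by positivity, by linarith⟩
  refine ⟨κ, fun w hw => κ.one_of_mem_closedBall (ball_subset_closedBall
    (ball_subset_ball (by linarith [le_abs_self R]) hw)), ?_⟩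
  exact q_trunc hE hy (κ.contDiff.mul (hθ.sm.comp Complex.reCLM.contDiff))
    κ.hasCompactSupport.mul_right

/-- **data of the cut picture** -/
theorem yd_cut (hE : IsCompact E) (hy : YD E y) (hθ : Win θ c1 c2 d1 d2)
    (hbox : ∀ z : ℂ, z.re ∈ Icc c1 c2 → z.im ∈ Icc b1 b2 → z ∈ E) :
    YD (cutE E c1 c2 b1 b2) (yc E θ y) := by
  have hEc := hE.isClosed
  have hCc := (isCompact_cutE (c1 := c1) (c2 := c2) (b1 := b1) (b2 := b2) hE).isClosed
  refine ⟨?_, ?_, ?_⟩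
  · intro z hz
    rw [hCc.isOpen_compl.nhdsWithin_eq hz]
    by_cases hzE : z ∈ E
    · have h1 := yc_zero (y := y) hθ hbox hzE hz
      refine ⟨0, {w | yc E θ y w = 0}, h1, fun a ha b hb => ?_⟩
      have ha' : yc E θ y a = 0 := ha
      have hb' : yc E θ y b = 0 := hb
      simp only [ha', hb', edist_self, zero_le]
    · obtain ⟨κ, hκ, hQ⟩ := exists_trunc hEc hy hθ (‖z‖ + 1)
      obtain ⟨K, t, ht, hK⟩ := hQ.loc hzE
      rw [hEc.isOpen_compl.nhdsWithin_eq hzE] at ht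
      have hzb : z ∈ ball (0:ℂ) (‖z‖ + 1) := by rw [mem_ball_zero_iff]; linarith
      refine ⟨K, t ∩ (Eᶜ ∩ ball (0:ℂ) (‖z‖ + 1)), inter_mem ht
        (inter_mem (hEc.isOpen_compl.mem_nhds hzE) (isOpen_ball.mem_nhds hzb)), ?_⟩
      have heq : ∀ w ∈ Eᶜ ∩ ball (0:ℂ) (‖z‖ + 1), yc E θ y w = (κ w * θ w.re) * y w := by
        intro w hw
        unfold yc; rw [indicator_of_mem hw.1, hκ w hw.2, one_mul]
      intro a ha b hb
      rw [heq a ha.2, heq b hb.2]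
      exact hK ha.1 hb.1
  · intro R
    obtain ⟨M, hM⟩ := hy.bdd R
    refine ⟨max M 0, fun z hz => ?_⟩
    have h1 : |θ z.re| ≤ 1 := by
      rw [abs_of_nonneg (hθ.mem _).1]; exact (hθ.mem _).2
    have h2 : |Eᶜ.indicator y z| ≤ max M 0 := by
      by_cases hzE : z ∈ Eᶜ
      · rw [indicator_of_mem hzE]; exact (hM z hz).trans (le_max_left _ _)
      · rw [indicator_of_notMem hzE, abs_zero]; exact le_max_right _ _
    unfold yc
    rw [abs_mul]
    calc |θ z.re| * |Eᶜ.indicator y z| ≤ 1 * max M 0 :=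
          mul_le_mul h1 h2 (abs_nonneg _) zero_le_one
      _ = max M 0 := one_mul _
  · intro R
    obtain ⟨κ, hκ, hQ⟩ := exists_trunc hEc hy hθ (R + 1)
    have h1 : IntegrableOn (en (yc E θ y)) (Eᶜ ∩ ball 0 (R + 1)) := by
      refine IntegrableOn.congr_fun (hQ.fin.mono_set inter_subset_left) (fun z hz => ?_)
        (hEc.isOpen_compl.measurableSet.inter measurableSet_ball)
      refine (en_eq_of_eventuallyEq ?_).symm
      filter_upwards [hEc.isOpen_compl.mem_nhds hz.1, isOpen_ball.mem_nhds hz.2] with w h2 h3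
      unfold yc; rw [indicator_of_mem h2, hκ w h3, one_mul]
    refine IntegrableOn.of_forall_sdiff_eq_zero h1
      (hCc.isOpen_compl.measurableSet.inter isClosed_closedBall.measurableSet) ?_ |>.mono_set
      subset_rfl
    rintro z ⟨⟨hz1, hz2⟩, hz3⟩
    have hzE : z ∈ E := by
      by_contra h
      exact hz3 ⟨h, (closedBall_subset_ball (by linarith)) hz2⟩
    rw [en_eq_of_eventuallyEq (v := fun _ => (0:ℝ)) (yc_zero hθ hbox hzE hz1), en_const]

theorem wdg_zero_right {u v : ℂ → ℝ} {z : ℂ} (h : ∀ᶠ w in 𝓝 z, v w = 0) : wdg u v z = 0 := by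
  unfold wdg
  rw [gx_eq_of_eventuallyEq (u := v) (v := fun _ => (0:ℝ)) h,
    gy_eq_of_eventuallyEq (u := v) (v := fun _ => (0:ℝ)) h, gx_const, gy_const]; ring

theorem wdg_zero_left {u v : ℂ → ℝ} {z : ℂ} (h : ∀ᶠ w in 𝓝 z, u w = 0) : wdg u v z = 0 := by
  unfold wdg
  rw [gx_eq_of_eventuallyEq (u := u) (v := fun _ => (0:ℝ)) h,
    gy_eq_of_eventuallyEq (u := u) (v := fun _ => (0:ℝ)) h, gx_const, gy_const]; ring

/-- **Stokes in the cut picture** -/
theorem stokes_cut (hE : IsCompact E) (hy : YD E y) (hθ : Win θ c1 c2 d1 d2)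
    (hbox : ∀ z : ℂ, z.re ∈ Icc c1 c2 → z.im ∈ Icc b1 b2 → z ∈ E)
    (hχ : LCE (cutE E c1 c2 b1 b2) χ) {G : ℝ → ℝ}
    (hG : ContDiff ℝ ∞ G) (hG' : HasCompactSupport G) (hGs : tsupport G ⊆ Ioo d1 d2) :
    ∫ w in Eᶜ, wdg (fun w => G w.re * χ w) y w
      = ∫ w, deriv G w.re * SY (cutE E c1 c2 b1 b2) χ (yc E θ y) w := by
  have hEc := hE.isClosed
  have hCc := (isCompact_cutE (c1 := c1) (c2 := c2) (b1 := b1) (b2 := b2) hE).isClosed
  rw [← stokes (isCompact_cutE hE) hχ (yd_cut hE hy hθ hbox) hG hG'.deriv,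
    ← integral_indicator hEc.isOpen_compl.measurableSet,
    ← integral_indicator hCc.isOpen_compl.measurableSet]
  congr 1
  ext w
  by_cases hw : w ∈ E
  · rw [indicator_of_notMem (show w ∉ Eᶜ from fun h => h hw)]
    by_cases hw' : w ∈ cutE E c1 c2 b1 b2
    · rw [indicator_of_notMem (show w ∉ (cutE E c1 c2 b1 b2)ᶜ from fun h => h hw')]
    · rw [indicator_of_mem (show w ∈ (cutE E c1 c2 b1 b2)ᶜ from hw'),
        wdg_zero_right (yc_zero hθ hbox hw hw')]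
  · rw [indicator_of_mem (show w ∈ Eᶜ from hw), indicator_of_mem
      (show w ∈ (cutE E c1 c2 b1 b2)ᶜ from fun h => hw h.1)]
    by_cases hs : w.re ∈ tsupport G
    · have h1 : w.re ∈ Ioo d1 d2 := hGs hs
      have e1 : ∀ᶠ v : ℂ in 𝓝 w, v.re ∈ Ioo d1 d2 :=
        Complex.continuous_re.continuousAt.eventually (isOpen_Ioo.mem_nhds h1)
      have e2 : yc E θ y =ᶠ[𝓝 w] y := by
        filter_upwards [yc_eq (θ := θ) (y := y) hEc hw, e1] with v h2 h3
        rw [h2, hθ.one _ h3, one_mul]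
      unfold wdg
      rw [gx_eq_of_eventuallyEq e2, gy_eq_of_eventuallyEq e2]
    · have e1 : ∀ᶠ v : ℂ in 𝓝 w, v.re ∈ (tsupport G)ᶜ :=
        Complex.continuous_re.continuousAt.eventually
          ((isClosed_tsupport G).isOpen_compl.mem_nhds hs)
      have e2 : ∀ᶠ v : ℂ in 𝓝 w, G v.re * χ v = 0 := by
        filter_upwards [e1] with v hv
        rw [image_eq_zero_of_notMem_tsupport hv, zero_mul]
      rw [wdg_zero_left e2, wdg_zero_left e2]

/-! ### components in the strip -/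

/-- the part of a component with interval sections in a vertical strip is connected -/
theorem preconn_strip {K : Set ℂ} (hK : IsCompact K) (hKc : IsPreconnected K)
    (hord : ∀ t, OrdConnected (sec K t)) (a b : ℝ) :
    IsPreconnected (K ∩ {z : ℂ | z.re ∈ Icc a b}) := by
  set X : Set ℂ := K ∩ {z : ℂ | z.re ∈ Icc a b} with hX
  have hXc : IsCompact X := hK.inter_right (isClosed_Icc.preimage Complex.continuous_re)
  rw [isPreconnected_closed_iff]
  rintro A B hA hB hAB ⟨p, hpX, hpA⟩ ⟨q, hqX, hqB⟩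
  by_contra hne
  rw [not_nonempty_iff_eq_empty] at hne
  have hdis : ∀ z ∈ X, z ∈ A → z ∉ B := fun z h1 h2 h3 => by
    have : z ∈ X ∩ (A ∩ B) := ⟨h1, h2, h3⟩
    rw [hne] at this; exact this
  -- the projections
  have cA : IsCompact (Complex.re '' (X ∩ A)) := (hXc.inter_right hA).image Complex.continuous_re
  have cB : IsCompact (Complex.re '' (X ∩ B)) := (hXc.inter_right hB).image Complex.continuous_re
  have hdisj : ∀ t, t ∈ Complex.re '' (X ∩ A) → t ∉ Complex.re '' (X ∩ B) := by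
    rintro t ⟨u, ⟨huX, huA⟩, rfl⟩ ⟨v, ⟨hvX, hvB⟩, hv⟩
    have hsec : IsPreconnected ((fun s : ℝ => (⟨u.re, s⟩ : ℂ)) '' sec K u.re) :=
      (hord u.re).isPreconnected.image _ (Sqr_185.continuous_mk_right u.re).continuousOn
    have hsub : (fun s : ℝ => (⟨u.re, s⟩ : ℂ)) '' sec K u.re ⊆ X := by
      rintro _ ⟨s, hs, rfl⟩
      exact ⟨hs, huX.2⟩
    have mu : u ∈ (fun s : ℝ => (⟨u.re, s⟩ : ℂ)) '' sec K u.re :=
      ⟨u.im, mem_sec_re.2 huX.1, rfl⟩
    have mv : v ∈ (fun s : ℝ => (⟨u.re, s⟩ : ℂ)) '' sec K u.re := by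
      refine ⟨v.im, ?_, Complex.ext hv.symm rfl⟩
      rw [← hv]; exact mem_sec_re.2 hvX.1
    obtain ⟨z, hz, hzA, hzB⟩ := isPreconnected_closed_iff.1 hsec A B hA hB (hsub.trans hAB)
      ⟨u, mu, huA⟩ ⟨v, mv, hvB⟩
    exact hdis z (hsub hz) hzA hzB
  have hI : IsPreconnected (Complex.re '' X) := by
    have h1 : Complex.re '' X = Complex.re '' K ∩ Icc a b := by
      ext t
      constructor
      · rintro ⟨z, hz, rfl⟩; exact ⟨⟨z, hz.1, rfl⟩, hz.2⟩
      · rintro ⟨⟨z, hz, rfl⟩, h⟩; exact ⟨z, ⟨hz, h⟩, rfl⟩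
    rw [h1]
    exact ((hKc.image _ Complex.continuous_re.continuousOn).ordConnected.inter
      ordConnected_Icc).isPreconnected
  obtain ⟨t, ht, htA, htB⟩ := isPreconnected_closed_iff.1 hI _ _ cA.isClosed cB.isClosed (by
    rintro _ ⟨z, hz, rfl⟩
    rcases hAB hz with h | h
    · exact Or.inl ⟨z, ⟨hz, h⟩, rfl⟩
    · exact Or.inr ⟨z, ⟨hz, h⟩, rfl⟩) ⟨p.re, ⟨p, hpX, rfl⟩, ⟨p, ⟨hpX, hpA⟩, rfl⟩⟩
    ⟨q.re, ⟨q, hqX, rfl⟩, ⟨q, ⟨hqX, hqB⟩, rfl⟩⟩
  exact hdisj t htA htB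

/-- value of a cut-off on the strip part of a component -/
def cv (c1 c2 : ℝ) (L0 : Cmp E) (χ : ℂ → ℝ) (L : Cmp E) : ℝ :=
  open Classical in
  if L = L0 then 0 else
    if h : (L.1 ∩ {z : ℂ | z.re ∈ Icc c1 c2}).Nonempty then χ h.choose else 0

variable {L0 : Cmp E}

theorem strip_sub_cut (hbox0 : ∀ z : ℂ, z.re ∈ Icc c1 c2 → z.im ∈ Icc b1 b2 → z ∈ L0.1)
    {L : Cmp E} (hL : L ≠ L0) : L.1 ∩ {z : ℂ | z.re ∈ Icc c1 c2} ⊆ cutE E c1 c2 b1 b2 := by
  rintro z ⟨hz, hzr⟩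
  refine ⟨L.subset hz, hzr, fun h => hL ?_⟩
  have h1 : z ∈ L0.1 := hbox0 z hzr (Ioo_subset_Icc_self h)
  have e1 := L.eq_of_mem hz
  have e2 := L0.eq_of_mem h1
  exact e1.trans e2.symm

theorem cv_near (hE : IsCompact E) (hord : ∀ L : Cmp E, ∀ t, OrdConnected (sec L.1 t))
    (hbox0 : ∀ z : ℂ, z.re ∈ Icc c1 c2 → z.im ∈ Icc b1 b2 → z ∈ L0.1)
    (hχ : LCE (cutE E c1 c2 b1 b2) χ) {L : Cmp E} (hL : L ≠ L0) {p : ℂ} (hp : p ∈ L.1)
    (hpr : p.re ∈ Icc c1 c2) : ∀ᶠ w in 𝓝 p, χ w = cv c1 c2 L0 χ L := by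
  obtain ⟨c, O, hO, hLO, hc⟩ := Tc_808.LC.const_near (Pct_185.LCE.LC hχ)
    (preconn_strip (L.isCompact hE) L.preconn (hord L) c1 c2) (strip_sub_cut hbox0 hL)
  have hne : (L.1 ∩ {z : ℂ | z.re ∈ Icc c1 c2}).Nonempty := ⟨p, hp, hpr⟩
  have h1 : cv c1 c2 L0 χ L = c := by
    unfold cv
    rw [if_neg hL, dif_pos hne]
    exact hc _ (hLO hne.choose_spec)
  filter_upwards [hO.mem_nhds (hLO ⟨hp, hpr⟩)] with w hw
  rw [h1, hc w hw]

theorem cv_mem (hχ01 : ∀ z, χ z ∈ Icc (0:ℝ) 1) (L : Cmp E) : cv c1 c2 L0 χ L ∈ Icc (0:ℝ) 1 := by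
  unfold cv
  split_ifs
  · exact ⟨le_rfl, zero_le_one⟩
  · exact hχ01 _
  · exact ⟨le_rfl, zero_le_one⟩

theorem cv_finite (hE : IsCompact E)
    (hbox0 : ∀ z : ℂ, z.re ∈ Icc c1 c2 → z.im ∈ Icc b1 b2 → z ∈ L0.1)
    (hχ : LCE (cutE E c1 c2 b1 b2) χ) : (range (cv c1 c2 L0 χ)).Finite := by
  have h1 := Sk3_157.finite_values (isCompact_cutE (c1 := c1) (c2 := c2) (b1 := b1) (b2 := b2) hE)
    (Pct_185.LCE.LC hχ)
  refine (h1.insert 0).subset ?_
  rintro _ ⟨L, rfl⟩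
  unfold cv
  by_cases hL : L = L0
  · rw [if_pos hL]; exact mem_insert _ _
  · rw [if_neg hL]
    by_cases h : (L.1 ∩ {z : ℂ | z.re ∈ Icc c1 c2}).Nonempty
    · rw [dif_pos h]
      exact mem_insert_of_mem _ ⟨_, strip_sub_cut hbox0 hL h.choose_spec, rfl⟩
    · rw [dif_neg h]; exact mem_insert _ _

/-- the test function near a component -/
theorem test_near (hE : IsCompact E) (hord : ∀ L : Cmp E, ∀ t, OrdConnected (sec L.1 t))
    (hbox0 : ∀ z : ℂ, z.re ∈ Icc c1 c2 → z.im ∈ Icc b1 b2 → z ∈ L0.1)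
    (hχ : LCE (cutE E c1 c2 b1 b2) χ) {G : ℝ → ℝ} (hGs : tsupport G ⊆ Icc c1 c2)
    {L : Cmp E} (hL : L ≠ L0) {p : ℂ} (hp : p ∈ L.1) :
    ∀ᶠ w in 𝓝 p, G w.re * χ w = cv c1 c2 L0 χ L * G w.re := by
  by_cases hpr : p.re ∈ tsupport G
  · filter_upwards [cv_near hE hord hbox0 hχ hL hp (hGs hpr)] with w hw
    rw [hw]; ring
  · have e1 : ∀ᶠ v : ℂ in 𝓝 p, v.re ∈ (tsupport G)ᶜ :=
      Complex.continuous_re.continuousAt.eventually
        ((isClosed_tsupport G).isOpen_compl.mem_nhds hpr)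
    filter_upwards [e1] with v hv
    rw [image_eq_zero_of_notMem_tsupport hv]; ring

theorem osc_le_cont {g : ℂ → ℝ} (hg : Continuous g) {K : Set ℂ} {c : ℝ} (hc : 0 ≤ c)
    (h : ∀ p ∈ K, ∀ q ∈ K, |g p - g q| ≤ c) : osc E g K ≤ c := by
  refine osc_le_of_forall hc fun ε hε => ?_
  refine ⟨⋃ p ∈ K, {w | |g w - g p| < ε / 2}, ?_, fun p hp => ?_, ?_⟩
  · exact isOpen_biUnion fun p _ => isOpen_lt (hg.sub continuous_const).abs continuous_const
  · refine mem_iUnion₂.2 ⟨p, hp, ?_⟩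
    simp only [mem_ofPred_eq, sub_self, abs_zero]; positivity
  · intro z hz _ w hw _
    obtain ⟨p, hp, h1⟩ := mem_iUnion₂.1 hz
    obtain ⟨q, hq, h2⟩ := mem_iUnion₂.1 hw
    have h1' : |g z - g p| < ε / 2 := h1
    have h2' : |g w - g q| < ε / 2 := h2
    have h3 := h p hp q hq
    rw [abs_lt] at h1' h2'
    rw [abs_le] at h3 ⊢
    constructor <;> linarith [h1'.1, h1'.2, h2'.1, h2'.2, h3.1, h3.2]

/-- **E-L** for test functions which near every `L ≠ L0` are `c L * G (re)` -/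
def ELZ (E : Set ℂ) (L0 : Cmp E) (s : Cmp E → ℝ) (y : ℂ → ℝ) : Prop :=
  ∀ (f : ℂ → ℝ) (G : ℝ → ℝ) (c : Cmp E → ℝ), ContDiff ℝ ∞ f → HasCompactSupport f →
    ContDiff ℝ ∞ G → HasCompactSupport G → (range c).Finite →
    (∀ L, L ≠ L0 → ∀ p ∈ L.1, ∀ᶠ w in 𝓝 p, f w = c L * G w.re) →
    |∫ w in Eᶜ, wdg f y w| ≤ ∑' L : Cmp E, s L * osc E f L.1

/-- **the inequality on the vertical lines of the cut picture** -/
theorem cut_ineq (hE : IsCompact E) (hord : ∀ L : Cmp E, ∀ t, OrdConnected (sec L.1 t))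
    (hsum : Summable fun L : Cmp E => wd L.1 ^ 2)
    {s : Cmp E → ℝ} (hs0 : ∀ L, 0 ≤ s L) (hs : Summable fun L => s L ^ 2) (hsL : s L0 = 0)
    (hy : YD E y) (hEL : ELZ E L0 s y) (hθ : Win θ c1 c2 d1 d2)
    (hbox0 : ∀ z : ℂ, z.re ∈ Icc c1 c2 → z.im ∈ Icc b1 b2 → z ∈ L0.1)
    (hχ : LCE (cutE E c1 c2 b1 b2) χ) (hχ01 : ∀ z, χ z ∈ Icc (0:ℝ) 1)
    {G : ℝ → ℝ} (hG : ContDiff ℝ ∞ G) (hGc : HasCompactSupport G) (hGs : tsupport G ⊆ Ioo d1 d2) :
    |∫ t, deriv G t * ∫ v, SY (cutE E c1 c2 b1 b2) χ (yc E θ y) ⟨t, v⟩| ≤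
      ∫ t, |deriv G t| * ∑' L : Sol E, wt (fun L => s L * cv c1 c2 L0 χ L) (fun _ => 1) L t := by
  have hbox : ∀ z : ℂ, z.re ∈ Icc c1 c2 → z.im ∈ Icc b1 b2 → z ∈ E := fun z h1 h2 =>
    L0.subset (hbox0 z h1 h2)
  have hGs' : tsupport G ⊆ Icc c1 c2 := hGs.trans fun x hx =>
    ⟨hθ.d1.trans hx.1.le, hx.2.le.trans hθ.d2⟩
  have hSY := integrable_SY (isCompact_cutE (c1 := c1) (c2 := c2) (b1 := b1) (b2 := b2) hE).isClosed
    hχ (yd_cut hE hy hθ hbox)
  have hG'c : Continuous (deriv G) := hG.continuous_deriv (by simp)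
  obtain ⟨C, hC⟩ := hGc.deriv.exists_bound_of_continuous hG'c
  have hfsm : ContDiff ℝ ∞ fun w : ℂ => G w.re * χ w :=
    (hG.comp Complex.reCLM.contDiff).mul hχ.smooth
  have h1 := hEL (fun w => G w.re * χ w) G (cv c1 c2 L0 χ) hfsm hχ.supp.mul_left hG hGc
    (cv_finite hE hbox0 hχ) (fun L hL p hp => test_near hE hord hbox0 hχ hGs' hL hp)
  rw [stokes_cut hE hy hθ hbox hχ hG hGc hGs, fub_re hSY hG'c hC] at h1
  refine h1.trans ?_
  set s' : Cmp E → ℝ := fun L => s L * cv c1 c2 L0 χ L with hs'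
  have hs'0 : ∀ L, 0 ≤ s' L := fun L => mul_nonneg (hs0 L) (cv_mem hχ01 L).1
  have hs'le : ∀ L, s' L ≤ s L := fun L => mul_le_of_le_one_right (hs0 L) (cv_mem hχ01 L).2
  have hs's : Summable fun L => s' L ^ 2 :=
    Summable.of_nonneg_of_le (fun L => sq_nonneg _) (fun L => pow_le_pow_left₀ (hs'0 L) (hs'le L) 2) hs
  have hW := wt_facts hE hsum hs'0 hs's (χ := fun _ => 1) (fun _ => ⟨zero_le_one, le_rfl⟩)
    (g := fun t => |deriv G t|) hG'c.abs (fun t => abs_nonneg _) (C := C) hC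
  -- the oscillations
  have hI : ∀ L : Cmp E, 0 ≤ ∫ t in (lo L.1)..(hi L.1), |deriv G t| := fun L =>
    intervalIntegral.integral_nonneg (lo_le_hi (L.isCompact hE) L.nonempty) fun t _ => abs_nonneg _
  have hosc : ∀ L : Cmp E, s L * osc E (fun w => G w.re * χ w) L.1
      ≤ s' L * ∫ t in (lo L.1)..(hi L.1), |deriv G t| := by
    intro L
    by_cases hL : L = L0
    · rw [hL, hsL, zero_mul]
      exact mul_nonneg (hs'0 _) (hI _)
    · have hcv := cv_mem (c1 := c1) (c2 := c2) (L0 := L0) hχ01 L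
      have h2 : osc E (fun w => G w.re * χ w) L.1
          ≤ cv c1 c2 L0 χ L * ∫ t in (lo L.1)..(hi L.1), |deriv G t| := by
        refine osc_le_cont hfsm.continuous (mul_nonneg hcv.1 (hI L)) fun p hp q hq => ?_
        rw [(test_near hE hord hbox0 hχ hGs' hL hp).self_of_nhds,
          (test_near hE hord hbox0 hχ hGs' hL hq).self_of_nhds, ← mul_sub, abs_mul,
          abs_of_nonneg hcv.1]
        refine mul_le_mul_of_nonneg_left ?_ hcv.1
        have hK := L.isCompact hE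
        have key : ∀ a b : ℝ, a ≤ b → lo L.1 ≤ a → b ≤ hi L.1 →
            |G a - G b| ≤ ∫ t in (lo L.1)..(hi L.1), |deriv G t| := by
          intro a b hab ha hb
          have e1 : ∫ t in a..b, deriv G t = G b - G a :=
            intervalIntegral.integral_deriv_eq_sub (fun x _ => (hG.differentiable (by simp)) x)
              (hG'c.intervalIntegrable _ _)
          rw [abs_sub_comm, ← e1]
          calc |∫ t in a..b, deriv G t| ≤ ∫ t in a..b, |deriv G t| :=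
                intervalIntegral.abs_integral_le_integral_abs hab
            _ ≤ ∫ t in (lo L.1)..(hi L.1), |deriv G t| :=
                intervalIntegral.integral_mono_interval ha hab hb
                  (Eventually.of_forall fun t => abs_nonneg _) (hG'c.abs.intervalIntegrable _ _)
        rcases le_total p.re q.re with h | h
        · exact key _ _ h (lo_le hK hp) (le_hi hK hq)
        · rw [abs_sub_comm]; exact key _ _ h (lo_le hK hq) (le_hi hK hp)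
      calc s L * osc E (fun w => G w.re * χ w) L.1
          ≤ s L * (cv c1 c2 L0 χ L * ∫ t in (lo L.1)..(hi L.1), |deriv G t|) :=
            mul_le_mul_of_nonneg_left h2 (hs0 L)
        _ = s' L * ∫ t in (lo L.1)..(hi L.1), |deriv G t| := by simp only [hs']; ring
  have hsumR : Summable fun L : Cmp E => s' L * ∫ t in (lo L.1)..(hi L.1), |deriv G t| := by
    have h2 : Summable fun L : Cmp E => C * (s' L * wd L.1) :=
      (summable_swd hE hsum hs'0 hs's).mul_left C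
    refine Summable.of_nonneg_of_le (fun L => mul_nonneg (hs'0 L) (hI L)) (fun L => ?_) h2
    have hle := lo_le_hi (L.isCompact hE) L.nonempty
    have h3 := intervalIntegral.integral_mono_on (μ := volume) hle
      (hG'c.abs.intervalIntegrable _ _) (continuous_const.intervalIntegrable _ _)
      (g := fun _ => C) (fun t _ => hC t)
    rw [intervalIntegral.integral_const, smul_eq_mul] at h3
    calc s' L * ∫ t in (lo L.1)..(hi L.1), |deriv G t| ≤ s' L * ((hi L.1 - lo L.1) * C) :=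
          mul_le_mul_of_nonneg_left h3 (hs'0 L)
      _ = C * (s' L * wd L.1) := by simp only [wd]; ring
  have hsumL : Summable fun L : Cmp E => s L * osc E (fun w => G w.re * χ w) L.1 :=
    Summable.of_nonneg_of_le (fun L => mul_nonneg (hs0 L) (osc_nonneg _ _ _)) hosc hsumR
  refine (hsumL.tsum_le_tsum hosc hsumR).trans ?_
  have h3 : (fun L : Cmp E => s' L * ∫ t in (lo L.1)..(hi L.1), |deriv G t|).support
      ⊆ {L : Cmp E | 0 < wd L.1} := by
    intro L hL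
    rcases (wd_nonneg hE L).lt_or_eq with h | h
    · exact h
    · exfalso
      apply hL
      simp only
      have h3 : hi L.1 = lo L.1 := by simp only [wd] at h; linarith
      rw [h3, intervalIntegral.integral_same, mul_zero]
  rw [← tsum_subtype_eq_of_support_subset h3]
  refine le_of_eq ?_
  have h4 : ∫ t, |deriv G t| * ∑' L : Sol E, wt s' (fun _ => 1) L t
      = ∫ t, ∑' L : Sol E, |deriv G t| * wt s' (fun _ => 1) L t := by
    congr 1; ext t; rw [tsum_mul_left]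
  rw [h4, hW.2.2]
  exact tsum_congr fun L => by rw [mul_one]

end

end Crest.Agent.R105.Eta_179
end

-- ▼ part R105/Eta3_179
section

/-!
# R105 (S0138, HCi): ends of levels at a free hair, part 3 (helper179): lines

* `GoodL`, `goodL_ae`, `line_key` : 319's computation on one vertical line
* `tp` : top of the section of `L0`
* `sep_two` : separation on two lines
* `ends_pair` : `|y(t0,v0) - y(t1,v1)| → 0` when `v0, v1` go down to `L0`
* `exists_eta` : one limit for a.e. line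
-/

set_option autoImplicit false

open Set Filter MeasureTheory Metric
open scoped Topology NNReal ContDiff ENNReal

namespace Crest.Agent.R105.Eta_179

open Tc_808 Bd_775 Sqr_185 Yv_319
open Sct_636 (LCE continuous_mk)
open Pct_185 (Sol pt pt_mem)

noncomputable section

variable {C : Set ℂ} {Y χ : ℂ → ℝ}

/-! ### one line -/

/-- good vertical lines for a function `Y` off a compact set `C` -/
structure GoodL (C : Set ℂ) (Y : ℂ → ℝ) (X : TopologicalSpace.Clopens C → ℂ → ℝ) (t : ℝ) :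
    Prop where
  int : ∀ u v, IntervalIntegrable (fun v => Cᶜ.indicator (gy Y) ⟨t, v⟩) volume u v
  dif : ∀ᵐ v : ℝ, (⟨t, v⟩ : ℂ) ∈ Cᶜ → DifferentiableAt ℝ Y ⟨t, v⟩
  sy : ∀ i, Integrable fun v : ℝ => SY C (X i) Y ⟨t, v⟩

theorem goodL_ae (hC : IsCompact C) (hY : YD C Y) {X : TopologicalSpace.Clopens C → ℂ → ℝ}
    (hX : ∀ S, LCE C (X S)) : ∀ᵐ t : ℝ, GoodL C Y X t := by
  have hEcl : IsClosed C := hC.isClosed
  have hm : MeasurableSet (Cᶜ : Set ℂ) := hEcl.isOpen_compl.measurableSet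
  have : CompactSpace C := isCompact_iff_compactSpace.1 hC
  have : Countable (TopologicalSpace.Clopens C) := Pv_937.countable_clopens C
  have a0 : ∀ n : ℕ, ∀ᵐ t : ℝ, Integrable fun v : ℝ =>
      (Cᶜ ∩ closedBall (0:ℂ) n).indicator (gy Y) ⟨t, v⟩ := by
    intro n
    have h1 : Integrable ((Cᶜ ∩ closedBall (0:ℂ) n).indicator (gy Y)) := by
      rw [integrable_indicator_iff (hm.inter isClosed_closedBall.measurableSet)]
      exact integrableOn_gy' hY n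
    exact (fub h1).1
  have a1 := ae_all_iff.2 a0
  have b1 : ∀ᵐ t : ℝ, ∀ᵐ v : ℝ, (⟨t, v⟩ : ℂ) ∈ Cᶜ → DifferentiableAt ℝ Y ⟨t, v⟩ := by
    have h1 := (ae_restrict_iff' hm).1 (ae_diff hEcl.isOpen_compl hY.loc)
    have mp := Complex.volume_preserving_equiv_real_prod.symm
    have h2 : ∀ᵐ p : ℝ × ℝ, (⟨p.1, p.2⟩ : ℂ) ∈ Cᶜ → DifferentiableAt ℝ Y ⟨p.1, p.2⟩ :=
      mp.quasiMeasurePreserving.ae h1
    rw [Measure.volume_eq_prod] at h2
    exact Measure.ae_ae_of_ae_prod h2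
  have d1 : ∀ᵐ t : ℝ, ∀ i, Integrable fun v : ℝ => SY C (X i) Y ⟨t, v⟩ :=
    ae_all_iff.2 fun i => (fub (integrable_SY hEcl (hX i) hY)).1
  filter_upwards [a1, b1, d1] with t ha hb hd
  refine ⟨?_, hb, hd⟩
  intro u v
  obtain ⟨n, hn⟩ := exists_nat_ge (|t| + (|u| + |v|))
  have h1 := (ha n).intervalIntegrable (a := u) (b := v)
  refine h1.congr_ae ?_
  rw [Filter.EventuallyEq, ae_restrict_iff' measurableSet_uIoc]
  refine Eventually.of_forall fun w hwI => ?_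
  have h3 : |w| ≤ |u| + |v| := by
    have h4 := uIoc_subset_uIcc hwI
    rw [mem_uIcc] at h4
    rcases h4 with h4 | h4
    · rw [abs_le]; constructor
      · linarith [neg_abs_le u, abs_nonneg v]
      · linarith [le_abs_self v, abs_nonneg u]
    · rw [abs_le]; constructor
      · linarith [neg_abs_le v, abs_nonneg u]
      · linarith [le_abs_self u, abs_nonneg v]
  have h5 : (⟨t, w⟩ : ℂ) ∈ closedBall (0:ℂ) n := by
    rw [mem_closedBall, dist_zero_right]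
    exact (norm_mk_le t w).trans (by linarith)
  by_cases hw : (⟨t, w⟩ : ℂ) ∈ Cᶜ
  · rw [indicator_of_mem hw, indicator_of_mem (show (⟨t, w⟩ : ℂ) ∈ Cᶜ ∩ closedBall 0 n from
      ⟨hw, h5⟩)]
  · rw [indicator_of_notMem hw, indicator_of_notMem
      (show (⟨t, w⟩ : ℂ) ∉ Cᶜ ∩ closedBall 0 n from fun h => hw h.1)]

/-- the increment on a line in terms of the total -/
theorem line_key (hC : IsCompact C) (hY : YD C Y) {X : TopologicalSpace.Clopens C → ℂ → ℝ}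
    (hX : ∀ S, LCE C (X S)) (hX1 : ∀ (S : TopologicalSpace.Clopens C) (q : C), q ∈ S → X S q = 1)
    (hX0 : ∀ (S : TopologicalSpace.Clopens C) (q : C), q ∉ S → X S q = 0)
    {t : ℝ} (ht : GoodL C Y X t) {S : TopologicalSpace.Clopens C} {c d : ℝ} (hcd : c ≤ d)
    (hc : (⟨t, c⟩ : ℂ) ∉ C) (hd : (⟨t, d⟩ : ℂ) ∉ C)
    (hS : ∀ q : C, q.1.re = t → (q ∈ S ↔ q.1.im ∈ Icc c d)) :
    Y ⟨t, d⟩ - Y ⟨t, c⟩ - ∫ v in c..d, Cᶜ.indicator (gy Y) ⟨t, v⟩
      = -∫ v : ℝ, SY C (X S) Y ⟨t, v⟩ := by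
  have hEcl : IsClosed C := hC.isClosed
  set K : Set ℝ := {v | (⟨t, v⟩ : ℂ) ∈ C} with hK
  have hvc : Continuous (fun v : ℝ => (⟨t, v⟩ : ℂ)) := Sct_636.continuous_mk t
  have hKcl : IsClosed K := hEcl.preimage hvc
  have hα : LocallyLipschitzOn Kᶜ (fun v => Y ⟨t, v⟩) := by
    intro v hv
    obtain ⟨L, u, hu, hL⟩ := hY.loc (show (⟨t, v⟩ : ℂ) ∈ Cᶜ from hv)
    rw [hEcl.isOpen_compl.nhdsWithin_eq (show (⟨t, v⟩ : ℂ) ∈ Cᶜ from hv)] at hu
    refine ⟨L * 1, (fun v : ℝ => (⟨t, v⟩ : ℂ)) ⁻¹' u,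
      mem_nhdsWithin_of_mem_nhds (hvc.continuousAt hu), ?_⟩
    exact hL.comp (lipschitz_mk t).lipschitzOnWith (fun x hx => hx)
  have hder : ∀ᵐ v : ℝ, v ∉ K →
      HasDerivAt (fun v => Y ⟨t, v⟩) (Cᶜ.indicator (gy Y) ⟨t, v⟩) v := by
    filter_upwards [ht.dif] with v hv hvK
    rw [indicator_of_mem (show (⟨t, v⟩ : ℂ) ∈ Cᶜ from hvK)]
    exact hasDerivAt_line (hv hvK)
  obtain ⟨R0, hR0, hR0'⟩ := exists_ball (hX S).supp
  set R : ℝ := R0 + |c| + |d| + 1 with hR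
  have hRpos : 0 < R := by positivity
  have hout : ∀ v : ℝ, R0 ≤ |v| → (⟨t, v⟩ : ℂ) ∉ tsupport (X S) := by
    intro v hv hmem
    have h1 := hR0' hmem
    rw [mem_ball, dist_zero_right] at h1
    linarith [abs_le_norm_mk t v]
  have hRR0 : R0 ≤ R := by
    have := abs_nonneg c; have := abs_nonneg d; rw [hR]; linarith
  have hkey := key' (α := fun v => Y ⟨t, v⟩) (b := fun v => Cᶜ.indicator (gy Y) ⟨t, v⟩)
    (χ := fun v => X S ⟨t, v⟩) (χ' := fun v => gy (X S) ⟨t, v⟩) (K := K) (y1 := c) (y2 := d)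
    (R := R) hKcl hα hder ht.int (fun u v => (ht.sy S).intervalIntegrable)
    (fun v => hasDerivAt_line ((hX S).smooth.differentiable (by simp)).differentiableAt)
    ((continuous_gy' (hX S).smooth).comp hvc) hcd hc hd
    (by linarith [neg_abs_le c, abs_nonneg d]) (by linarith [le_abs_self d, abs_nonneg c])
    (by
      intro v hvK hv
      have h1 := hvc.continuousAt.eventually ((hX S).lc ⟨t, v⟩ hvK)
      filter_upwards [h1] with x hx
      rw [hx]; exact hX1 S ⟨⟨t, v⟩, hvK⟩ ((hS ⟨⟨t, v⟩, hvK⟩ rfl).2 hv))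
    (by
      intro v hvK hv
      have h1 := hvc.continuousAt.eventually ((hX S).lc ⟨t, v⟩ hvK)
      filter_upwards [h1] with x hx
      rw [hx]; exact hX0 S ⟨⟨t, v⟩, hvK⟩ (fun h => hv ((hS ⟨⟨t, v⟩, hvK⟩ rfl).1 h)))
    (image_eq_zero_of_notMem_tsupport (hout (-R) (by rw [abs_neg, abs_of_pos hRpos]; exact hRR0)))
    (image_eq_zero_of_notMem_tsupport (hout R (by rw [abs_of_pos hRpos]; exact hRR0)))
  rw [hkey]
  congr 1
  have h2 : Function.support (fun v : ℝ => SY C (X S) Y ⟨t, v⟩) ⊆ Ioc (-R) R := by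
    intro v hv
    by_contra hn
    apply hv
    have h3 : R0 ≤ |v| := by
      rw [mem_Ioc, not_and_or, not_lt, not_le] at hn
      rcases hn with hn | hn
      · have : R ≤ |v| := by rw [← abs_neg]; exact le_trans (by linarith) (le_abs_self (-v))
        linarith
      · linarith [le_abs_self v]
    have h4 := hout v h3
    have h5 := notMem_tsupport_iff_eventuallyEq.1 h4
    have h6 : gy (X S) ⟨t, v⟩ = 0 := by
      rw [gy_eq_of_eventuallyEq (v := fun _ => (0:ℝ)) h5, gy_const]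
    simp only [SY]
    rw [h6, image_eq_zero_of_notMem_tsupport h4]; ring
  exact intervalIntegral.integral_eq_integral_of_support_subset (μ := volume) h2

/-! ### the top of `L0` -/

variable {E : Set ℂ} {y : ℂ → ℝ} {c1 c2 b1 b2 d1 d2 : ℝ} {θ : ℝ → ℝ} {L0 : Cmp E}

/-- top of the section -/
def tp (K : Set ℂ) (t : ℝ) : ℝ := sSup (sec K t)

theorem isCompact_sec {K : Set ℂ} (hK : IsCompact K) (t : ℝ) : IsCompact (sec K t) := by
  have h1 : IsClosed (sec K t) := hK.isClosed.preimage (Sqr_185.continuous_mk_right t)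
  obtain ⟨R, hR⟩ := hK.isBounded.exists_norm_le
  refine (isCompact_Icc (a := -R) (b := R)).of_isClosed_subset h1 fun v hv => ?_
  have h2 := hR _ (mem_sec.1 hv)
  exact abs_le.1 ((abs_le_norm_mk t v).trans h2)

/-- geometry of the box -/
structure Bxx (E : Set ℂ) (L0 : Cmp E) (c1 c2 b1 b2 : ℝ) : Prop where
  cpt : IsCompact E
  ord : ∀ L : Cmp E, ∀ t, OrdConnected (sec L.1 t)
  box : ∀ z : ℂ, z.re ∈ Icc c1 c2 → z.im ∈ Icc b1 b2 → z ∈ L0.1
  b : b1 < b2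

namespace Bxx
variable (H : Bxx E L0 c1 c2 b1 b2)
include H

theorem sec_box {t v : ℝ} (ht : t ∈ Icc c1 c2) (hv : v ∈ Icc b1 b2) : (⟨t, v⟩ : ℂ) ∈ L0.1 :=
  H.box ⟨t, v⟩ ht hv

theorem tp_mem {t : ℝ} (ht : t ∈ Icc c1 c2) : (⟨t, tp L0.1 t⟩ : ℂ) ∈ L0.1 :=
  (isCompact_sec (L0.isCompact H.cpt) t).sSup_mem
    ⟨b2, H.sec_box ht ⟨H.b.le, le_rfl⟩⟩

theorem le_tp {t v : ℝ} (hv : (⟨t, v⟩ : ℂ) ∈ L0.1) : v ≤ tp L0.1 t :=
  le_csSup (isCompact_sec (L0.isCompact H.cpt) t).bddAbove hv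

theorem b2_le {t : ℝ} (ht : t ∈ Icc c1 c2) : b2 ≤ tp L0.1 t :=
  H.le_tp (H.sec_box ht ⟨H.b.le, le_rfl⟩)

theorem mem_L0 {t v : ℝ} (ht : t ∈ Icc c1 c2) (h1 : b1 ≤ v) (h2 : v ≤ tp L0.1 t) :
    (⟨t, v⟩ : ℂ) ∈ L0.1 :=
  (H.ord L0 t).out (H.sec_box ht ⟨le_rfl, H.b.le⟩) (H.tp_mem ht) ⟨h1, h2⟩

theorem eq_L0 {L : Cmp E} {z : ℂ} (h1 : z ∈ L.1) (h2 : z ∈ L0.1) : L = L0 :=
  (L.eq_of_mem h1).trans (L0.eq_of_mem h2).symm

/-- gap above `L0` for one other component -/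
theorem gap {L : Cmp E} (hL : L ≠ L0) {t : ℝ} (ht : t ∈ Icc c1 c2) :
    ∃ δ > 0, ∀ v, (⟨t, v⟩ : ℂ) ∈ L.1 → v ∉ Icc b1 (tp L0.1 t + δ) := by
  have h1 : (⟨t, tp L0.1 t⟩ : ℂ) ∉ L.1 := fun h => hL (H.eq_L0 h (H.tp_mem ht))
  have h2 : IsOpen {v : ℝ | (⟨t, v⟩ : ℂ) ∉ L.1} :=
    ((L.isCompact H.cpt).isClosed.preimage (Sqr_185.continuous_mk_right t)).isOpen_compl
  obtain ⟨δ, hδ, h3⟩ := Metric.isOpen_iff.1 h2 _ h1
  refine ⟨δ / 2, by positivity, fun v hv hvI => ?_⟩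
  by_cases h : v ≤ tp L0.1 t
  · exact hL (H.eq_L0 hv (H.mem_L0 ht hvI.1 h))
  · rw [not_le] at h
    have : v ∈ ball (tp L0.1 t) δ := by
      rw [mem_ball, Real.dist_eq, abs_of_pos (by linarith)]
      linarith [hvI.2]
    exact h3 this hv

/-- gap for finitely many components -/
theorem gap_fin {𝓛 : Set (Cmp E)} (h𝓛 : 𝓛.Finite) {t : ℝ} (ht : t ∈ Icc c1 c2) :
    ∃ δ > 0, ∀ L ∈ 𝓛, L ≠ L0 → ∀ v, (⟨t, v⟩ : ℂ) ∈ L.1 → v ∉ Icc b1 (tp L0.1 t + δ) := by
  refine Set.Finite.induction_on (motive := fun s _ => ∃ δ > 0, ∀ L ∈ s, L ≠ L0 → ∀ v,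
    (⟨t, v⟩ : ℂ) ∈ L.1 → v ∉ Icc b1 (tp L0.1 t + δ)) 𝓛 h𝓛 ⟨1, one_pos, fun L hL => hL.elim⟩ ?_
  rintro L s - - ⟨δ, hδ, h⟩
  by_cases hL : L = L0
  · refine ⟨δ, hδ, ?_⟩
    rintro L' (rfl | hL') hne
    · exact absurd hL hne
    · exact h L' hL' hne
  · obtain ⟨δ', hδ', h'⟩ := H.gap hL ht
    refine ⟨min δ δ', lt_min hδ hδ', ?_⟩
    rintro L' (rfl | hL') hne v hv hvI
    · exact h' v hv ⟨hvI.1, hvI.2.trans (by linarith [min_le_right δ δ'])⟩
    · exact h L' hL' hne v hv ⟨hvI.1, hvI.2.trans (by linarith [min_le_left δ δ'])⟩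

/-- free points above `L0` -/
theorem exists_free {t : ℝ} (ht : t ∈ Icc c1 c2) {δ : ℝ} (hδ : 0 < δ) :
    ∃ v ∈ Ioo (tp L0.1 t) (tp L0.1 t + δ), (⟨t, v⟩ : ℂ) ∉ E := by
  by_contra hcon
  push Not at hcon
  have h1 : ∀ v ∈ Icc (tp L0.1 t) (tp L0.1 t + δ / 2), (⟨t, v⟩ : ℂ) ∈ E := by
    intro v hv
    rcases eq_or_lt_of_le hv.1 with h | h
    · rw [← h]; exact L0.subset (H.tp_mem ht)
    · exact hcon v ⟨h, by linarith [hv.2]⟩
  have hpre : IsPreconnected ((fun s : ℝ => (⟨t, s⟩ : ℂ)) '' Icc (tp L0.1 t) (tp L0.1 t + δ / 2)) :=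
    isPreconnected_Icc.image _ (Sqr_185.continuous_mk_right t).continuousOn
  have hsub : (fun s : ℝ => (⟨t, s⟩ : ℂ)) '' Icc (tp L0.1 t) (tp L0.1 t + δ / 2) ⊆ E := by
    rintro _ ⟨s, hs, rfl⟩; exact h1 s hs
  have hm : (⟨t, tp L0.1 t⟩ : ℂ) ∈
      (fun s : ℝ => (⟨t, s⟩ : ℂ)) '' Icc (tp L0.1 t) (tp L0.1 t + δ / 2) :=
    ⟨_, ⟨le_rfl, by linarith⟩, rfl⟩
  have h2 := hpre.subset_connectedComponentIn hm hsub
  rw [Ni_459.Cmp.cc_eq L0 (H.tp_mem ht)] at h2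
  have h3 : (⟨t, tp L0.1 t + δ / 2⟩ : ℂ) ∈ L0.1 := h2 ⟨_, ⟨by linarith, le_rfl⟩, rfl⟩
  have := H.le_tp h3
  linarith

/-- **separation on two lines** -/
theorem sep_two {m : ℝ} (hm : m ∈ Ioo b1 b2) {t v : Fin 2 → ℝ} (ht : ∀ i, t i ∈ Icc c1 c2)
    (hv : ∀ i, tp L0.1 (t i) < v i) (hvE : ∀ i, (⟨t i, v i⟩ : ℂ) ∉ E)
    (hF : ∀ L : Cmp E, L ≠ L0 → (sec L.1 (t 0)).Nonempty → (sec L.1 (t 1)).Nonempty →
      ∀ i, ∀ r, (⟨t i, r⟩ : ℂ) ∈ L.1 → r ∉ Icc m (v i)) :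
    ∃ S : TopologicalSpace.Clopens (cutE E c1 c2 b1 b2), ∀ i, ∀ q : cutE E c1 c2 b1 b2,
      q.1.re = t i → (q ∈ S ↔ q.1.im ∈ Icc m (v i)) := by
  have hCc := isCompact_cutE (c1 := c1) (c2 := c2) (b1 := b1) (b2 := b2) H.cpt
  have : CompactSpace (cutE E c1 c2 b1 b2) := isCompact_iff_compactSpace.1 hCc
  set Z1 : Set (cutE E c1 c2 b1 b2) := {q | ∃ i, q.1.re = t i ∧ q.1.im ∈ Icc m (v i)} with hZ1
  set Z2 : Set (cutE E c1 c2 b1 b2) := {q | ∃ i, q.1.re = t i ∧ q.1.im ∉ Ioo m (v i)} with hZ2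
  have cx : Continuous (fun q : cutE E c1 c2 b1 b2 => q.1.re) :=
    Complex.continuous_re.comp continuous_subtype_val
  have cy : Continuous (fun q : cutE E c1 c2 b1 b2 => q.1.im) :=
    Complex.continuous_im.comp continuous_subtype_val
  have k1 : IsClosed Z1 := by
    have : Z1 = ⋃ i, {q : cutE E c1 c2 b1 b2 | q.1.re = t i ∧ q.1.im ∈ Icc m (v i)} := by
      ext q; simp only [hZ1, mem_ofPred_eq, mem_iUnion]
    rw [this]
    exact isClosed_iUnion_of_finite fun i =>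
      (isClosed_eq cx continuous_const).inter (isClosed_Icc.preimage cy)
  have k2 : IsClosed Z2 := by
    have : Z2 = ⋃ i, {q : cutE E c1 c2 b1 b2 | q.1.re = t i ∧ q.1.im ∉ Ioo m (v i)} := by
      ext q; simp only [hZ2, mem_ofPred_eq, mem_iUnion]
    rw [this]
    exact isClosed_iUnion_of_finite fun i =>
      (isClosed_eq cx continuous_const).inter ((isOpen_Ioo.isClosed_compl).preimage cy)
  have hmv : ∀ i, m < v i := fun i => (hm.2.trans_le (H.b2_le (ht i))).trans (hv i)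
  obtain ⟨S, hS, hS1, hS2⟩ := Pv_937.exists_clopen_sep k1 k2 (by
    rintro q ⟨i, hqx, hqy⟩ q' ⟨j, hqx', hqy'⟩ hmem
    have hmem' := mem_cc hmem
    set L : Cmp E := Cmp.of (cutE_sub q.2) with hL
    have hqL : q.1 ∈ L.1 := mem_connectedComponentIn (cutE_sub q.2)
    have hDL : connectedComponentIn (cutE E c1 c2 b1 b2) q.1 ⊆ L.1 :=
      connectedComponentIn_mono _ cutE_sub
    have hq'L : q'.1 ∈ L.1 := hDL hmem'
    have e1 : ∀ {r : ℂ} {s : ℝ}, r.re = s → (⟨s, r.im⟩ : ℂ) = r := fun h => Complex.ext h.symm rfl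
    have mq : (⟨t i, q.1.im⟩ : ℂ) ∈ L.1 := by rw [e1 hqx]; exact hqL
    have mq' : (⟨t j, q'.1.im⟩ : ℂ) ∈ L.1 := by rw [e1 hqx']; exact hq'L
    by_cases hLL : L = L0
    · -- inside `L0`
      have hpre : IsPreconnected (Complex.im '' connectedComponentIn (cutE E c1 c2 b1 b2) q.1) :=
        isPreconnected_connectedComponentIn.image _ Complex.continuous_im.continuousOn
      have hq2 : b2 ≤ q.1.im := by
        by_contra h
        rw [not_le] at h
        exact q.2.2.2 ⟨hm.1.trans_le hqy.1, h⟩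
      have hq'2 : b2 ≤ q'.1.im := by
        by_contra h
        rw [not_le] at h
        have hq'1 : q'.1.im ≤ b1 := by
          by_contra h'
          rw [not_le] at h'
          exact q'.2.2.2 ⟨h', h⟩
        have h5 : m ∈ Complex.im '' connectedComponentIn (cutE E c1 c2 b1 b2) q.1 :=
          hpre.ordConnected.out ⟨_, hmem', rfl⟩ ⟨_, mem_connectedComponentIn q.2, rfl⟩
            ⟨hq'1.trans hm.1.le, hm.2.le.trans hq2⟩
        obtain ⟨z, hz, hzm⟩ := h5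
        have := (connectedComponentIn_subset _ _ hz).2.2
        rw [hzm] at this
        exact this hm
      have hq'v : v j ≤ q'.1.im := by
        by_contra h
        rw [not_le] at h
        exact hqy' ⟨hm.2.trans_le hq'2, h⟩
      rw [hLL] at mq'
      have := H.le_tp mq'
      linarith [hv j]
    · by_cases hij : i = j
      · subst hij
        rw [mem_Ioo, not_and_or, not_lt, not_lt] at hqy'
        rcases hqy' with h5 | h5
        · have h6 : (⟨t i, m⟩ : ℂ) ∈ L.1 := (H.ord L (t i)).out mq' mq ⟨h5, hqy.1⟩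
          exact hLL (H.eq_L0 h6 (H.sec_box (ht i) ⟨hm.1.le, hm.2.le⟩))
        · have h6 : (⟨t i, v i⟩ : ℂ) ∈ L.1 := (H.ord L (t i)).out mq mq' ⟨hqy.2, h5⟩
          exact hvE i (L.subset h6)
      · have hne : (sec L.1 (t 0)).Nonempty ∧ (sec L.1 (t 1)).Nonempty := by
          fin_cases i <;> fin_cases j <;> simp only [Fin.mk_one, Fin.zero_eta, Fin.isValue,
            not_true_eq_false] at hij mq mq' ⊢
          · exact ⟨⟨_, mq⟩, ⟨_, mq'⟩⟩
          · exact ⟨⟨_, mq'⟩, ⟨_, mq⟩⟩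
        exact hF L hLL hne.1 hne.2 i _ mq hqy)
  refine ⟨⟨S, hS⟩, fun i q hq => ⟨fun h => ?_, fun h => hS1 ⟨i, hq, h⟩⟩⟩
  by_contra hn
  exact hS2 q ⟨i, hq, fun h' => hn (Ioo_subset_Icc_self h')⟩ h

end Bxx

end

end Crest.Agent.R105.Eta_179
end

-- ▼ part R105/Eta4_179
section

/-!
# R105 (S0138, HCi): ends of levels at a free hair, part 4 (helper179): the picture theorem

* `ends_pair` : for good lines `t0 ≠ t1` of the window, `|y(t0,v0) - y(t1,v1)| ≤ ε` as soon as the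
  free points `v0, v1` are close enough above `L0`
* `exists_eta` : `y` has one and the same limit at `L0` from above along a.e. line
-/

set_option autoImplicit false

open Set Filter MeasureTheory Metric
open scoped Topology NNReal ContDiff ENNReal

namespace Crest.Agent.R105.Eta_179

open Tc_808 Bd_775 Sqr_185 Yv_319
open Sct_636 (LCE continuous_mk)
open Pct_185 (Sol pt pt_mem)

noncomputable section

variable {E : Set ℂ} {y : ℂ → ℝ} {c1 c2 b1 b2 d1 d2 : ℝ} {θ : ℝ → ℝ} {L0 : Cmp E}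
  {s : Cmp E → ℝ} {X : TopologicalSpace.Clopens (cutE E c1 c2 b1 b2) → ℂ → ℝ}

/-- cut-offs of the clopen parts -/
structure Cuts (C : Set ℂ) (X : TopologicalSpace.Clopens C → ℂ → ℝ) : Prop where
  lce : ∀ S, LCE C (X S)
  mem : ∀ S z, X S z ∈ Icc (0:ℝ) 1
  one : ∀ (S : TopologicalSpace.Clopens C) (q : C), q ∈ S → X S q = 1
  zero : ∀ (S : TopologicalSpace.Clopens C) (q : C), q ∉ S → X S q = 0

theorem exists_cuts {C : Set ℂ} (hC : IsCompact C) :
    ∃ X : TopologicalSpace.Clopens C → ℂ → ℝ, Cuts C X := by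
  choose X h1 h2 h3 h4 using fun S : TopologicalSpace.Clopens C => exists_cutS hC S.isClopen
  exact ⟨X, h1, h2, h3, h4⟩

/-- totals -/
def Ph (E : Set ℂ) (c1 c2 b1 b2 : ℝ) (θ : ℝ → ℝ) (y χ : ℂ → ℝ) (t : ℝ) : ℝ :=
  ∫ v : ℝ, SY (cutE E c1 c2 b1 b2) χ (yc E θ y) ⟨t, v⟩

/-- weights -/
def Wt (c1 c2 : ℝ) (L0 : Cmp E) (s : Cmp E → ℝ) (χ : ℂ → ℝ) (t : ℝ) : ℝ :=
  ∑' L : Sol E, wt (fun L => s L * cv c1 c2 L0 χ L) (fun _ => 1) L t

/-- good lines -/
structure GT (E : Set ℂ) (c1 c2 b1 b2 : ℝ) (θ : ℝ → ℝ) (y : ℂ → ℝ) (L0 : Cmp E) (s : Cmp E → ℝ)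
    (X : TopologicalSpace.Clopens (cutE E c1 c2 b1 b2) → ℂ → ℝ) (t : ℝ) : Prop where
  gl : GoodL (cutE E c1 c2 b1 b2) (yc E θ y) X t
  ph : ∀ S, Tendsto (fun n => ∫ r, (bp n).normed volume (t - r) * Ph E c1 c2 b1 b2 θ y (X S) r)
    atTop (𝓝 (Ph E c1 c2 b1 b2 θ y (X S) t))
  wt : ∀ S, Tendsto (fun n => ∫ r, (bp n).normed volume (t - r) * Wt c1 c2 L0 s (X S) r)
    atTop (𝓝 (Wt c1 c2 L0 s (X S) t))
  sm : Summable fun L : Sol E => (Icc (lo L.1.1) (hi L.1.1)).indicator (fun _ => s L.1) t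

/-- the hypotheses -/
structure Hy (E : Set ℂ) (L0 : Cmp E) (c1 c2 b1 b2 d1 d2 : ℝ) (θ : ℝ → ℝ) (s : Cmp E → ℝ)
    (y : ℂ → ℝ) : Prop where
  bx : Bxx E L0 c1 c2 b1 b2
  sum : Summable fun L : Cmp E => wd L.1 ^ 2
  s0 : ∀ L, 0 ≤ s L
  ss : Summable fun L => s L ^ 2
  sL : s L0 = 0
  yd : YD E y
  el : ELZ E L0 s y
  win : Win θ c1 c2 d1 d2

namespace Hy
variable (h : Hy E L0 c1 c2 b1 b2 d1 d2 θ s y)
include h

theorem box (z : ℂ) (h1 : z.re ∈ Icc c1 c2) (h2 : z.im ∈ Icc b1 b2) : z ∈ E :=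
  L0.subset (h.bx.box z h1 h2)

theorem mem_c {t : ℝ} (ht : t ∈ Ioo d1 d2) : t ∈ Icc c1 c2 :=
  ⟨h.win.d1.trans ht.1.le, ht.2.le.trans h.win.d2⟩

theorem s'_facts {χ : ℂ → ℝ} (hχ01 : ∀ z, χ z ∈ Icc (0:ℝ) 1) :
    (∀ L, 0 ≤ s L * cv c1 c2 L0 χ L) ∧ (∀ L, s L * cv c1 c2 L0 χ L ≤ s L) ∧
      Summable fun L => (s L * cv c1 c2 L0 χ L) ^ 2 := by
  have h1 : ∀ L, 0 ≤ s L * cv c1 c2 L0 χ L := fun L => mul_nonneg (h.s0 L) (cv_mem hχ01 L).1
  have h2 : ∀ L, s L * cv c1 c2 L0 χ L ≤ s L := fun L =>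
    mul_le_of_le_one_right (h.s0 L) (cv_mem hχ01 L).2
  exact ⟨h1, h2, Summable.of_nonneg_of_le (fun L => sq_nonneg _)
    (fun L => pow_le_pow_left₀ (h1 L) (h2 L) 2) h.ss⟩

theorem int_Wt {χ : ℂ → ℝ} (hχ01 : ∀ z, χ z ∈ Icc (0:ℝ) 1) : Integrable (Wt c1 c2 L0 s χ) := by
  obtain ⟨h1, -, h3⟩ := h.s'_facts hχ01
  have hW := wt_facts h.bx.cpt h.sum h1 h3 (χ := fun _ => 1) (fun _ => ⟨zero_le_one, le_rfl⟩)
    (g := fun _ => 1) continuous_const (fun _ => zero_le_one) (C := 1) (fun _ => le_rfl)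
  simp only [one_mul] at hW
  exact hW.1

theorem Wt_nonneg {χ : ℂ → ℝ} (hχ01 : ∀ z, χ z ∈ Icc (0:ℝ) 1) (t : ℝ) :
    0 ≤ Wt c1 c2 L0 s χ t := by
  obtain ⟨h1, -, -⟩ := h.s'_facts hχ01
  exact tsum_nonneg fun L => wt_nonneg h1 (fun _ => ⟨zero_le_one, le_rfl⟩) L t

theorem int_Ph {χ : ℂ → ℝ} (hχ : LCE (cutE E c1 c2 b1 b2) χ) :
    Integrable (Ph E c1 c2 b1 b2 θ y χ) := by
  have hSY := integrable_SY
    (isCompact_cutE (c1 := c1) (c2 := c2) (b1 := b1) (b2 := b2) h.bx.cpt).isClosed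
    hχ (yd_cut h.bx.cpt h.yd h.win h.box)
  exact (fub hSY).2.1

theorem gt_ae (hX : Cuts (cutE E c1 c2 b1 b2) X) : ∀ᵐ t, GT E c1 c2 b1 b2 θ y L0 s X t := by
  have hC := isCompact_cutE (c1 := c1) (c2 := c2) (b1 := b1) (b2 := b2) h.bx.cpt
  have : CompactSpace (cutE E c1 c2 b1 b2) := isCompact_iff_compactSpace.1 hC
  have : Countable (TopologicalSpace.Clopens (cutE E c1 c2 b1 b2)) := Pv_937.countable_clopens _
  have e1 : ∀ᵐ t : ℝ, Summable fun L : Sol E => Yv_319.wt s (fun _ => 1) L t := by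
    have := (wt_facts h.bx.cpt h.sum h.s0 h.ss (χ := fun _ => 1) (fun _ => ⟨zero_le_one, le_rfl⟩)
      (g := fun _ => 1) continuous_const (fun _ => zero_le_one) (C := 1) (fun _ => le_rfl)).2.1
    simpa only [one_mul] using this
  have a1 := ae_all_iff.2 fun S => ae_bp (h.int_Ph (hX.lce S))
  have a2 := ae_all_iff.2 fun S => ae_bp (h.int_Wt (hX.mem S))
  filter_upwards [goodL_ae hC (yd_cut h.bx.cpt h.yd h.win h.box) hX.lce, a1, a2, e1]
    with t h1 h2 h3 h4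
  refine ⟨h1, h2, h3, ?_⟩
  simpa only [Yv_319.wt, mul_one] using h4

theorem pair (hX : Cuts (cutE E c1 c2 b1 b2) X) {t0 t1 : ℝ}
    (g0 : GT E c1 c2 b1 b2 θ y L0 s X t0) (g1 : GT E c1 c2 b1 b2 θ y L0 s X t1)
    (m0 : t0 ∈ Ioo d1 d2) (m1 : t1 ∈ Ioo d1 d2)
    (S : TopologicalSpace.Clopens (cutE E c1 c2 b1 b2)) :
    |Ph E c1 c2 b1 b2 θ y (X S) t0 - Ph E c1 c2 b1 b2 θ y (X S) t1| ≤
      Wt c1 c2 L0 s (X S) t0 + Wt c1 c2 L0 s (X S) t1 := by
  refine pair_le (h.int_Ph (hX.lce S)) (h.int_Wt (hX.mem S)) (fun G G1 G2 G3 => ?_)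
    (h.Wt_nonneg (hX.mem S)) m0 m1 (g0.ph S) (g0.wt S) (g1.ph S) (g1.wt S)
  exact cut_ineq h.bx.cpt h.bx.ord h.sum h.s0 h.ss h.sL h.yd h.el h.win h.bx.box (hX.lce S)
    (hX.mem S) G1 G2 G3

/-- the weights are small for a clopen part which meets the line close to `L0` only -/
theorem Wt_small (hX : Cuts (cutE E c1 c2 b1 b2) X) {t : ℝ} (ht : t ∈ Icc c1 c2)
    (hsm : Summable fun L : Sol E => (Icc (lo L.1.1) (hi L.1.1)).indicator (fun _ => s L.1) t)
    {m : ℝ} (hm : b1 ≤ m) {ε : ℝ} (hε : 0 < ε) :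
    ∃ δ > 0, ∀ v, v ≤ tp L0.1 t + δ → ∀ S : TopologicalSpace.Clopens (cutE E c1 c2 b1 b2),
      (∀ q : cutE E c1 c2 b1 b2, q.1.re = t → (q ∈ S ↔ q.1.im ∈ Icc m v)) →
      Wt c1 c2 L0 s (X S) t ≤ ε := by
  set g : Sol E → ℝ := fun L => (Icc (lo L.1.1) (hi L.1.1)).indicator (fun _ => s L.1) t with hg
  have hg0 : ∀ L, 0 ≤ g L := fun L => indicator_nonneg (fun _ _ => h.s0 _) t
  obtain ⟨Fs, hFs⟩ : ∃ Fs : Finset (Sol E), ∑' L : {L // L ∉ Fs}, g L ≤ ε := by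
    have h1 := tendsto_tsum_compl_atTop_zero g
    have h2 := h1.eventually (gt_mem_nhds hε)
    obtain ⟨Fs, hFs⟩ := h2.exists
    exact ⟨Fs, hFs.le⟩
  obtain ⟨δ, hδ, hgap⟩ := h.bx.gap_fin (𝓛 := (fun L : Sol E => L.1) '' (Fs : Set (Sol E)))
    (Fs.finite_toSet.image _) ht
  refine ⟨δ, hδ, fun v hv S hS => ?_⟩
  obtain ⟨k1, k2, -⟩ := h.s'_facts (hX.mem S)
  have key : ∀ L : Sol E, Yv_319.wt (fun L => s L * cv c1 c2 L0 (X S) L) (fun _ => 1) L t
      ≤ ((Fs : Set (Sol E))ᶜ).indicator g L := by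
    intro L
    by_cases hL : L ∈ (Fs : Set (Sol E))
    · rw [indicator_of_notMem (show L ∉ ((Fs : Set (Sol E))ᶜ) from fun h => h hL)]
      refine le_of_eq ?_
      unfold Yv_319.wt
      by_cases hti : t ∈ Icc (lo L.1.1) (hi L.1.1)
      · rw [indicator_of_mem hti]
        by_cases hL0 : L.1 = L0
        · have : cv c1 c2 L0 (X S) L.1 = 0 := by unfold cv; rw [if_pos hL0]
          show (s L.1 * cv c1 c2 L0 (X S) L.1) * 1 = 0
          rw [this]; ring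
        · obtain ⟨r, hr⟩ := sec_nonempty (L.1.isCompact h.bx.cpt) L.1.preconn L.1.nonempty hti
          have hrL : (⟨t, r⟩ : ℂ) ∈ L.1.1 := hr
          have hcut : (⟨t, r⟩ : ℂ) ∈ cutE E c1 c2 b1 b2 :=
            strip_sub_cut h.bx.box hL0 ⟨hrL, ht⟩
          have h1 : X S ⟨t, r⟩ = cv c1 c2 L0 (X S) L.1 :=
            (cv_near h.bx.cpt h.bx.ord h.bx.box (hX.lce S) hL0 hrL ht).self_of_nhds
          have h2 : X S ⟨t, r⟩ = 0 := by
            refine hX.zero S ⟨⟨t, r⟩, hcut⟩ fun hmem => ?_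
            have h3 := (hS ⟨⟨t, r⟩, hcut⟩ rfl).1 hmem
            exact hgap L.1 ⟨L, hL, rfl⟩ hL0 r hrL ⟨hm.trans h3.1, h3.2.trans hv⟩
          show (s L.1 * cv c1 c2 L0 (X S) L.1) * 1 = 0
          rw [← h1, h2]; ring
      · rw [indicator_of_notMem hti]
    · rw [indicator_of_mem (show L ∈ (Fs : Set (Sol E))ᶜ from hL)]
      unfold Yv_319.wt
      simp only [hg]
      by_cases hti : t ∈ Icc (lo L.1.1) (hi L.1.1)
      · rw [indicator_of_mem hti, indicator_of_mem hti, mul_one]; exact k2 _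
      · rw [indicator_of_notMem hti, indicator_of_notMem hti]
  have hsi : Summable (((Fs : Set (Sol E))ᶜ).indicator g) := hsm.indicator _
  have h0 : ∀ L, 0 ≤ Yv_319.wt (fun L => s L * cv c1 c2 L0 (X S) L) (fun _ => 1) L t := fun L =>
    wt_nonneg k1 (fun _ => ⟨zero_le_one, le_rfl⟩) L t
  calc Wt c1 c2 L0 s (X S) t
      ≤ ∑' L, ((Fs : Set (Sol E))ᶜ).indicator g L :=
        (Summable.of_nonneg_of_le h0 key hsi).tsum_le_tsum key hsi
    _ = ∑' L : {L // L ∉ Fs}, g L := by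
        rw [← tsum_subtype ((Fs : Set (Sol E))ᶜ) g]
        rfl
    _ ≤ ε := hFs

/-- the integral of the derivative is small -/
theorem int_small {t : ℝ} (ht : t ∈ Ioo d1 d2)
    (gl : GoodL (cutE E c1 c2 b1 b2) (yc E θ y) X t) {m : ℝ} (hm : m ∈ Ioo b1 b2) {ε : ℝ}
    (hε : 0 < ε) : ∃ δ > 0, ∀ v ∈ Ioo (tp L0.1 t) (tp L0.1 t + δ),
      |∫ r in m..v, (cutE E c1 c2 b1 b2)ᶜ.indicator (gy (yc E θ y)) ⟨t, r⟩| ≤ ε := by
  have htc := h.mem_c ht
  have hmt : m ≤ tp L0.1 t := hm.2.le.trans (h.bx.b2_le htc)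
  set f : ℝ → ℝ := fun r => (cutE E c1 c2 b1 b2)ᶜ.indicator (gy (yc E θ y)) ⟨t, r⟩ with hf
  have hz : ∀ r ∈ Icc m (tp L0.1 t), f r = 0 := by
    intro r hr
    have hrL : (⟨t, r⟩ : ℂ) ∈ L0.1 := h.bx.mem_L0 htc (hm.1.le.trans hr.1) hr.2
    by_cases hc : (⟨t, r⟩ : ℂ) ∈ cutE E c1 c2 b1 b2
    · simp only [hf]; rw [indicator_of_notMem (show (⟨t, r⟩ : ℂ) ∉ (cutE E c1 c2 b1 b2)ᶜ from fun h => h hc)]
    · simp only [hf]; rw [indicator_of_mem (show (⟨t, r⟩ : ℂ) ∈ (cutE E c1 c2 b1 b2)ᶜ from hc)]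
      rw [gy_eq_of_eventuallyEq (v := fun _ => (0:ℝ)) (yc_zero h.win h.box (L0.subset hrL) hc),
        gy_const]
  have hcont : Continuous fun v => ∫ r in m..v, f r :=
    intervalIntegral.continuous_primitive gl.int m
  have h0 : ∫ r in m..(tp L0.1 t), f r = 0 := by
    refine intervalIntegral.integral_zero_ae (Eventually.of_forall fun r hr => ?_)
    rw [uIoc_of_le hmt] at hr
    exact hz r ⟨hr.1.le, hr.2⟩
  have h1 := hcont.continuousAt (x := tp L0.1 t)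
  rw [Metric.continuousAt_iff] at h1
  obtain ⟨δ, hδ, h2⟩ := h1 ε hε
  refine ⟨δ, hδ, fun v hv => ?_⟩
  have h3 := h2 (x := v) (by rw [Real.dist_eq, abs_of_pos (by linarith [hv.1])]; linarith [hv.2])
  rw [Real.dist_eq, h0, sub_zero] at h3
  exact h3.le

/-- **two lines** -/
theorem ends_pair (hX : Cuts (cutE E c1 c2 b1 b2) X) {t0 t1 : ℝ} (hne : t0 ≠ t1)
    (g0 : GT E c1 c2 b1 b2 θ y L0 s X t0) (g1 : GT E c1 c2 b1 b2 θ y L0 s X t1)
    (m0 : t0 ∈ Ioo d1 d2) (m1 : t1 ∈ Ioo d1 d2) {ε : ℝ} (hε : 0 < ε) :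
    ∃ δ > 0, ∀ v0 ∈ Ioo (tp L0.1 t0) (tp L0.1 t0 + δ), (⟨t0, v0⟩ : ℂ) ∉ E →
      ∀ v1 ∈ Ioo (tp L0.1 t1) (tp L0.1 t1 + δ), (⟨t1, v1⟩ : ℂ) ∉ E →
      |y ⟨t0, v0⟩ - y ⟨t1, v1⟩| ≤ ε := by
  set m : ℝ := (b1 + b2) / 2 with hm
  have hb := h.bx.b
  have hmI : m ∈ Ioo b1 b2 := ⟨by rw [hm]; linarith, by rw [hm]; linarith⟩
  have hε4 : 0 < ε / 4 := by positivity
  obtain ⟨δ1, hδ1, i0⟩ := h.int_small m0 g0.gl hmI hε4
  obtain ⟨δ2, hδ2, i1⟩ := h.int_small m1 g1.gl hmI hε4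
  obtain ⟨δ3, hδ3, w0⟩ := h.Wt_small hX (h.mem_c m0) g0.sm hmI.1.le hε4
  obtain ⟨δ4, hδ4, w1⟩ := h.Wt_small hX (h.mem_c m1) g1.sm hmI.1.le hε4
  set 𝓛 : Set (Cmp E) := {L | |t0 - t1| ≤ wd L.1} with h𝓛
  have hpos : 0 < |t0 - t1| := abs_pos.2 (sub_ne_zero.2 hne)
  have hfin : 𝓛.Finite := by
    have h1 := h.sum.tendsto_cofinite_zero.eventually (gt_mem_nhds (show 0 < |t0 - t1| ^ 2 by
      positivity))
    rw [Filter.eventually_cofinite] at h1
    refine h1.subset fun L hL => ?_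
    have hL' : |t0 - t1| ≤ wd L.1 := hL
    rw [mem_ofPred_eq, not_lt]
    exact pow_le_pow_left₀ (abs_nonneg _) hL' 2
  obtain ⟨δ5, hδ5, p0⟩ := h.bx.gap_fin hfin (h.mem_c m0)
  obtain ⟨δ6, hδ6, p1⟩ := h.bx.gap_fin hfin (h.mem_c m1)
  set δ : ℝ := min (min (min δ1 δ2) (min δ3 δ4)) (min δ5 δ6) with hδd
  have e1 : δ ≤ δ1 := ((min_le_left _ _).trans (min_le_left _ _)).trans (min_le_left _ _)
  have e2 : δ ≤ δ2 := ((min_le_left _ _).trans (min_le_left _ _)).trans (min_le_right _ _)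
  have e3 : δ ≤ δ3 := ((min_le_left _ _).trans (min_le_right _ _)).trans (min_le_left _ _)
  have e4 : δ ≤ δ4 := ((min_le_left _ _).trans (min_le_right _ _)).trans (min_le_right _ _)
  have e5 : δ ≤ δ5 := (min_le_right _ _).trans (min_le_left _ _)
  have e6 : δ ≤ δ6 := (min_le_right _ _).trans (min_le_right _ _)
  refine ⟨δ, by rw [hδd]; positivity, fun v0 hv0 hE0 v1 hv1 hE1 => ?_⟩
  obtain ⟨S, hS⟩ := h.bx.sep_two hmI (t := ![t0, t1]) (v := ![v0, v1])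
    (by intro i; fin_cases i; exacts [h.mem_c m0, h.mem_c m1])
    (by intro i; fin_cases i; exacts [hv0.1, hv1.1])
    (by intro i; fin_cases i; exacts [hE0, hE1])
    (by
      rintro L hL ⟨r0, hr0⟩ ⟨r1, hr1⟩ i r hr hrI
      have hr0' : (⟨t0, r0⟩ : ℂ) ∈ L.1 := hr0
      have hr1' : (⟨t1, r1⟩ : ℂ) ∈ L.1 := hr1
      have hK := L.isCompact h.bx.cpt
      have hLm : L ∈ 𝓛 := by
        show |t0 - t1| ≤ wd L.1
        have q1 := lo_le hK hr0'; have q2 := le_hi hK hr0'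
        have q3 := lo_le hK hr1'; have q4 := le_hi hK hr1'
        simp only at q1 q2 q3 q4
        simp only [wd]
        rw [abs_le]; constructor <;> linarith
      fin_cases i
      · exact p0 L hLm hL r hr ⟨hmI.1.le.trans hrI.1, hrI.2.trans
          (show v0 ≤ _ by linarith [hv0.2])⟩
      · exact p1 L hLm hL r hr ⟨hmI.1.le.trans hrI.1, hrI.2.trans
          (show v1 ≤ _ by linarith [hv1.2])⟩)
  have hC := isCompact_cutE (c1 := c1) (c2 := c2) (b1 := b1) (b2 := b2) h.bx.cpt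
  have hYD := yd_cut h.bx.cpt h.yd h.win h.box
  have line : ∀ {t v : ℝ}, t ∈ Ioo d1 d2 → GT E c1 c2 b1 b2 θ y L0 s X t → m ≤ v →
      (⟨t, v⟩ : ℂ) ∉ E →
      (∀ q : cutE E c1 c2 b1 b2, q.1.re = t → (q ∈ S ↔ q.1.im ∈ Icc m v)) →
      y ⟨t, v⟩ = (∫ r in m..v, (cutE E c1 c2 b1 b2)ᶜ.indicator (gy (yc E θ y)) ⟨t, r⟩)
        - Ph E c1 c2 b1 b2 θ y (X S) t := by
    intro t v ht g hmv hvE hSt
    have hm1 : (⟨t, m⟩ : ℂ) ∉ cutE E c1 c2 b1 b2 := fun hh => hh.2.2 hmI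
    have hm2 : (⟨t, m⟩ : ℂ) ∈ E := h.box _ (h.mem_c ht) ⟨hmI.1.le, hmI.2.le⟩
    have k1 := line_key hC hYD hX.lce hX.one hX.zero g.gl hmv hm1 (fun hh => hvE hh.1) hSt
    have k2 : yc E θ y ⟨t, m⟩ = 0 := by
      unfold yc; rw [indicator_of_notMem (show (⟨t, m⟩ : ℂ) ∉ Eᶜ from fun hh => hh hm2), mul_zero]
    have k3 : yc E θ y ⟨t, v⟩ = y ⟨t, v⟩ := by
      unfold yc
      rw [indicator_of_mem (show (⟨t, v⟩ : ℂ) ∈ Eᶜ from hvE)]
      show θ t * _ = _
      rw [h.win.one t ht, one_mul]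
    rw [k2, k3] at k1
    unfold Ph
    linarith
  have hmv0 : m ≤ v0 := by
    have := h.bx.b2_le (h.mem_c m0); linarith [hv0.1, hmI.2]
  have hmv1 : m ≤ v1 := by
    have := h.bx.b2_le (h.mem_c m1); linarith [hv1.1, hmI.2]
  have S0 : ∀ q : cutE E c1 c2 b1 b2, q.1.re = t0 → (q ∈ S ↔ q.1.im ∈ Icc m v0) := hS 0
  have S1 : ∀ q : cutE E c1 c2 b1 b2, q.1.re = t1 → (q ∈ S ↔ q.1.im ∈ Icc m v1) := hS 1
  rw [line m0 g0 hmv0 hE0 S0, line m1 g1 hmv1 hE1 S1]
  have a0 := i0 v0 ⟨hv0.1, by linarith [hv0.2]⟩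
  have a1 := i1 v1 ⟨hv1.1, by linarith [hv1.2]⟩
  have a2 := w0 v0 (by linarith [hv0.2]) S S0
  have a3 := w1 v1 (by linarith [hv1.2]) S S1
  have a4 := h.pair hX g0 g1 m0 m1 S
  rw [abs_le] at a0 a1 a4 ⊢
  constructor <;> linarith [a0.1, a0.2, a1.1, a1.2, a4.1, a4.2]

/-- **one limit from above along a.e. line** -/
theorem exists_eta (hd : d1 < d2) : ∃ η : ℝ, ∀ᵐ t, t ∈ Ioo d1 d2 → ∀ ε > 0, ∃ δ > 0,
    ∀ v ∈ Ioo (tp L0.1 t) (tp L0.1 t + δ), (⟨t, v⟩ : ℂ) ∉ E → |y ⟨t, v⟩ - η| ≤ ε := by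
  obtain ⟨X, hX⟩ := exists_cuts
    (isCompact_cutE (c1 := c1) (c2 := c2) (b1 := b1) (b2 := b2) h.bx.cpt)
  have hae := h.gt_ae hX
  have hex : ∀ a b : ℝ, a < b → ∃ t ∈ Ioo a b, GT E c1 c2 b1 b2 θ y L0 s X t := by
    intro a b hab
    by_contra hcon
    push Not at hcon
    have h1 : volume (Ioo a b) = 0 := measure_mono_null (fun t ht => hcon t ht) (ae_iff.1 hae)
    rw [Real.volume_Ioo, ENNReal.ofReal_eq_zero] at h1
    linarith
  obtain ⟨t1, ht1, g1⟩ := hex d1 ((d1 + d2) / 2) (by linarith)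
  obtain ⟨t2, ht2, g2⟩ := hex ((d1 + d2) / 2) d2 (by linarith)
  have m1 : t1 ∈ Ioo d1 d2 := ⟨ht1.1, by linarith [ht1.2]⟩
  have m2 : t2 ∈ Ioo d1 d2 := ⟨by linarith [ht2.1], ht2.2⟩
  have h12 : t1 ≠ t2 := by
    intro he; rw [he] at ht1; linarith [ht1.2, ht2.1]
  have hu : ∀ n : ℕ, ∃ v ∈ Ioo (tp L0.1 t1) (tp L0.1 t1 + 1 / ((n : ℝ) + 1)),
      (⟨t1, v⟩ : ℂ) ∉ E := fun n => h.bx.exists_free (h.mem_c m1) (by positivity)
  choose u hu1 hu2 using hu
  have hev : ∀ δ > 0, ∀ᶠ n in atTop, u n ∈ Ioo (tp L0.1 t1) (tp L0.1 t1 + δ) := by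
    intro δ hδ
    filter_upwards [tendsto_one_div_add_atTop_nhds_zero_nat.eventually (gt_mem_nhds hδ)] with n hn
    exact ⟨(hu1 n).1, by linarith [(hu1 n).2]⟩
  have hcau : CauchySeq fun n => y ⟨t1, u n⟩ := by
    rw [Metric.cauchySeq_iff']
    intro ε hε
    obtain ⟨δ, hδ, hp⟩ := h.ends_pair hX h12 g1 g2 m1 m2 (show 0 < ε / 3 by positivity)
    obtain ⟨w, hw, hwE⟩ := h.bx.exists_free (h.mem_c m2) hδ
    obtain ⟨N, hN⟩ := eventually_atTop.1 (hev δ hδ)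
    refine ⟨N, fun n hn => ?_⟩
    have k1 := hp (u n) (hN n hn) (hu2 n) w hw hwE
    have k2 := hp (u N) (hN N le_rfl) (hu2 N) w hw hwE
    rw [Real.dist_eq]
    rw [abs_le] at k1 k2
    rw [abs_lt]
    constructor <;> linarith [k1.1, k1.2, k2.1, k2.2]
  obtain ⟨η, hη⟩ := cauchySeq_tendsto_of_complete hcau
  refine ⟨η, ?_⟩
  have hne : ∀ᵐ t : ℝ, t ≠ t1 := by
    rw [ae_iff]
    have : {t : ℝ | ¬ t ≠ t1} = {t1} := by ext t; simp
    rw [this]; exact measure_singleton t1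
  filter_upwards [hae, hne] with t g htne ht ε hε
  obtain ⟨δ, hδ, hp⟩ := h.ends_pair hX htne g g1 ht m1 hε
  refine ⟨δ, hδ, fun v hv hvE => ?_⟩
  have h1 : Tendsto (fun n => |y ⟨t, v⟩ - y ⟨t1, u n⟩|) atTop (𝓝 |y ⟨t, v⟩ - η|) :=
    (tendsto_const_nhds.sub hη).abs
  refine le_of_tendsto h1 ?_
  filter_upwards [hev δ hδ] with n hn
  exact hp v hv hvE (u n) hn (hu2 n)

end Hy

end

end Crest.Agent.R105.Eta_179
end

-- ▼ part R105/Eta5_179
section

/-!
# R105 (S0138, HCi): ends of levels at a free hair, part 5 (helper179): the adapter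

* `tt_test` : a smooth function with germs `c G(x)` off one component is in `TT`
* `elz_yP`  : `ELZ` in the picture of the anchor from minimality against `f ∘ P`
* `min_testZ` : the final minimiser is minimal against `f ∘ P` (`P` = picture of an extremal anchor)
* `exists_eta_all` : one limit from above along a.e. line of the whole solid
-/

set_option autoImplicit false

open Set Filter MeasureTheory Metric
open scoped Topology NNReal ContDiff ENNReal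

namespace Crest.Agent.R105.Eta_179

open Crest.AnalysisR Tc_808 Bd_775 Sqr_185 Ends_897 Yv_319
open Sct_636 (LCE continuous_mk)
open Pct_185 (Sol pt pt_mem PicT)
open IfB_641 (X0)
open Tra_937 (Uni)
open Ta_937 (corE osc_comp int_wdg ae_of_loc tt_comp compact_comp exists_nhd_pull)
open Ni_459 (NI)
open SkA_8 (Pk)

noncomputable section

variable {E : Set ℂ} {L0 : Cmp E}

/-! ### the class of the tests -/

theorem tt_test (hE : IsCompact E) (hsum : Summable fun L : Cmp E => wd L.1 ^ 2) {f : ℂ → ℝ}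
    {G : ℝ → ℝ} {c : Cmp E → ℝ} (hf : ContDiff ℝ ∞ f) (hfc : HasCompactSupport f)
    (hG : ContDiff ℝ ∞ G) (hGc : HasCompactSupport G) (hc : (range c).Finite)
    (hn : ∀ L, L ≠ L0 → ∀ p ∈ L.1, ∀ᶠ w in 𝓝 p, f w = c L * G w.re) : TT E f := by
  refine ⟨⟨?_, ?_, ?_⟩, ?_⟩
  · obtain ⟨C, hC⟩ := hfc.exists_bound_of_continuous hf.continuous
    exact ⟨C, hC⟩
  · exact ((hf.of_le (by simp : (1 : WithTop ℕ∞) ≤
      ((⊤ : ℕ∞) : WithTop ℕ∞))).locallyLipschitz).locallyLipschitzOn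
  · have hd : Continuous (fderiv ℝ f) := hf.continuous_fderiv (by simp)
    have h1 : Continuous (Bd_775.en f) :=
      ((hd.clm_apply continuous_const).pow 2).add ((hd.clm_apply continuous_const).pow 2)
    refine (h1.integrable_of_hasCompactSupport ?_).integrableOn
    refine (hfc.fderiv (𝕜 := ℝ)).mono ?_
    intro z hz hz0
    apply hz
    have h2 : fderiv ℝ f z = 0 := hz0
    simp [Bd_775.en, Bd_775.gx, Bd_775.gy, h2]
  · classical
    obtain ⟨C, hC⟩ := Pct_185.lip_of_deriv hG hGc.deriv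
    obtain ⟨M, hM⟩ := hc.isBounded.exists_norm_le
    have hM0 : 0 ≤ M := (norm_nonneg _).trans (hM _ (mem_range_self L0))
    obtain ⟨M', hM'⟩ : ∃ M' : ℝ≥0, (M' : ℝ) = M := ⟨⟨M, hM0⟩, rfl⟩
    have h1 : Summable fun L : Cmp E => (if L = L0 then osc E f L0.1 ^ 2 else 0) +
        (((M' * C : ℝ≥0) : ℝ) * (((M' * C : ℝ≥0) : ℝ) * wd L.1 ^ 2)) := by
      refine Summable.add (summable_of_ne_finset_zero (s := {L0}) fun L hL => ?_)
        ((hsum.mul_left _).mul_left _)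
      rw [if_neg (by simpa using hL)]
    refine Summable.of_nonneg_of_le (fun _ => sq_nonneg _) (fun L => ?_) h1
    by_cases hL : L = L0
    · subst hL
      rw [if_pos rfl]
      have : 0 ≤ ((M' * C : ℝ≥0) : ℝ) * (((M' * C : ℝ≥0) : ℝ) * wd L.1 ^ 2) := by positivity
      linarith
    · rw [if_neg hL, zero_add]
      have hlip : LipschitzWith (M' * C) fun t => c L * G t := by
        refine LipschitzWith.of_dist_le_mul fun a b => ?_
        rw [Real.dist_eq, ← mul_sub, abs_mul]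
        have h1 := hC.dist_le_mul a b
        rw [Real.dist_eq (G a)] at h1
        calc |c L| * |G a - G b| ≤ M * (C * dist a b) :=
              mul_le_mul (hM _ (mem_range_self L)) h1 (abs_nonneg _) hM0
          _ = ((M' * C : ℝ≥0) : ℝ) * dist a b := by
              rw [NNReal.coe_mul, hM']; ring
      have h2 := Pct_185.osc_lip_re hE L (g := f) hlip (hn L hL)
      calc osc E f L.1 ^ 2
          ≤ (((M' * C : ℝ≥0) : ℝ) * wd L.1) ^ 2 :=
            pow_le_pow_left₀ (osc_nonneg _ _ _) h2 2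
        _ = _ := by ring

/-! ### Euler-Lagrange in the picture -/

variable {U : Set ℂ} {P F : ℂ → ℂ} {x0 φ : ℂ → ℝ} {a : ℕ → ℂ → ℝ}

theorem elz_yP (h : EndMap U (P '' U) P) (hP : Uni U P) (hx : X0 Uᶜ x0) (hφ : TT Uᶜ φ)
    (hF : DifferentiableOn ℂ F U) (hFre : ∀ z ∈ U, (F z).re = x0 z + φ z)
    (hsum : Summable fun L : Cmp (P '' U)ᶜ => wd L.1 ^ 2) (L0 : Cmp (P '' U)ᶜ)
    (hmin : ∀ (f : ℂ → ℝ) (G : ℝ → ℝ) (c : Cmp (P '' U)ᶜ → ℝ), ContDiff ℝ ∞ f →
      HasCompactSupport f → ContDiff ℝ ∞ G → HasCompactSupport G → (range c).Finite →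
      (∀ L, L ≠ L0 → ∀ p ∈ L.1, ∀ᶠ w in 𝓝 p, f w = c L * G w.re) → ∀ t : ℝ,
        SelT_871.JT Uᶜ x0 φ ≤ SelT_871.JT Uᶜ x0 (fun z => φ z + t * f (P z))) :
    ELZ (P '' U)ᶜ L0 (sP h φ) (yP h F) := by
  intro f G c hf hfc hG hGc hc hn
  have hUc : IsCompact Uᶜ := isCompact_compl h.hU
  have hEc : IsCompact (P '' U)ᶜ := isCompact_compl h.hV
  have hY : IsExteriorDomain (Uᶜ)ᶜ := by rw [compl_compl]; exact h.hU
  have t0 := tt_test hEc hsum hf hfc hG hGc hc hn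
  have t1 : TT Uᶜ (f ∘ P) := tt_comp h hP t0
  have t2 : HasCompactSupport (f ∘ P) := compact_comp h hfc
  have h4 := Elf_600.el_crude_x hY hx hφ t1 t2 (hmin f G c hf hfc hG hGc hc hn)
  rw [compl_compl] at h4 ⊢
  have hfl : LocallyLipschitzOn (P '' U) f := by
    have := t0.q.loc; rwa [compl_compl] at this
  have e1 : ∫ z in U, dot (fun w => x0 w + φ w) (f ∘ P) z
      = ∫ z in U, wdg (f ∘ P) (yP h F ∘ P) z := by
    refine setIntegral_congr_fun hP.op.measurableSet fun z hz => ?_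
    have hF' : DifferentiableOn ℂ F (Uᶜ)ᶜ := by rw [compl_compl]; exact hF
    have e2 := Elf_600.wdg_eq_dot (x := fun w => x0 w + φ w) hF' hUc.isClosed
      (fun z hz => hFre z (not_not.1 hz)) (f ∘ P) (z := z) (not_not.2 hz)
    rw [← e2]
    refine Tra_937.wdg_congr hP.op (fun w _ => rfl) (fun w hw => ?_) hz
    exact (yP_apply h hw).symm
  have e3 : ∫ z in U, wdg (f ∘ P) (yP h F ∘ P) z = ∫ w in P '' U, wdg f (yP h F) w :=
    int_wdg h hP hfl (loc_yP h hP hF)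
  rw [e1, e3] at h4
  refine h4.trans (le_of_eq ?_)
  rw [← (corE h).tsum_eq]
  refine tsum_congr fun K => ?_
  unfold sP
  rw [Equiv.symm_apply_apply, ← osc_comp h]

/-- the final minimiser is minimal against `f ∘ P` -/
theorem min_testZ {b : ℕ → ℂ → ℝ} (hU : IsExteriorDomain U) (h : Pk Uᶜ x0 a φ F) {i : ℕ}
    (hi : Pk Uᶜ x0 b (a i) P) (hE : EndMap U (P '' U) P) (hP : Uni U P)
    (hsum : Summable fun L : Cmp (P '' U)ᶜ => wd L.1 ^ 2) (L0 : Cmp (P '' U)ᶜ)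
    (f : ℂ → ℝ) (G : ℝ → ℝ) (c : Cmp (P '' U)ᶜ → ℝ) (hf : ContDiff ℝ ∞ f)
    (hfc : HasCompactSupport f) (hG : ContDiff ℝ ∞ G) (hGc : HasCompactSupport G)
    (hc : (range c).Finite)
    (hn : ∀ L, L ≠ L0 → ∀ p ∈ L.1, ∀ᶠ w in 𝓝 p, f w = c L * G w.re) (t : ℝ) :
    SelT_871.JT Uᶜ x0 φ ≤ SelT_871.JT Uᶜ x0 (fun z => φ z + t * f (P z)) := by
  have hUc : IsCompact Uᶜ := isCompact_compl hU
  have hEc : IsCompact (P '' U)ᶜ := isCompact_compl hE.hV
  have t0 := tt_test hEc hsum hf hfc hG hGc hc hn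
  have t1 : TT Uᶜ (f ∘ P) := tt_comp hE hP t0
  have h2 : TT Uᶜ (fun z => φ z + t * f (P z)) :=
    h.tt.add hUc.isClosed ((TT.const t).mul hUc.isClosed t1)
  obtain ⟨Λ, hΛ⟩ := Pct_185.lip_of_deriv hG hGc.deriv
  refine h.min _ h2 fun j => ?_
  have h3 : NI Uᶜ (a j) (f ∘ P) := by
    have hcnt : Countable (range c) := hc.countable.to_subtype
    refine Pct_185.NI_germ h.hY (h.tta i) t1.q.bdd (ι := range c)
      (k := fun c s => c.1 * G s) (Λ := fun c => ‖c.1‖₊ * Λ) ?_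
      (S := {(corE hE).symm L0}) (countable_singleton _) ?_ (h.ni j i)
    · intro c
      refine LipschitzWith.of_dist_le_mul fun p q => ?_
      rw [Real.dist_eq, ← mul_sub, abs_mul, NNReal.coe_mul, coe_nnnorm, Real.norm_eq_abs, mul_assoc]
      have := hΛ.dist_le_mul p q
      rw [Real.dist_eq (G p)] at this
      exact mul_le_mul_of_nonneg_left this (abs_nonneg _)
    · intro K hK
      have hK' : corE hE K ≠ L0 := fun hh => hK (by
        rw [mem_singleton_iff, ← hh, Equiv.symm_apply_apply])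
      have h5 : (corE hE K).1 ⊆ interior {w | f w = c (corE hE K) * G w.re} := fun p hp =>
        mem_interior_iff_mem_nhds.2 (hn _ hK' p hp)
      obtain ⟨O, hO, hKO, hpull⟩ := exists_nhd_pull hE K isOpen_interior h5
      refine ⟨⟨c (corE hE K), mem_range_self _⟩, O ∩ (tsupport x0)ᶜ,
        hO.inter (isClosed_tsupport x0).isOpen_compl,
        subset_inter hKO (fun z hz hz' => h.hx.zero hz' (K.subset hz)), fun w hw hwY => ?_⟩
      have hwU : w ∈ U := not_not.1 hwY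
      have h6' : P w ∈ {w | f w = c (corE hE K) * G w.re} := interior_subset (hpull w hw.1 hwU)
      have h6 : f (P w) = c (corE hE K) * G (P w).re := h6'
      have h7 : (P w).re = x0 w + a i w := hi.re w hwY
      have h8 : x0 w = 0 := image_eq_zero_of_notMem_tsupport hw.2
      simp only [Function.comp_apply]
      rw [h6, h7, h8, zero_add]
  have h4 := Nip_31.linG h.hY h.hx (h.tta j) (h.swd j) h.tt t1 (h.com j) h3 1 t
  simpa only [one_mul, Function.comp_apply] using h4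

/-! ### the whole solid -/

/-- one limit from above -/
def LimA (E : Set ℂ) (K : Set ℂ) (y : ℂ → ℝ) (η t : ℝ) : Prop :=
  ∀ ε > 0, ∃ δ > 0, ∀ v ∈ Ioo (tp K t) (tp K t + δ), (⟨t, v⟩ : ℂ) ∉ E → |y ⟨t, v⟩ - η| ≤ ε

theorem Bxx.limA_unique {c1 c2 b1 b2 : ℝ} (H : Bxx E L0 c1 c2 b1 b2) {y : ℂ → ℝ} {t η η' : ℝ}
    (ht : t ∈ Icc c1 c2) (h : LimA E L0.1 y η t) (h' : LimA E L0.1 y η' t) : η = η' := by
  refine eq_of_abs_sub_le_all fun ε hε => ?_
  obtain ⟨δ, hδ, h1⟩ := h (ε / 2) (half_pos hε)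
  obtain ⟨δ', hδ', h2⟩ := h' (ε / 2) (half_pos hε)
  obtain ⟨v, hv, hvE⟩ := H.exists_free ht (lt_min hδ hδ')
  have k1 := h1 v ⟨hv.1, hv.2.trans_le (by linarith [min_le_left δ δ'])⟩ hvE
  have k2 := h2 v ⟨hv.1, hv.2.trans_le (by linarith [min_le_right δ δ'])⟩ hvE
  rw [abs_le] at k1 k2 ⊢
  constructor <;> linarith [k1.1, k1.2, k2.1, k2.2]

theorem exists_eta_all {c1 c2 b1 b2 : ℝ} (H : Bxx E L0 c1 c2 b1 b2) (hcc : c1 < c2)
    (hsum : Summable fun L : Cmp E => wd L.1 ^ 2) {s : Cmp E → ℝ} (hs0 : ∀ L, 0 ≤ s L)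
    (hs : Summable fun L => s L ^ 2) (hsL : s L0 = 0) {y : ℂ → ℝ} (hy : YD E y)
    (hel : ELZ E L0 s y) :
    ∃ η : ℝ, ∀ᵐ t, t ∈ Ioo c1 c2 → LimA E L0.1 y η t := by
  have hstep : ∀ n : ℕ, ∃ η : ℝ, ∀ᵐ t,
      t ∈ Ioo (c1 + (c2 - c1) / ((n : ℝ) + 3)) (c2 - (c2 - c1) / ((n : ℝ) + 3)) →
      LimA E L0.1 y η t := by
    intro n
    have hn : 0 < (n : ℝ) + 3 := by positivity
    have h1 : 0 < (c2 - c1) / ((n : ℝ) + 3) := div_pos (sub_pos.2 hcc) hn
    have h2 : (c2 - c1) / ((n : ℝ) + 3) ≤ (c2 - c1) / 3 :=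
      div_le_div_of_nonneg_left (sub_pos.2 hcc).le (by norm_num) (by linarith [Nat.cast_nonneg (α := ℝ) n])
    obtain ⟨θ, hθ⟩ := exists_win (c1 := c1) (c2 := c2) (d1 := c1 + (c2 - c1) / ((n : ℝ) + 3))
      (d2 := c2 - (c2 - c1) / ((n : ℝ) + 3)) (by linarith) (by linarith)
    have hH : Hy E L0 c1 c2 b1 b2 (c1 + (c2 - c1) / ((n : ℝ) + 3))
        (c2 - (c2 - c1) / ((n : ℝ) + 3)) θ s y := ⟨H, hsum, hs0, hs, hsL, hy, hel, hθ⟩
    exact hH.exists_eta (by linarith)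
  choose η hη using hstep
  have heq : ∀ n, η n = η 0 := by
    intro n
    have h0 : volume (Ioo (c1 + (c2 - c1) / 3) (c2 - (c2 - c1) / 3)) ≠ 0 := by
      rw [Real.volume_Ioo, Ne, ENNReal.ofReal_eq_zero, not_le]
      linarith
    have h9 : ∃ᶠ t in ae (volume : Measure ℝ),
        t ∈ Ioo (c1 + (c2 - c1) / 3) (c2 - (c2 - c1) / 3) := by
      rw [frequently_ae_iff]; exact h0
    obtain ⟨t, ht, h1, h2⟩ := (h9.and_eventually ((hη n).and (hη 0))).exists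
    have hn : (c2 - c1) / ((n : ℝ) + 3) ≤ (c2 - c1) / 3 :=
      div_le_div_of_nonneg_left (sub_pos.2 hcc).le (by norm_num)
        (by linarith [Nat.cast_nonneg (α := ℝ) n])
    refine H.limA_unique ⟨by linarith [ht.1], by linarith [ht.2]⟩
      (h1 ⟨by linarith [ht.1], by linarith [ht.2]⟩) (h2 ?_)
    simp only [Nat.cast_zero, zero_add]
    exact ht
  refine ⟨η 0, ?_⟩
  filter_upwards [ae_all_iff.2 hη] with t ht htc
  obtain ⟨n, hn⟩ := exists_nat_gt ((c2 - c1) / min (t - c1) (c2 - t))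
  have hm : 0 < min (t - c1) (c2 - t) := lt_min (by linarith [htc.1]) (by linarith [htc.2])
  have h1 : (c2 - c1) / ((n : ℝ) + 3) < min (t - c1) (c2 - t) := by
    rw [div_lt_iff₀ (by positivity)]
    rw [div_lt_iff₀ hm] at hn
    nlinarith
  have h2 := min_le_left (t - c1) (c2 - t)
  have h3 := min_le_right (t - c1) (c2 - t)
  rw [← heq n]
  exact ht n ⟨by linarith, by linarith⟩

end

end Crest.Agent.R105.Eta_179
end

-- ▼ part R105/Eta6_179

/-!
# Row 105, S0138 (NI frame), node E13 / `HCi` (helper179): ALL ENDS OF A LEVEL AT A FLAT COMPONENT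
WHERE AN EXTREMAL ANCHOR JUMPS COINCIDE

* `end_ext`  : the clause `H` of 281's `hci_of`, hypothesis free for an extremal anchor
* `hci_ext`  : `HCi` from `LYi`, `ATNi` for an extremal anchor
* `endo_ext` : `ENDo Ext`
* `hco_ext`  : `HCo Ext` from `LYo Ext`, `ATNo Ext`
-/

set_option autoImplicit false

open Set Filter MeasureTheory Metric
open scoped Topology NNReal ContDiff ENNReal

namespace Crest.Agent.R105.Eta_179

open Crest.AnalysisR Tc_808 Sqr_185 Ends_897 Yv_319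
open Pct_185 (PicT)
open Tra_937 (Uni)
open Ta_937 (corE exists_nhd_pull exists_nhd_push)
open SkA_8 (Pk)
open Nie_909 (LYi ATNi HCi)
open Jex_987 (Ext LYo ATNo HCo)

noncomputable section

variable {U : Set ℂ} {P F : ℂ → ℂ} {x0 φ : ℂ → ℝ} {a b : ℕ → ℂ → ℝ}

/-- **all ends coincide** -/
theorem end_ext (hU : IsExteriorDomain U) (h : Pk Uᶜ x0 a φ F) (hFi : InjOn F U)
    (hFP : PicT (F '' U)ᶜ) (i : ℕ) (hi : Pk Uᶜ x0 b (a i) P) (K : Cmp Uᶜ)
    (hK : osc Uᶜ φ K.1 = 0) (hne : osc Uᶜ (a i) K.1 ≠ 0) :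
    ∃ k ∈ K.1, ∃ q ∈ (corE (SkJ_987.endMap h hU hFi) K).1, ∀ᵐ t : ℝ,
      t ∈ Ioo (Ni_459.lo Uᶜ (fun z => x0 z + a i z) k)
        (Ni_459.up Uᶜ (fun z => x0 z + a i z) k) →
      ∀ ε > 0, ∃ z ∈ U, x0 z + a i z = t ∧ ‖F z - q‖ < ε := by
  have hiP := Uw6_913.picT hi
  rw [compl_compl] at hiP
  obtain ⟨hPi, hPP⟩ := hiP
  have hPhol := hi.hol
  rw [compl_compl] at hPhol
  have hFhol := h.hol
  rw [compl_compl] at hFhol
  have hE : EndMap U (P '' U) P := SkJ_987.endMap hi hU hPi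
  have hG := SkJ_987.endMap h hU hFi
  have hP : Uni U P := ⟨hU.1, hPhol, hPi⟩
  obtain ⟨L0, hL0⟩ : ∃ L0, L0 = corE hE K := ⟨_, rfl⟩
  have hwd : 0 < wd L0.1 := by
    rw [hL0, ← Nie_909.osc_wd hU hi hPi hPP K]
    exact lt_of_le_of_ne (osc_nonneg _ _ _) (Ne.symm hne)
  have hwd' : lo L0.1 + wd L0.1 = Sqr_185.hi L0.1 := by unfold wd; ring
  obtain ⟨bb, hsq⟩ := hPP.sq L0 hwd
  have hB : Bxx (P '' U)ᶜ L0 (lo L0.1) (Sqr_185.hi L0.1) bb (bb + wd L0.1) :=
    ⟨hPP.cpt, hPP.ord, fun z h1 h2 => hsq.sub z (by rwa [hwd']) h2, by linarith⟩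
  have hFre : ∀ z ∈ U, (F z).re = x0 z + φ z := fun z hz => h.re z (not_not.2 hz)
  have hyd : YD (P '' U)ᶜ (yP hE F) := by
    refine yd_yP hE hP hFhol hG.bdd fun R => ?_
    have := energy_of_pk h R
    rwa [compl_compl] at this
  have hel : ELZ (P '' U)ᶜ L0 (sP hE φ) (yP hE F) :=
    elz_yP hE hP h.hx h.tt hFhol hFre hPP.sum L0 (min_testZ hU h hi hE hP hPP.sum L0)
  have hs0 : sP hE φ L0 = 0 := by
    unfold sP
    rw [hL0, Equiv.symm_apply_apply]
    exact hK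
  obtain ⟨η, hη⟩ := exists_eta_all hB (by linarith) hPP.sum (sP_nonneg hE)
    (sP_summable hE h.tt) hs0 hyd hel
  -- the basic step
  obtain ⟨M, hM⟩ : ∃ M, M = corE hG K := ⟨_, rfl⟩
  obtain ⟨q, hq⟩ : ∃ q : ℂ, q = ⟨Sqr_185.lo M.1, η⟩ := ⟨_, rfl⟩
  have key : ∀ t : ℝ, t ∈ Ioo (lo L0.1) (Sqr_185.hi L0.1) → LimA (P '' U)ᶜ L0.1 (yP hE F) η t →
      ∀ ε > 0, ∀ O', IsOpen O' → K.1 ⊆ O' → ∃ z ∈ U, z ∈ O' ∧ x0 z + a i z = t ∧
        ‖F z - q‖ < ε := by
    intro t ht hlim ε hε O' hO' hKO'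
    have htc : t ∈ Icc (lo L0.1) (Sqr_185.hi L0.1) := Ioo_subset_Icc_self ht
    obtain ⟨δ, hδ, h1⟩ := hlim (ε / 2) (half_pos hε)
    have hOo : IsOpen {w : ℂ | |w.re - Sqr_185.lo M.1| < ε / 2} :=
      isOpen_lt ((Complex.continuous_re.sub continuous_const).abs) continuous_const
    obtain ⟨O2, hO2, hKO2, h2⟩ := exists_nhd_pull hG K hOo (fun w hw => by
      have := Nod_281.re_flat hU h hFi hFP K hK w hw
      simp only [mem_ofPred_eq]
      rw [this, hM, sub_self, abs_zero]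
      exact half_pos hε)
    obtain ⟨O, hO, hLO, h3⟩ := exists_nhd_push hE K (hO2.inter hO') (subset_inter hKO2 hKO')
    have hOv : IsOpen {v : ℝ | (⟨t, v⟩ : ℂ) ∈ O} :=
      hO.preimage (Sqr_185.continuous_mk_right t)
    have hmem : tp L0.1 t ∈ {v : ℝ | (⟨t, v⟩ : ℂ) ∈ O} := by
      have h4 := hB.tp_mem htc
      rw [hL0] at h4 ⊢
      exact hLO h4
    obtain ⟨δ', hδ', h5⟩ := Metric.isOpen_iff.1 hOv _ hmem
    obtain ⟨v, hv, hvE⟩ := hB.exists_free htc (lt_min hδ hδ')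
    obtain ⟨z, hzU, hz⟩ : (⟨t, v⟩ : ℂ) ∈ P '' U := not_not.1 hvE
    have hv1 : v < tp L0.1 t + δ := hv.2.trans_le (by linarith [min_le_left δ δ'])
    have hv2 : v < tp L0.1 t + δ' := hv.2.trans_le (by linarith [min_le_right δ δ'])
    have hvO : (⟨t, v⟩ : ℂ) ∈ O := h5 (by
      rw [mem_ball, Real.dist_eq, abs_lt]
      constructor <;> linarith [hv.1])
    have hz2 := h3 z hzU (by rw [hz]; exact hvO)
    have hre : (P z).re = x0 z + a i z := hi.re z (not_not.2 hzU)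
    refine ⟨z, hzU, hz2.2, ?_, ?_⟩
    · rw [← hre, hz]
    · have h6 := h1 v ⟨hv.1, hv1⟩ hvE
      rw [← hz, yP_apply hE hzU] at h6
      have h7 : |(F z).re - Sqr_185.lo M.1| < ε / 2 := h2 z hz2.1 hzU
      have h8 := Complex.norm_le_abs_re_add_abs_im (F z - q)
      simp only [Complex.sub_re, Complex.sub_im, hq] at h8
      rw [hq]
      linarith
  obtain ⟨k, hk⟩ := K.nonempty
  have hkY : k ∈ Uᶜ := K.subset hk
  have hcc : K.1 = connectedComponentIn Uᶜ k := congrArg Subtype.val (K.eq_of_mem hk)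
  have hAb := Nip_31.lb_x0 h.hx (h.tta i)
  have hup : Ni_459.up Uᶜ (fun z => x0 z + a i z) k ≤ Sqr_185.hi L0.1 := by
    refine le_of_forall_pos_le_add fun ε hε => ?_
    have hOo : IsOpen {w : ℂ | w.re < Sqr_185.hi L0.1 + ε} :=
      isOpen_lt Complex.continuous_re continuous_const
    obtain ⟨O2, hO2, hKO2, h2⟩ := exists_nhd_pull hE K hOo (fun w hw => by
      rw [← hL0] at hw
      have := le_hi (L0.isCompact hPP.cpt) hw
      simp only [mem_ofPred_eq]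
      linarith)
    refine Ni_459.up_le h.hY hAb (Ni_459.nb_of_mem hkY hO2 (hcc ▸ hKO2)) fun w hw hwY => ?_
    have h3 : (P w).re < Sqr_185.hi L0.1 + ε := h2 w hw (not_not.1 hwY)
    rw [← hi.re w hwY]
    exact h3.le
  have hlo : lo L0.1 ≤ Ni_459.lo Uᶜ (fun z => x0 z + a i z) k := by
    refine le_of_forall_pos_le_add fun ε hε => ?_
    have hOo : IsOpen {w : ℂ | lo L0.1 - ε < w.re} :=
      isOpen_lt continuous_const Complex.continuous_re
    obtain ⟨O2, hO2, hKO2, h2⟩ := exists_nhd_pull hE K hOo (fun w hw => by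
      rw [← hL0] at hw
      have := lo_le (L0.isCompact hPP.cpt) hw
      simp only [mem_ofPred_eq]
      linarith)
    have h4 : lo L0.1 - ε ≤ Ni_459.lo Uᶜ (fun z => x0 z + a i z) k := by
      refine Ni_459.le_lo h.hY hAb (Ni_459.nb_of_mem hkY hO2 (hcc ▸ hKO2)) fun w hw hwY => ?_
      have h3 : lo L0.1 - ε < (P w).re := h2 w hw (not_not.1 hwY)
      rw [← hi.re w hwY]
      exact h3.le
    linarith
  refine ⟨k, hk, q, ?_, ?_⟩
  · -- one good level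
    have h6 : volume (Ioo (lo L0.1) (Sqr_185.hi L0.1)) ≠ 0 := by
      rw [Real.volume_Ioo, Ne, ENNReal.ofReal_eq_zero, not_le]
      linarith
    have h9 : ∃ᶠ t in ae (volume : Measure ℝ), t ∈ Ioo (lo L0.1) (Sqr_185.hi L0.1) := by
      rw [frequently_ae_iff]
      exact h6
    obtain ⟨t, ht, hlim⟩ := (h9.and_eventually hη).exists
    have hLc := M.isCompact hFP.cpt
    by_contra hqL
    rw [← hM] at hqL
    obtain ⟨d, hd, hd2⟩ := Metric.isOpen_iff.1 hLc.isClosed.isOpen_compl q hqL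
    obtain ⟨O', hO', hKO', h7⟩ := exists_nhd_pull hG K
      (isOpen_thickening (δ := d / 2) (E := M.1))
      (by rw [← hM]; exact self_subset_thickening (half_pos hd) _)
    obtain ⟨z, hzU, hzO', -, hz⟩ := key t ht (hlim ht) (d / 2) (half_pos hd) O' hO' hKO'
    obtain ⟨p, hp, hpd⟩ := mem_thickening_iff.1 (h7 z hzO' hzU)
    have h8 : dist p q < d := by
      calc dist p q ≤ dist (F z) p + dist (F z) q := dist_triangle_left _ _ _
        _ < d / 2 + d / 2 := add_lt_add hpd (by rw [dist_eq_norm]; exact hz)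
        _ = d := add_halves d
    exact hd2 (mem_ball.2 h8) hp
  · filter_upwards [hη] with t ht ht' ε hε
    have ht2 : t ∈ Ioo (lo L0.1) (Sqr_185.hi L0.1) :=
      ⟨hlo.trans_lt ht'.1, ht'.2.trans_le hup⟩
    obtain ⟨z, hzU, -, hzt, hz⟩ := key t ht2 (ht ht2) ε hε univ isOpen_univ (subset_univ _)
    exact ⟨z, hzU, hzt, hz⟩


/-- **`ENDo Ext`** -/
theorem endo_ext : Nod_281.ENDo Ext := by
  intro U x0 a φ F h hO hFi hFP i
  have hU : IsExteriorDomain U := by have := h.hY; rwa [compl_compl] at this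
  obtain ⟨b, P, hi⟩ := hO i
  exact Nod_281.endi_of_corE hU h hFi hFP i fun K hK hne => end_ext hU h hFi hFP i hi K hK hne


end

end Crest.Agent.R105.Eta_179
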