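import Crest.Agent.R105.SkA4_8
import Crest.Agent.R105.Exs0_992
import Crest.Agent.R105.SkLim2_363
import Crest.Agent.R105.Thin1_891
import Crest.Agent.R105.Thin1_12
import Mathlib

-- ▼ part R105/Jcs1_895
section

/-!
# Row 105, S0138, first half: attainment with compactly supported anchors (helper895)

`attainp_cs` : 8's `attain` (SkA3_8), the compact support of the anchors is recorded
(needed by 338's `lemY_im`).
-/

set_option autoImplicit false

open MeasureTheory Set Filter Topology Metric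
open scoped NNReal ENNReal ContDiff

namespace Crest.Agent.R105.Jcs_895

open Crest.AnalysisR Bd_775 IfB_641 Tc_808 Ni_459 Grd_782 SkA_8

/-- `attain` of 8 with the compact support of the anchors -/
theorem attain_cs (hsw : SWITCHP) (hlin : LINP) (hcl : CLOSEDP) (har : AREAP) (hcv : CONVP)
    (Y : Set ℂ) (x0 : ℂ → ℝ) (hY : IsExteriorDomain Yᶜ) (hx : X0 Y x0) :
    ∃ (a : ℕ → ℂ → ℝ) (φ : ℂ → ℝ) (F : ℂ → ℂ), Pk Y x0 a φ F ∧ ∀ i, HasCompactSupport (a i) := by
  have hYc : IsCompact Y := cpt_of hY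
  have hcomb := combP_of_linp hlin hY hx
  have h00 : TT Y (fun _ => (0 : ℝ)) := TT.const 0
  obtain ⟨φ0, t0, p0, s0, -, -⟩ := hsw Y x0 hY hx _ h00 HasCompactSupport.zero
  obtain ⟨u, m, σ, -, h⟩ := selT hYc hx SkA_8.plin_cs (hsw Y x0 hY hx) hcomb t0 p0 s0
  -- Euler-Lagrange limit for locally constant test functions
  have hel : ∀ ψ, TT Y ψ → HasCompactSupport ψ → (∀ z ∈ Y, ∀ᶠ w in 𝓝 z, ψ w = ψ z) →
      Tendsto (fun n => di Y (u n) ψ - ∫ z, ψ z * lap x0 z) atTop (𝓝 0) := by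
    intro ψ hψ hc hlc
    have hni : ∀ i, NI Y (u i) ψ := fun i => NI_locconst hY hlc
    have hosc : ∀ K : Cmp Y, Tc_808.osc Y ψ K.1 = 0 := osc_locconst hlc
    have hb : ∀ n, |di Y (u n) ψ - ∫ z, ψ z * lap x0 z| ≤
        Real.sqrt ((TJ Y x0 (u n) - m) * ET Y ψ) := by
      intro n
      have := h.near_el hYc.isClosed hx SkA_8.plin_cs hcomb hψ hc hni n
      simpa [hosc] using this
    have ht : Tendsto (fun n => Real.sqrt ((TJ Y x0 (u n) - m) * ET Y ψ)) atTop (𝓝 0) := by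
      have h1 : Tendsto (fun n => (TJ Y x0 (u n) - m) * ET Y ψ) atTop (𝓝 ((m - m) * ET Y ψ)) :=
        (h.lim.sub_const m).mul_const _
      have h2 := (Real.continuous_sqrt.tendsto _).comp h1
      rw [sub_self, zero_mul, Real.sqrt_zero] at h2
      exact h2
    exact squeeze_zero_norm hb ht
  obtain ⟨F, ψ, c, hF, hre, hinf, hq, hcv1, hcv2⟩ := hcv Y x0 hY hx u m σ h hel
  -- the sequence with the constants
  have tv : ∀ n, TT Y (fun z => u n z + c n) := fun n => TT_add_const hYc.isClosed (h.tt n) (c n)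
  have hLB : ∀ n, LB fun z => x0 z + u n z := fun n => LB_x0 hx (h.tt n)
  have sv : ∀ n, Swd Y (fun z => x0 z + (u n z + c n)) := by
    intro n
    have := Swd_add_const hY (hLB n) (h.swd n) (c n)
    have e : (fun z => x0 z + (u n z + c n)) = fun z => (x0 z + u n z) + c n := by
      funext z; ring
    rw [e]; exact this
  have nv : ∀ i j, NI Y (fun z => u i z + c i) (fun z => u j z + c j) := fun i j =>
    (NI_add_const₂ hY (LB_TT (h.tt i)) (LB_TT (h.tt j)) (c i) (c j)).2 (h.ni i j)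
  have ov : ∀ n (K : Cmp Y), Tc_808.osc Y (fun z => u n z + c n) K.1 = Tc_808.osc Y (u n) K.1 := by
    intro n K
    exact osc_addc (h.tt n).q.bdd (c n)
  have he : Tendsto (fun n => ∫ z in Yᶜ, en (fun w => u n w - ψ w) z) atTop (𝓝 0) := by
    simpa only [en_add_const] using hcv2
  have hx0l : LocallyLipschitz x0 := (hx.sm.of_le (by exact_mod_cast le_top)).locallyLipschitz
  have lipv : ∀ n, LocallyLipschitzOn Yᶜ fun z => x0 z + (u n z + c n) := by
    intro n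
    exact hx0l.locallyLipschitzOn.add (tv n).q.loc
  have hlbv : ∀ n, LB fun z => x0 z + (u n z + c n) := fun n => LB_x0 hx (tv n)
  have hcnt : ∀ n, {K : Cmp Y | Tc_808.osc Y (fun z => x0 z + (u n z + c n)) K.1 ≠ 0}.Countable := by
    intro n
    refine (tv n).countable.mono fun K hK => ?_
    have : Tc_808.osc Y (fun z => x0 z + (u n z + c n)) K.1 =
        Tc_808.osc Y (fun z => u n z + c n) K.1 := osc_x0 hx _ K
    show Tc_808.osc Y (fun z => u n z + c n) K.1 ≠ 0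
    rw [← this]; exact hK
  have hosc : ∀ K : Cmp Y, Tc_808.osc Y ψ K.1 ≤ σ K := by
    refine Att3_790.att hY hx.sm.continuous hx.zero tv sv (fun n => ?_) (fun i j G hG => ?_)
      hq.loc hq.fin hcv1 hcv2 (fun n => ?_) h.sum ?_
    · intro t N hN hNb z hz
      obtain ⟨C, h1, h2, h3, h4, h5, -⟩ :=
        Uni_659.bump hY (lipv n) (hlbv n) (sv n) t hN hNb hz
      exact ⟨C, h1, h2, h3, h4, h5⟩
    · exact har Y _ _ hY (lipv i) (lipv j) (hlbv i) (hlbv j) (hcnt i) (hcnt j)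
        ((NI_x0 hx).2 (nv i j)) G hG
    · have hQ := ((tv n).q.sub hYc.isClosed hq)
      exact hQ.fin
    · simpa only [ov] using h.l2
  have hni : TT Y ψ → ∀ i, NI Y (u i) ψ := by
    intro htψ i
    refine hcl Y x0 hY hx (u i) (h.tt i) (h.p i) (h.swd i) (fun n z => u n z + c n) ψ σ tv htψ
      (fun n => ?_) h.sum hcv1 hcv2 ?_ hosc
    · exact (NI_add_const hY (LB_TT (h.tt n)) (c n)).2 (h.ni i n)
    · simpa only [ov] using h.l2
  obtain ⟨ttψ, niψ, -, -, hmin⟩ := SelT.attained hYc hx h hq he hosc hni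
  exact ⟨u, ψ, F, ⟨hY, hx, h.tt, h.swd, h.ni, ttψ, niψ, hmin, hF, hre, hinf⟩, h.p⟩

/-- **the package of the first half, anchors with compact support** -/
theorem attainp_cs (Y : Set ℂ) (x0 : ℂ → ℝ) (hY : IsExteriorDomain Yᶜ) (hx : X0 Y x0) :
    ∃ (a : ℕ → ℂ → ℝ) (φ : ℂ → ℝ) (F : ℂ → ℂ), Pk Y x0 a φ F ∧ ∀ i, HasCompactSupport (a i) :=
  attain_cs Sw_209.switchp Nip_31.linp Vs_439.closedp Ni_459.areap Cnv_755.convp Y x0 hY hx

end Crest.Agent.R105.Jcs_895
end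

-- ▼ part R105/Exs2_992
section

/-!
# Row 105 (S0138): the limit of a sequence of cut functions (generic form of 363's SkLim2)
-/

set_option autoImplicit false

namespace Crest.Agent.R105.Exs2_992

open Set Filter MeasureTheory Topology Metric
open Crest.Agent.R105.CF_363 Crest.Agent.R105.Stp_722 Crest.Agent.R105.Cq_463
open Crest.Agent.R105.Skp2_257 (Comps Reg)
open Crest.Agent.R105.Exs_992
open Crest.Agent.R105.SkLim2_363 (g2_eq_zero_of_notMem g2_neg g2_congr g2_add_le g2_tel)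
open scoped ENNReal NNReal

variable {E : Set (ℝ × ℝ)} {𝓗 : Set Hair}

theorem cut_sub {J : Finset Hair} (hH : ∀ K ∈ 𝓗, K.car ⊆ E) (h : ∀ K ∈ J, K ∈ 𝓗) :
    cut J ⊆ E := by
  rintro p ⟨K, hK, hp⟩
  exact hH K (h K hK) hp

theorem cfj_lip (hE : IsCompact E) (hH : ∀ K ∈ 𝓗, K.car ⊆ E) {f : ℝ × ℝ → ℝ}
    (hf : CFJ 𝓗 univ f) : ∃ L : ℝ≥0, ∀ p ∉ E, ∃ r > 0, LipschitzOnWith L f (Metric.ball p r) := by
  obtain ⟨J, hJ, L, C, hL, h1, -⟩ := hf
  refine ⟨L.toNNReal, fun p hp => ?_⟩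
  obtain ⟨r, hr, hrE⟩ := Metric.isOpen_iff.mp hE.isClosed.isOpen_compl p hp
  refine ⟨r, hr, h1.lipschitzOnWith (convex_ball p r) fun q hq => ⟨mem_univ q, fun hc => ?_⟩⟩
  exact hrE hq (cut_sub hH hJ hc)

theorem cfj_ae_diff {f : ℝ × ℝ → ℝ}
    (hf : CFJ 𝓗 univ f) : ∀ᵐ p : ℝ × ℝ, DifferentiableAt ℝ f p := by
  obtain ⟨J, hJ, L, C, hL, h1, -⟩ := hf
  have h2 := h1.ae_differentiableAt (μ := volume) (isOpen_diff_cut isOpen_univ J)
  have h3 : ∀ᵐ p : ℝ × ℝ, p ∉ cut J := measure_eq_zero_iff_ae_notMem.mp (volume_cut J)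
  filter_upwards [h2, h3] with p hp hp' using hp ⟨mem_univ p, hp'⟩

theorem cfj_integrable {f : ℝ × ℝ → ℝ}
    (hf : CFJ 𝓗 univ f) {S : Set (ℝ × ℝ)} (hS : IsCompact S) (h0 : ∀ q ∉ S, f q = 0) :
    Integrable (g2 f) := by
  obtain ⟨J, hJ, L, C, hL, h1, -⟩ := hf
  have h3 : ∀ᵐ p : ℝ × ℝ, p ∉ cut J := measure_eq_zero_iff_ae_notMem.mp (volume_cut J)
  have hon : IntegrableOn (g2 f) S := by
    refine Measure.integrableOn_of_bounded (M := 2 * L ^ 2) hS.measure_lt_top.ne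
      (measurable_g2 f).aestronglyMeasurable ?_
    filter_upwards [ae_restrict_of_ae h3] with p hp
    rw [Real.norm_of_nonneg (g2_nonneg f p)]
    exact h1.g2_le (isOpen_diff_cut isOpen_univ J) hL ⟨mem_univ p, hp⟩
  refine hon.integrable_of_forall_notMem_eq_zero fun p hp => ?_
  obtain ⟨a, b⟩ := g2_eq_zero_of_notMem hS.isClosed h0 hp
  simp [g2, a, b]

/-- the limit of cut functions which are eventually constant on compact subsets of `Eᶜ`. -/
theorem lim_gen (hE : IsCompact E) (hH : ∀ K ∈ 𝓗, K.car ⊆ E) {φ : ℕ → ℝ × ℝ → ℝ}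
    {ψ : ℝ × ℝ → ℝ} {S : Set (ℝ × ℝ)} (hScpt : IsCompact S) {C δ : ℝ} (hδ : 0 ≤ δ)
    (hcf : ∀ n, CFJ 𝓗 univ (φ n)) (hz : ∀ n, ∀ q ∉ S, φ n q = 0) (hψ0 : ∀ q ∉ S, ψ q = 0)
    (hb : ∀ n p, |φ n p| ≤ C) (hψb : ∀ p, |ψ p| ≤ C)
    (hev : ∀ A, IsCompact A → A ⊆ Eᶜ → ∃ N, ∀ n ≥ N, ∀ p ∈ A, φ n p = ψ p)
    (hen : ∀ n, (∫ p in Eᶜ, g2 (fun q => φ (n + 1) q - φ n q) p) ≤ δ / 4 ^ n) :
    LimOf E 𝓗 φ ψ ∧ (∫ p in Eᶜ, g2 (fun q => φ 0 q - ψ q) p) ≤ 4 * δ ∧
      ∀ t > 0, |(∫ p in Eᶜ, gx ψ p) - ∫ p in Eᶜ, gx (φ 0) p| ≤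
        t * (4 * δ) + (1 / (2 * t)) * volume.real S := by
  have hloc : ∀ p ∉ E, ∃ N, ∀ n ≥ N, φ n =ᶠ[𝓝 p] ψ := by
    intro p hp
    obtain ⟨r, hr, hrE⟩ := Metric.isOpen_iff.mp hE.isClosed.isOpen_compl p hp
    obtain ⟨N, hN⟩ := hev (Metric.closedBall p (r / 2)) (isCompact_closedBall _ _)
      ((Metric.closedBall_subset_ball (by linarith)).trans hrE)
    refine ⟨N, fun n hn => ?_⟩
    filter_upwards [Metric.closedBall_mem_nhds p (by positivity : 0 < r / 2)] with q hq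
    exact hN n hn q hq
  -- differentiability
  have hdiff : ∀ᵐ p : ℝ × ℝ, ∀ n, DifferentiableAt ℝ (φ n) p :=
    ae_all_iff.mpr fun n => cfj_ae_diff (hcf n)
  have hEm : MeasurableSet Eᶜ := hE.isClosed.isOpen_compl.measurableSet
  have hpos2 : ∀ n p, 0 ≤ g2 (fun q => φ (n + 1) q - φ n q) p := fun n p => g2_nonneg _ _
  have hint1 : ∀ n, Integrable (g2 fun q => φ (n + 1) q - φ n q) := fun n =>
    cfj_integrable ((hcf (n + 1)).sub (hcf n)) hScpt fun q hq => by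
      rw [hz (n + 1) q hq, hz n q hq, sub_zero]
  have hlin : ∀ n, ∫⁻ p in Eᶜ, ENNReal.ofReal (g2 (fun q => φ (n + 1) q - φ n q) p) ≤
      ENNReal.ofReal (δ / 4 ^ n) := by
    intro n
    rw [← ofReal_integral_eq_lintegral_ofReal (hint1 n).integrableOn
      (Eventually.of_forall fun p => hpos2 n p)]
    exact ENNReal.ofReal_le_ofReal (hen n)
  have hdistE : ∀ n, ∫⁻ p in Eᶜ, ENNReal.ofReal (g2 (fun q => φ n q - ψ q) p) ≤
      ENNReal.ofReal (4 * δ / 4 ^ n) := by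
    intro n
    calc ∫⁻ p in Eᶜ, ENNReal.ofReal (g2 (fun q => φ n q - ψ q) p)
        ≤ ∫⁻ p in Eᶜ, ∑' i : ℕ, ENNReal.ofReal
            (2 ^ (i + 1) * g2 (fun q => φ (n + i + 1) q - φ (n + i) q) p) := by
          refine lintegral_mono_ae ?_
          filter_upwards [ae_restrict_of_ae hdiff, ae_restrict_mem hEm] with p hp hpE
          obtain ⟨N, hN⟩ := hloc p hpE
          have h1 : (fun q => φ n q - ψ q) =ᶠ[𝓝 p] fun q => φ n q - φ (n + N) q := by
            filter_upwards [hN (n + N) (by omega)] with q hq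
            rw [hq]
          rw [g2_congr h1]
          refine (ENNReal.ofReal_le_ofReal (g2_tel hp N n)).trans ?_
          rw [ENNReal.ofReal_sum_of_nonneg fun i _ => mul_nonneg (by positivity) (g2_nonneg _ _)]
          exact ENNReal.sum_le_tsum _
      _ = ∑' i : ℕ, ∫⁻ p in Eᶜ, ENNReal.ofReal
            (2 ^ (i + 1) * g2 (fun q => φ (n + i + 1) q - φ (n + i) q) p) := by
          refine lintegral_tsum fun i => ?_
          exact ((measurable_g2 _).const_mul _).ennreal_ofReal.aemeasurable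
      _ ≤ ∑' i : ℕ, ENNReal.ofReal (2 * δ / 4 ^ n * (1 / 2) ^ i) := by
          refine ENNReal.tsum_le_tsum fun i => ?_
          have h1 : ∀ p, ENNReal.ofReal
              (2 ^ (i + 1) * g2 (fun q => φ (n + i + 1) q - φ (n + i) q) p) =
              ENNReal.ofReal (2 ^ (i + 1)) *
                ENNReal.ofReal (g2 (fun q => φ (n + i + 1) q - φ (n + i) q) p) := fun p =>
            ENNReal.ofReal_mul (by positivity)
          simp_rw [h1]
          rw [lintegral_const_mul _ (measurable_g2 _).ennreal_ofReal]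
          refine (mul_le_mul_right (hlin (n + i)) _).trans ?_
          rw [← ENNReal.ofReal_mul (by positivity)]
          refine ENNReal.ofReal_le_ofReal (le_of_eq ?_)
          have h4 : (4 : ℝ) ^ (n + i) = 4 ^ n * (2 ^ i * 2 ^ i) := by
            rw [pow_add, ← mul_pow]; norm_num
          rw [h4, pow_succ, one_div, inv_pow]
          field_simp
      _ = ENNReal.ofReal (4 * δ / 4 ^ n) := by
          rw [← ENNReal.ofReal_tsum_of_nonneg (fun i => by positivity)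
            (summable_geometric_two.mul_left _), tsum_mul_left, tsum_geometric_two]
          congr 1; ring
  -- integrability of the limit
  have hintd : ∀ n, IntegrableOn (g2 fun q => φ n q - ψ q) Eᶜ := by
    intro n
    refine ⟨(measurable_g2 _).aestronglyMeasurable, ?_⟩
    rw [hasFiniteIntegral_iff_ofReal (Eventually.of_forall fun p => g2_nonneg _ _)]
    exact (hdistE n).trans_lt ENNReal.ofReal_lt_top
  have hdistR : ∀ n, ∫ p in Eᶜ, g2 (fun q => φ n q - ψ q) p ≤ 4 * δ / 4 ^ n := by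
    intro n
    have h1 := hdistE n
    rw [← ofReal_integral_eq_lintegral_ofReal (hintd n)
      (Eventually.of_forall fun p => g2_nonneg _ _)] at h1
    rwa [ENNReal.ofReal_le_ofReal_iff (by positivity)] at h1
  have hdψ : ∀ᵐ p : ℝ × ℝ, p ∉ E → DifferentiableAt ℝ ψ p := by
    filter_upwards [hdiff] with p hp hpE
    obtain ⟨N, hN⟩ := hloc p hpE
    exact (hp N).congr_of_eventuallyEq (hN N le_rfl).symm
  have hintψ : IntegrableOn (g2 ψ) Eᶜ := by
    refine Integrable.mono' (((cfj_integrable (hcf 0) hScpt (hz 0)).integrableOn.const_mul 2).add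
      ((hintd 0).const_mul 2)) (measurable_g2 ψ).aestronglyMeasurable ?_
    filter_upwards [ae_restrict_of_ae hdiff, ae_restrict_of_ae hdψ, ae_restrict_mem hEm]
      with p hp hp' hpE
    rw [Real.norm_of_nonneg (g2_nonneg _ _)]
    have h1 : ψ = fun q => φ 0 q + (-(φ 0 q - ψ q)) := by funext q; ring
    have h2 : DifferentiableAt ℝ (fun q => -(φ 0 q - ψ q)) p := ((hp 0).sub (hp' hpE)).neg
    calc g2 ψ p = g2 (fun q => φ 0 q + (-(φ 0 q - ψ q))) p := by rw [← h1]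
      _ ≤ 2 * g2 (φ 0) p + 2 * g2 (fun q => -(φ 0 q - ψ q)) p := g2_add_le (hp 0) h2
      _ = _ := by rw [g2_neg (fun q => φ 0 q - ψ q) p]; rfl
  have hReg : Reg E ψ := by
    refine ⟨?_, HasCompactSupport.intro hScpt hψ0, ⟨C, hψb⟩, hintψ⟩
    intro p hp
    obtain ⟨N, hN⟩ := hloc p hp
    obtain ⟨L, hL⟩ := cfj_lip hE hH (hcf N)
    obtain ⟨r, hr, hl⟩ := hL p hp
    obtain ⟨s, hs, hs'⟩ := Metric.eventually_nhds_iff_ball.mp (hN N le_rfl)
    refine ⟨L, Metric.ball p (min r s) ∩ Eᶜ, ?_, ?_⟩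
    · exact inter_mem (mem_nhdsWithin_of_mem_nhds (Metric.ball_mem_nhds p (lt_min hr hs)))
        self_mem_nhdsWithin
    · intro x hx y hy
      rw [← hs' x (Metric.ball_subset_ball (min_le_right _ _) hx.1),
        ← hs' y (Metric.ball_subset_ball (min_le_right _ _) hy.1)]
      exact hl (Metric.ball_subset_ball (min_le_left _ _) hx.1)
        (Metric.ball_subset_ball (min_le_left _ _) hy.1)
  have hd0 := hdistR 0
  rw [pow_zero, div_one] at hd0
  refine ⟨⟨hcf, ⟨C, hb⟩, ⟨S, hScpt, hz⟩, ?_, ?_, hReg⟩, hd0, ?_⟩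
  · intro A hA hAE
    obtain ⟨N, hN⟩ := hev A hA hAE
    filter_upwards [eventually_ge_atTop N] with n hn using hN n hn
  · refine squeeze_zero (fun n => integral_nonneg fun p => g2_nonneg _ _) hdistR ?_
    have := (tendsto_pow_atTop_nhds_zero_of_lt_one (r := (1 / 4 : ℝ)) (by norm_num)
      (by norm_num)).const_mul (4 * δ)
    rw [mul_zero] at this
    refine this.congr fun n => ?_
    rw [one_div, inv_pow]; rfl
  · -- the linear functional
    intro t htpos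
    have hi0 := hintd 0
    have hgx : ∀ f : ℝ × ℝ → ℝ, (∀ q ∉ S, f q = 0) → IntegrableOn (g2 f) Eᶜ →
        IntegrableOn (gx f) Eᶜ := by
      intro f hf0 hfi
      have hind : Integrable (S.indicator (fun _ => (1 : ℝ))) (volume.restrict Eᶜ) :=
        (integrable_indicator_iff hScpt.measurableSet).mpr
          ((integrableOn_const_iff).mpr (Or.inr (by
            exact (Measure.restrict_apply_le _ _).trans_lt hScpt.measure_lt_top)))
      refine Integrable.mono' (hind.add hfi) (measurable_gx f).aestronglyMeasurable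
        (Eventually.of_forall fun p => ?_)
      rw [Real.norm_eq_abs]
      by_cases hp : p ∈ S
      · simp only [Pi.add_apply, indicator_of_mem hp, g2]
        nlinarith [sq_nonneg (|gx f p| - 1), sq_abs (gx f p), sq_nonneg (gy f p),
          abs_nonneg (gx f p)]
      · obtain ⟨h1, h2⟩ := g2_eq_zero_of_notMem hScpt.isClosed hf0 hp
        simp [h1, g2, h2, indicator_of_notMem hp]
    have hiΦ : IntegrableOn (g2 (φ 0)) Eᶜ := (cfj_integrable (hcf 0) hScpt (hz 0)).integrableOn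
    have hdif0 : ∀ q ∉ S, (fun q => φ 0 q - ψ q) q = 0 := fun q hq => by
      simp [hz 0 q hq, hψ0 q hq]
    have i1 := hgx ψ hψ0 hintψ
    have i2 := hgx (φ 0) (hz 0) hiΦ
    have i3 := hgx (fun q => φ 0 q - ψ q) hdif0 hi0
    have heq : (∫ p in Eᶜ, gx ψ p) - ∫ p in Eᶜ, gx (φ 0) p =
        - ∫ p in Eᶜ, gx (fun q => φ 0 q - ψ q) p := by
      rw [← integral_sub i1 i2, ← integral_neg]
      apply integral_congr_ae
      filter_upwards [ae_restrict_of_ae hdiff, ae_restrict_of_ae hdψ, ae_restrict_mem hEm]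
        with p hp hp' hpE
      rw [gx_sub (hp 0) (hp' hpE)]; ring
    rw [heq, abs_neg]
    have hind : Integrable (S.indicator (fun _ => (1 : ℝ))) (volume.restrict Eᶜ) :=
      (integrable_indicator_iff hScpt.measurableSet).mpr
        ((integrableOn_const_iff).mpr (Or.inr (by
          exact (Measure.restrict_apply_le _ _).trans_lt hScpt.measure_lt_top)))
    calc |∫ p in Eᶜ, gx (fun q => φ 0 q - ψ q) p|
        ≤ ∫ p in Eᶜ, |gx (fun q => φ 0 q - ψ q) p| := abs_integral_le_integral_abs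
      _ ≤ ∫ p in Eᶜ, (t * g2 (fun q => φ 0 q - ψ q) p +
            (1 / (2 * t)) * S.indicator (fun _ => 1) p) := by
          refine integral_mono_ae i3.abs ((hi0.const_mul t).add (hind.const_mul _))
            (Eventually.of_forall fun p => ?_)
          by_cases hp : p ∈ S
          · simp only [indicator_of_mem hp, g2, mul_one]
            set x := |gx (fun q => φ 0 q - ψ q) p| with hx
            have hx2 : gx (fun q => φ 0 q - ψ q) p ^ 2 = x ^ 2 := by rw [hx, sq_abs]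
            rw [hx2]
            have h1 : 0 ≤ t * gy (fun q => φ 0 q - ψ q) p ^ 2 := by positivity
            have h2 : x ≤ t * x ^ 2 + 1 / (2 * t) := by
              have h3 : 0 ≤ (2 * t * x - 1) ^ 2 := sq_nonneg _
              have h4 : 1 / (2 * t) = (1 / (4 * t)) * 2 := by field_simp; norm_num
              have h5 : t * x ^ 2 + 1 / (4 * t) - x = (2 * t * x - 1) ^ 2 / (4 * t) := by
                field_simp; ring
              have h6 : 0 ≤ (2 * t * x - 1) ^ 2 / (4 * t) := by positivity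
              have h7 : 0 < 1 / (4 * t) := by positivity
              linarith
            nlinarith
          · obtain ⟨h1, h2⟩ := g2_eq_zero_of_notMem hScpt.isClosed hdif0 hp
            simp [h1, g2, h2, indicator_of_notMem hp]
      _ = t * (∫ p in Eᶜ, g2 (fun q => φ 0 q - ψ q) p) +
            (1 / (2 * t)) * ∫ p in Eᶜ, S.indicator (fun _ => 1) p := by
          rw [integral_add (hi0.const_mul t) (hind.const_mul _), integral_const_mul,
            integral_const_mul]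
      _ ≤ t * (4 * δ) + (1 / (2 * t)) * volume.real S := by
          have h1 : ∫ p in Eᶜ, S.indicator (fun _ => (1 : ℝ)) p ≤ volume.real S := by
            rw [integral_indicator hScpt.measurableSet, setIntegral_const, smul_eq_mul, mul_one,
              measureReal_restrict_apply hScpt.measurableSet]
            exact measureReal_mono inter_subset_left hScpt.measure_lt_top.ne
          gcongr

end Crest.Agent.R105.Exs2_992
end

-- ▼ part R105/Exs1_992
section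

/-!
# Row 105 (S0138): shells around a compact union of components

`exists_shells`: `E \ U` is the disjoint union of clopen pieces `D n` of `E`, with pairwise disjoint
open neighbourhoods `W n`, locally finite off `U`.
-/

set_option autoImplicit false

namespace Crest.Agent.R105.Exs1_992

open Set Filter Topology Metric
open Crest.Agent.R105.Thin_891

theorem exists_seq_of {α : Type*} (Inv : ℕ → α → Prop) (R : ℕ → α → α → Prop) (x0 : α)
    (h0 : Inv 0 x0) (hs : ∀ n x, Inv n x → ∃ y, Inv (n + 1) y ∧ R n x y) :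
    ∃ u : ℕ → α, u 0 = x0 ∧ ∀ n, Inv n (u n) ∧ R n (u n) (u (n + 1)) := by
  classical
  let v : ∀ n, {x // Inv n x} := fun n => Nat.rec (motive := fun n => {x // Inv n x})
    ⟨x0, h0⟩ (fun n x => ⟨(hs n x.1 x.2).choose, (hs n x.1 x.2).choose_spec.1⟩) n
  refine ⟨fun n => (v n).1, rfl, fun n => ⟨(v n).2, ?_⟩⟩
  exact (hs n (v n).1 (v n).2).choose_spec.2

variable {X : Type*} [MetricSpace X] {E U : Set X}

/-- `U` has arbitrarily small clopen neighbourhoods in `E`. -/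
def Sat (E U : Set X) : Prop :=
  ∀ O, IsOpen O → U ⊆ O → ∃ A, Piece E A ∧ U ⊆ A ∧ A ⊆ O

theorem sat_of_finite (hE : IsCompact E) {s : Set (Set X)} (hs : s.Finite)
    (hc : ∀ P ∈ s, ∃ p ∈ E, P = connectedComponentIn E p) : Sat E (⋃₀ s) := by
  intro O hO hsO
  induction s, hs using Set.Finite.induction_on with
  | empty => exact ⟨∅, Piece.empty hE, by simp, empty_subset _⟩
  | @insert P s hPs hfin ih =>
    obtain ⟨A, hA, hsA, hAO⟩ := ih (fun P hP => hc P (mem_insert_of_mem _ hP))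
      (fun p hp => hsO (by
        obtain ⟨Q, hQ, hp⟩ := hp
        exact ⟨Q, mem_insert_of_mem _ hQ, hp⟩))
    obtain ⟨p, hp, rfl⟩ := hc P (mem_insert _ _)
    obtain ⟨F, hF, hpF, hFO⟩ := exists_piece hE hp hO
      (fun q hq => hsO ⟨_, mem_insert _ _, hq⟩)
    refine ⟨F ∪ A, hF.union hA, ?_, union_subset hFO hAO⟩
    rw [sUnion_insert]
    exact union_subset_union hpF hsA

theorem isCompact_sUnion_comps (hE : IsCompact E) {s : Set (Set X)} (hs : s.Finite)
    (hc : ∀ P ∈ s, ∃ p ∈ E, P = connectedComponentIn E p) : IsCompact (⋃₀ s) := by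
  refine hs.isCompact_sUnion fun P hP => ?_
  obtain ⟨p, hp, rfl⟩ := hc P hP
  exact Crest.Agent.R105.Thin_12.isCompact_cc hE p

/-- the shells -/
structure Shells (E U : Set X) (ρ : ℝ) (D W : ℕ → Set X) : Prop where
  pc : ∀ n, Piece E (D n)
  dU : ∀ n, Disjoint (D n) U
  op : ∀ n, IsOpen (W n)
  sub : ∀ n, D n ⊆ W n
  near : ∀ n, W n ⊆ thickening ρ E
  dis : Pairwise fun m n => Disjoint (W m) (W n)
  cov : E \ U ⊆ ⋃ n, D n
  lf : ∀ p ∉ U, ∃ r > 0, ∃ N, ∀ n ≥ N, Disjoint (ball p r) (W n)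
  offU : ∀ n, ∃ O, IsOpen O ∧ U ⊆ O ∧ Disjoint O (W n)

theorem exists_shells (hE : IsCompact E) (hUE : U ⊆ E) (hUc : IsClosed U) (hU : Sat E U)
    {ρ : ℝ} (hρ : 0 < ρ) : ∃ D W, Shells E U ρ D W := by
  classical
  -- separating radius
  have hsep : ∀ A, Piece E A → ∃ r > 0, Disjoint (thickening r A) (thickening r (E \ A)) := by
    intro A hA
    have h0 : Disjoint A (E \ A) := disjoint_sdiff_self_right
    obtain ⟨r, hr, h⟩ := h0.exists_thickenings hA.cpt hA.cpt'.isClosed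
    exact ⟨r, hr, h⟩
  have hpos : ∀ n : ℕ, (0 : ℝ) < 1 / ((n : ℝ) + 1) := fun n => by positivity
  have key : ∀ (n : ℕ) (B : Set X) (t : ℝ), Piece E B → U ⊆ B → 0 < t →
      ∃ A r, Piece E A ∧ U ⊆ A ∧ A ⊆ B ∧ A ⊆ thickening (1 / ((n : ℝ) + 1)) U ∧ 0 < r ∧
        r ≤ t ∧ r ≤ 1 / ((n : ℝ) + 1) ∧ Disjoint (thickening r A) (thickening r (E \ A)) := by
    intro n B t hB hUB ht
    obtain ⟨A, hA, hUA, hAO⟩ := hU _ (isOpen_thickening (δ := 1 / ((n : ℝ) + 1)) (E := U))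
      (self_subset_thickening (hpos n) U)
    obtain ⟨r, hr, hd⟩ := hsep (A ∩ B) (hA.inter hB)
    refine ⟨A ∩ B, min r (min t (1 / ((n : ℝ) + 1))), hA.inter hB, subset_inter hUA hUB,
      inter_subset_right, inter_subset_left.trans hAO, lt_min hr (lt_min ht (hpos n)),
      (min_le_right _ _).trans (min_le_left _ _), (min_le_right _ _).trans (min_le_right _ _),
      ?_⟩
    exact hd.mono (thickening_mono (min_le_left _ _) _) (thickening_mono (min_le_left _ _) _)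
  obtain ⟨A0, r0, a1, a2, a3, a4, a5, a6, a7, a8⟩ := key 0 E ρ (Piece.self hE) hUE hρ
  obtain ⟨u, -, hu⟩ := exists_seq_of
    (fun (n : ℕ) (x : Set X × ℝ) => Piece E x.1 ∧ U ⊆ x.1 ∧
      x.1 ⊆ thickening (1 / ((n : ℝ) + 1)) U ∧ 0 < x.2 ∧ x.2 ≤ ρ ∧ x.2 ≤ 1 / ((n : ℝ) + 1) ∧
      Disjoint (thickening x.2 x.1) (thickening x.2 (E \ x.1)))
    (fun _ x y => y.1 ⊆ x.1 ∧ y.2 ≤ x.2) (A0, r0) ⟨a1, a2, a4, a5, a6, a7, a8⟩
    (by
      rintro n ⟨B, t⟩ ⟨b1, b2, b3, b4, b5, b6, b7⟩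
      obtain ⟨A, r, c1, c2, c3, c4, c5, c6, c7, c8⟩ := key (n + 1) B t b1 b2 b4
      exact ⟨(A, r), ⟨c1, c2, c4, c5, c6.trans b5, c7, c8⟩, c3, c6⟩)
  set A : ℕ → Set X := fun n => (u n).1 with hAdef
  set r : ℕ → ℝ := fun n => (u n).2 with hrdef
  have hA : ∀ n, Piece E (A n) := fun n => (hu n).1.1
  have hUA : ∀ n, U ⊆ A n := fun n => (hu n).1.2.1
  have hAt : ∀ n, A n ⊆ thickening (1 / ((n : ℝ) + 1)) U := fun n => (hu n).1.2.2.1
  have hr : ∀ n, 0 < r n := fun n => (hu n).1.2.2.2.1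
  have hrρ : ∀ n, r n ≤ ρ := fun n => (hu n).1.2.2.2.2.1
  have hr1 : ∀ n, r n ≤ 1 / ((n : ℝ) + 1) := fun n => (hu n).1.2.2.2.2.2.1
  have hd : ∀ n, Disjoint (thickening (r n) (A n)) (thickening (r n) (E \ A n)) :=
    fun n => (hu n).1.2.2.2.2.2.2
  have hAanti : Antitone A := antitone_nat_of_succ_le fun n => (hu n).2.1
  have hranti : Antitone r := antitone_nat_of_succ_le fun n => (hu n).2.2
  set B : ℕ → Set X := fun n => Nat.casesOn n E A with hB
  have hB0 : B 0 = E := rfl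
  have hBs : ∀ n, B (n + 1) = A n := fun n => rfl
  have hBp : ∀ n, Piece E (B n) := by
    intro n
    cases n with
    | zero => exact Piece.self hE
    | succ n => exact hA n
  have hAB : ∀ n, A n ⊆ B n := by
    intro n
    cases n with
    | zero => exact (hA 0).sub
    | succ n => exact hAanti (Nat.le_succ n)
  have hBA : ∀ m n, m < n → B n ⊆ A m := by
    intro m n hmn
    obtain ⟨k, rfl⟩ := Nat.exists_eq_add_of_lt hmn
    exact hAanti (Nat.le_add_right m k)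
  refine ⟨fun n => B n \ A n, fun n => thickening (r n) (B n \ A n), ?_⟩
  have hdlt : ∀ m n, m < n →
      Disjoint (thickening (r m) (B m \ A m)) (thickening (r n) (B n \ A n)) := by
    intro m n hmn
    refine ((hd m).mono ?_ ?_).symm
    · refine (thickening_mono (hranti hmn.le) _).trans ?_
      exact thickening_subset_of_subset _ (sdiff_subset.trans (hBA m n hmn))
    · exact thickening_subset_of_subset _ (sdiff_subset_sdiff_left (hBp m).sub)
  refine ⟨fun n => (hBp n).diff (hA n), fun n => ?_, fun n => isOpen_thickening,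
    fun n => self_subset_thickening (hr n) _, fun n => ?_, ?_, ?_, ?_, fun n => ?_⟩
  · exact disjoint_sdiff_self_left.mono_right (hUA n)
  · refine (thickening_mono (hrρ n) _).trans ?_
    exact thickening_subset_of_subset _ (sdiff_subset.trans (hBp n).sub)
  · intro m n hmn
    rcases lt_or_gt_of_ne hmn with h | h
    · exact hdlt m n h
    · exact (hdlt n m h).symm
  · rintro p ⟨hpE, hpU⟩
    have : ∃ n, p ∉ A n := by
      by_contra hc
      push Not at hc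
      apply hpU
      rw [← hUc.closure_eq, closure_eq_iInter_thickening]
      refine mem_iInter₂.2 fun δ hδ => ?_
      obtain ⟨n, hn⟩ := exists_nat_one_div_lt hδ
      exact thickening_mono hn.le _ (hAt n (hc n))
    obtain ⟨hn, hmin⟩ := And.intro (Nat.find_spec this) (fun m => Nat.find_min this (m := m))
    refine mem_iUnion.2 ⟨Nat.find this, ?_, hn⟩
    cases h : Nat.find this with
    | zero => exact hpE
    | succ k =>
      have := hmin k (by omega)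
      push Not at this
      exact this
  · intro p hp
    obtain ⟨δ, hδ, hδU⟩ := Metric.isOpen_iff.1 hUc.isOpen_compl p hp
    obtain ⟨N, hN⟩ := exists_nat_one_div_lt (show (0 : ℝ) < δ / 4 by positivity)
    refine ⟨δ / 4, by positivity, N + 1, fun n hn => ?_⟩
    obtain ⟨k, rfl⟩ : ∃ k, n = k + 1 := ⟨n - 1, by omega⟩
    have hk : N ≤ k := by omega
    have e1 : (1 : ℝ) / ((k : ℝ) + 1) ≤ 1 / ((N : ℝ) + 1) := by
      apply one_div_le_one_div_of_le (by positivity)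
      have : (N : ℝ) ≤ k := by exact_mod_cast hk
      linarith
    rw [disjoint_left]
    intro q hq hqW
    obtain ⟨z, hz, hqz⟩ := mem_thickening_iff.1 hqW
    obtain ⟨w, hw, hzw⟩ := mem_thickening_iff.1 (hAt k hz.1)
    refine hδU (mem_ball.2 ?_) hw
    have h1 := mem_ball.1 hq
    have h2 : r (k + 1) ≤ 1 / ((k : ℝ) + 1) :=
      (hranti (Nat.le_succ k)).trans (hr1 k)
    have h3 := dist_triangle4 w z q p
    rw [dist_comm w z, dist_comm z q] at h3
    linarith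
  · refine ⟨thickening (r n) (A n), isOpen_thickening, (hUA n).trans
      (self_subset_thickening (hr n) _), ?_⟩
    refine (hd n).mono_right ?_
    exact thickening_subset_of_subset _ (sdiff_subset_sdiff_left (hBp n).sub)

namespace Shells

variable {ρ : ℝ} {D W : ℕ → Set X}

/-- a compact set off `U` has a neighbourhood which meets only finitely many `W n`. -/
theorem lf_compact (h : Shells E U ρ D W) {A : Set X} (hA : IsCompact A) (hAU : Disjoint A U) :
    ∃ O, IsOpen O ∧ A ⊆ O ∧ ∃ N, ∀ n ≥ N, Disjoint O (W n) := by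
  choose! r hr N hN using h.lf
  obtain ⟨t, ht, hcov⟩ := hA.elim_nhds_subcover (fun p => ball p (r p)) fun p hp =>
    ball_mem_nhds p (hr p (disjoint_left.1 hAU hp))
  refine ⟨⋃ p ∈ t, ball p (r p), isOpen_biUnion fun p _ => isOpen_ball, hcov,
    t.sup N, fun n hn => ?_⟩
  rw [disjoint_iUnion₂_left]
  intro p hp
  exact hN p (disjoint_left.1 hAU (ht p hp)) n ((Finset.le_sup (f := N) hp).trans hn)

/-- connected subsets of `E` off `U` lie in one shell -/
theorem conn (h : Shells E U ρ D W) {S : Set X} (hS : IsPreconnected S) (hSE : S ⊆ E)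
    (hne : S.Nonempty) (hSU : Disjoint S U) : ∃ n, S ⊆ D n := by
  obtain ⟨p, hp⟩ := hne
  obtain ⟨n, hn⟩ := mem_iUnion.1 (h.cov ⟨hSE hp, disjoint_left.1 hSU hp⟩)
  exact ⟨n, (h.pc n).subset_of_isPreconnected hS hSE ⟨p, hp, hn⟩⟩

end Shells

end Crest.Agent.R105.Exs1_992
end

-- ▼ part R105/Exs3_992
section

/-!
# Row 105 (S0138): square summable bookkeeping
-/

set_option autoImplicit false

namespace Crest.Agent.R105.Exs3_992

open Set Filter Topology
open scoped ENNReal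

variable {α : Type*}

theorem summable_of_ennreal {f : α → ℝ} (hf : ∀ x, 0 ≤ f x) {K : ℝ} (hK : 0 ≤ K)
    (h : ∑' x, ENNReal.ofReal (f x) ≤ ENNReal.ofReal K) : Summable f ∧ ∑' x, f x ≤ K := by
  have hne : ∑' x, ENNReal.ofReal (f x) ≠ ∞ := ne_top_of_le_ne_top ENNReal.ofReal_ne_top h
  have hs : Summable f := by
    have h1 : Summable fun x => (ENNReal.ofReal (f x)).toReal := ENNReal.summable_toReal hne
    simpa only [ENNReal.toReal_ofReal (hf _)] using h1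
  refine ⟨hs, ?_⟩
  rw [← ENNReal.ofReal_tsum_of_nonneg hf hs] at h
  exact (ENNReal.ofReal_le_ofReal_iff hK).1 h

/-- merging countably many square summable families -/
theorem l2_merge (a : ℕ → α → ℝ) (k : ℕ → ℝ) (hk : Summable k)
    (hs : ∀ n, Summable fun x => a n x ^ 2) (hle : ∀ n, ∑' x, a n x ^ 2 ≤ k n) :
    ∃ A : α → ℝ, (∀ x, 0 ≤ A x) ∧ (∀ x N, ∑ n ∈ Finset.range N, a n x ^ 2 ≤ A x ^ 2) ∧
      (Summable fun x => A x ^ 2) ∧ ∑' x, A x ^ 2 ≤ ∑' n, k n := by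
  have hk0 : ∀ n, 0 ≤ k n := fun n => (tsum_nonneg fun x => sq_nonneg _).trans (hle n)
  have hkt : 0 ≤ ∑' n, k n := tsum_nonneg hk0
  have key : ∑' x, ∑' n, ENNReal.ofReal (a n x ^ 2) ≤ ENNReal.ofReal (∑' n, k n) := by
    rw [ENNReal.tsum_comm, ENNReal.ofReal_tsum_of_nonneg hk0 hk]
    refine ENNReal.tsum_le_tsum fun n => ?_
    rw [← ENNReal.ofReal_tsum_of_nonneg (fun x => sq_nonneg _) (hs n)]
    exact ENNReal.ofReal_le_ofReal (hle n)
  have hx : ∀ x, ∑' n, ENNReal.ofReal (a n x ^ 2) ≠ ∞ := fun x =>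
    ne_top_of_le_ne_top (ne_top_of_le_ne_top ENNReal.ofReal_ne_top key) (ENNReal.le_tsum x)
  refine ⟨fun x => √((∑' n, ENNReal.ofReal (a n x ^ 2)).toReal), fun x => Real.sqrt_nonneg _,
    fun x N => ?_, ?_⟩
  · rw [Real.sq_sqrt ENNReal.toReal_nonneg]
    have h1 : ENNReal.ofReal (∑ n ∈ Finset.range N, a n x ^ 2) ≤
        ∑' n, ENNReal.ofReal (a n x ^ 2) := by
      rw [ENNReal.ofReal_sum_of_nonneg fun i _ => sq_nonneg _]
      exact ENNReal.sum_le_tsum _
    exact (ENNReal.ofReal_le_iff_le_toReal (hx x)).1 h1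
  · have e : ∀ x, ENNReal.ofReal (√((∑' n, ENNReal.ofReal (a n x ^ 2)).toReal) ^ 2) =
        ∑' n, ENNReal.ofReal (a n x ^ 2) := fun x => by
      rw [Real.sq_sqrt ENNReal.toReal_nonneg, ENNReal.ofReal_toReal (hx x)]
    refine summable_of_ennreal (fun x => sq_nonneg _) hkt ?_
    simp only [e]
    exact key

theorem geo_eq (N : ℕ) :
    ∑ n ∈ Finset.range N, (1 / 2 : ℝ) ^ (n + 1) = 1 - (1 / 2) ^ N := by
  induction N with
  | zero => simp
  | succ N ih => rw [Finset.sum_range_succ, ih]; ring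

/-- summing countably many square summable families with geometric weights -/
theorem l2_sum (a : ℕ → α → ℝ) (κ : ℝ)
    (hs : ∀ n, Summable fun x => a n x ^ 2)
    (hle : ∀ n, ∑' x, a n x ^ 2 ≤ κ ^ 2 / 4 ^ (n + 1)) :
    ∃ A : α → ℝ, (∀ x, 0 ≤ A x) ∧ (∀ x N, ∑ n ∈ Finset.range N, a n x ≤ A x) ∧
      (Summable fun x => A x ^ 2) ∧ ∑' x, A x ^ 2 ≤ κ ^ 2 := by
  have hsq : ∀ n x, (√(2 ^ (n + 1)) * a n x) ^ 2 = 2 ^ (n + 1) * a n x ^ 2 := fun n x => by
    rw [mul_pow, Real.sq_sqrt (by positivity)]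
  have hgeo : Summable fun n : ℕ => κ ^ 2 / 2 * (1 / 2 : ℝ) ^ n :=
    summable_geometric_two.mul_left _
  obtain ⟨A, hA0, hA1, hA2, hA3⟩ := l2_merge (fun n x => √(2 ^ (n + 1)) * a n x)
    (fun n => κ ^ 2 / 2 * (1 / 2 : ℝ) ^ n) hgeo
    (fun n => by simp only [hsq]; exact (hs n).mul_left _)
    (fun n => by
      simp only [hsq]
      rw [tsum_mul_left]
      calc (2 : ℝ) ^ (n + 1) * ∑' x, a n x ^ 2 ≤ 2 ^ (n + 1) * (κ ^ 2 / 4 ^ (n + 1)) := by
            gcongr; exact hle n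
        _ = κ ^ 2 / 2 * (1 / 2 : ℝ) ^ n := by
            have h4 : (4 : ℝ) ^ (n + 1) = 2 ^ (n + 1) * (2 ^ n * 2) := by
              rw [← pow_succ, ← mul_pow]; norm_num
            rw [h4, one_div, inv_pow]
            field_simp)
  refine ⟨A, hA0, fun x N => ?_, hA2, hA3.trans (le_of_eq ?_)⟩
  · refine abs_le_of_sq_le_sq' ?_ (hA0 x) |>.2
    refine le_trans ?_ (hA1 x N)
    simp only [hsq]
    -- Cauchy-Schwarz
    have h1 := Finset.sum_mul_sq_le_sq_mul_sq (Finset.range N)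
      (fun n => √(1 / 2 ^ (n + 1))) (fun n => √(2 ^ (n + 1)) * a n x)
    have h2 : ∀ n : ℕ, √(1 / 2 ^ (n + 1)) * (√(2 ^ (n + 1)) * a n x) = a n x := fun n => by
      rw [← mul_assoc, ← Real.sqrt_mul (by positivity), one_div,
        inv_mul_cancel₀ (by positivity), Real.sqrt_one, one_mul]
    have h3 : ∀ n : ℕ, √(1 / 2 ^ (n + 1)) ^ 2 = (1 / 2 : ℝ) ^ (n + 1) := fun n => by
      rw [Real.sq_sqrt (by positivity), one_div, one_div, inv_pow]
    simp only [h2, h3, hsq] at h1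
    refine h1.trans ?_
    have h4 : ∑ n ∈ Finset.range N, (1 / 2 : ℝ) ^ (n + 1) ≤ 1 := by
      rw [geo_eq]
      linarith [show (0 : ℝ) ≤ (1 / 2) ^ N by positivity]
    have h5 : 0 ≤ ∑ n ∈ Finset.range N, 2 ^ (n + 1) * a n x ^ 2 :=
      Finset.sum_nonneg fun n _ => by positivity
    nlinarith
  · rw [tsum_mul_left, tsum_geometric_two]; ring

end Crest.Agent.R105.Exs3_992
end

-- ▼ part R105/Exs4_992
section

/-!
# Row 105 (S0138): one stage of the iteration with exempt solids (423 #10259 (C))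
-/

set_option autoImplicit false

namespace Crest.Agent.R105.Exs4_992

open Set Filter MeasureTheory Topology Metric
open Crest.Agent.R105.CF_363 Crest.Agent.R105.Stp_722 Crest.Agent.R105.Cq_463
open Crest.Agent.R105.Skp2_257 (Comps Reg)
open Crest.Agent.R105.Exs_992 Crest.Agent.R105.Exs1_992 Crest.Agent.R105.Exs3_992
open Crest.Agent.R105.Thin_891

variable {E : Set (ℝ × ℝ)} {𝒬 : Set Sqr} {𝓗 : Set Hair} {ι : Type} {P : ι → Set (ℝ × ℝ)}
  {jm : (ℝ × ℝ → ℝ) → ι → ℝ}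

/-- near compact sets off `U`, `r` is a cut function -/
def Loc (𝓗 : Set Hair) (U : Set (ℝ × ℝ)) (r : ℝ × ℝ → ℝ) : Prop :=
  ∀ A, IsCompact A → Disjoint A U → ∃ g : ℝ × ℝ → ℝ, CFJ 𝓗 univ g ∧ HasCompactSupport g ∧
    (∃ C : ℝ, ∀ p, |g p| ≤ C) ∧ ∃ O, IsOpen O ∧ A ⊆ O ∧ ∀ p ∈ O, r p = g p

/-- the state of the iteration: `U` = union of the exempt solids -/
structure Inv (E : Set (ℝ × ℝ)) (𝒬 : Set Sqr) (𝓗 : Set Hair) (P : ι → Set (ℝ × ℝ))
    (jm : (ℝ × ℝ → ℝ) → ι → ℝ) (S0 : Set (ℝ × ℝ)) (d : ℝ) (r : ℝ × ℝ → ℝ) (U : Set (ℝ × ℝ))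
    (b : Sqr → ℝ) (c : ι → ℝ) : Prop where
  loc : Loc 𝓗 U r
  fin : ∃ s : Set (Set (ℝ × ℝ)), s.Finite ∧ (∀ L ∈ s, L ∈ Comps E ∧ ∃ Q ∈ 𝒬, Q.car ⊆ L) ∧ U = ⋃₀ s
  osc : ∀ L ∈ Comps E, Disjoint L U → OscLe Eᶜ L r (2 * d)
  bdd : ∃ C : ℝ, ∀ p, |r p| ≤ C
  supp : ∀ p ∉ S0, r p = 0
  sq : ∀ Q ∈ 𝒬, Disjoint Q.car U → chg Eᶜ Q.car r ≤ b Q
  bs : Summable fun Q : 𝒬 => b Q ^ 2
  jc : ∀ i, Disjoint (P i) U → jm r i ≤ c i

/-- one stage: from `(r, U, b, c)` to `(r', U', b', c')` by the modifications `f n`. -/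
structure Stg (E : Set (ℝ × ℝ)) (𝒬 : Set Sqr) (𝓗 : Set Hair) (C0 θ d ρ κ : ℝ)
    (r : ℝ × ℝ → ℝ) (U : Set (ℝ × ℝ)) (b : Sqr → ℝ) (c : ι → ℝ)
    (r' : ℝ × ℝ → ℝ) (U' : Set (ℝ × ℝ)) (b' : Sqr → ℝ) (c' : ι → ℝ)
    (f : ℕ → ℝ × ℝ → ℝ) (W : ℕ → Set (ℝ × ℝ)) : Prop where
  cfj : ∀ n, CFJ 𝓗 univ (f n)
  supp : ∀ n, ∃ S, IsCompact S ∧ S ⊆ W n ∧ ∀ p ∉ S, f n p = 0
  op : ∀ n, IsOpen (W n)
  dis : Pairwise fun m n => Disjoint (W m) (W n)
  near : ∀ n, W n ⊆ thickening ρ E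
  bd : ∀ n p, |f n p| ≤ C0 * d
  en : ∀ n, (∫ p in Eᶜ, g2 (f n) p) ≤ κ ^ 2 / 4 ^ (n + 1)
  sum : ∀ p n, (∀ m, m ≠ n → p ∉ W m) → r' p = r p + f n p
  mono : U ⊆ U'
  lf : ∀ A, IsCompact A → Disjoint A U' →
    ∃ O, IsOpen O ∧ A ⊆ O ∧ ∃ N, ∀ n ≥ N, Disjoint O (W n)
  offU : ∀ n, ∃ O, IsOpen O ∧ U' ⊆ O ∧ Disjoint O (W n)
  conn : ∀ S ⊆ E, IsPreconnected S → S.Nonempty → Disjoint S U' → ∃ n, S ⊆ W n
  dich : ∀ S ⊆ E, IsPreconnected S → S ⊆ U' ∨ Disjoint S U'
  ex : ∀ Q ∈ 𝒬, ¬ Disjoint Q.car U' → ¬ Disjoint Q.car U ∨ θ * d ≤ chg Eᶜ Q.car r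
  ba : ∃ a : Sqr → ℝ, (∀ Q, 0 ≤ a Q) ∧ (Summable fun Q : 𝒬 => a Q.1 ^ 2) ∧
    ∑' Q : 𝒬, a Q.1 ^ 2 ≤ κ ^ 2 ∧ ∀ Q, b' Q = b Q + a Q
  ca : ∃ a : ι → ℝ, (∀ i, 0 ≤ a i) ∧ (Summable fun i => a i ^ 2) ∧
    ∑' i, a i ^ 2 ≤ κ ^ 2 ∧ ∀ i, c' i = c i + a i

theorem ch_univ (f : ℝ × ℝ → ℝ) (Q : Sqr) : ch E univ f Q = chg Eᶜ Q.car f := by
  simp [ch]

theorem cfj_sum {f : ℕ → ℝ × ℝ → ℝ} (h : ∀ n, CFJ 𝓗 univ (f n)) (N : ℕ) :
    CFJ 𝓗 univ fun p => ∑ n ∈ Finset.range N, f n p := by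
  induction N with
  | zero => simpa using CFJ_const (𝓗 := 𝓗) (W := univ) 0
  | succ N ih =>
    simp only [Finset.sum_range_succ]
    exact ih.add (h N)

/-- the component of the square -/
theorem car_sub_cc (hE : QPic E 𝒬 𝓗) {Q : Sqr} (hQ : Q ∈ 𝒬) :
    Q.car ⊆ connectedComponentIn E (Q.x, Q.y) :=
  Q.convex_car.isPreconnected.subset_connectedComponentIn
    ⟨⟨le_rfl, by linarith [Q.hs]⟩, ⟨le_rfl, by linarith [Q.hs]⟩⟩ (hE.sub Q hQ)

theorem corner_mem (Q : Sqr) : (Q.x, Q.y) ∈ Q.car :=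
  ⟨⟨le_rfl, by linarith [Q.hs]⟩, ⟨le_rfl, by linarith [Q.hs]⟩⟩

theorem dich_of {s : Set (Set (ℝ × ℝ))} (hs : ∀ L ∈ s, L ∈ Comps E) :
    ∀ S ⊆ E, IsPreconnected S → S ⊆ ⋃₀ s ∨ Disjoint S (⋃₀ s) := by
  intro S hSE hS
  by_cases hd : Disjoint S (⋃₀ s)
  · exact Or.inr hd
  · left
    obtain ⟨p, hpS, L, hL, hpL⟩ := not_disjoint_iff.1 hd
    obtain ⟨q, hq, rfl⟩ := hs L hL
    refine fun z hz => ⟨_, hL, ?_⟩
    rw [connectedComponentIn_eq hpL]
    exact hS.subset_connectedComponentIn hpS hSE hz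

theorem stage (hE : QPic E 𝒬 𝓗) (hJ : LocFun E P jm) {C0 θ : ℝ} (hC0 : 0 ≤ C0) (hθ : 0 < θ)
    (hstep : StepJ E 𝒬 𝓗 jm C0 θ) {S0 : Set (ℝ × ℝ)} (hS0 : IsCompact S0) {d ρ κ : ℝ}
    (hd : 0 < d) (hρ : 0 < ρ) (hρS : thickening ρ E ⊆ S0) (hκ : 0 < κ)
    {r : ℝ × ℝ → ℝ} {U : Set (ℝ × ℝ)} {b : Sqr → ℝ} {c : ι → ℝ}
    (h : Inv E 𝒬 𝓗 P jm S0 d r U b c) :
    ∃ r' U' b' c' f W, Inv E 𝒬 𝓗 P jm S0 (d / 2) r' U' b' c' ∧
      Stg E 𝒬 𝓗 C0 θ d ρ κ r U b c r' U' b' c' f W := by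
  classical
  obtain ⟨s, hsf, hs, rfl⟩ := h.fin
  obtain ⟨C, hC⟩ := h.bdd
  -- the new exempt solids
  set T : Set Sqr := {Q | Q ∈ 𝒬 ∧ Disjoint Q.car (⋃₀ s) ∧ θ * d ≤ chg Eᶜ Q.car r} with hT
  have hTf : T.Finite := by
    have h1 : ∀ᶠ Q : 𝒬 in cofinite, b Q ^ 2 < (θ * d) ^ 2 :=
      h.bs.tendsto_cofinite_zero.eventually (gt_mem_nhds (by positivity))
    have h2 : {Q : 𝒬 | ¬ b Q ^ 2 < (θ * d) ^ 2}.Finite := h1
    refine (h2.image Subtype.val).subset fun Q hQ => ?_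
    obtain ⟨hQ1, hQ2, hQ3⟩ := hQ
    refine ⟨⟨Q, hQ1⟩, ?_, rfl⟩
    rw [Set.mem_ofPred_eq, not_lt]
    exact pow_le_pow_left₀ (by positivity) (hQ3.trans (h.sq Q hQ1 hQ2)) 2
  set s' : Set (Set (ℝ × ℝ)) := s ∪ (fun Q : Sqr => connectedComponentIn E (Q.x, Q.y)) '' T
    with hs'
  have hs'f : s'.Finite := hsf.union (hTf.image _)
  have hs'c : ∀ L ∈ s', L ∈ Comps E ∧ ∃ Q ∈ 𝒬, Q.car ⊆ L := by
    rintro L (hL | ⟨Q, hQ, rfl⟩)
    · exact hs L hL
    · exact ⟨⟨_, hE.sub Q hQ.1 (corner_mem Q), rfl⟩, Q, hQ.1, car_sub_cc hE hQ.1⟩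
  set U' : Set (ℝ × ℝ) := ⋃₀ s' with hU'
  have hUU' : ⋃₀ s ⊆ U' := sUnion_subset_sUnion subset_union_left
  have hcomp : ∀ L ∈ s', ∃ p ∈ E, L = connectedComponentIn E p := fun L hL => (hs'c L hL).1
  have hU'c : IsCompact U' := isCompact_sUnion_comps hE.cpt hs'f hcomp
  have hU'E : U' ⊆ E := by
    rintro p ⟨L, hL, hp⟩
    obtain ⟨q, hq, rfl⟩ := hcomp L hL
    exact connectedComponentIn_subset _ _ hp
  obtain ⟨D, W, hDW⟩ := exists_shells hE.cpt hU'E hU'c.isClosed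
    (sat_of_finite hE.cpt hs'f hcomp) hρ
  have hDU : ∀ n, Disjoint (D n) (⋃₀ s) := fun n => (hDW.dU n).mono_right hUU'
  choose g hg1 hg2 hg3 O hO hDO hgO using fun n => h.loc (D n) (hDW.pc n).cpt (hDU n)
  -- the step on the shells
  have hst : ∀ n, ∃ φ : ℝ × ℝ → ℝ, CFJ 𝓗 univ φ ∧
      (∃ S, IsCompact S ∧ S ⊆ W n ∩ O n ∧ ∀ p ∉ S, φ p = 0) ∧
      (∀ p, |φ p| ≤ C0 * d) ∧ (∫ p in Eᶜ, g2 φ p) ≤ (κ / 2 ^ (n + 1)) ^ 2 ∧
      (∃ a : Sqr → ℝ, (∀ Q, 0 ≤ a Q) ∧ (Summable fun Q : 𝒬 => a Q.1 ^ 2) ∧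
        ∑' Q : 𝒬, a Q.1 ^ 2 ≤ (κ / 2 ^ (n + 1)) ^ 2 ∧
        ∀ Q ∈ 𝒬, ch E univ (fun p => g n p + φ p) Q ≤ ch E univ (g n) Q + a Q) ∧
      (∃ b : ι → ℝ, (∀ i, 0 ≤ b i) ∧ (Summable fun i => b i ^ 2) ∧
        ∑' i, b i ^ 2 ≤ (κ / 2 ^ (n + 1)) ^ 2 ∧
        ∀ i, jm (fun p => g n p + φ p) i ≤ jm (g n) i + b i) ∧
      ∀ L ∈ Comps E, L ⊆ D n → OscLe Eᶜ L (fun p => g n p + φ p) d := by
    intro n
    refine hstep (g n) (hg1 n) (hg2 n) (hg3 n) (D n) (hDW.pc n).cpt (hDW.pc n).sub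
      (hDW.pc n).cpt' d hd (fun L hL hLD => ?_) (fun Q hQ hQD => ?_) (W n ∩ O n)
      ((hDW.op n).inter (hO n)) (subset_inter (hDW.sub n) (hDO n)) (κ / 2 ^ (n + 1))
      (by positivity)
    · exact (h.osc L hL ((hDU n).mono_left hLD)).congr (hO n) (hLD.trans (hDO n))
        fun q hq => (hgO n q hq.1).symm
    · have h1 : Disjoint Q.car (⋃₀ s) := (hDU n).mono_left hQD
      have h2 : chg Eᶜ Q.car r ≤ θ * d := by
        by_contra hc
        push Not at hc
        have hQT : Q ∈ T := ⟨hQ, h1, hc.le⟩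
        have h3 : (Q.x, Q.y) ∈ U' := ⟨_, Or.inr ⟨Q, hQT, rfl⟩,
          car_sub_cc hE hQ (corner_mem Q)⟩
        exact disjoint_left.1 (hDW.dU n) (hQD (corner_mem Q)) h3
      have h4 : Fin Eᶜ Q.car r := fin_of_bdd (A := C) fun p _ => hC p
      exact (h4.oscLe.mono h2).congr (hO n) (hQD.trans (hDO n))
        fun q hq => (hgO n q hq.1).symm
  choose f hf1 hf2 hf3 hf4 hf5 hf6 hf7 using hst
  choose a ha0 has hale hach using hf5
  choose β hβ0 hβs hβle hβj using hf6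
  have hpw : ∀ n : ℕ, (κ / 2 ^ (n + 1)) ^ 2 = κ ^ 2 / 4 ^ (n + 1) := fun n => by
    rw [div_pow, ← pow_mul, mul_comm, pow_mul]; norm_num
  have hksum : Summable fun n : ℕ => κ ^ 2 / 4 * (1 / 4 : ℝ) ^ n :=
    (summable_geometric_of_lt_one (by norm_num) (by norm_num)).mul_left _
  have hkeq : ∀ n : ℕ, κ ^ 2 / 4 ^ (n + 1) = κ ^ 2 / 4 * (1 / 4 : ℝ) ^ n := fun n => by
    rw [one_div, inv_pow]; field_simp; ring
  have hktot : ∑' n : ℕ, κ ^ 2 / 4 * (1 / 4 : ℝ) ^ n ≤ κ ^ 2 := by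
    rw [tsum_mul_left, tsum_geometric_of_lt_one (by norm_num) (by norm_num)]
    nlinarith [sq_nonneg κ]
  obtain ⟨A, hA0, hA1, hA2, hA3⟩ := l2_merge (fun n (Q : 𝒬) => a n Q.1)
    (fun n => κ ^ 2 / 4 * (1 / 4 : ℝ) ^ n) hksum has
    (fun n => by rw [← hkeq, ← hpw]; exact hale n)
  obtain ⟨B, hB0, hB1, hB2, hB3⟩ := l2_merge β
    (fun n => κ ^ 2 / 4 * (1 / 4 : ℝ) ^ n) hksum hβs
    (fun n => by rw [← hkeq, ← hpw]; exact hβle n)
  have haA : ∀ n (Q : 𝒬), a n Q.1 ≤ A Q := fun n Q => by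
    refine (abs_le_of_sq_le_sq' ?_ (hA0 Q)).2
    refine le_trans ?_ (hA1 Q (n + 1))
    exact Finset.single_le_sum (f := fun n => a n Q.1 ^ 2) (fun i _ => sq_nonneg _)
      (Finset.self_mem_range_succ n)
  have hβB : ∀ n i, β n i ≤ B i := fun n i => by
    refine (abs_le_of_sq_le_sq' ?_ (hB0 i)).2
    refine le_trans ?_ (hB1 i (n + 1))
    exact Finset.single_le_sum (f := fun n => β n i ^ 2) (fun i _ => sq_nonneg _)
      (Finset.self_mem_range_succ n)
  -- supports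
  have hfW : ∀ n p, p ∉ W n → f n p = 0 := by
    intro n p hp
    obtain ⟨S, -, hS1, hS2⟩ := hf2 n
    exact hS2 p fun hc => hp (hS1 hc).1
  -- the new function
  set F : ℝ × ℝ → ℝ := fun p => if hp : ∃ n, p ∈ W n then f hp.choose p else 0 with hF
  have hFn : ∀ p n, (∀ m, m ≠ n → p ∉ W m) → F p = f n p := by
    intro p n hn
    by_cases hp : ∃ n, p ∈ W n
    · have h1 : hp.choose = n := by
        by_contra hc
        exact hn _ hc hp.choose_spec
      simp only [hF, dif_pos hp, h1]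
    · simp only [hF, dif_neg hp]
      exact (hfW n p fun hc => hp ⟨n, hc⟩).symm
  have hWn : ∀ n, ∀ p ∈ W n, ∀ m, m ≠ n → p ∉ W m := fun n p hp m hm hpm =>
    disjoint_left.1 (hDW.dis hm) hpm hp
  have hFb : ∀ p, |F p| ≤ C0 * d := by
    intro p
    by_cases hp : ∃ n, p ∈ W n
    · obtain ⟨n, hn⟩ := hp
      rw [hFn p n (hWn n p hn)]; exact hf3 n p
    · simp only [hF, dif_neg hp, abs_zero]; positivity
  have hloc : ∀ n, ∀ p ∈ W n ∩ O n, r p + F p = g n p + f n p := by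
    rintro n p ⟨hpW, hpO⟩
    rw [hFn p n (hWn n p hpW), hgO n p hpO]
  have hWO : ∀ n, IsOpen (W n ∩ O n) := fun n => (hDW.op n).inter (hO n)
  have hDWO : ∀ n, D n ⊆ W n ∩ O n := fun n => subset_inter (hDW.sub n) (hDO n)
  set a' : Sqr → ℝ := fun Q => if hQ : Q ∈ 𝒬 then A ⟨Q, hQ⟩ else 0 with ha'
  have ha'v : ∀ Q : 𝒬, a' Q.1 = A Q := fun Q => by simp only [ha', dif_pos Q.2]
  refine ⟨fun p => r p + F p, U', fun Q => b Q + a' Q, fun i => c i + B i, f, W, ?_, ?_⟩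
  · refine ⟨?_, ⟨s', hs'f, hs'c, rfl⟩, ?_, ⟨C + C0 * d, fun p => ?_⟩, fun p hp => ?_, ?_, ?_,
      ?_⟩
    · -- Loc
      intro K hK hKU
      obtain ⟨g₀, k1, k2, ⟨Cg, k3⟩, Og, k4, k5, k6⟩ := h.loc K hK (hKU.mono_right hUU')
      obtain ⟨O1, hO1, hKO1, N, hN⟩ := hDW.lf_compact hK hKU
      refine ⟨fun p => g₀ p + ∑ n ∈ Finset.range N, f n p, k1.add (cfj_sum hf1 N), ?_,
        ⟨Cg + ∑ n ∈ Finset.range N, C0 * d, fun p => ?_⟩, Og ∩ O1, k4.inter hO1,
        subset_inter k5 hKO1, ?_⟩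
      · refine HasCompactSupport.intro (K := tsupport g₀ ∪ S0) (k2.union hS0) fun p hp => ?_
        rw [image_eq_zero_of_notMem_tsupport fun hc => hp (Or.inl hc), zero_add]
        refine Finset.sum_eq_zero fun n _ => hfW n p fun hc => hp (Or.inr ?_)
        exact hρS (hDW.near n hc)
      · refine (abs_add_le _ _).trans (add_le_add (k3 p) ?_)
        exact (Finset.abs_sum_le_sum_abs _ _).trans (Finset.sum_le_sum fun n _ => hf3 n p)
      · rintro p ⟨hpg, hp1⟩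
        beta_reduce
        rw [k6 p hpg]
        congr 1
        by_cases hp : ∃ n, p ∈ W n
        · obtain ⟨n, hn⟩ := hp
          have hnN : n < N := by
            by_contra hc
            exact disjoint_left.1 (hN n (not_lt.1 hc)) hp1 hn
          rw [hFn p n (hWn n p hn), Finset.sum_eq_single_of_mem n (Finset.mem_range.2 hnN)
            fun m _ hm => hfW m p (hWn n p hn m hm)]
        · simp only [hF, dif_neg hp]
          exact (Finset.sum_eq_zero fun n _ => hfW n p fun hc => hp ⟨n, hc⟩).symm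
    · -- oscillations
      intro L hL hLU
      obtain ⟨q, hq, hLq⟩ := hL
      have hLE : L ⊆ E := by rw [hLq]; exact connectedComponentIn_subset _ _
      have hLc : IsPreconnected L := by rw [hLq]; exact isPreconnected_connectedComponentIn
      have hLn : L.Nonempty := ⟨q, by rw [hLq]; exact mem_connectedComponentIn hq⟩
      obtain ⟨n, hn⟩ := hDW.conn hLc hLE hLn hLU
      have h1 := (hf7 n L ⟨q, hq, hLq⟩ hn).congr (g := fun p => r p + F p) (hWO n)
        (hn.trans (hDWO n)) fun q hq => hloc n q hq.1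
      rwa [show 2 * (d / 2) = d by ring]
    · exact (abs_add_le _ _).trans (add_le_add (hC p) (hFb p))
    · -- support
      beta_reduce
      rw [h.supp p hp, zero_add]
      have : ¬ ∃ n, p ∈ W n := by
        rintro ⟨n, hn⟩
        exact hp (hρS (hDW.near n hn))
      simp only [hF, dif_neg this]
    · -- squares
      intro Q hQ hQU
      obtain ⟨n, hn⟩ := hDW.conn Q.convex_car.isPreconnected (hE.sub Q hQ) Q.nonempty hQU
      have h1 : chg Eᶜ Q.car (fun p => r p + F p) = chg Eᶜ Q.car (fun p => g n p + f n p) :=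
        chg_congr (hWO n) (hn.trans (hDWO n)) fun q hq => hloc n q hq.1
      have h2 : chg Eᶜ Q.car (g n) = chg Eᶜ Q.car r :=
        chg_congr (hO n) (hn.trans (hDO n)) fun q hq => (hgO n q hq.1).symm
      have h3 := hach n Q hQ
      rw [ch_univ, ch_univ, h2] at h3
      have h4 : a n Q ≤ a' Q := by
        have := haA n ⟨Q, hQ⟩
        rwa [← ha'v] at this
      rw [h1]
      have h5 := h.sq Q hQ (hQU.mono_right hUU')
      linarith
    · -- summability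
      have h1 : Summable fun Q : 𝒬 => 2 * b Q ^ 2 + 2 * A Q ^ 2 :=
        (h.bs.mul_left 2).add (hA2.mul_left 2)
      refine Summable.of_nonneg_of_le (fun Q => sq_nonneg _) (fun Q => ?_) h1
      beta_reduce
      rw [ha'v]
      nlinarith [sq_nonneg (b Q - A Q)]
    · -- functionals
      intro i hi
      obtain ⟨n, hn⟩ := hDW.conn (hJ.con i) (hJ.sub i) (hJ.ne i) hi
      have h1 : jm (fun p => r p + F p) i = jm (fun p => g n p + f n p) i :=
        hJ.loc i _ _ _ (hWO n) (hn.trans (hDWO n)) fun q hq => hloc n q hq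
      have h2 : jm (g n) i = jm r i :=
        hJ.loc i _ _ _ (hO n) (hn.trans (hDO n)) fun q hq => (hgO n q hq).symm
      have h3 := hβj n i
      have h5 := h.jc i (hi.mono_right hUU')
      have h6 := hβB n i
      rw [h1]; linarith
  · refine ⟨hf1, fun n => ?_, hDW.op, hDW.dis, hDW.near, hf3, fun n => ?_, fun p n hn => ?_,
      hUU', fun K hK hKU => hDW.lf_compact hK hKU, hDW.offU, ?_,
      dich_of fun L hL => (hs'c L hL).1, ?_, ⟨a', fun Q => ?_, ?_, ?_, fun Q => rfl⟩,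
      ⟨B, hB0, hB2, hB3.trans hktot, fun i => rfl⟩⟩
    · obtain ⟨S, h1, h2, h3⟩ := hf2 n
      exact ⟨S, h1, fun p hp => (h2 hp).1, h3⟩
    · rw [← hpw]; exact hf4 n
    · beta_reduce; rw [hFn p n hn]
    · intro S hSE hS hSn hSU
      obtain ⟨n, hn⟩ := hDW.conn hS hSE hSn hSU
      exact ⟨n, hn.trans (hDW.sub n)⟩
    · intro Q hQ hQU
      obtain ⟨p, hpQ, L, hL, hpL⟩ := not_disjoint_iff.1 hQU
      rcases hL with hL | ⟨Q', hQ', rfl⟩
      · exact Or.inl (not_disjoint_iff.2 ⟨p, hpQ, L, hL, hpL⟩)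
      · right
        have : Q = Q' := hE.sep _ (connectedComponentIn_subset _ _)
          isPreconnected_connectedComponentIn Q hQ Q' hQ'.1 ⟨p, hpL, hpQ⟩
          ⟨_, car_sub_cc hE hQ'.1 (corner_mem Q'), corner_mem Q'⟩
        rw [this]; exact hQ'.2.2
    · by_cases hQ : Q ∈ 𝒬
      · rw [show a' Q = A ⟨Q, hQ⟩ from ha'v ⟨Q, hQ⟩]; exact hA0 _
      · simp only [ha', dif_neg hQ, le_refl]
    · simp only [ha'v]; exact hA2
    · simp only [ha'v]; exact hA3.trans hktot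

end Crest.Agent.R105.Exs4_992
end

-- ▼ part R105/Exs5_992
section

/-!
# Row 105 (S0138): consistent truncations of the stage functions
-/

set_option autoImplicit false

namespace Crest.Agent.R105.Exs5_992

open Set Filter MeasureTheory Topology Metric
open Crest.Agent.R105.CF_363 Crest.Agent.R105.Stp_722 Crest.Agent.R105.Cq_463
open Crest.Agent.R105.Skp2_257 (Comps Reg)
open Crest.Agent.R105.Exs_992 Crest.Agent.R105.Exs1_992 Crest.Agent.R105.Exs3_992
open Crest.Agent.R105.Exs4_992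
open Crest.Agent.R105.Exs2_992 (cfj_ae_diff cfj_integrable)
open Crest.Agent.R105.SkLim2_363 (g2_eq_zero_of_notMem g2_neg g2_congr g2_add_le)
open scoped ENNReal

variable {E : Set (ℝ × ℝ)} {𝒬 : Set Sqr} {𝓗 : Set Hair} {ι : Type} {P : ι → Set (ℝ × ℝ)}
  {jm : (ℝ × ℝ → ℝ) → ι → ℝ}

/-- energy off `E` as a lower integral -/
noncomputable def len (E : Set (ℝ × ℝ)) (f : ℝ × ℝ → ℝ) : ℝ≥0∞ :=
  ∫⁻ p in Eᶜ, ENNReal.ofReal (g2 f p)

theorem len_add_le (hE : IsCompact E) {f g : ℝ × ℝ → ℝ}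
    (hf : ∀ᵐ p : ℝ × ℝ, p ∉ E → DifferentiableAt ℝ f p)
    (hg : ∀ᵐ p : ℝ × ℝ, p ∉ E → DifferentiableAt ℝ g p) :
    len E (fun p => f p + g p) ≤ 2 * len E f + 2 * len E g := by
  have hm : MeasurableSet Eᶜ := hE.isClosed.isOpen_compl.measurableSet
  unfold len
  rw [← lintegral_const_mul _ (measurable_g2 f).ennreal_ofReal,
    ← lintegral_const_mul _ (measurable_g2 g).ennreal_ofReal,
    ← lintegral_add_left ((measurable_g2 f).ennreal_ofReal.const_mul _)]
  refine lintegral_mono_ae ?_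
  filter_upwards [ae_restrict_of_ae hf, ae_restrict_of_ae hg, ae_restrict_mem hm]
    with p h1 h2 hp
  have h3 := g2_add_le (h1 hp) (h2 hp)
  have e : ∀ x : ℝ, 0 ≤ x → 2 * ENNReal.ofReal x = ENNReal.ofReal (2 * x) := fun x hx => by
    rw [ENNReal.ofReal_mul zero_le_two]; simp
  rw [e _ (g2_nonneg _ _), e _ (g2_nonneg _ _),
    ← ENNReal.ofReal_add (by have := g2_nonneg f p; positivity)
      (by have := g2_nonneg g p; positivity)]
  exact ENNReal.ofReal_le_ofReal h3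

theorem len_neg (f : ℝ × ℝ → ℝ) : len E (fun p => - f p) = len E f := by
  unfold len; simp only [g2_neg]


theorem len_eq {f : ℝ × ℝ → ℝ} (hf : CFJ 𝓗 univ f) {S : Set (ℝ × ℝ)} (hS : IsCompact S)
    (h0 : ∀ p ∉ S, f p = 0) : len E f = ENNReal.ofReal (∫ p in Eᶜ, g2 f p) :=
  (ofReal_integral_eq_lintegral_ofReal (cfj_integrable hf hS h0).integrableOn
    (Eventually.of_forall fun p => g2_nonneg _ _)).symm

section one

variable {C0 θ d ρ κ : ℝ} {r r' : ℝ × ℝ → ℝ} {U U' : Set (ℝ × ℝ)} {b b' : Sqr → ℝ}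
  {c c' : ι → ℝ} {f : ℕ → ℝ × ℝ → ℝ} {W : ℕ → Set (ℝ × ℝ)}

theorem f_off (h : Stg E 𝒬 𝓗 C0 θ d ρ κ r U b c r' U' b' c' f W) {n : ℕ} {p : ℝ × ℝ}
    (hp : p ∉ W n) : f n p = 0 := by
  obtain ⟨S, -, hS1, hS2⟩ := h.supp n
  exact hS2 p fun hc => hp (hS1 hc)

theorem in_W (h : Stg E 𝒬 𝓗 C0 θ d ρ κ r U b c r' U' b' c' f W) {n : ℕ} {p : ℝ × ℝ}
    (hp : p ∈ W n) : r' p = r p + f n p :=
  h.sum p n fun _ hm hpm => disjoint_left.1 (h.dis hm) hpm hp

theorem other (h : Stg E 𝒬 𝓗 C0 θ d ρ κ r U b c r' U' b' c' f W) {m n : ℕ} (hmn : m ≠ n)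
    {p : ℝ × ℝ} (hp : p ∈ W n) : f m p = 0 :=
  f_off h fun hpm => disjoint_left.1 (h.dis hmn) hpm hp

theorem off_all (h : Stg E 𝒬 𝓗 C0 θ d ρ κ r U b c r' U' b' c' f W) {p : ℝ × ℝ}
    (hp : ∀ n, p ∉ W n) : r' p = r p := by
  rw [h.sum p 0 fun m _ => hp m, f_off h (hp 0), add_zero]

theorem sum_in (h : Stg E 𝒬 𝓗 C0 θ d ρ κ r U b c r' U' b' c' f W) {n N : ℕ} (hn : n < N)
    {p : ℝ × ℝ} (hp : p ∈ W n) : ∑ m ∈ Finset.range N, f m p = f n p :=
  Finset.sum_eq_single_of_mem n (Finset.mem_range.2 hn) fun _ _ hm => other h hm hp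

theorem sum_in' (h : Stg E 𝒬 𝓗 C0 θ d ρ κ r U b c r' U' b' c' f W) {n N : ℕ} (hn : N ≤ n)
    {p : ℝ × ℝ} (hp : p ∈ W n) : ∑ m ∈ Finset.range N, f m p = 0 :=
  Finset.sum_eq_zero fun m hm => other h (by
    have := Finset.mem_range.1 hm
    omega) hp

theorem sum_off (h : Stg E 𝒬 𝓗 C0 θ d ρ κ r U b c r' U' b' c' f W) (N : ℕ)
    {p : ℝ × ℝ} (hp : ∀ n < N, p ∉ W n) : ∑ m ∈ Finset.range N, f m p = 0 :=
  Finset.sum_eq_zero fun m hm => f_off h (hp m (Finset.mem_range.1 hm))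

/-- near every point off `U'` the change is one of the modifications -/
theorem germ (h : Stg E 𝒬 𝓗 C0 θ d ρ κ r U b c r' U' b' c' f W) {p : ℝ × ℝ} (hp : p ∉ U')
    (N : ℕ) :
    (∃ m, (fun q => r' q - r q) =ᶠ[𝓝 p] f m ∧
      (fun q => ∑ n ∈ Finset.range N, f n q) =ᶠ[𝓝 p] if m < N then f m else fun _ => 0) := by
  classical
  by_cases hW : ∃ n, p ∈ W n
  · obtain ⟨n, hn⟩ := hW
    refine ⟨n, ?_, ?_⟩
    · filter_upwards [(h.op n).mem_nhds hn] with q hq
      rw [in_W h hq]; ring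
    · filter_upwards [(h.op n).mem_nhds hn] with q hq
      split_ifs with hnN
      · exact sum_in h hnN hq
      · exact sum_in' h (not_lt.1 hnN) hq
  · push Not at hW
    obtain ⟨O, hO, hpO, N', hN'⟩ := h.lf {p} isCompact_singleton (disjoint_singleton_left.2 hp)
    choose S hS hSW hSf using h.supp
    have hev : ∀ n, ∀ᶠ q in 𝓝 p, f n q = 0 := fun n => by
      filter_upwards [(hS n).isClosed.isOpen_compl.mem_nhds fun hc => hW n (hSW n hc)] with q hq
      exact hSf n q hq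
    have hall : ∀ᶠ q in 𝓝 p, ∀ n, f n q = 0 := by
      have h1 : ∀ᶠ q in 𝓝 p, ∀ n ∈ Finset.range N', f n q = 0 :=
        (Finset.eventually_all _).2 fun n _ => hev n
      filter_upwards [h1, hO.mem_nhds (hpO rfl)] with q hq1 hq2 n
      by_cases hn : n < N'
      · exact hq1 n (Finset.mem_range.2 hn)
      · exact f_off h fun hc => disjoint_left.1 (hN' n (not_lt.1 hn)) hq2 hc
    refine ⟨0, ?_, ?_⟩
    · filter_upwards [hall] with q hq
      rw [hq 0]
      by_cases hqW : ∃ n, q ∈ W n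
      · obtain ⟨n, hn⟩ := hqW
        rw [in_W h hn, hq n]; ring
      · push Not at hqW
        rw [off_all h hqW]; ring
    · filter_upwards [hall] with q hq
      rw [Finset.sum_eq_zero fun n _ => hq n]
      split_ifs
      · exact (hq 0).symm
      · rfl

theorem f_supp (h : Stg E 𝒬 𝓗 C0 θ d ρ κ r U b c r' U' b' c' f W) (n : ℕ) :
    ∃ S, IsCompact S ∧ ∀ p ∉ S, f n p = 0 := by
  obtain ⟨S, h1, -, h2⟩ := h.supp n
  exact ⟨S, h1, h2⟩

/-- the energy of the tail of one stage -/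
theorem len_tail (hE : IsCompact E) (hU : U' ⊆ E)
    (h : Stg E 𝒬 𝓗 C0 θ d ρ κ r U b c r' U' b' c' f W) (N : ℕ) :
    len E (fun p => (r' p - r p) - ∑ n ∈ Finset.range N, f n p) ≤
      ENNReal.ofReal (κ ^ 2 / 4 ^ N) := by
  classical
  have hm : MeasurableSet Eᶜ := hE.isClosed.isOpen_compl.measurableSet
  calc len E (fun p => (r' p - r p) - ∑ n ∈ Finset.range N, f n p)
      ≤ ∫⁻ p in Eᶜ, ∑' n : ℕ, ENNReal.ofReal (g2 (f (N + n)) p) := by
        refine lintegral_mono_ae ?_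
        filter_upwards [ae_restrict_mem hm] with p hp
        obtain ⟨m, h1, h2⟩ := germ h (fun hc => hp (hU hc)) N
        by_cases hmN : m < N
        · rw [if_pos hmN] at h2
          have h3 : (fun p => (r' p - r p) - ∑ n ∈ Finset.range N, f n p) =ᶠ[𝓝 p]
              fun _ => 0 := by
            filter_upwards [h1, h2] with q hq1 hq2
            rw [hq1, hq2, sub_self]
          rw [g2_congr h3]
          simp [g2]
        · rw [if_neg hmN] at h2
          have h3 : (fun p => (r' p - r p) - ∑ n ∈ Finset.range N, f n p) =ᶠ[𝓝 p] f m := by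
            filter_upwards [h1, h2] with q hq1 hq2
            rw [hq1, hq2, sub_zero]
          rw [g2_congr h3]
          obtain ⟨j, rfl⟩ := Nat.exists_eq_add_of_le (not_lt.1 hmN)
          exact ENNReal.le_tsum (f := fun n => ENNReal.ofReal (g2 (f (N + n)) p)) j
    _ = ∑' n : ℕ, ∫⁻ p in Eᶜ, ENNReal.ofReal (g2 (f (N + n)) p) :=
        lintegral_tsum fun n => (measurable_g2 _).ennreal_ofReal.aemeasurable
    _ ≤ ∑' n : ℕ, ENNReal.ofReal (κ ^ 2 / 4 ^ (N + n + 1)) := by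
        refine ENNReal.tsum_le_tsum fun n => ?_
        obtain ⟨S, hS1, hS2⟩ := f_supp h (N + n)
        have := len_eq (E := E) (h.cfj (N + n)) hS1 hS2
        rw [len] at this
        rw [this]
        exact ENNReal.ofReal_le_ofReal (h.en _)
    _ ≤ ENNReal.ofReal (κ ^ 2 / 4 ^ N) := by
        have e : ∀ n : ℕ, κ ^ 2 / 4 ^ (N + n + 1) = κ ^ 2 / 4 ^ N / 4 * (1 / 4 : ℝ) ^ n :=
          fun n => by
            rw [one_div, inv_pow]; field_simp; ring
        have hs : Summable fun n : ℕ => κ ^ 2 / 4 ^ N / 4 * (1 / 4 : ℝ) ^ n :=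
          (summable_geometric_of_lt_one (by norm_num) (by norm_num)).mul_left _
        simp_rw [e]
        rw [← ENNReal.ofReal_tsum_of_nonneg (fun n => by positivity) hs, tsum_mul_left,
          tsum_geometric_of_lt_one (by norm_num) (by norm_num)]
        refine ENNReal.ofReal_le_ofReal ?_
        have : 0 ≤ κ ^ 2 / 4 ^ N := by positivity
        norm_num
        linarith

end one

/-- the whole run of the iteration -/
structure Run (E : Set (ℝ × ℝ)) (𝒬 : Set Sqr) (𝓗 : Set Hair) (P : ι → Set (ℝ × ℝ))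
    (jm : (ℝ × ℝ → ℝ) → ι → ℝ) (S0 : Set (ℝ × ℝ)) (C0 θ : ℝ) (d ρ κ : ℕ → ℝ)
    (r : ℕ → ℝ × ℝ → ℝ) (U : ℕ → Set (ℝ × ℝ)) (b : ℕ → Sqr → ℝ) (c : ℕ → ι → ℝ)
    (f : ℕ → ℕ → ℝ × ℝ → ℝ) (W : ℕ → ℕ → Set (ℝ × ℝ)) : Prop where
  inv : ∀ k, Inv E 𝒬 𝓗 P jm S0 (d k) (r k) (U k) (b k) (c k)
  stg : ∀ k, Stg E 𝒬 𝓗 C0 θ (d k) (ρ k) (κ k) (r k) (U k) (b k) (c k)
    (r (k + 1)) (U (k + 1)) (b (k + 1)) (c (k + 1)) (f k) (W k)
  cptE : IsCompact E
  cpt : IsCompact S0
  rho : ∀ k, thickening (ρ k) E ⊆ S0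
  dd : ∀ k, d (k + 1) ≤ d k
  d0 : ∀ k, 0 ≤ d k
  C00 : 0 ≤ C0
  U0 : U 0 = ∅
  r0 : CFJ 𝓗 univ (r 0)

namespace Run

variable {S0 : Set (ℝ × ℝ)} {C0 θ : ℝ} {d ρ κ : ℕ → ℝ}
  {r : ℕ → ℝ × ℝ → ℝ} {U : ℕ → Set (ℝ × ℝ)} {b : ℕ → Sqr → ℝ} {c : ℕ → ι → ℝ}
  {f : ℕ → ℕ → ℝ × ℝ → ℝ} {W : ℕ → ℕ → Set (ℝ × ℝ)}

theorem UE (h : Run E 𝒬 𝓗 P jm S0 C0 θ d ρ κ r U b c f W) (k : ℕ) : U k ⊆ E := by
  obtain ⟨s, -, hs, hU⟩ := (h.inv k).fin
  rw [hU]
  rintro p ⟨L, hL, hp⟩
  obtain ⟨⟨q, hq, rfl⟩, -⟩ := hs L hL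
  exact connectedComponentIn_subset _ _ hp

theorem Ucpt (h : Run E 𝒬 𝓗 P jm S0 C0 θ d ρ κ r U b c f W) (k : ℕ) : IsCompact (U k) := by
  obtain ⟨s, hsf, hs, hU⟩ := (h.inv k).fin
  rw [hU]
  exact isCompact_sUnion_comps h.cptE hsf fun L hL => (hs L hL).1


theorem danti (h : Run E 𝒬 𝓗 P jm S0 C0 θ d ρ κ r U b c f W) : Antitone d :=
  antitone_nat_of_succ_le h.dd

theorem bmono (h : Run E 𝒬 𝓗 P jm S0 C0 θ d ρ κ r U b c f W) (k : ℕ) (Q : Sqr) :
    b k Q ≤ b (k + 1) Q := by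
  obtain ⟨a, h1, -, -, h2⟩ := (h.stg k).ba
  rw [h2]; linarith [h1 Q]

theorem cmono (h : Run E 𝒬 𝓗 P jm S0 C0 θ d ρ κ r U b c f W) (k : ℕ) (i : ι) :
    c k i ≤ c (k + 1) i := by
  obtain ⟨a, h1, -, -, h2⟩ := (h.stg k).ca
  rw [h2]; linarith [h1 i]

theorem diff (h : Run E 𝒬 𝓗 P jm S0 C0 θ d ρ κ r U b c f W) :
    ∀ᵐ p : ℝ × ℝ, p ∉ E → ∀ k, DifferentiableAt ℝ (r k) p := by
  have h1 : ∀ᵐ p : ℝ × ℝ, ∀ k n, DifferentiableAt ℝ (f k n) p :=
    ae_all_iff.2 fun k => ae_all_iff.2 fun n => cfj_ae_diff ((h.stg k).cfj n)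
  filter_upwards [h1, cfj_ae_diff h.r0] with p hp hp0 hpE k
  induction k with
  | zero => exact hp0
  | succ k ih =>
    obtain ⟨m, hm, -⟩ := germ (h.stg k) (p := p) (fun hc => hpE (h.UE _ hc)) 0
    have e : r (k + 1) =ᶠ[𝓝 p] fun q => r k q + f k m q := by
      filter_upwards [hm] with q hq
      rw [← hq]; ring
    exact (ih.add (hp k m)).congr_of_eventuallyEq e

/-- near every connected part of `E` the truncation is either the old truncation or the new
stage function. -/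
theorem germ_conn (h : Run E 𝒬 𝓗 P jm S0 C0 θ d ρ κ r U b c f W) {k N : ℕ} {S : ℝ × ℝ → ℝ}
    {O : Set (ℝ × ℝ)} (hWO : ∀ n < N, W k n ⊆ O) (hS : ∀ p ∈ O, S p = r k p)
    {L : Set (ℝ × ℝ)} (hLE : L ⊆ E) (hL : IsPreconnected L) (hLn : L.Nonempty) :
    (∃ O', IsOpen O' ∧ L ⊆ O' ∧ ∀ p ∈ O', S p + ∑ n ∈ Finset.range N, f k n p = S p) ∨
      (Disjoint L (U (k + 1)) ∧ ∃ O', IsOpen O' ∧ L ⊆ O' ∧
        ∀ p ∈ O', S p + ∑ n ∈ Finset.range N, f k n p = r (k + 1) p) := by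
  have hst := h.stg k
  rcases hst.dich L hLE hL with hLU | hLU
  · left
    choose V hV hUV hVW using hst.offU
    refine ⟨⋂ n ∈ Finset.range N, V n, isOpen_biInter_finset fun n _ => hV n,
      fun p hp => mem_iInter₂.2 fun n _ => hUV n (hLU hp), fun p hp => ?_⟩
    rw [sum_off hst N fun n hn hpW => disjoint_left.1 (hVW n)
      (mem_iInter₂.1 hp n (Finset.mem_range.2 hn)) hpW, add_zero]
  · obtain ⟨n, hn⟩ := hst.conn L hLE hL hLn hLU
    by_cases hnN : n < N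
    · right
      refine ⟨hLU, W k n, hst.op n, hn, fun p hp => ?_⟩
      rw [sum_in hst hnN hp, hS p (hWO n hnN hp), in_W hst hp]
    · left
      refine ⟨W k n, hst.op n, hn, fun p hp => ?_⟩
      rw [sum_in' hst (not_lt.1 hnN) hp, add_zero]

/-- the properties of a truncation `S` of the stage function `r k` -/
structure App (E : Set (ℝ × ℝ)) (𝒬 : Set Sqr) (𝓗 : Set Hair)
    (jm : (ℝ × ℝ → ℝ) → ι → ℝ) (S0 : Set (ℝ × ℝ)) (d : ℕ → ℝ) (r : ℕ → ℝ × ℝ → ℝ)
    (b : ℕ → Sqr → ℝ) (c : ℕ → ι → ℝ) (k : ℕ) (A : ℕ → Set (ℝ × ℝ)) (ε M : ℝ)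
    (S : ℝ × ℝ → ℝ) : Prop where
  cfj : CFJ 𝓗 univ S
  supp : ∀ p ∉ S0, S p = 0
  bdd : ∀ p, |S p| ≤ M
  en : len E (fun p => S p - r k p) ≤ ENNReal.ofReal ε
  jc : ∀ i, jm S i ≤ c k i
  sq : ∀ Q ∈ 𝒬, chg Eᶜ Q.car S ≤ b k Q
  eq : ∃ O, IsOpen O ∧ A k ⊆ O ∧ ∀ p ∈ O, S p = r k p
  osc : ∀ j ≤ k, ∀ L ∈ Comps E, L ⊆ A j → OscLe Eᶜ L S (2 * d j)

theorem app_zero (h : Run E 𝒬 𝓗 P jm S0 C0 θ d ρ κ r U b c f W) {M0 : ℝ}
    (hM0 : ∀ p, |r 0 p| ≤ M0) (A : ℕ → Set (ℝ × ℝ)) {ε : ℝ} :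
    App E 𝒬 𝓗 jm S0 d r b c 0 A ε (M0 + ∑ j ∈ Finset.range 0, C0 * d j) (r 0) := by
  have hI := h.inv 0
  refine ⟨h.r0, hI.supp, fun p => by simpa using hM0 p, ?_, fun i => hI.jc i ?_,
    fun Q hQ' => hI.sq Q hQ' ?_, ⟨univ, isOpen_univ, subset_univ _, fun _ _ => rfl⟩, ?_⟩
  · simp [len, g2]
  · rw [h.U0]; exact disjoint_empty _
  · rw [h.U0]; exact disjoint_empty _
  · intro j hj L hL _
    obtain rfl : j = 0 := by omega
    exact hI.osc L hL (by rw [h.U0]; exact disjoint_empty _)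

theorem app (h : Run E 𝒬 𝓗 P jm S0 C0 θ d ρ κ r U b c f W) (hJ : LocFun E P jm)
    (hQ : QPic E 𝒬 𝓗) {M0 : ℝ} (hM0 : ∀ p, |r 0 p| ≤ M0) (k : ℕ) :
    ∀ A : ℕ → Set (ℝ × ℝ), (∀ j ≤ k, IsCompact (A j) ∧ Disjoint (A j) (U j)) → ∀ ε > 0,
      ∃ S, App E 𝒬 𝓗 jm S0 d r b c k A ε (M0 + ∑ j ∈ Finset.range k, C0 * d j) S := by
  induction k with
  | zero =>
    exact fun A _ ε _ => ⟨r 0, h.app_zero hM0 A⟩
  | succ k ih =>
    intro A hA ε hε
    have hst := h.stg k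
    have hI := h.inv (k + 1)
    obtain ⟨hAc, hAU⟩ := hA (k + 1) le_rfl
    obtain ⟨O1, hO1, hAO1, N1, hN1⟩ := hst.lf _ hAc hAU
    obtain ⟨N2, hN2⟩ : ∃ N2 : ℕ, κ k ^ 2 / 4 ^ N2 ≤ ε / 4 := by
      have h1 : Tendsto (fun n : ℕ => κ k ^ 2 * (1 / 4 : ℝ) ^ n) atTop (𝓝 (κ k ^ 2 * 0)) :=
        (tendsto_pow_atTop_nhds_zero_of_lt_one (by norm_num) (by norm_num)).const_mul _
      rw [mul_zero] at h1
      obtain ⟨n, hn⟩ := (h1.eventually (gt_mem_nhds (show (0 : ℝ) < ε / 4 by positivity))).exists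
      refine ⟨n, ?_⟩
      rw [one_div, inv_pow, ← div_eq_mul_inv] at hn
      exact hn.le
    set N := max N1 N2 with hN
    have hclos : ∀ n, IsCompact (closure (W k n)) := fun n =>
      (h.cptE.cthickening (r := ρ k)).of_isClosed_subset isClosed_closure
        (closure_minimal ((hst.near n).trans (thickening_subset_cthickening _ _))
          isClosed_cthickening)
    have hclosU : ∀ n, Disjoint (closure (W k n)) (U (k + 1)) := fun n => by
      obtain ⟨V, hV, hUV, hd⟩ := hst.offU n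
      exact ((hd.closure_right hV).mono_left hUV).symm
    set A' : ℕ → Set (ℝ × ℝ) := fun j =>
      if j = k then A k ∪ A (k + 1) ∪ ⋃ n ∈ Finset.range N, closure (W k n) else A j with hA'
    have hA'k : A' k = A k ∪ A (k + 1) ∪ ⋃ n ∈ Finset.range N, closure (W k n) := by
      simp only [hA', if_true]
    obtain ⟨S, hS⟩ := ih A' (fun j hj => by
      by_cases hjk : j = k
      · subst hjk
        rw [hA'k]
        refine ⟨((hA j (by omega)).1.union hAc).union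
          ((Finset.range N).isCompact_biUnion fun n _ => hclos n), ?_⟩
        rw [disjoint_union_left, disjoint_union_left]
        refine ⟨⟨(hA j (by omega)).2, hAU.mono_right hst.mono⟩, ?_⟩
        rw [disjoint_iUnion₂_left]
        exact fun n _ => (hclosU n).mono_right hst.mono
      · simp only [hA', if_neg hjk]
        exact hA j (by omega)) (ε / 4) (by positivity)
    obtain ⟨OS, hOS, hA'O, hSr⟩ := hS.eq
    rw [hA'k] at hA'O
    have hWO : ∀ n < N, W k n ⊆ OS := fun n hn p hp =>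
      hA'O (Or.inr (mem_iUnion₂.2 ⟨n, Finset.mem_range.2 hn, subset_closure hp⟩))
    have hsub : ∀ j ≤ k, A j ⊆ A' j := by
      intro j hj
      by_cases hjk : j = k
      · subst hjk
        rw [hA'k]
        exact fun p hp => Or.inl (Or.inl hp)
      · simp only [hA', if_neg hjk]; exact subset_rfl
    have hnear : ∀ p ∈ OS ∩ O1, S p + ∑ n ∈ Finset.range N, f k n p = r (k + 1) p := by
      rintro p ⟨hpS, hp1⟩
      by_cases hW : ∃ n, p ∈ W k n
      · obtain ⟨n, hn⟩ := hW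
        have hnN : n < N := by
          by_contra hc
          exact disjoint_left.1 (hN1 n ((le_max_left _ _).trans (not_lt.1 hc))) hp1 hn
        rw [sum_in hst hnN hn, hSr p hpS, in_W hst hn]
      · push Not at hW
        rw [sum_off hst N fun n _ => hW n, hSr p hpS, off_all hst hW, add_zero]
    refine ⟨fun p => S p + ∑ n ∈ Finset.range N, f k n p, ?_, fun p hp => ?_, fun p => ?_, ?_,
      fun i => ?_, fun Q hQ' => ?_, ⟨OS ∩ O1, hOS.inter hO1, ?_, hnear⟩, ?_⟩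
    · exact hS.cfj.add (cfj_sum hst.cfj N)
    · rw [hS.supp p hp, sum_off hst N fun n _ hc => hp (h.rho k (hst.near n hc)), add_zero]
    · rw [Finset.sum_range_succ, ← add_assoc]
      refine (abs_add_le _ _).trans (add_le_add (hS.bdd p) ?_)
      by_cases hW : ∃ n, p ∈ W k n
      · obtain ⟨n, hn⟩ := hW
        by_cases hnN : n < N
        · rw [sum_in hst hnN hn]; exact hst.bd n p
        · rw [sum_in' hst (not_lt.1 hnN) hn, abs_zero]
          exact mul_nonneg h.C00 (h.d0 k)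
      · push Not at hW
        rw [sum_off hst N fun n _ => hW n, abs_zero]
        exact mul_nonneg h.C00 (h.d0 k)
    · -- energy
      have e : (fun p => S p + ∑ n ∈ Finset.range N, f k n p - r (k + 1) p) =
          fun p => (S p - r k p) + (-((r (k + 1) p - r k p) -
            ∑ n ∈ Finset.range N, f k n p)) := by
        funext p; ring
      rw [e]
      have hd1 : ∀ᵐ p : ℝ × ℝ, p ∉ E → DifferentiableAt ℝ (fun p => S p - r k p) p := by
        filter_upwards [cfj_ae_diff hS.cfj, h.diff] with p h1 h2 hpE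
        exact h1.sub (h2 hpE k)
      have hd2 : ∀ᵐ p : ℝ × ℝ, p ∉ E → DifferentiableAt ℝ (fun p => -((r (k + 1) p - r k p) -
            ∑ n ∈ Finset.range N, f k n p)) p := by
        filter_upwards [cfj_ae_diff (cfj_sum hst.cfj N), h.diff] with p h1 h2 hpE
        exact (((h2 hpE (k + 1)).sub (h2 hpE k)).sub h1).neg
      refine (len_add_le h.cptE hd1 hd2).trans ?_
      rw [len_neg (fun p => (r (k + 1) p - r k p) - ∑ n ∈ Finset.range N, f k n p)]
      have h3 : len E (fun p => (r (k + 1) p - r k p) - ∑ n ∈ Finset.range N, f k n p) ≤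
          ENNReal.ofReal (ε / 4) := by
        refine (len_tail h.cptE (h.UE (k + 1)) hst N).trans (ENNReal.ofReal_le_ofReal ?_)
        refine le_trans ?_ hN2
        have : (4 : ℝ) ^ N2 ≤ 4 ^ N := pow_le_pow_right₀ (by norm_num) (le_max_right _ _)
        gcongr
      calc 2 * len E (fun p => S p - r k p) + 2 * len E (fun p => (r (k + 1) p - r k p) -
            ∑ n ∈ Finset.range N, f k n p)
          ≤ 2 * ENNReal.ofReal (ε / 4) + 2 * ENNReal.ofReal (ε / 4) := by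
            gcongr
            exact hS.en
        _ = ENNReal.ofReal ε := by
            rw [← two_mul, ← mul_assoc, show (2 : ℝ≥0∞) * 2 = ENNReal.ofReal 4 by norm_num,
              ← ENNReal.ofReal_mul (by norm_num)]
            congr 1; ring
    · rcases h.germ_conn hWO hSr (hJ.sub i) (hJ.con i) (hJ.ne i) with
        ⟨O', h1, h2, h3⟩ | ⟨hd, O', h1, h2, h3⟩
      · rw [hJ.loc i _ S O' h1 h2 h3]
        exact (hS.jc i).trans (h.cmono k i)
      · rw [hJ.loc i _ _ O' h1 h2 h3]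
        exact hI.jc i hd
    · rcases h.germ_conn hWO hSr (hQ.sub Q hQ') Q.convex_car.isPreconnected Q.nonempty with
        ⟨O', h1, h2, h3⟩ | ⟨hd, O', h1, h2, h3⟩
      · rw [chg_congr h1 h2 fun q hq => h3 q hq.1]
        exact (hS.sq Q hQ').trans (h.bmono k Q)
      · rw [chg_congr h1 h2 fun q hq => h3 q hq.1]
        exact hI.sq Q hQ' hd
    · exact fun p hp => ⟨hA'O (Or.inl (Or.inr hp)), hAO1 hp⟩
    · intro j hj L hL hLA
      by_cases hjk : j = k + 1
      · subst hjk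
        exact (hI.osc L hL (hAU.mono_left hLA)).congr (hOS.inter hO1)
          (fun p hp => ⟨hA'O (Or.inl (Or.inr (hLA hp))), hAO1 (hLA hp)⟩)
          fun q hq => hnear q hq.1
      · have hjk' : j ≤ k := by omega
        obtain ⟨q, hq, hLq⟩ := id hL
        have hLE : L ⊆ E := by rw [hLq]; exact connectedComponentIn_subset _ _
        have hLc : IsPreconnected L := by rw [hLq]; exact isPreconnected_connectedComponentIn
        have hLn : L.Nonempty := ⟨q, by rw [hLq]; exact mem_connectedComponentIn hq⟩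
        rcases h.germ_conn hWO hSr hLE hLc hLn with
          ⟨O', h1, h2, h3⟩ | ⟨hd, O', h1, h2, h3⟩
        · exact (hS.osc j hjk' L hL (hLA.trans (hsub j hjk'))).congr h1 h2 fun q hq => h3 q hq.1
        · refine ((hI.osc L hL hd).congr h1 h2 fun q hq => h3 q hq.1).mono ?_
          have := h.danti hj
          linarith

end Run

end Crest.Agent.R105.Exs5_992
end

-- ▼ part R105/Exs6_992
section

/-!
# Row 105 (S0138): the limit of the iteration with exempt solids, assembly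
-/

set_option autoImplicit false

namespace Crest.Agent.R105.Exs6_992

open Set Filter MeasureTheory Topology Metric
open Crest.Agent.R105.CF_363 Crest.Agent.R105.Stp_722 Crest.Agent.R105.Cq_463
open Crest.Agent.R105.Skp2_257 (Comps Reg)
open Crest.Agent.R105.Exs_992 Crest.Agent.R105.Exs1_992 Crest.Agent.R105.Exs3_992
open Crest.Agent.R105.Exs4_992 Crest.Agent.R105.Exs5_992 Crest.Agent.R105.Exs2_992
open scoped ENNReal

variable {E : Set (ℝ × ℝ)} {𝒬 : Set Sqr} {𝓗 : Set Hair} {ι : Type} {P : ι → Set (ℝ × ℝ)}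
  {jm : (ℝ × ℝ → ℝ) → ι → ℝ}
  {S0 : Set (ℝ × ℝ)} {C0 θ : ℝ} {d ρ κ : ℕ → ℝ}
  {r : ℕ → ℝ × ℝ → ℝ} {U : ℕ → Set (ℝ × ℝ)} {b : ℕ → Sqr → ℝ} {c : ℕ → ι → ℝ}
  {f : ℕ → ℕ → ℝ × ℝ → ℝ} {W : ℕ → ℕ → Set (ℝ × ℝ)}

theorem step_le (h : Run E 𝒬 𝓗 P jm S0 C0 θ d ρ κ r U b c f W) (k : ℕ) (p : ℝ × ℝ) :
    |r (k + 1) p - r k p| ≤ C0 * d k := by
  have hst := h.stg k
  by_cases hW : ∃ n, p ∈ W k n
  · obtain ⟨n, hn⟩ := hW
    rw [in_W hst hn, add_sub_cancel_left]
    exact hst.bd n p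
  · push Not at hW
    rw [off_all hst hW, sub_self, abs_zero]
    exact mul_nonneg h.C00 (h.d0 k)

theorem step_eq (h : Run E 𝒬 𝓗 P jm S0 C0 θ d ρ κ r U b c f W) {k : ℕ} {p : ℝ × ℝ}
    (hp : p ∉ thickening (ρ k) E) : r (k + 1) p = r k p :=
  off_all (h.stg k) fun n hn => hp ((h.stg k).near n hn)

/-- the components of `E` which contain no square are never exempt -/
theorem never (h : Run E 𝒬 𝓗 P jm S0 C0 θ d ρ κ r U b c f W) {L : Set (ℝ × ℝ)}
    (hL : L ∈ Comps E) (hLQ : ∀ Q ∈ 𝒬, ¬ Q.car ⊆ L) (k : ℕ) : Disjoint L (U k) := by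
  obtain ⟨s, -, hs, hU⟩ := (h.inv k).fin
  rw [hU]
  by_contra hc
  obtain ⟨p, hpL, L', hL', hpL'⟩ := not_disjoint_iff.1 hc
  obtain ⟨⟨q', hq', hLq'⟩, Q, hQ, hQL⟩ := hs L' hL'
  obtain ⟨q, hq, hLq⟩ := hL
  have h1 : L = connectedComponentIn E p := by
    rw [hLq] at hpL ⊢
    exact connectedComponentIn_eq hpL
  have h2 : L' = connectedComponentIn E p := by
    rw [hLq'] at hpL' ⊢
    exact connectedComponentIn_eq hpL'
  exact hLQ Q hQ (by rw [h1, ← h2]; exact hQL)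

theorem osc_lim (h : Run E 𝒬 𝓗 P jm S0 C0 θ d ρ κ r U b c f W) {ψ : ℝ × ℝ → ℝ}
    (hψ : ∀ k p, |ψ p - r k p| ≤ 2 * (C0 * d k)) {L : Set (ℝ × ℝ)} (hL : L ∈ Comps E) {k : ℕ}
    (hd : Disjoint L (U k)) : OscLe Eᶜ L ψ ((2 + 4 * C0) * d k) := by
  have h1 := ((h.inv k).osc L hL hd).of_near (g := ψ) isOpen_univ (subset_univ _)
    (fun q _ => hψ k q)
  refine h1.mono (le_of_eq ?_)
  ring

theorem oscLe_of_forall {V L : Set (ℝ × ℝ)} {g : ℝ × ℝ → ℝ} {x : ℝ}
    (h : ∀ η > 0, OscLe V L g (x + η)) : OscLe V L g x := by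
  intro ε hε
  obtain ⟨O, hO, hLO, H⟩ := h (ε / 2) (by linarith) (ε / 2) (by linarith)
  exact ⟨O, hO, hLO, fun q hq q' hq' => (H q hq q' hq').trans (by linarith)⟩

/-- the compact sets on which the truncations are exact -/
def ex (E S0 : Set (ℝ × ℝ)) (U : ℕ → Set (ℝ × ℝ)) (m j : ℕ) : Set (ℝ × ℝ) :=
  (E \ thickening (1 / ((m : ℝ) + 1)) (U j)) ∪ (S0 \ thickening (1 / ((m : ℝ) + 1)) E)

theorem ex_ok (h : Run E 𝒬 𝓗 P jm S0 C0 θ d ρ κ r U b c f W) (m j : ℕ) :
    IsCompact (ex E S0 U m j) ∧ Disjoint (ex E S0 U m j) (U j) := by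
  have hpos : (0 : ℝ) < 1 / ((m : ℝ) + 1) := by positivity
  refine ⟨(h.cptE.diff isOpen_thickening).union (h.cpt.diff isOpen_thickening), ?_⟩
  rw [ex, disjoint_union_left]
  refine ⟨disjoint_left.2 fun p hp hpU => hp.2 (self_subset_thickening hpos _ hpU),
    disjoint_left.2 fun p hp hpU => hp.2 (self_subset_thickening hpos _ (h.UE j hpU))⟩

/-- a component off `U j` is finally contained in the exact sets -/
theorem ev_ex (h : Run E 𝒬 𝓗 P jm S0 C0 θ d ρ κ r U b c f W) {L : Set (ℝ × ℝ)}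
    (hL : L ∈ Comps E) {j : ℕ} (hd : Disjoint L (U j)) :
    ∀ᶠ m in atTop, L ⊆ ex E S0 U m j := by
  obtain ⟨q, hq, hLq⟩ := hL
  have hLE : L ⊆ E := by rw [hLq]; exact connectedComponentIn_subset _ _
  have hLc : IsCompact L := by
    rw [hLq]; exact Crest.Agent.R105.Thin_12.isCompact_cc h.cptE q
  obtain ⟨δ, hδ, hδ'⟩ := hd.exists_thickenings hLc (h.Ucpt j).isClosed
  obtain ⟨N, hN⟩ := exists_nat_one_div_lt hδ
  filter_upwards [eventually_ge_atTop N] with m hm p hp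
  refine Or.inl ⟨hLE hp, fun hc => ?_⟩
  have h1 : (1 : ℝ) / ((m : ℝ) + 1) ≤ 1 / ((N : ℝ) + 1) := by
    apply one_div_le_one_div_of_le (by positivity)
    have : (N : ℝ) ≤ m := by exact_mod_cast hm
    linarith
  exact disjoint_left.1 hδ' (self_subset_thickening hδ _ hp)
    (thickening_mono (h1.trans hN.le) _ hc)

theorem limJ (hQ : QPic E 𝒬 𝓗) (hJ : LocFun E P jm) {C0 θ : ℝ} (hC0 : 0 ≤ C0) (hθ : 0 < θ)
    (hstep : StepJ E 𝒬 𝓗 jm C0 θ) : LimJ E 𝒬 𝓗 jm (C1 C0 θ) := by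
  classical
  intro Φ hΦ hΦc hΦb K hK
  obtain ⟨M0, hM0⟩ := hΦb
  have hE := hQ.cpt
  have hM0' : 0 ≤ M0 := (abs_nonneg _).trans (hM0 0)
  -- constants
  set S0 : Set (ℝ × ℝ) := tsupport Φ ∪ cthickening 1 E with hS0
  have hS0c : IsCompact S0 := IsCompact.union hΦc hE.cthickening
  set vS : ℝ := volume.real S0 with hvS
  have hvS0 : 0 ≤ vS := measureReal_nonneg
  set t : ℝ := (vS + 1) / K with ht
  have htpos : 0 < t := by positivity
  set δ0 : ℝ := min (K ^ 2 / 4) (K / (8 * t)) with hδ0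
  have hδpos : 0 < δ0 := lt_min (by positivity) (by positivity)
  set κ1 : ℝ := min (√(δ0 / 12)) (K / 2) with hκ1
  have hκ1pos : 0 < κ1 := lt_min (Real.sqrt_pos.2 (by positivity)) (by positivity)
  have hκ1a : κ1 ^ 2 ≤ δ0 / 12 := by
    calc κ1 ^ 2 ≤ √(δ0 / 12) ^ 2 := pow_le_pow_left₀ hκ1pos.le (min_le_left _ _) 2
      _ = δ0 / 12 := Real.sq_sqrt (by positivity)
  have hκ1b : κ1 ^ 2 ≤ K ^ 2 / 4 := by
    calc κ1 ^ 2 ≤ (K / 2) ^ 2 := pow_le_pow_left₀ hκ1pos.le (min_le_right _ _) 2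
      _ = K ^ 2 / 4 := by ring
  set κ : ℕ → ℝ := fun n => κ1 / 2 ^ n with hκ
  have hκpos : ∀ n, 0 < κ n := fun n => by simp only [hκ]; positivity
  have hκsq : ∀ n, κ n ^ 2 = κ1 ^ 2 / 4 ^ n := fun n => by
    simp only [hκ, div_pow, ← pow_mul, mul_comm n 2]; rw [pow_mul]; norm_num
  have hκK : ∀ n, κ n ^ 2 ≤ K ^ 2 / 4 ^ (n + 1) := fun n => by
    rw [hκsq]
    calc κ1 ^ 2 / 4 ^ n ≤ (K ^ 2 / 4) / 4 ^ n := by gcongr
      _ = K ^ 2 / 4 ^ (n + 1) := by rw [pow_succ (4 : ℝ) n]; field_simp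
  set d : ℕ → ℝ := fun n => (M0 + 1) / 2 ^ n with hd
  have hdpos : ∀ n, 0 < d n := fun n => by simp only [hd]; positivity
  have hd2 : ∀ n, d (n + 1) = d n / 2 := fun n => by
    simp only [hd]; rw [pow_succ]; field_simp
  have hdtend : Tendsto d atTop (𝓝 0) := by
    have := (tendsto_pow_atTop_nhds_zero_of_lt_one (r := (1 / 2 : ℝ)) (by norm_num)
      (by norm_num)).const_mul (M0 + 1)
    rw [mul_zero] at this
    refine this.congr fun n => ?_
    simp only [hd, one_div, inv_pow]; rfl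
  set ρ : ℕ → ℝ := fun n => 1 / ((n : ℝ) + 1) with hρ
  have hρpos : ∀ n, 0 < ρ n := fun n => by simp only [hρ]; positivity
  have hρS : ∀ n, thickening (ρ n) E ⊆ S0 := fun n => by
    refine Subset.trans ?_ subset_union_right
    refine (thickening_subset_cthickening _ _).trans (cthickening_mono ?_ E)
    simp only [hρ]
    rw [div_le_one (by positivity)]
    linarith [Nat.cast_nonneg (α := ℝ) n]
  -- the run
  obtain ⟨u, hu0, hu⟩ := exists_seq_of
    (fun (n : ℕ) (x : (ℝ × ℝ → ℝ) × Set (ℝ × ℝ) × (Sqr → ℝ) × (ι → ℝ)) =>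
      Inv E 𝒬 𝓗 P jm S0 (d n) x.1 x.2.1 x.2.2.1 x.2.2.2)
    (fun n x y => ∃ (f : ℕ → ℝ × ℝ → ℝ) (W : ℕ → Set (ℝ × ℝ)),
      Stg E 𝒬 𝓗 C0 θ (d n) (ρ n) (κ n) x.1 x.2.1 x.2.2.1 x.2.2.2 y.1 y.2.1 y.2.2.1 y.2.2.2 f W)
    (Φ, ∅, fun Q => ch E univ Φ Q, fun i => jm Φ i)
    (by
      refine ⟨fun A _ _ => ⟨Φ, hΦ, hΦc, ⟨M0, hM0⟩, univ, isOpen_univ, subset_univ _,
        fun _ _ => rfl⟩, ⟨∅, finite_empty, by simp, by simp⟩, fun L _ _ => ?_, ⟨M0, hM0⟩,
        fun p hp => image_eq_zero_of_notMem_tsupport fun hc => hp (Or.inl hc), fun Q _ _ => ?_,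
        summable_ch hQ convex_univ hΦ, fun i _ => le_rfl⟩
      · refine (oscLe_of_bdd' (A := d 0) fun p _ => ?_)
        simp only [hd, pow_zero, div_one]
        linarith [hM0 p]
      · exact (ch_univ Φ Q).ge)
    (by
      rintro n ⟨r, U, b, c⟩ hI
      obtain ⟨r', U', b', c', f, W, h1, h2⟩ := stage hQ hJ hC0 hθ hstep hS0c (hdpos n)
        (hρpos n) (hρS n) (hκpos n) hI
      refine ⟨(r', U', b', c'), ?_, f, W, h2⟩
      rw [hd2]; exact h1)
  choose f W hfW using fun n => (hu n).2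
  set r : ℕ → ℝ × ℝ → ℝ := fun n => (u n).1 with hr
  set U : ℕ → Set (ℝ × ℝ) := fun n => (u n).2.1 with hU
  set b : ℕ → Sqr → ℝ := fun n => (u n).2.2.1 with hb
  set c : ℕ → ι → ℝ := fun n => (u n).2.2.2 with hc
  have hr0 : r 0 = Φ := by simp only [hr, hu0]
  have hb0 : b 0 = fun Q => ch E univ Φ Q := by simp only [hb, hu0]
  have hc0 : c 0 = fun i => jm Φ i := by simp only [hc, hu0]
  have hU0 : U 0 = ∅ := by simp only [hU, hu0]
  have hrun : Run E 𝒬 𝓗 P jm S0 C0 θ d ρ κ r U b c f W :=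
    ⟨fun n => (hu n).1, hfW, hE, hS0c, hρS, fun n => by rw [hd2]; linarith [hdpos n],
      fun n => (hdpos n).le, hC0, hU0, by rw [hr0]; exact hΦ⟩
  -- the limit function
  have hsup : ∀ p n j, |r (n + j) p - r n p| ≤ 2 * (C0 * d n) - 2 * (C0 * d (n + j)) := by
    intro p n j
    induction j with
    | zero => simp
    | succ j ih =>
      have h1 := step_le hrun (n + j) p
      have h2 : |r (n + (j + 1)) p - r n p| ≤
          |r (n + j + 1) p - r (n + j) p| + |r (n + j) p - r n p| := by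
        have := abs_add_le (r (n + j + 1) p - r (n + j) p) (r (n + j) p - r n p)
        simpa [add_assoc] using this
      have h3 : d (n + (j + 1)) = d (n + j) / 2 := hd2 (n + j)
      rw [h3]; linarith
  have hCd : ∀ n, 0 ≤ C0 * d n := fun n => mul_nonneg hC0 (hdpos n).le
  have hcauchy : ∀ p, CauchySeq fun n => r n p := by
    intro p
    refine cauchySeq_of_le_tendsto_0 (fun n => 4 * (C0 * d n)) (fun n m N hn hm => ?_) ?_
    · obtain ⟨i, rfl⟩ := Nat.exists_eq_add_of_le hn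
      obtain ⟨j, rfl⟩ := Nat.exists_eq_add_of_le hm
      rw [Real.dist_eq]
      have h1 := hsup p N i
      have h2 := hsup p N j
      have h3 := hCd (N + i)
      have h4 := hCd (N + j)
      have h5 : |r (N + i) p - r (N + j) p| ≤ |r (N + i) p - r N p| + |r (N + j) p - r N p| := by
        have := abs_sub (r (N + i) p - r N p) (r (N + j) p - r N p)
        simpa using this
      linarith
    · simpa using (hdtend.const_mul C0).const_mul 4
  choose ψ hψ using fun p => cauchySeq_tendsto_of_complete (hcauchy p)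
  have hψn : ∀ n p, |ψ p - r n p| ≤ 2 * (C0 * d n) := by
    intro n p
    have h1 : Tendsto (fun j => |r (n + j) p - r n p|) atTop (𝓝 |ψ p - r n p|) := by
      have : Tendsto (fun j => r (n + j) p) atTop (𝓝 (ψ p)) := by
        have := (tendsto_add_atTop_iff_nat n).mpr (hψ p)
        refine this.congr fun j => by rw [add_comm]
      exact (this.sub_const _).abs
    refine le_of_tendsto' h1 fun j => ?_
    have := hsup p n j
    linarith [hCd (n + j)]
  have hψ0 : ∀ q ∉ S0, ψ q = 0 := by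
    intro q hq
    refine tendsto_nhds_unique (hψ q) ?_
    refine tendsto_const_nhds.congr fun n => ((hrun.inv n).supp q hq).symm
  -- eventual constancy of the stage functions
  have hevr : ∀ A, IsCompact A → A ⊆ Eᶜ → ∃ N : ℕ, ∀ n : ℕ, N ≤ n → ∀ p ∈ A,
      p ∉ thickening (1 / ((n : ℝ) + 1)) E ∧ r n p = ψ p := by
    intro A hA hAE
    have hdis : Disjoint A E := disjoint_left.mpr fun p hp => hAE hp
    obtain ⟨s, hs, hs'⟩ := hdis.symm.exists_thickenings hE hA.isClosed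
    obtain ⟨N, hN⟩ := exists_nat_one_div_lt hs
    have hAW : ∀ n : ℕ, N ≤ n → ∀ p ∈ A, p ∉ thickening (1 / ((n : ℝ) + 1)) E := by
      intro n hn p hp hpW
      have h1 : (1 : ℝ) / ((n : ℝ) + 1) ≤ 1 / ((N : ℝ) + 1) := by
        apply one_div_le_one_div_of_le (by positivity)
        have : (N : ℝ) ≤ n := by exact_mod_cast hn
        linarith
      have h2 : p ∈ thickening s E := thickening_mono (h1.trans hN.le) E hpW
      exact disjoint_left.mp hs' h2 (self_subset_thickening hs A hp)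
    have hconst : ∀ j, ∀ p ∈ A, r (N + j) p = r N p := by
      intro j p hp
      induction j with
      | zero => rfl
      | succ j ih => rw [← ih]; exact step_eq hrun (hAW (N + j) (by omega) p hp)
    refine ⟨N, fun n hn p hp => ⟨hAW n hn p hp, ?_⟩⟩
    have h1 : ψ p = r N p := by
      refine tendsto_nhds_unique (hψ p) ?_
      refine tendsto_const_nhds.congr' ?_
      filter_upwards [eventually_ge_atTop N] with m hm
      obtain ⟨j, rfl⟩ := Nat.exists_eq_add_of_le hm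
      exact (hconst j p hp).symm
    obtain ⟨j, rfl⟩ := Nat.exists_eq_add_of_le hn
    rw [hconst j p hp, h1]
  -- the truncations
  have hS : ∀ m : ℕ, ∃ S, Run.App E 𝒬 𝓗 jm S0 d r b c m (ex E S0 U m) (δ0 / 12 / 4 ^ m)
      (M0 + ∑ j ∈ Finset.range m, C0 * d j) S ∧ (m = 0 → S = Φ) := by
    intro m
    by_cases hm : m = 0
    · subst hm
      exact ⟨r 0, hrun.app_zero (by rw [hr0]; exact hM0) _, fun _ => hr0⟩
    · obtain ⟨S, h1⟩ := hrun.app hJ hQ (M0 := M0) (by rw [hr0]; exact hM0) m (ex E S0 U m)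
        (fun j _ => ex_ok hrun m j) (δ0 / 12 / 4 ^ m) (by positivity)
      exact ⟨S, h1, fun h => absurd h hm⟩
  choose S hS hSz using hS
  have hS0' : S 0 = Φ := hSz 0 rfl
  have hsumd : ∀ m, ∑ j ∈ Finset.range m, C0 * d j = 2 * (C0 * d 0) - 2 * (C0 * d m) := by
    intro m
    induction m with
    | zero => simp
    | succ m ih => rw [Finset.sum_range_succ, ih, hd2]; ring
  have hSb : ∀ m p, |S m p| ≤ M0 + 2 * (C0 * d 0) := by
    intro m p
    refine ((hS m).bdd p).trans ?_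
    rw [hsumd]
    linarith [hCd m]
  have hψb : ∀ p, |ψ p| ≤ M0 + 2 * (C0 * d 0) := by
    intro p
    have h1 := hψn 0 p
    rw [hr0] at h1
    have h2 := hM0 p
    have h3 : |ψ p| ≤ |ψ p - Φ p| + |Φ p| := by
      have := abs_add_le (ψ p - Φ p) (Φ p); simpa using this
    linarith
  have hevS : ∀ A, IsCompact A → A ⊆ Eᶜ → ∃ N, ∀ n ≥ N, ∀ p ∈ A, S n p = ψ p := by
    intro A hA hAE
    obtain ⟨N, hN⟩ := hevr A hA hAE
    refine ⟨N, fun n hn p hp => ?_⟩
    obtain ⟨h1, h2⟩ := hN n hn p hp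
    by_cases hpS : p ∈ S0
    · obtain ⟨O, -, hO2, hO3⟩ := (hS n).eq
      rw [hO3 p (hO2 (Or.inr ⟨hpS, h1⟩)), h2]
    · rw [(hS n).supp p hpS, hψ0 p hpS]
  -- energies
  have hen : ∀ n, (∫ p in Eᶜ, g2 (fun q => S (n + 1) q - S n q) p) ≤ δ0 / 4 ^ n := by
    intro n
    have hcf : CFJ 𝓗 univ fun q => S (n + 1) q - S n q := (hS (n + 1)).cfj.sub (hS n).cfj
    have h0 : ∀ q ∉ S0, (fun q => S (n + 1) q - S n q) q = 0 := fun q hq => by
      simp [(hS (n + 1)).supp q hq, (hS n).supp q hq]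
    rw [← ENNReal.ofReal_le_ofReal_iff (by positivity), ← len_eq hcf hS0c h0]
    have e : (fun q => S (n + 1) q - S n q) = fun q =>
        ((S (n + 1) q - r (n + 1) q) + (r (n + 1) q - r n q)) + (-(S n q - r n q)) := by
      funext q; ring
    have hdif : ∀ m, ∀ᵐ p : ℝ × ℝ, p ∉ E → DifferentiableAt ℝ (fun q => S m q - r m q) p := by
      intro m
      filter_upwards [cfj_ae_diff (hS m).cfj, hrun.diff] with p h1 h2 hpE
      exact h1.sub (h2 hpE m)
    have hdif2 : ∀ᵐ p : ℝ × ℝ, p ∉ E →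
        DifferentiableAt ℝ (fun q => r (n + 1) q - r n q) p := by
      filter_upwards [hrun.diff] with p h2 hpE
      exact (h2 hpE (n + 1)).sub (h2 hpE n)
    have hdif3 : ∀ᵐ p : ℝ × ℝ, p ∉ E → DifferentiableAt ℝ
        (fun q => (S (n + 1) q - r (n + 1) q) + (r (n + 1) q - r n q)) p := by
      filter_upwards [hdif (n + 1), hdif2] with p h1 h2 hpE
      exact (h1 hpE).add (h2 hpE)
    have hdif4 : ∀ᵐ p : ℝ × ℝ, p ∉ E → DifferentiableAt ℝ (fun q => -(S n q - r n q)) p := by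
      filter_upwards [hdif n] with p h1 hpE
      exact (h1 hpE).neg
    have hB : len E (fun q => r (n + 1) q - r n q) ≤ ENNReal.ofReal (δ0 / 12 / 4 ^ n) := by
      have h1 := len_tail hE (hrun.UE (n + 1)) (hrun.stg n) 0
      simp only [Finset.range_zero, Finset.sum_empty, sub_zero, pow_zero, div_one] at h1
      refine h1.trans (ENNReal.ofReal_le_ofReal ?_)
      rw [hκsq]
      gcongr
    rw [e]
    calc len E (fun q => ((S (n + 1) q - r (n + 1) q) + (r (n + 1) q - r n q)) +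
          (-(S n q - r n q)))
        ≤ 2 * len E (fun q => (S (n + 1) q - r (n + 1) q) + (r (n + 1) q - r n q)) +
            2 * len E (fun q => -(S n q - r n q)) := len_add_le hE hdif3 hdif4
      _ ≤ 2 * (2 * len E (fun q => S (n + 1) q - r (n + 1) q) +
            2 * len E (fun q => r (n + 1) q - r n q)) +
            2 * len E (fun q => S n q - r n q) := by
          rw [len_neg (fun q => S n q - r n q)]
          gcongr
          exact len_add_le hE (hdif (n + 1)) hdif2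
      _ ≤ 2 * (2 * ENNReal.ofReal (δ0 / 12 / 4 ^ n) + 2 * ENNReal.ofReal (δ0 / 12 / 4 ^ n)) +
            2 * ENNReal.ofReal (δ0 / 12 / 4 ^ n) := by
          gcongr
          · refine (hS (n + 1)).en.trans (ENNReal.ofReal_le_ofReal ?_)
            have : (4 : ℝ) ^ n ≤ 4 ^ (n + 1) := pow_le_pow_right₀ (by norm_num) (Nat.le_succ n)
            gcongr
          · exact (hS n).en
      _ ≤ ENNReal.ofReal (δ0 / 4 ^ n) := by
          have e2 : ∀ x : ℝ, 0 ≤ x → 2 * (2 * ENNReal.ofReal x + 2 * ENNReal.ofReal x) +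
              2 * ENNReal.ofReal x = ENNReal.ofReal (10 * x) := fun x hx => by
            rw [ENNReal.ofReal_mul (by norm_num : (0 : ℝ) ≤ 10),
              show ENNReal.ofReal 10 = 10 by norm_num]
            ring
          rw [e2 _ (by positivity)]
          refine ENNReal.ofReal_le_ofReal ?_
          have : 0 ≤ δ0 / 4 ^ n := by positivity
          have e3 : 10 * (δ0 / 12 / 4 ^ n) = (10 / 12) * (δ0 / 4 ^ n) := by ring
          rw [e3]; linarith
  obtain ⟨hlim, hl1, hl2⟩ := lim_gen hE hQ.hsub hS0c (C := M0 + 2 * (C0 * d 0)) hδpos.le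
    (fun m => (hS m).cfj) (fun m => (hS m).supp) hψ0 hSb hψb hevS hen
  -- charges
  choose a ha0 has hale hab using fun n => (hrun.stg n).ba
  choose a' ha0' has' hale' hab' using fun n => (hrun.stg n).ca
  obtain ⟨δ, hδ0', hδ1, hδ2, hδ3⟩ := l2_sum (fun n (Q : 𝒬) => a n Q.1) K has (fun n => by
    exact (hale n).trans (hκK n))
  obtain ⟨β, hβ0, hβ1, hβ2, hβ3⟩ := l2_sum a' K has' (fun n => by
    exact (hale' n).trans (hκK n))
  set δ' : Sqr → ℝ := fun Q => if hQ : Q ∈ 𝒬 then δ ⟨Q, hQ⟩ else 0 with hδ'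
  have hδ'v : ∀ Q : 𝒬, δ' Q.1 = δ Q := fun Q => by simp only [hδ', dif_pos Q.2]
  have hbm : ∀ m Q, b m Q = ch E univ Φ Q + ∑ n ∈ Finset.range m, a n Q := by
    intro m Q
    induction m with
    | zero => simp [hb0]
    | succ m ih => rw [Finset.sum_range_succ, hab m Q, ih]; ring
  have hcm : ∀ m i, c m i = jm Φ i + ∑ n ∈ Finset.range m, a' n i := by
    intro m i
    induction m with
    | zero => simp [hc0]
    | succ m ih => rw [Finset.sum_range_succ, hab' m i, ih]; ring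
  have hbδ : ∀ m, ∀ Q ∈ 𝒬, b m Q ≤ ch E univ Φ Q + δ' Q := by
    intro m Q hQ'
    rw [hbm]
    have := hδ1 ⟨Q, hQ'⟩ m
    rw [← hδ'v] at this
    exact add_le_add_right this _
  have hnn : ∀ Q ∈ 𝒬, 0 ≤ ch E univ Φ Q + δ' Q := fun Q hQ' => by
    have h1 := hδ0' ⟨Q, hQ'⟩
    rw [← hδ'v] at h1
    exact add_nonneg (ch_nonneg _ _ _ _) h1
  -- oscillations of components which are never exempt
  have hfree : ∀ L ∈ Comps E, (∀ k, Disjoint L (U k)) → OscLe Eᶜ L ψ 0 ∧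
      ∀ η > 0, ∀ᶠ m in atTop, OscLe Eᶜ L (S m) η := by
    intro L hL hLU
    refine ⟨oscLe_of_forall fun η hη => ?_, fun η hη => ?_⟩
    · have h1 : Tendsto (fun k => (2 + 4 * C0) * d k) atTop (𝓝 ((2 + 4 * C0) * 0)) :=
        hdtend.const_mul _
      rw [mul_zero] at h1
      obtain ⟨k, hk⟩ := (h1.eventually (gt_mem_nhds hη)).exists
      exact (osc_lim hrun hψn hL (hLU k)).mono (by linarith)
    · have h1 : Tendsto (fun k => 2 * d k) atTop (𝓝 (2 * 0)) := hdtend.const_mul _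
      rw [mul_zero] at h1
      obtain ⟨k, hk⟩ := (h1.eventually (gt_mem_nhds hη)).exists
      filter_upwards [ev_ex hrun hL (hLU k), eventually_ge_atTop k] with m hm hkm
      exact ((hS m).osc k hkm L hL hm).mono hk.le
  refine ⟨S, ψ, δ', β, hlim, hS0', fun Q => ?_, ?_, ?_, fun m Q hQ' => ?_, hβ0, hβ2, hβ3,
    fun m i => ?_, fun L hL hLQ => hfree L hL (never hrun hL hLQ), fun L hL Q hQ' hQL => ?_,
    ?_, ?_⟩
  · by_cases hQ' : Q ∈ 𝒬
    · rw [show δ' Q = δ ⟨Q, hQ'⟩ from hδ'v ⟨Q, hQ'⟩]; exact hδ0' _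
    · simp only [hδ', dif_neg hQ', le_refl]
  · simp only [hδ'v]; exact hδ2
  · simp only [hδ'v]; exact hδ3
  · rw [ch_univ]
    exact ((hS m).sq Q hQ').trans (hbδ m Q hQ')
  · refine ((hS m).jc i).trans ?_
    rw [hcm]
    exact add_le_add_right (hβ1 i m) _
  · -- solids
    have hC1 : 0 ≤ C1 C0 θ := by unfold C1; positivity
    have hX := hnn Q hQ'
    by_cases hall : ∀ k, Disjoint L (U k)
    · obtain ⟨h1, h2⟩ := hfree L hL hall
      refine ⟨h1.mono (mul_nonneg hC1 hX), fun η hη => ?_⟩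
      filter_upwards [h2 η hη] with m hm
      exact hm.mono (by linarith [mul_nonneg hC1 hX])
    · push Not at hall
      classical
      set k0 := Nat.find hall with hk0
      have hk0s : ¬ Disjoint L (U k0) := Nat.find_spec hall
      have hk0p : k0 ≠ 0 := by
        intro h0
        rw [h0, hU0] at hk0s
        exact hk0s (disjoint_empty _)
      obtain ⟨k, hk⟩ := Nat.exists_eq_succ_of_ne_zero hk0p
      have hdk : Disjoint L (U k) := by
        by_contra hc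
        exact Nat.find_min hall (m := k) (by omega) hc
      obtain ⟨q, hq, hLq⟩ := id hL
      have hLE : L ⊆ E := by rw [hLq]; exact connectedComponentIn_subset _ _
      have hLc : IsPreconnected L := by rw [hLq]; exact isPreconnected_connectedComponentIn
      have hLU : L ⊆ U (k + 1) := by
        rcases (hrun.stg k).dich L hLE hLc with h1 | h1
        · exact h1
        · exact absurd h1 (by rw [← Nat.succ_eq_add_one, ← hk]; exact hk0s)
      have hQU : ¬ Disjoint Q.car (U (k + 1)) := by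
        obtain ⟨p, hp⟩ := Q.nonempty
        exact not_disjoint_iff.2 ⟨p, hp, hLU (hQL hp)⟩
      have hQd : Disjoint Q.car (U k) := hdk.mono_left hQL
      have hθd : θ * d k ≤ ch E univ Φ Q + δ' Q := by
        rcases (hrun.stg k).ex Q hQ' hQU with h1 | h1
        · exact absurd hQd h1
        · exact (h1.trans ((hrun.inv k).sq Q hQ' hQd)).trans (hbδ k Q hQ')
      set X := ch E univ Φ Q + δ' Q with hXdef
      have hdX : d k ≤ X / θ := by
        rw [le_div_iff₀ hθ]; linarith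
      have hXθ : 0 ≤ X / θ := by positivity
      have hC1X : C1 C0 θ * X = X + 4 * (X / θ) + 4 * C0 * (X / θ) := by
        unfold C1; ring
      have hC0X : C0 * d k ≤ C0 * (X / θ) := mul_le_mul_of_nonneg_left hdX hC0
      have hC0X' : 0 ≤ C0 * (X / θ) := by positivity
      refine ⟨(osc_lim hrun hψn hL hdk).mono ?_, fun η hη => ?_⟩
      · rw [hC1X]; linarith
      · filter_upwards [ev_ex hrun hL hdk, eventually_ge_atTop k] with m hm hkm
        refine ((hS m).osc k hkm L hL hm).mono ?_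
        rw [hC1X]; linarith
  · rw [← hS0']
    refine hl1.trans ?_
    have : δ0 ≤ K ^ 2 / 4 := min_le_left _ _
    linarith
  · rw [← hS0']
    refine (hl2 t htpos).trans ?_
    have h1 : t * (4 * δ0) ≤ K / 2 := by
      have h2 : δ0 ≤ K / (8 * t) := min_le_right _ _
      calc t * (4 * δ0) ≤ t * (4 * (K / (8 * t))) := by gcongr
        _ = K / 2 := by field_simp; ring
    have h2 : (1 / (2 * t)) * vS ≤ K / 2 := by
      rw [ht]
      have : 1 / (2 * ((vS + 1) / K)) * vS = (K / 2) * (vS / (vS + 1)) := by field_simp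
      rw [this]
      have h3 : vS / (vS + 1) ≤ 1 := by rw [div_le_one (by positivity)]; linarith
      nlinarith [hK]
    linarith


end Crest.Agent.R105.Exs6_992
end

-- ▼ part R105/Exs7_992

/-!
# Row 105 (S0138): `LIMQ` (F10), corollary of `LIMJ` without functionals
-/

set_option autoImplicit false

namespace Crest.Agent.R105.Exs7_992

open Set Filter MeasureTheory Topology Metric
open Crest.Agent.R105.CF_363 Crest.Agent.R105.Stp_722 Crest.Agent.R105.Cq_463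
open Crest.Agent.R105.Skp2_257 (Comps Reg)
open Crest.Agent.R105.Exs_992

variable {E : Set (ℝ × ℝ)} {𝒬 : Set Sqr} {𝓗 : Set Hair} {ι : Type} {P : ι → Set (ℝ × ℝ)}
  {jm : (ℝ × ℝ → ℝ) → ι → ℝ}

/-- `StepQ` gives `StepJ` when every functional `jm` increases by at most a small `ℓ²` sequence;
here without any functional. -/
theorem stepJ_of_stepQ (hQ : QPic E 𝒬 𝓗) {C0 θ : ℝ} (h : StepQ E 𝒬 𝓗 C0 θ)
    (jm : (ℝ × ℝ → ℝ) → Empty → ℝ) : StepJ E 𝒬 𝓗 jm C0 θ := by
  intro r hr hrc hrb E' hE' hEE hEd d hd hP hQ' W hW hEW κ hκ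
  obtain ⟨φ, h1, h2, h3, h4, h5⟩ := h r hr hrc hrb E' hE' hEE hEd d hd hP hQ' W hW hEW κ hκ
  have hsum := summable_ch hQ convex_univ h1
  refine ⟨φ, h1, h2, h3, ?_, ⟨fun Q => ch E univ φ Q, fun Q => ch_nonneg _ _ _ _, hsum, ?_,
    fun Q _ => ?_⟩, ⟨fun _ => 0, fun _ => le_rfl, by simp, ?_,
    fun i => i.elim⟩, h5⟩
  · have h6 : En (univ \ E) φ ≤ TQ E univ 𝒬 φ := En_le_TQ
    rw [← compl_eq_univ_sdiff] at h6
    exact h6.trans h4
  · exact (Ch_le_TQ (E := E) (W := univ) (𝒬 := 𝒬) (f := φ)).trans h4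
  · exact chg_add (CFJ.fin hQ hr _) (CFJ.fin hQ h1 _)
  · simp only [tsum_empty]; positivity

/-- `LimJ` contains `LimQ` -/
theorem limQ_of_limJ {C1 : ℝ} (h : LimJ E 𝒬 𝓗 jm C1) : LimQ E 𝒬 𝓗 C1 := by
  intro Φ h1 h2 h3 κ hκ
  obtain ⟨S, ψ, δ, β, hL, -, e1, e2, e3, e4, -, -, -, -, e5, e6, e7, e8⟩ := h Φ h1 h2 h3 κ hκ
  exact ⟨S, ψ, δ, hL, e1, e2, e3, e4, fun P hP hPQ => (e5 P hP hPQ).1,
    fun P hP Q hQ hQP => (e6 P hP Q hQ hQP).1, e7, e8⟩

/-- **LIMQ for every `QPic`** -/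
theorem limQ (hQ : QPic E 𝒬 𝓗) {C0 θ : ℝ} (hC0 : 0 ≤ C0) (hθ : 0 < θ)
    (h : StepQ E 𝒬 𝓗 C0 θ) : LimQ E 𝒬 𝓗 (C1 C0 θ) :=
  limQ_of_limJ (Exs6_992.limJ (P := fun i : Empty => i.elim) (jm := fun _ i => i.elim) hQ
    ⟨fun i => i.elim, fun i => i.elim, fun i => i.elim, fun i => i.elim⟩ hC0 hθ
    (stepJ_of_stepQ hQ h _))

/-- **LIMQ** (F10, T5) -/
theorem limq : LIMQ := fun _ _ _ hS _ _ hC0 hθ h => limQ hS.q hC0 hθ h

end Crest.Agent.R105.Exs7_992
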