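import Mathlib
import Crest.Agent.R105.Thin1_891
import Crest.Agent.R105.Cq3_463

-- ▼ part R105/Fnc1_189
section

/-!
# Row 105: the FINITE layer lemma (Lemma C of #8892 in the form 745 #9455 (I)), abstract

`X` the ambient space, `H` the family of all components (hairs, solids, points), `R` a half region,
`D ⊆ R` the part of it where functions live (off `E`).  A class `LCls H R D` is a class of
competitors with an energy which is *local*.  Input: in every neighbourhood of the family `𝒢` there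
is a pair of cut-offs of energy `≤ A` (`A` independent of the neighbourhood), one of which is `1`
near every `K ∈ 𝒢`.  Output: cut-offs of energy `≤ 2 A / M` with the same property, which vary by at
most `1 / M` near EVERY component.
-/

set_option autoImplicit false

namespace Crest.Agent.R105.Fnc_189

open Set Filter Topology

variable {X : Type*} [TopologicalSpace X]

/-- `f` is supported (on the region `R`) in a compact subset of `N`. -/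
def Sup (R N : Set X) (f : X → ℝ) : Prop :=
  ∃ S, IsCompact S ∧ S ⊆ N ∧ ∀ p ∈ R, p ∉ S → f p = 0

theorem Sup.mono {R N N' : Set X} {f : X → ℝ} (h : Sup R N f) (hN : N ⊆ N') : Sup R N' f := by
  obtain ⟨S, h1, h2, h3⟩ := h
  exact ⟨S, h1, h2.trans hN, h3⟩

/-- near every component and near every point of `D`, `z` is `1 + w` or `Z ⊔ w`. -/
def Loc (H : Set (Set X)) (D : Set X) (Z w z : X → ℝ) : Prop :=
  ∀ κ, (κ ∈ H ∨ ∃ x ∈ D, κ = {x}) → ∃ W, IsOpen W ∧ κ ⊆ W ∧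
    ((∀ x ∈ W ∩ D, z x = 1 + w x) ∨ ∀ x ∈ W ∩ D, z x = max (Z x) (w x))

/-- near every component `f` stays between consecutive integers. -/
def Var (H : Set (Set X)) (D : Set X) (f : X → ℝ) : Prop :=
  ∀ K ∈ H, ∃ c : ℕ, ∃ W, IsOpen W ∧ K ⊆ W ∧ ∀ x ∈ W ∩ D, (c : ℝ) ≤ f x ∧ f x ≤ c + 1

/-- a class of competitors with a local energy. -/
structure LCls (H : Set (Set X)) (R D : Set X) where
  P : (X → ℝ) → Prop
  E : (X → ℝ) → ℝ
  zero : P fun _ => 0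
  E_zero : E (fun _ => 0) ≤ 0
  add : ∀ f g, P f → P g → P fun x => f x + g x
  sup : ∀ f g, P f → P g → P fun x => max (f x) (g x)
  cut : ∀ f N₁ N₂, IsOpen N₁ → IsOpen N₂ → Disjoint N₁ N₂ → Sup R (N₁ ∪ N₂) f → P f →
    P (N₁.indicator f)
  cap : ∀ f, P f → (∀ x, 0 ≤ f x) → ∀ c : ℝ, 0 < c → P fun x => min (f x) c / c
  E_cap : ∀ f, P f → (∀ x, 0 ≤ f x) → ∀ c : ℝ, 0 < c →
    E (fun x => min (f x) c / c) ≤ E f / c ^ 2
  E_loc : ∀ Z w z, P Z → P w → P z → (∀ x, 0 ≤ Z x) → (∀ x, Z x ≤ 1) → (∀ x, 0 ≤ w x) →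
    Loc H D Z w z → E z ≤ E Z + E w

variable {H : Set (Set X)} {R D R' D' : Set X}

/-- one side of the induction step. -/
theorem push [T2Space X] (C : LCls H R D) (hDR : D ⊆ R) {Z w : X → ℝ} {N N₁ N₂ : Set X}
    (hN₁ : IsOpen N₁) (hN₂ : IsOpen N₂) (hd : Disjoint N₁ N₂) (h₁ : N₁ ⊆ N) (h₂ : N₂ ⊆ N)
    (hH : ∀ K ∈ H, K ⊆ N₁ ∨ K ⊆ N₂ ∨ Disjoint K (N₁ ∪ N₂))
    (hZ : C.P Z) (hZ0 : ∀ x, 0 ≤ Z x) (hZ1 : ∀ x, Z x ≤ 1) (hZs : Sup R N Z)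
    (hZ2 : ∀ x ∈ N₁ ∩ D, Z x = 1) (hw : C.P w) (hw0 : ∀ x, 0 ≤ w x)
    (hws : Sup R (N₁ ∪ N₂) w) (hwv : Var H D w) :
    ∃ z, C.P z ∧ (∀ x, 0 ≤ z x) ∧ Sup R N z ∧ C.E z ≤ C.E Z + C.E w ∧ Var H D z ∧
      (∀ x ∈ N₁ ∩ D, z x = 1 + w x) ∧ ∀ x ∈ N₂ ∩ D, w x ≤ z x := by
  classical
  have hws' : Sup R (N₂ ∪ N₁) w := by rwa [union_comm]
  set z : X → ℝ := fun x => max (Z x) (N₂.indicator w x) + N₁.indicator w x with hz
  have hPz : C.P z := C.add _ _ (C.sup _ _ hZ (C.cut w N₂ N₁ hN₂ hN₁ hd.symm hws' hw))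
    (C.cut w N₁ N₂ hN₁ hN₂ hd hws hw)
  have hz1 : ∀ x ∈ N₁ ∩ D, z x = 1 + w x := by
    intro x hx
    have h2 : x ∉ N₂ := fun h => Set.disjoint_left.1 hd hx.1 h
    simp only [hz, indicator_of_mem hx.1, indicator_of_notMem h2, hZ2 x hx,
      max_eq_left zero_le_one]
  have hz2 : ∀ x ∈ N₂, z x = max (Z x) (w x) := by
    intro x hx
    have h1 : x ∉ N₁ := fun h => Set.disjoint_left.1 hd h hx
    simp only [hz, indicator_of_mem hx, indicator_of_notMem h1, add_zero]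
  have hz3 : ∀ x, w x = 0 → z x = Z x := by
    intro x hx
    have e1 : N₁.indicator w x = 0 := by
      by_cases h : x ∈ N₁
      · rw [indicator_of_mem h, hx]
      · rw [indicator_of_notMem h]
    have e2 : N₂.indicator w x = 0 := by
      by_cases h : x ∈ N₂
      · rw [indicator_of_mem h, hx]
      · rw [indicator_of_notMem h]
    simp only [hz, e1, e2, max_eq_left (hZ0 x), add_zero]
  obtain ⟨S, hS, hSN, hS0⟩ := hws
  -- off `S`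
  have hz4 : ∀ x ∈ Sᶜ ∩ D, z x = max (Z x) (w x) ∧ w x = 0 := by
    intro x hx
    have h0 : w x = 0 := hS0 x (hDR hx.2) hx.1
    exact ⟨by rw [hz3 x h0, h0, max_eq_left (hZ0 x)], h0⟩
  have hcell : ∀ κ, (κ ∈ H ∨ ∃ x ∈ D, κ = {x}) → κ ⊆ N₁ ∨ κ ⊆ N₂ ∨ κ ⊆ Sᶜ := by
    rintro κ (h | ⟨x, _, rfl⟩)
    · rcases hH κ h with h | h | h
      · exact Or.inl h
      · exact Or.inr (Or.inl h)
      · exact Or.inr (Or.inr fun y hy hyS => Set.disjoint_left.1 h hy (hSN hyS))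
    · by_cases hx : x ∈ S
      · rcases hSN hx with h | h
        · exact Or.inl (singleton_subset_iff.2 h)
        · exact Or.inr (Or.inl (singleton_subset_iff.2 h))
      · exact Or.inr (Or.inr (singleton_subset_iff.2 hx))
  have hSo : IsOpen Sᶜ := hS.isClosed.isOpen_compl
  refine ⟨z, hPz, ?_, ?_, ?_, ?_, hz1, ?_⟩
  · intro x
    have e1 : 0 ≤ N₁.indicator w x := indicator_nonneg (fun y _ => hw0 y) x
    have e2 : 0 ≤ max (Z x) (N₂.indicator w x) := le_max_of_le_left (hZ0 x)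
    exact add_nonneg e2 e1
  · obtain ⟨T, hT, hTN, hT0⟩ := hZs
    refine ⟨T ∪ S, hT.union hS, union_subset hTN (hSN.trans (union_subset h₁ h₂)), ?_⟩
    intro p hp hpn
    rw [mem_union, not_or] at hpn
    rw [hz3 p (hS0 p hp hpn.2), hT0 p hp hpn.1]
  · refine C.E_loc Z w z hZ hw hPz hZ0 hZ1 hw0 ?_
    intro κ hκ
    rcases hcell κ hκ with h | h | h
    · exact ⟨N₁, hN₁, h, Or.inl hz1⟩
    · exact ⟨N₂, hN₂, h, Or.inr fun x hx => hz2 x hx.1⟩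
    · exact ⟨Sᶜ, hSo, h, Or.inr fun x hx => (hz4 x hx).1⟩
  · intro K hK
    obtain ⟨c, W, hW, hKW, hc⟩ := hwv K hK
    rcases hcell K (Or.inl hK) with h | h | h
    · refine ⟨c + 1, W ∩ N₁, hW.inter hN₁, subset_inter hKW h, ?_⟩
      rintro x ⟨⟨hxW, hxN⟩, hxD⟩
      rw [hz1 x ⟨hxN, hxD⟩]
      have := hc x ⟨hxW, hxD⟩
      push_cast
      constructor <;> linarith [this.1, this.2]
    · refine ⟨c, W ∩ N₂, hW.inter hN₂, subset_inter hKW h, ?_⟩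
      rintro x ⟨⟨hxW, hxN⟩, hxD⟩
      rw [hz2 x hxN]
      have := hc x ⟨hxW, hxD⟩
      refine ⟨le_max_of_le_right this.1, max_le ?_ this.2⟩
      have : (0 : ℝ) ≤ c := Nat.cast_nonneg c
      linarith [hZ1 x]
    · refine ⟨0, Sᶜ, hSo, h, ?_⟩
      intro x hx
      rw [hz3 x (hz4 x hx).2]
      push_cast
      exact ⟨hZ0 x, by linarith [hZ1 x]⟩
  · intro x hx
    rw [hz2 x hx.1]
    exact le_max_right _ _

/-- the splitting property of the family `𝒢` of components. -/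
def Split (H : Set (Set X)) (𝒢 : Set (Set X)) : Prop :=
  ∀ O₁ O₂ : Set X, IsOpen O₁ → IsOpen O₂ → (∀ K ∈ 𝒢, K ⊆ O₁ ∨ K ⊆ O₂) →
    ∃ N₁ N₂, IsOpen N₁ ∧ IsOpen N₂ ∧ Disjoint N₁ N₂ ∧ N₁ ⊆ O₁ ∧ N₂ ⊆ O₂ ∧
      (∀ K ∈ H, K ⊆ N₁ ∨ K ⊆ N₂ ∨ Disjoint K (N₁ ∪ N₂)) ∧ ∀ K ∈ 𝒢, K ⊆ N₁ ∨ K ⊆ N₂

/-- bounded conductance of the family `𝒢`. -/
def Bdd (C : LCls H R D) (C' : LCls H R' D') (𝒢 : Set (Set X)) (A : ℝ) : Prop :=
  ∀ N, IsOpen N → (∀ K ∈ 𝒢, K ⊆ N) → ∃ Z Z', C.P Z ∧ C'.P Z' ∧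
    (∀ x, 0 ≤ Z x ∧ Z x ≤ 1) ∧ (∀ x, 0 ≤ Z' x ∧ Z' x ≤ 1) ∧ Sup R N Z ∧ Sup R' N Z' ∧
    C.E Z ≤ A ∧ C'.E Z' ≤ A ∧ ∀ K ∈ 𝒢, ∃ O, IsOpen O ∧ K ⊆ O ∧
      ((∀ x ∈ O ∩ D, Z x = 1) ∨ ∀ x ∈ O ∩ D', Z' x = 1)

/-- the recursion: `L` stages. -/
theorem stages [T2Space X] (C : LCls H R D) (C' : LCls H R' D') (hDR : D ⊆ R) (hDR' : D' ⊆ R')
    {𝒢 : Set (Set X)} (hsplit : Split H 𝒢) {A : ℝ} (hpair : Bdd C C' 𝒢 A) (L : ℕ) :
    ∀ N, IsOpen N → (∀ K ∈ 𝒢, K ⊆ N) → ∃ w w', C.P w ∧ C'.P w' ∧ (∀ x, 0 ≤ w x) ∧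
      (∀ x, 0 ≤ w' x) ∧ Sup R N w ∧ Sup R' N w' ∧ C.E w ≤ L * A ∧ C'.E w' ≤ L * A ∧
      Var H D w ∧ Var H D' w' ∧ ∀ K ∈ 𝒢, ∃ a b : ℕ, a + b = L ∧ ∃ W, IsOpen W ∧ K ⊆ W ∧
        (∀ x ∈ W ∩ D, (a : ℝ) ≤ w x) ∧ ∀ x ∈ W ∩ D', (b : ℝ) ≤ w' x := by
  induction L with
  | zero =>
    intro N hN hGN
    refine ⟨fun _ => 0, fun _ => 0, C.zero, C'.zero, fun _ => le_rfl, fun _ => le_rfl,
      ⟨∅, isCompact_empty, empty_subset _, fun _ _ _ => rfl⟩,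
      ⟨∅, isCompact_empty, empty_subset _, fun _ _ _ => rfl⟩, ?_, ?_, ?_, ?_, ?_⟩
    · simpa using C.E_zero
    · simpa using C'.E_zero
    · intro K _
      exact ⟨0, univ, isOpen_univ, subset_univ _, fun x _ => by simp⟩
    · intro K _
      exact ⟨0, univ, isOpen_univ, subset_univ _, fun x _ => by simp⟩
    · intro K _
      exact ⟨0, 0, rfl, univ, isOpen_univ, subset_univ _, fun x _ => by simp, fun x _ => by simp⟩
  | succ L ih =>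
    intro N hN hGN
    obtain ⟨Z, Z', hZ, hZ', hZ01, hZ01', hZs, hZs', hEZ, hEZ', hkey⟩ := hpair N hN hGN
    let O₁ : Set X := ⋃₀ {O | IsOpen O ∧ ∀ x ∈ O ∩ D, Z x = 1}
    let O₂ : Set X := ⋃₀ {O | IsOpen O ∧ ∀ x ∈ O ∩ D', Z' x = 1}
    have hO₁ : IsOpen O₁ := isOpen_sUnion fun O hO => hO.1
    have hO₂ : IsOpen O₂ := isOpen_sUnion fun O hO => hO.1
    have hO₁1 : ∀ x ∈ O₁ ∩ D, Z x = 1 := by
      rintro x ⟨⟨O, hO, hx⟩, hxD⟩
      exact hO.2 x ⟨hx, hxD⟩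
    have hO₂1 : ∀ x ∈ O₂ ∩ D', Z' x = 1 := by
      rintro x ⟨⟨O, hO, hx⟩, hxD⟩
      exact hO.2 x ⟨hx, hxD⟩
    obtain ⟨N₁, N₂, hN₁, hN₂, hd, hN₁O, hN₂O, hH, hG⟩ := hsplit (O₁ ∩ N) (O₂ ∩ N)
      (hO₁.inter hN) (hO₂.inter hN) (by
        intro K hK
        obtain ⟨O, hO, hKO, h | h⟩ := hkey K hK
        · exact Or.inl (subset_inter (hKO.trans (subset_sUnion_of_mem ⟨hO, h⟩)) (hGN K hK))
        · exact Or.inr (subset_inter (hKO.trans (subset_sUnion_of_mem ⟨hO, h⟩)) (hGN K hK)))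
    have hH' : ∀ K ∈ H, K ⊆ N₂ ∨ K ⊆ N₁ ∨ Disjoint K (N₂ ∪ N₁) := by
      intro K hK
      rcases hH K hK with h | h | h
      · exact Or.inr (Or.inl h)
      · exact Or.inl h
      · exact Or.inr (Or.inr (by rwa [union_comm]))
    obtain ⟨w, w', hw, hw', hw0, hw0', hws, hws', hEw, hEw', hwv, hwv', hwG⟩ :=
      ih (N₁ ∪ N₂) (hN₁.union hN₂) (fun K hK => by
        rcases hG K hK with h | h
        · exact h.trans subset_union_left
        · exact h.trans subset_union_right)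
    obtain ⟨z, hz, hz0, hzs, hEz, hzv, hz1, hz2⟩ := push C hDR hN₁ hN₂ hd
      (hN₁O.trans inter_subset_right) (hN₂O.trans inter_subset_right) hH hZ
      (fun x => (hZ01 x).1) (fun x => (hZ01 x).2) hZs
      (fun x hx => hO₁1 x ⟨(hN₁O hx.1).1, hx.2⟩) hw hw0 hws hwv
    obtain ⟨z', hz', hz0', hzs', hEz', hzv', hz1', hz2'⟩ := push C' hDR' hN₂ hN₁ hd.symm
      (hN₂O.trans inter_subset_right) (hN₁O.trans inter_subset_right) hH' hZ'
      (fun x => (hZ01' x).1) (fun x => (hZ01' x).2) hZs'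
      (fun x hx => hO₂1 x ⟨(hN₂O hx.1).1, hx.2⟩) hw' hw0' (by rwa [union_comm]) hwv'
    refine ⟨z, z', hz, hz', hz0, hz0', hzs, hzs', ?_, ?_, hzv, hzv', ?_⟩
    · push_cast
      linarith
    · push_cast
      linarith
    · intro K hK
      obtain ⟨a, b, hab, W, hW, hKW, ha, hb⟩ := hwG K hK
      rcases hG K hK with h | h
      · refine ⟨a + 1, b, by omega, W ∩ N₁, hW.inter hN₁, subset_inter hKW h, ?_, ?_⟩
        · rintro x ⟨⟨hxW, hxN⟩, hxD⟩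
          rw [hz1 x ⟨hxN, hxD⟩]
          have := ha x ⟨hxW, hxD⟩
          push_cast
          linarith
        · rintro x ⟨⟨hxW, hxN⟩, hxD⟩
          exact (hb x ⟨hxW, hxD⟩).trans (hz2' x ⟨hxN, hxD⟩)
      · refine ⟨a, b + 1, by omega, W ∩ N₂, hW.inter hN₂, subset_inter hKW h, ?_, ?_⟩
        · rintro x ⟨⟨hxW, hxN⟩, hxD⟩
          exact (ha x ⟨hxW, hxD⟩).trans (hz2 x ⟨hxN, hxD⟩)
        · rintro x ⟨⟨hxW, hxN⟩, hxD⟩
          rw [hz1' x ⟨hxN, hxD⟩]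
          have := hb x ⟨hxW, hxD⟩
          push_cast
          linarith

/-- the last step: `min (w, M) / M`. -/
theorem Var.cap {w : X → ℝ} (h : Var H D w) {M : ℕ} (hM : 0 < M) :
    ∀ K ∈ H, ∃ c : ℝ, ∃ W, IsOpen W ∧ K ⊆ W ∧
      ∀ x ∈ W ∩ D, c ≤ min (w x) M / M ∧ min (w x) M / M ≤ c + 1 / M := by
  intro K hK
  obtain ⟨c, W, hW, hKW, hc⟩ := h K hK
  have hM' : (0 : ℝ) < M := Nat.cast_pos.2 hM
  refine ⟨min (c : ℝ) M / M, W, hW, hKW, fun x hx => ?_⟩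
  have h1 := hc x hx
  refine ⟨div_le_div_of_nonneg_right (min_le_min_right _ h1.1) hM'.le, ?_⟩
  rw [← add_div]
  refine div_le_div_of_nonneg_right ?_ hM'.le
  rcases le_total (c : ℝ) M with h2 | h2
  · rw [min_eq_left h2]
    exact (min_le_left _ _).trans h1.2
  · rw [min_eq_right h2]
    exact (min_le_right _ _).trans (by linarith)

/-- **FINITE LEMMA C (745 #9455 (I)), abstract form.** -/
theorem layersF [T2Space X] (C : LCls H R D) (C' : LCls H R' D') (hDR : D ⊆ R) (hDR' : D' ⊆ R')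
    {𝒢 : Set (Set X)} (hsplit : Split H 𝒢) {A : ℝ} (hA : 0 ≤ A) (hpair : Bdd C C' 𝒢 A)
    {M : ℕ} (hM : 1 ≤ M) {N : Set X} (hN : IsOpen N) (hGN : ∀ K ∈ 𝒢, K ⊆ N) :
    ∃ z z', C.P z ∧ C'.P z' ∧ (∀ x, 0 ≤ z x ∧ z x ≤ 1) ∧ (∀ x, 0 ≤ z' x ∧ z' x ≤ 1) ∧
      Sup R N z ∧ Sup R' N z' ∧ C.E z ≤ 2 * A / M ∧ C'.E z' ≤ 2 * A / M ∧
      (∀ K ∈ H, ∃ c : ℝ, ∃ W, IsOpen W ∧ K ⊆ W ∧ ∀ x ∈ W ∩ D, c ≤ z x ∧ z x ≤ c + 1 / M) ∧
      (∀ K ∈ H, ∃ c : ℝ, ∃ W, IsOpen W ∧ K ⊆ W ∧ ∀ x ∈ W ∩ D', c ≤ z' x ∧ z' x ≤ c + 1 / M) ∧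
      ∀ K ∈ 𝒢, ∃ O, IsOpen O ∧ K ⊆ O ∧ ((∀ x ∈ O ∩ D, z x = 1) ∨ ∀ x ∈ O ∩ D', z' x = 1) := by
  have hM' : (0 : ℝ) < M := Nat.cast_pos.2 hM
  obtain ⟨w, w', hw, hw', hw0, hw0', hws, hws', hEw, hEw', hwv, hwv', hwG⟩ :=
    stages C C' hDR hDR' hsplit hpair (2 * M - 1) N hN hGN
  have hcap : ∀ {f : X → ℝ}, (∀ x, 0 ≤ f x) → ∀ x, 0 ≤ min (f x) M / M ∧ min (f x) M / M ≤ 1 := by
    intro f hf x
    refine ⟨div_nonneg (le_min (hf x) hM'.le) hM'.le, ?_⟩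
    rw [div_le_one hM']
    exact min_le_right _ _
  have hsup : ∀ {f : X → ℝ} {Q : Set X}, Sup Q N f → Sup Q N fun x => min (f x) M / M := by
    rintro f Q ⟨S, h1, h2, h3⟩
    refine ⟨S, h1, h2, fun p hp hpS => ?_⟩
    simp only [h3 p hp hpS, min_eq_left hM'.le, zero_div]
  have hen : ∀ {e : ℝ}, e ≤ ((2 * M - 1 : ℕ) : ℝ) * A → e / (M : ℝ) ^ 2 ≤ 2 * A / M := by
    intro e he
    have h1 : ((2 * M - 1 : ℕ) : ℝ) ≤ 2 * M := by
      have : ((2 * M - 1 : ℕ) : ℝ) ≤ ((2 * M : ℕ) : ℝ) := by exact_mod_cast Nat.sub_le _ _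
      push_cast at this
      exact this
    have h2 : e ≤ 2 * M * A := he.trans (mul_le_mul_of_nonneg_right h1 hA)
    rw [div_le_div_iff₀ (by positivity) hM']
    nlinarith [mul_le_mul_of_nonneg_right h2 hM'.le]
  refine ⟨fun x => min (w x) M / M, fun x => min (w' x) M / M, C.cap _ hw hw0 _ hM',
    C'.cap _ hw' hw0' _ hM', hcap hw0, hcap hw0', hsup hws, hsup hws',
    (C.E_cap _ hw hw0 _ hM').trans (hen hEw), (C'.E_cap _ hw' hw0' _ hM').trans (hen hEw'),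
    hwv.cap hM, hwv'.cap hM, ?_⟩
  intro K hK
  obtain ⟨a, b, hab, W, hW, hKW, ha, hb⟩ := hwG K hK
  refine ⟨W, hW, hKW, ?_⟩
  rcases le_or_gt M a with h | h
  · left
    intro x hx
    have h1 : (M : ℝ) ≤ w x := (Nat.cast_le.2 h).trans (ha x hx)
    simp only [min_eq_right h1, div_self hM'.ne']
  · right
    intro x hx
    have h2 : M ≤ b := by omega
    have h1 : (M : ℝ) ≤ w' x := (Nat.cast_le.2 h2).trans (hb x hx)
    simp only [min_eq_right h1, div_self hM'.ne']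

end Crest.Agent.R105.Fnc_189
end

-- ▼ part R105/Fnc2_189
section

/-!
# Row 105: the splitting property `Split` of `Fnc1_189` for the components of a compact set
-/

set_option autoImplicit false

namespace Crest.Agent.R105.Fnc_189

open Set Filter Topology Thin_891

variable {X : Type*} [TopologicalSpace X]

/-- `Split` for a family of components of a compact set with compact union. -/
theorem split_of_compact [T2Space X] {E : Set X} (hE : IsCompact E) {H 𝒢 : Set (Set X)}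
    (hH : ∀ K ∈ H, ∃ p ∈ E, K = connectedComponentIn E p)
    (hG : ∀ K ∈ 𝒢, ∃ p ∈ E, K = connectedComponentIn E p) (hc : IsCompact (⋃₀ 𝒢)) :
    Split H 𝒢 := by
  classical
  intro O₁ O₂ hO₁ hO₂ hcov
  have hGE : ⋃₀ 𝒢 ⊆ E := by
    rintro x ⟨K, hK, hx⟩
    obtain ⟨p, hp, rfl⟩ := hG K hK
    exact connectedComponentIn_subset E p hx
  have hcc : ∀ x ∈ ⋃₀ 𝒢, connectedComponentIn E x ⊆ O₁ ∨ connectedComponentIn E x ⊆ O₂ := by
    rintro x ⟨K, hK, hx⟩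
    obtain ⟨p, hp, hKp⟩ := hG K hK
    have : connectedComponentIn E x = K := by
      rw [hKp] at hx ⊢
      exact (connectedComponentIn_eq hx).symm
    rw [this]
    exact hcov K hK
  obtain ⟨n, p, F, hp, hF, hFU, -, hFd, hFc⟩ := exists_pieces hE hc hGE
    (fun x => if connectedComponentIn E x ⊆ O₁ then O₁ else O₂)
    (fun x hx => by split_ifs <;> assumption)
    (fun x hx => by
      split_ifs with h
      · exact h
      · exact (hcc x hx).resolve_left h)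
  have hun : ∀ s : Finset (Fin n), Piece E (⋃ j ∈ s, F j) := by
    intro s
    induction s using Finset.induction_on with
    | empty => simpa using Piece.empty hE
    | insert a s ha ih => rw [Finset.set_biUnion_insert]; exact (hF _).union ih
  let s : Finset (Fin n) := Finset.univ.filter fun i => connectedComponentIn E (p i) ⊆ O₁
  let A : Set X := ⋃ j ∈ s, F j
  let B : Set X := ⋃ j ∈ sᶜ, F j
  have hA : Piece E A := hun s
  have hB : Piece E B := hun sᶜ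
  have hAO : A ⊆ O₁ := by
    refine iUnion₂_subset fun i hi => ?_
    have h1 : connectedComponentIn E (p i) ⊆ O₁ := (Finset.mem_filter.1 hi).2
    have h2 := hFU i
    simp only [if_pos h1] at h2
    exact h2
  have hBO : B ⊆ O₂ := by
    refine iUnion₂_subset fun i hi => ?_
    have h1 : ¬ connectedComponentIn E (p i) ⊆ O₁ := by
      intro h
      exact (Finset.mem_compl.1 hi) (Finset.mem_filter.2 ⟨Finset.mem_univ _, h⟩)
    have h2 := hFU i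
    simp only [if_neg h1] at h2
    exact h2
  have hAB : Disjoint A B := by
    rw [Set.disjoint_left]
    intro x hxA hxB
    obtain ⟨i, hi, hxi⟩ := mem_iUnion₂.1 hxA
    obtain ⟨j, hj, hxj⟩ := mem_iUnion₂.1 hxB
    have hij : i ≠ j := by
      rintro rfl
      exact (Finset.mem_compl.1 hj) hi
    exact Set.disjoint_left.1 (hFd hij) hxi hxj
  have hcovAB : ⋃₀ 𝒢 ⊆ A ∪ B := by
    intro x hx
    obtain ⟨i, hi⟩ := mem_iUnion.1 (hFc hx)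
    by_cases h : i ∈ s
    · exact Or.inl (mem_iUnion₂.2 ⟨i, h, hi⟩)
    · exact Or.inr (mem_iUnion₂.2 ⟨i, Finset.mem_compl.2 h, hi⟩)
  obtain ⟨U₁, V₁, hU₁, hV₁, hAU, hAV, hUV₁⟩ :=
    SeparatedNhds.of_isCompact_isCompact hA.cpt hA.cpt' disjoint_sdiff_self_right
  obtain ⟨U₂, V₂, hU₂, hV₂, hBU, hBV, hUV₂⟩ :=
    SeparatedNhds.of_isCompact_isCompact hB.cpt hB.cpt' disjoint_sdiff_self_right
  have hA2 : A ⊆ V₂ := fun x hx => hBV ⟨hA.sub hx, fun h => Set.disjoint_left.1 hAB hx h⟩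
  have hB1 : B ⊆ V₁ := fun x hx => hAV ⟨hB.sub hx, fun h => Set.disjoint_left.1 hAB h hx⟩
  have key : ∀ K, (∃ p ∈ E, K = connectedComponentIn E p) →
      K ⊆ A ∨ K ⊆ B ∨ Disjoint K (A ∪ B) := by
    rintro K ⟨q, hq, rfl⟩
    by_cases h1 : (connectedComponentIn E q ∩ A).Nonempty
    · exact Or.inl (hA.component_subset' h1)
    by_cases h2 : (connectedComponentIn E q ∩ B).Nonempty
    · exact Or.inr (Or.inl (hB.component_subset' h2))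
    refine Or.inr (Or.inr ?_)
    rw [Set.disjoint_left]
    rintro x hx (h | h)
    · exact h1 ⟨x, hx, h⟩
    · exact h2 ⟨x, hx, h⟩
  refine ⟨U₁ ∩ V₂ ∩ O₁, U₂ ∩ V₁ ∩ O₂, (hU₁.inter hV₂).inter hO₁, (hU₂.inter hV₁).inter hO₂, ?_,
    inter_subset_right, inter_subset_right, ?_, ?_⟩
  · rw [Set.disjoint_left]
    rintro x ⟨⟨h1, _⟩, _⟩ ⟨⟨_, h2⟩, _⟩
    exact Set.disjoint_left.1 hUV₁ h1 h2
  · intro K hK
    rcases key K (hH K hK) with h | h | h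
    · exact Or.inl fun x hx => ⟨⟨hAU (h hx), hA2 (h hx)⟩, hAO (h hx)⟩
    · exact Or.inr (Or.inl fun x hx => ⟨⟨hBU (h hx), hB1 (h hx)⟩, hBO (h hx)⟩)
    · refine Or.inr (Or.inr ?_)
      rw [Set.disjoint_left]
      obtain ⟨q, hq, rfl⟩ := hH K hK
      rintro x hx (⟨⟨h1, _⟩, _⟩ | ⟨⟨h1, _⟩, _⟩)
      · have hxE : x ∈ E := connectedComponentIn_subset E q hx
        have : x ∈ A := by
          by_contra hcon
          exact Set.disjoint_left.1 hUV₁ h1 (hAV ⟨hxE, hcon⟩)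
        exact Set.disjoint_left.1 h hx (Or.inl this)
      · have hxE : x ∈ E := connectedComponentIn_subset E q hx
        have : x ∈ B := by
          by_contra hcon
          exact Set.disjoint_left.1 hUV₂ h1 (hBV ⟨hxE, hcon⟩)
        exact Set.disjoint_left.1 h hx (Or.inr this)
  · intro K hK
    rcases key K (hG K hK) with h | h | h
    · exact Or.inl fun x hx => ⟨⟨hAU (h hx), hA2 (h hx)⟩, hAO (h hx)⟩
    · exact Or.inr fun x hx => ⟨⟨hBU (h hx), hB1 (h hx)⟩, hBO (h hx)⟩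
    · exfalso
      obtain ⟨q, hq, rfl⟩ := hG K hK
      have hqK : q ∈ connectedComponentIn E q := mem_connectedComponentIn hq
      exact Set.disjoint_left.1 h hqK (hcovAB ⟨_, hK, hqK⟩)

end Crest.Agent.R105.Fnc_189
end

-- ▼ part R105/Fnc3_189

/-!
# Row 105 (S0138, picture with solids): LAY-Q = (5) of #10005, over 463's class `Cc`, `TQ`

The finite layer lemma of `Fnc1_189` for the energy with the charges of the exact squares.
-/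

set_option autoImplicit false

namespace Crest.Agent.R105.Fnc_189

open Set Filter MeasureTheory Topology
open Crest.Agent.R105.CF_363 Crest.Agent.R105.Stp_722 Crest.Agent.R105.Cq_463
open scoped ENNReal

variable {E W W' : Set (ℝ × ℝ)} {𝒬 : Set Sqr} {𝓗 : Set Hair} {f g : ℝ × ℝ → ℝ}

/-- multiplication by the indicator of one of two disjoint open sets carrying the support -/
theorem Cc_cut {N₁ N₂ : Set (ℝ × ℝ)} (hN₁ : IsOpen N₁) (hN₂ : IsOpen N₂) (hd : Disjoint N₁ N₂)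
    (hs : Sup W (N₁ ∪ N₂) f) (hf : Cc 𝓗 W f) : Cc 𝓗 W (N₁.indicator f) := by
  classical
  obtain ⟨S, hS, hSN, h0⟩ := hs
  refine ⟨hf.1.indicator (A := Sᶜ ∪ N₂) hN₁ (hS.isClosed.isOpen_compl.union hN₂) ?_
    inter_subset_left ?_, S, hS, ?_⟩
  · intro p _
    by_cases hp : p ∈ S
    · rcases hSN hp with h | h
      · exact Or.inl h
      · exact Or.inr (Or.inr h)
    · exact Or.inr (Or.inl hp)
  · rintro p ⟨⟨hpW, hp1⟩, h | h⟩
    · exact h0 p hpW h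
    · exact absurd h (Set.disjoint_left.1 hd hp1)
  · intro p hpW hpS
    by_cases hp : p ∈ N₁
    · rw [indicator_of_mem hp, h0 p hpW hpS]
    · rw [indicator_of_notMem hp]

theorem lip_cap {c : ℝ} (hc : 0 < c) (s t : ℝ) : |min s c / c - min t c / c| ≤ c⁻¹ * |s - t| := by
  rw [← sub_div, abs_div, abs_of_pos hc, div_eq_inv_mul]
  refine mul_le_mul_of_nonneg_left ?_ (inv_nonneg.2 hc.le)
  have := abs_min_sub_min_le_max s c t c
  simpa using this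

theorem TQ_cap (hE : QPic E 𝒬 𝓗) (hW : IsOpen W) (hWc : Convex ℝ W) (hf : Cc 𝓗 W f) {c : ℝ}
    (hc : 0 < c) : TQ E W 𝒬 (fun x => min (f x) c / c) ≤ TQ E W 𝒬 f / c ^ 2 := by
  have e2 := Ch_comp_le (𝒬 := 𝒬) hE hWc hf.1 (G := fun t => min t c / c)
    (inv_nonneg.2 hc.le) (lip_cap hc)
  obtain ⟨h1, S, hS, h2⟩ := hf
  obtain ⟨R, hR, hRv, hRW, hRE⟩ := transfer hE hW hS
  have hm := h1.mono (Subset.refl 𝓗) (hRW.trans sdiff_subset)
  have e1 : En R (fun x => min (f x) c / c) ≤ (c⁻¹) ^ 2 * En R f := by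
    have e3 : En R (fun q => Min.min (f q) ((fun _ : ℝ × ℝ => c) q)) ≤
        En R f + En R (fun _ : ℝ × ℝ => c) := hm.En_min_le hR hRv (CFJ_const c)
    rw [En_const, add_zero] at e3
    have e4 : En R (fun q => c⁻¹ * min (f q) c) = (c⁻¹) ^ 2 * En R (fun q => min (f q) c) :=
      (hm.min (CFJ_const c)).En_const_mul hR c⁻¹
    have e5 : (fun x => min (f x) c / c) = fun q => c⁻¹ * min (f q) c := by
      funext x; rw [div_eq_inv_mul]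
    rw [e5, e4]
    exact mul_le_mul_of_nonneg_left e3 (sq_nonneg _)
  unfold TQ
  rw [hRE f h2, hRE (fun x => min (f x) c / c) fun p hp hpS => by
    rw [h2 p hp hpS, min_eq_left hc.le, zero_div]]
  have e6 : (c⁻¹) ^ 2 * En R f + (c⁻¹) ^ 2 * Ch E W 𝒬 f = (En R f + Ch E W 𝒬 f) / c ^ 2 := by
    rw [inv_pow]; field_simp
  rw [← e6]
  exact add_le_add e1 e2

/-- locality of the gradient part -/
theorem En_loc (hE : QPic E 𝒬 𝓗) (hW : IsOpen W) {Z w z : ℝ × ℝ → ℝ} (hZ : Cc 𝓗 W Z)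
    (hw : Cc 𝓗 W w) (hz : Cc 𝓗 W z)
    (hloc : ∀ x ∈ W \ E, ∃ O, IsOpen O ∧ x ∈ O ∧
      ((∀ y ∈ O ∩ (W \ E), z y = 1 + w y) ∨ ∀ y ∈ O ∩ (W \ E), z y = max (Z y) (w y))) :
    En (W \ E) z ≤ En (W \ E) Z + En (W \ E) w := by
  obtain ⟨S, hS, h1, h2⟩ := hZ.two hw
  obtain ⟨-, T, hT, h3⟩ := hz
  obtain ⟨R, hR, hRv, hRW, hRE⟩ := transfer hE hW (hS.union hT)
  rw [hRE Z fun p hp hpS => h1 p hp fun h => hpS (Or.inl h),
    hRE w fun p hp hpS => h2 p hp fun h => hpS (Or.inl h),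
    hRE z fun p hp hpS => h3 p hp fun h => hpS (Or.inr h)]
  obtain ⟨J, hJ, ⟨L, C, hL, hs, -⟩, ⟨L', C', hL', hs', -⟩⟩ := hZ.1.two hw.1
  have hU : IsOpen (W \ cut J) := isOpen_diff_cut hW J
  have hRc : R \ cut J ⊆ W \ cut J := sdiff_subset_sdiff_left (hRW.trans sdiff_subset)
  have i1 : IntegrableOn (g2 Z) R :=
    (hs.mono hRc).integrableOn_g2 hR (isClosed_cut J) (volume_cut J) hRv
  have i2 : IntegrableOn (g2 w) R :=
    (hs'.mono hRc).integrableOn_g2 hR (isClosed_cut J) (volume_cut J) hRv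
  have hmain : ∀ᵐ p ∂(volume.restrict R), g2 z p ≤ g2 Z p + g2 w p := by
    refine ae_restrict_of_diff hR (volume_cut J) ?_
    filter_upwards [hs.ae_max_min hs' hU] with p hp hpR
    have hpW : p ∈ W \ E := hRW hpR.1
    obtain ⟨-, -, ha, hb⟩ := hp (hRc hpR)
    obtain ⟨O, hO, hpO, hO2⟩ := hloc p hpW
    have hWE : IsOpen (W \ E) := hW.sdiff hE.cpt.isClosed
    have hnh : O ∩ (W \ E) ∈ 𝓝 p := (hO.inter hWE).mem_nhds ⟨hpO, hpW⟩
    have n1 := g2_nonneg Z p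
    have n2 := g2_nonneg w p
    rcases hO2 with h | h
    · have he : z =ᶠ[𝓝 p] fun y => 1 + w y := by
        filter_upwards [hnh] with y hy using h y hy
      have e : g2 z p = g2 w p := by
        unfold g2
        rw [gx_congr he, gy_congr he]
        simp only [gx, gy, fderiv_const_add]
      linarith
    · have he : z =ᶠ[𝓝 p] fun y => max (Z y) (w y) := by
        filter_upwards [hnh] with y hy using h y hy
      have e : g2 z p = g2 (fun y => max (Z y) (w y)) p := by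
        unfold g2
        rw [gx_congr he, gy_congr he]
      rw [e]
      rcases le_total (w p) (Z p) with h' | h'
      · obtain ⟨a1, a2, -, -⟩ := ha h'
        have : g2 (fun y => max (Z y) (w y)) p = g2 Z p := by unfold g2; rw [a1, a2]
        linarith
      · obtain ⟨a1, a2, -, -⟩ := hb h'
        have : g2 (fun y => max (Z y) (w y)) p = g2 w p := by unfold g2; rw [a1, a2]
        linarith
  unfold En
  rw [← integral_add i1 i2]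
  exact integral_mono_of_nonneg (Eventually.of_forall fun p => g2_nonneg z p) (i1.add i2) hmain

/-- locality of `TQ` -/
theorem TQ_loc (hE : QPic E 𝒬 𝓗) (hW : IsOpen W) (hWc : Convex ℝ W) {H : Set (Set (ℝ × ℝ))}
    (hH : ∀ Q ∈ 𝒬, ∃ K ∈ H, Q.car ⊆ K) {Z w z : ℝ × ℝ → ℝ} (hZ : Cc 𝓗 W Z)
    (hw : Cc 𝓗 W w) (hz : Cc 𝓗 W z) (hloc : Loc H (W \ E) Z w z) :
    TQ E W 𝒬 z ≤ TQ E W 𝒬 Z + TQ E W 𝒬 w := by
  have e1 : En (W \ E) z ≤ En (W \ E) Z + En (W \ E) w := by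
    refine En_loc hE hW hZ hw hz fun x hx => ?_
    obtain ⟨O, hO, hxO, h⟩ := hloc {x} (Or.inr ⟨x, hx, rfl⟩)
    exact ⟨O, hO, singleton_subset_iff.1 hxO, h⟩
  have e2 : Ch E W 𝒬 z ≤ Ch E W 𝒬 Z + Ch E W 𝒬 w := by
    have := Ch_le_of_le (a := 1) (b := 1) hE hWc hz.1 hZ.1 hw.1 (fun Q hQ => by
      obtain ⟨K, hK, hQK⟩ := hH Q hQ
      obtain ⟨O, hO, hKO, h⟩ := hloc K (Or.inl hK)
      have hPO : Q.car ∩ closure W ⊆ O := inter_subset_left.trans (hQK.trans hKO)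
      have n1 : 0 ≤ ch E W Z Q := ch_nonneg _ _ _ _
      have n2 : 0 ≤ ch E W w Q := ch_nonneg _ _ _ _
      have n3 : 0 ≤ ch E W z Q := ch_nonneg _ _ _ _
      have conv : ∀ q ∈ O ∩ (Eᶜ ∩ W), q ∈ O ∩ (W \ E) := fun q hq => ⟨hq.1, hq.2.2, hq.2.1⟩
      rcases h with h | h
      · have k1 : ch E W z Q = chg (Eᶜ ∩ W) (Q.car ∩ closure W) (fun q => 1 + w q) :=
          chg_congr hO hPO fun q hq => h q (conv q hq)
        have k2 : chg (Eᶜ ∩ W) (Q.car ∩ closure W) (fun q => 1 + w q) ≤ 1 * ch E W w Q :=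
          chg_comp (G := fun t => 1 + t) zero_le_one (fun s t => by simp)
            (CFJ.fin hE hw.1 _)
        have k3 : ch E W z Q ≤ ch E W w Q := by rw [k1]; linarith
        nlinarith [pow_le_pow_left₀ n3 k3 2, sq_nonneg (ch E W Z Q)]
      · have k1 : ch E W z Q = chg (Eᶜ ∩ W) (Q.car ∩ closure W) (fun q => max (Z q) (w q)) :=
          chg_congr hO hPO fun q hq => h q (conv q hq)
        have k2 : chg (Eᶜ ∩ W) (Q.car ∩ closure W) (fun q => max (Z q) (w q)) ≤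
            max (ch E W Z Q) (ch E W w Q) :=
          chg_max (CFJ.fin hE hZ.1 _) (CFJ.fin hE hw.1 _)
        have k3 : ch E W z Q ≤ max (ch E W Z Q) (ch E W w Q) := by rw [k1]; exact k2
        rcases le_max_iff.1 k3 with k | k
        · nlinarith [pow_le_pow_left₀ n3 k 2, sq_nonneg (ch E W w Q)]
        · nlinarith [pow_le_pow_left₀ n3 k 2, sq_nonneg (ch E W Z Q)])
    linarith
  unfold TQ
  linarith

/-- the class of the finite layer lemma for `TQ`. -/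
noncomputable def lclsQ (hE : QPic E 𝒬 𝓗) (hW : IsOpen W) (hWc : Convex ℝ W)
    {H : Set (Set (ℝ × ℝ))} (hH : ∀ Q ∈ 𝒬, ∃ K ∈ H, Q.car ⊆ K) : LCls H W (W \ E) where
  P := Cc 𝓗 W
  E := TQ E W 𝒬
  zero := Cc_zero
  E_zero := (TQ_zero (E := E) (W := W) (𝒬 := 𝒬)).le
  add := fun _ _ hf hg => hf.add hg
  sup := fun _ _ hf hg => hf.max hg
  cut := fun _ _ _ h1 h2 hd hs hf => Cc_cut h1 h2 hd hs hf
  cap := fun _ hf _ c hc => hf.comp (G := fun t => min t c / c) (inv_nonneg.2 hc.le)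
    (lip_cap hc) (by simp only [min_eq_left hc.le, zero_div])
  E_cap := fun _ hf _ _ hc => TQ_cap hE hW hWc hf hc
  E_loc := fun _ _ _ hZ hw hz _ _ _ h => TQ_loc hE hW hWc hH hZ hw hz h

/-- the components of `E` -/
def Cmp (E : Set (ℝ × ℝ)) : Set (Set (ℝ × ℝ)) := {P | ∃ p ∈ E, P = connectedComponentIn E p}

theorem sqr_sub_cmp (hE : QPic E 𝒬 𝓗) : ∀ Q ∈ 𝒬, ∃ K ∈ Cmp E, Q.car ⊆ K := by
  intro Q hQ
  obtain ⟨q, hq⟩ := Q.nonempty
  exact ⟨_, ⟨q, hE.sub Q hQ hq, rfl⟩,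
    Q.convex_car.isPreconnected.subset_connectedComponentIn hq (hE.sub Q hQ)⟩

/-- one half of a test pair with charges: class, range, support in `N`, energy `≤ ε` -/
structure HalfQ (E W : Set (ℝ × ℝ)) (𝒬 : Set Sqr) (𝓗 : Set Hair) (N : Set (ℝ × ℝ)) (ε : ℝ)
    (z : ℝ × ℝ → ℝ) : Prop where
  cf : CFJ 𝓗 W z
  rg : ∀ p, 0 ≤ z p ∧ z p ≤ 1
  sp : ∃ S, IsCompact S ∧ S ⊆ N ∧ ∀ p ∈ W, p ∉ S → z p = 0
  en : TQ E W 𝒬 z ≤ ε

/-- a test pair with charges for the family `𝒢` of components -/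
structure PairQ (E W W' : Set (ℝ × ℝ)) (𝒬 : Set Sqr) (𝓗 : Set Hair) (𝒢 : Set (Set (ℝ × ℝ)))
    (N : Set (ℝ × ℝ)) (ε : ℝ) (zm zp : ℝ × ℝ → ℝ) : Prop where
  m : HalfQ E W 𝒬 𝓗 N ε zm
  p : HalfQ E W' 𝒬 𝓗 N ε zp
  key : ∀ K ∈ 𝒢, ∃ O, IsOpen O ∧ K ⊆ O ∧
    ∀ p ∈ O \ E, p ∈ W → ∀ q ∈ O \ E, q ∈ W' → (9 / 10 : ℝ) ≤ zm p + zp q

theorem HalfQ.cc {N : Set (ℝ × ℝ)} {ε : ℝ} {z : ℝ × ℝ → ℝ} (h : HalfQ E W 𝒬 𝓗 N ε z) :
    Cc 𝓗 W z := by
  obtain ⟨S, h1, -, h3⟩ := h.sp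
  exact ⟨h.cf, S, h1, h3⟩

theorem bdd_of_pairs (hE : QPic E 𝒬 𝓗) (hW : IsOpen W) (hWc : Convex ℝ W) (hW' : IsOpen W')
    (hWc' : Convex ℝ W') {𝒢 : Set (Set (ℝ × ℝ))} {A : ℝ}
    (hpair : ∀ N, IsOpen N → (∀ K ∈ 𝒢, K ⊆ N) → ∃ zm zp, PairQ E W W' 𝒬 𝓗 𝒢 N A zm zp) :
    Bdd (lclsQ hE hW hWc (sqr_sub_cmp hE)) (lclsQ hE hW' hWc' (sqr_sub_cmp hE)) 𝒢 (9 * A) := by
  intro N hN hGN
  obtain ⟨zm, zp, h⟩ := hpair N hN hGN
  have h3 : (0 : ℝ) < 1 / 3 := by norm_num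
  have hc : ∀ {u : ℝ × ℝ → ℝ}, (∀ p, 0 ≤ u p ∧ u p ≤ 1) →
      ∀ x, 0 ≤ min (u x) (1 / 3) / (1 / 3) ∧ min (u x) (1 / 3) / (1 / 3) ≤ 1 := by
    intro u hu x
    refine ⟨div_nonneg (le_min (hu x).1 h3.le) h3.le, ?_⟩
    rw [div_le_one h3]
    exact min_le_right _ _
  have hsup : ∀ {Q : Set (ℝ × ℝ)} {u : ℝ × ℝ → ℝ}, (∃ S, IsCompact S ∧ S ⊆ N ∧
      ∀ p ∈ Q, p ∉ S → u p = 0) → Sup Q N fun x => min (u x) (1 / 3) / (1 / 3) := by
    rintro Q u ⟨S, h1, h2, h4⟩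
    exact ⟨S, h1, h2, fun p hp hpS => by simp only [h4 p hp hpS, min_eq_left h3.le, zero_div]⟩
  have hen : ∀ {e : ℝ}, e ≤ A → e / (1 / 3 : ℝ) ^ 2 ≤ 9 * A := by
    intro e he
    have : e / (1 / 3 : ℝ) ^ 2 = 9 * e := by ring
    rw [this]; linarith
  refine ⟨fun x => min (zm x) (1 / 3) / (1 / 3), fun x => min (zp x) (1 / 3) / (1 / 3),
    (lclsQ hE hW hWc (sqr_sub_cmp hE)).cap _ h.m.cc (fun x => (h.m.rg x).1) _ h3,
    (lclsQ hE hW' hWc' (sqr_sub_cmp hE)).cap _ h.p.cc (fun x => (h.p.rg x).1) _ h3,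
    hc h.m.rg, hc h.p.rg, hsup h.m.sp, hsup h.p.sp,
    (TQ_cap hE hW hWc h.m.cc h3).trans (hen h.m.en),
    (TQ_cap hE hW' hWc' h.p.cc h3).trans (hen h.p.en), ?_⟩
  intro K hK
  obtain ⟨O, hO, hKO, hk⟩ := h.key K hK
  refine ⟨O, hO, hKO, ?_⟩
  by_cases hcase : ∀ x ∈ O ∩ (W \ E), 1 / 3 ≤ zm x
  · left
    intro x hx
    simp only [min_eq_right (hcase x hx), div_self h3.ne']
  · right
    push Not at hcase
    obtain ⟨p, hp, hp3⟩ := hcase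
    intro x hx
    have h5 := hk p ⟨hp.1, hp.2.2⟩ hp.2.1 x ⟨hx.1, hx.2.2⟩ hx.2.1
    have h6 : 1 / 3 ≤ zp x := by linarith
    simp only [min_eq_right h6, div_self h3.ne']

/-- variation near a component ⟹ `OscLe` -/
theorem oscLe_of_var {P V : Set (ℝ × ℝ)} {z : ℝ × ℝ → ℝ} {r : ℝ}
    (h : ∃ c : ℝ, ∃ O, IsOpen O ∧ P ⊆ O ∧ ∀ x ∈ O ∩ V, c ≤ z x ∧ z x ≤ c + r) :
    OscLe V P z r := by
  obtain ⟨c, O, hO, hPO, hc⟩ := h
  intro ε hε
  refine ⟨O, hO, hPO, fun q hq q' hq' => ?_⟩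
  have h1 := hc q hq
  have h2 := hc q' hq'
  rw [abs_le]
  constructor <;> linarith [h1.1, h1.2, h2.1, h2.2]

/-- **LAY-Q** ((5) of #10005, from UNIFORMLY BOUNDED conductance). -/
theorem layQ (hE : QPic E 𝒬 𝓗) (hW : IsOpen W) (hWc : Convex ℝ W) (hW' : IsOpen W')
    (hWc' : Convex ℝ W') {𝒢 : Set (Set (ℝ × ℝ))} (hG : 𝒢 ⊆ Cmp E) (hc : IsCompact (⋃₀ 𝒢))
    {A : ℝ} (hA : 0 ≤ A)
    (hpair : ∀ N, IsOpen N → ⋃₀ 𝒢 ⊆ N → ∃ zm zp, PairQ E W W' 𝒬 𝓗 𝒢 N A zm zp)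
    {M : ℕ} (hM : 1 ≤ M) {N : Set (ℝ × ℝ)} (hN : IsOpen N) (hGN : ⋃₀ 𝒢 ⊆ N) :
    ∃ zm zp, HalfQ E W 𝒬 𝓗 N (18 * A / M) zm ∧ HalfQ E W' 𝒬 𝓗 N (18 * A / M) zp ∧
      (∀ P ∈ Cmp E, OscLe (Eᶜ ∩ W) P zm (1 / M)) ∧
      (∀ P ∈ Cmp E, OscLe (Eᶜ ∩ W') P zp (1 / M)) ∧
      ∀ K ∈ 𝒢, (∃ O, IsOpen O ∧ K ⊆ O ∧ ∀ p ∈ O \ E, p ∈ W → zm p = 1) ∨
        ∃ O, IsOpen O ∧ K ⊆ O ∧ ∀ p ∈ O \ E, p ∈ W' → zp p = 1 := by
  have hb := bdd_of_pairs hE hW hWc hW' hWc' (𝒢 := 𝒢) (A := A)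
    (fun N hN h => hpair N hN (sUnion_subset h))
  obtain ⟨z, z', h1, h2, h3, h4, h5, h6, h7, h8, h9, h10, h11⟩ :=
    layersF (lclsQ hE hW hWc (sqr_sub_cmp hE)) (lclsQ hE hW' hWc' (sqr_sub_cmp hE))
      sdiff_subset sdiff_subset
      (split_of_compact hE.cpt (fun K hK => hK) (fun K hK => hG hK) hc) (by positivity) hb hM hN
      (fun K hK => (subset_sUnion_of_mem hK).trans hGN)
  have hA' : 2 * (9 * A) / (M : ℝ) = 18 * A / M := by ring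
  have hV : ∀ Q : Set (ℝ × ℝ), Eᶜ ∩ Q = Q \ E := fun Q => by
    rw [inter_comm, sdiff_eq]
  refine ⟨z, z', ⟨h1.1, h3, h5, by rw [← hA']; exact h7⟩, ⟨h2.1, h4, h6, by rw [← hA']; exact h8⟩,
    fun P hP => ?_, fun P hP => ?_, fun K hK => ?_⟩
  · rw [hV]; exact oscLe_of_var (h9 P hP)
  · rw [hV]; exact oscLe_of_var (h10 P hP)
  · obtain ⟨O, hO, hKO, h | h⟩ := h11 K hK
    · exact Or.inl ⟨O, hO, hKO, fun p hp hpW => h p ⟨hp.1, hpW, hp.2⟩⟩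
    · exact Or.inr ⟨O, hO, hKO, fun p hp hpW => h p ⟨hp.1, hpW, hp.2⟩⟩

end Crest.Agent.R105.Fnc_189
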