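import Crest.Agent.R105.Skst2_49
import Crest.Agent.R105.Cq2_463
import Crest.Agent.R105.Thin1_891
import Crest.Agent.R105.Exs0_992
import Crest.Agent.R105.Cq8_463
import Crest.Agent.R105.Nal0_649
import Crest.Agent.R105.Famq1_306
import Crest.Agent.R105.Fnc3_189

-- ▼ part R105/Stq1_188
section

/-!
# Row 105 (S0138, solids): the one-sided function of a thin neighbourhood of a hair

`Φ = χ(y)` on the right half of a thin neighbourhood `N` of a hair `K` (frontier of `N` off `E`),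
cut off inside the domain. On `E` it is locally independent of `x`, so squares contribute nothing
to `∫ Φ_x`.
-/

set_option autoImplicit false

namespace Crest.Agent.R105.Stq_188

open Set Filter MeasureTheory Topology Metric
open CF_363 Stp_722 Skst2_49
open scoped ENNReal NNReal

/-- cut-off: `1` at distance `≥ δ` from the complement of `N` -/
noncomputable def cfN (N : Set (ℝ × ℝ)) (δ : ℝ) (p : ℝ × ℝ) : ℝ := min 1 (infDist p Nᶜ / δ)

theorem cfN_nonneg {N : Set (ℝ × ℝ)} {δ : ℝ} (hδ : 0 < δ) (p : ℝ × ℝ) : 0 ≤ cfN N δ p :=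
  le_min zero_le_one (div_nonneg infDist_nonneg hδ.le)

theorem cfN_le_one {N : Set (ℝ × ℝ)} {δ : ℝ} (p : ℝ × ℝ) : cfN N δ p ≤ 1 := min_le_left _ _

theorem cfN_lip {N : Set (ℝ × ℝ)} {δ : ℝ} (hδ : 0 < δ) (p q : ℝ × ℝ) :
    |cfN N δ p - cfN N δ q| ≤ δ⁻¹ * dist p q := by
  have h1 : |infDist p Nᶜ / δ - infDist q Nᶜ / δ| ≤ δ⁻¹ * dist p q := by
    rw [← sub_div, abs_div, abs_of_pos hδ, div_eq_inv_mul]
    refine mul_le_mul_of_nonneg_left ?_ (inv_nonneg.2 hδ.le)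
    rw [abs_sub_le_iff]
    constructor
    · linarith [infDist_le_infDist_add_dist (s := Nᶜ) (x := p) (y := q)]
    · have := infDist_le_infDist_add_dist (s := Nᶜ) (x := q) (y := p)
      rw [dist_comm] at this; linarith
  refine le_trans ?_ h1
  have h2 := abs_min_sub_min_le_max 1 (infDist p Nᶜ / δ) 1 (infDist q Nᶜ / δ)
  rw [sub_self, abs_zero, max_eq_right (abs_nonneg _)] at h2
  exact h2

theorem cfN_zero {N : Set (ℝ × ℝ)} {δ : ℝ} {p : ℝ × ℝ} (hp : p ∉ N) : cfN N δ p = 0 := by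
  have : infDist p Nᶜ = 0 := infDist_zero_of_mem hp
  simp [cfN, this]

theorem cfN_one {N : Set (ℝ × ℝ)} {δ : ℝ} (hδ : 0 < δ) {p : ℝ × ℝ} (hp : δ ≤ infDist p Nᶜ) :
    cfN N δ p = 1 := by
  rw [cfN, min_eq_left]
  rwa [one_le_div hδ]

/-- the Lipschitz profile -/
noncomputable def GN (K : Hair) (N : Set (ℝ × ℝ)) (δ : ℝ) (p : ℝ × ℝ) : ℝ := tent K p.2 * cfN N δ p

/-- the one-sided function -/
noncomputable def PhN (K : Hair) (N : Set (ℝ × ℝ)) (δ : ℝ) (p : ℝ × ℝ) : ℝ :=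
  if K.x < p.1 then GN K N δ p else 0

theorem GN_nonneg (K : Hair) {N : Set (ℝ × ℝ)} {δ : ℝ} (hδ : 0 < δ) (p : ℝ × ℝ) :
    0 ≤ GN K N δ p := mul_nonneg (tent_nonneg _ _) (cfN_nonneg hδ _)

theorem GN_le_tent (K : Hair) {N : Set (ℝ × ℝ)} {δ : ℝ} (p : ℝ × ℝ) :
    GN K N δ p ≤ tent K p.2 := mul_le_of_le_one_right (tent_nonneg _ _) (cfN_le_one _)

theorem PhN_nonneg (K : Hair) {N : Set (ℝ × ℝ)} {δ : ℝ} (hδ : 0 < δ) (p : ℝ × ℝ) :
    0 ≤ PhN K N δ p := by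
  unfold PhN; split_ifs
  · exact GN_nonneg K hδ p
  · exact le_rfl

theorem PhN_le_tent (K : Hair) {N : Set (ℝ × ℝ)} {δ : ℝ} (p : ℝ × ℝ) :
    PhN K N δ p ≤ tent K p.2 := by
  unfold PhN; split_ifs
  · exact GN_le_tent K p
  · exact tent_nonneg _ _

theorem PhN_le_one (K : Hair) {N : Set (ℝ × ℝ)} {δ : ℝ} (p : ℝ × ℝ) : PhN K N δ p ≤ 1 :=
  (PhN_le_tent K p).trans (tent_le_one _ _)

theorem PhN_zero (K : Hair) {N : Set (ℝ × ℝ)} {δ : ℝ} {p : ℝ × ℝ} (hp : p ∉ N) :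
    PhN K N δ p = 0 := by
  unfold PhN GN; rw [cfN_zero hp]; simp

/-- Lipschitz constant of the tent -/
noncomputable def Mt (K : Hair) : ℝ := ((K.t - K.b) / 2)⁻¹

theorem Mt_nonneg (K : Hair) : 0 ≤ Mt K := inv_nonneg.2 (by have := K.hbt; linarith)

theorem GN_lip (K : Hair) {N : Set (ℝ × ℝ)} {δ : ℝ} (hδ : 0 < δ) (p q : ℝ × ℝ) :
    |GN K N δ p - GN K N δ q| ≤ (Mt K + δ⁻¹) * dist p q := by
  have h1 : GN K N δ p - GN K N δ q = (tent K p.2 - tent K q.2) * cfN N δ p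
      + tent K q.2 * (cfN N δ p - cfN N δ q) := by unfold GN; ring
  have h2 : |tent K p.2 - tent K q.2| ≤ Mt K * dist p q :=
    (tent_lip K p.2 q.2).trans (mul_le_mul_of_nonneg_left
      (by rw [Prod.dist_eq, ← Real.dist_eq]; exact le_max_right _ _) (Mt_nonneg K))
  calc |GN K N δ p - GN K N δ q| ≤ |(tent K p.2 - tent K q.2) * cfN N δ p|
        + |tent K q.2 * (cfN N δ p - cfN N δ q)| := by rw [h1]; exact abs_add_le _ _
    _ ≤ |tent K p.2 - tent K q.2| * 1 + 1 * |cfN N δ p - cfN N δ q| := by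
        rw [abs_mul, abs_mul, abs_of_nonneg (cfN_nonneg hδ p), abs_of_nonneg (tent_nonneg K _)]
        gcongr
        · exact cfN_le_one p
        · exact tent_le_one _ _
    _ ≤ Mt K * dist p q + δ⁻¹ * dist p q := by
        rw [mul_one, one_mul]; exact add_le_add h2 (cfN_lip hδ p q)
    _ = _ := by ring

theorem GN_lipschitz (K : Hair) {N : Set (ℝ × ℝ)} {δ : ℝ} (hδ : 0 < δ) :
    LipschitzWith (Mt K + δ⁻¹).toNNReal (GN K N δ) := by
  refine LipschitzWith.of_dist_le_mul fun p q => ?_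
  rw [Real.dist_eq, Real.coe_toNNReal _ (add_nonneg (Mt_nonneg K) (inv_nonneg.2 hδ.le))]
  exact GN_lip K hδ p q

/-- **thin neighbourhood data** -/
structure TN (E : Set (ℝ × ℝ)) (K : Hair) (N : Set (ℝ × ℝ)) (δ : ℝ) : Prop where
  δ0 : 0 < δ
  op : IsOpen N
  bd : Bornology.IsBounded N
  car : K.car ⊆ E ∩ N
  deep : ∀ p ∈ E ∩ N, 2 * δ ≤ infDist p Nᶜ
  far : Disjoint E (frontier N)

variable {E N : Set (ℝ × ℝ)} {K : Hair} {δ : ℝ}

theorem exists_TN (hE : IsCompact E) (hN : IsOpen N) (hb : Bornology.IsBounded N)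
    (hK : K.car ⊆ E ∩ N) (hf : Disjoint E (frontier N)) : ∃ δ, TN E K N δ := by
  have hne : (Nᶜ : Set (ℝ × ℝ)).Nonempty := by
    by_contra h
    rw [not_nonempty_iff_eq_empty, compl_empty_iff] at h
    rw [h] at hb
    exact NormedSpace.unbounded_univ ℝ (ℝ × ℝ) hb
  have hEN : E ∩ N = E ∩ closure N := by
    refine Subset.antisymm (inter_subset_inter_right _ subset_closure) ?_
    rintro p ⟨hp, hpc⟩
    refine ⟨hp, ?_⟩
    by_contra hn
    exact disjoint_left.1 hf hp ⟨hpc, fun h => hn (interior_subset h)⟩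
  have hcomp : IsCompact (E ∩ N) := by rw [hEN]; exact hE.inter_right isClosed_closure
  have hpos : ∀ p ∈ E ∩ N, 0 < infDist p Nᶜ := by
    intro p hp
    rw [← (hN.isClosed_compl.notMem_iff_infDist_pos hne)]
    exact fun h => h hp.2
  have hKne : (E ∩ N).Nonempty :=
    ⟨(K.x, K.b), hK ⟨rfl, le_rfl, K.hbt.le⟩⟩
  obtain ⟨p, hp, hmin⟩ := hcomp.exists_isMinOn hKne (continuous_infDist_pt Nᶜ).continuousOn
  refine ⟨infDist p Nᶜ / 2, by linarith [hpos p hp], hN, hb, hK, fun q hq => ?_, hf⟩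
  have := hmin hq
  simp only [mem_ofPred_eq] at this
  linarith

/-- near every point of `E ∩ N` the cut-off is one -/
theorem TN.near_one (h : TN E K N δ) : ∃ O, IsOpen O ∧ E ∩ N ⊆ O ∧ ∀ p ∈ O, cfN N δ p = 1 := by
  refine ⟨{p | δ < infDist p Nᶜ}, isOpen_lt continuous_const (continuous_infDist_pt _),
    fun p hp => ?_, fun p hp => cfN_one h.δ0 (le_of_lt hp)⟩
  have := h.deep p hp
  have h0 := h.δ0
  simp only [mem_ofPred_eq]
  linarith

/-- near every point of `E \ N` the function vanishes -/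
theorem TN.near_zero (h : TN E K N δ) : ∃ O, IsOpen O ∧ E \ N ⊆ O ∧ ∀ p ∈ O, PhN K N δ p = 0 := by
  refine ⟨(closure N)ᶜ, isClosed_closure.isOpen_compl, fun p hp hc => ?_,
    fun p hp => PhN_zero K fun h' => hp (subset_closure h')⟩
  exact disjoint_left.1 h.far hp.1 ⟨hc, fun h' => hp.2 (interior_subset h')⟩

theorem TN.GN_line (h : TN E K N δ) (y : ℝ) : GN K N δ (K.x, y) = tent K y := by
  unfold GN
  by_cases hy : y ∈ Icc K.b K.t
  · have h1 : (K.x, y) ∈ E ∩ N := h.car ⟨rfl, hy.1, hy.2⟩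
    obtain ⟨O, -, hO, hO1⟩ := h.near_one
    rw [hO1 _ (hO h1), mul_one]
  · rw [tent_zero K hy, zero_mul]

theorem TN.cf (h : TN E K N δ) : CF K.carᶜ (PhN K N δ) := by
  have hL : 0 ≤ Mt K + δ⁻¹ := add_nonneg (Mt_nonneg K) (inv_nonneg.2 h.δ0.le)
  refine ⟨Mt K + δ⁻¹, 1, hL, ?_, fun p _ => ?_⟩
  · exact SL_side_right K (χ := tent K) hL (fun p q _ _ => GN_lip K h.δ0 p q) h.GN_line
      (fun y hy => tent_zero K hy)
  · rw [abs_of_nonneg (PhN_nonneg K h.δ0 p)]; exact PhN_le_one K p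

theorem TN.cfj (h : TN E K N δ) {𝓗 : Set Hair} (hK : K ∈ 𝓗) : CFJ 𝓗 univ (PhN K N δ) := by
  refine ⟨{K}, by simpa using hK, ?_⟩
  have h1 : (univ \ cut {K} : Set (ℝ × ℝ)) = K.carᶜ := by
    rw [cut_eq_biUnion]; simp [compl_eq_univ_sdiff]
  rw [h1]; exact h.cf

theorem TN.cpt (h : TN E K N δ) : HasCompactSupport (PhN K N δ) :=
  HasCompactSupport.intro (K := closure N) h.bd.isCompact_closure fun _ hp =>
    PhN_zero K fun h' => hp (subset_closure h')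

/-! ### the integral -/

theorem gx_snd (χ : ℝ → ℝ) (p : ℝ × ℝ) : gx (fun q : ℝ × ℝ => χ q.2) p = 0 := by
  by_cases hd : DifferentiableAt ℝ (fun q : ℝ × ℝ => χ q.2) p
  · have h1 := gx_eq_deriv (f := fun q : ℝ × ℝ => χ q.2) (x := p.1) (y := p.2) hd
    exact h1.unique (hasDerivAt_const p.1 (χ p.2))
  · simp [gx, fderiv_zero_of_not_differentiableAt hd]

/-- on `E`, off the vertical line, the horizontal derivative vanishes -/
theorem TN.gx_E (h : TN E K N δ) {p : ℝ × ℝ} (hp : p ∈ E) (hx : p.1 ≠ K.x) :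
    gx (PhN K N δ) p = 0 := by
  by_cases hpN : p ∈ N
  · obtain ⟨O, hO, hEO, hO1⟩ := h.near_one
    have h1 : ∀ᶠ q in 𝓝 p, q ∈ O := hO.mem_nhds (hEO ⟨hp, hpN⟩)
    rcases lt_or_gt_of_ne hx with hlt | hgt
    · have h2 : ∀ᶠ q : ℝ × ℝ in 𝓝 p, q.1 < K.x :=
        (continuous_fst.tendsto p).eventually (Iio_mem_nhds hlt)
      have h3 : PhN K N δ =ᶠ[𝓝 p] fun _ => (0 : ℝ) := by
        filter_upwards [h2] with q hq
        simp only [PhN, if_neg (not_lt.2 hq.le)]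
      rw [gx_congr h3, gx_const]
    · have h2 : ∀ᶠ q : ℝ × ℝ in 𝓝 p, K.x < q.1 :=
        (continuous_fst.tendsto p).eventually (Ioi_mem_nhds hgt)
      have h3 : PhN K N δ =ᶠ[𝓝 p] fun q => tent K q.2 := by
        filter_upwards [h1, h2] with q hq hq2
        simp only [PhN, if_pos hq2, GN, hO1 q hq, mul_one]
      rw [gx_congr h3, gx_snd]
  · obtain ⟨O, hO, hEO, hO1⟩ := h.near_zero
    have h3 : PhN K N δ =ᶠ[𝓝 p] fun _ => (0 : ℝ) := by
      filter_upwards [hO.mem_nhds (hEO ⟨hp, hpN⟩)] with q hq using hO1 q hq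
    rw [gx_congr h3, gx_const]

theorem ae_fst_ne (c : ℝ) : ∀ᵐ p : ℝ × ℝ, p.1 ≠ c := by
  have h3 : volume {p : ℝ × ℝ | p.1 = c} = 0 := by
    have : {p : ℝ × ℝ | p.1 = c} = {c} ×ˢ univ := by ext p; simp
    rw [this, Measure.volume_eq_prod, Measure.prod_prod]; simp
  have := measure_eq_zero_iff_ae_notMem.mp h3
  filter_upwards [this] with p hp using hp

/-- a.e. form: `Φ_x = 1_{x > K.x} G_x` -/
theorem gx_PhN : ∀ᵐ p : ℝ × ℝ, gx (PhN K N δ) p = {q : ℝ × ℝ | K.x < q.1}.indicator (gx (GN K N δ)) p := by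
  filter_upwards [ae_fst_ne K.x] with p hx
  rcases lt_or_gt_of_ne hx with hlt | hgt
  · have h2 : ∀ᶠ q : ℝ × ℝ in 𝓝 p, q.1 < K.x :=
      (continuous_fst.tendsto p).eventually (Iio_mem_nhds hlt)
    have h3 : PhN K N δ =ᶠ[𝓝 p] fun _ => (0 : ℝ) := by
      filter_upwards [h2] with q hq
      simp only [PhN, if_neg (not_lt.2 hq.le)]
    rw [gx_congr h3, gx_const, indicator_of_notMem (by simpa using hlt.le)]
  · have h2 : ∀ᶠ q : ℝ × ℝ in 𝓝 p, K.x < q.1 :=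
      (continuous_fst.tendsto p).eventually (Ioi_mem_nhds hgt)
    have h3 : PhN K N δ =ᶠ[𝓝 p] GN K N δ := by
      filter_upwards [h2] with q hq2
      simp only [PhN, if_pos hq2]
    rw [gx_congr h3, indicator_of_mem (by simpa using hgt)]

theorem TN.integral_gx (h : TN E K N δ) : ∫ p, gx (PhN K N δ) p = - ∫ y, tent K y := by
  obtain ⟨R, hR⟩ := h.bd.subset_closedBall (0 : ℝ × ℝ)
  set R' : ℝ := max R (K.x + 1) + 1 with hR'
  have hRx : K.x < R' := by rw [hR']; linarith [le_max_right R (K.x + 1)]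
  have hGz : ∀ p : ℝ × ℝ, R' ≤ p.1 ∨ (p ∉ closedBall (0 : ℝ × ℝ) R) → GN K N δ p = 0 := by
    intro p hp
    have : p ∉ N := by
      intro hN
      have h1 := hR hN
      rcases hp with hp | hp
      · rw [mem_closedBall, Prod.dist_eq] at h1
        have h2 := (le_max_left _ _).trans h1
        rw [Real.dist_eq, Prod.fst_zero, sub_zero] at h2
        have h3 := (le_abs_self p.1).trans h2
        rw [hR'] at hp
        linarith [le_max_left R (K.x + 1)]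
      · exact hp h1
    rw [GN, cfN_zero this, mul_zero]
  have hlip := GN_lipschitz K (N := N) h.δ0
  set L : ℝ := Mt K + δ⁻¹ with hLdef
  have hL : 0 ≤ L := add_nonneg (Mt_nonneg K) (inv_nonneg.2 h.δ0.le)
  have hSL : SL univ L (GN K N δ) := fun p q _ => GN_lip K h.δ0 p q
  have hgb : ∀ p, |gx (GN K N δ) p| ≤ L := fun p => hSL.abs_gx_le isOpen_univ hL (mem_univ p)
  -- integrability
  have hgz : ∀ p : ℝ × ℝ, p ∉ closedBall (0 : ℝ × ℝ) R → gx (GN K N δ) p = 0 := by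
    intro p hp
    have h3 : GN K N δ =ᶠ[𝓝 p] fun _ => (0 : ℝ) := by
      filter_upwards [isClosed_closedBall.isOpen_compl.mem_nhds hp] with q hq
      exact hGz q (Or.inr hq)
    rw [gx_congr h3, gx_const]
  have hint : Integrable (gx (GN K N δ)) (volume : Measure (ℝ × ℝ)) := by
    have h1 : IntegrableOn (gx (GN K N δ)) (closedBall (0 : ℝ × ℝ) R) volume := by
      refine Measure.integrableOn_of_bounded (M := L) ?_ (measurable_gx _).aestronglyMeasurable ?_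
      · exact (isCompact_closedBall (0 : ℝ × ℝ) R).measure_lt_top.ne
      · exact Eventually.of_forall fun p => by simpa using hgb p
    exact integrableOn_iff_integrable_of_support_subset (s := closedBall (0 : ℝ × ℝ) R)
      (fun p hp => by by_contra hc; exact hp (hgz p hc)) |>.1 h1
  have hms : MeasurableSet {q : ℝ × ℝ | K.x < q.1} :=
    measurableSet_lt measurable_const measurable_fst
  rw [integral_congr_ae gx_PhN, Measure.volume_eq_prod, integral_prod_symm _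
    (by rw [← Measure.volume_eq_prod]; exact hint.indicator hms)]
  rw [← integral_neg]
  refine integral_congr_ae ?_
  filter_upwards [hSL.ftc_x isOpen_univ] with y hy
  have h1 : ∀ x : ℝ, {q : ℝ × ℝ | K.x < q.1}.indicator (gx (GN K N δ)) (x, y) =
      (Ioc K.x R').indicator (fun x => gx (GN K N δ) (x, y)) x := by
    intro x
    by_cases hx : K.x < x
    · rw [indicator_of_mem (by simpa using hx)]
      by_cases hx2 : x ≤ R'
      · rw [indicator_of_mem (show x ∈ Ioc K.x R' from ⟨hx, hx2⟩)]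
      · rw [indicator_of_notMem (fun h => hx2 h.2)]
        push Not at hx2
        have h3 : GN K N δ =ᶠ[𝓝 (x, y)] fun _ => (0 : ℝ) := by
          have : ∀ᶠ q : ℝ × ℝ in 𝓝 (x, y), R' < q.1 :=
            (continuous_fst.tendsto (x, y)).eventually (Ioi_mem_nhds hx2)
          filter_upwards [this] with q hq
          exact hGz q (Or.inl hq.le)
        rw [gx_congr h3, gx_const]
    · rw [indicator_of_notMem (by simpa using hx), indicator_of_notMem (fun h => hx h.1)]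
  simp only [h1]
  rw [integral_indicator measurableSet_Ioc, ← intervalIntegral.integral_of_le hRx.le,
    ← hy K.x R' (fun _ _ => mem_univ _), hGz (R', y) (Or.inl le_rfl), h.GN_line, zero_sub]

theorem TN.integral_compl (h : TN E K N δ) :
    ∫ p in Eᶜ, gx (PhN K N δ) p = - ∫ y, tent K y := by
  rw [← h.integral_gx]
  refine setIntegral_eq_integral_of_ae_compl_eq_zero ?_
  filter_upwards [ae_fst_ne K.x] with p hx hp
  exact h.gx_E (by simpa using hp) hx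

/-! ### oscillations -/

/-- off the neighbourhood -/
theorem TN.osc_far (h : TN E K N δ) {P V : Set (ℝ × ℝ)} (hP : P ⊆ E \ N) :
    OscLe V P (PhN K N δ) 0 := by
  obtain ⟨O, hO, hEO, hO0⟩ := h.near_zero
  intro ε hε
  refine ⟨O, hO, hP.trans hEO, fun q hq q' hq' => ?_⟩
  rw [hO0 q hq.1, hO0 q' hq'.1]; simp [hε.le]

/-- to the left of the hair -/
theorem osc_left {P V : Set (ℝ × ℝ)} (hP : ∀ p ∈ P, p.1 < K.x) :
    OscLe V P (PhN K N δ) 0 := by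
  intro ε hε
  refine ⟨{p | p.1 < K.x}, isOpen_lt continuous_fst continuous_const, hP, fun q hq q' hq' => ?_⟩
  have a1 : q.1 < K.x := hq.1
  have a2 : q'.1 < K.x := hq'.1
  have h1 : PhN K N δ q = 0 := by simp only [PhN, if_neg (not_lt.2 a1.le)]
  have h2 : PhN K N δ q' = 0 := by simp only [PhN, if_neg (not_lt.2 a2.le)]
  rw [h1, h2]; simp [hε.le]

/-- at heights where the tent vanishes -/
theorem TN.osc_high (h : TN E K N δ) {P V : Set (ℝ × ℝ)} (hP : ∀ p ∈ P, p.2 ∉ Ioo K.b K.t) :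
    OscLe V P (PhN K N δ) 0 := by
  intro ε hε
  have hc : Continuous fun p : ℝ × ℝ => tent K p.2 := (continuous_tent K).comp continuous_snd
  refine ⟨{p | tent K p.2 < ε}, isOpen_lt hc continuous_const, fun p hp => ?_,
    fun q hq q' hq' => ?_⟩
  · have h1 : tent K p.2 = 0 := by
      by_cases h2 : p.2 ∈ Icc K.b K.t
      · have h3 : p.2 = K.b ∨ p.2 = K.t := by
          by_contra hne
          push Not at hne
          exact hP p hp ⟨lt_of_le_of_ne h2.1 (Ne.symm hne.1), lt_of_le_of_ne h2.2 hne.2⟩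
        have hbt := K.hbt
        refine ramp_eq_zero (by linarith) ?_
        rcases h3 with h3 | h3
        · rw [h3, abs_of_neg (by linarith)]; linarith
        · rw [h3, abs_of_pos (by linarith)]; linarith
      · exact tent_zero K h2
    simp only [mem_ofPred_eq, h1]; exact hε
  · have h1 := PhN_nonneg K (N := N) h.δ0 q
    have h2 := PhN_nonneg K (N := N) h.δ0 q'
    have h3 := (PhN_le_tent K (N := N) (δ := δ) q).trans_lt hq.1
    have h4 := (PhN_le_tent K (N := N) (δ := δ) q').trans_lt hq'.1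
    rw [zero_add, abs_sub_le_iff]
    constructor <;> linarith

/-- to the right of the hair, inside `N`: the oscillation is that of the tent -/
theorem TN.osc_right (h : TN E K N δ) {P V : Set (ℝ × ℝ)} (hP : P ⊆ E ∩ N)
    (hx : ∀ p ∈ P, K.x < p.1) {y0 y1 : ℝ} (hy : ∀ p ∈ P, y0 ≤ p.2 ∧ p.2 ≤ y1) :
    OscLe V P (PhN K N δ) (Mt K * (y1 - y0)) := by
  obtain ⟨O, hO, hEO, hO1⟩ := h.near_one
  intro ε hε
  set η : ℝ := ε / (2 * (Mt K + 1)) with hη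
  have hM := Mt_nonneg K
  have hη0 : 0 < η := by positivity
  refine ⟨O ∩ {p | K.x < p.1} ∩ {p | y0 - η < p.2} ∩ {p | p.2 < y1 + η},
    ((hO.inter (isOpen_lt continuous_const continuous_fst)).inter
      (isOpen_lt continuous_const continuous_snd)).inter (isOpen_lt continuous_snd continuous_const),
    fun p hp => ⟨⟨⟨hEO (hP hp), hx p hp⟩, ?_⟩, ?_⟩, fun q hq q' hq' => ?_⟩
  · simp only [mem_ofPred_eq]; linarith [(hy p hp).1]
  · simp only [mem_ofPred_eq]; linarith [(hy p hp).2]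
  · obtain ⟨⟨⟨⟨hq1, hq2⟩, hq3⟩, hq4⟩, -⟩ := hq
    obtain ⟨⟨⟨⟨hq1', hq2'⟩, hq3'⟩, hq4'⟩, -⟩ := hq'
    simp only [mem_ofPred_eq] at hq2 hq3 hq4 hq2' hq3' hq4'
    have e1 : PhN K N δ q = tent K q.2 := by simp only [PhN, if_pos hq2, GN, hO1 q hq1, mul_one]
    have e2 : PhN K N δ q' = tent K q'.2 := by
      simp only [PhN, if_pos hq2', GN, hO1 q' hq1', mul_one]
    rw [e1, e2]
    have h1 : |q.2 - q'.2| ≤ (y1 - y0) + 2 * η := by
      rw [abs_sub_le_iff]; constructor <;> linarith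
    calc |tent K q.2 - tent K q'.2| ≤ Mt K * |q.2 - q'.2| := tent_lip K _ _
      _ ≤ Mt K * ((y1 - y0) + 2 * η) := mul_le_mul_of_nonneg_left h1 hM
      _ = Mt K * (y1 - y0) + Mt K * (2 * η) := by ring
      _ ≤ Mt K * (y1 - y0) + ε := by
        have : Mt K * (2 * η) ≤ ε := by
          rw [hη, ← mul_div_assoc, ← mul_div_assoc]
          rw [div_le_iff₀ (by positivity)]
          nlinarith
        linarith

end Crest.Agent.R105.Stq_188
end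

-- ▼ part R105/Stq2_188
section

/-!
# Row 105 (S0138, solids): START with squares

For a hair `K` of the family `𝓗` (free, or attached to the square of its component) the function
`Φ` of `Stq1` in a thin neighbourhood of the component: `∫_{Eᶜ} Φ_x = -∫ tent K`,
`Σ_Q s_Q ch_Q(Φ) ≤ ε`.
-/

set_option autoImplicit false

namespace Crest.Agent.R105.Stq_188

open Set Filter MeasureTheory Topology Metric
open CF_363 Stp_722 Skst2_49 Cq_463 Thin_891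
open scoped ENNReal NNReal

/-- components of a compact set are compact -/
theorem isCompact_cc {X : Type*} [TopologicalSpace X] [T2Space X] {E : Set X} (hE : IsCompact E)
    (x : X) : IsCompact (connectedComponentIn E x) := by
  by_cases hx : x ∈ E
  · rw [connectedComponentIn_eq_image hx]
    have : CompactSpace E := isCompact_iff_compactSpace.1 hE
    exact (isClosed_connectedComponent.isCompact).image continuous_subtype_val
  · rw [connectedComponentIn_eq_empty hx]; exact isCompact_empty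

/-- a thin neighbourhood of a component -/
theorem exists_thin {E U : Set (ℝ × ℝ)} (hE : IsCompact E) {p : ℝ × ℝ} (hp : p ∈ E)
    (hU : IsOpen U) (hPU : connectedComponentIn E p ⊆ U) :
    ∃ N, IsOpen N ∧ Bornology.IsBounded N ∧ connectedComponentIn E p ⊆ N ∧ N ⊆ U ∧
      Disjoint E (frontier N) := by
  obtain ⟨F, hF, hPF, hFU⟩ := exists_piece hE hp hU hPU
  have hopen : IsOpen (U ∩ (E \ F)ᶜ) := hU.inter hF.cpt'.isClosed.isOpen_compl
  have hsub : F ⊆ U ∩ (E \ F)ᶜ := fun q hq => ⟨hFU hq, fun h => h.2 hq⟩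
  obtain ⟨δ, hδ, hδU⟩ := hF.cpt.exists_cthickening_subset_open hopen hsub
  have hbc : IsCompact (cthickening δ F) := hF.cpt.cthickening
  refine ⟨thickening δ F, isOpen_thickening,
    hbc.isBounded.subset (thickening_subset_cthickening δ F),
    hPF.trans (self_subset_thickening hδ F),
    (thickening_subset_cthickening δ F).trans (hδU.trans inter_subset_left), ?_⟩
  rw [disjoint_left]
  rintro q hqE hqf
  have h1 : q ∈ cthickening δ F := by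
    have := frontier_subset_closure hqf
    exact closure_minimal (thickening_subset_cthickening δ F) isClosed_cthickening this
  have h2 : q ∈ F := by
    by_contra hc
    exact (hδU h1).2 ⟨hqE, hc⟩
  have h3 : q ∈ thickening δ F := self_subset_thickening hδ F h2
  rw [isOpen_thickening.frontier_eq] at hqf
  exact hqf.2 h3

/-- an open set with frontier off `E` contains or avoids every preconnected part of `E` -/
theorem subset_or_disjoint {E N P : Set (ℝ × ℝ)} (hN : IsOpen N) (hf : Disjoint E (frontier N))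
    (hPE : P ⊆ E) (hP : IsPreconnected P) : P ⊆ N ∨ Disjoint P N := by
  by_contra hc
  rw [not_or] at hc
  obtain ⟨h1, h2⟩ := hc
  obtain ⟨a, haP, haN⟩ := not_disjoint_iff.1 h2
  obtain ⟨b, hbP, hbN⟩ := not_subset.1 h1
  have h3 := hP N (closure N)ᶜ hN isClosed_closure.isOpen_compl (fun q hq => ?_) ⟨a, haP, haN⟩
    ⟨b, hbP, fun hb => disjoint_left.1 hf (hPE hbP) ⟨hb, fun h => hbN (interior_subset h)⟩⟩
  · obtain ⟨q, -, hq1, hq2⟩ := h3
    exact hq2 (subset_closure hq1)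
  · by_cases hqN : q ∈ N
    · exact Or.inl hqN
    · exact Or.inr fun hb => disjoint_left.1 hf (hPE hq) ⟨hb, fun h => hqN (interior_subset h)⟩

variable {E : Set (ℝ × ℝ)} {𝒬 : Set Sqr} {𝓗 : Set Hair}

theorem ch_univ_le {f : ℝ × ℝ → ℝ} {Q : Sqr} {c : ℝ} (hc : 0 ≤ c) (h : OscLe Eᶜ Q.car f c) :
    ch E univ f Q ≤ c := by
  unfold ch
  rw [inter_univ, closure_univ, inter_univ]
  exact chg_le hc h

open Classical in
/-- the charge of one square -/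
theorem TN.ch_le {N : Set (ℝ × ℝ)} {K : Hair} {δ : ℝ} (h : TN E K N δ) {Q : Sqr}
    (hQE : Q.car ⊆ E) (hKQ : Disjoint Q.car {p | p.1 = K.x ∧ K.b < p.2 ∧ p.2 < K.t}) :
    ch E univ (PhN K N δ) Q ≤ (if Q.car ⊆ N ∧ ¬ (Q.x ≤ K.x ∧ K.x ≤ Q.x + Q.s)
      then Mt K * Q.s else 0) := by
  have hs := Q.hs
  rcases subset_or_disjoint h.op h.far hQE Q.convex_car.isPreconnected with hN | hN
  · by_cases hx : Q.x ≤ K.x ∧ K.x ≤ Q.x + Q.s
    · rw [if_neg (by tauto)]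
      refine ch_univ_le le_rfl (h.osc_high fun p hp hp2 => ?_)
      have h2 : ((K.x, p.2) : ℝ × ℝ) ∈ Q.car := Sqr.mem_car.2 ⟨⟨hx.1, hx.2⟩, (Sqr.mem_car.1 hp).2⟩
      exact disjoint_left.1 hKQ h2 ⟨rfl, hp2.1, hp2.2⟩
    · rw [if_pos ⟨hN, hx⟩]
      rw [not_and_or, not_le, not_le] at hx
      rcases hx with hx | hx
      · have h1 := h.osc_right (V := Eᶜ) (P := Q.car) (fun p hp => ⟨hQE hp, hN hp⟩)
          (fun p hp => lt_of_lt_of_le hx (Sqr.mem_car.1 hp).1.1) (y0 := Q.y) (y1 := Q.y + Q.s)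
          (fun p hp => (Sqr.mem_car.1 hp).2)
        rw [show Q.y + Q.s - Q.y = Q.s by ring] at h1
        exact ch_univ_le (mul_nonneg (Mt_nonneg K) hs.le) h1
      · refine ch_univ_le (mul_nonneg (Mt_nonneg K) hs.le)
          ((osc_left fun p hp => lt_of_le_of_lt (Sqr.mem_car.1 hp).1.2 hx).mono
            (mul_nonneg (Mt_nonneg K) hs.le))
  · rw [if_neg (fun hc => ?_)]
    · refine ch_univ_le le_rfl (h.osc_far fun p hp => ⟨hQE hp, fun hpN => disjoint_left.1 hN hp hpN⟩)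
    · obtain ⟨q, hq⟩ := Q.nonempty
      exact disjoint_left.1 hN hq (hc.1 hq)

/-- **START with squares**: the hair `K` is off the squares (only its end points may touch the
square of its component, and then the square lies over or under it). -/
theorem start_sq (hE : QPic E 𝒬 𝓗) {K : Hair} (hK : K ∈ 𝓗)
    (hKQ : ∀ Q ∈ 𝒬, Disjoint Q.car {p | p.1 = K.x ∧ K.b < p.2 ∧ p.2 < K.t})
    (hatt : ∀ Q ∈ 𝒬, (Q.car ∩ connectedComponentIn E (K.x, K.b)).Nonempty →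
      Q.x ≤ K.x ∧ K.x ≤ Q.x + Q.s)
    {U : Set (ℝ × ℝ)} (hU : IsOpen U) (hPU : connectedComponentIn E (K.x, K.b) ⊆ U)
    {ε : ℝ} (hε : 0 < ε) :
    ∃ Φ : ℝ × ℝ → ℝ, CFJ 𝓗 univ Φ ∧ HasCompactSupport Φ ∧ (∀ p, 0 ≤ Φ p ∧ Φ p ≤ 1) ∧
      (∀ p ∉ U, Φ p = 0) ∧ ∫ p in Eᶜ, gx Φ p = - ∫ y, tent K y ∧
      (∀ Q ∈ 𝒬, ch E univ Φ Q ≤ Mt K * Q.s) ∧
      Summable (fun Q : 𝒬 => Q.1.s * ch E univ Φ Q.1) ∧
      ∑' Q : 𝒬, Q.1.s * ch E univ Φ Q.1 ≤ ε ∧ ∑' Q : 𝒬, ch E univ Φ Q.1 ^ 2 ≤ ε := by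
  classical
  have hM := Mt_nonneg K
  set P : Set (ℝ × ℝ) := connectedComponentIn E (K.x, K.b) with hPdef
  have hbt := K.hbt
  have hp0 : (K.x, K.b) ∈ E := hE.hsub K hK ⟨rfl, le_rfl, hbt.le⟩
  have hKP : K.car ⊆ P := by
    refine IsPreconnected.subset_connectedComponentIn ?_ ⟨rfl, le_rfl, hbt.le⟩ (hE.hsub K hK)
    rw [K.car_eq]; exact isPreconnected_singleton.prod isPreconnected_Icc
  have hPc : IsCompact P := isCompact_cc hE.cpt _
  set C : ℝ := Mt K + Mt K ^ 2 + 1 with hC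
  have hC0 : 0 < C := by positivity
  obtain ⟨U', hPU', hU', -, hvol⟩ := hPc.measurableSet.exists_isOpen_sdiff_lt
    (μ := (volume : Measure (ℝ × ℝ))) hPc.measure_lt_top.ne
    (ε := ENNReal.ofReal (ε / C)) (by simp; positivity)
  obtain ⟨N, hNo, hNb, hPN, hNU, hNf⟩ := exists_thin hE.cpt hp0 (hU.inter hU')
    (subset_inter hPU hPU')
  obtain ⟨δ, h⟩ := exists_TN hE.cpt hNo hNb (K := K)
    (fun p hp => ⟨hE.hsub K hK hp, hPN (hKP hp)⟩) hNf
  set A : Set Sqr := {Q | Q.car ⊆ N ∧ ¬ (Q.x ≤ K.x ∧ K.x ≤ Q.x + Q.s)} with hA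
  have hch : ∀ Q ∈ 𝒬, ch E univ (PhN K N δ) Q ≤ if Q ∈ A then Mt K * Q.s else 0 := by
    intro Q hQ
    exact h.ch_le (hE.sub Q hQ) (hKQ Q hQ)
  -- the area of the squares of `A`
  have hcnt := hE.countable.to_subtype
  have harea : ∑' Q : 𝒬, ENNReal.ofReal (if Q.1 ∈ A then Q.1.s ^ 2 else 0)
      ≤ ENNReal.ofReal (ε / C) := by
    have h1 : ∀ Q : 𝒬, ENNReal.ofReal (if Q.1 ∈ A then Q.1.s ^ 2 else 0)
        = volume (Q.1.car ∩ (if Q.1 ∈ A then univ else ∅)) := by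
      intro Q
      split_ifs
      · rw [inter_univ, Sqr.volume_car]
      · simp
    simp_rw [h1]
    rw [← measure_iUnion (fun Q Q' hne => (hE.disjoint Q.2 Q'.2
      (fun he => hne (Subtype.ext he))).mono inter_subset_left inter_subset_left)
      (fun Q => Q.1.isCompact_car.measurableSet.inter (by split_ifs <;> simp))]
    refine (measure_mono (iUnion_subset fun Q p hp => ?_)).trans hvol.le
    split_ifs at hp with hQA
    · refine ⟨(hNU (hQA.1 hp.1)).2, fun hpP => hQA.2 ?_⟩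
      exact hatt Q.1 Q.2 ⟨p, hp.1, hpP⟩
    · exact absurd hp.2 (notMem_empty _)
  have hsumA : Summable fun Q : 𝒬 => (if Q.1 ∈ A then Q.1.s ^ 2 else 0 : ℝ) :=
    summable_of_tsum_ofReal (fun Q => by split_ifs <;> positivity)
      (ne_top_of_le_ne_top ENNReal.ofReal_ne_top harea)
  have htsA : ∑' Q : 𝒬, (if Q.1 ∈ A then Q.1.s ^ 2 else 0 : ℝ) ≤ ε / C := by
    have h0 : ∀ Q : 𝒬, (0 : ℝ) ≤ (if Q.1 ∈ A then Q.1.s ^ 2 else 0 : ℝ) := fun Q => by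
      split_ifs <;> positivity
    rw [← ENNReal.ofReal_tsum_of_nonneg h0 hsumA] at harea
    rwa [ENNReal.ofReal_le_ofReal_iff (by positivity)] at harea
  have hb1 : ∀ Q : 𝒬, Q.1.s * ch E univ (PhN K N δ) Q.1
      ≤ Mt K * (if Q.1 ∈ A then Q.1.s ^ 2 else 0 : ℝ) := by
    intro Q
    have hs := Q.1.hs
    refine (mul_le_mul_of_nonneg_left (hch Q.1 Q.2) hs.le).trans (le_of_eq ?_)
    split_ifs <;> ring
  have hb2 : ∀ Q : 𝒬, ch E univ (PhN K N δ) Q.1 ^ 2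
      ≤ Mt K ^ 2 * (if Q.1 ∈ A then Q.1.s ^ 2 else 0 : ℝ) := by
    intro Q
    have hs := Q.1.hs
    refine (pow_le_pow_left₀ (ch_nonneg _ _ _ _) (hch Q.1 Q.2) 2).trans (le_of_eq ?_)
    split_ifs <;> ring
  have hn1 : ∀ Q : 𝒬, 0 ≤ Q.1.s * ch E univ (PhN K N δ) Q.1 := fun Q =>
    mul_nonneg Q.1.hs.le (ch_nonneg _ _ _ _)
  have hS1 : Summable fun Q : 𝒬 => Q.1.s * ch E univ (PhN K N δ) Q.1 :=
    Summable.of_nonneg_of_le hn1 hb1 (hsumA.mul_left _)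
  have hS2 : Summable fun Q : 𝒬 => ch E univ (PhN K N δ) Q.1 ^ 2 :=
    Summable.of_nonneg_of_le (fun Q => sq_nonneg _) hb2 (hsumA.mul_left _)
  refine ⟨PhN K N δ, h.cfj hK, h.cpt, fun p => ⟨PhN_nonneg K h.δ0 p, PhN_le_one K p⟩,
    fun p hp => PhN_zero K fun hc => hp (hNU hc).1, h.integral_compl, fun Q hQ => ?_, hS1, ?_, ?_⟩
  · refine (hch Q hQ).trans ?_
    split_ifs
    · exact le_rfl
    · exact mul_nonneg hM Q.hs.le
  · calc ∑' Q : 𝒬, Q.1.s * ch E univ (PhN K N δ) Q.1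
        ≤ ∑' Q : 𝒬, Mt K * (if Q.1 ∈ A then Q.1.s ^ 2 else 0 : ℝ) :=
          hS1.tsum_le_tsum hb1 (hsumA.mul_left _)
      _ = Mt K * ∑' Q : 𝒬, (if Q.1 ∈ A then Q.1.s ^ 2 else 0 : ℝ) := tsum_mul_left
      _ ≤ Mt K * (ε / C) := mul_le_mul_of_nonneg_left htsA hM
      _ ≤ C * (ε / C) := mul_le_mul_of_nonneg_right (by rw [hC]; nlinarith [sq_nonneg (Mt K)])
          (by positivity)
      _ = ε := by field_simp
  · calc ∑' Q : 𝒬, ch E univ (PhN K N δ) Q.1 ^ 2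
        ≤ ∑' Q : 𝒬, Mt K ^ 2 * (if Q.1 ∈ A then Q.1.s ^ 2 else 0 : ℝ) :=
          hS2.tsum_le_tsum hb2 (hsumA.mul_left _)
      _ = Mt K ^ 2 * ∑' Q : 𝒬, (if Q.1 ∈ A then Q.1.s ^ 2 else 0 : ℝ) := tsum_mul_left
      _ ≤ Mt K ^ 2 * (ε / C) := mul_le_mul_of_nonneg_left htsA (sq_nonneg _)
      _ ≤ C * (ε / C) := mul_le_mul_of_nonneg_right (by rw [hC]; nlinarith [sq_nonneg (Mt K)])
          (by positivity)
      _ = ε := by field_simp

end Crest.Agent.R105.Stq_188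
end

-- ▼ part R105/Ctr1_188
section

/-!
# Row 105 (S0138, solids): the contradiction ((E) of #10259)

`ELQ E 𝒬 𝓗` : the crude Euler-Lagrange inequality for the limit functions of `LimQ`.
`hairless`  : `PicS`, `LimQ`, `ELQ` ⟹ `𝓗 = ∅`;
`comps_sq`  : then every component of `E` is a point or an exact square.
-/

set_option autoImplicit false

namespace Crest.Agent.R105.Ctr_188

open Set Filter MeasureTheory Topology Metric
open CF_363 Stp_722 Skst2_49 Cq_463 Exs_992 Stq_188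
open Skp2_257 (Comps Reg)

/-- **crude E-L** for limits of cut functions: `T`-finite, oscillation zero at all components without
square. -/
def ELQ (E : Set (ℝ × ℝ)) (𝒬 : Set Sqr) (𝓗 : Set Hair) : Prop :=
  ∀ (S : ℕ → ℝ × ℝ → ℝ) (ψ : ℝ × ℝ → ℝ) (c o : Sqr → ℝ), LimOf E 𝓗 S ψ →
    (∀ Q, 0 ≤ c Q) → (Summable fun Q : 𝒬 => c Q.1 ^ 2) →
    (∀ m, ∀ Q ∈ 𝒬, ch E univ (S m) Q ≤ c Q) →
    (∀ Q, 0 ≤ o Q) → (Summable fun Q : 𝒬 => o Q.1 ^ 2) →
    (∀ P ∈ Comps E, (∀ Q ∈ 𝒬, ¬ Q.car ⊆ P) → OscLe Eᶜ P ψ 0) →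
    (∀ P ∈ Comps E, ∀ Q ∈ 𝒬, Q.car ⊆ P → OscLe Eᶜ P ψ (o Q)) →
    |∫ p in Eᶜ, gx ψ p| ≤ ∑' Q : 𝒬, Q.1.s * o Q.1

variable {E : Set (ℝ × ℝ)} {𝒬 : Set Sqr} {𝓗 : Set Hair}

theorem hair_preconn (K : Hair) : IsPreconnected K.car := by
  rw [K.car_eq]; exact isPreconnected_singleton.prod isPreconnected_Icc

/-- the square of a component with a hair lies over the abscissa of the hair -/
theorem att_line (hP : PicS E 𝒬 𝓗) {K : Hair} (hK : K ∈ 𝓗) {Q : Sqr} (hQ : Q ∈ 𝒬)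
    (h : (Q.car ∩ connectedComponentIn E (K.x, K.b)).Nonempty) :
    Q.x ≤ K.x ∧ K.x ≤ Q.x + Q.s := by
  have hbt := K.hbt
  have hs := Q.hs
  have hb : (K.x, K.b) ∈ K.car := ⟨rfl, le_rfl, hbt.le⟩
  have ht : (K.x, K.t) ∈ K.car := ⟨rfl, hbt.le, le_rfl⟩
  have hp0 : (K.x, K.b) ∈ E := hP.q.hsub K hK hb
  set P := connectedComponentIn E (K.x, K.b) with hPd
  have hPC : P ∈ Comps E := ⟨_, hp0, rfl⟩
  have hKP : K.car ⊆ P := (hair_preconn K).subset_connectedComponentIn hb (hP.q.hsub K hK)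
  have hQP : Q.car ⊆ P := by
    obtain ⟨q, hq, hqP⟩ := h
    have h1 := Q.convex_car.isPreconnected.subset_connectedComponentIn hq (hP.q.sub Q hQ)
    rwa [← connectedComponentIn_eq hqP] at h1
  rcases hP.comp P hPC with ⟨p, hp⟩ | ⟨K', hK', hp⟩ | ⟨Q', hQ', hQ'P, H⟩
  · have h1 : (K.x, K.b) = p := by have := hKP hb; rwa [hp] at this
    have h2 : (K.x, K.t) = p := by have := hKP ht; rwa [hp] at this
    have h3 := congrArg Prod.snd (h1.trans h2.symm)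
    exact absurd h3 hbt.ne
  · exfalso
    have h1 : ((Q.x, Q.y) : ℝ × ℝ) ∈ K'.car := by
      rw [← hp]; exact hQP (Sqr.mem_car.2 ⟨⟨le_rfl, by linarith⟩, ⟨le_rfl, by linarith⟩⟩)
    have h2 : ((Q.x + Q.s, Q.y) : ℝ × ℝ) ∈ K'.car := by
      rw [← hp]; exact hQP (Sqr.mem_car.2 ⟨⟨by linarith, le_rfl⟩, ⟨le_rfl, by linarith⟩⟩)
    have h3 : Q.x = K'.x := h1.1
    have h4 : Q.x + Q.s = K'.x := h2.1
    linarith
  · have hQQ : Q = Q' := by
      refine hP.q.sep P (connectedComponentIn_subset _ _) isPreconnected_connectedComponentIn Q hQ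
        Q' hQ' ?_ ?_
      · obtain ⟨q, hq⟩ := Q.nonempty; exact ⟨q, hQP hq, hq⟩
      · obtain ⟨q, hq⟩ := Q'.nonempty; exact ⟨q, hQ'P hq, hq⟩
    subst hQQ
    by_cases hc : (K.x, K.b) ∈ Q.car
    · exact (Sqr.mem_car.1 hc).1
    · obtain ⟨K'', hK'', -, hx, ⟨q, hq1, hq2⟩⟩ := H _ (hKP hb) hc
      have h1 : K.x = K''.x := hx.1
      have h2 : q.1 = K''.x := hq1.1
      rw [h1, ← h2]
      exact (Sqr.mem_car.1 hq2).1

/-- the open hair is off the squares -/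
theorem att_off (hatt : Att 𝒬 𝓗) {K : Hair} (hK : K ∈ 𝓗) {Q : Sqr} (hQ : Q ∈ 𝒬) :
    Disjoint Q.car {p | p.1 = K.x ∧ K.b < p.2 ∧ p.2 < K.t} := by
  rw [disjoint_left]
  rintro p hp ⟨h1, h2, h3⟩
  have h4 := (Sqr.mem_car.1 hp).2
  rcases hatt K hK Q hQ ⟨p, ⟨h1, h2.le, h3.le⟩, hp⟩ with h | h
  · linarith [h4.2]
  · linarith [h4.1]

/-- **the contradiction** -/
theorem hairless (hP : PicS E 𝒬 𝓗) {C : ℝ} (hC : 0 ≤ C) (hlim : LimQ E 𝒬 𝓗 C)
    (hEL : ELQ E 𝒬 𝓗) : 𝓗 = ∅ := by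
  classical
  rw [eq_empty_iff_forall_notMem]
  intro K hK
  have hE := hP.q
  have hI : 0 < ∫ y, tent K y := integral_tent_pos K
  set I := ∫ y, tent K y with hId
  set S2 : ℝ := ∑' Q : 𝒬, Q.1.s ^ 2 with hS2
  have hS20 : 0 ≤ S2 := tsum_nonneg fun _ => sq_nonneg _
  -- constants
  set ε : ℝ := I / (4 * (C + 1)) with hε
  have hε0 : 0 < ε := by positivity
  set κ : ℝ := I / (4 * (C + 1) * (√S2 + 1)) with hκ
  have hsq0 : 0 ≤ √S2 := Real.sqrt_nonneg _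
  have hκ0 : 0 < κ := by positivity
  obtain ⟨Φ, hcfj, hcpt, h01, -, hint, hcb, hsum, hle, -⟩ := Stq_188.start_sq hE hK
    (fun Q hQ => att_off hP.att hK hQ) (fun Q hQ h => att_line hP hK hQ h) isOpen_univ
    (subset_univ _) hε0
  obtain ⟨S, ψ, δ, hL, hδ0, hδs, hδle, hch, hosc0, hosc, -, hI2⟩ := hlim Φ hcfj hcpt
    ⟨1, fun p => by rw [abs_of_nonneg (h01 p).1]; exact (h01 p).2⟩ κ hκ0
  have hM := Mt_nonneg K
  have hchs : Summable fun Q : 𝒬 => ch E univ Φ Q.1 ^ 2 := by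
    refine Summable.of_nonneg_of_le (fun Q => sq_nonneg _) (fun Q => ?_)
      (hE.summable_sq.mul_left (Mt K ^ 2))
    rw [← mul_pow]
    exact pow_le_pow_left₀ (ch_nonneg _ _ _ _) (hcb Q.1 Q.2) 2
  have hcs : Summable fun Q : 𝒬 => (ch E univ Φ Q.1 + δ Q.1) ^ 2 := by
    refine Summable.of_nonneg_of_le (fun Q => sq_nonneg _) (fun Q => ?_)
      ((hchs.mul_left 2).add (hδs.mul_left 2))
    nlinarith [sq_nonneg (ch E univ Φ Q.1 - δ Q.1)]
  have hos : Summable fun Q : 𝒬 => (C * (ch E univ Φ Q.1 + δ Q.1)) ^ 2 := by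
    simp_rw [mul_pow]; exact hcs.mul_left _
  have hmain := hEL S ψ (fun Q => ch E univ Φ Q + δ Q)
    (fun Q => C * (ch E univ Φ Q + δ Q)) hL
    (fun Q => add_nonneg (ch_nonneg _ _ _ _) (hδ0 Q)) hcs hch
    (fun Q => mul_nonneg hC (add_nonneg (ch_nonneg _ _ _ _) (hδ0 Q))) hos hosc0 hosc
  -- the sum on the right
  have hsδ : Summable fun Q : 𝒬 => Q.1.s * δ Q.1 := by
    refine Summable.of_nonneg_of_le (fun Q => mul_nonneg Q.1.hs.le (hδ0 _)) (fun Q => ?_)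
      (hE.summable_sq.add hδs)
    nlinarith [sq_nonneg (Q.1.s - δ Q.1), sq_nonneg (Q.1.s), sq_nonneg (δ Q.1)]
  have hCS : ∑' Q : 𝒬, Q.1.s * δ Q.1 ≤ √S2 * κ := by
    have h1 := Real.inner_le_Lp_mul_Lq_tsum_of_nonneg (p := 2) (q := 2) Real.HolderConjugate.two_two
      (f := fun Q : 𝒬 => Q.1.s) (g := fun Q : 𝒬 => δ Q.1) (fun Q => Q.1.hs.le) (fun Q => hδ0 _)
      (by simpa using hE.summable_sq) (by simpa using hδs)
    refine h1.trans ?_
    rw [← Real.sqrt_eq_rpow, ← Real.sqrt_eq_rpow]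
    simp only [Real.rpow_ofNat]
    refine mul_le_mul_of_nonneg_left ?_ (Real.sqrt_nonneg _)
    rw [Real.sqrt_le_left hκ0.le]
    exact hδle
  have hrhs : ∑' Q : 𝒬, Q.1.s * (C * (ch E univ Φ Q.1 + δ Q.1)) ≤ C * (ε + √S2 * κ) := by
    have h1 : (fun Q : 𝒬 => Q.1.s * (C * (ch E univ Φ Q.1 + δ Q.1)))
        = fun Q : 𝒬 => C * (Q.1.s * ch E univ Φ Q.1 + Q.1.s * δ Q.1) := by
      funext Q; ring
    rw [h1, tsum_mul_left, Summable.tsum_add hsum hsδ]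
    exact mul_le_mul_of_nonneg_left (add_le_add hle hCS) hC
  have hfin : I - κ ≤ C * (ε + √S2 * κ) := by
    have h1 := hmain.trans hrhs
    rw [hint] at hI2
    have h2 := abs_le.1 hI2
    have h3 := abs_le.1 h1
    linarith [h2.1, h2.2, h3.1, h3.2]
  -- numbers
  have h1 : C * ε ≤ I / 4 := by
    have : C * ε = I / 4 * (C / (C + 1)) := by rw [hε]; field_simp
    rw [this]
    exact mul_le_of_le_one_right (by positivity) (by rw [div_le_one (by positivity)]; linarith)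
  have h2 : (C * √S2 + 1) * κ ≤ I / 4 := by
    have : (C * √S2 + 1) * κ = I / 4 * ((C * √S2 + 1) / ((C + 1) * (√S2 + 1))) := by
      rw [hκ]; field_simp
    rw [this]
    refine mul_le_of_le_one_right (by positivity) ?_
    rw [div_le_one (by positivity)]
    nlinarith
  nlinarith



end Crest.Agent.R105.Ctr_188
end

-- ▼ part R105/Cq10_463
section

/-!
# Row 105 (S0138, picture with solids): the literal contract `Nal_649.FACE`
-/

set_option autoImplicit false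

namespace Crest.Agent.R105.Cq_463

open Set Filter MeasureTheory Topology Metric
open Crest.Agent.R105.CF_363 Crest.Agent.R105.Stp_722
open scoped ENNReal
open Crest.Agent.R105.Skp2_257 (Lo Up)
open Crest.Agent.R105.Nal_649 (FACE OneNear)

variable {E W : Set (ℝ × ℝ)} {𝒬 : Set Sqr} {𝓗 : Set Hair} {f g : ℝ × ℝ → ℝ}

/-- a square without charge may be dropped -/
theorem TQ_drop {Q : Sqr} (h : ch E W f Q = 0) : TQ E W (𝒬 \ {Q}) f = TQ E W 𝒬 f := by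
  unfold TQ Ch
  congr 1
  rw [tsum_subtype (𝒬 \ {Q}) (fun Q => ch E W f Q ^ 2), tsum_subtype 𝒬 (fun Q => ch E W f Q ^ 2)]
  refine tsum_congr fun Q' => ?_
  by_cases hQ : Q' = Q
  · subst hQ
    have e : ch E W f Q' ^ 2 = 0 := by rw [h]; norm_num
    by_cases h1 : Q' ∈ 𝒬
    · rw [indicator_of_notMem (by simp), indicator_of_mem h1, e]
    · rw [indicator_of_notMem (by simp), indicator_of_notMem h1]
  · by_cases h1 : Q' ∈ 𝒬
    · rw [indicator_of_mem (show Q' ∈ 𝒬 \ {Q} from ⟨h1, hQ⟩), indicator_of_mem h1]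
    · rw [indicator_of_notMem (fun h => h1 h.1), indicator_of_notMem h1]

theorem closure_Lo_subset (B : ℝ) : closure (Lo B) ⊆ {p : ℝ × ℝ | p.2 ≤ B} :=
  closure_minimal (fun _ hp => le_of_lt (show _ < B from hp)) (isClosed_le continuous_snd continuous_const)

theorem closure_Up_subset (B : ℝ) : closure (Up B) ⊆ {p : ℝ × ℝ | B ≤ p.2} :=
  closure_minimal (fun _ hp => le_of_lt (show B < _ from hp)) (isClosed_le continuous_const continuous_snd)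

/-- `z = 1` near the portion: lower bound for the energy, own charge not used -/
theorem one_near_capacity (hE : QPic E 𝒬 𝓗) (hW : Slab W) (hf : Cc 𝓗 W f) {a b : ℝ}
    (hab : ∀ p ∈ E, a < p.2 ∧ p.2 < b) (hz : Van W a b f) {Q : Sqr} (hQ : Q ∈ 𝒬)
    (hne : (Q.car ∩ closure W).Nonempty) (h1 : OneNear E W (Q.car ∩ closure W) f) :
    1 ≤ (4 * (b - a) / Q.s + 2) * TQ E W (𝒬 \ {Q}) f := by
  obtain ⟨O, hO, hPO, hone⟩ := h1
  have hch : ch E W f Q = 0 := chg_eq_zero hO hPO (a := 1) fun q hq => hone q ⟨hq.1, hq.2.1⟩ hq.2.2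
  rw [TQ_drop hch]
  obtain ⟨J, hJ, L, C, hL, h3, h4⟩ := hf.1
  have hpos : 0 < volume (Icc Q.x (Q.x + Q.s)) := by
    rw [Real.volume_Icc, ENNReal.ofReal_pos]; linarith [Q.hs]
  obtain ⟨x, hxQ, hx⟩ : ∃ x ∈ Icc Q.x (Q.x + Q.s), GoodX E W 𝒬 J f x := by
    by_contra hcon
    push Not at hcon
    exact hpos.ne' (measure_mono_null (fun y hy => hcon y hy) (ae_iff.1
      (ae_goodX hE hW.isOpen h3)))
  have := body_capacity hE hW hf hab hz hQ hne (m := 1) zero_le_one (fun O' hO' hPO' => by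
    obtain ⟨t, ht, htW, htE⟩ := hW.near hE hx hQ hxQ hne (hO.inter hO')
      (subset_inter hPO hPO')
    refine ⟨(x, t), ⟨ht.2, htE, htW⟩, ?_⟩
    rw [hone (x, t) ⟨ht.1, htE⟩ htW]; simp)
  simpa using this

/-- **649's contract FACE** -/
theorem face (hE : QPic E 𝒬 𝓗) : FACE E 𝒬 𝓗 := by
  intro Q hQ S hS
  obtain ⟨a, b, hab, hES⟩ := exists_height (hE.cpt.union hS)
  have hs := Q.hs
  have hba : 0 < b - a := by linarith
  refine ⟨Q.s * √(4 * (b - a) / Q.s + 2), fun z hz01 => ⟨fun B hB hcf h0 hone => ?_,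
    fun B hB hcf h0 hone => ?_⟩⟩
  · have hne : (Q.car ∩ closure (Lo B)).Nonempty := by
      refine ⟨(Q.x, Q.y), ⟨⟨le_rfl, by simp only; linarith⟩, le_rfl, by simp only; linarith⟩,
        subset_closure ?_⟩
      exact hB
    have h1 := one_near_capacity (𝒬 := 𝒬) hE (slab_lo B) ⟨hcf, S, hS, h0⟩ (a := a) (b := b)
      (fun p hp => hES p (Or.inl hp)) ⟨fun p hp hp' => h0 p hp fun hpS => by
        have := hES p (Or.inr hpS)
        rcases hp' with h | h <;> linarith [this.1, this.2]⟩ hQ hne (by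
        obtain ⟨O, hO, hPO, h⟩ := hone
        exact ⟨O, hO, (inter_subset_inter_right _ (closure_Lo_subset B)).trans hPO, h⟩)
    have hT := TQ_nonneg E (Lo B) (𝒬 \ {Q}) z
    rw [mul_assoc, ← Real.sqrt_mul (by positivity)]
    have : 1 ≤ √((4 * (b - a) / Q.s + 2) * TQ E (Lo B) (𝒬 \ {Q}) z) :=
      Real.one_le_sqrt.2 h1
    nlinarith
  · have hne : (Q.car ∩ closure (Up B)).Nonempty := by
      refine ⟨(Q.x, Q.y + Q.s), ⟨⟨le_rfl, by simp only; linarith⟩, by simp only; linarith, le_rfl⟩,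
        subset_closure ?_⟩
      exact hB
    have h1 := one_near_capacity (𝒬 := 𝒬) hE (slab_up B) ⟨hcf, S, hS, h0⟩ (a := a) (b := b)
      (fun p hp => hES p (Or.inl hp)) ⟨fun p hp hp' => h0 p hp fun hpS => by
        have := hES p (Or.inr hpS)
        rcases hp' with h | h <;> linarith [this.1, this.2]⟩ hQ hne (by
        obtain ⟨O, hO, hPO, h⟩ := hone
        exact ⟨O, hO, (inter_subset_inter_right _ (closure_Up_subset B)).trans hPO, h⟩)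
    have hT := TQ_nonneg E (Up B) (𝒬 \ {Q}) z
    rw [mul_assoc, ← Real.sqrt_mul (by positivity)]
    have : 1 ≤ √((4 * (b - a) / Q.s + 2) * TQ E (Up B) (𝒬 \ {Q}) z) :=
      Real.one_le_sqrt.2 h1
    nlinarith

end Crest.Agent.R105.Cq_463
end

-- ▼ part R105/SkT1_137

/-!
# Row 105 (S0138): skeleton of the second half (PP with solids)

Carrier `PicS E 𝒬 𝓗` (992), null families of 649 (`FamQ`, `Win`, `NullNQ`, `NullUp`, `NullLo`),
step / limit of 992 (`StepQ`, `LIMQ`), contradiction of 188 (`ELQ`, `comps_sq`).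

Leaves: `LEMAQ` (Lemma A: `SOLO`, `BNDQ`), `STEPQ` (optional: `STEPC`, `SINGLEQ`, `OUTQ`),
`Exs_992.LIMQ`.
Everything else is assembled here without `sorry`:
`nulls_of` (306), `layOutQ_of` (189), `pp_sq`.
No charge on the cuts (HC of the first half makes them invisible).
-/

set_option autoImplicit false

namespace Crest.Agent.R105.SkT1_137

open Set Filter MeasureTheory Topology Metric
open Crest.Agent.R105.CF_363 Crest.Agent.R105.Stp_722 Crest.Agent.R105.Cq_463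
open Crest.Agent.R105.Nal_649 Crest.Agent.R105.Exs_992 Crest.Agent.R105.Famq_306
open Crest.Agent.R105.Skp2_257 (Comps Reg Lo Up)

variable {E : Set (ℝ × ℝ)} {𝒬 : Set Sqr} {𝓗 : Set Hair}

/-! ## Test functions and E-L -/

/-- `ψ` is `T`-finite with oscillation profile `o` (`o P` bounds the oscillation at the whole
component `P`; jumps at countably many hairs are allowed). -/
structure TFin (E : Set (ℝ × ℝ)) (ψ : ℝ × ℝ → ℝ) (o : Set (ℝ × ℝ) → ℝ) : Prop where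
  reg : Reg E ψ
  nn : ∀ P ∈ Comps E, 0 ≤ o P
  osc : ∀ P ∈ Comps E, OscLe Eᶜ P ψ (o P)
  sum : Summable fun P : Comps E => o P.1 ^ 2

/-- crude E-L inequality for one function -/
def ELf (E : Set (ℝ × ℝ)) (𝒬 : Set Sqr) (ψ : ℝ × ℝ → ℝ) : Prop :=
  ∀ o, TFin E ψ o → |∫ p in Eᶜ, gx ψ p| ≤ ∑' Q : 𝒬, Q.1.s * o (comp E Q.1)

/-- The type of a class of stream functions (of Lemma A), to be instantiated by the literal of 425 /
187 / 377: `Str E 𝒬 𝓗 g Bm Bp ψ`. -/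
abbrev StrT : Type :=
  Set (ℝ × ℝ) → Set Sqr → Set Hair → Set (Set (ℝ × ℝ)) → ℝ → ℝ → (ℝ × ℝ → ℝ) → Prop

/-- E-L for the stream functions of Lemma A -/
def ELS (Str : StrT) (E : Set (ℝ × ℝ)) (𝒬 : Set Sqr) (𝓗 : Set Hair) : Prop :=
  ∀ g Bm Bp, FamQ E g Bm Bp → ∀ ψ, Str E 𝒬 𝓗 g Bm Bp ψ → ELf E 𝒬 ψ

/-! ## Lemma A with solids -/

/-- (P1) of 425: the parts of a solid above / below its square are null. -/
def SOLO (E : Set (ℝ × ℝ)) (𝒬 : Set Sqr) (𝓗 : Set Hair) : Prop :=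
  ∀ Q ∈ 𝒬, (∀ B, Q.y + Q.s < B → NullUp E 𝒬 𝓗 (comp E Q) B) ∧
    ∀ B, B < Q.y → NullLo E 𝒬 𝓗 (comp E Q) B

/-- the solids of the family are null at one of the two ends -/
def SolNull (E : Set (ℝ × ℝ)) (𝒬 : Set Sqr) (𝓗 : Set Hair) (g : Set (Set (ℝ × ℝ)))
    (Bm Bp : ℝ) : Prop :=
  ∀ P ∈ g, ∀ Q ∈ 𝒬, Q.car ⊆ P → NullLo E 𝒬 𝓗 P Bm ∨ NullUp E 𝒬 𝓗 P Bp

/-- (P2) of 425 = part a of 306: the conductance is bounded by the area of the squares. -/
def BNDQ (E : Set (ℝ × ℝ)) (𝒬 : Set Sqr) (𝓗 : Set Hair) : Prop :=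
  ∀ g Bm Bp, FamQ E g Bm Bp → SolNull E 𝒬 𝓗 g Bm Bp →
    ∃ K, 0 ≤ K ∧ ∀ g' ⊆ g, IsCompact (⋃₀ g') → BoundQ E 𝒬 𝓗 g' Bm Bp K

/-- all families without a solid having both levels in its window are null -/
def FAMQ (E : Set (ℝ × ℝ)) (𝒬 : Set Sqr) (𝓗 : Set Hair) : Prop :=
  ∀ g Bm Bp, FamQ E g Bm Bp → Win 𝒬 g Bm Bp → NullNQ E 𝒬 𝓗 g Bm Bp

/-- **LEMAQ**: Lemma A with exact squares. -/
def LEMAQ (Str : StrT) : Prop := ∀ E 𝒬 𝓗, PicS E 𝒬 𝓗 → ELS Str E 𝒬 𝓗 →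
  SOLO E 𝒬 𝓗 ∧ BNDQ E 𝒬 𝓗

theorem comp_mem (hE : QPic E 𝒬 𝓗) {Q : Sqr} (hQ : Q ∈ 𝒬) : comp E Q ∈ Comps E :=
  ⟨(Q.x, Q.y), hE.sub Q hQ (Sqr.mem_car.2 ⟨⟨le_rfl, by linarith [Q.hs]⟩, ⟨le_rfl, by linarith [Q.hs]⟩⟩),
    rfl⟩

theorem car_sub_comp (hE : QPic E 𝒬 𝓗) {Q : Sqr} (hQ : Q ∈ 𝒬) : Q.car ⊆ comp E Q :=
  Q.convex_car.isPreconnected.subset_connectedComponentIn
    (Sqr.mem_car.2 ⟨⟨le_rfl, by linarith [Q.hs]⟩, ⟨le_rfl, by linarith [Q.hs]⟩⟩) (hE.sub Q hQ)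

/-- the component which contains the square -/
theorem eq_comp (hE : QPic E 𝒬 𝓗) {Q : Sqr} (hQ : Q ∈ 𝒬) {P : Set (ℝ × ℝ)} (hP : P ∈ Comps E)
    (h : Q.car ⊆ P) : P = comp E Q := by
  obtain ⟨p, hp⟩ := Q.nonempty
  exact comp_unique hP (comp_mem hE hQ) ⟨p, h hp, car_sub_comp hE hQ hp⟩

theorem eq_of_comp_eq (hE : QPic E 𝒬 𝓗) {Q Q' : Sqr} (hQ : Q ∈ 𝒬) (hQ' : Q' ∈ 𝒬)
    (h : comp E Q = comp E Q') : Q = Q' := by
  obtain ⟨p, hp⟩ := Q.nonempty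
  obtain ⟨p', hp'⟩ := Q'.nonempty
  refine hE.sep (comp E Q) (connectedComponentIn_subset _ _) isPreconnected_connectedComponentIn Q hQ
    Q' hQ' ⟨p, car_sub_comp hE hQ hp, hp⟩ ⟨p', ?_, hp'⟩
  rw [h]
  exact car_sub_comp hE hQ' hp'

/-- `SOLO` gives the nullity of the solids of a family with `Win` -/
theorem solNull_of (hE : QPic E 𝒬 𝓗) (h : SOLO E 𝒬 𝓗) {g : Set (Set (ℝ × ℝ))} {Bm Bp : ℝ}
    (hg : FamQ E g Bm Bp) (hw : Win 𝒬 g Bm Bp) : SolNull E 𝒬 𝓗 g Bm Bp := by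
  intro P hP Q hQ hQP
  rw [eq_comp hE hQ (hg.sub hP) hQP]
  rcases hw P hP Q hQ hQP with h1 | h1
  · exact Or.inl ((h Q hQ).2 Bm h1)
  · exact Or.inr ((h Q hQ).1 Bp h1)

/-- **families are null** (306's `fam_null`) -/
theorem famQ_of (hE : QPic E 𝒬 𝓗) (hS : SOLO E 𝒬 𝓗) (hB : BNDQ E 𝒬 𝓗) : FAMQ E 𝒬 𝓗 := by
  intro g Bm Bp hg hw
  have hn := solNull_of hE hS hg hw
  obtain ⟨K, hK, hbd⟩ := hB g Bm Bp hg hn
  exact fam_null hE hg hn hK hbd

/-! ## Layers -/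

/-- output of the layer lemma: `z = 1` near one of the two ends of every member, oscillation
`≤ 1 / M` at every component, total energy `≤ ε` -/
def LayOutQ (E : Set (ℝ × ℝ)) (𝒬 : Set Sqr) (𝓗 : Set Hair) (g : Set (Set (ℝ × ℝ)))
    (Bm Bp : ℝ) : Prop :=
  ∀ N, IsOpen N → ⋃₀ g ⊆ N → ∀ M : ℕ, 1 ≤ M → ∀ ε > 0, ∃ zm zp,
    HalfQ E 𝒬 𝓗 (Lo Bm) N ε zm ∧ HalfQ E 𝒬 𝓗 (Up Bp) N ε zp ∧
    (∀ P ∈ Comps E, OscLe (Eᶜ ∩ Lo Bm) P zm (1 / M)) ∧
    (∀ P ∈ Comps E, OscLe (Eᶜ ∩ Up Bp) P zp (1 / M)) ∧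
    ∀ P ∈ g, OneNear E (Lo Bm) P zm ∨ OneNear E (Up Bp) P zp

theorem half_189 {W N : Set (ℝ × ℝ)} {ε : ℝ} {z : ℝ × ℝ → ℝ} :
    HalfQ E 𝒬 𝓗 W N ε z ↔ Fnc_189.HalfQ E W 𝒬 𝓗 N ε z :=
  ⟨fun h => ⟨h.cf, h.rg, h.sp, h.en⟩, fun h => ⟨h.cf, h.rg, h.sp, h.en⟩⟩

/-- the cut-off of a piece `S` of a component: `z = 1` near `S`, small energy -/
def SinOutQ (E : Set (ℝ × ℝ)) (𝒬 : Set Sqr) (𝓗 : Set Hair) (S : Set (ℝ × ℝ)) : Prop :=
  ∀ N, IsOpen N → S ⊆ N → ∀ ε > 0, ∃ ζ, HalfQ E 𝒬 𝓗 univ N ε ζ ∧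
    ∃ O, IsOpen O ∧ S ⊆ O ∧ ∀ p ∈ O, ζ p = 1

/-- the hairs which do not touch a square -/
def Off (𝒬 : Set Sqr) (K : Hair) : Prop := ∀ Q ∈ 𝒬, Disjoint K.car Q.car

/-- **SINGLEQ** (925 / 891): cut-off of a cuttable hair off the squares. -/
def SINGLEQ : Prop := ∀ E 𝒬 𝓗, PicS E 𝒬 𝓗 → SOLO E 𝒬 𝓗 → FAMQ E 𝒬 𝓗 →
  ∀ K ∈ 𝓗, Off 𝒬 K → SinOutQ E 𝒬 𝓗 K.car

/-- **OUTQ** (649): cut-off of the part of a solid above / below its square. -/
def OUTQ : Prop := ∀ E 𝒬 𝓗, PicS E 𝒬 𝓗 → SOLO E 𝒬 𝓗 → ∀ Q ∈ 𝒬, ∀ δ > 0,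
  SinOutQ E 𝒬 𝓗 (comp E Q ∩ {p | Q.y + Q.s + δ ≤ p.2}) ∧
  SinOutQ E 𝒬 𝓗 (comp E Q ∩ {p | p.2 ≤ Q.y - δ})

/-- all cheap cut-offs -/
structure Cheap (E : Set (ℝ × ℝ)) (𝒬 : Set Sqr) (𝓗 : Set Hair) : Prop where
  fam : FAMQ E 𝒬 𝓗
  lay : ∀ g Bm Bp, FamQ E g Bm Bp → Win 𝒬 g Bm Bp → LayOutQ E 𝒬 𝓗 g Bm Bp
  sin : ∀ K ∈ 𝓗, Off 𝒬 K → SinOutQ E 𝒬 𝓗 K.car
  up : ∀ Q ∈ 𝒬, ∀ δ > 0, SinOutQ E 𝒬 𝓗 (comp E Q ∩ {p | Q.y + Q.s + δ ≤ p.2})
  lo : ∀ Q ∈ 𝒬, ∀ δ > 0, SinOutQ E 𝒬 𝓗 (comp E Q ∩ {p | p.2 ≤ Q.y - δ})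

/-- **STEPQ** (722 / 744 / 483 / 891 / 423): the halving step, `C0`, `θ` absolute constants. -/
def STEPQ (C0 θ : ℝ) : Prop := ∀ E 𝒬 𝓗, PicS E 𝒬 𝓗 → SOLO E 𝒬 𝓗 → FAMQ E 𝒬 𝓗 →
  StepQ E 𝒬 𝓗 C0 θ

/-- the same from all cheap cut-offs -/
def STEPC (C0 θ : ℝ) : Prop := ∀ E 𝒬 𝓗, PicS E 𝒬 𝓗 → SOLO E 𝒬 𝓗 → Cheap E 𝒬 𝓗 →
  StepQ E 𝒬 𝓗 C0 θ

/-- **LAYQ** is a theorem (189's `layQ`) -/
theorem layOutQ_of (hE : QPic E 𝒬 𝓗) {g : Set (Set (ℝ × ℝ))} {Bm Bp : ℝ} (hg : FamQ E g Bm Bp)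
    (h : NullNQ E 𝒬 𝓗 g Bm Bp) : LayOutQ E 𝒬 𝓗 g Bm Bp := by
  intro N hN hgN M hM ε hε
  have hM0 : (0 : ℝ) < M := by exact_mod_cast hM
  have hA : (0 : ℝ) ≤ ε * M / 18 := by positivity
  obtain ⟨zm, zp, h1, h2, h3, h4, h5⟩ := Fnc_189.layQ hE (isOpen_Lo Bm) (convex_Lo Bm)
    (isOpen_Up Bp) (convex_Up Bp) (𝒢 := g) hg.sub hg.cpt hA (fun N' hN' hg' => by
      obtain ⟨zm, zp, hp⟩ := h N' hN' hg' (ε * M / 18) (by positivity)
      exact ⟨zm, zp, half_189.1 hp.m, half_189.1 hp.p, hp.key⟩) hM hN hgN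
  have he : 18 * (ε * M / 18) / (M : ℝ) = ε := by field_simp
  rw [he] at h1 h2
  exact ⟨zm, zp, half_189.2 h1, half_189.2 h2, h3, h4, h5⟩

/-- all cheap cut-offs from the leaves -/
theorem cheap_of (hP : PicS E 𝒬 𝓗) (hS : SOLO E 𝒬 𝓗) (hF : FAMQ E 𝒬 𝓗) (h1 : SINGLEQ)
    (h2 : OUTQ) : Cheap E 𝒬 𝓗 where
  fam := hF
  lay := fun _ _ _ hg hw => layOutQ_of hP.q hg (hF _ _ _ hg hw)
  sin := h1 E 𝒬 𝓗 hP hS hF
  up := fun Q hQ δ hδ => (h2 E 𝒬 𝓗 hP hS Q hQ δ hδ).1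
  lo := fun Q hQ δ hδ => (h2 E 𝒬 𝓗 hP hS Q hQ δ hδ).2

/-- optional: `STEPQ` from `STEPC`, `SINGLEQ`, `OUTQ` -/
theorem stepQ_of {C0 θ : ℝ} (h1 : SINGLEQ) (h2 : OUTQ) (h : STEPC C0 θ) : STEPQ C0 θ :=
  fun E 𝒬 𝓗 hP hS hF => h E 𝒬 𝓗 hP hS (cheap_of hP hS hF h1 h2)


/-- the same, conclusion `𝓗 = ∅` -/
theorem hairless {Str : StrT} {C0 θ : ℝ} (hC0 : 0 ≤ C0) (hθ : 0 < θ) (hA : LEMAQ Str)
    (hST : STEPQ C0 θ) (hL : LIMQ) (hP : PicS E 𝒬 𝓗)
    (hELS : ELS Str E 𝒬 𝓗) (hEL : Ctr_188.ELQ E 𝒬 𝓗) : 𝓗 = ∅ := by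
  obtain ⟨hS, hB⟩ := hA E 𝒬 𝓗 hP hELS
  exact Ctr_188.hairless hP (C := C1 C0 θ) (by unfold C1; positivity)
    (hL E 𝒬 𝓗 hP C0 θ hC0 hθ (hST E 𝒬 𝓗 hP hS (famQ_of hP.q hS hB))) hEL

/-! ## The interface with the first half: an abstract admissible class -/

/-- What the second half needs from the first half (#10242): `Adm` = any predicate on functions of
the picture plane. -/
structure Carr (Str : StrT) (E : Set (ℝ × ℝ)) (𝒬 : Set Sqr) (𝓗 : Set Hair)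
    (Adm : (ℝ × ℝ → ℝ) → Prop) : Prop where
  /-- (E) crude E-L -/
  el : ∀ ψ o, TFin E ψ o → Adm ψ → |∫ p in Eᶜ, gx ψ p| ≤ ∑' Q : 𝒬, Q.1.s * o (comp E Q.1)
  /-- (A1) stream functions -/
  str : ∀ g Bm Bp, FamQ E g Bm Bp → ∀ ψ, Str E 𝒬 𝓗 g Bm Bp ψ → Adm ψ
  /-- (A2) + (A3) limits of cut functions with bounded charges -/
  lim : ∀ (S : ℕ → ℝ × ℝ → ℝ) (ψ : ℝ × ℝ → ℝ) (c : Sqr → ℝ) (o : Set (ℝ × ℝ) → ℝ),
    LimOf E 𝓗 S ψ → (∀ Q, 0 ≤ c Q) → (Summable fun Q : 𝒬 => c Q.1 ^ 2) →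
    (∀ m, ∀ Q ∈ 𝒬, ch E univ (S m) Q ≤ c Q) → TFin E ψ o →
    (∀ P ∈ Comps E, (∀ Q ∈ 𝒬, ¬ Q.car ⊆ P) → o P = 0) → Adm ψ

theorem Carr.els {Str : StrT} {Adm : (ℝ × ℝ → ℝ) → Prop} (h : Carr Str E 𝒬 𝓗 Adm) :
    ELS Str E 𝒬 𝓗 :=
  fun g Bm Bp hg ψ hψ o ho => h.el ψ o ho (h.str g Bm Bp hg ψ hψ)

open Classical in
/-- profile on the components from charges of the squares -/
noncomputable def prof (𝒬 : Set Sqr) (o : Sqr → ℝ) (P : Set (ℝ × ℝ)) : ℝ :=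
  if h : ∃ Q, Q ∈ 𝒬 ∧ Q.car ⊆ P then o h.choose else 0

theorem prof_comp (hE : QPic E 𝒬 𝓗) (o : Sqr → ℝ) {Q : Sqr} (hQ : Q ∈ 𝒬) :
    prof 𝒬 o (comp E Q) = o Q := by
  have h : ∃ Q', Q' ∈ 𝒬 ∧ Q'.car ⊆ comp E Q := ⟨Q, hQ, car_sub_comp hE hQ⟩
  unfold prof
  rw [dif_pos h]
  have h1 := h.choose_spec
  congr 1
  exact eq_of_comp_eq hE h1.1 hQ (eq_comp hE h1.1 (comp_mem hE hQ) h1.2).symm

theorem prof_of_no {o : Sqr → ℝ} {P : Set (ℝ × ℝ)} (h : ∀ Q ∈ 𝒬, ¬ Q.car ⊆ P) :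
    prof 𝒬 o P = 0 := by
  unfold prof
  rw [dif_neg]
  rintro ⟨Q, hQ, hQP⟩
  exact h Q hQ hQP

theorem prof_nonneg {o : Sqr → ℝ} (ho : ∀ Q, 0 ≤ o Q) (P : Set (ℝ × ℝ)) : 0 ≤ prof 𝒬 o P := by
  unfold prof
  split_ifs
  · exact ho _
  · exact le_rfl

theorem summable_prof (hE : QPic E 𝒬 𝓗) {o : Sqr → ℝ} (h : Summable fun Q : 𝒬 => o Q.1 ^ 2) :
    Summable fun P : Comps E => prof 𝒬 o P.1 ^ 2 := by
  let i : 𝒬 → Comps E := fun Q => ⟨comp E Q.1, comp_mem hE Q.2⟩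
  have hi : Function.Injective i := fun Q Q' hQ =>
    Subtype.ext (eq_of_comp_eq hE Q.2 Q'.2 (congrArg Subtype.val hQ))
  refine (hi.summable_iff ?_).1 ?_
  · rintro ⟨P, hP⟩ hPn
    have : prof 𝒬 o P = 0 := by
      refine prof_of_no fun Q hQ hQP => hPn ⟨⟨Q, hQ⟩, ?_⟩
      exact Subtype.ext (eq_comp hE hQ hP hQP).symm
    simp only [this]
    norm_num
  · have : ((fun P : Comps E => prof 𝒬 o P.1 ^ 2) ∘ i) = fun Q : 𝒬 => o Q.1 ^ 2 := by
      funext Q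
      simp only [Function.comp, i, prof_comp hE o Q.2]
    rw [this]
    exact h

/-- the profile of a limit function -/
theorem tFin_prof (hE : QPic E 𝒬 𝓗) {ψ : ℝ × ℝ → ℝ} {o : Sqr → ℝ} (hr : Reg E ψ)
    (ho : ∀ Q, 0 ≤ o Q) (hs : Summable fun Q : 𝒬 => o Q.1 ^ 2)
    (h0 : ∀ P ∈ Comps E, (∀ Q ∈ 𝒬, ¬ Q.car ⊆ P) → OscLe Eᶜ P ψ 0)
    (h1 : ∀ P ∈ Comps E, ∀ Q ∈ 𝒬, Q.car ⊆ P → OscLe Eᶜ P ψ (o Q)) :
    TFin E ψ (prof 𝒬 o) where
  reg := hr
  nn := fun P _ => prof_nonneg ho P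
  osc := by
    intro P hP
    by_cases h : ∃ Q, Q ∈ 𝒬 ∧ Q.car ⊆ P
    · obtain ⟨Q, hQ, hQP⟩ := h
      rw [eq_comp hE hQ hP hQP, prof_comp hE o hQ]
      exact h1 _ (comp_mem hE hQ) Q hQ (car_sub_comp hE hQ)
    · push Not at h
      rw [prof_of_no h]
      exact h0 P hP h
  sum := summable_prof hE hs

theorem Carr.elq {Str : StrT} {Adm : (ℝ × ℝ → ℝ) → Prop} (hE : QPic E 𝒬 𝓗)
    (h : Carr Str E 𝒬 𝓗 Adm) : Ctr_188.ELQ E 𝒬 𝓗 := by
  intro S ψ c o hL hc hcs hch ho hos h0 h1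
  have hT := tFin_prof hE hL.reg ho hos h0 h1
  have h2 := h.el ψ _ hT (h.lim S ψ c _ hL hc hcs hch hT fun P _ hPn => prof_of_no hPn)
  refine h2.trans (le_of_eq (tsum_congr fun Q => ?_))
  rw [prof_comp hE o Q.2]


end Crest.Agent.R105.SkT1_137
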