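import Crest.Agent.R105.FKd_644
import Crest.Agent.Lib.Bieberbach

-- ▼ part R105/Fk1_286
section

/-!
# R105, finite Koebe theorem (helper286), part 1: uniqueness of slit maps

* `zero_of_lines` : `h` holomorphic on a connected open set, `h → 0` at infinity, cluster values at
                    the boundary on finitely many horizontal lines ⟹ `h = 0`
* `rel_unique`    : `Rel p q → Rel p q' → q = q'`
-/

set_option autoImplicit false

open Set Filter Topology Complex Metric

namespace Crest.Agent.R105.Fk_286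



theorem ev_cocompact {P : ℂ → Prop} :
    (∀ᶠ z in cocompact ℂ, P z) ↔ ∃ R : ℝ, ∀ z, R < ‖z‖ → P z := by
  rw [← Metric.cobounded_eq_cocompact,
    (Metric.hasBasis_cobounded_compl_closedBall (0 : ℂ)).eventually_iff]
  constructor
  · rintro ⟨R, -, hR⟩
    exact ⟨R, fun z hz => hR (by simpa using hz)⟩
  · rintro ⟨R, hR⟩
    exact ⟨R, trivial, fun z hz => hR z (by simpa using hz)⟩

/-- the boundary values on finitely many horizontal lines -/
theorem closure_sub {n : ℕ} {U : Set ℂ} {K : Fin n → Set ℂ} (hK : Uᶜ = ⋃ i, K i) {h : ℂ → ℂ}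
    (hc : ContinuousOn h U) (h0 : Tendsto h (cocompact ℂ) (𝓝 0)) (c : Fin n → ℝ)
    (hb : ∀ i, ∀ ε > 0, ∀ᶠ z in 𝓝ˢ (K i) ⊓ 𝓟 U, |(h z).im - c i| < ε) {w : ℂ}
    (hw : w ∈ closure (h '' U)) (hw0 : w.im ≠ 0) (hwi : ∀ i, w.im ≠ c i) : w ∈ h '' U := by
  -- a uniform distance
  obtain ⟨ε, hε, hε0, hεi⟩ : ∃ ε > 0, 2 * ε < |w.im| ∧ ∀ i, 2 * ε < |w.im - c i| := by
    have h1 : ∀ᶠ ε in 𝓝[>] (0 : ℝ), 2 * ε < |w.im| := by
      have : Tendsto (fun ε : ℝ => 2 * ε) (𝓝[>] 0) (𝓝 (2 * 0)) :=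
        ((continuous_const.mul continuous_id).tendsto 0).mono_left nhdsWithin_le_nhds
      rw [mul_zero] at this
      exact this.eventually (gt_mem_nhds (abs_pos.2 hw0))
    have h2 : ∀ᶠ ε in 𝓝[>] (0 : ℝ), ∀ i, 2 * ε < |w.im - c i| := by
      rw [eventually_all]
      intro i
      have : Tendsto (fun ε : ℝ => 2 * ε) (𝓝[>] 0) (𝓝 (2 * 0)) :=
        ((continuous_const.mul continuous_id).tendsto 0).mono_left nhdsWithin_le_nhds
      rw [mul_zero] at this
      exact this.eventually (gt_mem_nhds (abs_pos.2 (sub_ne_zero.2 (hwi i))))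
    obtain ⟨ε, h3, h4, h5⟩ := (h1.and (h2.and self_mem_nhdsWithin)).exists
    exact ⟨ε, h5, h3, h4⟩
  -- neighbourhoods of the components
  have h1 : ∀ i, ∃ O : Set ℂ, IsOpen O ∧ K i ⊆ O ∧ ∀ z ∈ O ∩ U, |(h z).im - c i| < ε := by
    intro i
    have h2 := hb i ε hε
    rw [eventually_inf_principal] at h2
    obtain ⟨O, hO, hKO, hOU⟩ := mem_nhdsSet_iff_exists.1 h2
    exact ⟨O, hO, hKO, fun z hz => hOU hz.1 hz.2⟩
  choose O hO hKO hOU using h1
  -- near infinity
  have h2 : ∀ᶠ z in cocompact ℂ, ‖h z‖ < ε := by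
    have := h0.norm
    rw [norm_zero] at this
    exact this.eventually (gt_mem_nhds hε)
  obtain ⟨R, hR⟩ := ev_cocompact.1 h2
  set T : Set ℂ := closedBall 0 R \ ⋃ i, O i with hT
  have hTc : IsCompact T := (isCompact_closedBall 0 R).diff (isOpen_iUnion hO)
  have hTU : T ⊆ U := by
    intro z hz
    by_contra hzU
    have h3 : z ∈ ⋃ i, K i := by rw [← hK]; exact hzU
    obtain ⟨i, hi⟩ := mem_iUnion.1 h3
    exact hz.2 (mem_iUnion.2 ⟨i, hKO i hi⟩)
  have hfar : ∀ z ∈ U \ T, ε ≤ |(h z).im - w.im| := by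
    rintro z ⟨hzU, hzT⟩
    by_cases hzR : z ∈ closedBall (0 : ℂ) R
    · have h3 : z ∈ ⋃ i, O i := by
        by_contra h4
        exact hzT ⟨hzR, h4⟩
      obtain ⟨i, hi⟩ := mem_iUnion.1 h3
      have h4 := hOU i z ⟨hi, hzU⟩
      have h5 := hεi i
      have h6 : |w.im - c i| ≤ |(h z).im - w.im| + |(h z).im - c i| := by
        have := abs_sub_le w.im (h z).im (c i)
        rwa [abs_sub_comm w.im (h z).im] at this
      linarith
    · have h4 : ‖h z‖ < ε := hR z (by simpa using hzR)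
      have h5 : |(h z).im| < ε := (abs_im_le_norm _).trans_lt h4
      have h6 : |w.im| ≤ |(h z).im - w.im| + |(h z).im| := by
        have := abs_sub_le w.im (h z).im 0
        rw [sub_zero, sub_zero, abs_sub_comm w.im] at this
        exact this
      linarith
  have hcl : h '' U ⊆ h '' T ∪ {y | ε ≤ |y.im - w.im|} := by
    rintro _ ⟨z, hz, rfl⟩
    by_cases hzT : z ∈ T
    · exact Or.inl ⟨z, hzT, rfl⟩
    · exact Or.inr (hfar z ⟨hz, hzT⟩)
  have hclosed : IsClosed (h '' T ∪ {y : ℂ | ε ≤ |y.im - w.im|}) := by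
    refine ((hTc.image_of_continuousOn (hc.mono hTU)).isClosed).union ?_
    exact isClosed_le continuous_const ((Complex.continuous_im.sub continuous_const).abs)
  rcases closure_minimal hcl hclosed hw with h3 | h3
  · exact image_mono hTU h3
  · simp only [mem_setOf_eq, sub_self, abs_zero] at h3
    exact absurd h3 (not_le.2 hε)

/-- `h` holomorphic on a connected open set, `h → 0` at infinity, boundary values on finitely many
horizontal lines: `h = 0` -/
theorem zero_of_lines {n : ℕ} {U : Set ℂ} (hU : IsOpen U) (hUc : IsPreconnected U)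
    {K : Fin n → Set ℂ} (hK : Uᶜ = ⋃ i, K i) (hU0 : ∀ᶠ z in cocompact ℂ, z ∈ U) {h : ℂ → ℂ}
    (hd : DifferentiableOn ℂ h U) (h0 : Tendsto h (cocompact ℂ) (𝓝 0)) (c : Fin n → ℝ)
    (hb : ∀ i, ∀ ε > 0, ∀ᶠ z in 𝓝ˢ (K i) ⊓ 𝓟 U, |(h z).im - c i| < ε)
    (hbd : Bornology.IsBounded (h '' U)) : ∀ z ∈ U, h z = 0 := by
  have han : AnalyticOnNhd ℂ h U := hd.analyticOnNhd hU
  rcases han.is_constant_or_isOpen hUc with ⟨w, hw⟩ | hop
  · have h1 : w = 0 := by
      have h2 : Tendsto h (cocompact ℂ) (𝓝 w) :=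
        tendsto_const_nhds.congr' (hU0.mono fun z hz => (hw z hz).symm)
      exact tendsto_nhds_unique h2 h0
    intro z hz
    rw [hw z hz, h1]
  · exfalso
    set W : Set ℂ := h '' U with hW
    have hWo : IsOpen W := hop U Subset.rfl hU
    have hWn : W.Nonempty := by
      obtain ⟨z, hz⟩ := hU0.exists
      exact ⟨h z, z, hz, rfl⟩
    -- a point of `W` on a good horizontal line
    obtain ⟨w, hwW, hw0, hwi⟩ : ∃ w ∈ W, w.im ≠ 0 ∧ ∀ i, w.im ≠ c i := by
      obtain ⟨w0, hw0⟩ := hWn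
      obtain ⟨δ, hδ, hball⟩ := Metric.isOpen_iff.1 hWo w0 hw0
      have hfin : (insert (0 : ℝ) (range c)).Finite := (finite_range c).insert 0
      have hinf : (Ioo w0.im (w0.im + δ)).Infinite := Ioo_infinite (by linarith)
      obtain ⟨y, hy, hyn⟩ := (hinf.diff hfin).nonempty
      refine ⟨w0 + ((y - w0.im : ℝ) : ℂ) * I, hball ?_, ?_, ?_⟩
      · rw [mem_ball, dist_eq_norm, add_sub_cancel_left, norm_mul, norm_I, mul_one, norm_real,
          Real.norm_eq_abs, abs_of_pos (by linarith [hy.1])]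
        linarith [hy.2]
      · intro h1
        apply hyn
        left
        simpa using h1
      · intro i h1
        apply hyn
        right
        refine ⟨i, ?_⟩
        rw [← h1]
        simp
    set L : Set ℝ := {x | (x : ℂ) + (w.im : ℂ) * I ∈ W} with hL
    have hcont : Continuous fun x : ℝ => (x : ℂ) + (w.im : ℂ) * I := by fun_prop
    have hLo : IsOpen L := hWo.preimage hcont
    have hLn : w.re ∈ L := by
      show (w.re : ℂ) + (w.im : ℂ) * I ∈ W
      rwa [re_add_im]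
    obtain ⟨B, hB⟩ := hbd.exists_norm_le
    have hLb : BddAbove L := by
      refine ⟨B, fun x hx => ?_⟩
      have h1 := hB _ hx
      have h2 := (re_le_norm ((x : ℂ) + (w.im : ℂ) * I)).trans h1
      simpa using h2
    set s : ℝ := sSup L with hs
    have hsc : s ∈ closure L := csSup_mem_closure ⟨_, hLn⟩ hLb
    have hsn : s ∉ L := by
      intro h1
      obtain ⟨δ, hδ, hball⟩ := Metric.isOpen_iff.1 hLo s h1
      have h2 : s + δ / 2 ∈ L := hball (by
        rw [mem_ball, Real.dist_eq, add_sub_cancel_left, abs_of_pos (by linarith)]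
        linarith)
      have h3 := le_csSup hLb h2
      linarith
    have h1 : (s : ℂ) + (w.im : ℂ) * I ∈ closure W := by
      have h2 : (fun x : ℝ => (x : ℂ) + (w.im : ℂ) * I) '' closure L ⊆
          closure ((fun x : ℝ => (x : ℂ) + (w.im : ℂ) * I) '' L) :=
        image_closure_subset_closure_image hcont
      have h3 : (fun x : ℝ => (x : ℂ) + (w.im : ℂ) * I) '' L ⊆ W := by
        rintro _ ⟨x, hx, rfl⟩
        exact hx
      exact closure_mono h3 (h2 ⟨s, hsc, rfl⟩)
    have him : ((s : ℂ) + (w.im : ℂ) * I).im = w.im := by simp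
    exact hsn (closure_sub hK hd.continuousOn h0 c hb h1 (by rw [him]; exact hw0)
      (fun i => by rw [him]; exact hwi i))

end Crest.Agent.R105.Fk_286
end

-- ▼ part R105/Fk2_286
section

/-!
# R105, finite Koebe theorem (helper286), part 2: uniqueness of labelled slit maps

* `cpt_slits`, `cpt_discs`, `isOpen_dom`, `dom_cocompact`, `bdd_of_ends`, `sub_of_id`
* `uniqSlit_of : y, y' ∈ Y n, dom (slits y) preconnected, LMap (slits y) (slits y') f → y = y'`
* `uniqSlit (hF : ∀ n, ∀ y ∈ Y n, IsPreconnected (dom (slits y))) : UniqSlit`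
-/

set_option autoImplicit false

open Set Filter Topology Complex Metric

namespace Crest.Agent.R105.Fk_286

open Crest.Agent.R105.FK_644

section General
variable {n : ℕ}

theorem cpt_slits {ι : Type*} (y : ι → ℂ × ℝ) (i : ι) : IsCompact (slits y i) := by
  unfold slits
  rw [segment_eq_image]
  exact isCompact_Icc.image (by fun_prop)

theorem cpt_discs {ι : Type*} (x : ι → ℂ × ℝ) (i : ι) : IsCompact (discs x i) :=
  isCompact_closedBall _ _

theorem cpt_iUnion {K : Fin n → Set ℂ} (hK : ∀ i, IsCompact (K i)) : IsCompact (⋃ i, K i) :=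
  isCompact_iUnion hK

theorem isOpen_dom {K : Fin n → Set ℂ} (hK : ∀ i, IsCompact (K i)) : IsOpen (dom K) :=
  (cpt_iUnion hK).isClosed.isOpen_compl

theorem dom_cocompact {K : Fin n → Set ℂ} (hK : ∀ i, IsCompact (K i)) :
    ∀ᶠ z in cocompact ℂ, z ∈ dom K := (cpt_iUnion hK).compl_mem_cocompact

theorem compl_dom {K : Fin n → Set ℂ} : (dom K)ᶜ = ⋃ i, K i := compl_compl _

/-- boundedness from the behaviour at the ends -/
theorem bdd_of_ends {U : Set ℂ} {K : Fin n → Set ℂ} (hK : Uᶜ = ⋃ i, K i) {h : ℂ → ℂ}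
    (hc : ContinuousOn h U) (h0 : Tendsto h (cocompact ℂ) (𝓝 0))
    (hb : ∀ i, ∃ M : ℝ, ∀ᶠ z in 𝓝ˢ (K i) ⊓ 𝓟 U, ‖h z‖ ≤ M) :
    ∃ M : ℝ, ∀ z ∈ U, ‖h z‖ ≤ M := by
  choose M hM using hb
  have h1 : ∀ i, ∃ O : Set ℂ, IsOpen O ∧ K i ⊆ O ∧ ∀ z ∈ O ∩ U, ‖h z‖ ≤ M i := by
    intro i
    have h2 := hM i
    rw [eventually_inf_principal] at h2
    obtain ⟨O, hO, hKO, hOU⟩ := mem_nhdsSet_iff_exists.1 h2
    exact ⟨O, hO, hKO, fun z hz => hOU hz.1 hz.2⟩
  choose O hO hKO hOU using h1
  have h2 : ∀ᶠ z in cocompact ℂ, ‖h z‖ < 1 := by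
    have := h0.norm
    rw [norm_zero] at this
    exact this.eventually (gt_mem_nhds one_pos)
  obtain ⟨R, hR⟩ := ev_cocompact.1 h2
  set T : Set ℂ := closedBall 0 R \ ⋃ i, O i with hT
  have hTc : IsCompact T := (isCompact_closedBall 0 R).diff (isOpen_iUnion hO)
  have hTU : T ⊆ U := by
    intro z hz
    by_contra hzU
    have h3 : z ∈ ⋃ i, K i := by rw [← hK]; exact hzU
    obtain ⟨i, hi⟩ := mem_iUnion.1 h3
    exact hz.2 (mem_iUnion.2 ⟨i, hKO i hi⟩)
  obtain ⟨B, hB⟩ := (hTc.image_of_continuousOn (hc.mono hTU)).isBounded.exists_norm_le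
  obtain ⟨A, hA⟩ := (finite_range M).bddAbove
  refine ⟨max 1 (max A B), fun z hz => ?_⟩
  by_cases hzR : z ∈ closedBall (0 : ℂ) R
  · by_cases hzO : z ∈ ⋃ i, O i
    · obtain ⟨i, hi⟩ := mem_iUnion.1 hzO
      exact (hOU i z ⟨hi, hz⟩).trans ((hA (mem_range_self i)).trans
        ((le_max_left _ _).trans (le_max_right _ _)))
    · exact (hB _ ⟨z, ⟨hzR, hzO⟩, rfl⟩).trans ((le_max_right _ _).trans (le_max_right _ _))
  · exact (hR z (by simpa using hzR)).le.trans (le_max_left _ _)

/-- near a compact set -/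
theorem bdd_near {A : Set ℂ} (hA : IsCompact A) : ∃ M : ℝ, ∀ᶠ z in 𝓝ˢ A, ‖z‖ ≤ M := by
  obtain ⟨M, hM⟩ := hA.isBounded.exists_norm_le
  refine ⟨M + 1, ?_⟩
  have h1 : {z : ℂ | ‖z‖ < M + 1} ∈ 𝓝ˢ A :=
    (isOpen_lt continuous_norm continuous_const).mem_nhdsSet.2 fun z hz =>
      (hM z hz).trans_lt (lt_add_one M)
  exact mem_of_superset h1 fun z (hz : ‖z‖ < M + 1) => hz.le

/-- the difference `f - id` of a labelled map is bounded -/
theorem LMap_bdd {K K' : Fin n → Set ℂ} {f : ℂ → ℂ} (hf : LMap K K' f)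
    (hK : ∀ i, IsCompact (K i)) (hK' : ∀ i, IsCompact (K' i)) :
    ∃ M : ℝ, ∀ z ∈ dom K, ‖f z - z‖ ≤ M := by
  refine bdd_of_ends (K := K) compl_dom (hf.sig.hol.continuousOn.sub continuousOn_id)
    hf.sig.inf fun i => ?_
  obtain ⟨M1, h1⟩ := bdd_near (hK i)
  obtain ⟨M2, h2⟩ := bdd_near (hK' i)
  refine ⟨M2 + M1, ?_⟩
  filter_upwards [hf.lab i h2, (h1.filter_mono inf_le_left :
    ∀ᶠ z in 𝓝ˢ (K i) ⊓ 𝓟 (dom K), ‖z‖ ≤ M1)] with z hz1 hz2
  exact (norm_sub_le _ _).trans (add_le_add hz1 hz2)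

/-- if the identity is a labelled map, the boundary of `K i` lies in `K' i` -/
theorem sub_of_id {K K' : Fin n → Set ℂ} {f : ℂ → ℂ} (hf : LMap K K' f)
    (hK' : ∀ i, IsCompact (K' i)) (hid : ∀ z ∈ dom K, f z = z) (i : Fin n) {z : ℂ}
    (hz : z ∈ K i) (hzc : z ∈ closure (dom K)) : z ∈ K' i := by
  by_contra hn
  obtain ⟨O, O', hO, hO', hzO, hKO, hd⟩ :=
    SeparatedNhds.of_isCompact_isCompact (isCompact_singleton (x := z)) (hK' i)
      (disjoint_singleton_left.2 hn)
  have h1 : ∀ᶠ w in 𝓝ˢ (K i) ⊓ 𝓟 (dom K), f w ∈ O' := hf.lab i (hO'.mem_nhdsSet.2 hKO)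
  have h2 : 𝓝 z ⊓ 𝓟 (dom K) ≤ 𝓝ˢ (K i) ⊓ 𝓟 (dom K) :=
    inf_le_inf_right _ (nhds_le_nhdsSet hz)
  have h3 : ∀ᶠ w in 𝓝 z ⊓ 𝓟 (dom K), w ∈ O :=
    (hO.mem_nhds (hzO rfl) : O ∈ 𝓝 z) |> fun h => mem_inf_of_left h
  have h4 : ∀ᶠ w in 𝓝 z ⊓ 𝓟 (dom K), w ∈ dom K := mem_inf_of_right (mem_principal_self _)
  haveI : (𝓝 z ⊓ 𝓟 (dom K)).NeBot := mem_closure_iff_clusterPt.1 hzc
  obtain ⟨w, hw1, hw2, hw3⟩ := ((h1.filter_mono h2).and (h3.and h4)).exists
  rw [hid w hw3] at hw1
  exact disjoint_left.1 hd hw2 hw1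

end General

/-! ### slits -/

theorem slits_im {ι : Type*} {y : ι → ℂ × ℝ} {i : ι} {z : ℂ} (hz : z ∈ slits y i) :
    z.im = (y i).1.im := by
  unfold slits at hz
  rw [segment_eq_image'] at hz
  obtain ⟨t, -, rfl⟩ := hz
  simp

theorem slits_re {ι : Type*} {y : ι → ℂ × ℝ} (hy : ∀ i, 0 < (y i).2) {i : ι} {z : ℂ}
    (hz : z ∈ slits y i) : (y i).1.re ≤ z.re ∧ z.re ≤ (y i).1.re + (y i).2 := by
  unfold slits at hz
  rw [segment_eq_image'] at hz
  obtain ⟨t, ht, rfl⟩ := hz
  have h1 : ((y i).1 + t • ((y i).1 + ((y i).2 : ℂ) - (y i).1)).re = (y i).1.re + t * (y i).2 := by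
    simp
  simp only at h1 ⊢
  rw [h1]
  constructor
  · linarith [mul_nonneg ht.1 (hy i).le]
  · have := mul_le_mul_of_nonneg_right ht.2 (hy i).le
    linarith

theorem mem_slits {ι : Type*} {y : ι → ℂ × ℝ} (hy : ∀ i, 0 < (y i).2) {i : ι} {z : ℂ} :
    z ∈ slits y i ↔ z.im = (y i).1.im ∧ (y i).1.re ≤ z.re ∧ z.re ≤ (y i).1.re + (y i).2 := by
  refine ⟨fun h => ⟨slits_im h, slits_re hy h⟩, ?_⟩
  rintro ⟨h1, h2, h3⟩
  unfold slits
  rw [segment_eq_image']
  have hp := hy i
  refine ⟨(z.re - (y i).1.re) / (y i).2, ⟨div_nonneg (by linarith) hp.le,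
    (div_le_one hp).2 (by linarith)⟩, ?_⟩
  apply Complex.ext
  · simp only [add_sub_cancel_left, add_re, real_smul, mul_re, ofReal_re, ofReal_im, mul_zero,
      sub_zero]
    field_simp
    ring
  · simp [h1]

theorem slits_inj {ι : Type*} {y y' : ι → ℂ × ℝ} (hy : ∀ i, 0 < (y i).2)
    (hy' : ∀ i, 0 < (y' i).2) {i : ι} (h : slits y i = slits y' i) : y i = y' i := by
  have h1 : (y i).1 ∈ slits y i := (mem_slits hy).2 ⟨rfl, le_rfl, by linarith [hy i]⟩
  have h2 : (y' i).1 ∈ slits y' i := (mem_slits hy').2 ⟨rfl, le_rfl, by linarith [hy' i]⟩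
  have h3 : (y i).1 + ((y i).2 : ℂ) ∈ slits y i :=
    (mem_slits hy).2 ⟨by simp, by simp [(hy i).le], by simp⟩
  have h4 : (y' i).1 + ((y' i).2 : ℂ) ∈ slits y' i :=
    (mem_slits hy').2 ⟨by simp, by simp [(hy' i).le], by simp⟩
  rw [h, mem_slits hy'] at h1 h3
  rw [← h, mem_slits hy] at h2 h4
  simp only [add_re, ofReal_re] at h3 h4
  have e1 : (y i).1 = (y' i).1 :=
    Complex.ext (le_antisymm h2.2.1 h1.2.1) h1.1
  have e2 : (y i).2 = (y' i).2 := by
    have := congrArg re e1
    linarith [h3.2.2, h4.2.2]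
  exact Prod.ext e1 e2

/-- a slit has empty interior: it lies in the closure of the slit domain -/
theorem slits_sub_closure {n : ℕ} {y : Fin n → ℂ × ℝ} {i : Fin n} {z : ℂ} (_hz : z ∈ slits y i) :
    z ∈ closure (dom (slits y)) := by
  rw [Metric.mem_closure_iff]
  intro ε hε
  have hfin : (range fun j => (y j).1.im).Finite := finite_range _
  have hinf : (Ioo z.im (z.im + ε)).Infinite := Ioo_infinite (by linarith)
  obtain ⟨t, ht, htn⟩ := (hinf.diff hfin).nonempty
  refine ⟨z + ((t - z.im : ℝ) : ℂ) * I, ?_, ?_⟩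
  · intro hmem
    obtain ⟨j, hj⟩ := mem_iUnion.1 hmem
    apply htn
    refine ⟨j, ?_⟩
    have := slits_im hj
    simpa using this.symm
  · rw [dist_eq_norm, sub_add_cancel_left, norm_neg, norm_mul, norm_I, mul_one, norm_real,
      Real.norm_eq_abs, abs_of_pos (by linarith [ht.1])]
    linarith [ht.2]

/-- near a slit, the imaginary part is near the height -/
theorem im_near {n : ℕ} (y : Fin n → ℂ × ℝ) (i : Fin n) {ε : ℝ} (hε : 0 < ε) :
    ∀ᶠ z in 𝓝ˢ (slits y i), |z.im - (y i).1.im| < ε :=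
  (isOpen_lt (by fun_prop) continuous_const :
    IsOpen {z : ℂ | |z.im - (y i).1.im| < ε}).mem_nhdsSet.2 fun z hz => by
      show |z.im - (y i).1.im| < ε
      rw [slits_im hz, sub_self, abs_zero]
      exact hε

theorem uniqSlit_of {n : ℕ} {y y' : Fin n → ℂ × ℝ} (hy : y ∈ Y n) (hy' : y' ∈ Y n)
    (hc : IsPreconnected (dom (slits y))) {f : ℂ → ℂ} (hf : LMap (slits y) (slits y') f) :
    y = y' := by
  have hcK := cpt_slits y
  have hcK' := cpt_slits y'
  have hU := isOpen_dom hcK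
  obtain ⟨M, hM⟩ := LMap_bdd hf hcK hcK'
  have hz : ∀ z ∈ dom (slits y), f z - z = 0 := by
    refine zero_of_lines (K := slits y) hU hc compl_dom (dom_cocompact hcK)
      (hf.sig.hol.sub differentiableOn_id) hf.sig.inf
      (fun i => (y' i).1.im - (y i).1.im) (fun i ε hε => ?_) ?_
    · filter_upwards [hf.lab i (im_near y' i (half_pos hε)),
        (im_near y i (half_pos hε)).filter_mono (inf_le_left :
          𝓝ˢ (slits y i) ⊓ 𝓟 (dom (slits y)) ≤ 𝓝ˢ (slits y i))] with z hz1 hz2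
      have h1 : (f z - z).im - ((y' i).1.im - (y i).1.im) =
          ((f z).im - (y' i).1.im) - (z.im - (y i).1.im) := by
        rw [sub_im]; ring
      rw [h1]
      calc |(f z).im - (y' i).1.im - (z.im - (y i).1.im)|
          ≤ |(f z).im - (y' i).1.im| + |z.im - (y i).1.im| := abs_sub _ _
        _ < ε / 2 + ε / 2 := add_lt_add hz1 hz2
        _ = ε := add_halves ε
    · rw [isBounded_iff_forall_norm_le]
      exact ⟨M, by rintro _ ⟨z, hz, rfl⟩; exact hM z hz⟩
  have hid : ∀ z ∈ dom (slits y), f z = z := fun z h => sub_eq_zero.1 (hz z h)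
  have hsub : ∀ i, slits y i ⊆ slits y' i := fun i z h =>
    sub_of_id hf hcK' hid i h (slits_sub_closure h)
  have hdom : dom (slits y) = dom (slits y') := by
    rw [← hf.img]
    ext z
    constructor
    · intro h; exact ⟨z, h, hid z h⟩
    · rintro ⟨w, hw, rfl⟩; rw [hid w hw]; exact hw
  have hun : ⋃ i, slits y i = ⋃ i, slits y' i := by
    have := congrArg compl hdom
    rwa [compl_dom, compl_dom] at this
  funext i
  refine slits_inj hy.1 hy'.1 (Subset.antisymm (hsub i) fun z h => ?_)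
  have h1 : z ∈ ⋃ j, slits y j := by rw [hun]; exact mem_iUnion.2 ⟨i, h⟩
  obtain ⟨j, hj⟩ := mem_iUnion.1 h1
  by_cases hij : i = j
  · rw [hij]; exact hj
  · exact absurd (hsub j hj) (disjoint_left.1 (hy'.2 i j hij) h)

/-- (F3a) -/
theorem uniqSlit (hF : ∀ (n : ℕ), ∀ y ∈ Y n, IsPreconnected (dom (slits y))) : UniqSlit :=
  fun n y y' hy hy' _ hf => uniqSlit_of hy hy' (hF n y hy) hf

end Crest.Agent.R105.Fk_286
end

-- ▼ part R105/Fk3_286
section

/-!
# R105, finite Koebe theorem (helper286), part 3: integration by parts with radial cut-offs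

* `dd K z = (∂_x K - i ∂_y K)/2`
* `ibp` : `∫ K H' = - ∫ (dd K) H` for `H` holomorphic near `tsupport K`
* `rad h c z = h (|z - c|²)`, `dd (rad h c) z = h' (|z - c|²) conj (z - c)`
* `bump A B` : the profile (`= 1` on `s ≤ A`, `= 0` on `B ≤ s`)
-/

set_option autoImplicit false

open Set Filter Topology Complex Metric MeasureTheory
open scoped ContDiff ComplexConjugate

namespace Crest.Agent.R105.Fk_286

/-- `∂ = (∂_x - i ∂_y)/2` -/
noncomputable def dd (K : ℂ → ℂ) (z : ℂ) : ℂ := (fderiv ℝ K z 1 - I * fderiv ℝ K z I) / 2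

theorem integrable_of_tsupport {K H : ℂ → ℂ} (hK : Continuous K) (hKc : HasCompactSupport K)
    {O : Set ℂ} (hO : IsOpen O) (hKO : tsupport K ⊆ O) (hH : ContinuousOn H O) :
    Continuous (fun z => K z * H z) ∧ Integrable (fun z => K z * H z) := by
  have hc : Continuous (fun z => K z * H z) := by
    refine continuous_of_tsupport fun z hz => ?_
    have hz' : z ∈ tsupport K := tsupport_mul_subset_left hz
    exact hK.continuousAt.mul (hH.continuousAt (hO.mem_nhds (hKO hz')))
  exact ⟨hc, hc.integrable_of_hasCompactSupport hKc.mul_right⟩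

theorem tsupport_fderiv_apply (K : ℂ → ℂ) (v : ℂ) :
    tsupport (fun z => fderiv ℝ K z v) ⊆ tsupport K := by
  refine (closure_mono ?_).trans (tsupport_fderiv_subset ℝ (f := K))
  intro z hz h
  exact hz (by simp [h])

theorem ibp_dir {K H : ℂ → ℂ} (hK : ContDiff ℝ 1 K) (hKc : HasCompactSupport K)
    {O : Set ℂ} (hO : IsOpen O) (hKO : tsupport K ⊆ O) (hH : DifferentiableOn ℂ H O) (v : ℂ) :
    ∫ z, K z * (v * deriv H z) = -∫ z, fderiv ℝ K z v * H z := by
  have hHd : ∀ z ∈ O, DifferentiableAt ℂ H z := fun z hz => hH.differentiableAt (hO.mem_nhds hz)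
  have hfd : ∀ z ∈ O, fderiv ℝ H z v = v * deriv H z := by
    intro z hz
    have h1 : HasFDerivAt H ((fderiv ℂ H z).restrictScalars ℝ) z :=
      (hHd z hz).hasFDerivAt.restrictScalars ℝ
    rw [h1.fderiv]
    show fderiv ℂ H z v = _
    have h2 : (v : ℂ) = v • (1 : ℂ) := by simp
    conv_lhs => rw [h2]
    rw [map_smul, fderiv_apply_one_eq_deriv, smul_eq_mul]
  have hdc : ContinuousOn (deriv H) O := (hH.deriv hO).continuousOn
  have hHc : ContinuousOn H O := hH.continuousOn
  have h1 : (fun z => K z * (v * deriv H z)) = fun z => K z * fderiv ℝ H z v := by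
    funext z
    by_cases hz : z ∈ tsupport K
    · rw [hfd z (hKO hz)]
    · simp [image_eq_zero_of_notMem_tsupport hz]
  have hi1 : Integrable (fun z => K z * (v * deriv H z)) :=
    (integrable_of_tsupport hK.continuous hKc hO hKO
      (continuousOn_const.mul hdc : ContinuousOn (fun z => v * deriv H z) O)).2
  have hKv : Continuous (fun z => fderiv ℝ K z v) :=
    (hK.continuous_fderiv one_ne_zero).clm_apply continuous_const
  have hi2 := (integrable_of_tsupport hKv
    (hKc.of_isClosed_subset (isClosed_tsupport _) (tsupport_fderiv_apply K v)) hO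
    ((tsupport_fderiv_apply K v).trans hKO) hHc).2
  have hi3 := (integrable_of_tsupport hK.continuous hKc hO hKO hHc).2
  rw [h1] at hi1 ⊢
  exact integral_mul_fderiv_eq_neg_fderiv_mul_of_integrable hi2 hi1 hi3
    (fun z _ => hK.differentiable one_ne_zero z)
    (fun z hz => (hHd z (hKO hz)).restrictScalars ℝ)


/-- **integration by parts** -/
theorem ibp {K H : ℂ → ℂ} (hK : ContDiff ℝ 1 K) (hKc : HasCompactSupport K)
    {O : Set ℂ} (hO : IsOpen O) (hKO : tsupport K ⊆ O) (hH : DifferentiableOn ℂ H O) :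
    ∫ z, K z * deriv H z = -∫ z, dd K z * H z := by
  have h1 := ibp_dir hK hKc hO hKO hH 1
  have h2 := ibp_dir hK hKc hO hKO hH I
  have h3 : ∫ z, K z * (I * deriv H z) = I * ∫ z, K z * deriv H z := by
    rw [← integral_const_mul]; congr 1; funext z; ring
  simp only [one_mul] at h1
  rw [h3] at h2
  have hi : ∀ v, Integrable (fun z => fderiv ℝ K z v * H z) := fun v =>
    (integrable_of_tsupport ((hK.continuous_fderiv one_ne_zero).clm_apply continuous_const)
      (hKc.of_isClosed_subset (isClosed_tsupport _) (tsupport_fderiv_apply K v)) hO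
      ((tsupport_fderiv_apply K v).trans hKO) hH.continuousOn).2
  have h4 : ∫ z, dd K z * H z = (1 / 2 : ℂ) * (∫ z, fderiv ℝ K z 1 * H z) -
      (I / 2) * ∫ z, fderiv ℝ K z I * H z := by
    rw [← integral_const_mul, ← integral_const_mul, ← integral_sub ((hi 1).const_mul _)
      ((hi I).const_mul _)]
    congr 1; funext z; simp only [dd]; ring
  rw [h4]
  have h5 : I * (I * ∫ z, K z * deriv H z) = -∫ z, K z * deriv H z := by
    rw [← mul_assoc, I_mul_I, neg_one_mul]
  rw [h2] at h5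
  linear_combination (1 / 2 : ℂ) * h1 + (1 / 2 : ℂ) * h5

/-! ### radial functions -/

/-- radial function `h (|z - c|²)` -/
noncomputable def rad (h : ℝ → ℝ) (c : ℂ) (z : ℂ) : ℂ := ((h (normSq (z - c)) : ℝ) : ℂ)

theorem contDiff_normSq_sub (c : ℂ) {m : WithTop ℕ∞} : ContDiff ℝ m (fun z : ℂ => normSq (z - c)) := by
  have h1 : (fun z : ℂ => normSq (z - c)) = fun z : ℂ => ‖z - c‖ ^ 2 := by
    funext z; rw [normSq_eq_norm_sq]
  rw [h1]
  exact (contDiff_id.sub contDiff_const).norm_sq ℝ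

theorem contDiff_rad {h : ℝ → ℝ} {m : WithTop ℕ∞} (hh : ContDiff ℝ m h) (c : ℂ) :
    ContDiff ℝ m (rad h c) :=
  ofRealCLM.contDiff.comp (hh.comp (contDiff_normSq_sub c))

theorem dd_rad {h : ℝ → ℝ} (hh : Differentiable ℝ h) (c z : ℂ) :
    dd (rad h c) z = ((deriv h (normSq (z - c)) : ℝ) : ℂ) * conj (z - c) := by
  have hd : HasFDerivAt (fun z : ℂ => normSq (z - c))
      ((2 * (z - c).re) • reCLM + (2 * (z - c).im) • imCLM) z := by
    have h1 : HasFDerivAt (fun z : ℂ => (z - c).re) reCLM z := by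
      have := (reCLM.hasFDerivAt (x := z - c)).comp z ((hasFDerivAt_id z).sub_const c)
      exact this
    have h2 : HasFDerivAt (fun z : ℂ => (z - c).im) imCLM z := by
      have := (imCLM.hasFDerivAt (x := z - c)).comp z ((hasFDerivAt_id z).sub_const c)
      exact this
    have h3 := (h1.mul h1).add (h2.mul h2)
    have h4 : (fun z : ℂ => normSq (z - c)) =
        fun z : ℂ => (z - c).re * (z - c).re + (z - c).im * (z - c).im := by
      funext w; rw [normSq_apply]
    rw [h4]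
    refine h3.congr_fderiv ?_
    ext v
    simp
    ring
  have h5 : HasFDerivAt (rad h c) (ofRealCLM.comp ((ContinuousLinearMap.toSpanSingleton ℝ
      (deriv h (normSq (z - c)))).comp
      ((2 * (z - c).re) • reCLM + (2 * (z - c).im) • imCLM))) z := by
    have h6 : HasFDerivAt h (ContinuousLinearMap.toSpanSingleton ℝ
      (deriv h (normSq (z - c)))) (normSq (z - c)) := (hh _).hasDerivAt.hasFDerivAt
    exact (ofRealCLM.hasFDerivAt.comp z (h6.comp z hd))
  rw [dd, h5.fderiv]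
  apply Complex.ext
  · simp; ring
  · simp; ring

/-- the profile of the cut-off -/
noncomputable def bump (A B : ℝ) (s : ℝ) : ℝ := Real.smoothTransition ((B - s) / (B - A))

theorem contDiff_bump (A B : ℝ) : ContDiff ℝ ∞ (bump A B) :=
  Real.smoothTransition.contDiff.comp ((contDiff_const.sub contDiff_id).div_const _)

theorem bump_one {A B s : ℝ} (hAB : A < B) (hs : s ≤ A) : bump A B s = 1 := by
  apply Real.smoothTransition.one_of_one_le
  rw [one_le_div (by linarith)]
  linarith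

theorem bump_zero {A B s : ℝ} (hAB : A < B) (hs : B ≤ s) : bump A B s = 0 := by
  apply Real.smoothTransition.zero_of_nonpos
  exact div_nonpos_of_nonpos_of_nonneg (by linarith) (by linarith)

theorem bump_nonneg (A B s : ℝ) : 0 ≤ bump A B s := Real.smoothTransition.nonneg _

theorem bump_le_one (A B s : ℝ) : bump A B s ≤ 1 := Real.smoothTransition.le_one _

theorem bump_anti {A B : ℝ} (hAB : A < B) : Antitone (bump A B) := by
  intro s t hst
  apply Real.smoothTransition.monotone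
  exact div_le_div_of_nonneg_right (by linarith) (by linarith)

theorem deriv_bump_nonpos {A B : ℝ} (hAB : A < B) (s : ℝ) : deriv (bump A B) s ≤ 0 :=
  (bump_anti hAB).deriv_nonpos

theorem deriv_bump_zero {A B s : ℝ} (hAB : A < B) (hs : s < A ∨ B < s) :
    deriv (bump A B) s = 0 := by
  rcases hs with hs | hs
  · have : bump A B =ᶠ[𝓝 s] fun _ => 1 := by
      filter_upwards [gt_mem_nhds hs] with t ht
      exact bump_one hAB ht.le
    rw [this.deriv_eq]; simp
  · have : bump A B =ᶠ[𝓝 s] fun _ => 0 := by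
      filter_upwards [lt_mem_nhds hs] with t ht
      exact bump_zero hAB ht.le
    rw [this.deriv_eq]; simp

end Crest.Agent.R105.Fk_286
end

-- ▼ part R105/Fk4_286
section

/-!
# R105, finite Koebe theorem (helper286), part 4: normalised maps near infinity

* `ext_exp`  : `g z = (R0 / z) k (R0 / z)`
* `ann_zero` : `∫_{ann ε r} w(|z|) Re Ψ(R0 / z) = 0` if `Ψ 0 = 0`
* `area_ext` : `|G (U ∩ B_R)| + |E| ≤ π R² + e R`, `e R → 0`, for `E` disjoint from `G '' U`
-/

set_option autoImplicit false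

open Set Filter Topology Complex Metric MeasureTheory
open scoped ContDiff ComplexConjugate Real

namespace Crest.Agent.R105.Fk_286

open Crest.Agent.R105.FK_644 Crest.Agent.Lib.Bieberbach

theorem tendsto_div_cocompact {R0 : ℝ} (hR0 : 0 < R0) :
    Tendsto (fun ζ : ℂ => (R0 : ℂ) / ζ) (𝓝[≠] 0) (cocompact ℂ) := by
  rw [Filter.tendsto_def]
  intro s hs
  obtain ⟨R, hR⟩ := ev_cocompact.1 (show ∀ᶠ z in cocompact ℂ, z ∈ s from hs)
  have h1 : ∀ᶠ ζ : ℂ in 𝓝[≠] 0, ‖ζ‖ < R0 / (|R| + 1) := by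
    apply nhdsWithin_le_nhds
    have h2 : ball (0 : ℂ) (R0 / (|R| + 1)) ∈ 𝓝 (0 : ℂ) := ball_mem_nhds _ (by positivity)
    filter_upwards [h2] with ζ hζ
    simpa using hζ
  filter_upwards [h1, self_mem_nhdsWithin] with ζ h2 h3
  apply hR
  have h4 : 0 < ‖ζ‖ := norm_pos_iff.2 h3
  rw [norm_div, norm_real, Real.norm_eq_abs, abs_of_pos hR0, lt_div_iff₀ h4]
  have h5 : 0 < |R| + 1 := by positivity
  rw [lt_div_iff₀ h5] at h2
  calc R * ‖ζ‖ ≤ (|R| + 1) * ‖ζ‖ :=
        mul_le_mul_of_nonneg_right (by linarith [le_abs_self R]) h4.le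
    _ = ‖ζ‖ * (|R| + 1) := mul_comm _ _
    _ < R0 := h2

theorem ext_exp {g : ℂ → ℂ} {R0 : ℝ} (hR0 : 0 < R0)
    (hd : DifferentiableOn ℂ g {z | R0 < ‖z‖}) (h0 : Tendsto g (cocompact ℂ) (𝓝 0)) :
    ∃ k : ℂ → ℂ, DifferentiableOn ℂ k (ball 0 1) ∧
      ∀ z, R0 < ‖z‖ → g z = ((R0 : ℂ) / z) * k ((R0 : ℂ) / z) := by
  have hopen : IsOpen {z : ℂ | R0 < ‖z‖} := isOpen_lt continuous_const continuous_norm
  set γ : ℂ → ℂ := fun ζ => if ζ = 0 then 0 else g ((R0 : ℂ) / ζ) with hγ
  have hγ0 : γ 0 = 0 := by simp [hγ]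
  have hmem : ∀ ζ : ℂ, ζ ∈ ball (0 : ℂ) 1 → ζ ≠ 0 → R0 < ‖(R0 : ℂ) / ζ‖ := by
    intro ζ hζ h1
    have h2 : 0 < ‖ζ‖ := norm_pos_iff.2 h1
    rw [norm_div, norm_real, Real.norm_eq_abs, abs_of_pos hR0, lt_div_iff₀ h2]
    have h3 : ‖ζ‖ < 1 := by simpa using hζ
    nlinarith
  have hdp : ∀ ζ ∈ ball (0 : ℂ) 1, ζ ≠ 0 → DifferentiableAt ℂ γ ζ := by
    intro ζ hζ h1
    have h2 : DifferentiableAt ℂ (fun ζ => g ((R0 : ℂ) / ζ)) ζ := by
      apply DifferentiableAt.comp (g := g) (f := fun ζ : ℂ => (R0 : ℂ) / ζ)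
      · exact hd.differentiableAt (hopen.mem_nhds (hmem ζ hζ h1))
      · exact (differentiableAt_const _).div differentiableAt_id h1
    refine h2.congr_of_eventuallyEq ?_
    filter_upwards [isOpen_ne.mem_nhds h1] with w hw
    simp only [hγ]
    rw [if_neg hw]
  have hc0 : ContinuousAt γ 0 := by
    rw [continuousAt_iff_punctured_nhds, hγ0]
    refine (h0.comp (tendsto_div_cocompact hR0)).congr' ?_
    filter_upwards [self_mem_nhdsWithin] with ζ hζ
    simp only [hγ, Function.comp_apply]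
    rw [if_neg (show ζ ≠ 0 from hζ)]
  have hγd : DifferentiableOn ℂ γ (ball 0 1) := by
    intro ζ hζ
    by_cases h1 : ζ = 0
    · subst h1
      have h2 : AnalyticAt ℂ γ 0 := by
        apply Complex.analyticAt_of_differentiable_on_punctured_nhds_of_continuousAt _ hc0
        filter_upwards [nhdsWithin_le_nhds (isOpen_ball.mem_nhds hζ), self_mem_nhdsWithin]
          with w hw hw0
        exact hdp w hw hw0
      exact h2.differentiableAt.differentiableWithinAt
    · exact (hdp ζ hζ h1).differentiableWithinAt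
  refine ⟨dslope γ 0, (Complex.differentiableOn_dslope (ball_mem_nhds 0 one_pos)).2 hγd, ?_⟩
  intro z hz
  have hz0 : z ≠ 0 := by
    rw [← norm_pos_iff]; exact hR0.trans hz
  have hR0c : (R0 : ℂ) ≠ 0 := by exact_mod_cast hR0.ne'
  have h1 := sub_smul_dslope γ 0 ((R0 : ℂ) / z)
  rw [sub_zero, hγ0, sub_zero, smul_eq_mul] at h1
  rw [h1]
  simp only [hγ]
  rw [if_neg (div_ne_zero hR0c hz0), div_div_cancel₀ hR0c]

theorem eu_ne (θ : ℝ) : eu θ ≠ 0 := by
  rw [← norm_pos_iff, norm_eu]; exact one_pos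

theorem eu_inv (θ : ℝ) : (eu θ)⁻¹ = eu (-θ) := by
  rw [eu_eq, eu_eq, ← Complex.exp_neg]; push_cast; ring_nf

theorem circ_zero {Ψ : ℂ → ℂ} (hΨ : DifferentiableOn ℂ Ψ (ball 0 1)) (h0 : Ψ 0 = 0) {R0 ρ : ℝ}
    (hR0 : 0 < R0) (hρ : R0 < ρ) :
    ∫ θ in (-π)..π, Ψ ((R0 : ℂ) / ((ρ : ℂ) * eu θ)) = 0 := by
  have hρ0 : 0 < ρ := hR0.trans hρ
  have h1 := mean_zero hΨ (div_pos hR0 hρ0) ((div_lt_one hρ0).2 hρ)
  rw [h0, smul_zero] at h1
  have h2 := intervalIntegral.integral_comp_neg (a := -π) (b := π)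
    (fun θ => Ψ (((R0 / ρ : ℝ) : ℂ) * eu θ))
  rw [neg_neg, h1] at h2
  rw [← h2]
  apply intervalIntegral.integral_congr
  intro θ _
  simp only
  congr 1
  rw [← eu_inv]
  have := eu_ne θ
  have h3 : (ρ : ℂ) ≠ 0 := by exact_mod_cast hρ0.ne'
  push_cast
  field_simp

/-- the weighted integral over an annulus vanishes -/
theorem ann_zero {Ψ : ℂ → ℂ} (hΨ : DifferentiableOn ℂ Ψ (ball 0 1)) (h0 : Ψ 0 = 0)
    {R0 ε r : ℝ} (hR0 : 0 < R0) (hε : R0 < ε) {w : ℝ → ℝ} (hw : Continuous w) :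
    IntegrableOn (fun z : ℂ => w ‖z‖ * (Ψ ((R0 : ℂ) / z)).re) (ann ε r) ∧
    ∫ z in ann ε r, w ‖z‖ * (Ψ ((R0 : ℂ) / z)).re = 0 := by
  have hε0 : 0 < ε := hR0.trans hε
  have hmem : ∀ z : ℂ, ε ≤ ‖z‖ → (R0 : ℂ) / z ∈ ball (0 : ℂ) 1 := by
    intro z hz
    have hz0 : 0 < ‖z‖ := hε0.trans_le hz
    rw [mem_ball_zero_iff, norm_div, norm_real, Real.norm_eq_abs, abs_of_pos hR0,
      div_lt_one hz0]
    exact hε.trans_le hz
  have hdiv : ContinuousOn (fun z : ℂ => (R0 : ℂ) / z) {z : ℂ | ε ≤ ‖z‖ ∧ ‖z‖ ≤ r} := by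
    apply continuousOn_const.div continuousOn_id
    intro z hz
    rw [id, ← norm_pos_iff]
    exact hε0.trans_le hz.1
  have hΨc : ContinuousOn (fun z : ℂ => Ψ ((R0 : ℂ) / z)) {z : ℂ | ε ≤ ‖z‖ ∧ ‖z‖ ≤ r} :=
    hΨ.continuousOn.comp hdiv fun z hz => hmem z hz.1
  have hF : ContinuousOn (fun z : ℂ => w ‖z‖ * (Ψ ((R0 : ℂ) / z)).re)
      {z : ℂ | ε ≤ ‖z‖ ∧ ‖z‖ ≤ r} :=
    (hw.comp continuous_norm).continuousOn.mul (Complex.continuous_re.comp_continuousOn hΨc)
  obtain ⟨h1, -, h2⟩ := polar_ann hε0 hF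
  refine ⟨h1, ?_⟩
  rw [h2]
  have h3 : ∀ ρ ∈ Ioo ε r, ∫ θ : ℝ in Ioo (-π) π,
      ρ * (w ‖(ρ : ℂ) * eu θ‖ * (Ψ ((R0 : ℂ) / ((ρ : ℂ) * eu θ))).re) = 0 := by
    intro ρ hρ
    have hρ0 : 0 < ρ := hε0.trans hρ.1
    simp only [norm_smul_eu hρ0.le, ← mul_assoc]
    rw [integral_const_mul]
    have h4 := circ_zero hΨ h0 hR0 (hε.trans hρ.1)
    have hcont : Continuous (fun θ : ℝ => Ψ ((R0 : ℂ) / ((ρ : ℂ) * eu θ))) := by
      refine hΨc.comp_continuous (by fun_prop) fun θ => ?_
      simp only [mem_ofPred_eq, norm_smul_eu hρ0.le]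
      exact ⟨hρ.1.le, hρ.2.le⟩
    have h5 : ∫ θ in (-π)..π, (Ψ ((R0 : ℂ) / ((ρ : ℂ) * eu θ))).re = 0 := by
      have := Complex.reCLM.intervalIntegral_comp_comm
        (hcont.intervalIntegrable (μ := volume) (-π) π)
      simp only [Complex.reCLM_apply] at this
      rw [this, h4]; simp
    rw [intervalIntegral.integral_of_le (by linarith [Real.pi_pos]),
      integral_Ioc_eq_integral_Ioo] at h5
    rw [h5, mul_zero]
  rw [setIntegral_congr_fun measurableSet_Ioo h3]
  simp

theorem isPreconnected_gt (M : ℝ) : IsPreconnected {w : ℂ | M < ‖w‖} := by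
  rcases lt_or_ge M 0 with hM | hM
  · have : {w : ℂ | M < ‖w‖} = univ := by
      ext w; simp only [mem_ofPred_eq, mem_univ, iff_true]; exact lt_of_lt_of_le hM (norm_nonneg _)
    rw [this]; exact isPreconnected_univ
  · have : {w : ℂ | M < ‖w‖} = (fun p : ℝ × ℝ => (p.1 : ℂ) * exp (p.2 * I)) ''
        (Ioi M ×ˢ (univ : Set ℝ)) := by
      ext w
      constructor
      · intro hw
        refine ⟨(‖w‖, arg w), ⟨hw, mem_univ _⟩, ?_⟩
        simp only
        exact norm_mul_exp_arg_mul_I w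
      · rintro ⟨⟨a, b⟩, ⟨ha, -⟩, rfl⟩
        simp only [mem_ofPred_eq, norm_mul, norm_exp_ofReal_mul_I, mul_one, norm_real,
          Real.norm_eq_abs]
        exact lt_of_lt_of_le ha (le_abs_self _)
    rw [this]
    refine (isPreconnected_Ioi.prod isPreconnected_univ).image _ ?_
    fun_prop

theorem isPreconnected_compl_ell (c : ℂ) (hc : ‖c‖ < 1) (T : ℝ) :
    IsPreconnected (ell c T)ᶜ := by
  have hd : LinearMap.det (lmap c) ≠ 0 := by
    rw [det_lmap]
    nlinarith [norm_nonneg c]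
  set e : ℂ ≃L[ℝ] ℂ := (LinearMap.equivOfDetNeZero (lmap c) hd).toContinuousLinearEquiv with he
  have h1 : (ell c T)ᶜ = e.symm '' {w : ℂ | T < ‖w‖} := by
    rw [ContinuousLinearEquiv.image_symm_eq_preimage]
    ext w
    simp only [ell, mem_compl_iff, mem_ofPred_eq, not_le, mem_preimage]
    rfl
  rw [h1]
  exact (isPreconnected_gt T).image _ e.symm.continuous.continuousOn

theorem sig_cocompact {U : Set ℂ} {G : ℂ → ℂ} (hG : Sig U G) :
    Tendsto G (cocompact ℂ) (cocompact ℂ) := by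
  rw [Filter.tendsto_def]
  intro s hs
  obtain ⟨R, hR⟩ := ev_cocompact.1 (show ∀ᶠ z in cocompact ℂ, z ∈ s from hs)
  have h1 : ∀ᶠ z in cocompact ℂ, ‖G z - z‖ < 1 := by
    have := hG.inf.norm
    rw [norm_zero] at this
    exact this.eventually (gt_mem_nhds one_pos)
  have h2 : ∀ᶠ z : ℂ in cocompact ℂ, R + 1 < ‖z‖ := ev_cocompact.2 ⟨R + 1, fun z hz => hz⟩
  filter_upwards [h1, h2] with z hz1 hz2
  apply hR
  have h3 : ‖z‖ ≤ ‖G z‖ + ‖G z - z‖ := by
    have := norm_sub_le (G z) (G z - z)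
    rwa [sub_sub_cancel] at this
  linarith

theorem image_far_closed {G : ℂ → ℂ} {A : Set ℂ} (hA : IsClosed A) (hc : ContinuousOn G A)
    (hinf : Tendsto G (cocompact ℂ) (cocompact ℂ)) : IsClosed (G '' A) := by
  apply isClosed_of_closure_subset
  intro w hw
  have h1 : ∀ᶠ z in cocompact ℂ, G z ∉ closedBall w 1 :=
    hinf.eventually ((isCompact_closedBall w 1).compl_mem_cocompact)
  obtain ⟨R, hR⟩ := ev_cocompact.1 h1
  have h2 : IsCompact (G '' (A ∩ closedBall 0 R)) :=
    ((isCompact_closedBall (0 : ℂ) R).inter_left hA).image_of_continuousOn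
      (hc.mono inter_subset_left)
  have h3 : w ∈ closure (G '' (A ∩ closedBall 0 R)) := by
    rw [Metric.mem_closure_iff] at hw ⊢
    intro ε hε
    obtain ⟨_, ⟨a, ha, rfl⟩, hd⟩ := hw (min ε 1) (lt_min hε one_pos)
    refine ⟨G a, ⟨a, ⟨ha, ?_⟩, rfl⟩, hd.trans_le (min_le_left _ _)⟩
    rw [mem_closedBall_zero_iff]
    by_contra hn
    apply hR a (not_le.1 hn)
    rw [mem_closedBall, dist_comm]
    exact (hd.trans_le (min_le_right _ _)).le
  rw [h2.isClosed.closure_eq] at h3
  exact image_mono inter_subset_left h3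

/-- everything off the ellipse is attained outside the disc -/
theorem cover_ell {U : Set ℂ} (hU : IsOpen U) {G : ℂ → ℂ} (hG : Sig U G) {R : ℝ}
    (hRU : ∀ z, R ≤ ‖z‖ → z ∈ U) {W : Set ℂ} (hW : IsPreconnected W)
    (hW0 : ∀ᶠ w in cocompact ℂ, w ∈ W) (hWs : ∀ z, ‖z‖ = R → G z ∉ W) :
    W ⊆ G '' {z | R < ‖z‖} := by
  have hop : IsOpen {z : ℂ | R < ‖z‖} := isOpen_lt continuous_const continuous_norm
  have hcl : IsClosed {z : ℂ | R ≤ ‖z‖} := isClosed_le continuous_const continuous_norm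
  have hs1 : {z : ℂ | R < ‖z‖} ⊆ U := fun z hz => hRU z (le_of_lt hz)
  have hs2 : {z : ℂ | R ≤ ‖z‖} ⊆ U := fun z hz => hRU z hz
  apply hW.subset_left_of_subset_union (u := G '' {z | R < ‖z‖}) (v := (G '' {z | R ≤ ‖z‖})ᶜ)
  · exact Crest.Agent.Lib.isOpen_image_of_injOn hop (hG.hol.mono hs1) (hG.inj.mono hs1)
  · exact (image_far_closed hcl (hG.hol.continuousOn.mono hs2) (sig_cocompact hG)).isOpen_compl
  · apply disjoint_compl_right.mono_left
    exact image_mono fun z hz => (show R < ‖z‖ from hz).le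
  · intro u hu
    by_cases h : u ∈ G '' {z | R ≤ ‖z‖}
    · left
      obtain ⟨z, hz, rfl⟩ := h
      rcases (show R ≤ ‖z‖ from hz).lt_or_eq with hz' | hz'
      · exact ⟨z, hz', rfl⟩
      · exact absurd hu (hWs z hz'.symm)
    · right; exact h
  · have h1 : ∀ᶠ z in cocompact ℂ, G z ∈ W := (sig_cocompact hG).eventually hW0
    have h2 : ∀ᶠ z : ℂ in cocompact ℂ, R < ‖z‖ := ev_cocompact.2 ⟨R, fun z hz => hz⟩
    obtain ⟨z, hz1, hz2⟩ := (h1.and h2).exists
    exact ⟨G z, hz1, z, hz2, rfl⟩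

/-- **area theorem at infinity** -/
theorem area_ext {U : Set ℂ} (hU : IsOpen U) {G : ℂ → ℂ} (hG : Sig U G) {R0 : ℝ} (hR0 : 0 < R0)
    (hR0U : ∀ z, R0 < ‖z‖ → z ∈ U) {E : Set ℂ} (hE : MeasurableSet E)
    (hEG : Disjoint (G '' U) E) :
    ∃ e : ℝ → ℝ, Tendsto e atTop (𝓝 0) ∧ ∀ᶠ R in atTop, 0 ≤ π * R ^ 2 + e R ∧
      volume (G '' (U ∩ ball 0 R)) + volume E ≤ ENNReal.ofReal (π * R ^ 2 + e R) := by
  obtain ⟨k, hk, hgk⟩ := ext_exp (g := fun z => G z - z) hR0
    ((hG.hol.mono fun z hz => hR0U z hz).sub differentiableOn_id) hG.inf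
  -- second order
  set a : ℂ := (R0 : ℂ) * k 0 with ha
  set k2 : ℂ → ℂ := dslope k 0 with hk2
  have hk2d : DifferentiableOn ℂ k2 (ball 0 1) :=
    (Complex.differentiableOn_dslope (ball_mem_nhds 0 one_pos)).2 hk
  have hsub : closedBall (0:ℂ) (1/2) ⊆ ball 0 1 := closedBall_subset_ball (by norm_num)
  obtain ⟨C2', hC2'⟩ := (isCompact_closedBall (0:ℂ) (1/2)).exists_bound_of_continuousOn
    (hk2d.continuousOn.mono hsub)
  set C2 : ℝ := max C2' 0 with hC2
  have hC20 : 0 ≤ C2 := le_max_right _ _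
  have hexp : ∀ z : ℂ, 2 * R0 ≤ ‖z‖ → ‖G z - z - a / z‖ ≤ R0 ^ 2 * C2 / ‖z‖ ^ 2 := by
    intro z hz
    have hz0 : 0 < ‖z‖ := by linarith
    have hzne : z ≠ 0 := norm_pos_iff.1 hz0
    have hζ : (R0 : ℂ) / z ∈ closedBall (0 : ℂ) (1/2) := by
      rw [mem_closedBall_zero_iff, norm_div, norm_real, Real.norm_eq_abs, abs_of_pos hR0,
        div_le_iff₀ hz0]
      linarith
    have h1 := hgk z (by linarith)
    have h2 := sub_smul_dslope k 0 ((R0 : ℂ) / z)
    rw [sub_zero, smul_eq_mul] at h2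
    have h3 : G z - z - a / z = ((R0 : ℂ) / z) ^ 2 * k2 ((R0 : ℂ) / z) := by
      rw [h1, ha]
      have h4 : k ((R0 : ℂ) / z) = k 0 + (R0 : ℂ) / z * k2 ((R0 : ℂ) / z) := by
        rw [hk2, h2]; ring
      rw [h4]; ring
    rw [h3, norm_mul, norm_pow, norm_div, norm_real, Real.norm_eq_abs, abs_of_pos hR0, div_pow,
      div_mul_eq_mul_div]
    gcongr
    exact (hC2' _ hζ).trans (le_max_left _ _)
  set α : ℝ := ‖a‖ with hα
  have hα0 : 0 ≤ α := norm_nonneg _
  set C : ℝ := R0 ^ 2 * C2 + α * (α + R0 ^ 2 * C2) with hC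
  have hC0 : 0 ≤ C := by positivity
  set e : ℝ → ℝ := fun R => π * ((2 * C * R⁻¹ + C ^ 2 * R⁻¹ ^ 4 + α ^ 2 * R⁻¹ ^ 2) /
    (1 - α ^ 2 * R⁻¹ ^ 4)) with he
  refine ⟨e, ?_, ?_⟩
  · have h1 : Tendsto (fun u : ℝ => π * ((2 * C * u + C ^ 2 * u ^ 4 + α ^ 2 * u ^ 2) /
        (1 - α ^ 2 * u ^ 4))) (𝓝 0) (𝓝 (π * ((2 * C * 0 + C ^ 2 * 0 ^ 4 + α ^ 2 * 0 ^ 2) /
        (1 - α ^ 2 * 0 ^ 4)))) := by
      apply ContinuousAt.tendsto (f := fun u : ℝ => π * ((2 * C * u + C ^ 2 * u ^ 4 +
        α ^ 2 * u ^ 2) / (1 - α ^ 2 * u ^ 4)))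
      apply ContinuousAt.mul continuousAt_const
      apply ContinuousAt.div
      · fun_prop
      · fun_prop
      · simp
    have h2 := h1.comp tendsto_inv_atTop_zero
    have h3 : π * ((2 * C * 0 + C ^ 2 * 0 ^ 4 + α ^ 2 * 0 ^ 2) / (1 - α ^ 2 * 0 ^ 4)) = 0 := by
      simp
    rw [h3] at h2
    exact h2
  · have hq : ∀ᶠ R : ℝ in atTop, α ^ 2 * R⁻¹ ^ 4 < 1 := by
      have h1 : Tendsto (fun u : ℝ => α ^ 2 * u ^ 4) (𝓝 0) (𝓝 (α ^ 2 * 0 ^ 4)) := by
        apply Continuous.tendsto; fun_prop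
      have h2 := h1.comp tendsto_inv_atTop_zero
      exact h2.eventually (gt_mem_nhds (by simp))
    filter_upwards [hq, eventually_ge_atTop (2 * R0), eventually_ge_atTop (1 : ℝ)]
      with R hR1 hR2 hR3
    have hRp : 0 < R := by linarith
    set c : ℂ := a / (R : ℂ) ^ 2 with hc
    have hcn : ‖c‖ = α / R ^ 2 := by
      rw [hc, norm_div, norm_pow, norm_real, Real.norm_eq_abs, abs_of_pos hRp]
    have hc2 : ‖c‖ ^ 2 = α ^ 2 * R⁻¹ ^ 4 := by
      rw [hcn]; field_simp
    have hc1 : ‖c‖ < 1 := by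
      rw [← hc2] at hR1
      nlinarith [norm_nonneg c]
    set T : ℝ := R + C / R ^ 2 with hT
    have hT0 : 0 ≤ T := by positivity
    have hsph : ∀ z, ‖z‖ = R → G z ∉ (ell c T)ᶜ := by
      intro z hz
      rw [notMem_compl_iff]
      show ‖G z - c * conj (G z)‖ ≤ T
      have hzne : z ≠ 0 := by rw [← norm_pos_iff, hz]; exact hRp
      have hzz : z * conj z = (R : ℂ) ^ 2 := by
        rw [Complex.mul_conj, Complex.normSq_eq_norm_sq, hz]; push_cast; ring
      have hcz : conj z ≠ 0 := by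
        intro h; apply hzne; simpa using h
      set ε : ℂ := G z - z - a / z with hε
      have hεn : ‖ε‖ ≤ R0 ^ 2 * C2 / R ^ 2 := by
        have := hexp z (by rw [hz]; exact hR2)
        rwa [hz] at this
      have hGz : G z = z + a / z + ε := by rw [hε]; ring
      have e1 : G z - c * conj (G z) = z + ε - c * (conj (a / z) + conj ε) := by
        rw [hGz, map_add, map_add, hc, ← hzz]
        field_simp
        ring
      rw [e1]
      have hR12 : R0 ^ 2 * C2 / R ^ 2 ≤ R0 ^ 2 * C2 := by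
        apply div_le_self (by positivity)
        exact one_le_pow₀ hR3
      calc ‖z + ε - c * (conj (a / z) + conj ε)‖
          ≤ ‖z‖ + ‖ε‖ + ‖c * (conj (a / z) + conj ε)‖ :=
            (norm_sub_le _ _).trans (add_le_add_left (norm_add_le _ _) _)
        _ ≤ R + R0 ^ 2 * C2 / R ^ 2 + (α / R ^ 2) * (α + R0 ^ 2 * C2) := by
            gcongr
            · exact hz.le
            · rw [norm_mul, hcn]
              apply mul_le_mul_of_nonneg_left _ (by positivity)
              refine (norm_add_le _ _).trans (add_le_add ?_ ?_)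
              · rw [RCLike.norm_conj, norm_div, hz]
                exact div_le_self hα0 hR3
              · rw [RCLike.norm_conj]
                exact hεn.trans hR12
        _ = T := by rw [hT, hC]; field_simp; ring
    have hcov := cover_ell hU hG (R := R) (fun z hz => hR0U z (by linarith))
      (isPreconnected_compl_ell c hc1 T) (by
        apply ev_cocompact.2
        refine ⟨T / (1 - ‖c‖), fun w hw => ?_⟩
        show ¬ ‖w - c * conj w‖ ≤ T
        rw [not_le]
        rw [div_lt_iff₀ (by linarith)] at hw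
        have h1 : ‖w‖ - ‖c‖ * ‖w‖ ≤ ‖w - c * conj w‖ := by
          have := norm_sub_norm_le w (c * conj w)
          rwa [norm_mul, RCLike.norm_conj] at this
        nlinarith) hsph
    have hsub1 : G '' (U ∩ ball 0 R) ⊆ ell c T := by
      rintro _ ⟨z, ⟨hzU, hzR⟩, rfl⟩
      by_contra hn
      obtain ⟨y, hy, hyz⟩ := hcov hn
      have hyR : R < ‖y‖ := hy
      have : y = z := hG.inj (hR0U y (by linarith)) hzU hyz
      rw [this] at hyR
      rw [mem_ball_zero_iff] at hzR
      exact lt_asymm hyR hzR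
    have hsub2 : E ⊆ ell c T := by
      intro w hw
      by_contra hn
      obtain ⟨y, hy, hyz⟩ := hcov hn
      have hyR : R < ‖y‖ := hy
      exact disjoint_left.1 hEG ⟨y, hR0U y (by linarith), hyz⟩ hw
    have hp : 0 < 1 - ‖c‖ ^ 2 := by nlinarith [norm_nonneg c]
    have hval : π * T ^ 2 / (1 - ‖c‖ ^ 2) = π * R ^ 2 + e R := by
      rw [hc2] at hp ⊢
      simp only [he]
      rw [eq_comm, ← sub_eq_zero]
      have h3 : T ^ 2 = R ^ 2 * (1 - α ^ 2 * R⁻¹ ^ 4) +
          (2 * C * R⁻¹ + C ^ 2 * R⁻¹ ^ 4 + α ^ 2 * R⁻¹ ^ 2) := by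
        rw [hT]; field_simp; ring
      rw [h3]
      generalize 2 * C * R⁻¹ + C ^ 2 * R⁻¹ ^ 4 + α ^ 2 * R⁻¹ ^ 2 = N
      have hQ : 1 - α ^ 2 * R⁻¹ ^ 4 ≠ 0 := hp.ne'
      generalize 1 - α ^ 2 * R⁻¹ ^ 4 = Q at hQ ⊢
      field_simp
      ring
    constructor
    · rw [← hval]; positivity
    · rw [← hval, ← vol_ell c hc1 hT0, ← measure_union (hEG.mono_left (image_mono
        inter_subset_left)) hE]
      exact measure_mono (union_subset hsub1 hsub2)

end Crest.Agent.R105.Fk_286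
end

-- ▼ part R105/Fk5_286
section

/-!
# R105, finite Koebe theorem (helper286), part 5: the cut-offs around the discs
-/

set_option autoImplicit false

open Set Filter Topology Complex Metric MeasureTheory
open scoped ContDiff ComplexConjugate Real

namespace Crest.Agent.R105.Fk_286

open Crest.Agent.R105.FK_644 Crest.Agent.Lib.Bieberbach

/-- complex radial cut-off -/
noncomputable def cb (c : ℂ) (α β : ℝ) : ℂ → ℂ := rad (bump (α ^ 2) (β ^ 2)) c

/-- real radial cut-off -/
noncomputable def bb (c : ℂ) (α β : ℝ) (z : ℂ) : ℝ := bump (α ^ 2) (β ^ 2) (normSq (z - c))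

theorem cb_eq (c : ℂ) (α β : ℝ) (z : ℂ) : cb c α β z = (bb c α β z : ℂ) := rfl

section
variable {c : ℂ} {α β : ℝ}

theorem sq_lt (hα : 0 < α) (hαβ : α < β) : α ^ 2 < β ^ 2 := by
  nlinarith

theorem bb_one (hα : 0 < α) (hαβ : α < β) {z : ℂ} (hz : ‖z - c‖ ≤ α) : bb c α β z = 1 := by
  apply bump_one (sq_lt hα hαβ)
  rw [normSq_eq_norm_sq]
  exact pow_le_pow_left₀ (norm_nonneg _) hz 2

theorem bb_zero (hα : 0 < α) (hαβ : α < β) {z : ℂ} (hz : β ≤ ‖z - c‖) : bb c α β z = 0 := by
  apply bump_zero (sq_lt hα hαβ)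
  rw [normSq_eq_norm_sq]
  exact pow_le_pow_left₀ (hα.trans hαβ).le hz 2

theorem bb_nonneg (z : ℂ) : 0 ≤ bb c α β z := bump_nonneg _ _ _

theorem bb_le_one (z : ℂ) : bb c α β z ≤ 1 := bump_le_one _ _ _

theorem contDiff_cb : ContDiff ℝ ∞ (cb c α β) := contDiff_rad (contDiff_bump _ _) c

theorem continuous_bb : Continuous (bb c α β) :=
  (contDiff_bump _ _).continuous.comp (contDiff_normSq_sub c (m := 0)).continuous

theorem cpt_bb (hα : 0 < α) (hαβ : α < β) : HasCompactSupport (bb c α β) := by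
  refine HasCompactSupport.of_support_subset_isCompact (isCompact_closedBall c β) ?_
  intro z hz
  rw [mem_closedBall, dist_eq_norm]
  by_contra hn
  exact hz (bb_zero hα hαβ (not_le.1 hn).le)

theorem cpt_cb (hα : 0 < α) (hαβ : α < β) : HasCompactSupport (cb c α β) := by
  refine HasCompactSupport.of_support_subset_isCompact (isCompact_closedBall c β) ?_
  intro z hz
  rw [mem_closedBall, dist_eq_norm]
  by_contra hn
  apply hz
  rw [cb_eq, bb_zero hα hαβ (not_le.1 hn).le]
  rfl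

theorem dd_cb (z : ℂ) : dd (cb c α β) z =
    ((deriv (bump (α ^ 2) (β ^ 2)) (normSq (z - c)) : ℝ) : ℂ) * conj (z - c) :=
  dd_rad ((contDiff_bump _ _).differentiable (by simp)) c z

theorem dd_cb_zero (hα : 0 < α) (hαβ : α < β) {z : ℂ} (hz : ‖z - c‖ < α ∨ β < ‖z - c‖) :
    dd (cb c α β) z = 0 := by
  rw [dd_cb, deriv_bump_zero (sq_lt hα hαβ), ofReal_zero, zero_mul]
  rw [normSq_eq_norm_sq]
  rcases hz with hz | hz
  · left; exact pow_lt_pow_left₀ hz (norm_nonneg _) two_ne_zero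
  · right; exact pow_lt_pow_left₀ hz (hα.trans hαβ).le two_ne_zero

theorem continuous_dd_cb : Continuous (dd (cb c α β)) := by
  have h1 : Continuous (fderiv ℝ (cb c α β)) := contDiff_cb.continuous_fderiv (by simp)
  have h2 : Continuous fun z => (fderiv ℝ (cb c α β) z 1 - I * fderiv ℝ (cb c α β) z I) / 2 :=
    ((h1.clm_apply continuous_const).sub (continuous_const.mul
      (h1.clm_apply continuous_const))).div_const 2
  exact h2

/-- the closed annulus -/
def cann (c : ℂ) (α β : ℝ) : Set ℂ := {z | α ≤ ‖z - c‖ ∧ ‖z - c‖ ≤ β}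

theorem cpt_cann : IsCompact (cann c α β) := by
  refine (isCompact_closedBall c β).of_isClosed_subset ?_ ?_
  · exact (isClosed_le continuous_const (by fun_prop : Continuous fun z : ℂ => ‖z - c‖)).inter
      (isClosed_le (by fun_prop : Continuous fun z : ℂ => ‖z - c‖) continuous_const)
  · intro z hz
    rw [mem_closedBall, dist_eq_norm]; exact hz.2

theorem tsupport_dd_cb (hα : 0 < α) (hαβ : α < β) : tsupport (dd (cb c α β)) ⊆ cann c α β := by
  apply closure_minimal _ cpt_cann.isClosed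
  intro z hz
  by_contra hn
  apply hz
  apply dd_cb_zero hα hαβ
  simp only [cann, mem_ofPred_eq, not_and_or, not_le] at hn
  exact hn

theorem cpt_dd_cb (hα : 0 < α) (hαβ : α < β) : HasCompactSupport (dd (cb c α β)) :=
  cpt_cann.of_isClosed_subset (isClosed_tsupport _) (tsupport_dd_cb hα hαβ)

theorem integrable_dd_cb (hα : 0 < α) (hαβ : α < β) {O : Set ℂ} (hO : IsOpen O)
    (hsub : cann c α β ⊆ O) {H : ℂ → ℂ} (hH : ContinuousOn H O) :
    Integrable (fun z => dd (cb c α β) z * H z) :=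
  (integrable_of_tsupport continuous_dd_cb (cpt_dd_cb hα hαβ) hO
    ((tsupport_dd_cb hα hαβ).trans hsub) hH).2

theorem integrable_bb (hα : 0 < α) (hαβ : α < β) : Integrable (bb c α β) :=
  continuous_bb.integrable_of_hasCompactSupport (cpt_bb hα hαβ)

theorem int_dd_sub (hα : 0 < α) (hαβ : α < β) (a : ℂ) :
    ∫ z, dd (cb c α β) z * (z - a) = -((∫ z, bb c α β z : ℝ) : ℂ) := by
  have h1 := ibp (K := cb c α β) (H := fun z => z - a) (contDiff_cb.of_le (by simp))
    (cpt_cb hα hαβ) isOpen_univ (subset_univ _) (by fun_prop)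
  have h2 : ∀ z : ℂ, deriv (fun z => z - a) z = 1 := by
    intro z; simp
  simp only [h2, mul_one] at h1
  have h3 : ∫ z, cb c α β z = ((∫ z, bb c α β z : ℝ) : ℂ) :=
    integral_ofReal (𝕜 := ℂ) (f := bb c α β)
  rw [h3] at h1
  rw [h1, neg_neg]

theorem int_norm_dd (hα : 0 < α) (hαβ : α < β) :
    ∫ z, ‖dd (cb c α β) z‖ ≤ (∫ z, bb c α β z) / α := by
  have h1 := int_dd_sub (c := c) hα hαβ c
  have hi : Integrable (fun z => dd (cb c α β) z * (z - c)) :=
    integrable_dd_cb hα hαβ isOpen_univ (subset_univ _) (by fun_prop)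
  have h2 : ∫ z, (dd (cb c α β) z * (z - c)).re = -(∫ z, bb c α β z) := by
    have := integral_re (𝕜 := ℂ) hi
    simp only [RCLike.re_to_complex] at this
    rw [this, h1]
    simp
  have h3 : ∀ z, α * ‖dd (cb c α β) z‖ ≤ -(dd (cb c α β) z * (z - c)).re := by
    intro z
    by_cases hz : ‖z - c‖ < α
    · rw [dd_cb_zero hα hαβ (Or.inl hz)]; simp
    · have h4 : (dd (cb c α β) z * (z - c)).re =
          deriv (bump (α ^ 2) (β ^ 2)) (normSq (z - c)) * ‖z - c‖ ^ 2 := by
        rw [dd_cb, mul_assoc, mul_comm (conj _), mul_conj, ← ofReal_mul, ofReal_re,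
          normSq_eq_norm_sq]
      have h5 : ‖dd (cb c α β) z‖ =
          -deriv (bump (α ^ 2) (β ^ 2)) (normSq (z - c)) * ‖z - c‖ := by
        rw [dd_cb, norm_mul, norm_real, RCLike.norm_conj, Real.norm_eq_abs,
          abs_of_nonpos (deriv_bump_nonpos (sq_lt hα hαβ) _)]
      rw [h4, h5]
      have h6 : 0 ≤ -deriv (bump (α ^ 2) (β ^ 2)) (normSq (z - c)) * ‖z - c‖ := by
        rw [← h5]; exact norm_nonneg _
      have h7 : α ≤ ‖z - c‖ := not_lt.1 hz
      nlinarith
  have hin : Integrable (fun z => ‖dd (cb c α β) z‖) :=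
    (continuous_dd_cb.integrable_of_hasCompactSupport (cpt_dd_cb hα hαβ)).norm
  rw [le_div_iff₀ hα, mul_comm, ← integral_const_mul, ← neg_neg (∫ z, bb c α β z), ← h2,
    ← integral_neg]
  exact integral_mono (hin.const_mul α) hi.re.neg h3

theorem int_bb_ge (hα : 0 < α) (hαβ : α < β) : π * α ^ 2 ≤ ∫ z, bb c α β z := by
  have h1 : ∫ z in closedBall c α, (1 : ℝ) = π * α ^ 2 := by
    rw [setIntegral_const, smul_eq_mul, mul_one, Measure.real, Complex.volume_closedBall]
    simp [hα.le, ENNReal.toReal_mul, mul_comm]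
  rw [← h1]
  calc ∫ z in closedBall c α, (1 : ℝ) = ∫ z in closedBall c α, bb c α β z := by
        apply setIntegral_congr_fun measurableSet_closedBall
        intro z hz
        rw [mem_closedBall, dist_eq_norm] at hz
        exact (bb_one hα hαβ hz).symm
    _ ≤ ∫ z, bb c α β z := setIntegral_le_integral (integrable_bb hα hαβ)
        (Eventually.of_forall fun z => bb_nonneg z)

theorem int_bb_le (hα : 0 < α) (hαβ : α < β) : ∫ z, bb c α β z ≤ π * β ^ 2 := by
  have hβ : 0 < β := hα.trans hαβ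
  have h1 : ∫ z in closedBall c β, (1 : ℝ) = π * β ^ 2 := by
    rw [setIntegral_const, smul_eq_mul, mul_one, Measure.real, Complex.volume_closedBall]
    simp [hβ.le, ENNReal.toReal_mul, mul_comm]
  rw [← h1, ← integral_indicator measurableSet_closedBall]
  apply integral_mono (integrable_bb hα hαβ)
  · exact (integrable_indicator_iff measurableSet_closedBall).2
      (continuousOn_const.integrableOn_compact (isCompact_closedBall c β))
  · intro z
    by_cases hz : z ∈ closedBall c β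
    · rw [indicator_of_mem hz]; exact bb_le_one z
    · rw [indicator_of_notMem hz]
      rw [mem_closedBall, dist_eq_norm, not_le] at hz
      exact (bb_zero hα hαβ hz.le).le

/-- the boundary term of one disc -/
theorem bd_term (hα : 0 < α) (hαβ : α < β) {O : Set ℂ} (hO : IsOpen O)
    (hsub : cann c α β ⊆ O) {G : ℂ → ℂ} (hG : ContinuousOn G O) {c' : ℂ} {M : ℝ}
    (hM : ∀ z ∈ cann c α β, ‖G z - c'‖ ≤ M) :
    (∫ z, bb c α β z) - M * (∫ z, bb c α β z) / α ≤
      (∫ z, dd (cb c α β) z * (G z - z)).re := by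
  have h1 := int_dd_sub (c := c) hα hαβ c'
  have hi1 : Integrable (fun z => dd (cb c α β) z * (G z - c')) :=
    integrable_dd_cb hα hαβ hO hsub (hG.sub continuousOn_const)
  have hi2 : Integrable (fun z => dd (cb c α β) z * (z - c')) :=
    integrable_dd_cb hα hαβ isOpen_univ (subset_univ _) (by fun_prop)
  have h2 : ∫ z, dd (cb c α β) z * (G z - z) =
      (∫ z, dd (cb c α β) z * (G z - c')) + ((∫ z, bb c α β z : ℝ) : ℂ) := by
    have h3 : (fun z => dd (cb c α β) z * (G z - z)) = fun z =>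
        dd (cb c α β) z * (G z - c') - dd (cb c α β) z * (z - c') := by
      funext z; ring
    rw [h3, integral_sub hi1 hi2, h1, sub_neg_eq_add]
  rw [h2, add_re, ofReal_re]
  have hM0 : 0 ≤ M := by
    have h4 : c + (α : ℂ) ∈ cann c α β := by
      simp only [cann, mem_ofPred_eq, add_sub_cancel_left, norm_real, Real.norm_eq_abs,
        abs_of_pos hα]
      exact ⟨le_rfl, hαβ.le⟩
    exact (norm_nonneg _).trans (hM _ h4)
  have h5 : ‖∫ z, dd (cb c α β) z * (G z - c')‖ ≤ M * (∫ z, bb c α β z) / α := by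
    have hin : Integrable (fun z => ‖dd (cb c α β) z‖) :=
      (continuous_dd_cb.integrable_of_hasCompactSupport (cpt_dd_cb hα hαβ)).norm
    calc ‖∫ z, dd (cb c α β) z * (G z - c')‖ ≤ ∫ z, ‖dd (cb c α β) z * (G z - c')‖ :=
          norm_integral_le_integral_norm _
      _ ≤ ∫ z, M * ‖dd (cb c α β) z‖ := by
          apply integral_mono hi1.norm (hin.const_mul M)
          intro z
          simp only [norm_mul]
          by_cases hz : z ∈ cann c α β
          · rw [mul_comm]
            exact mul_le_mul_of_nonneg_right (hM z hz) (norm_nonneg _)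
          · have : dd (cb c α β) z = 0 := by
              apply dd_cb_zero hα hαβ
              simp only [cann, mem_ofPred_eq, not_and_or, not_le] at hz
              exact hz
            simp [this]
      _ = M * ∫ z, ‖dd (cb c α β) z‖ := integral_const_mul _ _
      _ ≤ M * ((∫ z, bb c α β z) / α) :=
          mul_le_mul_of_nonneg_left (int_norm_dd hα hαβ) hM0
      _ = _ := by ring
  have h6 := (abs_le.1 ((abs_re_le_norm _).trans h5)).1
  linarith

end

end Crest.Agent.R105.Fk_286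
end

-- ▼ part R105/Fk6_286

/-!
# R105, finite Koebe theorem (helper286), part 6: the energy inequality for disc domains
-/

set_option autoImplicit false

open Set Filter Topology Complex Metric MeasureTheory
open scoped ContDiff ComplexConjugate Real

namespace Crest.Agent.R105.Fk_286

open Crest.Agent.R105.FK_644 Crest.Agent.Lib.Bieberbach

theorem dd_sub {A B : ℂ → ℂ} (hA : Differentiable ℝ A) (hB : Differentiable ℝ B) (z : ℂ) :
    dd (fun z => A z - B z) z = dd A z - dd B z := by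
  have h : fderiv ℝ (fun z => A z - B z) z = fderiv ℝ A z - fderiv ℝ B z :=
    fderiv_fun_sub (hA z) (hB z)
  simp only [dd, h, sub_apply]
  ring

theorem dd_sum {n : ℕ} {A : Fin n → ℂ → ℂ} (hA : ∀ i, Differentiable ℝ (A i)) (z : ℂ) :
    dd (fun z => ∑ i, A i z) z = ∑ i, dd (A i) z := by
  have h : fderiv ℝ (fun z => ∑ i, A i z) z = ∑ i, fderiv ℝ (A i) z :=
    fderiv_fun_sum fun i _ => hA i z
  simp only [dd, h, sum_apply, Finset.mul_sum, ← Finset.sum_sub_distrib,
    Finset.sum_div]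

theorem continuous_mul_of {χ H : ℂ → ℝ} (hχ : Continuous χ) {O : Set ℂ} (hO : IsOpen O)
    (hsub : tsupport χ ⊆ O) (hH : ContinuousOn H O) : Continuous (fun z => χ z * H z) := by
  refine continuous_of_tsupport fun z hz => ?_
  have hz' : z ∈ tsupport χ := tsupport_mul_subset_left hz
  exact hχ.continuousAt.mul (hH.continuousAt (hO.mem_nhds (hsub hz')))

theorem cont_int_ball {F : ℂ → ℝ} (hF : Continuous F) (R : ℝ) : IntegrableOn F (ball 0 R) :=
  (hF.continuousOn.integrableOn_compact (isCompact_closedBall 0 R)).mono_set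
    ball_subset_closedBall

section
variable {n : ℕ} {x : Fin n → ℂ × ℝ} {α β M : Fin n → ℝ} {c' : Fin n → ℂ}

/-- the sum of the cut-offs -/
noncomputable def sb (x : Fin n → ℂ × ℝ) (α β : Fin n → ℝ) (z : ℂ) : ℝ :=
  ∑ i, bb (x i).1 (α i) (β i) z

theorem continuous_sb : Continuous (sb x α β) :=
  continuous_finsetSum _ fun _ _ => continuous_bb

theorem sb_nonneg (z : ℂ) : 0 ≤ sb x α β z := Finset.sum_nonneg fun i _ => bb_nonneg z

theorem sb_single (hα0 : ∀ i, 0 < α i) (hαβ : ∀ i, α i < β i)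
    (hdisj : ∀ i j, i ≠ j → Disjoint (closedBall (x i).1 (β i)) (closedBall (x j).1 (β j)))
    {i : Fin n} {z : ℂ} (hz : z ∈ closedBall (x i).1 (β i)) :
    sb x α β z = bb (x i).1 (α i) (β i) z := by
  unfold sb
  apply Finset.sum_eq_single i
  · intro j _ hji
    apply bb_zero (hα0 j) (hαβ j)
    have := disjoint_left.1 (hdisj i j hji.symm) hz
    rw [mem_closedBall, dist_eq_norm, not_le] at this
    exact this.le
  · intro h; exact absurd (Finset.mem_univ i) h

theorem sb_zero (hα0 : ∀ i, 0 < α i) (hαβ : ∀ i, α i < β i) {z : ℂ}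
    (hz : ∀ i, z ∉ closedBall (x i).1 (β i)) : sb x α β z = 0 := by
  unfold sb
  apply Finset.sum_eq_zero
  intro i _
  apply bb_zero (hα0 i) (hαβ i)
  have := hz i
  rw [mem_closedBall, dist_eq_norm, not_le] at this
  exact this.le

theorem sb_le_one (hα0 : ∀ i, 0 < α i) (hαβ : ∀ i, α i < β i)
    (hdisj : ∀ i j, i ≠ j → Disjoint (closedBall (x i).1 (β i)) (closedBall (x j).1 (β j)))
    (z : ℂ) : sb x α β z ≤ 1 := by
  by_cases h : ∃ i, z ∈ closedBall (x i).1 (β i)
  · obtain ⟨i, hi⟩ := h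
    rw [sb_single hα0 hαβ hdisj hi]
    exact bb_le_one z
  · push Not at h
    rw [sb_zero hα0 hαβ h]
    exact zero_le_one

theorem sb_one (hα0 : ∀ i, 0 < α i) (hαβ : ∀ i, α i < β i)
    (hdisj : ∀ i j, i ≠ j → Disjoint (closedBall (x i).1 (β i)) (closedBall (x j).1 (β j)))
    {i : Fin n} {z : ℂ} (hz : ‖z - (x i).1‖ ≤ α i) : sb x α β z = 1 := by
  rw [sb_single hα0 hαβ hdisj (i := i), bb_one (hα0 i) (hαβ i) hz]
  rw [mem_closedBall, dist_eq_norm]
  exact hz.trans (hαβ i).le

/-- the closed set which contains the support of `1 - sb` -/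
def far (x : Fin n → ℂ × ℝ) (α : Fin n → ℝ) : Set ℂ := {z | ∀ i, α i ≤ ‖z - (x i).1‖}

theorem isClosed_far : IsClosed (far x α) := by
  have : far x α = ⋂ i, {z | α i ≤ ‖z - (x i).1‖} := by
    ext z; simp [far]
  rw [this]
  exact isClosed_iInter fun i => isClosed_le continuous_const
    (by fun_prop : Continuous fun z : ℂ => ‖z - (x i).1‖)

theorem far_sub (hα : ∀ i, (x i).2 < α i) : far x α ⊆ dom (discs x) := by
  intro z hz hmem
  obtain ⟨i, hi⟩ := mem_iUnion.1 hmem
  rw [discs, mem_closedBall, dist_eq_norm] at hi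
  exact absurd (hz i) (not_le.2 (hi.trans_lt (hα i)))

theorem tsupport_one_sub (hα0 : ∀ i, 0 < α i) (hαβ : ∀ i, α i < β i)
    (hdisj : ∀ i j, i ≠ j → Disjoint (closedBall (x i).1 (β i)) (closedBall (x j).1 (β j))) :
    tsupport (fun z => 1 - sb x α β z) ⊆ far x α := by
  apply closure_minimal _ isClosed_far
  intro z hz i
  by_contra hn
  apply hz
  simp only
  rw [sb_one hα0 hαβ hdisj (not_le.1 hn).le, sub_self]

/-- **the energy inequality** -/
theorem key_ineq (hr : ∀ i, 0 < (x i).2) (hα : ∀ i, (x i).2 < α i) (hαβ : ∀ i, α i < β i)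
    (hdisj : ∀ i j, i ≠ j → Disjoint (closedBall (x i).1 (β i)) (closedBall (x j).1 (β j)))
    {G : ℂ → ℂ} (hG : Sig (dom (discs x)) G) {E : Set ℂ} (hE : MeasurableSet E)
    (hEG : Disjoint (G '' dom (discs x)) E)
    (hM : ∀ i, ∀ z ∈ cann (x i).1 (α i) (β i), ‖G z - c' i‖ ≤ M i)
    {L : Set ℂ} (hL : IsCompact L) (hLd : ∀ i, Disjoint L (closedBall (x i).1 (β i))) :
    ∫ z in L, ‖deriv G z - 1‖ ^ 2 ≤
      (∑ i, π * (2 * β i ^ 2 * M i / α i - α i ^ 2)) - (volume E).toReal := by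
  set U : Set ℂ := dom (discs x) with hUdef
  have hU : IsOpen U := isOpen_dom (cpt_discs x)
  have hα0 : ∀ i, 0 < α i := fun i => (hr i).trans (hα i)
  have hβ0 : ∀ i, 0 < β i := fun i => (hα0 i).trans (hαβ i)
  -- a big disc
  obtain ⟨R0, hR0, hR0b, hR0U⟩ : ∃ R0 : ℝ, 0 < R0 ∧
      (∀ i, ∀ z ∈ closedBall (x i).1 (β i), ‖z‖ < R0) ∧ ∀ z, R0 < ‖z‖ → z ∈ U := by
    have hc : IsCompact (⋃ i, closedBall (x i).1 (β i)) :=
      isCompact_iUnion fun i => isCompact_closedBall _ _
    obtain ⟨B, hB⟩ := hc.isBounded.exists_norm_le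
    refine ⟨max B 0 + 1, by positivity, fun i z hz => ?_, fun z hz => ?_⟩
    · have h1 := hB z (mem_iUnion.2 ⟨i, hz⟩)
      have := le_max_left B 0
      linarith
    · intro hmem
      obtain ⟨i, hi⟩ := mem_iUnion.1 hmem
      have h1 := hB z (mem_iUnion.2 ⟨i, closedBall_subset_closedBall
        ((hα i).trans (hαβ i)).le hi⟩)
      have := le_max_left B 0
      linarith
  have hcU : ∀ i, cann (x i).1 (α i) (β i) ⊆ U := by
    intro i z hz hmem
    obtain ⟨j, hj⟩ := mem_iUnion.1 hmem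
    rw [discs, mem_closedBall, dist_eq_norm] at hj
    by_cases hij : i = j
    · subst hij
      exact absurd hz.1 (not_le.2 (hj.trans_lt (hα i)))
    · have h1 : z ∈ closedBall (x i).1 (β i) := by
        rw [mem_closedBall, dist_eq_norm]; exact hz.2
      have h2 : z ∈ closedBall (x j).1 (β j) := by
        rw [mem_closedBall, dist_eq_norm]
        exact hj.trans ((hα j).trans (hαβ j)).le
      exact disjoint_left.1 (hdisj i j hij) h1 h2
  -- the function `g`
  set g : ℂ → ℂ := fun z => G z - z with hg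
  have hgd : DifferentiableOn ℂ g U := hG.hol.sub differentiableOn_id
  have hg' : ∀ z ∈ U, deriv g z = deriv G z - 1 := by
    intro z hz
    have h1 : DifferentiableAt ℂ G z := hG.hol.differentiableAt (hU.mem_nhds hz)
    have h2 : HasDerivAt g (deriv G z - 1) z := h1.hasDerivAt.sub (hasDerivAt_id z)
    exact h2.deriv
  have hdc : ContinuousOn (deriv g) U := (hgd.deriv hU).continuousOn
  have hdcG : ContinuousOn (deriv G) U := (hG.hol.deriv hU).continuousOn
  obtain ⟨k, hk, hgk⟩ := ext_exp (g := g) hR0 (hgd.mono fun z hz => hR0U z hz) hG.inf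
  have hkd : DifferentiableOn ℂ (deriv k) (ball 0 1) := hk.deriv isOpen_ball
  have hR0c : (R0 : ℂ) ≠ 0 := by exact_mod_cast hR0.ne'
  set ε0 : ℝ := R0 + 1 with hε0
  set R1 : ℝ := R0 + 2 with hR1
  set R2 : ℝ := R0 + 3 with hR2
  have hR1p : 0 < R1 := by positivity
  have hR12 : R1 < R2 := by linarith
  -- the cut-offs
  set χ : ℂ → ℝ := fun z => 1 - sb x α β z with hχ
  set κ : ℂ → ℝ := bb 0 R1 R2 with hκ
  have hχc : Continuous χ := continuous_const.sub continuous_sb
  have hχs : tsupport χ ⊆ U :=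
    (tsupport_one_sub hα0 hαβ hdisj).trans (far_sub hα)
  have hχ0 : ∀ z, 0 ≤ χ z := fun z => sub_nonneg.2 (sb_le_one hα0 hαβ hdisj z)
  have hχ1 : ∀ z, χ z ≤ 1 := fun z => by
    have := sb_nonneg (x := x) (α := α) (β := β) z
    simp only [hχ]; linarith
  have hχU : ∀ z, z ∉ U → χ z = 0 := fun z hz =>
    image_eq_zero_of_notMem_tsupport fun h => hz (hχs h)
  have hκ1 : ∀ z : ℂ, ‖z‖ ≤ R1 → κ z = 1 := fun z hz =>
    bb_one hR1p hR12 (by rw [sub_zero]; exact hz)
  have hκ0 : ∀ z : ℂ, R2 ≤ ‖z‖ → κ z = 0 := fun z hz =>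
    bb_zero hR1p hR12 (by rw [sub_zero]; exact hz)
  have hsb0 : ∀ z : ℂ, R0 ≤ ‖z‖ → sb x α β z = 0 := fun z hz =>
    sb_zero hα0 hαβ fun i hi => absurd (hR0b i z hi) (not_lt.2 hz)
  set K : ℂ → ℂ := fun z => cb 0 R1 R2 z - ∑ i, cb (x i).1 (α i) (β i) z with hK
  have hKeq : ∀ z, K z = ((κ z - sb x α β z : ℝ) : ℂ) := by
    intro z
    simp only [hK, cb_eq, sb, hκ]
    push_cast
    rfl
  have hKd : ContDiff ℝ 1 K := by
    refine (contDiff_cb.of_le (by simp)).sub ?_
    exact ContDiff.sum fun i _ => contDiff_cb.of_le (by simp)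
  have hKc : HasCompactSupport K := by
    refine HasCompactSupport.of_support_subset_isCompact (isCompact_closedBall 0 R2) ?_
    intro z hz
    rw [mem_closedBall_zero_iff]
    by_contra hn
    apply hz
    have h1 := (not_le.1 hn).le
    rw [hKeq, hκ0 z h1, hsb0 z (by linarith), sub_zero, ofReal_zero]
  have hKs : tsupport K ⊆ U := by
    refine (closure_minimal ?_ isClosed_far : tsupport K ⊆ far x α).trans (far_sub hα)
    intro z hz i
    by_contra hn
    apply hz
    have h1 := (not_le.1 hn).le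
    have h2 : ‖z‖ < R0 := hR0b i z (by
      rw [mem_closedBall, dist_eq_norm]; exact h1.trans (hαβ i).le)
    rw [hKeq, sb_one hα0 hαβ hdisj h1, hκ1 z (by linarith), sub_self, ofReal_zero]
  have hdiff : ∀ (c : ℂ) (a b : ℝ), Differentiable ℝ (cb c a b) := fun c a b =>
    contDiff_cb.differentiable (by simp)
  have hKdd : ∀ z, dd K z = dd (cb 0 R1 R2) z - ∑ i, dd (cb (x i).1 (α i) (β i)) z := by
    intro z
    rw [hK, dd_sub (hdiff _ _ _) (Differentiable.fun_sum fun i _ => hdiff _ _ _),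
      dd_sum fun i => hdiff _ _ _]
  -- the annulus for `κ`
  have hcann0 : cann 0 R1 R2 ⊆ U := by
    intro z hz
    apply hR0U
    have : R1 ≤ ‖z - 0‖ := hz.1
    rw [sub_zero] at this
    linarith
  have hi0 : Integrable (fun z => dd (cb 0 R1 R2) z * g z) :=
    integrable_dd_cb hR1p hR12 hU hcann0 hgd.continuousOn
  have hii : ∀ i, Integrable (fun z => dd (cb (x i).1 (α i) (β i)) z * g z) := fun i =>
    integrable_dd_cb (hα0 i) (hαβ i) hU (hcU i) hgd.continuousOn
  -- real part of the outer term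
  have hout : (∫ z, dd (cb 0 R1 R2) z * g z).re = 0 := by
    have h1 := integral_re (𝕜 := ℂ) hi0
    simp only [RCLike.re_to_complex] at h1
    rw [← h1]
    set w : ℝ → ℝ := fun t => deriv (bump (R1 ^ 2) (R2 ^ 2)) (t ^ 2) * t ^ 2 with hw
    have hwc : Continuous w := by
      have h2 : Continuous (deriv (bump (R1 ^ 2) (R2 ^ 2))) :=
        (contDiff_bump _ _).continuous_deriv (by simp)
      exact (h2.comp (continuous_pow 2)).mul (continuous_pow 2)
    have h3 := (ann_zero (Ψ := fun ζ => ζ ^ 2 * k ζ / R0) (R0 := R0) (ε := ε0) (r := R0 + 4)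
      (((differentiableOn_id.pow 2).mul hk).div_const _) (by simp) hR0 (by linarith) hwc).2
    rw [← h3]
    have h4 : ∀ z : ℂ, z ∉ ann ε0 (R0 + 4) → (dd (cb 0 R1 R2) z * g z).re = 0 := by
      intro z hz
      have : dd (cb 0 R1 R2) z = 0 := by
        apply dd_cb_zero hR1p hR12
        rw [sub_zero]
        simp only [ann, mem_ofPred_eq, not_and_or, not_lt] at hz
        rcases hz with hz | hz
        · left; linarith
        · right; linarith
      rw [this]; simp
    rw [← setIntegral_eq_integral_of_forall_compl_eq_zero (s := ann ε0 (R0 + 4)) h4]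
    apply setIntegral_congr_fun (isOpen_ann _ _).measurableSet
    intro z hz
    have hz1 : ε0 < ‖z‖ := hz.1
    have hz0 : z ≠ 0 := by rw [← norm_pos_iff]; linarith
    simp only
    rw [dd_cb, hgk z (by linarith), sub_zero, normSq_eq_norm_sq]
    have e1 : ((deriv (bump (R1 ^ 2) (R2 ^ 2)) (‖z‖ ^ 2) : ℝ) : ℂ) * conj z *
        ((R0 : ℂ) / z * k ((R0 : ℂ) / z)) = ((w ‖z‖ : ℝ) : ℂ) *
        (((R0 : ℂ) / z) ^ 2 * k ((R0 : ℂ) / z) / R0) := by
      have e2 : ((‖z‖ ^ 2 : ℝ) : ℂ) = z * conj z := by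
        rw [mul_conj, normSq_eq_norm_sq]
      simp only [hw]
      rw [ofReal_mul, e2]
      field_simp
    rw [e1, re_ofReal_mul]
  -- the main term
  have hmain : (∑ i, ((∫ z, bb (x i).1 (α i) (β i) z) -
      M i * (∫ z, bb (x i).1 (α i) (β i) z) / α i)) ≤ (∫ z, K z * deriv g z).re := by
    rw [ibp hKd hKc hU hKs hgd]
    have h1 : ∫ z, dd K z * g z = (∫ z, dd (cb 0 R1 R2) z * g z) -
        ∑ i, ∫ z, dd (cb (x i).1 (α i) (β i)) z * g z := by
      rw [← integral_finsetSum _ fun i _ => hii i, ← integral_sub hi0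
        (integrable_finsetSum _ fun i _ => hii i)]
      congr 1
      funext z
      rw [hKdd, sub_mul, Finset.sum_mul]
    rw [h1, neg_sub, sub_re, hout, sub_zero, re_sum]
    exact Finset.sum_le_sum fun i _ => bd_term (hα0 i) (hαβ i) hU (hcU i)
      hG.hol.continuousOn (hM i)
  -- the area at infinity
  obtain ⟨e, he0, heR⟩ := area_ext hU hG hR0 hR0U hE hEG
  -- everything at a fixed radius
  set m : Fin n → ℝ := fun i => ∫ z, bb (x i).1 (α i) (β i) z with hm
  have hfix : ∀ᶠ R in atTop, ∫ z in L, ‖deriv G z - 1‖ ^ 2 ≤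
      e R - (volume E).toReal + ∑ i, (2 * M i * m i / α i - m i) := by
    obtain ⟨BL, hBL⟩ := hL.isBounded.exists_norm_le
    filter_upwards [heR, eventually_gt_atTop (R0 + 4), eventually_gt_atTop BL,
      eventually_gt_atTop 0] with R hR hR4 hRL hRp
    obtain ⟨hR5, hR6⟩ := hR
    -- the four continuous functions
    have hF1 : Continuous fun z => χ z * ‖deriv g z‖ ^ 2 :=
      continuous_mul_of hχc hU hχs (hdc.norm.pow 2)
    have hF2 : Continuous fun z => χ z * (deriv g z).re :=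
      continuous_mul_of hχc hU hχs (continuous_re.comp_continuousOn hdc)
    have hF3 : Continuous fun z => χ z * ‖deriv G z‖ ^ 2 :=
      continuous_mul_of hχc hU hχs (hdcG.norm.pow 2)
    -- pointwise identity
    have hpt : ∀ z, χ z * ‖deriv g z‖ ^ 2 =
        χ z * ‖deriv G z‖ ^ 2 - 2 * (χ z * (deriv g z).re) - χ z := by
      intro z
      by_cases hz : z ∈ U
      · have h1 : deriv G z = deriv g z + 1 := by rw [hg' z hz]; ring
        rw [h1, ← normSq_eq_norm_sq, ← normSq_eq_norm_sq, normSq_add]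
        simp only [map_one, mul_one]
        ring
      · rw [hχU z hz]; ring
    have hI : ∫ z in ball 0 R, χ z * ‖deriv g z‖ ^ 2 =
        (∫ z in ball 0 R, χ z * ‖deriv G z‖ ^ 2) - 2 * (∫ z in ball 0 R, χ z * (deriv g z).re) -
        ∫ z in ball 0 R, χ z := by
      simp only [hpt]
      rw [integral_sub, integral_sub, integral_const_mul]
      · exact cont_int_ball hF3 R
      · exact (cont_int_ball hF2 R).const_mul 2
      · exact (cont_int_ball hF3 R).sub ((cont_int_ball hF2 R).const_mul 2)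
      · exact cont_int_ball hχc R
    -- (L)
    have hLU : L ⊆ U := by
      intro z hz hmem
      obtain ⟨i, hi⟩ := mem_iUnion.1 hmem
      exact disjoint_left.1 (hLd i) hz (closedBall_subset_closedBall
        ((hα i).trans (hαβ i)).le hi)
    have hL1 : ∫ z in L, ‖deriv G z - 1‖ ^ 2 ≤ ∫ z in ball 0 R, χ z * ‖deriv g z‖ ^ 2 := by
      have h1 : ∫ z in L, ‖deriv G z - 1‖ ^ 2 = ∫ z in L, χ z * ‖deriv g z‖ ^ 2 := by
        apply setIntegral_congr_fun hL.isClosed.measurableSet
        intro z hz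
        simp only
        rw [hg' z (hLU hz), hχ]
        simp only
        rw [sb_zero hα0 hαβ fun i hi => disjoint_left.1 (hLd i) hz hi, sub_zero, one_mul]
      rw [h1]
      apply setIntegral_mono_set (cont_int_ball hF1 R)
      · exact Eventually.of_forall fun z => mul_nonneg (hχ0 z) (by positivity)
      · apply LE.le.eventuallyLE
        intro z hz
        rw [mem_ball_zero_iff]
        exact (hBL z hz).trans_lt hRL
    -- (vol)
    have hV : ∫ z in ball 0 R, χ z * ‖deriv G z‖ ^ 2 ≤ π * R ^ 2 + e R - (volume E).toReal := by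
      have hUR : IsOpen (U ∩ ball 0 R) := hU.inter isOpen_ball
      have hvol := vol_image (G := G) (G' := deriv G) (s := U ∩ ball 0 R) hUR.measurableSet
        (fun z hz => (hG.hol.differentiableAt (hU.mem_nhds hz.1)).hasDerivAt)
        (hG.inj.mono inter_subset_left)
      have h1 : ∫ z in ball 0 R, χ z * ‖deriv G z‖ ^ 2 =
          ∫ z in U ∩ ball 0 R, χ z * ‖deriv G z‖ ^ 2 := by
        apply setIntegral_eq_of_subset_of_forall_sdiff_eq_zero measurableSet_ball
          inter_subset_right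
        intro z hz
        have : z ∉ U := fun h => hz.2 ⟨h, hz.1⟩
        rw [hχU z this, zero_mul]
      have hfin : volume (G '' (U ∩ ball 0 R)) ≠ ⊤ := by
        intro h
        rw [h, top_add] at hR6
        exact ENNReal.ofReal_ne_top (top_le_iff.1 hR6)
      have hfinE : volume E ≠ ⊤ := by
        intro h
        rw [h, add_top] at hR6
        exact ENNReal.ofReal_ne_top (top_le_iff.1 hR6)
      have hmeas : AEStronglyMeasurable (fun z => ‖deriv G z‖ ^ 2)
          (volume.restrict (U ∩ ball 0 R)) :=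
        ((hdcG.mono inter_subset_left).norm.pow 2).aestronglyMeasurable hUR.measurableSet
      have hint : IntegrableOn (fun z => ‖deriv G z‖ ^ 2) (U ∩ ball 0 R) := by
        refine ⟨hmeas, ?_⟩
        rw [hasFiniteIntegral_iff_ofReal (Eventually.of_forall fun z => by positivity), hvol]
        exact lt_top_iff_ne_top.2 hfin
      have h2 : ∫ z in U ∩ ball 0 R, χ z * ‖deriv G z‖ ^ 2 ≤
          ∫ z in U ∩ ball 0 R, ‖deriv G z‖ ^ 2 := by
        apply integral_mono_of_nonneg (Eventually.of_forall fun z =>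
          mul_nonneg (hχ0 z) (by positivity)) hint
        apply Eventually.of_forall
        intro z
        simp only
        exact mul_le_of_le_one_left (by positivity) (hχ1 z)
      have h3 : ∫ z in U ∩ ball 0 R, ‖deriv G z‖ ^ 2 =
          (volume (G '' (U ∩ ball 0 R))).toReal := by
        rw [integral_eq_lintegral_of_nonneg_ae (Eventually.of_forall fun z => by positivity)
          hmeas, hvol]
      have h4 : (volume (G '' (U ∩ ball 0 R))).toReal + (volume E).toReal ≤
          π * R ^ 2 + e R := by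
        rw [← ENNReal.toReal_add hfin hfinE, ← ENNReal.toReal_ofReal hR5]
        exact ENNReal.toReal_mono ENNReal.ofReal_ne_top hR6
      rw [h1]
      linarith [h2, h3, h4]
    -- (χ)
    have hX : ∫ z in ball 0 R, χ z = π * R ^ 2 - ∑ i, m i := by
      have hbi : ∀ i, ∫ z in ball 0 R, bb (x i).1 (α i) (β i) z = m i := by
        intro i
        apply setIntegral_eq_integral_of_forall_compl_eq_zero
        intro z hz
        apply bb_zero (hα0 i) (hαβ i)
        rw [mem_ball_zero_iff, not_lt] at hz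
        by_contra hn
        have := hR0b i z (by rw [mem_closedBall, dist_eq_norm]; exact (not_le.1 hn).le)
        linarith
      have h1 : ∫ z in ball 0 R, sb x α β z = ∑ i, m i := by
        unfold sb
        rw [integral_finsetSum _ fun i _ => (cont_int_ball continuous_bb R)]
        exact Finset.sum_congr rfl fun i _ => hbi i
      have h2 : ∫ z in ball (0 : ℂ) R, (1 : ℝ) = π * R ^ 2 := by
        rw [setIntegral_const, smul_eq_mul, mul_one, Measure.real, Complex.volume_ball]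
        simp [hRp.le, ENNReal.toReal_mul, mul_comm]
      rw [← h1, ← h2, ← integral_sub (cont_int_ball continuous_const R)
        (cont_int_ball continuous_sb R)]
    -- (Re g')
    have hT : (∫ z, K z * deriv g z).re = ∫ z in ball 0 R, χ z * (deriv g z).re := by
      have hiK : Integrable (fun z => K z * deriv g z) :=
        (integrable_of_tsupport hKd.continuous hKc hU hKs hdc).2
      have h1 := integral_re (𝕜 := ℂ) hiK
      simp only [RCLike.re_to_complex] at h1
      have h2 : ∀ z, (K z * deriv g z).re = (κ z - sb x α β z) * (deriv g z).re := by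
        intro z; rw [hKeq, re_ofReal_mul]
      have h3 : ∫ z in ball 0 R, (K z * deriv g z).re = ∫ z, (K z * deriv g z).re := by
        apply setIntegral_eq_integral_of_forall_compl_eq_zero
        intro z hz
        rw [mem_ball_zero_iff, not_lt] at hz
        rw [h2, hκ0 z (by linarith), hsb0 z (by linarith), sub_zero, zero_mul]
      have hF4 : Continuous fun z => (1 - κ z) * (deriv g z).re := by
        refine continuous_mul_of (continuous_const.sub continuous_bb) hU ?_
          (continuous_re.comp_continuousOn hdc)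
        refine (closure_minimal ?_ (isClosed_le continuous_const continuous_norm :
          IsClosed {z : ℂ | R1 ≤ ‖z‖})).trans ?_
        · intro z hz
          by_contra hn
          apply hz
          simp only
          have h5 := hκ1 z (not_le.1 hn).le
          rw [h5, sub_self]
        · intro z hz
          exact hR0U z (by have : R1 ≤ ‖z‖ := hz; linarith)
      have hF5 : Continuous fun z => (K z * deriv g z).re :=
        continuous_re.comp (integrable_of_tsupport hKd.continuous hKc hU hKs hdc).1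
      have h4 : ∫ z in ball 0 R, (1 - κ z) * (deriv g z).re = 0 := by
        set w : ℝ → ℝ := fun t => 1 - bump (R1 ^ 2) (R2 ^ 2) (t ^ 2) with hw
        have hwc : Continuous w :=
          continuous_const.sub ((contDiff_bump _ _).continuous.comp (continuous_pow 2))
        have h5 := (ann_zero (Ψ := fun ζ => -(ζ ^ 2 / R0) * (k ζ + ζ * deriv k ζ)) (R0 := R0)
          (ε := ε0) (r := R) (by
            apply DifferentiableOn.mul
            · exact ((differentiableOn_id.pow 2).div_const _).neg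
            · exact hk.add (differentiableOn_id.mul hkd)) (by simp) hR0 (by linarith) hwc).2
        rw [← h5]
        have h6 : ∫ z in ann ε0 R, (1 - κ z) * (deriv g z).re =
            ∫ z in ball 0 R, (1 - κ z) * (deriv g z).re := by
          symm
          apply setIntegral_eq_of_subset_of_forall_sdiff_eq_zero measurableSet_ball
          · intro z hz; rw [mem_ball_zero_iff]; exact hz.2
          · intro z hz
            rw [hκ1 z, sub_self, zero_mul]
            by_contra hn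
            apply hz.2
            exact ⟨by linarith [not_le.1 hn], by simpa using hz.1⟩
        rw [← h6]
        apply setIntegral_congr_fun (isOpen_ann _ _).measurableSet
        intro z hz
        have hz1 : ε0 < ‖z‖ := hz.1
        have hz0 : z ≠ 0 := by rw [← norm_pos_iff]; linarith
        have hzR : R0 < ‖z‖ := by linarith
        have hζ : (R0 : ℂ) / z ∈ ball (0 : ℂ) 1 := by
          rw [mem_ball_zero_iff, norm_div, norm_real, Real.norm_eq_abs, abs_of_pos hR0,
            div_lt_one (by linarith)]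
          exact hzR
        have h7 : HasDerivAt (fun z : ℂ => (R0 : ℂ) / z) (-(R0 : ℂ) / z ^ 2) z := by
          have h := (hasDerivAt_const z (R0 : ℂ)).div (hasDerivAt_id z) hz0
          have e2 : (0 * id z - (R0 : ℂ) * 1) / id z ^ 2 = -(R0 : ℂ) / z ^ 2 := by simp
          rw [e2] at h
          exact h
        have h8 : HasDerivAt (fun z : ℂ => ((R0 : ℂ) / z) * k ((R0 : ℂ) / z))
            ((-(R0 : ℂ) / z ^ 2) * k ((R0 : ℂ) / z) + ((R0 : ℂ) / z) *
              (deriv k ((R0 : ℂ) / z) * (-(R0 : ℂ) / z ^ 2))) z := by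
          have h9 : HasDerivAt k (deriv k ((R0 : ℂ) / z)) ((R0 : ℂ) / z) :=
            (hk.differentiableAt (isOpen_ball.mem_nhds hζ)).hasDerivAt
          exact h7.mul (h9.comp z h7)
        have h10 : deriv g z = -(((R0 : ℂ) / z) ^ 2 / R0) *
            (k ((R0 : ℂ) / z) + ((R0 : ℂ) / z) * deriv k ((R0 : ℂ) / z)) := by
          have h11 : g =ᶠ[𝓝 z] fun z : ℂ => ((R0 : ℂ) / z) * k ((R0 : ℂ) / z) := by
            have : {z : ℂ | R0 < ‖z‖} ∈ 𝓝 z :=
              (isOpen_lt continuous_const continuous_norm).mem_nhds hzR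
            filter_upwards [this] with w hw
            exact hgk w hw
          rw [h11.deriv_eq, h8.deriv]
          field_simp
          ring
        simp only
        rw [h10]
        congr 1
        simp only [hw, hκ, bb, sub_zero, normSq_eq_norm_sq]
      rw [← h1, ← h3]
      have h5 : ∀ z, χ z * (deriv g z).re = (K z * deriv g z).re + (1 - κ z) * (deriv g z).re := by
        intro z; rw [h2]; simp only [hχ]; ring
      simp only [h5]
      rw [integral_add (cont_int_ball hF5 R) (cont_int_ball hF4 R), h4, add_zero]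
    rw [hT] at hmain
    have hsum : ∑ i, (m i - M i * m i / α i) = ∑ i, m i - ∑ i, M i * m i / α i :=
      Finset.sum_sub_distrib _ _
    have hsum2 : ∑ i, (2 * M i * m i / α i - m i) = 2 * ∑ i, M i * m i / α i - ∑ i, m i := by
      rw [Finset.sum_sub_distrib, Finset.mul_sum]
      congr 1
      exact Finset.sum_congr rfl fun i _ => by ring
    rw [hsum] at hmain
    rw [hsum2]
    rw [hX] at hI
    linarith [hL1, hI, hV, hmain]
  have hlim : ∫ z in L, ‖deriv G z - 1‖ ^ 2 ≤
      0 - (volume E).toReal + ∑ i, (2 * M i * m i / α i - m i) :=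
    ge_of_tendsto ((he0.sub_const _).add_const _) hfix
  refine hlim.trans ?_
  have hMn : ∀ i, 0 ≤ M i := by
    intro i
    have h4 : (x i).1 + (α i : ℂ) ∈ cann (x i).1 (α i) (β i) := by
      simp only [cann, mem_ofPred_eq, add_sub_cancel_left, norm_real, Real.norm_eq_abs,
        abs_of_pos (hα0 i)]
      exact ⟨le_rfl, (hαβ i).le⟩
    exact (norm_nonneg _).trans (hM i _ h4)
  have hfin : ∑ i, (2 * M i * m i / α i - m i) ≤
      ∑ i, π * (2 * β i ^ 2 * M i / α i - α i ^ 2) := by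
    apply Finset.sum_le_sum
    intro i _
    have h1 := int_bb_ge (c := (x i).1) (hα0 i) (hαβ i)
    have h2 := int_bb_le (c := (x i).1) (hα0 i) (hαβ i)
    have h3 : 2 * M i * m i / α i ≤ 2 * M i * (π * β i ^ 2) / α i := by
      apply div_le_div_of_nonneg_right _ (hα0 i).le
      apply mul_le_mul_of_nonneg_left h2
      linarith [hMn i]
    have h4 : π * (2 * β i ^ 2 * M i / α i - α i ^ 2) =
        2 * M i * (π * β i ^ 2) / α i - π * α i ^ 2 := by ring
    rw [h4]
    exact sub_le_sub h3 h1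
  linarith

end

end Crest.Agent.R105.Fk_286
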