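import Crest.Agent.R105.LmS2_392
import Crest.Agent.R105.Ta2_937
import Crest.Agent.R105.Pct4_185
import Crest.Agent.R105.Dir3_508

-- ▼ part R105/Fml1_61
section

/-!
# Row 105, S0138, E13, piece (1) of 499 #11166 : FORMULA and COUNT, part 1 (helper61)

* `stokes_cut` : `∫_U d(χ q) ∧ dy = ∫_U χ dq ∧ dy + ∫_U y dq ∧ dχ`
* `tendsto_chi` : `∫_U χ_n dq ∧ dy → 0` if `χ_n → 0` on `U`, supports in one ball
* `wdg_sq` : `d(g²) ∧ dχ = 2 g (θ(x) h'(u) du ∧ dχ + h(u) θ'(x) dx ∧ dχ)` for `g = h(u) θ(x) 1_O`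
* `to_pic` : change of variables to a univalent picture
-/

set_option autoImplicit false

open MeasureTheory Set Filter Topology Metric
open scoped ENNReal NNReal ContDiff

namespace Crest.Agent.R105.Fml_61

open Bd_775 LmS_392

noncomputable section

variable {U : Set ℂ} {χ q y g u x : ℂ → ℝ} {h th : ℝ → ℝ}

lemma wdg_mul_l {a b c : ℂ → ℝ} {z : ℂ} (ha : DifferentiableAt ℝ a z)
    (hb : DifferentiableAt ℝ b z) :
    wdg (fun w => a w * b w) c z = a z * wdg b c z + b z * wdg a c z := by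
  unfold wdg; rw [gx_mul ha hb, gy_mul ha hb]; ring

lemma wdg_comm (a b : ℂ → ℝ) (z : ℂ) : wdg a b z = -wdg b a z := by
  unfold wdg; ring


lemma integrableOn_wdg_lc (hU : IsOpen U) (ha : LocallyLipschitzOn U q) (h1 : ContDiff ℝ 1 χ)
    (hc : HasCompactSupport χ) (hsub : tsupport (fderiv ℝ χ) ⊆ U) :
    IntegrableOn (wdg q χ) U :=
  ⟨(measurable_wdg _ _).aestronglyMeasurable, lt_top_iff_ne_top.2 (lint_wdg hU ha h1 hc hsub)⟩

/-- a weight which is continuous on `U` keeps the integrability against `dχ` -/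
lemma integrableOn_mul_wdg_lc (hU : IsOpen U) (ha : LocallyLipschitzOn U q)
    (hy : ContinuousOn y U) (h1 : ContDiff ℝ 1 χ)
    (hc : HasCompactSupport χ) (hsub : tsupport (fderiv ℝ χ) ⊆ U) :
    IntegrableOn (fun z => y z * wdg q χ z) U := by
  have hK := (hc.fderiv ℝ).isCompact
  obtain ⟨N, hN⟩ := hK.exists_bound_of_continuousOn (hy.mono hsub)
  have h2 : IntegrableOn (fun z => |N| * ‖wdg q χ z‖) U :=
    ((integrableOn_wdg_lc hU ha h1 hc hsub).norm).const_mul _
  refine Integrable.mono' h2 ((hy.aestronglyMeasurable hU.measurableSet).mul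
    (measurable_wdg _ _).aestronglyMeasurable) (Eventually.of_forall fun z => ?_)
  rw [norm_mul]
  by_cases hz : z ∈ tsupport (fderiv ℝ χ)
  · exact mul_le_mul_of_nonneg_right ((hN z hz).trans (le_abs_self N)) (norm_nonneg _)
  · have : wdg q χ z = 0 := by
      unfold wdg gx gy
      rw [image_eq_zero_of_notMem_tsupport hz]; simp
    rw [this]; simp

/-- **Stokes for the cut function** -/
theorem stokes_cut (hU : IsOpen U) (hq : LocallyLipschitzOn U q) (hy : LocallyLipschitzOn U y)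
    (hint : IntegrableOn (fun z => χ z * wdg q y z) U) (h1 : ContDiff ℝ 1 χ)
    (hc : HasCompactSupport χ) (hsub : tsupport (fderiv ℝ χ) ⊆ U) :
    ∫ z in U, wdg (fun w => χ w * q w) y z =
      (∫ z in U, χ z * wdg q y z) + ∫ z in U, y z * wdg q χ z := by
  have h2 := stokes hU (ll_mul' hq hy) h1 hc hsub
  have i1 := integrableOn_mul_wdg_lc hU hq hy.continuousOn h1 hc hsub
  have i2 := integrableOn_mul_wdg_lc hU hy hq.continuousOn h1 hc hsub
  have e1 : ∫ z in U, wdg (fun w => q w * y w) χ z =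
      (∫ z in U, q z * wdg y χ z) + ∫ z in U, y z * wdg q χ z := by
    rw [← integral_add i2 i1]
    refine integral_congr_ae ?_
    filter_upwards [Bd_775.ae_diff hU hq, Bd_775.ae_diff hU hy] with z h3 h4
    exact wdg_mul_l h3 h4
  have e2 : ∫ z in U, wdg (fun w => χ w * q w) y z =
      (∫ z in U, χ z * wdg q y z) - ∫ z in U, q z * wdg y χ z := by
    rw [← integral_sub hint i2]
    refine integral_congr_ae ?_
    filter_upwards [Bd_775.ae_diff hU hq] with z h3
    rw [wdg_mul_l (h1.differentiable one_ne_zero z) h3, wdg_comm χ y]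
    ring
  rw [e2]
  rw [e1] at h2
  linarith

/-- the interior term tends to zero -/
theorem tendsto_chi {X : ℕ → ℂ → ℝ} {R M : ℝ} (hU : IsOpen U)
    (hq : IntegrableOn (en q) (U ∩ ball 0 R)) (hy : IntegrableOn (en y) (U ∩ ball 0 R))
    (hXm : ∀ n, Continuous (X n)) (hX1 : ∀ n z, |X n z| ≤ M)
    (hXR : ∀ n z, z ∉ ball (0 : ℂ) R → X n z = 0)
    (hX0 : ∀ z ∈ U, Tendsto (fun n => X n z) atTop (𝓝 0)) :
    (∀ n, IntegrableOn (fun z => X n z * wdg q y z) U) ∧
    Tendsto (fun n => ∫ z in U, X n z * wdg q y z) atTop (𝓝 0) := by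
  have hS : MeasurableSet (U ∩ ball (0 : ℂ) R) := hU.measurableSet.inter measurableSet_ball
  set B : ℂ → ℝ := fun z => |M| * ((U ∩ ball (0 : ℂ) R).indicator (fun z => (en q z + en y z) / 2) z)
    with hB
  have iB : IntegrableOn B U := by
    refine Integrable.const_mul ?_ _
    have : Integrable ((U ∩ ball (0 : ℂ) R).indicator (fun z => (en q z + en y z) / 2)) := by
      rw [integrable_indicator_iff hS]
      exact (hq.add hy).div_const 2
    exact this.integrableOn
  have hle : ∀ n, ∀ᵐ z ∂(volume.restrict U), ‖X n z * wdg q y z‖ ≤ B z := by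
    intro n
    filter_upwards [ae_restrict_mem hU.measurableSet] with z hz
    rw [norm_mul, hB]
    beta_reduce
    by_cases hzR : z ∈ ball (0 : ℂ) R
    · have hm : z ∈ U ∩ ball (0 : ℂ) R := ⟨hz, hzR⟩
      rw [indicator_of_mem hm]
      exact mul_le_mul ((hX1 n z).trans (le_abs_self M)) (abs_wdg_le q y z) (norm_nonneg _)
        (abs_nonneg _)
    · rw [hXR n z hzR, norm_zero, zero_mul]
      refine mul_nonneg (abs_nonneg _) (indicator_nonneg (fun z _ => ?_) _)
      have h1 := en_nonneg q z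
      have h2 := en_nonneg y z
      positivity
  have hm : ∀ n, AEStronglyMeasurable (fun z => X n z * wdg q y z) (volume.restrict U) := fun n =>
    (hXm n).aestronglyMeasurable.mul (measurable_wdg _ _).aestronglyMeasurable
  refine ⟨fun n => Integrable.mono' iB (hm n) (hle n), ?_⟩
  have h3 := tendsto_integral_of_dominated_convergence (μ := volume.restrict U)
    (F := fun n z => X n z * wdg q y z) (f := fun _ => (0 : ℝ)) B hm iB hle ?_
  · simpa using h3
  · filter_upwards [ae_restrict_mem hU.measurableSet] with z hz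
    simpa using (hX0 z hz).mul_const (wdg q y z)

/-- a locally Lipschitz square has zero derivative at its zeros -/
lemma fderiv_sq_zero {z : ℂ} (hU : IsOpen U) (hg : LocallyLipschitzOn U g) (hz : z ∈ U)
    (h0 : g z = 0) : HasFDerivAt (fun w => g w ^ 2) (0 : ℂ →L[ℝ] ℝ) z := by
  obtain ⟨K, s, hs, hL⟩ := hg hz
  rw [hU.nhdsWithin_eq hz] at hs
  rw [hasFDerivAt_iff_isLittleO_nhds_zero]
  have h1 : ∀ᶠ v : ℂ in 𝓝 0, z + v ∈ s := by
    have : Tendsto (fun v : ℂ => z + v) (𝓝 0) (𝓝 z) := by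
      have h5 : Continuous fun v : ℂ => z + v := by fun_prop
      have h6 := h5.tendsto 0
      rwa [add_zero] at h6
    exact this hs
  have hO : (fun v : ℂ => g (z + v) ^ 2 - g z ^ 2 - (0 : ℂ →L[ℝ] ℝ) v) =O[𝓝 0]
      fun v : ℂ => ‖v‖ ^ 2 := by
    refine Asymptotics.IsBigO.of_bound ((K : ℝ) ^ 2) ?_
    filter_upwards [h1] with v hv
    have h2 := hL.dist_le_mul _ hv _ (mem_of_mem_nhds hs)
    rw [h0, Real.dist_eq, sub_zero, dist_eq_norm, add_sub_cancel_left] at h2
    rw [h0]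
    simp only [ne_eq, OfNat.ofNat_ne_zero, not_false_eq_true, zero_pow, sub_zero,
      _root_.zero_apply, norm_pow, Real.norm_eq_abs, abs_norm]
    calc |g (z + v)| ^ 2 ≤ (K * ‖v‖) ^ 2 := pow_le_pow_left₀ (abs_nonneg _) h2 2
      _ = _ := by ring
  refine hO.trans_isLittleO ?_
  have := Asymptotics.isLittleO_norm_pow_id (E' := ℂ) (n := 2) (by norm_num)
  exact this

/-- **the differential of `g²`**, `g = h(u) θ(x) 1_O` -/
theorem wdg_sq {z : ℂ} (hU : IsOpen U) (hg : LocallyLipschitzOn U g) (hz : z ∈ U)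
    (hloc : g z ≠ 0 → ∀ᶠ w in 𝓝 z, g w = h (u w) * th (x w))
    (hu : DifferentiableAt ℝ u z) (hx : DifferentiableAt ℝ x z)
    (hh : DifferentiableAt ℝ h (u z)) (hth : DifferentiableAt ℝ th (x z)) (χ : ℂ → ℝ) :
    wdg (fun w => g w ^ 2) χ z = deriv h (u z) * (2 * g z * th (x z)) * wdg u χ z +
      deriv th (x z) * (2 * g z * h (u z)) * wdg x χ z := by
  by_cases h0 : g z = 0
  · have h1 := (fderiv_sq_zero hU hg hz h0).fderiv
    have : wdg (fun w => g w ^ 2) χ z = 0 := by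
      unfold wdg gx gy; rw [h1]; simp
    rw [this, h0]; ring
  · have h1 : (fun w => g w ^ 2) =ᶠ[𝓝 z] fun w => (h (u w) * th (x w)) * (h (u w) * th (x w)) := by
      filter_upwards [hloc h0] with w hw
      rw [hw]; ring
    have hz1 : g z = h (u z) * th (x z) := (hloc h0).self_of_nhds
    have dhu : HasFDerivAt (fun w => h (u w)) (deriv h (u z) • fderiv ℝ u z) z :=
      hh.hasDerivAt.comp_hasFDerivAt z hu.hasFDerivAt
    have dtx : HasFDerivAt (fun w => th (x w)) (deriv th (x z) • fderiv ℝ x z) z :=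
      hth.hasDerivAt.comp_hasFDerivAt z hx.hasFDerivAt
    have dp : DifferentiableAt ℝ (fun w => h (u w) * th (x w)) z :=
      dhu.differentiableAt.mul dtx.differentiableAt
    rw [wdg_eq_of_eventuallyEq h1 (EventuallyEq.refl _ χ), wdg_mul_l dp dp,
      wdg_mul_l dhu.differentiableAt dtx.differentiableAt]
    have e1 : wdg (fun w => h (u w)) χ z = deriv h (u z) * wdg u χ z := by
      unfold wdg gx gy; rw [dhu.fderiv]
      simp only [FunLike.coe_smul, Pi.smul_apply, smul_eq_mul]; ring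
    have e2 : wdg (fun w => th (x w)) χ z = deriv th (x z) * wdg x χ z := by
      unfold wdg gx gy; rw [dtx.fderiv]
      simp only [FunLike.coe_smul, Pi.smul_apply, smul_eq_mul]; ring
    rw [e1, e2, hz1]; ring

/-- **change of variables to a univalent picture** -/
theorem to_pic {P : ℂ → ℂ} (hP : Tra_937.Uni U P) (G : ℝ → ℝ) (w : ℂ → ℝ)
    (hu : ∀ z ∈ U, u z = (P z).re) (hχ : LocallyLipschitzOn U χ) :
    ∫ z in U, G (u z) * w z * wdg u χ z =
      ∫ z in P '' U, G z.re * w (Tra_937.inv U P z) * gy (χ ∘ Tra_937.inv U P) z := by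
  have hOp := hP.op
  have hl : LocallyLipschitzOn (P '' U) (χ ∘ Tra_937.inv U P) := by
    have := hP.symm.locLip_comp (u := χ) (by rw [hP.image_inv]; exact hχ)
    exact this
  have h1 := hP.integral_wdg_re hOp.measurableSet subset_rfl
    (fun z => G z.re * w (Tra_937.inv U P z)) (w := χ ∘ Tra_937.inv U P)
    (Bd_775.ae_diff hP.isOpen_image hl)
  refine Eq.trans ?_ h1
  refine setIntegral_congr_fun hOp.measurableSet fun z hz => ?_
  have e1 : wdg u χ z = wdg (fun z => (P z).re) ((χ ∘ Tra_937.inv U P) ∘ P) z := by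
    refine wdg_eq_of_eventuallyEq ?_ ?_
    · filter_upwards [hOp.mem_nhds hz] with v hv using hu v hv
    · filter_upwards [hOp.mem_nhds hz] with v hv
      simp only [Function.comp_apply]
      rw [hP.inv_apply hv]
  rw [e1, hP.inv_apply hz, hu z hz]
  rfl

end

end Crest.Agent.R105.Fml_61
end

-- ▼ part R105/Fml2_61

/-!
# Row 105, S0138, E13, piece (1) of 499 #11166, part 2 (helper61): cut-off sequences

`ChnE E K χ` : smooth cut-off functions, locally constant near `E`, `= 1` on the component `K`,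
with supports shrinking to `K`.
* `exists_chn` : existence
* `chn_pull`, `chn_push` : transport by an `EndMap` (z-plane ↔ picture)
* `exists_chn3` : one sequence with its two pictures
-/

set_option autoImplicit false

open MeasureTheory Set Filter Topology Metric
open scoped ENNReal NNReal ContDiff

namespace Crest.Agent.R105.Fml_61

open Bd_775 Tc_808 Ends_897 Crest.AnalysisR
open Sct_636 (LCE)
open Ta_937 (corE map_corE)
open Pct_185 (eqv exists_nhd_of map_eK eK_injective)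

noncomputable section

variable {E U V K : Set ℂ} {F P : ℂ → ℂ} {χ : ℕ → ℂ → ℝ}

/-- cut-off sequences of the component `K` of `E` -/
structure ChnE (E K : Set ℂ) (χ : ℕ → ℂ → ℝ) : Prop where
  lce : ∀ n, LCE E (χ n)
  c01 : ∀ n z, χ n z ∈ Icc (0 : ℝ) 1
  one : ∀ n, ∀ z ∈ K, χ n z = 1
  sh : ∀ N, IsOpen N → K ⊆ N → ∀ᶠ n in atTop, tsupport (χ n) ⊆ N

lemma ChnE.sm (h : ChnE E K χ) (n : ℕ) : ContDiff ℝ 1 (χ n) := (h.lce n).smooth.of_le (by simp)

lemma ChnE.lc (h : ChnE E K χ) (n : ℕ) : ∀ z ∈ E, ∀ᶠ x in 𝓝 z, χ n x = χ n z := (h.lce n).lc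

/-- all supports lie in one ball -/
lemma ChnE.cs (h : ChnE E K χ) (hK : IsCompact K) :
    ∃ R, ∀ n, tsupport (χ n) ⊆ closedBall (0 : ℂ) R := by
  obtain ⟨r, hr⟩ := hK.isBounded.exists_norm_le
  have h1 := h.sh (ball 0 (r + 1)) isOpen_ball fun z hz => by
    rw [mem_ball_zero_iff]; linarith [hr z hz]
  obtain ⟨n0, hn0⟩ := eventually_atTop.1 h1
  have hb : Bornology.IsBounded (⋃ n ∈ Finset.range n0, tsupport (χ n)) :=
    (Bornology.isBounded_biUnion_finset _).2 fun n _ => ((h.lce n).supp.isCompact).isBounded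
  obtain ⟨r', hr'⟩ := hb.exists_norm_le
  refine ⟨max (r + 1) r', fun n z hz => ?_⟩
  rw [mem_closedBall_zero_iff]
  rcases lt_or_ge n n0 with hn | hn
  · exact (hr' z (mem_biUnion (Finset.mem_coe.2 (Finset.mem_range.2 hn)) hz)).trans
      (le_max_right _ _)
  · have := hn0 n hn hz
    rw [mem_ball_zero_iff] at this
    exact this.le.trans (le_max_left _ _)

lemma ChnE.dsupp (h : ChnE E K χ) (n : ℕ) : tsupport (fderiv ℝ (χ n)) ⊆ Eᶜ := by
  have h1 : LmS_392.Lc1 E (χ n) := ⟨h.sm n, h.lc n⟩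
  exact h1.tsupp

/-- off `K` the sequence tends to zero -/
lemma ChnE.tendsto_zero (h : ChnE E K χ) {z : ℂ} (hz : z ∉ K) :
    ∀ᶠ n in atTop, χ n z = 0 := by
  filter_upwards [h.sh {z}ᶜ isOpen_compl_singleton fun w hw hwz => hz (hwz ▸ hw)] with n hn
  exact image_eq_zero_of_notMem_tsupport fun h1 => hn h1 rfl

/-- clopen neighbourhoods -/
lemma exists_sep (hE : IsCompact E) (K : Cmp E) {N : Set ℂ} (hN : IsOpen N) (hKN : K.1 ⊆ N) :
    ∃ B N1 : Set ℂ, IsCompact B ∧ IsCompact (E \ B) ∧ B ⊆ E ∧ K.1 ⊆ B ∧ IsOpen N1 ∧ B ⊆ N1 ∧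
      closure N1 ⊆ N ∧ Disjoint (closure N1) (E \ B) := by
  obtain ⟨K, z, hz, rfl⟩ := K
  obtain ⟨B, h1, h2, h3, h4, h5⟩ := exists_clopen hE hz hN hKN
  obtain ⟨N1, g1, g2, -, g4⟩ := exists_nhd h1 ((h2.isClosed).union hN.isClosed_compl)
    (disjoint_left.2 fun w hw hw' => by
      rcases hw' with hw' | hw'
      · exact hw'.2 hw
      · exact hw' (h5 hw))
  refine ⟨B, N1, h1, h2, h3, h4, g1, g2, fun w hw => ?_, disjoint_left.2 fun w hw hw' =>
    disjoint_left.1 g4 hw (Or.inl hw')⟩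
  by_contra h6
  exact disjoint_left.1 g4 hw (Or.inr h6)

theorem exists_chn (hE : IsCompact E) (K : Cmp E) : ∃ χ : ℕ → ℂ → ℝ, ChnE E K.1 χ := by
  have key : ∀ n : ℕ, ∃ f : ℂ → ℝ, LCE E f ∧ (∀ z, f z ∈ Icc (0 : ℝ) 1) ∧ (∀ z ∈ K.1, f z = 1) ∧
      tsupport f ⊆ thickening (1 / ((n : ℝ) + 1)) K.1 := by
    intro n
    obtain ⟨B, N1, h1, h2, h3, h4, g1, g2, g3, g4⟩ := exists_sep hE K
      (isOpen_thickening (δ := 1 / ((n : ℝ) + 1)) (E := K.1))
      (self_subset_thickening (by positivity) _)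
    obtain ⟨f, f1, f2, f3, f4, f5⟩ := Dir_508.exists_cutoff h1 g1 g2
    have e1 : ∀ z ∈ B, ∀ᶠ w in 𝓝 z, f w = 1 := eventually_nhdsSet_iff_forall.1 f4
    refine ⟨f, ⟨f1, f2, fun z hz => ?_⟩, f5, fun z hz => (e1 z (h4 hz)).self_of_nhds,
      f3.trans (subset_closure.trans g3)⟩
    by_cases hzB : z ∈ B
    · have h6 := e1 z hzB
      filter_upwards [h6] with w hw
      rw [hw, h6.self_of_nhds]
    · have h6 : z ∉ tsupport f := fun h7 => disjoint_left.1 g4 (subset_closure (f3 h7)) ⟨hz, hzB⟩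
      have h7 := notMem_tsupport_iff_eventuallyEq.1 h6
      filter_upwards [h7] with w hw
      rw [hw, h7.self_of_nhds]
      rfl
  choose f a1 a2 a3 a4 using key
  refine ⟨f, a1, a2, a3, fun N hN hKN => ?_⟩
  obtain ⟨δ, hδ, hsub⟩ := (K.isCompact hE).exists_thickening_subset_open hN hKN
  filter_upwards [tendsto_one_div_add_atTop_nhds_zero_nat.eventually (gt_mem_nhds hδ)] with n hn
  exact (a4 n).trans ((thickening_mono hn.le _).trans hsub)

lemma eqv_eq (h : EndMap U V F) (K : Cmp Uᶜ) : eqv h K = corE h K := by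
  apply eK_injective h.hV
  rw [← map_eK h K, ← map_corE h K]

/-- a cut-off of the picture pulls back to one of the z-plane -/
theorem exists_lce_pull (h : EndMap U V F) (hF : Tra_937.Uni U F) {f : ℂ → ℝ}
    (hf : LCE Vᶜ f) :
    ∃ f' : ℂ → ℝ, LCE Uᶜ f' ∧ (∀ z ∈ U, f' z = f (F z)) ∧
      ∀ K : Cmp Uᶜ, ∀ z ∈ K.1, ∀ w ∈ (corE h K).1, f' z = f w := by
  obtain rfl := h.img
  obtain ⟨f', h1, h2, h3⟩ := Pct_185.exists_LC_pull h hF hf
  have hUc : IsCompact Uᶜ := Ends_897.isCompact_compl h.hU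
  have hYE : IsExteriorDomain (Uᶜ)ᶜ := by rw [compl_compl]; exact h.hU
  refine ⟨f', ⟨?_, h2, h1.lc⟩, h3, fun K z hz w hw => ?_⟩
  · rw [contDiff_iff_contDiffAt]
    intro z
    by_cases hz : z ∈ U
    · have e1 : f' =ᶠ[𝓝 z] fun w => f (F w) := by
        filter_upwards [hF.op.mem_nhds hz] with w hw using h3 w hw
      refine ContDiffAt.congr_of_eventuallyEq ?_ e1
      have h4 : ContDiffAt ℂ ∞ F z := (hF.hol.contDiffOn hF.op).contDiffAt (hF.op.mem_nhds hz)
      exact hf.smooth.contDiffAt.comp z (h4.restrict_scalars ℝ)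
    · have e1 : f' =ᶠ[𝓝 z] fun _ => f' z := h1.lc z hz
      exact contDiffAt_const.congr_of_eventuallyEq e1
  · obtain ⟨c, O, hO, hKO, hc⟩ := Tc_808.LC.const_near h1 K.preconn K.subset
    obtain ⟨c', P, hP, hKP, hc'⟩ := Pct_185.LCE.near hf (corE h K)
    obtain ⟨O₂, hO₂, hKO₂, hsub₂⟩ := exists_nhd_of h K hP (by rw [eqv_eq]; exact hKP)
    have hzY : z ∈ Uᶜ := K.subset hz
    have hK : connectedComponentIn Uᶜ z = K.1 := by
      rw [K.eq_of_mem hz]; rfl
    have hnb : Ni_459.Nb Uᶜ z (O ∩ O₂) :=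
      Ni_459.nb_of_mem hzY (hO.inter hO₂) (by
        have : K.1 ⊆ O ∩ O₂ := subset_inter hKO hKO₂
        rw [← hK] at this
        exact this)
    obtain ⟨q, hq1, hq2⟩ := hnb.nonempty hYE
    have hqU : q ∈ U := not_not.1 hq2
    rw [hc z (hKO hz), hc' w (hKP hw), ← hc' _ (hsub₂ q hq1.2 hqU), ← h3 q hqU, hc q hq1.1]

theorem chn_pull (h : EndMap U V F) (hF : Tra_937.Uni U F) (K : Cmp Uᶜ)
    (hχ : ChnE Vᶜ (corE h K).1 χ) :
    ∃ χ' : ℕ → ℂ → ℝ, ChnE Uᶜ K.1 χ' ∧ ∀ n, ∀ z ∈ U, χ' n z = χ n (F z) := by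
  have hUc : IsCompact Uᶜ := Ends_897.isCompact_compl h.hU
  have hYE : IsExteriorDomain (Uᶜ)ᶜ := by rw [compl_compl]; exact h.hU
  choose f a1 a2 a3 using fun n => exists_lce_pull h hF (hχ.lce n)
  refine ⟨f, ⟨a1, fun n z => ?_, fun n z hz => ?_, fun N hN hKN => ?_⟩, a2⟩
  · by_cases hz : z ∈ U
    · rw [a2 n z hz]; exact hχ.c01 n _
    · obtain ⟨w, hw⟩ := (corE h (Cmp.of (Y := Uᶜ) hz)).nonempty
      rw [a3 n (Cmp.of (Y := Uᶜ) hz) z (mem_connectedComponentIn hz) w hw]
      exact hχ.c01 n _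
  · obtain ⟨w, hw⟩ := (corE h K).nonempty
    rw [a3 n K z hz w hw, hχ.one n w hw]
  · obtain ⟨B, N1, h1, h2, h3, h4, g1, g2, g3, g4⟩ := exists_sep hUc K hN hKN
    obtain ⟨P, hP, hKP, hPsub⟩ := exists_nhd_of h.symm (corE h K) g1 (by
      rw [eqv_eq]
      have : corE h.symm (corE h K) = K := (corE h).left_inv K
      rw [this]
      exact h4.trans g2)
    filter_upwards [hχ.sh P hP hKP] with n hn
    have e1 : ∀ z ∈ U, f n z ≠ 0 → z ∈ N1 := by
      intro z hz h0
      rw [a2 n z hz] at h0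
      have h5 : F z ∈ P := hn (subset_tsupport _ h0)
      have h6 := hPsub (F z) h5 (h.mapsTo hz)
      rwa [h.inv_left hz] at h6
    have e2 : Function.support (f n) ⊆ N1 := by
      intro z h0
      by_cases hz : z ∈ U
      · exact e1 z hz h0
      · have hzY : z ∈ Uᶜ := hz
        by_contra hzN
        have hzB : z ∉ B := fun h5 => hzN (g2 h5)
        obtain ⟨c, O, hO, hKO, hc⟩ := Tc_808.LC.const_near (Pct_185.LCE.LC (a1 n))
          (Cmp.of hzY).preconn (Cmp.of hzY).subset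
        have hcz : c = f n z := (hc z (hKO (mem_connectedComponentIn hzY))).symm
        -- the component of `z` does not meet `B`
        have hd : Disjoint (Cmp.of hzY).1 B := by
          rw [disjoint_left]
          intro w hw hwB
          have hpc : IsPreconnected (Cmp.of hzY).1 := (Cmp.of hzY).preconn
          obtain ⟨v, hv1, hv2, hv3⟩ := (isPreconnected_closed_iff.1 hpc) B (Uᶜ \ B) h1.isClosed
            h2.isClosed (fun v hv => by
              by_cases hvB : v ∈ B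
              · exact Or.inl hvB
              · exact Or.inr ⟨(Cmp.of hzY).subset hv, hvB⟩)
            ⟨w, hw, hwB⟩ ⟨z, mem_connectedComponentIn hzY, hzY, hzB⟩
          exact hv3.2 hv2
        have hnb : Ni_459.Nb Uᶜ z (O ∩ (closure N1)ᶜ) :=
          Ni_459.nb_of_mem hzY (hO.inter isClosed_closure.isOpen_compl) (by
            intro v hv
            exact ⟨hKO hv, fun hv' => disjoint_left.1 g4 hv'
              ⟨(Cmp.of hzY).subset hv, fun hvB => disjoint_left.1 hd hv hvB⟩⟩)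
        obtain ⟨q, hq1, hq2⟩ := hnb.nonempty hYE
        have hqU : q ∈ U := not_not.1 hq2
        refine hq1.2 (subset_closure (e1 q hqU ?_))
        rw [hc q hq1.1, hcz]
        exact h0
    exact (closure_mono e2).trans g3

theorem chn_push (h : EndMap U V F) (hF : Tra_937.Uni U F) (K : Cmp Uᶜ)
    (hχ : ChnE Uᶜ K.1 χ) :
    ∃ χ' : ℕ → ℂ → ℝ, ChnE Vᶜ (corE h K).1 χ' ∧ ∀ n, ∀ z ∈ U, χ' n (F z) = χ n z := by
  have h1 : corE h.symm (corE h K) = K := (corE h).left_inv K
  have hu : Tra_937.Uni V h.inv := by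
    obtain rfl := h.img
    exact hF.symm
  obtain ⟨χ', g1, g2⟩ := chn_pull (χ := χ) h.symm hu (corE h K) (by rw [h1]; exact hχ)
  refine ⟨χ', g1, fun n z hz => ?_⟩
  rw [g2 n (F z) (h.mapsTo hz), h.inv_left hz]


end

end Crest.Agent.R105.Fml_61
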