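import Crest.Agent.R105.Mp1_87
import Crest.Agent.R105.Skp2_257
import Mathlib
import Crest.Agent.R105.Mp3_87

-- ▼ part R105/Psi5_425
section

/-!
Row 105 (helper425): absolutely continuous functions on lines: gluing across a closed set where
the function vanishes (`ac_glue`), integration by parts with compact support in an open set
(`ibp_open`).
-/

open MeasureTheory Set Filter Topology

namespace Crest.Agent.R105.Psi5_425

open Mp_87

local notation "AC" => AbsolutelyContinuousOnInterval

theorem ac_congr {f g : ℝ → ℝ} {a b : ℝ} (hf : AC f a b) (h : ∀ x ∈ uIcc a b, g x = f x) :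
    AC g a b :=
  ac_of_abs_le hf fun x hx x' hx' => by rw [h x hx, h x' hx']

theorem ac_lip {f h : ℝ → ℝ} {a b C : ℝ} (hf : AC f a b) (hC : 0 ≤ C)
    (hh : ∀ s t, |h s - h t| ≤ C * |s - t|) : AC (fun x => h (f x)) a b := by
  refine ac_of_abs_le (hf.const_mul C) fun x _ x' _ => ?_
  rw [← mul_sub, abs_mul, abs_of_nonneg hC]
  exact hh _ _

theorem ac_const (a b c : ℝ) : AC (fun _ => c) a b := by
  have h : LipschitzOnWith 0 (fun _ : ℝ => c) (uIcc a b) := by
    intro x _ y _
    simp
  exact h.absolutelyContinuousOnInterval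

/-- line formula ⟹ AC -/
theorem ac_of_line {f g : ℝ → ℝ} {a b : ℝ} (hab : a ≤ b) (hg : IntervalIntegrable g volume a b)
    (h : ∀ x ∈ Icc a b, f x - f a = ∫ t in a..x, g t) : AC f a b := by
  have h1 := hg.absolutelyContinuousOnInterval_intervalIntegral (c := a) left_mem_uIcc
  refine ac_congr (h1.add (ac_const a b (f a))) fun x hx => ?_
  rw [uIcc_of_le hab] at hx
  have := h x hx
  show f x = (∫ v in a..x, g v) + f a
  linarith

/-- increments bounded by an integral ⟹ AC -/
theorem ac_of_bound {f g : ℝ → ℝ} {a b : ℝ} (hab : a ≤ b)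
    (hg : IntervalIntegrable g volume a b)
    (h : ∀ s t, a ≤ s → s ≤ t → t ≤ b → |f t - f s| ≤ ∫ r in s..t, |g r|) : AC f a b := by
  have hga : IntervalIntegrable (fun r => |g r|) volume a b := hg.abs
  have h1 := hga.absolutelyContinuousOnInterval_intervalIntegral (c := a) left_mem_uIcc
  refine ac_of_abs_le h1 ?_
  have key : ∀ s ∈ uIcc a b, ∀ t ∈ uIcc a b, s ≤ t →
      |f s - f t| ≤ |(∫ v in a..s, |g v|) - (∫ v in a..t, |g v|)| := by
    intro s hs t ht hst
    rw [uIcc_of_le hab] at hs ht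
    have h2 : (∫ v in a..t, |g v|) - (∫ v in a..s, |g v|) = ∫ v in s..t, |g v| := by
      rw [sub_eq_iff_eq_add', intervalIntegral.integral_add_adjacent_intervals
        (ii_mono hga ⟨le_refl a, hab⟩ hs) (ii_mono hga hs ht)]
    rw [abs_sub_comm (∫ v in a..s, |g v|), h2, abs_sub_comm]
    exact (h s t hs.1 hst ht.2).trans (le_abs_self _)
  intro x hx x' hx'
  rcases le_total x x' with h3 | h3
  · exact key x hx x' hx' h3
  · have := key x' hx' x hx h3
    rwa [abs_sub_comm, abs_sub_comm (∫ v in a..x', |g v|)] at this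

/-- **gluing**: `w` continuous, zero on the closed set `F`, increments bounded by `∫ |h|` on
segments off `F` ⟹ increments bounded by `∫ |h|` on all segments. -/
theorem glue_bound {w h : ℝ → ℝ} {a b : ℝ} (hw : ContinuousOn w (Icc a b)) {F : Set ℝ}
    (hF : IsClosed F) (h0 : ∀ x ∈ F, x ∈ Icc a b → w x = 0)
    (hh : IntervalIntegrable h volume a b)
    (hb : ∀ s t, a ≤ s → s ≤ t → t ≤ b → (∀ r ∈ Icc s t, r ∉ F) →
      |w t - w s| ≤ ∫ r in s..t, |h r|) :
    ∀ s t, a ≤ s → s ≤ t → t ≤ b → |w t - w s| ≤ ∫ r in s..t, |h r| := by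
  intro s t has hst htb
  have hab : a ≤ b := has.trans (hst.trans htb)
  have hha : IntervalIntegrable (fun r => |h r|) volume a b := hh.abs
  by_cases hne : (Icc s t ∩ F).Nonempty
  swap
  · refine hb s t has hst htb fun r hr hrF => hne ⟨r, hr, hrF⟩
  have hcpt : IsCompact (Icc s t ∩ F) := isCompact_Icc.inter_right hF
  obtain ⟨s', hs', hs'min⟩ := hcpt.exists_isLeast hne
  obtain ⟨t', ht', ht'max⟩ := hcpt.exists_isGreatest hne
  have hs't' : s' ≤ t' := hs'min ht'
  have ii : ∀ u v, s ≤ u → u ≤ v → v ≤ t → IntervalIntegrable (fun r => |h r|) volume u v :=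
    fun u v hu huv hv => ii_mono hha ⟨has.trans hu, huv.trans (hv.trans htb)⟩
      ⟨(has.trans hu).trans huv, hv.trans htb⟩
  have ws' : w s' = 0 := h0 s' hs'.2 ⟨has.trans hs'.1.1, hs'.1.2.trans htb⟩
  have wt' : w t' = 0 := h0 t' ht'.2 ⟨has.trans ht'.1.1, ht'.1.2.trans htb⟩
  have nn : ∀ u v, u ≤ v → 0 ≤ ∫ r in u..v, |h r| := fun u v huv =>
    intervalIntegral.integral_nonneg huv fun r _ => abs_nonneg _
  -- left piece
  have hl : |w s' - w s| ≤ ∫ r in s..s', |h r| := by
    rcases eq_or_lt_of_le hs'.1.1 with he | hlt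
    · rw [← he]; simp
    have hT1 : Tendsto (fun r => |w r - w s|) (𝓝[<] s') (𝓝 |w s' - w s|) := by
      have hc : ContinuousWithinAt w (Icc a b) s' := hw s' ⟨has.trans hs'.1.1, hs'.1.2.trans htb⟩
      have h1 : Tendsto w (𝓝[<] s') (𝓝 (w s')) := by
        refine (hc.mono_left ?_)
        refine nhdsWithin_le_iff.2 ?_
        filter_upwards [Ioo_mem_nhdsLT hlt] with r hr
        exact ⟨has.trans hr.1.le, hr.2.le.trans (hs'.1.2.trans htb)⟩
      exact (h1.sub_const _).abs
    refine le_of_tendsto hT1 ?_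
    filter_upwards [Ioo_mem_nhdsLT hlt] with r hr
    have h1 := hb s r has hr.1.le (hr.2.le.trans (hs'.1.2.trans htb)) fun q hq hqF =>
      absurd (hs'min ⟨⟨hq.1, hq.2.trans (hr.2.le.trans hs'.1.2)⟩, hqF⟩)
        (not_le.2 (lt_of_le_of_lt hq.2 hr.2))
    have h2 := intervalIntegral.integral_add_adjacent_intervals
      (ii s r le_rfl hr.1.le (hr.2.le.trans hs'.1.2)) (ii r s' hr.1.le hr.2.le hs'.1.2)
    have := nn r s' hr.2.le
    linarith
  -- right piece
  have hr' : |w t - w t'| ≤ ∫ r in t'..t, |h r| := by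
    rcases eq_or_lt_of_le ht'.1.2 with he | hlt
    · rw [he]; simp
    have hT1 : Tendsto (fun r => |w t - w r|) (𝓝[>] t') (𝓝 |w t - w t'|) := by
      have hc : ContinuousWithinAt w (Icc a b) t' := hw t' ⟨has.trans ht'.1.1, ht'.1.2.trans htb⟩
      have h1 : Tendsto w (𝓝[>] t') (𝓝 (w t')) := by
        refine (hc.mono_left ?_)
        refine nhdsWithin_le_iff.2 ?_
        filter_upwards [Ioo_mem_nhdsGT hlt] with r hr
        exact ⟨(has.trans ht'.1.1).trans hr.1.le, hr.2.le.trans htb⟩
      exact (h1.const_sub _).abs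
    refine le_of_tendsto hT1 ?_
    filter_upwards [Ioo_mem_nhdsGT hlt] with r hr
    have h1 := hb r t ((has.trans ht'.1.1).trans hr.1.le) hr.2.le htb fun q hq hqF =>
      absurd (ht'max ⟨⟨(ht'.1.1.trans hr.1.le).trans hq.1, hq.2⟩, hqF⟩)
        (not_le.2 (lt_of_lt_of_le hr.1 hq.1))
    have h2 := intervalIntegral.integral_add_adjacent_intervals
      (ii t' r ht'.1.1 hr.1.le hr.2.le) (ii r t (ht'.1.1.trans hr.1.le) hr.2.le le_rfl)
    have := nn t' r hr.1.le
    linarith
  have h3 := intervalIntegral.integral_add_adjacent_intervals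
    (ii s s' le_rfl hs'.1.1 hs'.1.2) (ii s' t' hs'.1.1 hs't' ht'.1.2)
  have h4 := intervalIntegral.integral_add_adjacent_intervals
    (ii s t' le_rfl (hs'.1.1.trans hs't') ht'.1.2) (ii t' t ht'.1.1 ht'.1.2 le_rfl)
  have h5 := nn s' t' hs't'
  rw [ws'] at hl
  rw [wt'] at hr'
  have h6 : |w t - w s| ≤ |w t - 0| + |0 - w s| := by
    have := abs_add_le (w t - 0) (0 - w s)
    have e : w t - 0 + (0 - w s) = w t - w s := by ring
    rwa [e] at this
  linarith

/-- gluing, AC form -/
theorem ac_glue {w h : ℝ → ℝ} {a b : ℝ} (hab : a ≤ b) (hw : ContinuousOn w (Icc a b)) {F : Set ℝ}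
    (hF : IsClosed F) (h0 : ∀ x ∈ F, x ∈ Icc a b → w x = 0)
    (hh : IntervalIntegrable h volume a b)
    (hb : ∀ s t, a ≤ s → s ≤ t → t ≤ b → (∀ r ∈ Icc s t, r ∉ F) →
      |w t - w s| ≤ ∫ r in s..t, |h r|) : AC w a b :=
  ac_of_bound hab hh (glue_bound hw hF h0 hh hb)

/-- derivative from the local line formula -/
theorem ae_hasDerivAt_of_line {O : Set ℝ} (hO : IsOpen O) {f g : ℝ → ℝ}
    (hg : LocallyIntegrable g volume)
    (h : ∀ s t, s ≤ t → (∀ r ∈ Icc s t, r ∈ O) → f t - f s = ∫ r in s..t, g r) :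
    ∀ᵐ x, x ∈ O → HasDerivAt f (g x) x := by
  filter_upwards [_root_.LocallyIntegrable.ae_hasDerivAt_integral hg] with x hx hxO
  have h1 := (hx x).const_add (f x)
  refine h1.congr_of_eventuallyEq ?_
  obtain ⟨l, u, ⟨hl, hu⟩, hsub⟩ := mem_nhds_iff_exists_Ioo_subset.1 (hO.mem_nhds hxO)
  filter_upwards [Ioo_mem_nhds hl hu] with y hy
  rcases le_total x y with hxy | hxy
  · have := h x y hxy fun r hr => hsub ⟨lt_of_lt_of_le hl hr.1, lt_of_le_of_lt hr.2 hy.2⟩
    linarith
  · have := h y x hxy fun r hr => hsub ⟨lt_of_lt_of_le hy.1 hr.1, lt_of_le_of_lt hr.2 hu⟩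
    rw [intervalIntegral.integral_symm]
    linarith

theorem intervalIntegrable_of_li {g : ℝ → ℝ} (hg : LocallyIntegrable g volume) (x y : ℝ) :
    IntervalIntegrable g volume x y :=
  intervalIntegrable_iff.mpr <|
    (hg.integrableOn_isCompact isCompact_uIcc).mono_set uIoc_subset_uIcc

/-- continuity from the local line formula -/
theorem continuousOn_of_line {O : Set ℝ} (hO : IsOpen O) {f g : ℝ → ℝ}
    (hg : LocallyIntegrable g volume)
    (h : ∀ s t, s ≤ t → (∀ r ∈ Icc s t, r ∈ O) → f t - f s = ∫ r in s..t, g r) :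
    ContinuousOn f O := by
  intro x hxO
  refine ContinuousAt.continuousWithinAt ?_
  obtain ⟨l, u, ⟨hl, hu⟩, hsub⟩ := mem_nhds_iff_exists_Ioo_subset.1 (hO.mem_nhds hxO)
  have hc : Continuous fun y => f x + ∫ r in x..y, g r :=
    continuous_const.add (intervalIntegral.continuous_primitive (intervalIntegrable_of_li hg) x)
  refine hc.continuousAt.congr ?_
  filter_upwards [Ioo_mem_nhds hl hu] with y hy
  rcases le_total x y with hxy | hxy
  · have := h x y hxy fun r hr => hsub ⟨lt_of_lt_of_le hl hr.1, lt_of_le_of_lt hr.2 hy.2⟩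
    linarith
  · have := h y x hxy fun r hr => hsub ⟨lt_of_lt_of_le hy.1 hr.1, lt_of_le_of_lt hr.2 hu⟩
    rw [intervalIntegral.integral_symm]
    linarith

/-- **integration by parts**, compact support in an open set -/
theorem ibp_open {O : Set ℝ} (hO : IsOpen O) {f g : ℝ → ℝ}
    (hg : LocallyIntegrable g volume)
    (h : ∀ s t, s ≤ t → (∀ r ∈ Icc s t, r ∈ O) → f t - f s = ∫ r in s..t, g r)
    {η : ℝ → ℝ} (hη : ContDiff ℝ 1 η) (hc : HasCompactSupport η) (hs : tsupport η ⊆ O) :
    ∫ x, f x * deriv η x = -∫ x, η x * g x := by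
  have hfc := continuousOn_of_line hO hg h
  have hηc : Continuous η := hη.continuous
  have hηdc : Continuous (deriv η) := hη.continuous_deriv le_rfl
  -- a big interval
  obtain ⟨R, hR, hRs⟩ : ∃ R : ℝ, 0 < R ∧ ∀ x, x ∉ Ioo (-R) R → x ∉ tsupport η := by
    obtain ⟨r, hr⟩ := hc.isCompact.isBounded.subset_ball (0 : ℝ)
    refine ⟨max r 1, by positivity, fun x hx hxs => hx ?_⟩
    have := hr hxs
    rw [Metric.mem_ball, dist_zero_right, Real.norm_eq_abs, abs_lt] at this
    have := le_max_left r 1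
    exact ⟨by linarith, by linarith⟩
  have hz : ∀ x, x ∉ tsupport η → η x = 0 ∧ deriv η x = 0 := fun x hx =>
    ⟨image_eq_zero_of_notMem_tsupport hx, by
      have : x ∉ tsupport (deriv η) := fun h' => hx ((tsupport_deriv_subset (𝕜 := ℝ) (f := η)) h')
      exact image_eq_zero_of_notMem_tsupport this⟩
  set w : ℝ → ℝ := fun x => η x * f x with hw
  set k : ℝ → ℝ := fun x => deriv η x * f x + η x * g x with hk
  have hwO : ∀ x, x ∉ O → w =ᶠ[𝓝 x] 0 := by
    intro x hx
    have h1 : x ∉ tsupport η := fun h' => hx (hs h')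
    filter_upwards [(notMem_tsupport_iff_eventuallyEq.1 h1)] with y hy
    rw [hw]; show η y * f y = 0; rw [hy]; simp
  have hwc : Continuous w := by
    rw [continuous_iff_continuousAt]
    intro x
    by_cases hx : x ∈ O
    · exact hηc.continuousAt.mul (hfc.continuousAt (hO.mem_nhds hx))
    · exact (continuousAt_congr (hwO x hx)).2 continuousAt_const
  -- integrability of `k`
  have hdf : Continuous fun x => deriv η x * f x := by
    rw [continuous_iff_continuousAt]
    intro x
    by_cases hx : x ∈ O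
    · exact hηdc.continuousAt.mul (hfc.continuousAt (hO.mem_nhds hx))
    · have h1 : x ∉ tsupport (deriv η) := fun h' =>
        hx (hs ((tsupport_deriv_subset (𝕜 := ℝ) (f := η)) h'))
      have h2 : (fun x => deriv η x * f x) =ᶠ[𝓝 x] fun _ => 0 := by
        filter_upwards [(notMem_tsupport_iff_eventuallyEq.1 h1)] with y hy
        rw [hy]; simp
      exact (continuousAt_congr h2).2 continuousAt_const
  have hηg : LocallyIntegrable (fun x => η x * g x) volume := by
    have := hg.smul_continuous hηc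
    refine this.congr (Eventually.of_forall fun x => ?_)
    show _ = η x * g x
    simp [mul_comm]
  have hkl : LocallyIntegrable k volume := hdf.locallyIntegrable.add hηg
  have hder : ∀ᵐ x, HasDerivAt w (k x) x := by
    filter_upwards [ae_hasDerivAt_of_line hO hg h] with x hx
    by_cases hxO : x ∈ O
    · have h1 : HasDerivAt η (deriv η x) x := (hη.differentiable (by norm_num) x).hasDerivAt
      exact h1.mul (hx hxO)
    · have h1 : x ∉ tsupport η := fun h' => hxO (hs h')
      have h2 : k x = 0 := by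
        rw [hk]; simp only; rw [(hz x h1).1, (hz x h1).2]; ring
      rw [h2]
      exact (hasDerivAt_const x (0:ℝ)).congr_of_eventuallyEq (hwO x hxO)
  -- AC on segments in `O`
  have hacO : ∀ s t, s ≤ t → (∀ r ∈ Icc s t, r ∈ O) → |w t - w s| ≤ ∫ r in s..t, |k r| := by
    intro s t hst hO'
    have h1 : AC f s t := ac_of_line hst (intervalIntegrable_of_li hg s t) fun x hx =>
      h s x hx.1 fun r hr => hO' r ⟨hr.1, hr.2.trans hx.2⟩
    have h2 : AC η s t := (hη.contDiffOn (s := uIcc s t)).absolutelyContinuousOnInterval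
    have h3 : AC w s t := h2.mul h1
    rw [← h3.integral_deriv_eq_sub]
    refine (intervalIntegral.abs_integral_le_integral_abs hst).trans (le_of_eq ?_)
    refine intervalIntegral.integral_congr_ae ?_
    filter_upwards [hder] with x hx _
    rw [hx.deriv]
  have hac : AC w (-R) R := by
    refine ac_glue (by linarith) hwc.continuousOn (F := Oᶜ) hO.isClosed_compl
      (fun x hx _ => (hwO x hx).self_of_nhds) (intervalIntegrable_of_li hkl _ _) ?_
    intro s t _ hst _ hr
    exact hacO s t hst fun r hr' => by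
      by_contra hcon
      exact hr r hr' hcon
  have hI := hac.integral_deriv_eq_sub
  have hw1 : w R = 0 := by
    rw [hw]; simp only
    rw [(hz R (hRs R fun h => lt_irrefl _ h.2)).1, zero_mul]
  have hw2 : w (-R) = 0 := by
    rw [hw]; simp only
    rw [(hz (-R) (hRs (-R) fun h => lt_irrefl _ h.1)).1, zero_mul]
  rw [hw1, hw2, sub_zero] at hI
  have hI2 : ∫ x in (-R)..R, k x = 0 := by
    rw [← hI]
    refine intervalIntegral.integral_congr_ae ?_
    filter_upwards [hder] with x hx _
    rw [hx.deriv]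
  have hsupp1 : ∀ x, x ∉ Ioo (-R) R → deriv η x * f x = 0 := fun x hx => by
    rw [(hz x (hRs x hx)).2, zero_mul]
  have hsupp2 : ∀ x, x ∉ Ioo (-R) R → η x * g x = 0 := fun x hx => by
    rw [(hz x (hRs x hx)).1, zero_mul]
  have hfull : ∀ q : ℝ → ℝ, (∀ x, x ∉ Ioo (-R) R → q x = 0) →
      ∫ x in (-R)..R, q x = ∫ x, q x := by
    intro q hq
    rw [intervalIntegral.integral_of_le (by linarith), ← integral_indicator measurableSet_Ioc]
    congr 1
    funext x
    by_cases hx : x ∈ Ioc (-R) R
    · rw [indicator_of_mem hx]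
    · rw [indicator_of_notMem hx, hq x fun h' => hx ⟨h'.1, h'.2.le⟩]
  have hI3 : (∫ x in (-R)..R, deriv η x * f x) + ∫ x in (-R)..R, η x * g x = 0 := by
    rw [← intervalIntegral.integral_add (hdf.intervalIntegrable _ _)
      (intervalIntegrable_of_li hηg _ _)]
    exact hI2
  rw [hfull _ hsupp1, hfull _ hsupp2] at hI3
  have : ∫ x, f x * deriv η x = ∫ x, deriv η x * f x := by congr 1; funext x; ring
  rw [this]
  linarith

end Crest.Agent.R105.Psi5_425
end

-- ▼ part R105/Psi6_425
section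

/-!
Row 105 (helper425): the class `PL E G` from absolute continuity on a.e. line; oscillation zero
from continuity; truncation.
-/

open MeasureTheory Set Filter Topology
open scoped NNReal ENNReal

namespace Crest.Agent.R105.Psi6_425

open Psi5_425 CF_363 Stp_722 Skp2_257

local notation "AC" => AbsolutelyContinuousOnInterval

/-- Rademacher for locally Lipschitz functions on an open set -/
theorem ae_differentiableAt_of_ll {V : Set (ℝ × ℝ)} (hV : IsOpen V) {u : ℝ × ℝ → ℝ}
    (h : LocallyLipschitzOn V u) : ∀ᵐ p : ℝ × ℝ, p ∈ V → DifferentiableAt ℝ u p := by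
  have : volume {p : ℝ × ℝ | ¬ (p ∈ V → DifferentiableAt ℝ u p)} = 0 := by
    refine measure_null_of_locally_null _ fun p hp => ?_
    have hpV : p ∈ V := by
      by_contra hc
      exact hp fun h => absurd h hc
    obtain ⟨K, t, ht, hl⟩ := h hpV
    have ht' : t ∈ 𝓝 p := by rwa [hV.nhdsWithin_eq hpV] at ht
    obtain ⟨r, hr, hrt⟩ := Metric.mem_nhds_iff.1 ht'
    have hl' : LipschitzOnWith K u (Metric.ball p r) := hl.mono hrt
    have h1 := hl'.ae_differentiableWithinAt_of_mem (μ := (volume : Measure (ℝ × ℝ)))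
    refine ⟨{p | ¬ (p ∈ V → DifferentiableAt ℝ u p)} ∩ Metric.ball p r,
      inter_mem_nhdsWithin _ (Metric.ball_mem_nhds p hr), ?_⟩
    have h2 : ∀ᵐ q : ℝ × ℝ, ¬ (q ∈ {p | ¬ (p ∈ V → DifferentiableAt ℝ u p)} ∩ Metric.ball p r) := by
      filter_upwards [h1] with q hq
      rintro ⟨hq1, hq2⟩
      exact hq1 fun _ => (hq hq2).differentiableAt (Metric.isOpen_ball.mem_nhds hq2)
    rw [ae_iff] at h2
    simp only [not_not] at h2
    exact h2
  exact this

theorem ll_of_contDiffOn {V : Set (ℝ × ℝ)} (hV : IsOpen V) {u : ℝ × ℝ → ℝ}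
    (h : ContDiffOn ℝ 1 u V) : LocallyLipschitzOn V u := by
  intro p hp
  obtain ⟨K, t, ht, hl⟩ := (h.contDiffAt (hV.mem_nhds hp)).exists_lipschitzOnWith
  exact ⟨K, t, mem_nhdsWithin_of_mem_nhds ht, hl⟩

/-- FTC on a line from AC and a.e. known derivative -/
theorem line_of_ac {φ g : ℝ → ℝ} {a b : ℝ} (h : AC φ a b)
    (hd : ∀ᵐ s, deriv φ s = g s) :
    IntervalIntegrable g volume a b ∧ φ b - φ a = ∫ s in a..b, g s := by
  have h1 := h.intervalIntegrable_deriv
  refine ⟨h1.congr_ae (ae_restrict_of_ae hd), ?_⟩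
  rw [← h.integral_deriv_eq_sub]
  exact intervalIntegral.integral_congr_ae (hd.mono fun s hs _ => hs)

/-- **PL from AC on a.e. line.** -/
theorem pl_of_ac {E G : Set (ℝ × ℝ)} (hE : IsClosed E) (hnull : volume E = 0) {u : ℝ × ℝ → ℝ}
    (bdd : ∃ M : ℝ, ∀ p, |u p| ≤ M) (cont : ContinuousOn u Gᶜ) (lip : LocallyLipschitzOn Eᶜ u)
    (fin : IntegrableOn (g2 u) Eᶜ)
    (hor : ∀ᵐ y : ℝ, ∀ a b, a ≤ b → (∀ x ∈ Icc a b, (x, y) ∉ G) → AC (fun s => u (s, y)) a b)
    (ver : ∀ᵐ x : ℝ, ∀ a b, a ≤ b → (∀ y ∈ Icc a b, (x, y) ∉ G) → AC (fun s => u (x, s)) a b) :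
    PL E G u := by
  have hdiff : ∀ᵐ p : ℝ × ℝ, DifferentiableAt ℝ u p := by
    have h1 : ∀ᵐ p : ℝ × ℝ, p ∉ E := measure_eq_zero_iff_ae_notMem.mp hnull
    filter_upwards [ae_differentiableAt_of_ll hE.isOpen_compl lip, h1] with p h2 h3
    exact h2 h3
  refine ⟨bdd, cont, lip, fin, ?_, ?_⟩
  · filter_upwards [hor, CF_363.ae_swap hdiff] with y h1 h2 a b hab hG
    exact line_of_ac (h1 a b hab hG) (h2.mono fun s hs => (gx_eq_deriv hs).deriv)
  · filter_upwards [ver, ae_unswap hdiff] with x h1 h2 a b hab hG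
    exact line_of_ac (h1 a b hab hG) (h2.mono fun s hs => (gy_eq_deriv hs).deriv)

/-- continuous at the points of the compact set `P`, constant on `P` ⟹ oscillation zero -/
theorem oscLe_of_const {X : Type*} [TopologicalSpace X] {V P : Set X} {u : X → ℝ}
    (hc : ∀ p ∈ P, ContinuousAt u p) (h : ∀ p ∈ P, ∀ q ∈ P, u p = u q) : OscLe V P u 0 := by
  intro ε hε
  rcases P.eq_empty_or_nonempty with rfl | ⟨p₀, hp₀⟩
  · exact ⟨∅, isOpen_empty, Subset.rfl, fun q hq => absurd hq.1 (notMem_empty _)⟩
  have h1 : ∀ p ∈ P, ∃ O, IsOpen O ∧ p ∈ O ∧ ∀ q ∈ O, |u q - u p₀| < ε / 2 := by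
    intro p hp
    have h2 := Metric.continuousAt_iff'.1 (hc p hp) (ε / 2) (by positivity)
    obtain ⟨O, hO, hOo, hpO⟩ := eventually_nhds_iff.1 h2
    refine ⟨O, hOo, hpO, fun q hq => ?_⟩
    have := hO q hq
    rw [Real.dist_eq, h p hp p₀ hp₀] at this
    exact this
  choose! O hOo hpO hO using h1
  refine ⟨⋃ p ∈ P, O p, isOpen_biUnion hOo, fun p hp => mem_biUnion hp (hpO p hp), ?_⟩
  rintro q ⟨hq, -⟩ q' ⟨hq', -⟩
  simp only [mem_iUnion] at hq hq'
  obtain ⟨p, hp, hqp⟩ := hq
  obtain ⟨p', hp', hqp'⟩ := hq'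
  have h3 := hO p hp q hqp
  have h4 := hO p' hp' q' hqp'
  rw [abs_lt] at h3 h4
  rw [abs_le]
  constructor <;> linarith [h3.1, h3.2, h4.1, h4.2]

/-! ### truncation -/

/-- truncation at `± M` -/
noncomputable def trunc (M t : ℝ) : ℝ := max (-M) (min M t)

theorem trunc_lip (M s t : ℝ) : |trunc M s - trunc M t| ≤ 1 * |s - t| := by
  rw [one_mul]
  unfold trunc
  refine (abs_max_sub_max_le_max _ _ _ _).trans ?_
  refine max_le (by simp) ?_
  refine (abs_min_sub_min_le_max _ _ _ _).trans ?_
  exact max_le (by simp) le_rfl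

theorem trunc_lipschitz (M : ℝ) : LipschitzWith 1 (trunc M) := by
  refine LipschitzWith.of_dist_le_mul fun s t => ?_
  rw [Real.dist_eq, Real.dist_eq]
  exact trunc_lip M s t

theorem abs_trunc_le {M : ℝ} (hM : 0 ≤ M) (t : ℝ) : |trunc M t| ≤ M := by
  unfold trunc
  rw [abs_le]
  exact ⟨le_max_left _ _, max_le (by linarith) (min_le_left _ _)⟩

theorem trunc_eq {M t : ℝ} (h : |t| ≤ M) : trunc M t = t := by
  rw [abs_le] at h
  unfold trunc
  rw [min_eq_right h.2, max_eq_right h.1]

theorem trunc_zero {M : ℝ} (hM : 0 ≤ M) : trunc M 0 = 0 := trunc_eq (by simpa)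

/-- gradient of the truncation -/
theorem fderiv_trunc {M : ℝ} (hM : 0 < M) {u : ℝ × ℝ → ℝ} {p : ℝ × ℝ} (hu : ContinuousAt u p) :
    fderiv ℝ (fun q => trunc M (u q)) p = if |u p| < M then fderiv ℝ u p else 0 := by
  split_ifs with h
  · refine Filter.EventuallyEq.fderiv_eq ?_
    have h1 : ∀ᶠ q in 𝓝 p, |u q| < M := (hu.abs).eventually (gt_mem_nhds h)
    filter_upwards [h1] with q hq
    exact trunc_eq hq.le
  · rw [not_lt] at h
    rcases le_abs.1 h with h1 | h1
    · refine IsLocalMax.fderiv_eq_zero (f := fun q => trunc M (u q)) ?_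
      have h2 : trunc M (u p) = M := by
        unfold trunc
        rw [min_eq_left h1, max_eq_right (by linarith)]
      refine Eventually.of_forall fun q => ?_
      show trunc M (u q) ≤ trunc M (u p)
      rw [h2]
      exact (abs_le.1 (abs_trunc_le hM.le (u q))).2
    · refine IsLocalMin.fderiv_eq_zero (f := fun q => trunc M (u q)) ?_
      have h2 : trunc M (u p) = -M := by
        unfold trunc
        exact max_eq_left ((min_le_right _ _).trans (by linarith))
      refine Eventually.of_forall fun q => ?_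
      show trunc M (u p) ≤ trunc M (u q)
      rw [h2]
      exact (abs_le.1 (abs_trunc_le hM.le (u q))).1

end Crest.Agent.R105.Psi6_425
end

-- ▼ part R105/MsA_425
section

/-!
Row 105 (helper425): mollification in `L²` on a finite-dimensional normed space with a Haar measure
(in particular on `ℝ × ℝ`).  Sections 1, 2 are copied from `R330/Moll_350` (helper350), with the
inner product structure removed.
-/

set_option linter.unusedSectionVars false
set_option linter.deprecated false

noncomputable section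

namespace Crest.Agent.R105.MsA_425

open MeasureTheory Filter Topology
open scoped ContDiff ENNReal Convolution

/-! ### 1. A Schur bound -/

section Schur

variable {X : Type*} [MeasurableSpace X] {μ : Measure X}

/-- Cauchy-Schwarz with a weight. -/
theorem cs_sq {k h : X → ℝ≥0∞} (hk : AEMeasurable k μ) (hh : AEMeasurable h μ) :
    (∫⁻ x, k x * h x ∂μ) ^ 2 ≤ (∫⁻ x, k x ∂μ) * ∫⁻ x, k x * h x ^ 2 ∂μ := by
  have e1 : ∀ x, k x * h x = (fun x => k x ^ (1 / 2 : ℝ)) x * (fun x => k x ^ (1 / 2 : ℝ) * h x) x := by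
    intro x
    simp only
    rw [← mul_assoc, ← ENNReal.rpow_add_of_nonneg _ _ (by norm_num) (by norm_num)]
    norm_num
  have hH := ENNReal.lintegral_mul_le_Lp_mul_Lq μ (p := 2) (q := 2) (by constructor <;> norm_num)
    (hk.pow_const (1 / 2 : ℝ)) ((hk.pow_const (1 / 2 : ℝ)).mul hh)
  have e2 : ∀ x, (k x ^ (1 / 2 : ℝ)) ^ (2 : ℝ) = k x := by
    intro x
    rw [← ENNReal.rpow_mul]; norm_num
  have e3 : ∀ x, (k x ^ (1 / 2 : ℝ) * h x) ^ (2 : ℝ) = k x * h x ^ 2 := by
    intro x
    rw [ENNReal.mul_rpow_of_nonneg _ _ (by norm_num), e2]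
    norm_num
  have hH' : ∫⁻ x, k x * h x ∂μ ≤
      (∫⁻ x, k x ∂μ) ^ (1 / 2 : ℝ) * (∫⁻ x, k x * h x ^ 2 ∂μ) ^ (1 / 2 : ℝ) := by
    calc ∫⁻ x, k x * h x ∂μ = ∫⁻ x, ((fun x => k x ^ (1 / 2 : ℝ)) *
          (fun x => k x ^ (1 / 2 : ℝ) * h x)) x ∂μ := by
          refine lintegral_congr fun x => ?_
          exact e1 x
      _ ≤ _ := by
          refine hH.trans (le_of_eq ?_)
          congr 2
          · congr 1
            exact funext fun x => e2 x
          · congr 1
            exact funext fun x => e3 x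
  calc (∫⁻ x, k x * h x ∂μ) ^ 2 ≤
      ((∫⁻ x, k x ∂μ) ^ (1 / 2 : ℝ) * (∫⁻ x, k x * h x ^ 2 ∂μ) ^ (1 / 2 : ℝ)) ^ 2 := by
        gcongr
    _ = _ := by
        rw [mul_pow, ← ENNReal.rpow_natCast, ← ENNReal.rpow_natCast, ← ENNReal.rpow_mul,
          ← ENNReal.rpow_mul]
        norm_num


end Schur

/-! ### 2. Mollification -/

section Moll

variable {E : Type*} [NormedAddCommGroup E] [NormedSpace ℝ E] [FiniteDimensional ℝ E]
  [MeasureSpace E] [BorelSpace E] [(volume : Measure E).IsAddHaarMeasure]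
  {F : Type*} [NormedAddCommGroup F] [NormedSpace ℝ F]

/-- The mollification of `g` by the normalised bump `φ`. -/
def moll (φ : ContDiffBump (0 : E)) (g : E → F) (x : E) : F :=
  ∫ y, φ.normed volume (x - y) • g y

variable {φ : ContDiffBump (0 : E)} {g : E → F}

theorem moll_eq_conv :
    moll φ g = (φ.normed volume ⋆[ContinuousLinearMap.lsmul ℝ ℝ, volume] g) := by
  funext x
  rw [convolution_eq_swap]
  rfl

theorem contDiff_moll (hg : LocallyIntegrable g) : ContDiff ℝ ∞ (moll φ g) := by
  rw [moll_eq_conv]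
  exact φ.hasCompactSupport_normed.contDiff_convolution_left _ φ.contDiff_normed hg

theorem fderiv_moll [CompleteSpace F] (hg : LocallyIntegrable g) (x e : E) :
    fderiv ℝ (moll φ g) x e = ∫ y, fderiv ℝ (φ.normed volume) (x - y) e • g y := by
  rw [moll_eq_conv]
  have h := φ.hasCompactSupport_normed.hasFDerivAt_convolution_left
    (ContinuousLinearMap.lsmul ℝ ℝ : ℝ →L[ℝ] F →L[ℝ] F)
    (φ.contDiff_normed (n := 1) (μ := volume)) hg x
  rw [h.fderiv, convolution_eq_swap, ContinuousLinearMap.integral_apply]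
  · rfl
  · have hcd : HasCompactSupport (fderiv ℝ (φ.normed volume)) :=
      φ.hasCompactSupport_normed.fderiv (𝕜 := ℝ)
    have hcont : Continuous (fderiv ℝ (φ.normed (volume : Measure E))) :=
      (φ.contDiff_normed (n := 1) (μ := volume)).continuous_fderiv (by norm_num)
    have := hcd.convolutionExists_left
      (L := ((ContinuousLinearMap.lsmul ℝ ℝ : ℝ →L[ℝ] F →L[ℝ] F).precompL E)) (μ := volume)
      hcont hg x
    have h2 := this.integrable_swap
    exact h2




theorem lintegral_normed_right (y : E) :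
    ∫⁻ x, ENNReal.ofReal (φ.normed volume (x - y)) = 1 := by
  rw [lintegral_sub_right_eq_self (μ := (volume : Measure E))
    (fun z => ENNReal.ofReal (φ.normed volume z)) y,
    ← ofReal_integral_eq_lintegral_ofReal φ.integrable_normed
      (Eventually.of_forall fun z => φ.nonneg_normed z), φ.integral_normed]
  simp



theorem eLpNorm_two_sq {X : Type*} [MeasurableSpace X] {μ : Measure X} {G : Type*}
    [NormedAddCommGroup G] (f : X → G) : eLpNorm f 2 μ ^ 2 = ∫⁻ x, ‖f x‖ₑ ^ 2 ∂μ := by
  rw [eLpNorm_eq_lintegral_rpow_enorm_toReal (by norm_num) (by norm_num)]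
  simp only [ENNReal.toReal_ofNat, ENNReal.rpow_ofNat]
  rw [← ENNReal.rpow_natCast, ← ENNReal.rpow_mul]
  norm_num




/-- continuity of translations in `L²` -/
theorem tendsto_translate {g : E → F} (hg : MemLp g 2 volume) :
    Tendsto (fun z : E => eLpNorm (fun x => g (x - z) - g x) 2 volume) (𝓝 0) (𝓝 0) := by
  have : Fact ((1 : ℝ≥0∞) ≤ 2) := ⟨by norm_num⟩
  let T : E → C(E, E) := fun z => ⟨fun x => x - z, by fun_prop⟩
  have hT : Continuous T := by
    refine ContinuousMap.continuous_of_continuous_uncurry _ ?_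
    exact continuous_snd.sub continuous_fst
  have hTm : ∀ z, MeasurePreserving (T z) (volume : Measure E) volume := fun z =>
    measurePreserving_sub_right volume z
  have hc := (continuous_const (y := hg.toLp g)).compMeasurePreservingLp (μ := (volume : Measure E))
    (ν := (volume : Measure E)) (p := 2) hT hTm (by norm_num)
  have h0 := (hc.tendsto 0)
  rw [tendsto_iff_norm_sub_tendsto_zero] at h0
  have h1 := ENNReal.tendsto_ofReal h0
  rw [ENNReal.ofReal_zero] at h1
  refine h1.congr fun z => ?_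
  rw [Lp.norm_def, ENNReal.ofReal_toReal (Lp.eLpNorm_ne_top _)]
  refine eLpNorm_congr_ae ?_
  refine (Lp.coeFn_sub _ _).trans ?_
  have a1 : ∀ w, (Lp.compMeasurePreserving (T w) (hTm w) (hg.toLp g) : E → F) =ᵐ[volume]
      fun x => g (x - w) := by
    intro w
    refine (Lp.coeFn_compMeasurePreserving _ _).trans ?_
    exact (hTm w).quasiMeasurePreserving.ae_eq_comp hg.coeFn_toLp
  filter_upwards [a1 z, a1 0] with x h2 h3
  simp only [Pi.sub_apply]
  rw [h2, h3, sub_zero]

/-- quantitative mollification error -/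
theorem eLpNorm_moll_sub_le [CompleteSpace F] (hg : MemLp g 2 volume) {δ : ℝ≥0∞}
    (hδ : ∀ z : E, ‖z‖ < φ.rOut → eLpNorm (fun x => g (x - z) - g x) 2 volume ≤ δ) :
    eLpNorm (moll φ g - g) 2 volume ≤ δ := by
  have hloc : LocallyIntegrable g volume := hg.locallyIntegrable (by norm_num)
  -- pointwise bound
  have hpt : ∀ x, ‖(moll φ g - g) x‖ₑ ≤
      ∫⁻ z, ENNReal.ofReal (φ.normed volume z) * ‖g (x - z) - g x‖ₑ := by
    intro x
    have hI : Integrable (fun z => φ.normed volume z • g (x - z)) volume := by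
      have := φ.hasCompactSupport_normed.convolutionExists_left
        (L := (ContinuousLinearMap.lsmul ℝ ℝ : ℝ →L[ℝ] F →L[ℝ] F)) (μ := volume)
        (φ.continuous_normed (μ := volume)) hloc x
      exact this
    have e1 : moll φ g x = ∫ z, φ.normed volume z • g (x - z) := by
      rw [moll_eq_conv]
      rfl
    have e2 : g x = ∫ z, φ.normed volume z • g x := by
      rw [integral_smul_const, φ.integral_normed, one_smul]
    have e3 : (moll φ g - g) x = ∫ z, φ.normed volume z • (g (x - z) - g x) := by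
      simp only [Pi.sub_apply, smul_sub]
      rw [integral_sub hI (φ.integrable_normed.smul_const _), ← e1, ← e2]
    rw [e3]
    refine (enorm_integral_le_lintegral_enorm _).trans (le_of_eq ?_)
    refine lintegral_congr fun z => ?_
    rw [enorm_smul, Real.enorm_eq_ofReal (φ.nonneg_normed _)]
  have hmeas1 : AEStronglyMeasurable (fun p : E × E => g (p.1 - p.2) - g p.1)
      ((volume : Measure E).prod volume) := by
    refine AEStronglyMeasurable.sub ?_ ?_
    · have hq : Measure.QuasiMeasurePreserving (fun p : E × E => p.1 - p.2)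
          ((volume : Measure E).prod volume) volume :=
        quasiMeasurePreserving_sub_of_right_invariant volume volume
      exact hg.1.comp_quasiMeasurePreserving hq
    · exact hg.1.comp_quasiMeasurePreserving Measure.quasiMeasurePreserving_fst
  have hmeas2 : AEMeasurable (fun p : E × E => ‖g (p.1 - p.2) - g p.1‖ₑ)
      ((volume : Measure E).prod volume) := hmeas1.enorm
  have hkey : eLpNorm (moll φ g - g) 2 volume ^ 2 ≤ δ ^ 2 := by
    rw [eLpNorm_two_sq]
    calc ∫⁻ x, ‖(moll φ g - g) x‖ₑ ^ 2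
        ≤ ∫⁻ x, (∫⁻ z, ENNReal.ofReal (φ.normed volume z) * ‖g (x - z) - g x‖ₑ) ^ 2 := by
          refine lintegral_mono fun x => ?_
          gcongr
          exact hpt x
      _ ≤ ∫⁻ x, ∫⁻ z, ENNReal.ofReal (φ.normed volume z) * ‖g (x - z) - g x‖ₑ ^ 2 := by
          refine lintegral_mono_ae ?_
          have hsec : ∀ᵐ x ∂(volume : Measure E),
              AEMeasurable (fun z => ‖g (x - z) - g x‖ₑ) volume := by
            filter_upwards [hmeas1.prodMk_left] with x hx
            exact hx.enorm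
          filter_upwards [hsec] with x hx
          refine (cs_sq (μ := (volume : Measure E)) ?_ hx).trans ?_
          · exact (ENNReal.measurable_ofReal.comp φ.continuous_normed.measurable).aemeasurable
          · have : ∫⁻ z, ENNReal.ofReal (φ.normed volume z) = 1 := by
              have := lintegral_normed_right (φ := φ) (0 : E)
              simpa using this
            rw [this, one_mul]
      _ = ∫⁻ z, ∫⁻ x, ENNReal.ofReal (φ.normed volume z) * ‖g (x - z) - g x‖ₑ ^ 2 := by
          refine lintegral_lintegral_swap ?_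
          refine AEMeasurable.mul ?_ (hmeas2.pow_const 2)
          exact ((ENNReal.measurable_ofReal.comp φ.continuous_normed.measurable).comp
            measurable_snd).aemeasurable
      _ ≤ ∫⁻ z, ENNReal.ofReal (φ.normed volume z) * δ ^ 2 := by
          refine lintegral_mono fun z => ?_
          rw [lintegral_const_mul' _ _ ENNReal.ofReal_ne_top]
          by_cases hz : ‖z‖ < φ.rOut
          · gcongr
            rw [← eLpNorm_two_sq]
            gcongr
            exact hδ z hz
          · have : φ.normed volume z = 0 := by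
              have h1 : z ∉ Function.support (φ.normed volume) := by
                rw [φ.support_normed_eq, Metric.mem_ball, dist_zero_right]
                exact hz
              simpa using h1
            simp [this]
      _ = δ ^ 2 := by
          rw [lintegral_mul_const]
          · have : ∫⁻ z, ENNReal.ofReal (φ.normed volume z) = 1 := by
              have := lintegral_normed_right (φ := φ) (0 : E)
              simpa using this
            rw [this, one_mul]
          · exact ENNReal.measurable_ofReal.comp φ.continuous_normed.measurable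
  exact (ENNReal.pow_le_pow_left_iff (by norm_num)).mp hkey

/-- `L²` convergence of mollifications. -/
theorem tendsto_moll [CompleteSpace F] (hg : MemLp g 2 volume) {φs : ℕ → ContDiffBump (0 : E)}
    (hφ : Tendsto (fun n => (φs n).rOut) atTop (𝓝 0)) :
    Tendsto (fun n => eLpNorm (moll (φs n) g - g) 2 volume) atTop (𝓝 0) := by
  rw [ENNReal.tendsto_nhds_zero]
  intro ε hε
  have h1 := tendsto_translate hg
  rw [ENNReal.tendsto_nhds_zero] at h1
  have h2 := h1 ε hε
  rw [Metric.eventually_nhds_iff] at h2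
  obtain ⟨r, hr, h3⟩ := h2
  have h4 : ∀ᶠ n in atTop, (φs n).rOut < r := hφ.eventually (gt_mem_nhds hr)
  filter_upwards [h4] with n hn
  refine eLpNorm_moll_sub_le hg fun z hz => h3 ?_
  rw [dist_zero_right]
  exact hz.trans hn

end Moll

end Crest.Agent.R105.MsA_425
end
end

-- ▼ part R105/MsB_425
section

/-!
Row 105 (helper425): smoothing with boundary control (Meyers-Serrin).
`f` continuous on the whole space, weak gradient `G ∈ L²(V)` on the open set `V`; then there is a
continuous `v`, equal to `f` off `V`, `C^∞` on `V`, with `|v - f| ≤ ε` and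
`‖fderiv v - G‖_{L²(V)} ≤ ε`.
-/

set_option linter.unusedSectionVars false

noncomputable section

namespace Crest.Agent.R105.MsB_425

open MeasureTheory Filter Topology Set
open scoped ContDiff ENNReal Convolution Manifold

open MsA_425

variable {E : Type*} [NormedAddCommGroup E] [NormedSpace ℝ E] [FiniteDimensional ℝ E]
  [MeasureSpace E] [BorelSpace E] [(volume : Measure E).IsAddHaarMeasure]

omit [MeasureSpace E] [BorelSpace E] [(volume : Measure E).IsAddHaarMeasure] in
theorem exhaustion {V : Set E} (hV : IsOpen V) :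
    ∃ K : ℕ → Set E, (∀ n, IsCompact (K n)) ∧ (∀ n, K n ⊆ interior (K (n + 1))) ∧
      (⋃ n, K n) = V := by
  have : LocallyCompactSpace V := hV.locallyCompactSpace
  let C := CompactExhaustion.choice V
  refine ⟨fun n => Subtype.val '' (C n), fun n => (C.isCompact n).image continuous_subtype_val,
    fun n => ?_, ?_⟩
  · have h1 : Subtype.val '' (interior (C (n+1))) ⊆ interior (Subtype.val '' (C (n+1))) :=
      interior_maximal (image_mono interior_subset) (hV.isOpenMap_subtype_val _ isOpen_interior)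
    exact (image_mono (C.subset_interior_succ n)).trans h1
  · rw [← image_iUnion, C.iUnion_eq, image_univ, Subtype.range_coe]

omit [MeasureSpace E] [BorelSpace E] [(volume : Measure E).IsAddHaarMeasure] in
theorem cutoff {K L : Set E} (hK : IsClosed K) (hKL : K ⊆ interior L) :
    ∃ χ : E → ℝ, ContDiff ℝ ∞ χ ∧ (∀ᶠ x in 𝓝ˢ K, χ x = 1) ∧ (∀ x ∉ L, χ x = 0) ∧
      ∀ x, 0 ≤ χ x ∧ χ x ≤ 1 := by
  obtain ⟨f, h1, h2, h3⟩ := exists_contMDiffMap_one_nhds_of_subset_interior (n := (⊤ : ℕ∞))
    (𝓘(ℝ, E)) hK hKL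
  exact ⟨f, contMDiff_iff_contDiff.1 f.contMDiff, h1, h2, fun x => ⟨(h3 x).1, (h3 x).2⟩⟩

/-- `G` is the weak gradient of `f` on `V` -/
def WG (V : Set E) (f : E → ℝ) (G : E → E →L[ℝ] ℝ) : Prop :=
  ∀ η : E → ℝ, ContDiff ℝ ∞ η → HasCompactSupport η → tsupport η ⊆ V → ∀ e : E,
    ∫ x, f x * fderiv ℝ η x e = - ∫ x, η x * G x e

/-- weak gradient of `ρ f` -/
def HG (ρ f : E → ℝ) (G : E → E →L[ℝ] ℝ) (x : E) : E →L[ℝ] ℝ := ρ x • G x + f x • fderiv ℝ ρ x

omit [NormedSpace ℝ E] [FiniteDimensional ℝ E] [BorelSpace E]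
  [(volume : Measure E).IsAddHaarMeasure] in
theorem memLp_of_restrict {F : Type*} [NormedAddCommGroup F] {V : Set E} (hV : MeasurableSet V)
    {g : E → F} (h : MemLp g 2 (volume.restrict V)) (h0 : ∀ x ∉ V, g x = 0) :
    MemLp g 2 (volume : Measure E) := by
  have e : V.indicator g = g := by
    rw [indicator_eq_self]
    intro x hx
    by_contra hxV
    exact hx (h0 x hxV)
  rw [← e]
  exact (memLp_indicator_iff_restrict hV).2 h

omit [NormedSpace ℝ E] [FiniteDimensional ℝ E] [MeasureSpace E] [BorelSpace E]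
  [(volume : Measure E).IsAddHaarMeasure] in
/-- a function continuous on the open set `V` times a continuous function supported in `V` -/
theorem continuous_smul_of_tsupport {F : Type*} [NormedAddCommGroup F] [NormedSpace ℝ F]
    {V : Set E} (hV : IsOpen V) {f : E → ℝ} {D : E → F} (hf : ContinuousOn f V)
    (hD : Continuous D) (hs : tsupport D ⊆ V) : Continuous fun x => f x • D x := by
  rw [continuous_iff_continuousAt]
  intro x
  by_cases hx : x ∈ V
  · exact (hf.continuousAt (hV.mem_nhds hx)).smul hD.continuousAt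
  · have h1 : D =ᶠ[𝓝 x] 0 := notMem_tsupport_iff_eventuallyEq.1 fun h => hx (hs h)
    have h2 : (fun x => f x • D x) =ᶠ[𝓝 x] fun _ => 0 := by
      filter_upwards [h1] with y hy
      rw [hy]; simp
    exact (continuousAt_congr h2).2 continuousAt_const

omit [NormedSpace ℝ E] [FiniteDimensional ℝ E] [MeasureSpace E] [BorelSpace E]
  [(volume : Measure E).IsAddHaarMeasure] in
theorem continuous_mul_of_tsupport {V : Set E} (hV : IsOpen V) {f h : E → ℝ}
    (hf : ContinuousOn f V) (hh : Continuous h) (hs : tsupport h ⊆ V) :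
    Continuous fun x => h x * f x := by
  have := continuous_smul_of_tsupport hV hf hh hs
  refine this.congr fun x => ?_
  rw [smul_eq_mul, mul_comm]

theorem memLp_gen {F : Type*} [NormedAddCommGroup F] [NormedSpace ℝ F] {V : Set E} (hV : IsOpen V)
    {ρ f : E → ℝ} {G D : E → F} (hf : ContinuousOn f V)
    (hG : MemLp G 2 (volume.restrict V)) (hρ : Continuous ρ) (hc : HasCompactSupport ρ)
    (hs : tsupport ρ ⊆ V) (hdcont : Continuous D) (hdc : HasCompactSupport D)
    (hDs : tsupport D ⊆ V) :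
    MemLp (fun x => ρ x • G x + f x • D x) 2 (volume : Measure E) := by
  have h2 : MemLp (fun x => f x • D x) 2 (volume : Measure E) :=
    (continuous_smul_of_tsupport hV hf hdcont hDs).memLp_of_hasCompactSupport (hdc.smul_left)
  have h1 : MemLp (fun x => ρ x • G x) 2 (volume : Measure E) := by
    obtain ⟨C, hC⟩ := hc.exists_bound_of_continuous hρ
    have h0 : MemLp (fun x => ρ x • G x) 2 (volume.restrict V) := by
      refine MemLp.of_le_mul (c := C) hG ?_ ?_
      · exact hρ.aestronglyMeasurable.smul hG.1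
      · refine Eventually.of_forall fun x => ?_
        rw [norm_smul]
        exact mul_le_mul_of_nonneg_right (hC x) (norm_nonneg _)
    refine memLp_of_restrict hV.measurableSet h0 fun x hx => ?_
    have : ρ x = 0 := image_eq_zero_of_notMem_tsupport fun h => hx (hs h)
    rw [this, zero_smul]
  exact h1.add h2

theorem memLp_HG {V : Set E} (hV : IsOpen V) {ρ f : E → ℝ} {G : E → E →L[ℝ] ℝ}
    (hf : ContinuousOn f V)
    (hG : MemLp G 2 (volume.restrict V)) (hρ : ContDiff ℝ ∞ ρ) (hc : HasCompactSupport ρ)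
    (hs : tsupport ρ ⊆ V) : MemLp (HG ρ f G) 2 volume := by
  have hdc : HasCompactSupport (fderiv ℝ ρ) := hc.fderiv (𝕜 := ℝ)
  have hdcont : Continuous (fderiv ℝ ρ) := hρ.continuous_fderiv (by norm_num)
  unfold HG
  exact memLp_gen hV hf hG hρ.continuous hc hs hdcont hdc
    ((tsupport_fderiv_subset ℝ).trans hs)

/-- gradient of the mollification of `ρ f` -/
theorem fderiv_moll_piece {V : Set E} (hV : IsOpen V) {ρ f : E → ℝ} {G : E → E →L[ℝ] ℝ}
    (hf : ContinuousOn f V) (hG : MemLp G 2 (volume.restrict V)) (hW : WG V f G)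
    (hρ : ContDiff ℝ ∞ ρ) (hc : HasCompactSupport ρ)
    (hs : tsupport ρ ⊆ V) (φ : ContDiffBump (0 : E)) (x : E) :
    fderiv ℝ (moll φ fun y => ρ y * f y) x = moll φ (HG ρ f G) x := by
  have hHG := memLp_HG hV hf hG hρ hc hs
  have hcont : Continuous fun y => ρ y * f y := continuous_mul_of_tsupport hV hf hρ.continuous hs
  have hloc : LocallyIntegrable (fun y => ρ y * f y) (volume : Measure E) :=
    hcont.locallyIntegrable
  have hφd : ContDiff ℝ ∞ (φ.normed (volume : Measure E)) := φ.contDiff_normed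
  have hint : Integrable (fun y => φ.normed volume (x - y) • HG ρ f G y) volume := by
    have hl : LocallyIntegrable (HG ρ f G) volume := hHG.locallyIntegrable (by norm_num)
    have := φ.hasCompactSupport_normed.convolutionExists_left
        (L := (ContinuousLinearMap.lsmul ℝ ℝ : ℝ →L[ℝ] (E →L[ℝ] ℝ) →L[ℝ] (E →L[ℝ] ℝ)))
        (μ := volume) (φ.continuous_normed (μ := volume)) hl x
    exact this.integrable_swap
  ext e
  rw [fderiv_moll hloc]
  unfold moll
  rw [ContinuousLinearMap.integral_apply hint]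
  -- the test function
  set η : E → ℝ := fun y => ρ y * φ.normed volume (x - y) with hη
  have hηs : ContDiff ℝ ∞ η := hρ.mul (hφd.comp (contDiff_const.sub contDiff_id))
  have hηc : HasCompactSupport η := hc.mul_right
  have hηt : tsupport η ⊆ V := by
    refine subset_trans (closure_mono ?_) hs
    intro y hy
    rw [Function.mem_support] at hy ⊢
    intro h
    exact hy (by rw [hη]; simp [h])
  have hWη := hW η hηs hηc hηt e
  have hder : ∀ y, fderiv ℝ η y e =
      fderiv ℝ ρ y e * φ.normed volume (x - y) - ρ y * fderiv ℝ (φ.normed volume) (x - y) e := by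
    intro y
    have h1 : HasFDerivAt ρ (fderiv ℝ ρ y) y := (hρ.differentiable (by norm_num) y).hasFDerivAt
    have h2 : HasFDerivAt (fun y => φ.normed (volume : Measure E) (x - y))
        ((fderiv ℝ (φ.normed (volume : Measure E)) (x - y)).comp
          (-(ContinuousLinearMap.id ℝ E))) y := by
      have h3 : HasFDerivAt (fun y => x - y) (-(ContinuousLinearMap.id ℝ E)) y :=
        (hasFDerivAt_id y).const_sub x
      exact ((hφd.differentiable (by norm_num) (x - y)).hasFDerivAt).comp y h3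
    have h4 : HasFDerivAt η (ρ y • ((fderiv ℝ (φ.normed (volume : Measure E)) (x - y)).comp
          (-(ContinuousLinearMap.id ℝ E))) + φ.normed (volume : Measure E) (x - y) •
          fderiv ℝ ρ y) y := h1.mul h2
    rw [h4.fderiv]
    simp only [_root_.add_apply, _root_.smul_apply,
      ContinuousLinearMap.comp_apply, _root_.neg_apply, ContinuousLinearMap.id_apply,
      map_neg, smul_eq_mul]
    ring
  have hdcont : Continuous fun y => fderiv ℝ ρ y e :=
    (hρ.continuous_fderiv (by norm_num)).clm_apply continuous_const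
  have hdcomp : HasCompactSupport fun y => fderiv ℝ ρ y e := hc.fderiv_apply (𝕜 := ℝ) e
  have hφc : Continuous fun y => φ.normed (volume : Measure E) (x - y) :=
    φ.continuous_normed.comp (continuous_const.sub continuous_id)
  have hφdc : Continuous fun y => fderiv ℝ (φ.normed (volume : Measure E)) (x - y) e :=
    ((hφd.continuous_fderiv (by norm_num)).comp
      (continuous_const.sub continuous_id)).clm_apply continuous_const
  have i1 : Integrable (fun y => f y * (fderiv ℝ ρ y e * φ.normed volume (x - y))) volume := by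
    have h7 := continuous_smul_of_tsupport hV hf (hdcont.mul hφc) (subset_trans (closure_mono
      (Function.support_mul_subset_left _ _)) ((tsupport_fderiv_apply_subset ℝ e).trans hs))
    exact Continuous.integrable_of_hasCompactSupport h7 ((hdcomp.mul_right).mul_left)
  have i2 : Integrable (fun y => f y * (ρ y * fderiv ℝ (φ.normed (volume : Measure E)) (x - y) e))
      volume := by
    have h7 := continuous_smul_of_tsupport hV hf (hρ.continuous.mul hφdc) (subset_trans (closure_mono
      (Function.support_mul_subset_left _ _)) hs)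
    exact Continuous.integrable_of_hasCompactSupport h7 ((hc.mul_right).mul_left)
  have i3 : Integrable (fun y => η y * G y e) volume := by
    have h5 : Integrable (fun y => φ.normed volume (x - y) • HG ρ f G y e) volume :=
      (ContinuousLinearMap.apply ℝ ℝ e).integrable_comp hint
    have h6 : (fun y => η y * G y e) = fun y => φ.normed volume (x - y) • HG ρ f G y e -
        f y * (fderiv ℝ ρ y e * φ.normed volume (x - y)) := by
      funext y
      simp only [hη, HG, _root_.add_apply, _root_.smul_apply, smul_eq_mul]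
      ring
    rw [h6]
    exact h5.sub i1
  have e1 : ∫ y, fderiv ℝ (φ.normed (volume : Measure E)) (x - y) e • (ρ y * f y) =
      ∫ y, f y * (ρ y * fderiv ℝ (φ.normed (volume : Measure E)) (x - y) e) := by
    congr 1; funext y; rw [smul_eq_mul]; ring
  have e2 : ∫ y, f y * fderiv ℝ η y e =
      (∫ y, f y * (fderiv ℝ ρ y e * φ.normed volume (x - y))) -
        ∫ y, f y * (ρ y * fderiv ℝ (φ.normed (volume : Measure E)) (x - y) e) := by
    rw [← integral_sub i1 i2]
    congr 1; funext y; rw [hder y]; ring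
  have e3 : ∫ y, (φ.normed volume (x - y) • HG ρ f G y) e =
      (∫ y, f y * (fderiv ℝ ρ y e * φ.normed volume (x - y))) + ∫ y, η y * G y e := by
    rw [← integral_add i1 i3]
    congr 1; funext y
    simp only [hη, HG, _root_.add_apply, _root_.smul_apply, smul_eq_mul]
    ring
  rw [e1, e3]
  rw [e2] at hWη
  linarith

/-- one piece -/
theorem piece {V W : Set E} (hV : IsOpen V) (hWo : IsOpen W) {ρ f : E → ℝ} {G : E → E →L[ℝ] ℝ}
    (hf : ContinuousOn f V) (hG : MemLp G 2 (volume.restrict V)) (hW : WG V f G)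
    (hρ : ContDiff ℝ ∞ ρ) (hc : HasCompactSupport ρ) (hs : tsupport ρ ⊆ V) (hsW : tsupport ρ ⊆ W)
    {ε : ℝ} (hε : 0 < ε) :
    ∃ w : E → ℝ, ContDiff ℝ ∞ w ∧ (∀ x ∉ W, w x = 0) ∧ (∀ x, |w x - ρ x * f x| ≤ ε) ∧
      eLpNorm (fun x => fderiv ℝ w x - HG ρ f G x) 2 volume ≤ ENNReal.ofReal ε := by
  have hHG := memLp_HG hV hf hG hρ hc hs
  have hcont : Continuous fun y => ρ y * f y := continuous_mul_of_tsupport hV hf hρ.continuous hs
  have hcs : HasCompactSupport fun y => ρ y * f y := hc.mul_right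
  have hloc : LocallyIntegrable (fun y => ρ y * f y) (volume : Measure E) :=
    hcont.locallyIntegrable
  -- the sequence of bumps
  let φs : ℕ → ContDiffBump (0 : E) := fun n =>
    ⟨1 / (2 * ((n : ℝ) + 1)), 1 / ((n : ℝ) + 1), by positivity, by
      rw [one_div_lt_one_div (by positivity) (by positivity)]
      have : (0 : ℝ) ≤ n := Nat.cast_nonneg n
      linarith⟩
  have hφ : Tendsto (fun n => (φs n).rOut) atTop (𝓝 0) := tendsto_one_div_add_atTop_nhds_zero_nat
  -- (a)
  obtain ⟨δ, hδ, hδW⟩ := hc.isCompact.exists_thickening_subset_open hWo hsW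
  -- (b)
  have huc : UniformContinuous fun y => ρ y * f y :=
    hcont.uniformContinuous_of_tendsto_cocompact hcs.is_zero_at_infty
  obtain ⟨δ', hδ', huc'⟩ := Metric.uniformContinuous_iff.1 huc ε hε
  -- (c)
  have hL2 := tendsto_moll hHG hφ
  have hL2' : ∀ᶠ n in atTop, eLpNorm (moll (φs n) (HG ρ f G) - HG ρ f G) 2 volume ≤
      ENNReal.ofReal ε :=
    (ENNReal.tendsto_nhds_zero.1 hL2) _ (ENNReal.ofReal_pos.2 hε)
  have ha : ∀ᶠ n in atTop, (φs n).rOut < δ := hφ.eventually (gt_mem_nhds hδ)
  have hb : ∀ᶠ n in atTop, (φs n).rOut < δ' := hφ.eventually (gt_mem_nhds hδ')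
  obtain ⟨n, ⟨h1, h2⟩, h3⟩ := ((ha.and hb).and hL2').exists
  set φ := φs n with hφn
  refine ⟨moll φ fun y => ρ y * f y, contDiff_moll hloc, ?_, ?_, ?_⟩
  · intro x hx
    unfold moll
    rw [← integral_zero E ℝ (μ := volume)]
    congr 1
    funext y
    by_cases hy : y ∈ tsupport ρ
    · have : φ.normed volume (x - y) = 0 := by
        have h4 : x - y ∉ Function.support (φ.normed volume) := by
          rw [φ.support_normed_eq, Metric.mem_ball, dist_zero_right, not_lt]
          by_contra hcon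
          push Not at hcon
          apply hx
          apply hδW
          rw [Metric.mem_thickening_iff]
          exact ⟨y, hy, by rw [dist_eq_norm]; linarith⟩
        simpa using h4
      rw [this, zero_smul]
    · show φ.normed volume (x - y) • (ρ y * f y) = 0
      rw [image_eq_zero_of_notMem_tsupport hy, zero_mul, smul_zero]
  · intro x
    have h4 := φ.dist_normed_convolution_le (μ := (volume : Measure E)) (g := fun y => ρ y * f y)
      (x₀ := x) (ε := ε) hcont.aestronglyMeasurable (fun y hy => by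
        refine (huc' ?_).le
        rw [Metric.mem_ball] at hy
        linarith)
    rw [moll_eq_conv, ← Real.dist_eq]
    exact h4
  · have h5 : (fun x => fderiv ℝ (moll φ fun y => ρ y * f y) x - HG ρ f G x) =
        moll φ (HG ρ f G) - HG ρ f G := by
      funext x
      rw [fderiv_moll_piece hV hf hG hW hρ hc hs φ x]
      rfl
    rw [h5]
    exact h3

end Crest.Agent.R105.MsB_425
end
end

-- ▼ part R105/MsC_425
section

/-!
Row 105 (helper425): smoothing with boundary control (Meyers-Serrin), main theorem `ms`.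
-/

set_option linter.unusedSectionVars false

noncomputable section

namespace Crest.Agent.R105.MsB_425

open MeasureTheory Filter Topology Set
open scoped ContDiff ENNReal Convolution Manifold

open MsA_425

variable {E : Type*} [NormedAddCommGroup E] [NormedSpace ℝ E] [FiniteDimensional ℝ E]
  [MeasureSpace E] [BorelSpace E] [(volume : Measure E).IsAddHaarMeasure]

/-- **Smoothing with boundary control**, for `f` continuous on `V` only. -/
theorem ms_on {V : Set E} (hV : IsOpen V) {f : E → ℝ} (hf : ContinuousOn f V) {G : E → E →L[ℝ] ℝ}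
    (hG : MemLp G 2 (volume.restrict V)) (hW : WG V f G) {ε : ℝ} (hε : 0 < ε) :
    ∃ v : E → ℝ, Continuous (fun x => v x - f x) ∧ ContDiffOn ℝ ∞ v V ∧ (∀ x ∉ V, v x = f x) ∧
      (∀ x, |v x - f x| ≤ ε) ∧
      eLpNorm (fun x => fderiv ℝ v x - G x) 2 (volume.restrict V) ≤ ENNReal.ofReal ε := by
  obtain ⟨K, hKc, hKi, hKV⟩ := exhaustion hV
  have hKs : ∀ n, K n ⊆ K (n + 1) := fun n => (hKi n).trans interior_subset
  have hKm : Monotone K := monotone_nat_of_le_succ hKs
  have hKsub : ∀ n, K n ⊆ V := fun n => by rw [← hKV]; exact subset_iUnion K n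
  choose χ hχs hχ1 hχ0 hχb using fun n => cutoff (hKc n).isClosed (hKi n)
  -- the partition
  let ρ : ℕ → E → ℝ := fun n => Nat.casesOn n (χ 0) fun k => fun x => χ (k + 1) x - χ k x
  have hρ0 : ρ 0 = χ 0 := rfl
  have hρS : ∀ k, ρ (k + 1) = fun x => χ (k + 1) x - χ k x := fun k => rfl
  have hρs : ∀ n, ContDiff ℝ ∞ (ρ n) := by
    intro n
    cases n with
    | zero => rw [hρ0]; exact hχs 0
    | succ k => rw [hρS]; exact (hχs (k + 1)).sub (hχs k)
  have hρsupp : ∀ n, tsupport (ρ n) ⊆ K (n + 1) := by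
    intro n
    refine closure_minimal ?_ (hKc (n + 1)).isClosed
    intro x hx
    by_contra hxK
    apply hx
    cases n with
    | zero => rw [hρ0]; exact hχ0 0 x hxK
    | succ k =>
      rw [hρS]
      show χ (k + 1) x - χ k x = 0
      rw [hχ0 (k + 1) x hxK, hχ0 k x (fun h => hxK (hKs _ h)), sub_zero]
  have hρc : ∀ n, HasCompactSupport (ρ n) := fun n =>
    HasCompactSupport.of_support_subset_isCompact (hKc (n + 1))
      (subset_trans (subset_tsupport _) (hρsupp n))
  have hρV : ∀ n, tsupport (ρ n) ⊆ V := fun n => (hρsupp n).trans (hKsub _)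
  have hχnear : ∀ n, ∀ x ∈ K n, ∀ᶠ y in 𝓝 x, χ n y = 1 := fun n x hx =>
    (eventually_nhdsSet_iff_forall.1 (hχ1 n)) x hx
  let W : ℕ → Set E := fun n => Nat.casesOn n V fun k => V \ K k
  have hW0 : W 0 = V := rfl
  have hWS : ∀ k, W (k + 1) = V \ K k := fun k => rfl
  have hWo : ∀ n, IsOpen (W n) := by
    intro n
    cases n with
    | zero => rw [hW0]; exact hV
    | succ k => rw [hWS]; exact hV.sdiff (hKc k).isClosed
  have hρK : ∀ k, ∀ x ∈ K k, x ∉ tsupport (ρ (k + 1)) := by
    intro k x hx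
    rw [notMem_tsupport_iff_eventuallyEq]
    filter_upwards [hχnear k x hx, hχnear (k + 1) x (hKs k hx)] with y h1 h2
    rw [hρS]
    show χ (k + 1) y - χ k y = 0
    rw [h1, h2, sub_self]
  have hρW : ∀ n, tsupport (ρ n) ⊆ W n := by
    intro n
    cases n with
    | zero => rw [hW0]; exact hρV 0
    | succ k =>
      rw [hWS]
      intro x hx
      exact ⟨hρV (k + 1) hx, fun h => hρK k x h hx⟩
  have hεk : ∀ k : ℕ, 0 < ε / 2 / 2 ^ k := fun k => by positivity
  choose w hws hw0 hwb hwL using fun k => piece hV (hWo k) hf hG hW (hρs k) (hρc k) (hρV k) (hρW k)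
    (hεk k)
  have hsumε : HasSum (fun k : ℕ => ε / 2 / 2 ^ k) ε := hasSum_geometric_two' ε
  set v : E → ℝ := fun x => f x + ∑' k, (w k x - ρ k x * f x) with hv
  -- vanishing of late terms
  have hlate : ∀ m, ∀ x ∈ K m, ∀ k ∉ Finset.range (m + 1), w k x = 0 ∧ ρ k x = 0 := by
    intro m x hx k hk
    rw [Finset.mem_range, not_lt] at hk
    obtain ⟨j, rfl⟩ : ∃ j, k = j + 1 := ⟨k - 1, by omega⟩
    have hxj : x ∈ K j := hKm (by omega : m ≤ j) hx
    refine ⟨hw0 (j + 1) x ?_, image_eq_zero_of_notMem_tsupport (hρK j x hxj)⟩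
    rw [hWS]
    exact fun h => h.2 hxj
  have hsumρ : ∀ m x, ∑ k ∈ Finset.range (m + 1), ρ k x = χ m x := by
    intro m x
    induction m with
    | zero => rw [Finset.sum_range_succ, Finset.sum_range_zero, zero_add, hρ0]
    | succ m ih =>
      rw [Finset.sum_range_succ, ih, hρS]
      ring
  have hvK : ∀ m, ∀ x ∈ K m, v x = ∑ k ∈ Finset.range (m + 1), w k x := by
    intro m x hx
    rw [hv]
    show f x + ∑' k, (w k x - ρ k x * f x) = _
    rw [tsum_eq_sum (s := Finset.range (m + 1)) (fun k hk => by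
      rw [(hlate m x hx k hk).1, (hlate m x hx k hk).2]; ring), Finset.sum_sub_distrib,
      ← Finset.sum_mul, hsumρ, (hχnear m x hx).self_of_nhds]
    ring
  have hvcont : Continuous fun x => v x - f x := by
    have h0 : (fun x => v x - f x) = fun x => ∑' k, (w k x - ρ k x * f x) := by
      funext x; rw [hv]; ring
    rw [h0]
    refine continuous_tsum (fun k => ?_) hsumε.summable fun k x => ?_
    · exact (hws k).continuous.sub (continuous_mul_of_tsupport hV hf (hρs k).continuous (hρV k))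
    · rw [Real.norm_eq_abs]; exact hwb k x
  have hIV : (⋃ m, interior (K m)) = V := by
    apply subset_antisymm
    · exact iUnion_subset fun m => interior_subset.trans (hKsub m)
    · rw [← hKV]
      exact iUnion_subset fun m => (hKi m).trans (subset_iUnion (fun m => interior (K m)) (m + 1))
  refine ⟨v, hvcont, ?_, ?_, ?_, ?_⟩
  · intro x hx
    rw [← hIV, mem_iUnion] at hx
    obtain ⟨m, hm⟩ := hx
    have h1 : v =ᶠ[𝓝 x] fun x => ∑ k ∈ Finset.range (m + 1), w k x := by
      filter_upwards [isOpen_interior.mem_nhds hm] with y hy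
      exact hvK m y (interior_subset hy)
    have h2 : ContDiffAt ℝ ∞ (fun x => ∑ k ∈ Finset.range (m + 1), w k x) x :=
      (ContDiff.sum fun k _ => hws k).contDiffAt
    exact (h2.congr_of_eventuallyEq h1).contDiffWithinAt
  · intro x hx
    rw [hv]
    show f x + ∑' k, (w k x - ρ k x * f x) = f x
    have : ∀ k, w k x - ρ k x * f x = 0 := by
      intro k
      have h1 : x ∉ W k := by
        cases k with
        | zero => rw [hW0]; exact hx
        | succ j => rw [hWS]; exact fun h => hx h.1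
      rw [hw0 k x h1, image_eq_zero_of_notMem_tsupport (fun h => hx (hρV k h))]
      ring
    simp [this]
  · intro x
    have h1 : v x - f x = ∑' k, (w k x - ρ k x * f x) := by rw [hv]; ring
    rw [h1, ← Real.norm_eq_abs]
    refine tsum_of_norm_bounded hsumε fun k => ?_
    rw [Real.norm_eq_abs]
    exact hwb k x
  · -- the gradient
    have key : ∀ m, eLpNorm (fun x => fderiv ℝ v x - G x) 2 (volume.restrict (interior (K m))) ≤
        ENNReal.ofReal ε := by
      intro m
      have h1 : ∀ x ∈ interior (K m), fderiv ℝ v x - G x =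
          (∑ k ∈ Finset.range (m + 1), fun x => fderiv ℝ (w k) x - HG (ρ k) f G x) x := by
        intro x hx
        have h2 : v =ᶠ[𝓝 x] fun x => ∑ k ∈ Finset.range (m + 1), w k x := by
          filter_upwards [isOpen_interior.mem_nhds hx] with y hy
          exact hvK m y (interior_subset hy)
        rw [h2.fderiv_eq, fderiv_fun_sum fun k _ => ((hws k).differentiable (by norm_num) x),
          Finset.sum_apply, Finset.sum_sub_distrib]
        congr 1
        have hKx : x ∈ K m := interior_subset hx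
        have h3 : ∑ k ∈ Finset.range (m + 1), fderiv ℝ (ρ k) x = 0 := by
          rw [← fderiv_fun_sum fun k _ => ((hρs k).differentiable (by norm_num) x)]
          have h4 : (fun x => ∑ k ∈ Finset.range (m + 1), ρ k x) =ᶠ[𝓝 x] fun _ => (1:ℝ) := by
            filter_upwards [hχnear m x hKx] with y hy
            rw [hsumρ m y, hy]
          rw [h4.fderiv_eq]
          simp
        unfold HG
        rw [Finset.sum_add_distrib, ← Finset.sum_smul, ← Finset.smul_sum, h3, smul_zero, add_zero,
          hsumρ, (hχnear m x hKx).self_of_nhds, one_smul]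
      have h5 : eLpNorm (fun x => fderiv ℝ v x - G x) 2 (volume.restrict (interior (K m))) =
          eLpNorm (∑ k ∈ Finset.range (m + 1), fun x => fderiv ℝ (w k) x - HG (ρ k) f G x) 2
            (volume.restrict (interior (K m))) := by
        refine eLpNorm_congr_ae ?_
        rw [EventuallyEq, ae_restrict_iff' isOpen_interior.measurableSet]
        exact Eventually.of_forall h1
      rw [h5]
      have hmeas : ∀ k, AEStronglyMeasurable (fun x => fderiv ℝ (w k) x - HG (ρ k) f G x)
          (volume.restrict (interior (K m))) := by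
        intro k
        refine AEStronglyMeasurable.restrict ?_
        exact ((hws k).continuous_fderiv (by norm_num)).aestronglyMeasurable.sub
          (memLp_HG hV hf hG (hρs k) (hρc k) (hρV k)).1
      refine (eLpNorm_sum_le (fun k _ => hmeas k) (by norm_num)).trans ?_
      have h6 : ∀ k, eLpNorm (fun x => fderiv ℝ (w k) x - HG (ρ k) f G x) 2
          (volume.restrict (interior (K m))) ≤ ENNReal.ofReal (ε / 2 / 2 ^ k) := fun k =>
        (eLpNorm_mono_measure _ Measure.restrict_le_self).trans (hwL k)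
      refine (Finset.sum_le_sum fun k _ => h6 k).trans ?_
      rw [← ENNReal.ofReal_sum_of_nonneg fun k _ => (hεk k).le]
      exact ENNReal.ofReal_le_ofReal (sum_le_hasSum _ (fun k _ => (hεk k).le) hsumε)
    -- pass to the union
    have hmono : Monotone fun m => interior (K m) := fun m n hmn => interior_mono (hKm hmn)
    have hdir : Directed (· ⊆ ·) fun m => interior (K m) := fun m n =>
      ⟨max m n, hmono (le_max_left m n), hmono (le_max_right m n)⟩
    have hsq : ∀ S : Set E, eLpNorm (fun x => fderiv ℝ v x - G x) 2 (volume.restrict S) ^ 2 =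
        ∫⁻ x in S, ‖fderiv ℝ v x - G x‖ₑ ^ 2 := fun S => eLpNorm_two_sq _
    have h7 : eLpNorm (fun x => fderiv ℝ v x - G x) 2 (volume.restrict V) ^ 2 ≤
        ENNReal.ofReal ε ^ 2 := by
      rw [hsq V, ← hIV, setLIntegral_iUnion_of_directed _ hdir]
      refine iSup_le fun m => ?_
      rw [← hsq]
      gcongr
      exact key m
    exact (ENNReal.pow_le_pow_left_iff (by norm_num)).mp h7


end Crest.Agent.R105.MsB_425
end
end

-- ▼ part R105/Psi7_425
section

/-!
Row 105 (helper425): from line formulas to weak gradients in the plane, lines of the smoothed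
function.
-/

open MeasureTheory Set Filter Topology
open scoped NNReal ENNReal ContDiff

namespace Crest.Agent.R105.Psi7_425

open Psi5_425 Psi6_425 CF_363 MsB_425

local notation "AC" => AbsolutelyContinuousOnInterval

/-! ### one dimension -/

/-- `w` continuous, zero off the open set `O`, primitive of `D` inside -/
theorem line_w {O : Set ℝ} (hO : IsOpen O) {w D : ℝ → ℝ} (hw : Continuous w)
    (h0 : ∀ s ∉ O, w s = 0) (hD : LocallyIntegrable (O.indicator D) volume)
    (hinc : ∀ s t, s ≤ t → (∀ r ∈ Icc s t, r ∈ O) → w t - w s = ∫ r in s..t, D r) :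
    ∀ a b, a ≤ b → AC w a b := by
  intro a b hab
  refine ac_glue hab hw.continuousOn (F := Oᶜ) hO.isClosed_compl (fun x hx _ => h0 x hx)
    (intervalIntegrable_of_li hD a b) ?_
  intro s t _ hst _ hr
  have hr' : ∀ r ∈ Icc s t, r ∈ O := fun r hr' => by
    by_contra hcon
    exact hr r hr' hcon
  rw [hinc s t hst hr']
  refine (intervalIntegral.abs_integral_le_integral_abs hst).trans (le_of_eq ?_)
  refine intervalIntegral.integral_congr fun r hr2 => ?_
  rw [uIcc_of_le hst] at hr2
  show |D r| = |O.indicator D r|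
  rw [indicator_of_mem (hr' r hr2)]

/-- cut-off times a function which is a primitive on `O \ C` -/
theorem line_cut {O C : Set ℝ} (hO : IsOpen O) (hC : IsClosed C) {f U χ : ℝ → ℝ}
    (hU : LocallyIntegrable U volume) (hf : LocallyIntegrable (O.indicator f) volume)
    (h : ∀ s t, s ≤ t → (∀ r ∈ Icc s t, r ∈ O \ C) → f t - f s = ∫ r in s..t, U r)
    (hχ : ContDiff ℝ 1 χ) (hs : tsupport χ ⊆ O) :
    ∀ a b, a ≤ b → (∀ r ∈ Icc a b, r ∉ C) → AC (fun s => χ s * f s) a b := by
  intro a b hab hC'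
  have hOC : IsOpen (O \ C) := hO.sdiff hC
  have hfc := continuousOn_of_line hOC hU h
  have hχc : Continuous χ := hχ.continuous
  have hχd : Continuous (deriv χ) := hχ.continuous_deriv le_rfl
  have hz : ∀ x ∉ O, (fun s => χ s * f s) =ᶠ[𝓝 x] fun _ => 0 := by
    intro x hx
    have h1 : x ∉ tsupport χ := fun h' => hx (hs h')
    filter_upwards [(notMem_tsupport_iff_eventuallyEq.1 h1)] with y hy
    rw [hy]; simp
  have hdz : ∀ x ∉ O, deriv χ x = 0 := by
    intro x hx
    have h1 : x ∉ tsupport (deriv χ) := fun h' =>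
      hx (hs ((tsupport_deriv_subset (𝕜 := ℝ) (f := χ)) h'))
    exact image_eq_zero_of_notMem_tsupport h1
  have hwc : ContinuousOn (fun s => χ s * f s) (Icc a b) := by
    intro x hx
    by_cases hxO : x ∈ O
    · exact (hχc.continuousAt.mul (hfc.continuousAt (hOC.mem_nhds
        ⟨hxO, hC' x hx⟩))).continuousWithinAt
    · exact ((continuousAt_congr (hz x hxO)).2 continuousAt_const).continuousWithinAt
  have hk : LocallyIntegrable (fun s => deriv χ s * f s + χ s * U s) volume := by
    have h1 : LocallyIntegrable (fun s => deriv χ s * f s) volume := by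
      have h2 := hf.smul_continuous hχd
      refine h2.congr (Eventually.of_forall fun x => ?_)
      show _ = deriv χ x * f x
      by_cases hx : x ∈ O
      · simp [indicator_of_mem hx, mul_comm]
      · simp [indicator_of_notMem hx, hdz x hx]
    have h3 : LocallyIntegrable (fun s => χ s * U s) volume := by
      have h2 := hU.smul_continuous hχc
      refine h2.congr (Eventually.of_forall fun x => ?_)
      show _ = χ x * U x
      simp [mul_comm]
    exact h1.add h3
  refine ac_glue hab hwc (F := Oᶜ) hO.isClosed_compl (fun x hx _ => (hz x hx).self_of_nhds)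
    (intervalIntegrable_of_li hk a b) ?_
  intro s t has hst htb hr
  have hr' : ∀ r ∈ Icc s t, r ∈ O \ C := fun r hr' => by
    refine ⟨?_, hC' r ⟨has.trans hr'.1, hr'.2.trans htb⟩⟩
    by_contra hcon
    exact hr r hr' hcon
  have h1 : AC f s t := ac_of_line hst (intervalIntegrable_of_li hU s t) fun x hx =>
    h s x hx.1 fun r hr => hr' r ⟨hr.1, hr.2.trans hx.2⟩
  have h2 : AC χ s t := (hχ.contDiffOn (s := uIcc s t)).absolutelyContinuousOnInterval
  have h3 : AC (fun s => χ s * f s) s t := h2.mul h1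
  rw [← h3.integral_deriv_eq_sub]
  refine (intervalIntegral.abs_integral_le_integral_abs hst).trans (le_of_eq ?_)
  refine intervalIntegral.integral_congr_ae ?_
  filter_upwards [ae_hasDerivAt_of_line hOC hU h] with x hx hxI
  have hxm : x ∈ Icc s t := by
    rw [uIoc_of_le hst] at hxI
    exact ⟨hxI.1.le, hxI.2⟩
  have h4 : HasDerivAt χ (deriv χ x) x := (hχ.differentiable (by norm_num) x).hasDerivAt
  have h5 : HasDerivAt (fun s => χ s * f s) (deriv χ x * f x + χ x * U x) x :=
    h4.mul (hx (hr' x hxm))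
  rw [h5.deriv]

/-- the integral of the derivative of an AC function with compact support vanishes -/
theorem integral_deriv_eq_zero {w : ℝ → ℝ} (hw : ∀ a b, a ≤ b → AC w a b) {R : ℝ} (hR : 0 < R)
    (h0 : ∀ x, x ∉ Ioo (-R) R → w =ᶠ[𝓝 x] 0) :
    Integrable (deriv w) volume ∧ ∫ x, deriv w x = 0 := by
  have hd0 : ∀ x, x ∉ Ioo (-R) R → deriv w x = 0 := fun x hx => by
    rw [(h0 x hx).deriv_eq]; simp
  have h1 := hw (-R) R (by linarith)
  have h2 := h1.intervalIntegrable_deriv
  have h3 : (Ioc (-R) R).indicator (deriv w) = deriv w := by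
    rw [indicator_eq_self]
    intro x hx
    by_contra hcon
    exact hx (hd0 x fun h => hcon ⟨h.1, h.2.le⟩)
  have h4 : Integrable ((Ioc (-R) R).indicator (deriv w)) volume := by
    rw [integrable_indicator_iff measurableSet_Ioc]
    exact (intervalIntegrable_iff_integrableOn_Ioc_of_le (by linarith)).1 h2
  refine ⟨h3 ▸ h4, ?_⟩
  have h5 := h1.integral_deriv_eq_sub
  rw [(h0 R fun h => lt_irrefl _ h.2).self_of_nhds, (h0 (-R) fun h => lt_irrefl _ h.1).self_of_nhds,
    intervalIntegral.integral_of_le (by linarith), ← integral_indicator measurableSet_Ioc, h3] at h5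
  rw [h5]; simp

/-! ### weak gradients in the plane -/

theorem line_x_support {η : ℝ × ℝ → ℝ} (hc : HasCompactSupport η) (y : ℝ) :
    HasCompactSupport (fun x => η (x, y)) ∧
      tsupport (fun x => η (x, y)) ⊆ {x | (x, y) ∈ tsupport η} := by
  have h1 : tsupport (fun x => η (x, y)) ⊆ {x | (x, y) ∈ tsupport η} := by
    refine closure_minimal (fun x hx => subset_tsupport η hx) ?_
    exact (isClosed_tsupport η).preimage (by fun_prop)
  refine ⟨?_, h1⟩
  refine HasCompactSupport.of_support_subset_isCompact (K := Prod.fst '' tsupport η)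
    (hc.isCompact.image continuous_fst) ?_
  intro x hx
  exact ⟨(x, y), subset_tsupport η hx, rfl⟩

theorem line_y_support {η : ℝ × ℝ → ℝ} (hc : HasCompactSupport η) (x : ℝ) :
    HasCompactSupport (fun y => η (x, y)) ∧
      tsupport (fun y => η (x, y)) ⊆ {y | (x, y) ∈ tsupport η} := by
  have h1 : tsupport (fun y => η (x, y)) ⊆ {y | (x, y) ∈ tsupport η} := by
    refine closure_minimal (fun y hy => subset_tsupport η hy) ?_
    exact (isClosed_tsupport η).preimage (by fun_prop)
  refine ⟨?_, h1⟩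
  refine HasCompactSupport.of_support_subset_isCompact (K := Prod.snd '' tsupport η)
    (hc.isCompact.image continuous_snd) ?_
  intro y hy
  exact ⟨(x, y), subset_tsupport η hy, rfl⟩

theorem continuous_gx {η : ℝ × ℝ → ℝ} (hη : ContDiff ℝ 1 η) : Continuous (gx η) :=
  (hη.continuous_fderiv (by norm_num)).clm_apply continuous_const

theorem continuous_gy {η : ℝ × ℝ → ℝ} (hη : ContDiff ℝ 1 η) : Continuous (gy η) :=
  (hη.continuous_fderiv (by norm_num)).clm_apply continuous_const

theorem tsupport_gx {η : ℝ × ℝ → ℝ} : tsupport (gx η) ⊆ tsupport η :=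
  tsupport_fderiv_apply_subset ℝ ((1 : ℝ), (0 : ℝ))

theorem tsupport_gy {η : ℝ × ℝ → ℝ} : tsupport (gy η) ⊆ tsupport η :=
  tsupport_fderiv_apply_subset ℝ ((0 : ℝ), (1 : ℝ))

theorem int_gx {V : Set (ℝ × ℝ)} (hV : IsOpen V) {f U : ℝ × ℝ → ℝ}
    (hf : ContinuousOn f V) (hU : MemLp U 2 (volume : Measure (ℝ × ℝ)))
    (hor : ∀ᵐ y : ℝ, ∀ x x', x ≤ x' → (∀ s ∈ Icc x x', (s, y) ∈ V) →
      f (x', y) - f (x, y) = ∫ s in x..x', U (s, y))
    {η : ℝ × ℝ → ℝ} (hη : ContDiff ℝ ∞ η) (hc : HasCompactSupport η) (hs : tsupport η ⊆ V) :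
    ∫ p, f p * gx η p = - ∫ p, η p * U p := by
  have hη1 : ContDiff ℝ 1 η := hη.of_le (by norm_num)
  have i1 : Integrable (fun p => f p * gx η p) (volume : Measure (ℝ × ℝ)) := by
    have h7 := continuous_smul_of_tsupport hV hf (continuous_gx hη1) (tsupport_gx.trans hs)
    refine Continuous.integrable_of_hasCompactSupport h7 ?_
    exact (hc.fderiv_apply (𝕜 := ℝ) ((1:ℝ), (0:ℝ))).mul_left
  have i2 : Integrable (fun p => η p * U p) (volume : Measure (ℝ × ℝ)) := by
    have h8 : MemLp η 2 (volume : Measure (ℝ × ℝ)) :=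
      hη.continuous.memLp_of_hasCompactSupport hc
    exact h8.integrable_mul hU
  rw [Measure.volume_eq_prod] at i1 i2 ⊢
  rw [integral_prod_symm _ i1, integral_prod_symm _ i2, ← integral_neg]
  refine integral_congr_ae ?_
  filter_upwards [hor, Mp_87.ae_line_y hU] with y h1 h2
  obtain ⟨hc', hs'⟩ := line_x_support hc y
  have hO : IsOpen {x : ℝ | (x, y) ∈ V} := hV.preimage (by fun_prop)
  have h3 := ibp_open hO (h2.locallyIntegrable (by norm_num)) (f := fun x => f (x, y))
    (g := fun x => U (x, y)) (fun s t hst hr => h1 s t hst hr) (η := fun x => η (x, y))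
    (hη1.comp (by fun_prop)) hc' (hs'.trans fun x hx => hs hx)
  have h4 : ∀ x, deriv (fun x => η (x, y)) x = gx η (x, y) := fun x =>
    (gx_eq_deriv (hη1.differentiable (by norm_num) (x, y))).deriv
  simp only [h4] at h3
  exact h3

theorem int_gy {V : Set (ℝ × ℝ)} (hV : IsOpen V) {f U : ℝ × ℝ → ℝ}
    (hf : ContinuousOn f V) (hU : MemLp U 2 (volume : Measure (ℝ × ℝ)))
    (ver : ∀ᵐ x : ℝ, ∀ y y', y ≤ y' → (∀ t ∈ Icc y y', (x, t) ∈ V) →
      f (x, y') - f (x, y) = ∫ t in y..y', U (x, t))
    {η : ℝ × ℝ → ℝ} (hη : ContDiff ℝ ∞ η) (hc : HasCompactSupport η) (hs : tsupport η ⊆ V) :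
    ∫ p, f p * gy η p = - ∫ p, η p * U p := by
  have hη1 : ContDiff ℝ 1 η := hη.of_le (by norm_num)
  have i1 : Integrable (fun p => f p * gy η p) (volume : Measure (ℝ × ℝ)) := by
    have h7 := continuous_smul_of_tsupport hV hf (continuous_gy hη1) (tsupport_gy.trans hs)
    refine Continuous.integrable_of_hasCompactSupport h7 ?_
    exact (hc.fderiv_apply (𝕜 := ℝ) ((0:ℝ), (1:ℝ))).mul_left
  have i2 : Integrable (fun p => η p * U p) (volume : Measure (ℝ × ℝ)) := by
    have h8 : MemLp η 2 (volume : Measure (ℝ × ℝ)) :=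
      hη.continuous.memLp_of_hasCompactSupport hc
    exact h8.integrable_mul hU
  rw [Measure.volume_eq_prod] at i1 i2 ⊢
  rw [integral_prod _ i1, integral_prod _ i2, ← integral_neg]
  refine integral_congr_ae ?_
  filter_upwards [ver, Mp_87.ae_line_x hU] with x h1 h2
  obtain ⟨hc', hs'⟩ := line_y_support hc x
  have hO : IsOpen {y : ℝ | (x, y) ∈ V} := hV.preimage (by fun_prop)
  have h3 := ibp_open hO (h2.locallyIntegrable (by norm_num)) (f := fun y => f (x, y))
    (g := fun y => U (x, y)) (fun s t hst hr => h1 s t hst hr) (η := fun y => η (x, y))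
    (hη1.comp (by fun_prop)) hc' (hs'.trans fun y hy => hs hy)
  have h4 : ∀ y, deriv (fun y => η (x, y)) y = gy η (x, y) := fun y =>
    (gy_eq_deriv (hη1.differentiable (by norm_num) (x, y))).deriv
  simp only [h4] at h3
  exact h3

/-- the gradient as a linear form -/
noncomputable def Gf (U1 U2 : ℝ × ℝ → ℝ) (p : ℝ × ℝ) : ℝ × ℝ →L[ℝ] ℝ :=
  U1 p • ContinuousLinearMap.fst ℝ ℝ ℝ + U2 p • ContinuousLinearMap.snd ℝ ℝ ℝ

theorem Gf_apply (U1 U2 : ℝ × ℝ → ℝ) (p e : ℝ × ℝ) : Gf U1 U2 p e = U1 p * e.1 + U2 p * e.2 := by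
  simp [Gf]

theorem fderiv_eq_g (η : ℝ × ℝ → ℝ) (p e : ℝ × ℝ) :
    fderiv ℝ η p e = e.1 * gx η p + e.2 * gy η p := by
  have h : e = e.1 • ((1 : ℝ), (0 : ℝ)) + e.2 • ((0 : ℝ), (1 : ℝ)) := by
    ext <;> simp
  conv_lhs => rw [h]
  rw [map_add, map_smul, map_smul]
  rfl

theorem memLp_Gf {U1 U2 : ℝ × ℝ → ℝ} {μ : Measure (ℝ × ℝ)} (h1 : MemLp U1 2 μ)
    (h2 : MemLp U2 2 μ) : MemLp (Gf U1 U2) 2 μ := by
  have e1 := (ContinuousLinearMap.toSpanSingleton ℝ
    (ContinuousLinearMap.fst ℝ ℝ ℝ)).comp_memLp' h1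
  have e2 := (ContinuousLinearMap.toSpanSingleton ℝ
    (ContinuousLinearMap.snd ℝ ℝ ℝ)).comp_memLp' h2
  exact e1.add e2

theorem wg_of_lines {V : Set (ℝ × ℝ)} (hV : IsOpen V) {f U1 U2 : ℝ × ℝ → ℝ}
    (hf : ContinuousOn f V) (hU1 : MemLp U1 2 (volume : Measure (ℝ × ℝ)))
    (hU2 : MemLp U2 2 (volume : Measure (ℝ × ℝ)))
    (hor : ∀ᵐ y : ℝ, ∀ x x', x ≤ x' → (∀ s ∈ Icc x x', (s, y) ∈ V) →
      f (x', y) - f (x, y) = ∫ s in x..x', U1 (s, y))
    (ver : ∀ᵐ x : ℝ, ∀ y y', y ≤ y' → (∀ t ∈ Icc y y', (x, t) ∈ V) →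
      f (x, y') - f (x, y) = ∫ t in y..y', U2 (x, t)) : WG V f (Gf U1 U2) := by
  intro η hη hc hs e
  have hη1 : ContDiff ℝ 1 η := hη.of_le (by norm_num)
  have h1 := int_gx hV hf hU1 hor hη hc hs
  have h2 := int_gy hV hf hU2 ver hη hc hs
  have i1 : Integrable (fun p => f p * gx η p) (volume : Measure (ℝ × ℝ)) := by
    have h7 := continuous_smul_of_tsupport hV hf (continuous_gx hη1) (tsupport_gx.trans hs)
    refine Continuous.integrable_of_hasCompactSupport h7 ?_
    exact (hc.fderiv_apply (𝕜 := ℝ) ((1:ℝ), (0:ℝ))).mul_left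
  have i2 : Integrable (fun p => f p * gy η p) (volume : Measure (ℝ × ℝ)) := by
    have h7 := continuous_smul_of_tsupport hV hf (continuous_gy hη1) (tsupport_gy.trans hs)
    refine Continuous.integrable_of_hasCompactSupport h7 ?_
    exact (hc.fderiv_apply (𝕜 := ℝ) ((0:ℝ), (1:ℝ))).mul_left
  have h8 : MemLp η 2 (volume : Measure (ℝ × ℝ)) := hη.continuous.memLp_of_hasCompactSupport hc
  have j1 : Integrable (fun p => η p * U1 p) (volume : Measure (ℝ × ℝ)) := h8.integrable_mul hU1
  have j2 : Integrable (fun p => η p * U2 p) (volume : Measure (ℝ × ℝ)) := h8.integrable_mul hU2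
  have e1 : ∫ p, f p * fderiv ℝ η p e = e.1 * (∫ p, f p * gx η p) + e.2 * ∫ p, f p * gy η p := by
    rw [← integral_const_mul, ← integral_const_mul, ← integral_add (i1.const_mul _)
      (i2.const_mul _)]
    congr 1; funext p; rw [fderiv_eq_g]; ring
  have e2 : ∫ p, η p * Gf U1 U2 p e = e.1 * (∫ p, η p * U1 p) + e.2 * ∫ p, η p * U2 p := by
    rw [← integral_const_mul, ← integral_const_mul, ← integral_add (j1.const_mul _)
      (j2.const_mul _)]
    congr 1; funext p; rw [Gf_apply]; ring
  rw [e1, e2, h1, h2]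
  ring

end Crest.Agent.R105.Psi7_425
end

-- ▼ part R105/Psi8_425

/-!
Row 105 (helper425): smoothing of `χ f` for a function `f` with line formulas: the core of the
construction of the test function of lemma A.
-/

open MeasureTheory Set Filter Topology
open scoped NNReal ENNReal ContDiff

namespace Crest.Agent.R105.Psi8_425

open Psi5_425 Psi6_425 Psi7_425 CF_363 MsB_425

local notation "AC" => AbsolutelyContinuousOnInterval

/-- `f` on the rectangle `(a,b) × (c,d)`: continuous off `S`, square integrable, with line formulas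
on a.e. line off `G`. -/
structure Str (G S : Set (ℝ × ℝ)) (a b c d : ℝ) (f U1 U2 : ℝ × ℝ → ℝ) : Prop where
  cont : ContinuousOn f ((Ioo a b ×ˢ Ioo c d) \ S)
  L2 : MemLp f 2 (volume.restrict (Ioo a b ×ˢ Ioo c d))
  L2x : MemLp U1 2 (volume : Measure (ℝ × ℝ))
  L2y : MemLp U2 2 (volume : Measure (ℝ × ℝ))
  hor : ∀ᵐ y : ℝ, ∀ x x', x ≤ x' → (∀ s ∈ Icc x x', (s, y) ∈ (Ioo a b ×ˢ Ioo c d) \ G) →
    f (x', y) - f (x, y) = ∫ s in x..x', U1 (s, y)
  ver : ∀ᵐ x : ℝ, ∀ y y', y ≤ y' → (∀ t ∈ Icc y y', (x, t) ∈ (Ioo a b ×ˢ Ioo c d) \ G) →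
    f (x, y') - f (x, y) = ∫ t in y..y', U2 (x, t)

theorem memLp_mul_bdd {μ : Measure (ℝ × ℝ)} {g h : ℝ × ℝ → ℝ} (hg : MemLp g 2 μ)
    (hh : Continuous h) (hc : HasCompactSupport h) : MemLp (fun p => h p * g p) 2 μ := by
  obtain ⟨C, hC⟩ := hc.exists_bound_of_continuous hh
  refine MemLp.of_le_mul (c := C) hg (hh.aestronglyMeasurable.mul hg.1) ?_
  refine Eventually.of_forall fun x => ?_
  rw [norm_mul]
  exact mul_le_mul_of_nonneg_right (hC x) (norm_nonneg _)

theorem volume_rect (a b c d : ℝ) : volume (Ioo a b ×ˢ Ioo c d : Set (ℝ × ℝ)) ≠ ⊤ := by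
  rw [Measure.volume_eq_prod, Measure.prod_prod, Real.volume_Ioo, Real.volume_Ioo]
  exact ENNReal.mul_ne_top ENNReal.ofReal_ne_top ENNReal.ofReal_ne_top

theorem hasDerivAt_x {v : ℝ × ℝ → ℝ} {s y : ℝ} (h : DifferentiableAt ℝ v (s, y)) :
    HasDerivAt (fun s => v (s, y)) (gx v (s, y)) s := gx_eq_deriv h

theorem hasDerivAt_y {v : ℝ × ℝ → ℝ} {x t : ℝ} (h : DifferentiableAt ℝ v (x, t)) :
    HasDerivAt (fun t => v (x, t)) (gy v (x, t)) t := gy_eq_deriv h

theorem ftc_x {V : Set (ℝ × ℝ)} (hV : IsOpen V) {v : ℝ × ℝ → ℝ} (hv : ContDiffOn ℝ 1 v V)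
    {s t y : ℝ} (hst : s ≤ t) (h : ∀ r ∈ Icc s t, (r, y) ∈ V) :
    IntervalIntegrable (fun r => gx v (r, y)) volume s t ∧
      v (t, y) - v (s, y) = ∫ r in s..t, gx v (r, y) := by
  have h1 : ContinuousOn (gx v) V :=
    (hv.continuousOn_fderiv_of_isOpen hV le_rfl).clm_apply continuousOn_const
  have h2 : ContinuousOn (fun r => gx v (r, y)) (uIcc s t) := by
    rw [uIcc_of_le hst]
    exact h1.comp (by fun_prop) h
  have h3 := h2.intervalIntegrable (μ := volume)
  refine ⟨h3, ?_⟩
  symm
  refine intervalIntegral.integral_eq_sub_of_hasDerivAt (f := fun r => v (r, y)) (fun r hr => ?_) h3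
  rw [uIcc_of_le hst] at hr
  exact hasDerivAt_x ((hv.contDiffAt (hV.mem_nhds (h r hr))).differentiableAt (by norm_num))

theorem ftc_y {V : Set (ℝ × ℝ)} (hV : IsOpen V) {v : ℝ × ℝ → ℝ} (hv : ContDiffOn ℝ 1 v V)
    {s t x : ℝ} (hst : s ≤ t) (h : ∀ r ∈ Icc s t, (x, r) ∈ V) :
    IntervalIntegrable (fun r => gy v (x, r)) volume s t ∧
      v (x, t) - v (x, s) = ∫ r in s..t, gy v (x, r) := by
  have h1 : ContinuousOn (gy v) V :=
    (hv.continuousOn_fderiv_of_isOpen hV le_rfl).clm_apply continuousOn_const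
  have h2 : ContinuousOn (fun r => gy v (x, r)) (uIcc s t) := by
    rw [uIcc_of_le hst]
    exact h1.comp (by fun_prop) h
  have h3 := h2.intervalIntegrable (μ := volume)
  refine ⟨h3, ?_⟩
  symm
  refine intervalIntegral.integral_eq_sub_of_hasDerivAt (f := fun r => v (x, r)) (fun r hr => ?_) h3
  rw [uIcc_of_le hst] at hr
  exact hasDerivAt_y ((hv.contDiffAt (hV.mem_nhds (h r hr))).differentiableAt (by norm_num))

theorem norm_gx_sub_le (v : ℝ × ℝ → ℝ) (U1 U2 : ℝ × ℝ → ℝ) (p : ℝ × ℝ) :
    ‖gx v p - U1 p‖ ≤ 1 * ‖fderiv ℝ v p - Gf U1 U2 p‖ := by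
  have h := (fderiv ℝ v p - Gf U1 U2 p).le_opNorm ((1 : ℝ), (0 : ℝ))
  have h2 : ‖((1 : ℝ), (0 : ℝ))‖ = 1 := by simp [Prod.norm_def]
  rw [h2, mul_one] at h
  rw [one_mul]
  refine le_trans (le_of_eq ?_) h
  congr 1
  rw [_root_.sub_apply, Gf_apply]
  simp [gx]

theorem norm_gy_sub_le (v : ℝ × ℝ → ℝ) (U1 U2 : ℝ × ℝ → ℝ) (p : ℝ × ℝ) :
    ‖gy v p - U2 p‖ ≤ 1 * ‖fderiv ℝ v p - Gf U1 U2 p‖ := by
  have h := (fderiv ℝ v p - Gf U1 U2 p).le_opNorm ((0 : ℝ), (1 : ℝ))
  have h2 : ‖((0 : ℝ), (1 : ℝ))‖ = 1 := by simp [Prod.norm_def]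
  rw [h2, mul_one] at h
  rw [one_mul]
  refine le_trans (le_of_eq ?_) h
  congr 1
  rw [_root_.sub_apply, Gf_apply]
  simp [gy]

/-- the smoothed function -/
structure Smo (E G S : Set (ℝ × ℝ)) (a b c d : ℝ) (f U1 : ℝ × ℝ → ℝ) (χ ψ : ℝ × ℝ → ℝ) : Prop where
  smooth : ContDiffOn ℝ ∞ ψ Eᶜ
  cpt : HasCompactSupport ψ
  onE : ∀ p ∈ E, ψ p = χ p * f p
  cont : ContinuousOn ψ Sᶜ
  fin : IntegrableOn (g2 ψ) Eᶜ
  int : IntegrableOn (gx ψ) Eᶜ
  hor : ∀ᵐ y : ℝ, ∀ a' b', a' ≤ b' → (∀ s ∈ Icc a' b', (s, y) ∉ G) →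
    AC (fun s => ψ (s, y)) a' b'
  ver : ∀ᵐ x : ℝ, ∀ a' b', a' ≤ b' → (∀ s ∈ Icc a' b', (x, s) ∉ G) →
    AC (fun s => ψ (x, s)) a' b'
  val : ∫ p in Eᶜ, gx ψ p = ∫ p in Ioo a b ×ˢ Ioo c d, (gx χ p * f p + χ p * U1 p)

variable {E G S : Set (ℝ × ℝ)} {a b c d : ℝ} {f U1 U2 χ : ℝ × ℝ → ℝ}

theorem core (hE : IsClosed E) (hnull : volume E = 0) (hG : IsClosed G) (hS : IsClosed S)
    (hSG : S ⊆ G) (hGE : G ⊆ E)
    (St : Str G S a b c d f U1 U2) (hχ : ContDiff ℝ ∞ χ) (hχc : HasCompactSupport χ)
    (hχs : tsupport χ ⊆ Ioo a b ×ˢ Ioo c d) : ∃ ψ, Smo E G S a b c d f U1 χ ψ := by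
  set R : Set (ℝ × ℝ) := Ioo a b ×ˢ Ioo c d with hR
  have hRo : IsOpen R := isOpen_Ioo.prod isOpen_Ioo
  set V : Set (ℝ × ℝ) := R \ E with hVd
  have hV : IsOpen V := hRo.sdiff hE
  have hVR : V ⊆ R := sdiff_subset
  have hVE : V ⊆ Eᶜ := fun p hp => hp.2
  have hVG : ∀ p ∈ V, p ∈ R \ G := fun p hp => ⟨hp.1, fun h => hp.2 (hGE h)⟩
  have hfV : ContinuousOn f V := St.cont.mono fun p hp => ⟨hp.1, fun h => hp.2 (hGE (hSG h))⟩
  have hχ1 : ContDiff ℝ 1 χ := hχ.of_le (by norm_num)
  have hvolR : volume R ≠ ⊤ := volume_rect a b c d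
  have hfinV : IsFiniteMeasure ((volume : Measure (ℝ × ℝ)).restrict V) :=
    ⟨by rw [Measure.restrict_apply_univ]; exact lt_of_le_of_lt (measure_mono hVR)
          (lt_top_iff_ne_top.mpr hvolR)⟩
  have hfinR : IsFiniteMeasure ((volume : Measure (ℝ × ℝ)).restrict R) :=
    ⟨by rw [Measure.restrict_apply_univ]; exact lt_top_iff_ne_top.mpr hvolR⟩
  have horV : ∀ᵐ y : ℝ, ∀ x x', x ≤ x' → (∀ s ∈ Icc x x', (s, y) ∈ V) →
      f (x', y) - f (x, y) = ∫ s in x..x', U1 (s, y) := by
    filter_upwards [St.hor] with y hy x x' hxx' h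
    exact hy x x' hxx' fun s hs => hVG _ (h s hs)
  have verV : ∀ᵐ x : ℝ, ∀ y y', y ≤ y' → (∀ t ∈ Icc y y', (x, t) ∈ V) →
      f (x, y') - f (x, y) = ∫ t in y..y', U2 (x, t) := by
    filter_upwards [St.ver] with x hx y y' hyy' h
    exact hx y y' hyy' fun s hs => hVG _ (h s hs)
  have hWG := wg_of_lines hV hfV St.L2x St.L2y horV verV
  have hGf : MemLp (Gf U1 U2) 2 (volume.restrict V) :=
    memLp_Gf (St.L2x.restrict V) (St.L2y.restrict V)
  obtain ⟨v, hwc, hvs, hvf, hwb, hvL⟩ := ms_on hV hfV hGf hWG one_pos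
  set w : ℝ × ℝ → ℝ := fun p => v p - f p with hw
  have hw0 : ∀ p ∉ V, w p = 0 := fun p hp => by rw [hw]; simp only; rw [hvf p hp, sub_self]
  have hvs1 : ContDiffOn ℝ 1 v V := hvs.of_le (by norm_num)
  have hvw : ∀ p, v p = f p + w p := fun p => by rw [hw]; ring
  -- differences of gradients
  have hmem : MemLp (fun p => fderiv ℝ v p - Gf U1 U2 p) 2 (volume.restrict V) := by
    refine ⟨?_, lt_of_le_of_lt hvL ENNReal.ofReal_lt_top⟩
    exact (measurable_fderiv ℝ v).aestronglyMeasurable.sub hGf.1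
  have hD1 : MemLp (fun p => gx v p - U1 p) 2 (volume.restrict V) := by
    refine MemLp.of_le_mul (c := 1) hmem ?_ (Eventually.of_forall fun p => norm_gx_sub_le v U1 U2 p)
    exact (measurable_gx v).aestronglyMeasurable.sub (St.L2x.restrict V).1
  have hD2 : MemLp (fun p => gy v p - U2 p) 2 (volume.restrict V) := by
    refine MemLp.of_le_mul (c := 1) hmem ?_ (Eventually.of_forall fun p => norm_gy_sub_le v U1 U2 p)
    exact (measurable_gy v).aestronglyMeasurable.sub (St.L2y.restrict V).1
  have hD1' : MemLp (V.indicator fun p => gx v p - U1 p) 2 (volume : Measure (ℝ × ℝ)) :=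
    (memLp_indicator_iff_restrict hV.measurableSet).2 hD1
  have hD2' : MemLp (V.indicator fun p => gy v p - U2 p) 2 (volume : Measure (ℝ × ℝ)) :=
    (memLp_indicator_iff_restrict hV.measurableSet).2 hD2
  have hfR : MemLp (R.indicator f) 2 (volume : Measure (ℝ × ℝ)) :=
    (memLp_indicator_iff_restrict hRo.measurableSet).2 St.L2
  -- lines of `w`
  have hwx : ∀ᵐ y : ℝ, ∀ a' b', a' ≤ b' → AC (fun s => w (s, y)) a' b' := by
    filter_upwards [horV, Mp_87.ae_line_y hD1', Mp_87.ae_line_y St.L2x] with y h1 h2 h3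
    refine line_w (O := {s | (s, y) ∈ V}) (hV.preimage (by fun_prop))
      (D := fun s => gx v (s, y) - U1 (s, y)) (hwc.comp (by fun_prop)) (fun s hs => hw0 _ hs)
      (h2.locallyIntegrable (by norm_num)) ?_
    intro s t hst hr
    obtain ⟨i1, e1⟩ := ftc_x hV hvs1 hst hr
    have e2 := h1 s t hst hr
    have i2 := intervalIntegrable_of_li (h3.locallyIntegrable (by norm_num)) s t
    rw [intervalIntegral.integral_sub i1 i2, ← e1, ← e2, hw]
    ring
  have hwy : ∀ᵐ x : ℝ, ∀ a' b', a' ≤ b' → AC (fun t => w (x, t)) a' b' := by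
    filter_upwards [verV, Mp_87.ae_line_x hD2', Mp_87.ae_line_x St.L2y] with x h1 h2 h3
    refine line_w (O := {t | (x, t) ∈ V}) (hV.preimage (by fun_prop))
      (D := fun t => gy v (x, t) - U2 (x, t)) (hwc.comp (by fun_prop)) (fun s hs => hw0 _ hs)
      (h2.locallyIntegrable (by norm_num)) ?_
    intro s t hst hr
    obtain ⟨i1, e1⟩ := ftc_y hV hvs1 hst hr
    have e2 := h1 s t hst hr
    have i2 := intervalIntegrable_of_li (h3.locallyIntegrable (by norm_num)) s t
    rw [intervalIntegral.integral_sub i1 i2, ← e1, ← e2, hw]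
    ring
  -- lines of `χ f`
  have hfx : ∀ᵐ y : ℝ, ∀ a' b', a' ≤ b' → (∀ s ∈ Icc a' b', (s, y) ∉ G) →
      AC (fun s => χ (s, y) * f (s, y)) a' b' := by
    filter_upwards [St.hor, Mp_87.ae_line_y hfR, Mp_87.ae_line_y St.L2x] with y h1 h2 h3
    exact line_cut (O := {s | (s, y) ∈ R}) (C := {s | (s, y) ∈ G}) (hRo.preimage (by fun_prop))
      (hG.preimage (by fun_prop)) (f := fun s => f (s, y)) (U := fun s => U1 (s, y))
      (χ := fun s => χ (s, y)) (h3.locallyIntegrable (by norm_num))
      (h2.locallyIntegrable (by norm_num)) h1 (hχ1.comp (by fun_prop))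
      ((line_x_support hχc y).2.trans fun s hs => hχs hs)
  have hfy : ∀ᵐ x : ℝ, ∀ a' b', a' ≤ b' → (∀ s ∈ Icc a' b', (x, s) ∉ G) →
      AC (fun s => χ (x, s) * f (x, s)) a' b' := by
    filter_upwards [St.ver, Mp_87.ae_line_x hfR, Mp_87.ae_line_x St.L2y] with x h1 h2 h3
    exact line_cut (O := {s | (x, s) ∈ R}) (C := {s | (x, s) ∈ G}) (hRo.preimage (by fun_prop))
      (hG.preimage (by fun_prop)) (f := fun s => f (x, s)) (U := fun s => U2 (x, s))
      (χ := fun s => χ (x, s)) (h3.locallyIntegrable (by norm_num))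
      (h2.locallyIntegrable (by norm_num)) h1 (hχ1.comp (by fun_prop))
      ((line_y_support hχc x).2.trans fun s hs => hχs hs)
  -- the function
  set ψ : ℝ × ℝ → ℝ := fun p => χ p * v p with hψ
  have hψ0 : ∀ p ∉ R, ψ =ᶠ[𝓝 p] 0 := by
    intro p hp
    have h1 : p ∉ tsupport χ := fun h' => hp (hχs h')
    filter_upwards [(notMem_tsupport_iff_eventuallyEq.1 h1)] with q hq
    rw [hψ]; show χ q * v q = 0; rw [hq]; simp
  have hvdiff : ∀ p ∈ V, DifferentiableAt ℝ v p := fun p hp =>
    (hvs1.contDiffAt (hV.mem_nhds hp)).differentiableAt (by norm_num)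
  have hχdiff : ∀ p, DifferentiableAt ℝ χ p := fun p => hχ1.differentiable (by norm_num) p
  have hgxψ : ∀ p ∈ V, gx ψ p = gx χ p * v p + χ p * gx v p := by
    intro p hp
    rw [hψ, gx_mul (hχdiff p) (hvdiff p hp)]
    ring
  have hgyψ : ∀ p ∈ V, gy ψ p = gy χ p * v p + χ p * gy v p := by
    intro p hp
    rw [hψ, gy_mul (hχdiff p) (hvdiff p hp)]
    ring
  have hgx0 : ∀ p ∉ R, gx ψ p = 0 := fun p hp => by
    rw [gx_congr (hψ0 p hp)]; exact gx_const 0 p
  have hgy0 : ∀ p ∉ R, gy ψ p = 0 := fun p hp => by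
    rw [gy_congr (hψ0 p hp)]; exact gy_const 0 p
  -- integrability
  have hvL2 : MemLp v 2 (volume.restrict V) := by
    have h1 : MemLp f 2 (volume.restrict V) := by
      have := St.L2.restrict V
      rwa [Measure.restrict_restrict_of_subset hVR] at this
    have h2 : MemLp w 2 (volume.restrict V) := by
      refine MemLp.of_bound hwc.aestronglyMeasurable 1 (Eventually.of_forall fun p => ?_)
      rw [Real.norm_eq_abs]; exact hwb p
    exact (h1.add h2).ae_eq (Eventually.of_forall fun p => (hvw p).symm)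
  have hgxv : MemLp (gx v) 2 (volume.restrict V) :=
    (hD1.add (St.L2x.restrict V)).ae_eq (Eventually.of_forall fun p => by
      show gx v p - U1 p + U1 p = gx v p; ring)
  have hgyv : MemLp (gy v) 2 (volume.restrict V) :=
    (hD2.add (St.L2y.restrict V)).ae_eq (Eventually.of_forall fun p => by
      show gy v p - U2 p + U2 p = gy v p; ring)
  have hχgx : Continuous (gx χ) := continuous_gx hχ1
  have hχgy : Continuous (gy χ) := continuous_gy hχ1
  have hχgxc : HasCompactSupport (gx χ) := hχc.fderiv_apply (𝕜 := ℝ) ((1:ℝ), (0:ℝ))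
  have hχgyc : HasCompactSupport (gy χ) := hχc.fderiv_apply (𝕜 := ℝ) ((0:ℝ), (1:ℝ))
  have hψx : MemLp (gx ψ) 2 (volume.restrict V) := by
    refine ((memLp_mul_bdd hvL2 hχgx hχgxc).add (memLp_mul_bdd hgxv hχ1.continuous hχc)).ae_eq ?_
    rw [EventuallyEq, ae_restrict_iff' hV.measurableSet]
    exact Eventually.of_forall fun p hp => (hgxψ p hp).symm
  have hψy : MemLp (gy ψ) 2 (volume.restrict V) := by
    refine ((memLp_mul_bdd hvL2 hχgy hχgyc).add (memLp_mul_bdd hgyv hχ1.continuous hχc)).ae_eq ?_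
    rw [EventuallyEq, ae_restrict_iff' hV.measurableSet]
    exact Eventually.of_forall fun p hp => (hgyψ p hp).symm
  have hnotR : ∀ p ∈ Eᶜ \ V, p ∉ R := fun p hp h => hp.2 ⟨h, hp.1⟩
  have hintx : IntegrableOn (gx ψ) Eᶜ := by
    have h1 : IntegrableOn (gx ψ) V := hψx.integrable (by norm_num)
    have h2 : IntegrableOn (gx ψ) (Eᶜ \ V) := by
      refine (integrableOn_zero).congr_fun (fun p hp => ?_)
        (hE.isOpen_compl.measurableSet.diff hV.measurableSet)
      exact (hgx0 p (hnotR p hp)).symm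
    have := h1.union h2
    rwa [union_sdiff_cancel hVE] at this
  have hint2 : IntegrableOn (g2 ψ) Eᶜ := by
    have h1 : IntegrableOn (g2 ψ) V := hψx.integrable_sq.add hψy.integrable_sq
    have h2 : IntegrableOn (g2 ψ) (Eᶜ \ V) := by
      refine (integrableOn_zero).congr_fun (fun p hp => ?_)
        (hE.isOpen_compl.measurableSet.diff hV.measurableSet)
      unfold g2
      rw [hgx0 p (hnotR p hp), hgy0 p (hnotR p hp)]; simp
    have := h1.union h2
    rwa [union_sdiff_cancel hVE] at this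
  -- the value
  have hI1 : IntegrableOn (fun p => gx χ p * f p + χ p * U1 p) R := by
    have h1 := (memLp_mul_bdd St.L2 hχgx hχgxc).integrable (by norm_num)
    have h2 := (memLp_mul_bdd (St.L2x.restrict R) hχ1.continuous hχc).integrable (by norm_num)
    exact h1.add h2
  have hval : ∫ p in Eᶜ, gx ψ p = ∫ p in R, (gx χ p * f p + χ p * U1 p) := by
    have s1 : ∫ p in Eᶜ, gx ψ p = ∫ p in V, gx ψ p :=
      setIntegral_eq_of_subset_of_forall_sdiff_eq_zero hE.isOpen_compl.measurableSet hVE
        fun p hp => hgx0 p (hnotR p hp)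
    rw [s1, ← integral_indicator hV.measurableSet, ← integral_indicator hRo.measurableSet]
    have j1 : Integrable (V.indicator (gx ψ)) ((volume : Measure ℝ).prod (volume : Measure ℝ)) := by
      rw [← Measure.volume_eq_prod, integrable_indicator_iff hV.measurableSet]
      exact hintx.mono_set hVE
    have j2 : Integrable (R.indicator fun p => gx χ p * f p + χ p * U1 p)
        ((volume : Measure ℝ).prod (volume : Measure ℝ)) := by
      rw [← Measure.volume_eq_prod, integrable_indicator_iff hRo.measurableSet]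
      exact hI1
    rw [Measure.volume_eq_prod, integral_prod_symm _ j1, integral_prod_symm _ j2]
    refine integral_congr_ae ?_
    have hnE : ∀ᵐ p : ℝ × ℝ, p ∉ E := measure_eq_zero_iff_ae_notMem.mp hnull
    filter_upwards [hwx, horV, Mp_87.ae_line_y St.L2x, CF_363.ae_swap hnE, j2.prod_left_ae] with
      y h1 h2 h3 h4 h5
    -- the derivative of `χ w`
    have hχy : ∀ a' b', a' ≤ b' → AC (fun s => χ (s, y)) a' b' := fun a' b' _ =>
      ((hχ1.comp (by fun_prop : ContDiff ℝ 1 fun s : ℝ => (s, y))).contDiffOn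
        (s := uIcc a' b')).absolutelyContinuousOnInterval
    have hχw : ∀ a' b', a' ≤ b' → AC (fun s => χ (s, y) * w (s, y)) a' b' := fun a' b' hab =>
      (hχy a' b' hab).mul (h1 a' b' hab)
    obtain ⟨hc', hs'⟩ := line_x_support hχc y
    obtain ⟨r, hr0, hr⟩ : ∃ r : ℝ, 0 < r ∧ ∀ x, x ∉ Ioo (-r) r →
        x ∉ tsupport (fun s => χ (s, y)) := by
      obtain ⟨r, hr⟩ := hc'.isCompact.isBounded.subset_ball (0 : ℝ)
      refine ⟨max r 1, by positivity, fun x hx hxs => hx ?_⟩
      have := hr hxs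
      rw [Metric.mem_ball, dist_zero_right, Real.norm_eq_abs, abs_lt] at this
      have := le_max_left r 1
      exact ⟨by linarith, by linarith⟩
    obtain ⟨k1, k2⟩ := integral_deriv_eq_zero hχw hr0 (fun x hx => by
      filter_upwards [(notMem_tsupport_iff_eventuallyEq.1 (hr x hx))] with z hz
      show χ (z, y) * w (z, y) = 0
      have : χ (z, y) = 0 := hz
      rw [this, zero_mul])
    have hVy : IsOpen {s : ℝ | (s, y) ∈ V} := hV.preimage (by fun_prop)
    have e1 : ∀ᵐ s : ℝ, V.indicator (gx ψ) (s, y) =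
        R.indicator (fun p => gx χ p * f p + χ p * U1 p) (s, y) +
          deriv (fun s => χ (s, y) * w (s, y)) s := by
      filter_upwards [h4, ae_hasDerivAt_of_line hVy (h3.locallyIntegrable (by norm_num))
        (fun s t hst hr => h2 s t hst hr)] with s hsE hsd
      by_cases hsR : (s, y) ∈ R
      · have hsV : (s, y) ∈ V := ⟨hsR, hsE⟩
        rw [indicator_of_mem hsV, indicator_of_mem hsR, hgxψ _ hsV]
        have d1 : HasDerivAt (fun s => χ (s, y)) (gx χ (s, y)) s := hasDerivAt_x (hχdiff _)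
        have d2 : HasDerivAt (fun s => v (s, y)) (gx v (s, y)) s := hasDerivAt_x (hvdiff _ hsV)
        have d3 : HasDerivAt (fun s => w (s, y)) (gx v (s, y) - U1 (s, y)) s := d2.sub (hsd hsV)
        have d4 : HasDerivAt (fun s => χ (s, y) * w (s, y))
            (gx χ (s, y) * w (s, y) + χ (s, y) * (gx v (s, y) - U1 (s, y))) s := d1.mul d3
        rw [d4.deriv, hvw]
        ring
      · have hsV : (s, y) ∉ V := fun h => hsR h.1
        rw [indicator_of_notMem hsV, indicator_of_notMem hsR]
        have h6 : s ∉ tsupport (fun s => χ (s, y)) := fun h => hsR (hχs (hs' h))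
        have h7 : (fun s => χ (s, y) * w (s, y)) =ᶠ[𝓝 s] fun _ => 0 := by
          filter_upwards [(notMem_tsupport_iff_eventuallyEq.1 h6)] with z hz
          have : χ (z, y) = 0 := hz
          rw [this, zero_mul]
        rw [h7.deriv_eq]; simp
    rw [integral_congr_ae e1, integral_add h5 k1, k2, add_zero]
  refine ⟨ψ, ?_, ?_, ?_, ?_, hint2, hintx, ?_, ?_, hval⟩
  · intro p hp
    refine ContDiffAt.contDiffWithinAt ?_
    by_cases hpR : p ∈ R
    · exact hχ.contDiffAt.mul (hvs.contDiffAt (hV.mem_nhds ⟨hpR, hp⟩))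
    · exact contDiffAt_const.congr_of_eventuallyEq (hψ0 p hpR)
  · exact hχc.mul_right
  · intro p hp
    rw [hψ]; simp only
    rw [hvf p fun h => h.2 hp]
  · intro p hp
    refine ContinuousAt.continuousWithinAt ?_
    by_cases hpR : p ∈ R
    · have h1 : ContinuousAt f p := St.cont.continuousAt ((hRo.sdiff hS).mem_nhds ⟨hpR, hp⟩)
      have h2 : ContinuousAt v p := by
        have := h1.add hwc.continuousAt
        refine this.congr (Eventually.of_forall fun q => ?_)
        show f q + w q = v q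
        rw [hvw q]
      exact hχ1.continuous.continuousAt.mul h2
    · exact (continuousAt_congr (hψ0 p hpR)).2 continuousAt_const
  · filter_upwards [hwx, hfx] with y h1 h2 a' b' hab hG'
    have h3 : AC (fun s => χ (s, y)) a' b' :=
      ((hχ1.comp (by fun_prop : ContDiff ℝ 1 fun s : ℝ => (s, y))).contDiffOn
        (s := uIcc a' b')).absolutelyContinuousOnInterval
    refine ac_congr ((h2 a' b' hab hG').add (h3.mul (h1 a' b' hab))) fun s _ => ?_
    show χ (s, y) * v (s, y) = χ (s, y) * f (s, y) + χ (s, y) * w (s, y)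
    rw [hvw]; ring
  · filter_upwards [hwy, hfy] with x h1 h2 a' b' hab hG'
    have h3 : AC (fun s => χ (x, s)) a' b' :=
      ((hχ1.comp (by fun_prop : ContDiff ℝ 1 fun s : ℝ => (x, s))).contDiffOn
        (s := uIcc a' b')).absolutelyContinuousOnInterval
    refine ac_congr ((h2 a' b' hab hG').add (h3.mul (h1 a' b' hab))) fun s _ => ?_
    show χ (x, s) * v (x, s) = χ (x, s) * f (x, s) + χ (x, s) * w (x, s)
    rw [hvw]; ring

end Crest.Agent.R105.Psi8_425
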