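import Crest.Agent.R105.Hq2_363
import Crest.Agent.R105.CFr_363
import Crest.Agent.R105.Psi8_425
import Crest.Agent.R105.Prod1_412
import Crest.Agent.R105.Psq0_425

-- ▼ part R105/Hq3_363
section

/-!
Row 105, S0138, Lemma A with squares (helper363): the two halves of the stream function glued at the
level `M`, the total flux of `χ F`.
-/

open MeasureTheory Set Filter Topology
open scoped NNReal ENNReal ContDiff

namespace Crest.Agent.R105.Hq_363

open Sq_87 CF_363 Mp_87 Psi7_425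

variable {ι ι' : Type} {Q : Rects ι} {Q' : Rects ι'} {S S' Z : Set (ℝ × ℝ)}
variable {a b c d Bm Bp M : ℝ} {X1 X2 Y1 Y2 ψ Ψ ψ' Ψ' χ F : ℝ × ℝ → ℝ}
  {μ ν : Measure (ℝ × ℝ)} {f : ι → ℝ} {f' : ι' → ℝ}

theorem gx_rf {u : ℝ × ℝ → ℝ} (hu : Differentiable ℝ u) (p : ℝ × ℝ) :
    gx (fun q => u (rf q)) p = gx u (rf p) := by
  have h1 := Psi8_425.hasDerivAt_x (v := u) (s := p.1) (y := -p.2) (hu _)
  have h2 : Differentiable ℝ (fun q : ℝ × ℝ => u (rf q)) := by
    intro q
    exact (hu _).comp q rfL.differentiableAt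
  have h3 := Psi8_425.hasDerivAt_x (v := fun q => u (rf q)) (s := p.1) (y := p.2) (h2 _)
  exact h3.unique h1

theorem tsupport_rf' {χ : ℝ × ℝ → ℝ} (h : HasCompactSupport χ) :
    HasCompactSupport (fun p => χ (rf p)) ∧ tsupport (fun p => χ (rf p)) ⊆ rf ⁻¹' tsupport χ := by
  have h1 : tsupport (fun p => χ (rf p)) ⊆ rf ⁻¹' tsupport χ :=
    closure_minimal (fun p hp => subset_tsupport χ hp)
      ((isClosed_tsupport χ).preimage continuous_rf)
  refine ⟨?_, h1⟩
  refine HasCompactSupport.of_support_subset_isCompact (K := rf '' tsupport χ)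
    (h.isCompact.image continuous_rf) fun p hp => ⟨rf p, subset_tsupport χ hp, rf_rf p⟩

/-- the two halves: `M` = the level where they are glued -/
structure TwoQ (Q : Rects ι) (Q' : Rects ι') (S S' Z : Set (ℝ × ℝ)) (a b c d Bm Bp M : ℝ)
    (X1 X2 ψ Ψ Y1 Y2 ψ' Ψ' : ℝ × ℝ → ℝ) (μ ν : Measure (ℝ × ℝ)) (f : ι → ℝ) (f' : ι' → ℝ)
    (F : ℝ × ℝ → ℝ) : Prop where
  ab : a < b
  cB : c < Bm
  BM : Bm ≤ M
  MB : M ≤ Bp
  Bd : Bp < d
  lo : HalfD Q S a b c Bm X1 X2 ψ Ψ μ f
  up : HalfD Q' S' a b (-d) (-Bp) Y1 Y2 ψ' Ψ' ν f'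
  mass : ν univ = μ univ
  mZ : MeasurableSet Z
  Zl : ∀ᵐ p : ℝ × ℝ, p ∈ Ioo a b ×ˢ Ioo c Bm → (p ∈ Z ↔ p ∈ Q.un ∪ S)
  Zu : ∀ᵐ p : ℝ × ℝ, p ∈ Ioo a b ×ˢ Ioo (-d) (-Bp) → (rf p ∈ Z ↔ p ∈ Q'.un ∪ S')
  Fl : ∀ᵐ p : ℝ × ℝ, p ∈ Ioo a b ×ˢ Ioo c M → p ∉ Z → F p = ψ p
  Fu : ∀ᵐ p : ℝ × ℝ, p ∈ Ioo a b ×ˢ Ioo M d → p ∉ Z → F p = ψ' (rf p)

/-- the cut-off for the two halves -/
structure CutT (Q : Rects ι) (Q' : Rects ι') (S S' Z : Set (ℝ × ℝ)) (a b c d M : ℝ)
    (μ ν : Measure (ℝ × ℝ)) (χ : ℝ × ℝ → ℝ) : Prop where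
  sm : ContDiff ℝ 1 χ
  cs : HasCompactSupport χ
  ts : tsupport χ ⊆ Ioo a b ×ˢ univ
  nn : ∀ p, 0 ≤ χ p
  le : ∀ p, χ p ≤ 1
  gx : ∀ p ∈ Q.un ∪ S ∪ Z, gx χ p = 0
  gx' : ∀ p ∈ Q'.un ∪ S', CF_363.gx χ (rf p) = 0
  ct : ∀ i, ∃ k, ∀ p ∈ Q.op i, χ p = k
  ct' : ∀ i, ∃ k, ∀ p ∈ Q'.op i, χ (rf p) = k
  one : ∀ y, c < y → y < M → ∀ᵐ q ∂μ, q.2 < y → χ (q.1, y) = 1
  one' : ∀ y, M < y → y < d → ∀ᵐ q ∂ν, q.2 < -y → χ (q.1, y) = 1

/-- the horizontal derivative of the glued function off the squares -/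
def W1 (X2 Y2 : ℝ × ℝ → ℝ) (p : ℝ × ℝ) : ℝ := -X2 p - Y2 (rf p)


end Crest.Agent.R105.Hq_363
end

-- ▼ part R105/Psq0a_463
section

/-!
# Row 105 (S0138, T-frame), PSI-Q (helper463 for helper425): smoothing on `V`

No condition on the complement of `V` (it may have positive volume).
* `StrV V f U1 U2` : `f` continuous on the open set `V`, in `L²(V)`, with line formulas inside `V`
* `Cor V ε w D1 D2` : `w` continuous on the plane, zero off `V`, `|w| ≤ ε`, line formulas on ALL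
  lines, `D1, D2 ∈ L²`, zero off `V`, `∫ D1² + D2² ≤ ε`
* `exists_cor` : there is a `Cor` with `f + w` smooth on `V` (Meyers-Serrin, 425's `ms_on`)
-/

set_option autoImplicit false

open MeasureTheory Set Filter Topology
open scoped NNReal ENNReal ContDiff

namespace Crest.Agent.R105.Psq_463

open Psi5_425 Psi6_425 Psi7_425 Psi8_425 CF_363 MsB_425

local notation "AC" => AbsolutelyContinuousOnInterval

/-- `f` on the open set `V` with its line formulas -/
structure StrV (V : Set (ℝ × ℝ)) (f U1 U2 : ℝ × ℝ → ℝ) : Prop where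
  cont : ContinuousOn f V
  L2 : MemLp f 2 (volume.restrict V)
  V1 : MemLp U1 2 (volume.restrict V)
  V2 : MemLp U2 2 (volume.restrict V)
  hor : ∀ᵐ y : ℝ, ∀ x x', x ≤ x' → (∀ s ∈ Icc x x', (s, y) ∈ V) →
    f (x', y) - f (x, y) = ∫ s in x..x', U1 (s, y)
  ver : ∀ᵐ x : ℝ, ∀ y y', y ≤ y' → (∀ t ∈ Icc y y', (x, t) ∈ V) →
    f (x, y') - f (x, y) = ∫ t in y..y', U2 (x, t)

/-- the correction: continuous on the plane, zero off `V`, line formulas on all lines -/
structure Cor (V : Set (ℝ × ℝ)) (ε : ℝ) (w D1 D2 : ℝ × ℝ → ℝ) : Prop where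
  cont : Continuous w
  zero : ∀ p ∉ V, w p = 0
  bdd : ∀ p, |w p| ≤ ε
  L1 : MemLp D1 2 (volume : Measure (ℝ × ℝ))
  L2 : MemLp D2 2 (volume : Measure (ℝ × ℝ))
  off : ∀ p ∉ V, D1 p = 0 ∧ D2 p = 0
  en : ∫ p, (D1 p ^ 2 + D2 p ^ 2) ≤ ε
  hor : ∀ᵐ y : ℝ, ∀ x x', x ≤ x' → w (x', y) - w (x, y) = ∫ s in x..x', D1 (s, y)
  ver : ∀ᵐ x : ℝ, ∀ y y', y ≤ y' → w (x, y') - w (x, y) = ∫ t in y..y', D2 (x, t)

variable {V : Set (ℝ × ℝ)} {f U1 U2 w D1 D2 : ℝ × ℝ → ℝ} {ε : ℝ}

/-! ### lines -/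

/-- the derivative vanishes a.e. on the zero set -/
theorem ae_deriv_zero (e : ℝ → ℝ) : ∀ᵐ x : ℝ, e x = 0 → deriv e x = 0 := by
  filter_upwards [Prod_412.zero_deriv_ae e (deriv e)] with x hx h0
  by_cases hd : DifferentiableAt ℝ e x
  · exact hx h0 hd.hasDerivAt
  · exact deriv_zero_of_not_differentiableAt hd

/-- one line: AC, zero off `O`, derivative `D` a.e. on `O` -/
theorem line_formula {O : Set ℝ} {w D : ℝ → ℝ} (hac : ∀ a b, a ≤ b → AC w a b)
    (h0 : ∀ s ∉ O, w s = 0) (hD : ∀ᵐ s : ℝ, s ∈ O → HasDerivAt w (D s) s) (h0D : ∀ s ∉ O, D s = 0) :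
    ∀ x x', x ≤ x' → w x' - w x = ∫ s in x..x', D s := by
  intro x x' hx
  rw [← (hac x x' hx).integral_deriv_eq_sub]
  refine intervalIntegral.integral_congr_ae ?_
  filter_upwards [hD, ae_deriv_zero w] with s h1 h2 _
  by_cases hs : s ∈ O
  · exact (h1 hs).deriv
  · rw [h2 (h0 s hs), h0D s hs]

/-- product rule along segments inside `O` -/
theorem prod_line {O : Set ℝ} (hO : IsOpen O) {f g χ c : ℝ → ℝ} (hg : LocallyIntegrable g volume)
    (hf : ∀ s t, s ≤ t → (∀ r ∈ Icc s t, r ∈ O) → f t - f s = ∫ r in s..t, g r)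
    (hχ : ∀ a b, a ≤ b → AC χ a b) (hc : ∀ᵐ s : ℝ, HasDerivAt χ (c s) s) :
    ∀ s t, s ≤ t → (∀ r ∈ Icc s t, r ∈ O) →
      χ t * f t - χ s * f s = ∫ r in s..t, (c r * f r + χ r * g r) := by
  intro s t hst hr
  have hfac : AC f s t := ac_of_line hst (intervalIntegrable_of_li hg s t)
    fun x hx => hf s x hx.1 fun r hr' => hr r ⟨hr'.1, hr'.2.trans hx.2⟩
  have hprod : AC (fun r => χ r * f r) s t := (hχ s t hst).mul hfac
  rw [← hprod.integral_deriv_eq_sub]
  refine intervalIntegral.integral_congr_ae ?_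
  filter_upwards [ae_hasDerivAt_of_line hO hg hf, hc] with r h1 h2 hrm
  rw [uIoc_of_le hst] at hrm
  exact ((h2.mul (h1 (hr r ⟨hrm.1.le, hrm.2⟩)))).deriv

theorem ac_of_lip {K : ℝ≥0} {h : ℝ → ℝ} (hh : LipschitzWith K h) (a b : ℝ) : AC h a b :=
  (hh.lipschitzOnWith (s := uIcc a b)).absolutelyContinuousOnInterval

theorem lip_x {K : ℝ≥0} {χ : ℝ × ℝ → ℝ} (h : LipschitzWith K χ) (y : ℝ) :
    LipschitzWith K fun s => χ (s, y) := by
  have h1 : LipschitzWith 1 fun s : ℝ => (s, y) :=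
    LipschitzWith.of_dist_le_mul fun s t => by simp [Prod.dist_eq]
  have h2 := h.comp h1
  rwa [mul_one] at h2

theorem lip_y {K : ℝ≥0} {χ : ℝ × ℝ → ℝ} (h : LipschitzWith K χ) (x : ℝ) :
    LipschitzWith K fun s => χ (x, s) := by
  have h1 : LipschitzWith 1 fun s : ℝ => (x, s) :=
    LipschitzWith.of_dist_le_mul fun s t => by simp [Prod.dist_eq]
  have h2 := h.comp h1
  rwa [mul_one] at h2

theorem abs_gx_le {K : ℝ≥0} {χ : ℝ × ℝ → ℝ} (h : LipschitzWith K χ) (p : ℝ × ℝ) :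
    |gx χ p| ≤ K := by
  have h1 := (fderiv ℝ χ p).le_opNorm ((1 : ℝ), (0 : ℝ))
  have h2 : ‖((1 : ℝ), (0 : ℝ))‖ = 1 := by simp [Prod.norm_def]
  rw [h2, mul_one] at h1
  exact h1.trans (norm_fderiv_le_of_lipschitz ℝ h)

theorem abs_gy_le {K : ℝ≥0} {χ : ℝ × ℝ → ℝ} (h : LipschitzWith K χ) (p : ℝ × ℝ) :
    |gy χ p| ≤ K := by
  have h1 := (fderiv ℝ χ p).le_opNorm ((0 : ℝ), (1 : ℝ))
  have h2 : ‖((0 : ℝ), (1 : ℝ))‖ = 1 := by simp [Prod.norm_def]
  rw [h2, mul_one] at h1
  exact h1.trans (norm_fderiv_le_of_lipschitz ℝ h)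

theorem ae_x_of_ae {P : ℝ × ℝ → Prop} (h : ∀ᵐ p : ℝ × ℝ, P p) :
    ∀ᵐ x : ℝ, ∀ᵐ y : ℝ, P (x, y) := by
  rw [Measure.volume_eq_prod] at h
  exact Measure.ae_ae_of_ae_prod h

theorem Cor.li_x (h : Cor V ε w D1 D2) :
    ∀ᵐ y : ℝ, LocallyIntegrable (fun s => D1 (s, y)) volume := by
  filter_upwards [Mp_87.ae_line_y h.L1] with y h2 using h2.locallyIntegrable (by norm_num)

theorem Cor.li_y (h : Cor V ε w D1 D2) :
    ∀ᵐ x : ℝ, LocallyIntegrable (fun s => D2 (x, s)) volume := by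
  filter_upwards [Mp_87.ae_line_x h.L2] with x h2 using h2.locallyIntegrable (by norm_num)

theorem Cor.acx (h : Cor V ε w D1 D2) : ∀ᵐ y : ℝ, ∀ a b, a ≤ b → AC (fun s => w (s, y)) a b := by
  filter_upwards [h.hor, h.li_x] with y h1 h2 a b hab
  exact ac_of_line hab (intervalIntegrable_of_li h2 a b) fun x hx => h1 a x hx.1


theorem Cor.dx (h : Cor V ε w D1 D2) :
    ∀ᵐ y : ℝ, ∀ᵐ s : ℝ, HasDerivAt (fun s => w (s, y)) (D1 (s, y)) s := by
  filter_upwards [h.hor, h.li_x] with y h1 h2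
  filter_upwards [ae_hasDerivAt_of_line isOpen_univ h2
    (f := fun s => w (s, y)) (fun s t hst _ => h1 s t hst)] with s hs using hs trivial

theorem Cor.dy (h : Cor V ε w D1 D2) :
    ∀ᵐ x : ℝ, ∀ᵐ s : ℝ, HasDerivAt (fun s => w (x, s)) (D2 (x, s)) s := by
  filter_upwards [h.ver, h.li_y] with x h1 h2
  filter_upwards [ae_hasDerivAt_of_line isOpen_univ h2
    (f := fun s => w (x, s)) (fun s t hst _ => h1 s t hst)] with s hs using hs trivial

/-! ### smoothing on `V` -/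

/-- the `L²` functions of `StrV` extended by zero -/
theorem StrV.ind (hV : IsOpen V) (h : StrV V f U1 U2) :
    StrV V f (V.indicator U1) (V.indicator U2) ∧
      MemLp (V.indicator U1) 2 (volume : Measure (ℝ × ℝ)) ∧
      MemLp (V.indicator U2) 2 (volume : Measure (ℝ × ℝ)) := by
  have e1 : ∀ {U : ℝ × ℝ → ℝ}, MemLp U 2 (volume.restrict V) →
      MemLp (V.indicator U) 2 (volume : Measure (ℝ × ℝ)) := fun hU =>
    (memLp_indicator_iff_restrict hV.measurableSet).2 hU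
  refine ⟨⟨h.cont, h.L2, (e1 h.V1).restrict V, (e1 h.V2).restrict V, ?_, ?_⟩, e1 h.V1, e1 h.V2⟩
  · filter_upwards [h.hor] with y hy x x' hxx' hs
    rw [hy x x' hxx' hs]
    refine intervalIntegral.integral_congr fun s hs' => ?_
    rw [uIcc_of_le hxx'] at hs'
    exact (indicator_of_mem (hs s hs') _).symm
  · filter_upwards [h.ver] with x hx y y' hyy' hs
    rw [hx y y' hyy' hs]
    refine intervalIntegral.integral_congr fun s hs' => ?_
    rw [uIcc_of_le hyy'] at hs'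
    exact (indicator_of_mem (hs s hs') _).symm

/-- **smoothing with boundary control**, line formulas of the correction on all lines -/
theorem exists_cor (hV : IsOpen V) (h : StrV V f U1 U2) (hε : 0 < ε) :
    ∃ w D1 D2, Cor V ε w D1 D2 ∧ ContDiffOn ℝ ∞ (fun p => f p + w p) V ∧
      (∀ p ∈ V, D1 p = gx (fun p => f p + w p) p - U1 p) ∧
      (∀ p ∈ V, D2 p = gy (fun p => f p + w p) p - U2 p) := by
  obtain ⟨h', hU1, hU2⟩ := h.ind hV
  have hWG := wg_of_lines hV h'.cont hU1 hU2 h'.hor h'.ver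
  have hGf : MemLp (Gf (V.indicator U1) (V.indicator U2)) 2 (volume.restrict V) :=
    memLp_Gf h'.V1 h'.V2
  obtain ⟨δ, hδ, hδε, hδ2⟩ : ∃ δ : ℝ, 0 < δ ∧ δ ≤ ε ∧ 2 * δ ^ 2 ≤ ε := by
    refine ⟨min 1 (ε / 2), by positivity, (min_le_right _ _).trans (by linarith), ?_⟩
    have h1 : min 1 (ε / 2) ≤ 1 := min_le_left _ _
    have h2 : min 1 (ε / 2) ≤ ε / 2 := min_le_right _ _
    have h3 : 0 < min 1 (ε / 2) := by positivity
    nlinarith
  obtain ⟨v, hwc, hvs, hvf, hwb, hvL⟩ := ms_on hV h'.cont hGf hWG hδ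
  have hfv : (fun p => f p + (v p - f p)) = v := by funext p; ring
  have hvs1 : ContDiffOn ℝ 1 v V := hvs.of_le (by norm_num)
  have hw0 : ∀ p ∉ V, v p - f p = 0 := fun p hp => by rw [hvf p hp, sub_self]
  have hmem : MemLp (fun p => fderiv ℝ v p - Gf (V.indicator U1) (V.indicator U2) p) 2
      (volume.restrict V) := by
    refine ⟨?_, lt_of_le_of_lt hvL ENNReal.ofReal_lt_top⟩
    exact (measurable_fderiv ℝ v).aestronglyMeasurable.sub hGf.1
  have hD1 : MemLp (fun p => gx v p - V.indicator U1 p) 2 (volume.restrict V) := by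
    refine MemLp.of_le_mul (c := 1) hmem ?_
      (Eventually.of_forall fun p => norm_gx_sub_le v (V.indicator U1) (V.indicator U2) p)
    exact (measurable_gx v).aestronglyMeasurable.sub h'.V1.1
  have hD2 : MemLp (fun p => gy v p - V.indicator U2 p) 2 (volume.restrict V) := by
    refine MemLp.of_le_mul (c := 1) hmem ?_
      (Eventually.of_forall fun p => norm_gy_sub_le v (V.indicator U1) (V.indicator U2) p)
    exact (measurable_gy v).aestronglyMeasurable.sub h'.V2.1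
  have hD1' : MemLp (V.indicator fun p => gx v p - V.indicator U1 p) 2
      (volume : Measure (ℝ × ℝ)) :=
    (memLp_indicator_iff_restrict hV.measurableSet).2 hD1
  have hD2' : MemLp (V.indicator fun p => gy v p - V.indicator U2 p) 2
      (volume : Measure (ℝ × ℝ)) :=
    (memLp_indicator_iff_restrict hV.measurableSet).2 hD2
  refine ⟨fun p => v p - f p, V.indicator fun p => gx v p - V.indicator U1 p,
    V.indicator fun p => gy v p - V.indicator U2 p, ⟨hwc, hw0, fun p => (hwb p).trans hδε,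
      hD1', hD2', fun p hp => ⟨indicator_of_notMem hp _, indicator_of_notMem hp _⟩,
      ?_, ?_, ?_⟩, ?_, ?_, ?_⟩
  · -- the energy
    have e1 : ∀ p, (V.indicator (fun p => gx v p - V.indicator U1 p) p) ^ 2 +
        (V.indicator (fun p => gy v p - V.indicator U2 p) p) ^ 2 =
        V.indicator (fun p => (gx v p - V.indicator U1 p) ^ 2 +
          (gy v p - V.indicator U2 p) ^ 2) p := by
      intro p
      by_cases hp : p ∈ V
      · simp only [indicator_of_mem hp]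
      · simp only [indicator_of_notMem hp]; norm_num
    simp only [e1]
    rw [integral_indicator hV.measurableSet]
    have i1 := hmem.integrable_norm_pow (p := 2) (by norm_num)
    have h1 : ∫ p in V, ((gx v p - V.indicator U1 p) ^ 2 + (gy v p - V.indicator U2 p) ^ 2) ≤
        ∫ p in V, 2 * ‖fderiv ℝ v p - Gf (V.indicator U1) (V.indicator U2) p‖ ^ 2 := by
      refine integral_mono (hD1.integrable_sq.add hD2.integrable_sq) (i1.const_mul 2) fun p => ?_
      have a1 := norm_gx_sub_le v (V.indicator U1) (V.indicator U2) p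
      have a2 := norm_gy_sub_le v (V.indicator U1) (V.indicator U2) p
      rw [one_mul, Real.norm_eq_abs] at a1 a2
      have b1 := pow_le_pow_left₀ (abs_nonneg _) a1 2
      have b2 := pow_le_pow_left₀ (abs_nonneg _) a2 2
      rw [sq_abs] at b1 b2
      show (gx v p - V.indicator U1 p) ^ 2 + (gy v p - V.indicator U2 p) ^ 2 ≤ _
      linarith
    refine h1.trans ?_
    rw [integral_const_mul]
    have h2 : ∫ p in V, ‖fderiv ℝ v p - Gf (V.indicator U1) (V.indicator U2) p‖ ^ 2 ≤ δ ^ 2 := by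
      have h3 := hmem.eLpNorm_eq_integral_rpow_norm (by norm_num) (by norm_num)
      rw [h3] at hvL
      have h4 := (ENNReal.ofReal_le_ofReal_iff hδ.le).1 hvL
      simp only [ENNReal.toReal_ofNat, Real.rpow_ofNat] at h4
      have h5 : 0 ≤ ∫ p in V, ‖fderiv ℝ v p - Gf (V.indicator U1) (V.indicator U2) p‖ ^ 2 :=
        integral_nonneg fun p => sq_nonneg _
      rw [show ((2 : ℝ)⁻¹) = 1 / 2 by norm_num, ← Real.sqrt_eq_rpow] at h4
      exact (Real.sqrt_le_left hδ.le).1 h4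
    linarith
  · filter_upwards [h'.hor, Mp_87.ae_line_y hD1', Mp_87.ae_line_y hU1] with y h1 h2 h3
    have hO : IsOpen {s : ℝ | (s, y) ∈ V} := hV.preimage (by fun_prop)
    have hinc : ∀ s t, s ≤ t → (∀ r ∈ Icc s t, r ∈ {s : ℝ | (s, y) ∈ V}) →
        (v (t, y) - f (t, y)) - (v (s, y) - f (s, y)) =
          ∫ r in s..t, (gx v (r, y) - V.indicator U1 (r, y)) := by
      intro s t hst hr
      obtain ⟨i1, e1⟩ := ftc_x hV hvs1 hst hr
      have e2 := h1 s t hst hr
      have i2 := intervalIntegrable_of_li (h3.locallyIntegrable (by norm_num)) s t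
      rw [intervalIntegral.integral_sub i1 i2, ← e1, ← e2]
      ring
    have hli : LocallyIntegrable ({s : ℝ | (s, y) ∈ V}.indicator
        fun s => gx v (s, y) - V.indicator U1 (s, y)) volume :=
      h2.locallyIntegrable (by norm_num)
    have hac := line_w hO (D := fun s => gx v (s, y) - V.indicator U1 (s, y))
      (w := fun s => v (s, y) - f (s, y)) (hwc.comp (by fun_prop)) (fun s hs => hw0 _ hs) hli hinc
    have hder := ae_hasDerivAt_of_line hO (f := fun s => v (s, y) - f (s, y))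
      (g := {s : ℝ | (s, y) ∈ V}.indicator fun s => gx v (s, y) - V.indicator U1 (s, y)) hli
      (fun s t hst hr => by
        rw [hinc s t hst hr]
        refine intervalIntegral.integral_congr fun r hr' => ?_
        rw [uIcc_of_le hst] at hr'
        exact (indicator_of_mem (hr r hr') (fun s => gx v (s, y) - V.indicator U1 (s, y))).symm)
    exact line_formula hac (fun s hs => hw0 _ hs) hder fun s hs =>
      indicator_of_notMem (s := V) hs (fun p => gx v p - V.indicator U1 p)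
  · filter_upwards [h'.ver, Mp_87.ae_line_x hD2', Mp_87.ae_line_x hU2] with x h1 h2 h3
    have hO : IsOpen {s : ℝ | (x, s) ∈ V} := hV.preimage (by fun_prop)
    have hinc : ∀ s t, s ≤ t → (∀ r ∈ Icc s t, r ∈ {s : ℝ | (x, s) ∈ V}) →
        (v (x, t) - f (x, t)) - (v (x, s) - f (x, s)) =
          ∫ r in s..t, (gy v (x, r) - V.indicator U2 (x, r)) := by
      intro s t hst hr
      obtain ⟨i1, e1⟩ := ftc_y hV hvs1 hst hr
      have e2 := h1 s t hst hr
      have i2 := intervalIntegrable_of_li (h3.locallyIntegrable (by norm_num)) s t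
      rw [intervalIntegral.integral_sub i1 i2, ← e1, ← e2]
      ring
    have hli : LocallyIntegrable ({s : ℝ | (x, s) ∈ V}.indicator
        fun s => gy v (x, s) - V.indicator U2 (x, s)) volume :=
      h2.locallyIntegrable (by norm_num)
    have hac := line_w hO (D := fun s => gy v (x, s) - V.indicator U2 (x, s))
      (w := fun s => v (x, s) - f (x, s)) (hwc.comp (by fun_prop)) (fun s hs => hw0 _ hs) hli hinc
    have hder := ae_hasDerivAt_of_line hO (f := fun s => v (x, s) - f (x, s))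
      (g := {s : ℝ | (x, s) ∈ V}.indicator fun s => gy v (x, s) - V.indicator U2 (x, s)) hli
      (fun s t hst hr => by
        rw [hinc s t hst hr]
        refine intervalIntegral.integral_congr fun r hr' => ?_
        rw [uIcc_of_le hst] at hr'
        exact (indicator_of_mem (hr r hr') (fun s => gy v (x, s) - V.indicator U2 (x, s))).symm)
    exact line_formula hac (fun s hs => hw0 _ hs) hder fun s hs =>
      indicator_of_notMem (s := V) hs (fun p => gy v p - V.indicator U2 p)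
  · rw [hfv]; exact hvs
  · intro p hp
    rw [hfv, indicator_of_mem hp, indicator_of_mem hp]
  · intro p hp
    rw [hfv, indicator_of_mem hp, indicator_of_mem hp]

end Crest.Agent.R105.Psq_463
end

-- ▼ part R105/Psq0_463
section

/-!
# Row 105 (S0138, T-frame), PSI-Q (helper463 for helper425): `smooth_on`

`smooth_on`: `χ f` (`χ` Lipschitz with compact support in the open set `R`, `f` on `R \ E`) is
smoothed on the complement of the closed set `E` (of any volume), with the exact value of `∫ gx`.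
-/

set_option autoImplicit false

open MeasureTheory Set Filter Topology
open scoped NNReal ENNReal ContDiff

namespace Crest.Agent.R105.Psq_463

open Psi5_425 Psi6_425 Psi7_425 Psi8_425 CF_363 MsB_425

local notation "AC" => AbsolutelyContinuousOnInterval

variable {V E R : Set (ℝ × ℝ)} {f U1 U2 χ φ w D1 D2 : ℝ × ℝ → ℝ} {ε : ℝ} {K : ℝ≥0}

/-- output of the smoothing of `χ f` -/
structure SmOn (E R : Set (ℝ × ℝ)) (f U1 U2 χ : ℝ × ℝ → ℝ) (ε : ℝ) (φ w D1 D2 : ℝ × ℝ → ℝ) :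
    Prop where
  smooth : ContDiffOn ℝ ∞ φ Eᶜ
  cpt : HasCompactSupport φ
  eq : ∀ p, φ p = χ p * f p + w p
  wcpt : HasCompactSupport w
  wsub : tsupport w ⊆ R
  cor : Cor (R \ E) ε w D1 D2
  gx : ∀ p ∉ E, CF_363.gx φ p = (CF_363.gx χ p * f p + χ p * U1 p) + D1 p
  gy : ∀ p ∉ E, CF_363.gy φ p = (CF_363.gy χ p * f p + χ p * U2 p) + D2 p
  fin : IntegrableOn (g2 φ) Eᶜ
  int : IntegrableOn (CF_363.gx φ) Eᶜ
  val : ∫ p in Eᶜ, CF_363.gx φ p = ∫ p in R \ E, (CF_363.gx χ p * f p + χ p * U1 p)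

theorem ae_dx_lip (h : LipschitzWith K χ) :
    ∀ᵐ y : ℝ, ∀ᵐ s : ℝ, HasDerivAt (fun s => χ (s, y)) (gx χ (s, y)) s := by
  have h1 := CF_363.ae_swap (P := fun p => DifferentiableAt ℝ χ p) h.ae_differentiableAt
  filter_upwards [h1] with y hy
  filter_upwards [hy] with s hs using hasDerivAt_x hs

theorem ae_dy_lip (h : LipschitzWith K χ) :
    ∀ᵐ x : ℝ, ∀ᵐ s : ℝ, HasDerivAt (fun s => χ (x, s)) (gy χ (x, s)) s := by
  have h1 := ae_x_of_ae (P := fun p => DifferentiableAt ℝ χ p) h.ae_differentiableAt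
  filter_upwards [h1] with y hy
  filter_upwards [hy] with s hs using hasDerivAt_y hs

theorem memLp_mul_of_bdd {μ : Measure (ℝ × ℝ)} {g h : ℝ × ℝ → ℝ} {C : ℝ} (hg : MemLp g 2 μ)
    (hh : AEStronglyMeasurable h μ) (hb : ∀ p, |h p| ≤ C) : MemLp (fun p => h p * g p) 2 μ := by
  refine MemLp.of_le_mul (c := C) hg (hh.mul hg.1) (Eventually.of_forall fun x => ?_)
  rw [norm_mul]
  exact mul_le_mul_of_nonneg_right (hb x) (norm_nonneg _)

/-- product with a Lipschitz function which is bounded -/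
theorem StrV.mul (hV : IsOpen V) (h : StrV V f U1 U2) (hχ : LipschitzWith K χ) {C : ℝ}
    (hC : ∀ p, |χ p| ≤ C) :
    StrV V (fun p => χ p * f p) (fun p => gx χ p * f p + χ p * U1 p)
      (fun p => gy χ p * f p + χ p * U2 p) := by
  obtain ⟨h', hU1, hU2⟩ := h.ind hV
  refine ⟨hχ.continuous.continuousOn.mul h.cont,
    memLp_mul_of_bdd h.L2 hχ.continuous.aestronglyMeasurable hC, ?_, ?_, ?_, ?_⟩
  · exact (memLp_mul_of_bdd h.L2 (measurable_gx χ).aestronglyMeasurable (abs_gx_le hχ)).add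
      (memLp_mul_of_bdd h.V1 hχ.continuous.aestronglyMeasurable hC)
  · exact (memLp_mul_of_bdd h.L2 (measurable_gy χ).aestronglyMeasurable (abs_gy_le hχ)).add
      (memLp_mul_of_bdd h.V2 hχ.continuous.aestronglyMeasurable hC)
  · filter_upwards [h'.hor, Mp_87.ae_line_y hU1, ae_dx_lip hχ] with y h1 h2 h3 x x' hxx' hr
    have hO : IsOpen {s : ℝ | (s, y) ∈ V} := hV.preimage (by fun_prop)
    have e1 := prod_line hO (f := fun s => f (s, y)) (g := fun s => V.indicator U1 (s, y))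
      (χ := fun s => χ (s, y)) (c := fun s => gx χ (s, y)) (h2.locallyIntegrable (by norm_num))
      (fun s t hst hs => h1 s t hst hs) (fun a b _ => ac_of_lip (lip_x hχ y) a b) h3 x x' hxx' hr
    rw [e1]
    refine intervalIntegral.integral_congr fun s hs => ?_
    rw [uIcc_of_le hxx'] at hs
    show gx χ (s, y) * f (s, y) + χ (s, y) * V.indicator U1 (s, y) = _
    rw [indicator_of_mem (hr s hs)]
  · filter_upwards [h'.ver, Mp_87.ae_line_x hU2, ae_dy_lip hχ] with x h1 h2 h3 y y' hyy' hr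
    have hO : IsOpen {s : ℝ | (x, s) ∈ V} := hV.preimage (by fun_prop)
    have e1 := prod_line hO (f := fun s => f (x, s)) (g := fun s => V.indicator U2 (x, s))
      (χ := fun s => χ (x, s)) (c := fun s => gy χ (x, s)) (h2.locallyIntegrable (by norm_num))
      (fun s t hst hs => h1 s t hst hs) (fun a b _ => ac_of_lip (lip_y hχ x) a b) h3 y y' hyy' hr
    rw [e1]
    refine intervalIntegral.integral_congr fun s hs => ?_
    rw [uIcc_of_le hyy'] at hs
    show gy χ (x, s) * f (x, s) + χ (x, s) * V.indicator U2 (x, s) = _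
    rw [indicator_of_mem (hr s hs)]

/-- the integral of the line derivative of a correction with compact support vanishes -/
theorem Cor.integral_zero (h : Cor V ε w D1 D2) (hc : HasCompactSupport w)
    (hi : Integrable D1 (volume : Measure (ℝ × ℝ))) : ∫ p, D1 p = 0 := by
  rw [Measure.volume_eq_prod, integral_prod_symm _ (by rwa [← Measure.volume_eq_prod])]
  have h1 : ∀ᵐ y : ℝ, ∫ s, D1 (s, y) = 0 := by
    filter_upwards [h.acx, h.dx] with y h2 h3
    obtain ⟨hc', -⟩ := line_x_support hc y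
    obtain ⟨r, hr0, hr⟩ : ∃ r : ℝ, 0 < r ∧ ∀ x, x ∉ Ioo (-r) r →
        x ∉ tsupport (fun s => w (s, y)) := by
      obtain ⟨r, hr⟩ := hc'.isCompact.isBounded.subset_ball (0 : ℝ)
      refine ⟨max r 1, by positivity, fun x hx hxs => hx ?_⟩
      have := hr hxs
      rw [Metric.mem_ball, dist_zero_right, Real.norm_eq_abs, abs_lt] at this
      have := le_max_left r 1
      exact ⟨by linarith, by linarith⟩
    obtain ⟨-, k2⟩ := integral_deriv_eq_zero (w := fun s => w (s, y)) h2 hr0 (fun x hx =>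
      notMem_tsupport_iff_eventuallyEq.1 (hr x hx))
    rw [← k2]
    refine integral_congr_ae ?_
    filter_upwards [h3] with s hs using hs.deriv.symm
  rw [integral_congr_ae h1]
  simp

/-- **smoothing of `χ f`** on the complement of `E` -/
theorem smooth_on (hE : IsClosed E) (hR : IsOpen R) (h : StrV (R \ E) f U1 U2)
    (hχ : LipschitzWith K χ) (hχc : HasCompactSupport χ) (hχs : tsupport χ ⊆ R) (hε : 0 < ε) :
    ∃ φ w D1 D2, SmOn E R f U1 U2 χ ε φ w D1 D2 := by
  set V : Set (ℝ × ℝ) := R \ E with hVd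
  have hV : IsOpen V := hR.sdiff hE
  obtain ⟨C, hC⟩ := hχc.exists_bound_of_continuous hχ.continuous
  have hF := h.mul hV hχ (C := C) hC
  set F : ℝ × ℝ → ℝ := fun p => χ p * f p with hFd
  set P1 : ℝ × ℝ → ℝ := fun p => gx χ p * f p + χ p * U1 p with hP1
  set P2 : ℝ × ℝ → ℝ := fun p => gy χ p * f p + χ p * U2 p with hP2
  -- a smooth cut-off `η = 1` near `tsupport χ`, supported in `R`
  obtain ⟨L, hL, hLs, hLR⟩ := exists_compact_between hχc.isCompact hR hχs
  obtain ⟨η, hη, hη1, hη0, hηb⟩ := cutoff hχc.isCompact.isClosed hLs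
  have hηs : tsupport η ⊆ L := closure_minimal (fun p hp => by
    by_contra hcon
    exact hp (hη0 p hcon)) hL.isClosed
  have hηc : HasCompactSupport η :=
    HasCompactSupport.of_support_subset_isCompact hL ((subset_tsupport _).trans hηs)
  have hηC1 : ContDiff ℝ 1 η := hη.of_le (by norm_num)
  have hηgx : Continuous (gx η) := continuous_gx hηC1
  have hηgy : Continuous (gy η) := continuous_gy hηC1
  obtain ⟨A1, hA1⟩ := (hηc.fderiv_apply (𝕜 := ℝ) ((1:ℝ), (0:ℝ))).exists_bound_of_continuous hηgx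
  obtain ⟨A2, hA2⟩ := (hηc.fderiv_apply (𝕜 := ℝ) ((0:ℝ), (1:ℝ))).exists_bound_of_continuous hηgy
  have hηlip : ∃ Kη : ℝ≥0, LipschitzWith Kη η :=
    ContDiff.lipschitzWith_of_hasCompactSupport hηc hηC1 (by norm_num)
  obtain ⟨Kη, hηL⟩ := hηlip
  -- where `χ` lives `η` is constant
  have hη1' : ∀ p ∈ tsupport χ, η =ᶠ[𝓝 p] fun _ => 1 := fun p hp =>
    (eventually_nhdsSet_iff_forall.1 hη1) p hp
  have hηF : ∀ p, η p * χ p = χ p := by
    intro p
    by_cases hp : p ∈ tsupport χ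
    · rw [(hη1' p hp).self_of_nhds, one_mul]
    · rw [image_eq_zero_of_notMem_tsupport hp, mul_zero]
  have hgη0 : ∀ p ∈ tsupport χ, gx η p = 0 ∧ gy η p = 0 := fun p hp =>
    ⟨by rw [gx_congr (hη1' p hp)]; exact gx_const 1 p,
      by rw [gy_congr (hη1' p hp)]; exact gy_const 1 p⟩
  have hχ0 : ∀ p ∉ tsupport χ, χ p = 0 ∧ gx χ p = 0 ∧ gy χ p = 0 := fun p hp =>
    ⟨image_eq_zero_of_notMem_tsupport hp,
      image_eq_zero_of_notMem_tsupport fun h' => hp (tsupport_gx h'),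
      image_eq_zero_of_notMem_tsupport fun h' => hp (tsupport_gy h')⟩
  -- the size of the correction
  set vol : ℝ := (volume : Measure (ℝ × ℝ)).real L with hvol
  have hvol0 : 0 ≤ vol := measureReal_nonneg
  set B : ℝ := 2 * (A1 ^ 2 + A2 ^ 2) * vol + 3 with hB
  have hB0 : 0 < B := by positivity
  obtain ⟨δ, hδ, hδε, hδB, hδ1⟩ : ∃ δ : ℝ, 0 < δ ∧ δ ≤ ε ∧ B * δ ≤ ε ∧ δ ≤ 1 := by
    refine ⟨min (min ε 1) (ε / B), by positivity, ?_, ?_, ?_⟩
    · exact (min_le_left _ _).trans (min_le_left _ _)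
    · have := min_le_right (min ε 1) (ε / B)
      calc B * min (min ε 1) (ε / B) ≤ B * (ε / B) := by gcongr
        _ = ε := by field_simp
    · exact (min_le_left _ _).trans (min_le_right _ _)
  obtain ⟨w₁, D₁, D₂, hw, hvs, hg1, hg2⟩ := exists_cor hV hF hδ
  set v : ℝ × ℝ → ℝ := fun p => F p + w₁ p with hv
  have hvs1 : ContDiffOn ℝ 1 v V := hvs.of_le (by norm_num)
  have hvdiff : ∀ p ∈ V, DifferentiableAt ℝ v p := fun p hp =>
    (hvs1.contDiffAt (hV.mem_nhds hp)).differentiableAt (by norm_num)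
  have hηdiff : ∀ p, DifferentiableAt ℝ η p := fun p => hηC1.differentiable (by norm_num) p
  set w : ℝ × ℝ → ℝ := fun p => η p * w₁ p with hwd
  set D1 : ℝ × ℝ → ℝ := fun p => gx η p * w₁ p + η p * D₁ p with hD1
  set D2 : ℝ × ℝ → ℝ := fun p => gy η p * w₁ p + η p * D₂ p with hD2
  set φ : ℝ × ℝ → ℝ := fun p => η p * v p with hφ
  have hφeq : ∀ p, φ p = χ p * f p + w p := by
    intro p
    show η p * (χ p * f p + w₁ p) = χ p * f p + η p * w₁ p
    rw [mul_add, ← mul_assoc, hηF]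
  have hηb1 : ∀ p, |η p| ≤ 1 := fun p => by
    rw [abs_le]; exact ⟨by linarith [(hηb p).1], (hηb p).2⟩
  have hw1L : MemLp (fun p => gx η p * w₁ p) 2 (volume : Measure (ℝ × ℝ)) :=
    (hηgx.mul hw.cont).memLp_of_hasCompactSupport
      ((hηc.fderiv_apply (𝕜 := ℝ) ((1:ℝ), (0:ℝ))).mul_right)
  have hw2L : MemLp (fun p => gy η p * w₁ p) 2 (volume : Measure (ℝ × ℝ)) :=
    (hηgy.mul hw.cont).memLp_of_hasCompactSupport
      ((hηc.fderiv_apply (𝕜 := ℝ) ((0:ℝ), (1:ℝ))).mul_right)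
  have hD1L : MemLp D1 2 (volume : Measure (ℝ × ℝ)) :=
    hw1L.add (memLp_mul_of_bdd hw.L1 hη.continuous.aestronglyMeasurable hηb1)
  have hD2L : MemLp D2 2 (volume : Measure (ℝ × ℝ)) :=
    hw2L.add (memLp_mul_of_bdd hw.L2 hη.continuous.aestronglyMeasurable hηb1)
  have hgxφ : ∀ p ∈ V, gx φ p = P1 p + D1 p := by
    intro p hp
    rw [hφ, gx_mul (hηdiff p) (hvdiff p hp)]
    have e1 := hg1 p hp
    show η p * gx v p + v p * gx η p = P1 p + (gx η p * w₁ p + η p * D₁ p)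
    rw [e1]
    by_cases hpc : p ∈ tsupport χ
    · rw [(hgη0 p hpc).1, (hη1' p hpc).self_of_nhds]; ring
    · obtain ⟨a1, a2, -⟩ := hχ0 p hpc
      rw [hP1]; simp only
      rw [hv]; simp only
      rw [hFd]; simp only
      rw [a1, a2]; ring
  have hgyφ : ∀ p ∈ V, gy φ p = P2 p + D2 p := by
    intro p hp
    rw [hφ, gy_mul (hηdiff p) (hvdiff p hp)]
    have e1 := hg2 p hp
    show η p * gy v p + v p * gy η p = P2 p + (gy η p * w₁ p + η p * D₂ p)
    rw [e1]
    by_cases hpc : p ∈ tsupport χ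
    · rw [(hgη0 p hpc).2, (hη1' p hpc).self_of_nhds]; ring
    · obtain ⟨a1, -, a2⟩ := hχ0 p hpc
      rw [hP2]; simp only
      rw [hv]; simp only
      rw [hFd]; simp only
      rw [a1, a2]; ring
  have hη0' : ∀ p ∉ R, η =ᶠ[𝓝 p] 0 := fun p hp =>
    notMem_tsupport_iff_eventuallyEq.1 fun h' => hp (hLR (hηs h'))
  have hφ0 : ∀ p ∉ R, φ =ᶠ[𝓝 p] fun _ => 0 := by
    intro p hp
    filter_upwards [hη0' p hp] with q hq
    show η q * v q = 0
    rw [hq]; simp
  have hgη0R : ∀ p ∉ R, η p = 0 ∧ gx η p = 0 ∧ gy η p = 0 := fun p hp =>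
    ⟨(hη0' p hp).self_of_nhds, by rw [gx_congr (hη0' p hp)]; exact gx_const 0 p,
      by rw [gy_congr (hη0' p hp)]; exact gy_const 0 p⟩
  have hPR : ∀ p ∉ R, P1 p = 0 ∧ P2 p = 0 := by
    intro p hp
    obtain ⟨a1, a2, a3⟩ := hχ0 p fun h' => hp (hχs h')
    rw [hP1, hP2]; simp only
    rw [a1, a2, a3]; simp
  have hDR : ∀ p ∉ V, D1 p = 0 ∧ D2 p = 0 := by
    intro p hp
    obtain ⟨a1, a2⟩ := hw.off p hp
    rw [hD1, hD2]; simp only
    rw [a1, a2, hw.zero p hp]; simp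
  have hGX : ∀ p ∉ E, gx φ p = P1 p + D1 p := by
    intro p hp
    by_cases hpR : p ∈ R
    · exact hgxφ p ⟨hpR, hp⟩
    · rw [gx_congr (hφ0 p hpR), (hPR p hpR).1, (hDR p fun h' => hpR h'.1).1, gx_const]; simp
  have hGY : ∀ p ∉ E, gy φ p = P2 p + D2 p := by
    intro p hp
    by_cases hpR : p ∈ R
    · exact hgyφ p ⟨hpR, hp⟩
    · rw [gy_congr (hφ0 p hpR), (hPR p hpR).2, (hDR p fun h' => hpR h'.1).2, gy_const]; simp
  have hEm : MeasurableSet Eᶜ := hE.isOpen_compl.measurableSet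
  have hVE : V ⊆ Eᶜ := fun p hp => hp.2
  -- `P1`, `P2` in `L²(Eᶜ)`
  have hPL : ∀ {P : ℝ × ℝ → ℝ}, MemLp P 2 (volume.restrict V) → (∀ p ∉ R, P p = 0) →
      MemLp P 2 (volume.restrict Eᶜ) := by
    intro P hP h0
    have e1 : V.indicator P =ᵐ[volume.restrict Eᶜ] P := by
      rw [EventuallyEq, ae_restrict_iff' hEm]
      refine Eventually.of_forall fun p hp => ?_
      by_cases hpR : p ∈ R
      · have hpV : p ∈ V := ⟨hpR, hp⟩
        exact indicator_of_mem hpV P
      · have hpV : p ∉ V := fun h' => hpR h'.1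
        rw [indicator_of_notMem hpV P, h0 p hpR]
    exact ((memLp_indicator_iff_restrict hV.measurableSet).2 hP |>.restrict Eᶜ).ae_eq e1
  have hP1L := hPL hF.V1 fun p hp => (hPR p hp).1
  have hP2L := hPL hF.V2 fun p hp => (hPR p hp).2
  have hgxL : MemLp (gx φ) 2 (volume.restrict Eᶜ) := by
    refine (hP1L.add (hD1L.restrict Eᶜ)).ae_eq ?_
    rw [EventuallyEq, ae_restrict_iff' hEm]
    exact Eventually.of_forall fun p hp => (hGX p hp).symm
  have hgyL : MemLp (gy φ) 2 (volume.restrict Eᶜ) := by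
    refine (hP2L.add (hD2L.restrict Eᶜ)).ae_eq ?_
    rw [EventuallyEq, ae_restrict_iff' hEm]
    exact Eventually.of_forall fun p hp => (hGY p hp).symm
  have hwc : HasCompactSupport w := hηc.mul_right
  have hφc : HasCompactSupport φ := hηc.mul_right
  -- the correction
  have hlx : ∀ᵐ y : ℝ, ∀ x x', x ≤ x' → w (x', y) - w (x, y) = ∫ s in x..x', D1 (s, y) := by
    filter_upwards [hw.hor, hw.li_x, ae_dx_lip hηL] with y h1 h2 h3 x x' hxx'
    exact prod_line isOpen_univ (f := fun s => w₁ (s, y)) (g := fun s => D₁ (s, y))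
      (χ := fun s => η (s, y)) (c := fun s => gx η (s, y)) h2 (fun s t hst _ => h1 s t hst)
      (fun a b _ => ac_of_lip (lip_x hηL y) a b) h3 x x' hxx' fun _ _ => trivial
  have hly : ∀ᵐ x : ℝ, ∀ y y', y ≤ y' → w (x, y') - w (x, y) = ∫ t in y..y', D2 (x, t) := by
    filter_upwards [hw.ver, hw.li_y, ae_dy_lip hηL] with x h1 h2 h3 y y' hyy'
    exact prod_line isOpen_univ (f := fun s => w₁ (x, s)) (g := fun s => D₂ (x, s))
      (χ := fun s => η (x, s)) (c := fun s => gy η (x, s)) h2 (fun s t hst _ => h1 s t hst)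
      (fun a b _ => ac_of_lip (lip_y hηL x) a b) h3 y y' hyy' fun _ _ => trivial
  have hen : ∫ p, (D1 p ^ 2 + D2 p ^ 2) ≤ ε := by
    have i1 : Integrable (fun p => D₁ p ^ 2 + D₂ p ^ 2) (volume : Measure (ℝ × ℝ)) :=
      hw.L1.integrable_sq.add hw.L2.integrable_sq
    have i2 : Integrable (L.indicator fun _ : ℝ × ℝ => 2 * (A1 ^ 2 + A2 ^ 2) * δ ^ 2)
        (volume : Measure (ℝ × ℝ)) := by
      rw [integrable_indicator_iff hL.isClosed.measurableSet]
      exact integrableOn_const hL.measure_lt_top.ne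
    have h1 : ∫ p, (D1 p ^ 2 + D2 p ^ 2) ≤ ∫ p, (L.indicator (fun _ : ℝ × ℝ =>
        2 * (A1 ^ 2 + A2 ^ 2) * δ ^ 2) p + 2 * (D₁ p ^ 2 + D₂ p ^ 2)) := by
      refine integral_mono (hD1L.integrable_sq.add hD2L.integrable_sq) (i2.add (i1.const_mul 2))
        fun p => ?_
      show (gx η p * w₁ p + η p * D₁ p) ^ 2 + (gy η p * w₁ p + η p * D₂ p) ^ 2 ≤ _
      have b1 : (η p) ^ 2 ≤ 1 := by rw [← sq_abs]; exact pow_le_one₀ (abs_nonneg _) (hηb1 p)
      have b2 : (w₁ p) ^ 2 ≤ δ ^ 2 := by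
        rw [← sq_abs]; exact pow_le_pow_left₀ (abs_nonneg _) (hw.bdd p) 2
      have c1 : (η p * D₁ p) ^ 2 ≤ D₁ p ^ 2 := by
        rw [mul_pow]; exact mul_le_of_le_one_left (sq_nonneg _) b1
      have c2 : (η p * D₂ p) ^ 2 ≤ D₂ p ^ 2 := by
        rw [mul_pow]; exact mul_le_of_le_one_left (sq_nonneg _) b1
      have d1 : (gx η p * w₁ p) ^ 2 + (gy η p * w₁ p) ^ 2 ≤
          L.indicator (fun _ : ℝ × ℝ => (A1 ^ 2 + A2 ^ 2) * δ ^ 2) p := by
        by_cases hpL : p ∈ L
        · rw [indicator_of_mem hpL]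
          have a1 : (gx η p) ^ 2 ≤ A1 ^ 2 := by
            rw [← sq_abs]; exact pow_le_pow_left₀ (abs_nonneg _) (hA1 p) 2
          have a2 : (gy η p) ^ 2 ≤ A2 ^ 2 := by
            rw [← sq_abs]; exact pow_le_pow_left₀ (abs_nonneg _) (hA2 p) 2
          rw [mul_pow, mul_pow, add_mul]
          exact add_le_add (mul_le_mul a1 b2 (sq_nonneg _) (sq_nonneg _))
            (mul_le_mul a2 b2 (sq_nonneg _) (sq_nonneg _))
        · rw [indicator_of_notMem hpL]
          have a1 : gx η p = 0 := image_eq_zero_of_notMem_tsupport fun h' =>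
            hpL (hηs (tsupport_gx h'))
          have a2 : gy η p = 0 := image_eq_zero_of_notMem_tsupport fun h' =>
            hpL (hηs (tsupport_gy h'))
          rw [a1, a2]; simp
      have e1 : L.indicator (fun _ : ℝ × ℝ => 2 * (A1 ^ 2 + A2 ^ 2) * δ ^ 2) p =
          2 * L.indicator (fun _ : ℝ × ℝ => (A1 ^ 2 + A2 ^ 2) * δ ^ 2) p := by
        by_cases hpL : p ∈ L
        · rw [indicator_of_mem hpL, indicator_of_mem hpL]; ring
        · rw [indicator_of_notMem hpL, indicator_of_notMem hpL]; ring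
      rw [e1]
      nlinarith [sq_nonneg (gx η p * w₁ p - η p * D₁ p), sq_nonneg (gy η p * w₁ p - η p * D₂ p)]
    refine h1.trans ?_
    rw [integral_add i2 (i1.const_mul 2), integral_const_mul,
      integral_indicator hL.isClosed.measurableSet, setIntegral_const, smul_eq_mul]
    have h2 := hw.en
    have h3 : (volume : Measure (ℝ × ℝ)).real L * (2 * (A1 ^ 2 + A2 ^ 2) * δ ^ 2) ≤
        2 * (A1 ^ 2 + A2 ^ 2) * vol * δ := by
      have : δ ^ 2 ≤ δ := by nlinarith
      calc vol * (2 * (A1 ^ 2 + A2 ^ 2) * δ ^ 2) ≤ vol * (2 * (A1 ^ 2 + A2 ^ 2) * δ) := by gcongr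
        _ = _ := by ring
    calc _ ≤ 2 * (A1 ^ 2 + A2 ^ 2) * vol * δ + 2 * δ := by linarith
      _ ≤ B * δ := by rw [hB]; nlinarith
      _ ≤ ε := hδB
  have hcor : Cor V ε w D1 D2 := by
    refine ⟨hη.continuous.mul hw.cont, fun p hp => ?_, fun p => ?_, hD1L, hD2L, hDR, hen, hlx, hly⟩
    · show η p * w₁ p = 0
      rw [hw.zero p hp, mul_zero]
    · show |η p * w₁ p| ≤ ε
      rw [abs_mul]
      calc |η p| * |w₁ p| ≤ 1 * δ :=
            mul_le_mul (hηb1 p) (hw.bdd p) (abs_nonneg _) zero_le_one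
        _ ≤ ε := by linarith
  have hD0 : ∀ p ∉ L, D1 p = 0 := by
    intro p hp
    have a1 : gx η p = 0 := image_eq_zero_of_notMem_tsupport fun h' =>
      hp (hηs (tsupport_gx h'))
    rw [hD1]; simp only
    rw [a1, hη0 p hp]; simp
  have hD1i : Integrable D1 (volume : Measure (ℝ × ℝ)) := by
    have e1 : L.indicator D1 = D1 := by
      rw [indicator_eq_self]
      intro p hp
      by_contra hcon
      exact hp (hD0 p hcon)
    rw [← e1, integrable_indicator_iff hL.isClosed.measurableSet]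
    have hfin : IsFiniteMeasure ((volume : Measure (ℝ × ℝ)).restrict L) :=
      ⟨by rw [Measure.restrict_apply_univ]; exact hL.measure_lt_top⟩
    exact (hD1L.restrict L).integrable (by norm_num)
  have hD1zero := hcor.integral_zero hwc hD1i
  have hP1i : IntegrableOn P1 V := by
    have e0 : ∀ p ∈ V, p ∉ L → P1 p = 0 := fun p _ hpL => by
      obtain ⟨a1, a2, -⟩ := hχ0 p fun h' => hpL (interior_subset (hLs h'))
      rw [hP1]; simp only
      rw [a1, a2]; simp
    have hfin : IsFiniteMeasure ((volume : Measure (ℝ × ℝ)).restrict (V ∩ L)) :=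
      ⟨by rw [Measure.restrict_apply_univ]
          exact lt_of_le_of_lt (measure_mono inter_subset_right) hL.measure_lt_top⟩
    have h1 : IntegrableOn P1 (V ∩ L) := by
      have := hF.V1.restrict L
      rw [Measure.restrict_restrict hL.isClosed.measurableSet, inter_comm] at this
      exact this.integrable (by norm_num)
    have h2 : IntegrableOn P1 (V \ L) :=
      (integrableOn_zero).congr_fun (fun p hp => (e0 p hp.1 hp.2).symm)
        (hV.measurableSet.diff hL.isClosed.measurableSet)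
    have := h1.union h2
    rwa [inter_union_sdiff] at this
  have hP1E : IntegrableOn P1 Eᶜ := by
    have h2 : IntegrableOn P1 (Eᶜ \ V) :=
      (integrableOn_zero).congr_fun (fun p hp =>
        ((hPR p fun h' => hp.2 ⟨h', hp.1⟩).1).symm) (hEm.diff hV.measurableSet)
    have := hP1i.union h2
    rwa [union_sdiff_cancel hVE] at this
  have hint : IntegrableOn (gx φ) Eᶜ :=
    (hP1E.add hD1i.integrableOn).congr_fun (fun p hp => (hGX p hp).symm) hEm
  refine ⟨φ, w, D1, D2, ⟨?_, hφc, hφeq, hwc, ?_, hcor, hGX, hGY,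
    hgxL.integrable_sq.add hgyL.integrable_sq, hint, ?_⟩⟩
  · intro p hp
    refine ContDiffAt.contDiffWithinAt ?_
    by_cases hpR : p ∈ R
    · exact hη.contDiffAt.mul (hvs.contDiffAt (hV.mem_nhds ⟨hpR, hp⟩))
    · exact contDiffAt_const.congr_of_eventuallyEq (hφ0 p hpR)
  · exact ((tsupport_mul_subset_left).trans hηs).trans hLR
  · rw [setIntegral_congr_fun hEm (fun p hp => hGX p hp), integral_add hP1E hD1i.integrableOn]
    have e1 : ∫ p in Eᶜ, D1 p = 0 := by
      rw [← hD1zero]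
      refine setIntegral_eq_integral_of_forall_compl_eq_zero fun p hp => ?_
      exact (hDR p fun h' => hp h'.2).1
    have e2 : ∫ p in Eᶜ, P1 p = ∫ p in V, P1 p :=
      setIntegral_eq_of_subset_of_forall_sdiff_eq_zero hEm hVE
        fun p hp => (hPR p fun h' => hp.2 ⟨h', hp.1⟩).1
    rw [e1, e2, add_zero]

end Crest.Agent.R105.Psq_463
end

-- ▼ part R105/Psq1_425
section

/-!
# Row 105 (S0138), helper425: the flux of a clamped function on a line

`flux_line_ge`: `F = (absolutely continuous) - (monotone)`, `T` of class `C^1`, `0 ≤ T' ≤ 1`, `φ ≥ 0`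
of class `C^1` with compact support: `0 ≤ ∫ (φ' T(F) - φ T'(F) h)`.
-/

set_option autoImplicit false

open MeasureTheory Set Filter Topology
open scoped NNReal ENNReal ContDiff

namespace Crest.Agent.R105.Psq_425

open Psi5_425 Psi7_425 CF_363

local notation "AC" => AbsolutelyContinuousOnInterval

/-- clamp: identity on `[-m, 0]`, nondecreasing, `1`-Lipschitz, bounded -/
structure Clamp (m M : ℝ) (T : ℝ → ℝ) : Prop where
  sm : ContDiff ℝ ∞ T
  nn : ∀ t, 0 ≤ deriv T t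
  le : ∀ t, deriv T t ≤ 1
  id : ∀ t, -m ≤ t → t ≤ 0 → T t = t
  did : ∀ t, -m < t → t < 0 → deriv T t = 1
  lo : ∀ t, -m - M ≤ T t
  up : ∀ t, T t ≤ M

variable {T : ℝ → ℝ}

theorem lip_of_deriv (hT : ContDiff ℝ 1 T) (h0 : ∀ t, 0 ≤ deriv T t) (h1 : ∀ t, deriv T t ≤ 1) :
    LipschitzWith 1 T := by
  refine lipschitzWith_of_nnnorm_deriv_le (hT.differentiable (by norm_num)) fun t => ?_
  rw [← NNReal.coe_le_coe, coe_nnnorm, Real.norm_eq_abs, abs_of_nonneg (h0 t)]
  exact h1 t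

theorem flux_ac_ge {a b k : ℝ} (hab : a ≤ b) {φ h N : ℝ → ℝ} (hφ : ContDiff ℝ 1 φ)
    (ha0 : φ a = 0) (hb0 : φ b = 0) (hφn : ∀ x, 0 ≤ φ x) (hN : Monotone N) (hNa : AC N a b)
    (hh : IntervalIntegrable h volume a b)
    (hT : ContDiff ℝ 1 T) (hT0 : ∀ t, 0 ≤ deriv T t) (hT1 : ∀ t, deriv T t ≤ 1) :
    0 ≤ ∫ x in a..b, (deriv φ x * T (k - (∫ s in a..x, h s) - N x) -
      φ x * (deriv T (k - (∫ s in a..x, h s) - N x) * h x)) := by
  have hd : Continuous (deriv φ) := hφ.continuous_deriv le_rfl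
  have hdT : Continuous (deriv T) := hT.continuous_deriv le_rfl
  have hlip := lip_of_deriv hT hT0 hT1
  set A : ℝ → ℝ := fun x => ∫ s in a..x, h s with hA
  have hac : AC A a b := hh.absolutelyContinuousOnInterval_intervalIntegral (by simp)
  have hacφ : AC φ a b := (hφ.contDiffOn (s := uIcc a b)).absolutelyContinuousOnInterval
  set G : ℝ → ℝ := fun x => k - A x - N x with hG
  have hGa : AC G a b := ((ac_const a b k).sub hac).sub hNa
  have hTG : AC (fun x => T (G x)) a b := ac_lip (h := T) (C := 1) hGa zero_le_one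
    (fun s t => by simpa [Real.dist_eq] using hlip.dist_le_mul s t)
  -- derivative of `T ∘ G`
  have hder : ∀ᵐ x, x ∈ uIoc a b → ∃ r, 0 ≤ r ∧
      deriv (fun x => T (G x)) x = deriv T (G x) * (-h x - r) := by
    filter_upwards [hh.ae_hasDerivAt_integral, hNa.ae_differentiableAt] with x h1 h2 hx
    have hx' := uIoc_subset_uIcc hx
    have d1 : HasDerivAt A (h x) x := h1 hx' a left_mem_uIcc
    have d2 : HasDerivAt N (deriv N x) x := (h2 hx').hasDerivAt
    have d3 : HasDerivAt G (0 - h x - deriv N x) x := ((hasDerivAt_const x k).sub d1).sub d2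
    have d4 : HasDerivAt T (deriv T (G x)) (G x) :=
      (hT.differentiable (by norm_num) (G x)).hasDerivAt
    have d5 := d4.comp x d3
    refine ⟨deriv N x, hN.deriv_nonneg, ?_⟩
    have e : (fun x => T (G x)) = T ∘ G := rfl
    rw [e, d5.deriv]; ring
  have hibp := hTG.integral_mul_deriv_eq_deriv_mul hacφ
  rw [ha0, hb0] at hibp
  have hGc : ContinuousOn G (uIcc a b) := hGa.continuousOn
  have i1 : IntervalIntegrable (fun x => T (G x) * deriv φ x) volume a b :=
    ((hT.continuous.comp_continuousOn hGc).mul hd.continuousOn).intervalIntegrable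
  have i2 : IntervalIntegrable (fun x => φ x * (deriv T (G x) * h x)) volume a b := by
    refine IntervalIntegrable.continuousOn_mul ?_ hφ.continuous.continuousOn
    exact hh.continuousOn_mul (hdT.comp_continuousOn hGc)
  have i3 : IntervalIntegrable (fun x => deriv (fun x => T (G x)) x * φ x) volume a b :=
    hTG.intervalIntegrable_deriv.mul_continuousOn hφ.continuous.continuousOn
  have e1 : ∫ x in a..b, (deriv φ x * T (G x) - φ x * (deriv T (G x) * h x)) =
      ∫ x in a..b, (-(deriv (fun x => T (G x)) x * φ x) - φ x * (deriv T (G x) * h x)) := by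
    have i3' : IntervalIntegrable (fun x => -(deriv (fun x => T (G x)) x * φ x)) volume a b := i3.neg
    rw [intervalIntegral.integral_sub (by simpa [mul_comm] using i1) i2,
      intervalIntegral.integral_sub i3' i2, intervalIntegral.integral_neg]
    have e2 : ∫ x in a..b, deriv φ x * T (G x) = ∫ x in a..b, T (G x) * deriv φ x := by
      congr 1; funext x; ring
    rw [e2, hibp]
    ring
  show 0 ≤ ∫ x in a..b, (deriv φ x * T (G x) - φ x * (deriv T (G x) * h x))
  rw [e1]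
  refine intervalIntegral.integral_nonneg_of_ae_restrict hab ?_
  rw [EventuallyLE, ae_restrict_iff' measurableSet_Icc]
  have hne : ∀ᵐ x : ℝ, x ≠ a := by rw [ae_iff]; simp
  filter_upwards [hder, hne] with x hx hxa hxI
  have hx2 : x ∈ uIoc a b := by
    rw [uIoc_of_le hab]; exact ⟨lt_of_le_of_ne hxI.1 (Ne.symm hxa), hxI.2⟩
  obtain ⟨r, hr, e⟩ := hx hx2
  show 0 ≤ -(deriv (fun x => T (G x)) x * φ x) - φ x * (deriv T (G x) * h x)
  rw [e]
  have : -(deriv T (G x) * (-h x - r) * φ x) - φ x * (deriv T (G x) * h x) =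
      φ x * (deriv T (G x) * r) := by ring
  rw [this]
  exact mul_nonneg (hφn x) (mul_nonneg (hT0 _) hr)

/-- averages of a bounded monotone function -/
theorem avg_props {M : ℝ → ℝ} (hM : Monotone M) {C : ℝ} (h0 : ∀ x, 0 ≤ M x) (hC : ∀ x, M x ≤ C)
    {δ : ℝ} (hδ : 0 < δ) (a b : ℝ) :
    Monotone (fun x => δ⁻¹ * ∫ t in x..x + δ, M t) ∧
    AC (fun x => δ⁻¹ * ∫ t in x..x + δ, M t) a b ∧
    ∀ x, M x ≤ δ⁻¹ * (∫ t in x..x + δ, M t) ∧ δ⁻¹ * (∫ t in x..x + δ, M t) ≤ M (x + δ) := by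
  have hI : ∀ s t, IntervalIntegrable M volume s t := fun s t => hM.intervalIntegrable
  have hδi : 0 < δ⁻¹ := inv_pos.2 hδ
  have e : ∀ x, ∫ t in x..x + δ, M t = ∫ t in (0:ℝ)..δ, M (x + t) := by
    intro x
    rw [intervalIntegral.integral_comp_add_left (fun t => M t)]
    simp
  have hI' : ∀ x, IntervalIntegrable (fun t => M (x + t)) volume 0 δ := fun x =>
    (hM.comp (fun s t h => by linarith : Monotone fun t : ℝ => x + t)).intervalIntegrable
  refine ⟨?_, ?_, ?_⟩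
  · intro x x' hxx'
    simp only
    rw [e x, e x']
    refine mul_le_mul_of_nonneg_left ?_ hδi.le
    exact intervalIntegral.integral_mono_on hδ.le (hI' x) (hI' x') fun t _ => hM (by linarith)
  · -- Lipschitz
    have hCn : 0 ≤ C := (h0 0).trans (hC 0)
    have hlip : ∀ x x', |(δ⁻¹ * ∫ t in x..x + δ, M t) - δ⁻¹ * ∫ t in x'..x' + δ, M t| ≤
        δ⁻¹ * (2 * C) * |x - x'| := by
      intro x x'
      have e1 : (∫ t in x..x + δ, M t) - ∫ t in x'..x' + δ, M t =
          (∫ t in x' + δ..x + δ, M t) - ∫ t in x'..x, M t := by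
        have h1 := intervalIntegral.integral_add_adjacent_intervals (hI x' x) (hI x (x + δ))
        have h2 := intervalIntegral.integral_add_adjacent_intervals (hI x' (x' + δ))
          (hI (x' + δ) (x + δ))
        linarith
      have hb : ∀ s t, |∫ u in s..t, M u| ≤ C * |t - s| := fun s t => by
        have := intervalIntegral.norm_integral_le_of_norm_le_const (f := M) (a := s) (b := t) (C := C)
          (fun u _ => by rw [Real.norm_eq_abs, abs_of_nonneg (h0 u)]; exact hC u)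
        rwa [Real.norm_eq_abs] at this
      rw [← mul_sub, abs_mul, abs_of_pos hδi, e1, mul_assoc]
      refine mul_le_mul_of_nonneg_left ?_ hδi.le
      have k1 := hb (x' + δ) (x + δ)
      have k2 := hb x' x
      have e2 : x + δ - (x' + δ) = x - x' := by ring
      rw [e2] at k1
      have := abs_sub (∫ t in x' + δ..x + δ, M t) (∫ t in x'..x, M t)
      linarith
    have hL : LipschitzWith (δ⁻¹ * (2 * C)).toNNReal (fun x => δ⁻¹ * ∫ t in x..x + δ, M t) := by
      refine LipschitzWith.of_dist_le_mul fun x x' => ?_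
      rw [Real.dist_eq, Real.dist_eq, Real.coe_toNNReal _ (by positivity)]
      exact hlip x x'
    exact Psq_463.ac_of_lip hL a b
  · intro x
    have c1 : ∫ _ in (0:ℝ)..δ, M x = δ * M x := by simp
    have c2 : ∫ _ in (0:ℝ)..δ, M (x + δ) = δ * M (x + δ) := by simp
    have k1 : δ * M x ≤ ∫ t in (0:ℝ)..δ, M (x + t) := by
      rw [← c1]
      exact intervalIntegral.integral_mono_on hδ.le intervalIntegrable_const (hI' x)
        fun t ht => hM (by linarith [ht.1])
    have k2 : ∫ t in (0:ℝ)..δ, M (x + t) ≤ δ * M (x + δ) := by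
      rw [← c2]
      exact intervalIntegral.integral_mono_on hδ.le (hI' x) intervalIntegrable_const
        fun t ht => hM (by linarith [ht.2])
    rw [e x]
    constructor
    · rw [inv_mul_eq_div, le_div_iff₀ hδ]; linarith
    · rw [inv_mul_eq_div, div_le_iff₀ hδ]; linarith

/-- **Claim L** -/
theorem flux_line_ge {a b k : ℝ} (hab : a ≤ b) {φ h F : ℝ → ℝ} (hφ : ContDiff ℝ 1 φ)
    (ha0 : φ a = 0) (hb0 : φ b = 0) (hφn : ∀ x, 0 ≤ φ x) {ρ : Measure ℝ} [IsFiniteMeasure ρ]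
    (hh : IntervalIntegrable h volume a b)
    (hF : ∀ x ∈ Icc a b, F x = k - (∫ s in a..x, h s) - (ρ (Ico a x)).toReal)
    (hT : ContDiff ℝ 1 T) (hT0 : ∀ t, 0 ≤ deriv T t) (hT1 : ∀ t, deriv T t ≤ 1) :
    0 ≤ ∫ x in a..b, (deriv φ x * T (F x) - φ x * (deriv T (F x) * h x)) := by
  have hd : Continuous (deriv φ) := hφ.continuous_deriv le_rfl
  have hdT : Continuous (deriv T) := hT.continuous_deriv le_rfl
  have hlip := lip_of_deriv hT hT0 hT1
  set M : ℝ → ℝ := fun x => (ρ (Ico a x)).toReal with hMd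
  have hM : Monotone M := fun x y hxy =>
    ENNReal.toReal_mono (measure_ne_top _ _) (measure_mono (Ico_subset_Ico_right hxy))
  set C : ℝ := (ρ univ).toReal with hCd
  have hM0 : ∀ x, 0 ≤ M x := fun x => ENNReal.toReal_nonneg
  have hMC : ∀ x, M x ≤ C := fun x =>
    ENNReal.toReal_mono (measure_ne_top _ _) (measure_mono (subset_univ _))
  set A : ℝ → ℝ := fun x => ∫ s in a..x, h s with hA
  have hac : AC A a b := hh.absolutelyContinuousOnInterval_intervalIntegral (by simp)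
  set δ : ℕ → ℝ := fun n => 1 / ((n : ℝ) + 1) with hδ
  have hδ0 : ∀ n, 0 < δ n := fun n => by rw [hδ]; positivity
  have hδt : Tendsto δ atTop (𝓝 0) := tendsto_one_div_add_atTop_nhds_zero_nat
  set N : ℕ → ℝ → ℝ := fun n x => (δ n)⁻¹ * ∫ t in x..x + δ n, M t with hN
  have hNp := fun n => avg_props hM hM0 hMC (hδ0 n) a b
  have hNlim : ∀ᵐ x : ℝ, Tendsto (fun n => N n x) atTop (𝓝 (M x)) := by
    have hc : {x | ¬ ContinuousAt M x}.Countable := hM.countable_not_continuousAt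
    have hae : ∀ᵐ x : ℝ, ContinuousAt M x := by
      rw [ae_iff]; exact hc.measure_zero _
    filter_upwards [hae] with x hx
    have h1 : Tendsto (fun n => M (x + δ n)) atTop (𝓝 (M x)) := by
      have h2 : Tendsto (fun n => x + δ n) atTop (𝓝 x) := by
        simpa using hδt.const_add x
      exact (hx.tendsto).comp h2
    exact tendsto_of_tendsto_of_tendsto_of_le_of_le tendsto_const_nhds h1
      (fun n => ((hNp n).2.2 x).1) (fun n => ((hNp n).2.2 x).2)
  have hNb : ∀ n x, |N n x| ≤ C := by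
    intro n x
    have h1 := ((hNp n).2.2 x)
    have h2 : 0 ≤ N n x := (hM0 x).trans h1.1
    rw [abs_of_nonneg h2]
    exact h1.2.trans (hMC _)
  set g : ℝ → ℝ := fun x => |deriv φ x| * (|T 0| + |k| + |A x| + C) + |φ x| * |h x| with hg
  have hgi : IntervalIntegrable g volume a b := by
    refine IntervalIntegrable.add ?_ ?_
    · refine ContinuousOn.intervalIntegrable ?_
      refine hd.abs.continuousOn.mul ?_
      exact ((continuousOn_const.add hac.continuousOn.abs)).add continuousOn_const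
    · exact hh.abs.continuousOn_mul hφ.continuous.abs.continuousOn
  have hmeasG : ∀ n, AEStronglyMeasurable (fun x => deriv φ x * T (k - A x - N n x) -
      φ x * (deriv T (k - A x - N n x) * h x)) (volume.restrict (uIoc a b)) := by
    intro n
    have hG : ContinuousOn (fun x => k - A x - N n x) (uIcc a b) :=
      (continuousOn_const.sub hac.continuousOn).sub (hNp n).2.1.continuousOn
    have hGm : AEStronglyMeasurable (fun x => k - A x - N n x) (volume.restrict (uIoc a b)) :=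
      (hG.mono uIoc_subset_uIcc).aestronglyMeasurable measurableSet_uIoc
    refine (hd.aestronglyMeasurable.mul (hT.continuous.comp_aestronglyMeasurable hGm)).sub ?_
    refine hφ.continuous.aestronglyMeasurable.mul ?_
    exact (hdT.comp_aestronglyMeasurable hGm).mul
      ((intervalIntegrable_iff.1 hh).aestronglyMeasurable)
  have hlim : Tendsto (fun n => ∫ x in a..b, (deriv φ x * T (k - A x - N n x) -
      φ x * (deriv T (k - A x - N n x) * h x))) atTop
      (𝓝 (∫ x in a..b, (deriv φ x * T (k - A x - M x) -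
        φ x * (deriv T (k - A x - M x) * h x)))) := by
    refine intervalIntegral.tendsto_integral_filter_of_dominated_convergence g
      (Eventually.of_forall hmeasG) (Eventually.of_forall fun n => ?_) hgi ?_
    · refine Eventually.of_forall fun x hx => ?_
      rw [Real.norm_eq_abs]
      refine (abs_sub _ _).trans (add_le_add ?_ ?_)
      · rw [abs_mul]
        refine mul_le_mul_of_nonneg_left ?_ (abs_nonneg _)
        have h1 := hlip.dist_le_mul (k - A x - N n x) 0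
        rw [Real.dist_eq, Real.dist_eq, NNReal.coe_one, one_mul, sub_zero] at h1
        have h2 := abs_sub_abs_le_abs_sub (T (k - A x - N n x)) (T 0)
        have h3 : |k - A x - N n x| ≤ |k| + |A x| + C := by
          refine (abs_sub _ _).trans (add_le_add (abs_sub _ _) (hNb n x))
        linarith
      · rw [abs_mul, abs_mul, abs_of_nonneg (hT0 _)]
        refine mul_le_mul_of_nonneg_left ?_ (abs_nonneg _)
        exact mul_le_of_le_one_left (abs_nonneg _) (hT1 _)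
    · filter_upwards [hNlim] with x hx _
      have h1 : Tendsto (fun n => k - A x - N n x) atTop (𝓝 (k - A x - M x)) :=
        tendsto_const_nhds.sub hx
      exact ((hT.continuous.tendsto _).comp h1).const_mul _ |>.sub
        ((((hdT.tendsto _).comp h1).mul_const _).const_mul _)
  have hge : 0 ≤ ∫ x in a..b, (deriv φ x * T (k - A x - M x) -
        φ x * (deriv T (k - A x - M x) * h x)) :=
    ge_of_tendsto' hlim fun n => flux_ac_ge hab hφ ha0 hb0 hφn (hNp n).1 (hNp n).2.1 hh hT hT0 hT1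
  have e : ∫ x in a..b, (deriv φ x * T (F x) - φ x * (deriv T (F x) * h x)) =
      ∫ x in a..b, (deriv φ x * T (k - A x - M x) - φ x * (deriv T (k - A x - M x) * h x)) := by
    refine intervalIntegral.integral_congr fun x hx => ?_
    rw [uIcc_of_le hab] at hx
    show deriv φ x * T (F x) - φ x * (deriv T (F x) * h x) = _
    rw [hF x hx]
  rw [e]
  exact hge

end Crest.Agent.R105.Psq_425
end

-- ▼ part R105/Psq2_425
section

/-!
# Row 105 (S0138), helper425: the flux of the clamped stream function of one half, and of the glued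
function (clamped version of `Hq_363`).
-/

set_option autoImplicit false

open MeasureTheory Set Filter Topology
open scoped NNReal ENNReal ContDiff

namespace Crest.Agent.R105.Psq_425

open Psi5_425 Psi7_425 CF_363 Sq_87 Mp_87 Hq_363

variable {ι : Type} {Q : Rects ι} {S : Set (ℝ × ℝ)}
variable {a b c B M m : ℝ} {X1 X2 ψ Ψ χ : ℝ × ℝ → ℝ} {μ : Measure (ℝ × ℝ)} {f : ι → ℝ}
variable {T : ℝ → ℝ}

theorem flux_level_ge [IsFiniteMeasure μ] (hab : a < b) (hχ : ContDiff ℝ 1 χ)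
    (hχc : HasCompactSupport χ) (hχs : tsupport χ ⊆ Ioo a b ×ˢ univ) (χ0 : ∀ p, 0 ≤ χ p) {y : ℝ}
    (hI : ∀ x x', IntervalIntegrable (fun s => X2 (s, y)) volume x x')
    (hH : ∀ x ∈ Ioo a b, ∀ x' ∈ Ioo a b, x ≤ x' →
      Ψ (x', y) - Ψ (x, y) = -(∫ s in x..x', X2 (s, y)) -
        (μ {q | q.1 ∈ Ico x x' ∧ q.2 < y}).toReal)
    (hT : ContDiff ℝ 1 T) (hT0 : ∀ t, 0 ≤ deriv T t) (hT1 : ∀ t, deriv T t ≤ 1) :
    0 ≤ ∫ x, (gx χ (x, y) * T (Ψ (x, y)) - χ (x, y) * (deriv T (Ψ (x, y)) * X2 (x, y))) := by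
  obtain ⟨hc', hs'⟩ := line_x_support hχc y
  set φ : ℝ → ℝ := fun x => χ (x, y) with hφ
  have hφ1 : ContDiff ℝ 1 φ := hχ.comp (by fun_prop)
  have hgx : ∀ x, gx χ (x, y) = deriv φ x := fun x =>
    (Psi8_425.hasDerivAt_x (hχ.differentiable (by norm_num) (x, y))).deriv.symm
  have hsub : tsupport φ ⊆ Ioo a b := fun x hx => (hχs (hs' hx)).1
  obtain ⟨a1, b1, ha1, hab1, hb1, hab1s⟩ := exists_inner hab hc' hsub
  have hφ0 : ∀ x, x ∉ Ioo a1 b1 → φ x = 0 := fun x hx =>
    image_eq_zero_of_notMem_tsupport (hab1s x hx)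
  have hφd0 : ∀ x, x ∉ Ioo a1 b1 → deriv φ x = 0 := fun x hx =>
    image_eq_zero_of_notMem_tsupport fun h =>
      hab1s x hx ((tsupport_deriv_subset (𝕜 := ℝ) (f := φ)) h)
  set ρ : Measure ℝ := (μ.restrict {q | q.2 < y}).map Prod.fst with hρ
  have hρI : ∀ x, ρ (Ico a1 x) = μ {q | q.1 ∈ Ico a1 x ∧ q.2 < y} := by
    intro x
    rw [hρ, Measure.map_apply measurable_fst measurableSet_Ico,
      Measure.restrict_apply (measurable_fst measurableSet_Ico)]
    rfl
  have key := flux_line_ge (k := Ψ (a1, y)) hab1 hφ1 (hφ0 a1 fun h => lt_irrefl _ h.1)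
    (hφ0 b1 fun h => lt_irrefl _ h.2) (fun x => χ0 _) (ρ := ρ) (hI a1 b1)
    (F := fun x => Ψ (a1, y) - (∫ s in a1..x, X2 (s, y)) - (ρ (Ico a1 x)).toReal)
    (fun x _ => rfl) hT hT0 hT1
  have e1 : ∫ x, (gx χ (x, y) * T (Ψ (x, y)) - χ (x, y) * (deriv T (Ψ (x, y)) * X2 (x, y))) =
      ∫ x in a1..b1, (gx χ (x, y) * T (Ψ (x, y)) -
        χ (x, y) * (deriv T (Ψ (x, y)) * X2 (x, y))) := by
    rw [intervalIntegral.integral_of_le hab1, ← integral_indicator measurableSet_Ioc]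
    congr 1
    funext x
    by_cases hx : x ∈ Ioc a1 b1
    · rw [indicator_of_mem hx]
    · rw [indicator_of_notMem hx, hgx, hφd0 x fun h => hx ⟨h.1, h.2.le⟩]
      have : χ (x, y) = 0 := hφ0 x fun h => hx ⟨h.1, h.2.le⟩
      rw [this]; ring
  rw [e1]
  refine le_of_le_of_eq key ?_
  refine intervalIntegral.integral_congr fun x hx => ?_
  rw [uIcc_of_le hab1] at hx
  have h5 := hH a1 ⟨ha1, lt_of_le_of_lt hab1 hb1⟩ x ⟨lt_of_lt_of_le ha1 hx.1,
    lt_of_le_of_lt hx.2 hb1⟩ hx.1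
  have h6 : Ψ (a1, y) - (∫ s in a1..x, X2 (s, y)) - (ρ (Ico a1 x)).toReal = Ψ (x, y) := by
    rw [hρI x]; linarith
  show deriv φ x * T _ - φ x * (deriv T _ * X2 (x, y)) = _
  rw [hgx, h6]

/-- integrability of the integrand of the flux -/
theorem integrableOn_fluxT [IsFiniteMeasure μ] (L : LinesI a b c B 1 X1 X2 μ ψ Ψ)
    (hχ : ContDiff ℝ 1 χ) (hχc : HasCompactSupport χ)
    (hT : ContDiff ℝ 1 T) (hT0 : ∀ t, 0 ≤ deriv T t) (hT1 : ∀ t, deriv T t ≤ 1) :
    IntegrableOn (fun p => gx χ p * T (Ψ p) - χ p * (deriv T (Ψ p) * X2 p))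
      (Ioo a b ×ˢ Ioo c B) := by
  have hR : MeasurableSet (Ioo a b ×ˢ Ioo c B) := measurableSet_Ioo.prod measurableSet_Ioo
  have hψ := L.intψ (by simp)
  have hfinR : IsFiniteMeasure ((volume : Measure (ℝ × ℝ)).restrict (Ioo a b ×ˢ Ioo c B)) :=
    ⟨by rw [Measure.restrict_apply_univ]; exact lt_top_iff_ne_top.mpr (Psi8_425.volume_rect a b c B)⟩
  have hΨ : IntegrableOn Ψ (Ioo a b ×ˢ Ioo c B) := by
    refine hψ.congr ?_
    rw [EventuallyEq, ae_restrict_iff' hR]
    filter_upwards [L.E] with p hp hpR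
    exact (hp hpR.1 hpR.2.1).symm
  have hlip := lip_of_deriv hT hT0 hT1
  have hdT : Continuous (deriv T) := hT.continuous_deriv le_rfl
  have hTΨ : IntegrableOn (fun p => T (Ψ p)) (Ioo a b ×ˢ Ioo c B) := by
    refine Integrable.mono' (g := fun p => |T 0| + |Ψ p|) ((integrable_const _).add hΨ.abs)
      (hT.continuous.comp_aestronglyMeasurable hΨ.1) (Eventually.of_forall fun p => ?_)
    have h1 := hlip.dist_le_mul (Ψ p) 0
    rw [Real.dist_eq, Real.dist_eq, NNReal.coe_one, one_mul, sub_zero] at h1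
    have h2 := abs_sub_abs_le_abs_sub (T (Ψ p)) (T 0)
    rw [Real.norm_eq_abs]
    linarith
  obtain ⟨C1, hC1⟩ := hχ.continuous.bounded_above_of_compact_support hχc
  obtain ⟨C2, hC2⟩ := bdd_gx hχ hχc
  refine Integrable.sub ?_ ?_
  · exact hTΨ.bdd_mul (c := C2) (Hq_363.continuous_gx hχ).aestronglyMeasurable
      (Eventually.of_forall hC2)
  · refine Integrable.bdd_mul (c := C1) ?_ hχ.continuous.aestronglyMeasurable
      (Eventually.of_forall hC1)
    refine L.L2.integrableOn.bdd_mul (c := 1) (hdT.comp_aestronglyMeasurable hΨ.1)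
      (Eventually.of_forall fun p => ?_)
    rw [Real.norm_eq_abs, abs_of_nonneg (hT0 _)]; exact hT1 _

/-- **the total flux of one half** (squares filled) -/
theorem flux_total_ge [IsFiniteMeasure μ] (L : LinesI a b c B 1 X1 X2 μ ψ Ψ) (hab : a < b)
    (hχ : ContDiff ℝ 1 χ) (hχc : HasCompactSupport χ) (hχs : tsupport χ ⊆ Ioo a b ×ˢ univ)
    (χ0 : ∀ p, 0 ≤ χ p)
    (hT : ContDiff ℝ 1 T) (hT0 : ∀ t, 0 ≤ deriv T t) (hT1 : ∀ t, deriv T t ≤ 1) :
    0 ≤ ∫ p in Ioo a b ×ˢ Ioo c B, (gx χ p * T (Ψ p) - χ p * (deriv T (Ψ p) * X2 p)) := by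
  rw [integral_rect_y (integrableOn_fluxT L hχ hχc hT hT0 hT1)]
  refine setIntegral_nonneg_of_ae_restrict ?_
  rw [EventuallyLE, ae_restrict_iff' measurableSet_Ioo]
  filter_upwards [L.H, ae_int_y L.L2] with y hH hI hy
  have e0 : ∀ x, x ∉ Ioo a b →
      gx χ (x, y) * T (Ψ (x, y)) - χ (x, y) * (deriv T (Ψ (x, y)) * X2 (x, y)) = 0 := by
    intro x hx
    have h3 : (x, y) ∉ tsupport χ := fun h => hx (hχs h).1
    have h4 : χ (x, y) = 0 := image_eq_zero_of_notMem_tsupport h3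
    rw [h4, gx_zero_of_notMem h3]; ring
  show 0 ≤ ∫ x in Ioo a b, (gx χ (x, y) * T (Ψ (x, y)) -
    χ (x, y) * (deriv T (Ψ (x, y)) * X2 (x, y)))
  rw [setIntegral_eq_integral_of_forall_compl_eq_zero e0]
  refine flux_level_ge (μ := μ) hab hχ hχc hχs χ0 (fun x x' => hI.intervalIntegrable) ?_ hT hT0 hT1
  intro x hx x' hx' hxx
  rw [hH hy.1 x hx x' hx' hxx]; ring

/-- **the flux of one half, outside the squares.** -/
theorem flux_half_ge [Countable ι] [IsFiniteMeasure μ] (L : LinesI a b c B 1 X1 X2 μ ψ Ψ)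
    (hab : a < b) (hS : MeasurableSet S) (hX : ∀ᵐ p : ℝ × ℝ, p ∈ S → X2 p = 0)
    (dis : Pairwise (fun i j => Disjoint (Q.op i) (Q.op j)))
    (box : ∀ i, Q.op i ⊆ Ioo a b ×ˢ Ioo c B)
    (la : ∀ i, ∫ p in Q.op i, |X2 p| ≤ 4 * (Q.h2 i * f i))
    (sf : Summable fun i => Q.h2 i * f i)
    (hχ : ContDiff ℝ 1 χ) (hχc : HasCompactSupport χ) (hχs : tsupport χ ⊆ Ioo a b ×ˢ univ)
    (χ0 : ∀ p, 0 ≤ χ p) (χ1 : ∀ p, χ p ≤ 1) (gχ : ∀ p ∈ Q.un ∪ S, gx χ p = 0)
    (hT : ContDiff ℝ 1 T) (hT0 : ∀ t, 0 ≤ deriv T t) (hT1 : ∀ t, deriv T t ≤ 1) :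
    -(∑' i, (On Q χ).indicator (fun i => 4 * (Q.h2 i * f i)) i) ≤
      ∫ p in (Ioo a b ×ˢ Ioo c B) \ (Q.un ∪ S),
        (gx χ p * T (Ψ p) - χ p * (deriv T (Ψ p) * X2 p)) := by
  have hR : MeasurableSet (Ioo a b ×ˢ Ioo c B) := measurableSet_Ioo.prod measurableSet_Ioo
  have hU : MeasurableSet Q.un := Q.measurableSet_un
  have hF := integrableOn_fluxT L hχ hχc hT hT0 hT1
  have hdT : Continuous (deriv T) := hT.continuous_deriv le_rfl
  set F : ℝ × ℝ → ℝ := fun p => gx χ p * T (Ψ p) - χ p * (deriv T (Ψ p) * X2 p) with hFd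
  set R := Ioo a b ×ˢ Ioo c B with hRd
  have hUR : Q.un ⊆ R := iUnion_subset box
  -- split
  have e1 : ∫ p in R, F p = (∫ p in R \ (Q.un ∪ S), F p) + ∫ p in R ∩ (Q.un ∪ S), F p := by
    rw [← integral_inter_add_sdiff (hU.union hS) hF]; ring
  have e2 : ∫ p in R ∩ (Q.un ∪ S), F p = ∫ p in Q.un, F p := by
    have h3 : R ∩ (Q.un ∪ S) = Q.un ∪ (R ∩ (S \ Q.un)) := by
      ext p
      simp only [mem_inter_iff, mem_union, Set.mem_sdiff]
      constructor
      · rintro ⟨h, h' | h'⟩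
        · exact Or.inl h'
        · by_cases h'' : p ∈ Q.un
          · exact Or.inl h''
          · exact Or.inr ⟨h, h', h''⟩
      · rintro (h | ⟨h, h', -⟩)
        · exact ⟨hUR h, Or.inl h⟩
        · exact ⟨h, Or.inr h'⟩
    have hm : MeasurableSet (R ∩ (S \ Q.un)) := hR.inter (hS.diff hU)
    rw [h3, setIntegral_union (by
      rw [Set.disjoint_left]; rintro p hp ⟨-, -, hp'⟩; exact hp' hp) hm
      (hF.mono_set hUR) (hF.mono_set inter_subset_left)]
    have h4 : ∫ p in R ∩ (S \ Q.un), F p = 0 := by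
      rw [← integral_zero (ℝ × ℝ) ℝ (μ := volume.restrict (R ∩ (S \ Q.un)))]
      refine setIntegral_congr_ae hm ?_
      filter_upwards [hX] with p hp hpm
      show gx χ p * T (Ψ p) - χ p * (deriv T (Ψ p) * X2 p) = 0
      rw [gχ p (Or.inr hpm.2.1), hp hpm.2.1]; ring
    rw [h4, add_zero]
  have iF : IntegrableOn F Q.un := hF.mono_set hUR
  have e4 : HasSum (fun i => ∫ p in Q.op i, F p) (∫ p in Q.un, F p) :=
    hasSum_integral_iUnion (fun i => Q.measurableSet_op i) dis iF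
  have hsum : Summable ((On Q χ).indicator (fun i => 4 * (Q.h2 i * f i))) :=
    (sf.mul_left 4).indicator _
  have hb : ∀ i, (∫ p in Q.op i, F p) ≤ (On Q χ).indicator (fun i => 4 * (Q.h2 i * f i)) i := by
    intro i
    have h5 : ∫ p in Q.op i, F p = ∫ p in Q.op i, -(χ p * (deriv T (Ψ p) * X2 p)) := by
      refine setIntegral_congr_fun (Q.measurableSet_op i) fun p hp => ?_
      show gx χ p * T (Ψ p) - χ p * (deriv T (Ψ p) * X2 p) = _
      rw [gχ p (Or.inl (mem_iUnion.2 ⟨i, hp⟩))]; ring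
    rw [h5]
    by_cases hi : i ∈ On Q χ
    · rw [indicator_of_mem hi]
      refine (le_abs_self _).trans ?_
      refine (abs_integral_le_integral_abs).trans ((integral_mono_of_nonneg
        (Eventually.of_forall fun p => abs_nonneg _) L.L2.abs.integrableOn
        (Eventually.of_forall fun p => ?_)).trans (la i))
      show |-(χ p * (deriv T (Ψ p) * X2 p))| ≤ |X2 p|
      rw [abs_neg, abs_mul, abs_mul, abs_of_nonneg (χ0 p), abs_of_nonneg (hT0 _)]
      calc χ p * (deriv T (Ψ p) * |X2 p|) ≤ 1 * (1 * |X2 p|) :=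
            mul_le_mul (χ1 p) (mul_le_mul_of_nonneg_right (hT1 _) (abs_nonneg _))
              (mul_nonneg (hT0 _) (abs_nonneg _)) zero_le_one
        _ = |X2 p| := by ring
    · rw [indicator_of_notMem hi]
      refine le_of_eq ?_
      rw [← integral_zero (ℝ × ℝ) ℝ (μ := volume.restrict (Q.op i))]
      refine setIntegral_congr_fun (Q.measurableSet_op i) fun p hp => ?_
      have : χ p = 0 := by
        by_contra hcon
        exact hi ⟨p, hp, hcon⟩
      show -(χ p * (deriv T (Ψ p) * X2 p)) = 0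
      rw [this]; ring
  have e5 : ∫ p in Q.un, F p ≤
      ∑' i, (On Q χ).indicator (fun i => 4 * (Q.h2 i * f i)) i :=
    hasSum_le hb e4 hsum.hasSum
  have key := flux_total_ge L hab hχ hχc hχs χ0 hT hT0 hT1
  have e6 : 0 ≤ ∫ p in R, F p := key
  linarith

end Crest.Agent.R105.Psq_425
end

-- ▼ part R105/Psq3_425
section

/-!
# Row 105 (S0138), helper425: the flux of the clamped glued function (clamped version of
`Hq_363.TwoQ.flux`, after helper363)
-/

set_option autoImplicit false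

open MeasureTheory Set Filter Topology
open scoped NNReal ENNReal ContDiff

namespace Crest.Agent.R105.Psq_425

open Psi5_425 Psi7_425 CF_363 Sq_87 Mp_87 Hq_363

section Half

variable {ι : Type} {Q : Rects ι} {S : Set (ℝ × ℝ)}
variable {a b c B M m : ℝ} {X1 X2 ψ Ψ χ : ℝ × ℝ → ℝ} {μ : Measure (ℝ × ℝ)} {f : ι → ℝ}
variable {T : ℝ → ℝ}

/-- **one half with its part of the strip** -/
theorem HalfD.fluxT [Countable ι] [IsFiniteMeasure μ] (H : HalfD Q S a b c B X1 X2 ψ Ψ μ f)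
    (la : ∀ i, ∫ p in Q.op i, |X2 p| ≤ 4 * (Q.h2 i * f i))
    {M₀ : ℝ} (hT : Clamp m M₀ T) (hm : (μ univ).toReal ≤ m)
    (hab : a < b) (hcB : c < B) (hBM : B ≤ M) {Z : Set (ℝ × ℝ)} (hZ : MeasurableSet Z)
    (hZl : ∀ᵐ p : ℝ × ℝ, p ∈ Ioo a b ×ˢ Ioo c B → (p ∈ Z ↔ p ∈ Q.un ∪ S))
    (C : CutD Q S Z a b c M μ χ) :
    IntegrableOn (fun p => gx χ p * T (ψ p) - χ p * (deriv T (ψ p) * X2 p)) (Ioo a b ×ˢ Ioo c M) ∧
    (M - B) * (μ univ).toReal - ∑' i, (On Q χ).indicator (fun i => 4 * (Q.h2 i * f i)) i ≤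
      ∫ p in (Ioo a b ×ˢ Ioo c M) \ Z, (gx χ p * T (ψ p) - χ p * (deriv T (ψ p) * X2 p)) := by
  have L := H.L
  have hT1 : ContDiff ℝ 1 T := hT.sm.of_le (by norm_num)
  have hTl : ∀ x, T (-lam μ x) = -lam μ x := fun x => by
    have h1 := abs_lam_le μ x
    have h2 : 0 ≤ lam μ x := by unfold Mp_87.lam; exact ENNReal.toReal_nonneg
    rw [abs_of_nonneg h2] at h1
    exact hT.id _ (by linarith) (by linarith)
  obtain ⟨C2, hC2⟩ := bdd_gx C.sm C.cs
  have hR1 : MeasurableSet (Ioo a b ×ˢ Ioo c B) := measurableSet_Ioo.prod measurableSet_Ioo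
  have hR2 : MeasurableSet (Ioo a b ×ˢ Ico B M) := measurableSet_Ioo.prod measurableSet_Ico
  have hRR : Ioo a b ×ˢ Ioo c M = (Ioo a b ×ˢ Ioo c B) ∪ (Ioo a b ×ˢ Ico B M) := by
    rw [← prod_union]
    congr 1
    ext y
    simp only [mem_union, mem_Ioo, mem_Ico]
    constructor
    · rintro ⟨h1, h2⟩
      rcases lt_or_ge y B with h | h
      · exact Or.inl ⟨h1, h⟩
      · exact Or.inr ⟨h, h2⟩
    · rintro (⟨h1, h2⟩ | ⟨h1, h2⟩)
      · exact ⟨h1, by linarith⟩
      · exact ⟨by linarith, h2⟩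
  have hdis : Disjoint (Ioo a b ×ˢ Ioo c B) (Ioo a b ×ˢ Ico B M) := by
    rw [Set.disjoint_left]
    rintro p ⟨-, -, h⟩ ⟨-, h', -⟩
    exact absurd h' (not_le.2 h)
  set F : ℝ × ℝ → ℝ := fun p => gx χ p * T (ψ p) - χ p * (deriv T (ψ p) * X2 p) with hF
  have hae : ∀ᵐ p : ℝ × ℝ, p ∈ Ioo a b ×ˢ Ioo c B → gx χ p * T (Ψ p) - χ p * (deriv T (Ψ p) * X2 p) = F p := by
    filter_upwards [L.E] with p hp hpR
    rw [hp hpR.1 hpR.2.1]
  have i1 : IntegrableOn F (Ioo a b ×ˢ Ioo c B) := by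
    refine (integrableOn_fluxT L C.sm C.cs hT1 hT.nn hT.le).congr ?_
    rw [EventuallyEq, ae_restrict_iff' hR1]
    exact hae
  -- the strip
  have hFs : ∀ p ∈ Ioo a b ×ˢ Ico B M, F p = gx χ p * (-lam μ p.1) := by
    intro p hp
    show gx χ p * T (ψ p) - χ p * (deriv T (ψ p) * X2 p) = _
    rw [L.strip p hp.2.1, H.XB p hp.2.1]
    have e : (-1 : ℝ) * lam μ p.1 = -lam μ p.1 := by ring
    rw [e, hTl]; ring
  have hsm : Measurable fun p : ℝ × ℝ => -lam μ p.1 := (measurable_lam.comp measurable_fst).neg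
  have hfin : volume (Ioo a b ×ˢ Ico B M : Set (ℝ × ℝ)) ≠ ⊤ := by
    rw [Measure.volume_eq_prod, Measure.prod_prod]
    simp [Real.volume_Ioo, Real.volume_Ico, ENNReal.mul_eq_top]
  have i2' : IntegrableOn (fun p : ℝ × ℝ => gx χ p * (-lam μ p.1)) (Ioo a b ×ˢ Ico B M) := by
    have h1 : IntegrableOn (fun p : ℝ × ℝ => -lam μ p.1) (Ioo a b ×ˢ Ico B M) := by
      refine Measure.integrableOn_of_bounded (M := (μ univ).toReal) hfin
        hsm.aestronglyMeasurable (Eventually.of_forall fun p => ?_)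
      rw [norm_neg, Real.norm_eq_abs]
      exact abs_lam_le μ _
    exact h1.bdd_mul (c := C2) (Hq_363.continuous_gx C.sm).aestronglyMeasurable
      (Eventually.of_forall hC2)
  have i2 : IntegrableOn F (Ioo a b ×ˢ Ico B M) := by
    refine i2'.congr ?_
    rw [EventuallyEq, ae_restrict_iff' hR2]
    exact Eventually.of_forall fun p hp => (hFs p hp).symm
  have i12 : IntegrableOn F (Ioo a b ×ˢ Ioo c M) := by
    rw [hRR]; exact i1.union i2
  refine ⟨i12, ?_⟩
  have es : (Ioo a b ×ˢ Ioo c M) \ Z = ((Ioo a b ×ˢ Ioo c B) \ Z) ∪ ((Ioo a b ×ˢ Ico B M) \ Z) := by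
    rw [hRR, union_sdiff_distrib]
  rw [es, setIntegral_union (hdis.mono sdiff_subset sdiff_subset) (hR2.diff hZ)
    (i1.mono_set sdiff_subset) (i2.mono_set sdiff_subset)]
  -- lower part
  have k1 := flux_half_ge (χ := χ) L hab H.mS H.XS H.dis H.box la H.sf C.sm C.cs C.ts C.nn C.le
    (fun p hp => C.gx p (Or.inl hp)) hT1 hT.nn hT.le
  have k2 : ∫ p in (Ioo a b ×ˢ Ioo c B) \ (Q.un ∪ S),
      (gx χ p * T (Ψ p) - χ p * (deriv T (Ψ p) * X2 p)) =
      ∫ p in (Ioo a b ×ˢ Ioo c B) \ Z, F p := by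
    have h1 : ((Ioo a b ×ˢ Ioo c B) \ (Q.un ∪ S) : Set (ℝ × ℝ)) =ᵐ[volume]
        ((Ioo a b ×ˢ Ioo c B) \ Z : Set (ℝ × ℝ)) := by
      rw [eventuallyEq_set]
      filter_upwards [hZl] with p hp
      simp only [Set.mem_sdiff]
      constructor
      · rintro ⟨h1, h2⟩
        exact ⟨h1, fun h => h2 ((hp h1).1 h)⟩
      · rintro ⟨h1, h2⟩
        exact ⟨h1, fun h => h2 ((hp h1).2 h)⟩
    rw [setIntegral_congr_set h1]
    refine setIntegral_congr_ae (hR1.diff hZ) ?_
    filter_upwards [hae] with p hp hpm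
    exact hp hpm.1
  rw [k2] at k1
  -- strip part
  have k4 : ∫ p in (Ioo a b ×ˢ Ico B M) \ Z, F p = (M - B) * (μ univ).toReal := by
    have h1 : ∫ p in (Ioo a b ×ˢ Ico B M) \ Z, F p =
        ∫ p in Ioo a b ×ˢ Ico B M, gx χ p * (-lam μ p.1) := by
      have h2 : ∫ p in (Ioo a b ×ˢ Ico B M) ∩ Z, F p = 0 := by
        rw [← integral_zero (ℝ × ℝ) ℝ (μ := volume.restrict ((Ioo a b ×ˢ Ico B M) ∩ Z))]
        refine setIntegral_congr_fun (hR2.inter hZ) fun p hp => ?_
        show F p = 0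
        rw [hFs p hp.1, C.gx p (Or.inr hp.2)]; ring
      have h3 := integral_inter_add_sdiff (μ := (volume : Measure (ℝ × ℝ))) hZ i2
      rw [h2, zero_add] at h3
      rw [h3]
      exact setIntegral_congr_fun hR2 hFs
    rw [h1]
    have h4 : IntegrableOn (fun p : ℝ × ℝ => gx χ p * (-lam μ p.1)) (Ioo a b ×ˢ Ioo B M) :=
      i2'.mono_set (prod_mono_right Ioo_subset_Ico_self)
    have h5 : (Ioo a b ×ˢ Ico B M : Set (ℝ × ℝ)) =ᵐ[volume] (Ioo a b ×ˢ Ioo B M : Set (ℝ × ℝ)) := by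
      rw [Measure.volume_eq_prod]
      exact Measure.set_prod_ae_eq (ae_eq_refl _) Ioo_ae_eq_Ico.symm
    rw [setIntegral_congr_set h5, integral_rect_y h4]
    have h6 : ∀ y ∈ Ioo B M, ∫ x in Ioo a b, gx χ (x, y) * (-lam μ x) = (μ univ).toReal := by
      intro y hy
      have e0 : ∀ x, x ∉ Ioo a b → gx χ (x, y) * (-lam μ x) = 0 := by
        intro x hx
        rw [gx_zero_of_notMem fun h => hx (C.ts h).1]; ring
      rw [setIntegral_eq_integral_of_forall_compl_eq_zero e0]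
      refine flux_strip hab C.sm C.cs C.ts ?_
      filter_upwards [C.one y (hcB.trans hy.1) hy.2, H.car] with q h7 h8
      exact h7 (lt_of_le_of_lt h8 hy.1)
    rw [setIntegral_congr_fun measurableSet_Ioo h6, setIntegral_const, smul_eq_mul,
      Measure.real, Real.volume_Ioo, ENNReal.toReal_ofReal (by linarith)]
  rw [k4]
  linarith

end Half

section Two

variable {ι ι' : Type} {Q : Rects ι} {Q' : Rects ι'} {S S' Z : Set (ℝ × ℝ)}
variable {a b c d Bm Bp M m : ℝ} {X1 X2 Y1 Y2 ψ Ψ ψ' Ψ' χ F : ℝ × ℝ → ℝ}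
  {μ ν : Measure (ℝ × ℝ)} {f : ι → ℝ} {f' : ι' → ℝ} {T : ℝ → ℝ}

/-- **the flux of the glued function times the cut-off** -/
theorem TwoQ.fluxT [Countable ι] [Countable ι'] [IsFiniteMeasure μ] [IsFiniteMeasure ν]
    (H : TwoQ Q Q' S S' Z a b c d Bm Bp M X1 X2 ψ Ψ Y1 Y2 ψ' Ψ' μ ν f f' F)
    (la : ∀ i, ∫ p in Q.op i, |X2 p| ≤ 4 * (Q.h2 i * f i))
    (la' : ∀ i, ∫ p in Q'.op i, |Y2 p| ≤ 4 * (Q'.h2 i * f' i))
    (C : CutT Q Q' S S' Z a b c d M μ ν χ) {M₀ : ℝ} (hT : Clamp m M₀ T)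
    (hm : (μ univ).toReal ≤ m) :
    IntegrableOn (fun p => gx χ p * T (F p) + χ p * (deriv T (F p) * W1 X2 Y2 p))
      ((Ioo a b ×ˢ Ioo c d) \ Z) ∧
    (Bp - Bm) * (μ univ).toReal - ∑' i, (On Q χ).indicator (fun i => 4 * (Q.h2 i * f i)) i
      - ∑' i, (On Q' (fun p => χ (rf p))).indicator (fun i => 4 * (Q'.h2 i * f' i)) i ≤
      ∫ p in (Ioo a b ×ˢ Ioo c d) \ Z,
        (gx χ p * T (F p) + χ p * (deriv T (F p) * W1 X2 Y2 p)) := by
  have hcB := H.cB
  have hBM := H.BM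
  have hMB := H.MB
  have hBd := H.Bd
  have hdiff : Differentiable ℝ χ := C.sm.differentiable (by norm_num)
  have hgrf : ∀ p, gx (fun q => χ (rf q)) p = gx χ (rf p) := gx_rf hdiff
  have hrfm : Measurable rf := continuous_rf.measurable
  have hZ' : MeasurableSet (rf ⁻¹' Z) := hrfm H.mZ
  -- lower half
  have Cl : CutD Q S Z a b c M μ χ :=
    ⟨C.sm, C.cs, C.ts, C.nn, C.le, C.gx, C.ct, C.one⟩
  obtain ⟨i1, k1⟩ := HalfD.fluxT H.lo la hT hm H.ab hcB hBM H.mZ H.Zl Cl
  -- upper half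
  have hts := tsupport_rf' C.cs
  have Cu : CutD Q' S' (rf ⁻¹' Z) a b (-d) (-M) ν (fun p => χ (rf p)) := by
    refine ⟨C.sm.comp (by unfold rf; fun_prop), hts.1, ?_, fun p => C.nn _, fun p => C.le _, ?_,
      C.ct', ?_⟩
    · intro p hp
      have := C.ts (hts.2 hp)
      exact ⟨this.1, mem_univ _⟩
    · intro p hp
      rw [hgrf]
      rcases hp with hp | hp
      · exact C.gx' p hp
      · exact C.gx (rf p) (Or.inr hp)
    · intro y hy hyM
      filter_upwards [C.one' (-y) (by linarith) (by linarith)] with q hq h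
      exact hq (by rw [neg_neg]; exact h)
  obtain ⟨i2, k2⟩ := HalfD.fluxT (M := -M) (Z := rf ⁻¹' Z) H.up la' hT (by rw [H.mass]; exact hm)
    H.ab (by linarith) (by linarith) hZ' H.Zu Cu
  rw [H.mass] at k2
  set G : ℝ × ℝ → ℝ := fun p => gx χ p * T (F p) + χ p * (deriv T (F p) * W1 X2 Y2 p) with hG
  have hR1 : MeasurableSet (Ioo a b ×ˢ Ioo c M) := measurableSet_Ioo.prod measurableSet_Ioo
  have hR2 : MeasurableSet (Ioo a b ×ˢ Ioo (-d) (-M)) := measurableSet_Ioo.prod measurableSet_Ioo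
  have hR3 : MeasurableSet (Ioo a b ×ˢ Ioo M d) := measurableSet_Ioo.prod measurableSet_Ioo
  -- the lower integrand
  have e1 : ∀ᵐ p : ℝ × ℝ, p ∈ (Ioo a b ×ˢ Ioo c M) \ Z → gx χ p * T (ψ p) - χ p * (deriv T (ψ p) * X2 p) = G p := by
    filter_upwards [H.Fl] with p hp hpm
    show _ = gx χ p * T (F p) + χ p * (deriv T (F p) * (-X2 p - Y2 (rf p)))
    rw [hp hpm.1 hpm.2, H.up.XB (rf p) (by show -Bp ≤ -p.2; linarith [hpm.1.2.2])]; ring
  have j1 : IntegrableOn G ((Ioo a b ×ˢ Ioo c M) \ Z) := by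
    refine (i1.mono_set sdiff_subset).congr ?_
    rw [EventuallyEq, ae_restrict_iff' (hR1.diff H.mZ)]
    exact e1
  have l1 : ∫ p in (Ioo a b ×ˢ Ioo c M) \ Z, (gx χ p * T (ψ p) - χ p * (deriv T (ψ p) * X2 p)) =
      ∫ p in (Ioo a b ×ˢ Ioo c M) \ Z, G p := setIntegral_congr_ae (hR1.diff H.mZ) e1
  -- the upper integrand
  have hmp := measurePreserving_rf
  have e2' : ∀ᵐ p : ℝ × ℝ, rf p ∈ Ioo a b ×ˢ Ioo M d → rf p ∉ Z → F (rf p) = ψ' (rf (rf p)) :=
    hmp.quasiMeasurePreserving.ae H.Fu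
  have e2 : ∀ᵐ p : ℝ × ℝ, p ∈ (Ioo a b ×ˢ Ioo (-d) (-M)) \ (rf ⁻¹' Z) →
      gx (fun q => χ (rf q)) p * T (ψ' p) - χ (rf p) * (deriv T (ψ' p) * Y2 p) = G (rf p) := by
    filter_upwards [e2'] with p hp hpm
    have h1 : rf p ∈ Ioo a b ×ˢ Ioo M d :=
      ⟨hpm.1.1, by show M < -p.2; linarith [hpm.1.2.2], by show -p.2 < d; linarith [hpm.1.2.1]⟩
    show _ = gx χ (rf p) * T (F (rf p)) + χ (rf p) * (deriv T (F (rf p)) * (-X2 (rf p) - Y2 (rf (rf p))))
    rw [hp h1 hpm.2, rf_rf, hgrf, H.lo.XB (rf p) (by show Bm ≤ -p.2; linarith [hpm.1.2.2])]; ring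
  have hset : rf ⁻¹' ((Ioo a b ×ˢ Ioo M d) \ Z) = (Ioo a b ×ˢ Ioo (-d) (-M)) \ (rf ⁻¹' Z) := by
    ext p
    simp only [mem_preimage, Set.mem_sdiff, rf, mem_prod, mem_Ioo]
    constructor
    · rintro ⟨⟨h1, h2, h3⟩, h4⟩
      exact ⟨⟨h1, by linarith, by linarith⟩, h4⟩
    · rintro ⟨⟨h1, h2, h3⟩, h4⟩
      exact ⟨⟨h1, by linarith, by linarith⟩, h4⟩
  have hemb : MeasurableEmbedding rf := measurableEmbedding_rf
  have l2 : ∫ p in (Ioo a b ×ˢ Ioo (-d) (-M)) \ (rf ⁻¹' Z),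
      (gx (fun q => χ (rf q)) p * T (ψ' p) - χ (rf p) * (deriv T (ψ' p) * Y2 p)) =
      ∫ p in (Ioo a b ×ˢ Ioo M d) \ Z, G p := by
    rw [setIntegral_congr_ae (hR2.diff hZ') e2, ← hset]
    exact hmp.setIntegral_preimage_emb hemb G _
  have j2 : IntegrableOn G ((Ioo a b ×ˢ Ioo M d) \ Z) := by
    refine (hmp.integrableOn_comp_preimage (f := G) (s := (Ioo a b ×ˢ Ioo M d) \ Z) hemb).1 ?_
    rw [hset]
    refine (i2.mono_set sdiff_subset).congr ?_
    rw [EventuallyEq, ae_restrict_iff' (hR2.diff hZ')]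
    exact e2
  -- join
  have hE : ((Ioo a b ×ˢ Ioo c d) \ Z : Set (ℝ × ℝ)) =ᵐ[volume]
      (((Ioo a b ×ˢ Ioo c M) \ Z) ∪ ((Ioo a b ×ˢ Ioo M d) \ Z) : Set (ℝ × ℝ)) := by
    rw [eventuallyEq_set]
    have h0 : ∀ᵐ p : ℝ × ℝ, p.2 ≠ M := by
      have h00 : ∀ᵐ t : ℝ, t ≠ M := by rw [ae_iff]; simp
      exact ae_snd' h00
    filter_upwards [h0] with p hp
    simp only [mem_union, Set.mem_sdiff, mem_prod, mem_Ioo]
    constructor
    · rintro ⟨⟨h1, h2, h3⟩, h4⟩
      rcases lt_or_gt_of_ne hp with h | h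
      · exact Or.inl ⟨⟨h1, h2, h⟩, h4⟩
      · exact Or.inr ⟨⟨h1, h, h3⟩, h4⟩
    · rintro (⟨⟨h1, h2, h3⟩, h4⟩ | ⟨⟨h1, h2, h3⟩, h4⟩)
      · exact ⟨⟨h1, h2, by linarith⟩, h4⟩
      · exact ⟨⟨h1, by linarith, h3⟩, h4⟩
  have hdis : Disjoint ((Ioo a b ×ˢ Ioo c M) \ Z) ((Ioo a b ×ˢ Ioo M d) \ Z) := by
    rw [Set.disjoint_left]
    rintro p ⟨⟨-, -, h⟩, -⟩ ⟨⟨-, h', -⟩, -⟩
    exact lt_asymm h h'
  refine ⟨?_, ?_⟩
  · exact (j1.union j2).congr_set_ae hE
  · rw [setIntegral_congr_set hE, setIntegral_union hdis (hR3.diff H.mZ) j1 j2, ← l1, ← l2]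
    have h1 : (Bp - Bm) * (μ univ).toReal = (M - Bm) * (μ univ).toReal +
        (-M - -Bp) * (μ univ).toReal := by ring
    linarith

end Two

end Crest.Agent.R105.Psq_425
end

-- ▼ part R105/Psq4_425

/-!
# Row 105 (S0138), helper425: `T ∘ F` and its limits at the components
-/

set_option autoImplicit false

open MeasureTheory Set Filter Topology
open scoped NNReal ENNReal ContDiff

namespace Crest.Agent.R105.Psq_425

open Psi5_425 Psi6_425 Psi7_425 CF_363 Psq_463
open Crest.Agent.R105.Stp_722 Crest.Agent.R105.Cq_463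
open Crest.Agent.R105.Skp2_257 (Comps Reg Lo Up)

local notation "AC" => AbsolutelyContinuousOnInterval

variable {V E P : Set (ℝ × ℝ)} {F U1 U2 χ w φ : ℝ × ℝ → ℝ} {T : ℝ → ℝ} {m M k c : ℝ}

theorem Clamp.c1 (hT : Clamp m M T) : ContDiff ℝ 1 T := hT.sm.of_le (by norm_num)

theorem Clamp.lip (hT : Clamp m M T) : LipschitzWith 1 T := lip_of_deriv hT.c1 hT.nn hT.le

theorem Clamp.zero (hT : Clamp m M T) (hm : 0 ≤ m) : T 0 = 0 := hT.id 0 (by linarith) le_rfl

theorem Clamp.abs_le (hT : Clamp m M T) (hm : 0 ≤ m) (t : ℝ) : |T t| ≤ |t| := by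
  have h := hT.lip.dist_le_mul t 0
  rwa [Real.dist_eq, Real.dist_eq, hT.zero hm, NNReal.coe_one, one_mul, sub_zero, sub_zero] at h

theorem Clamp.bdd (hT : Clamp m M T) (hm : 0 ≤ m) (t : ℝ) : |T t| ≤ m + M := by
  rw [_root_.abs_le]
  exact ⟨by linarith [hT.lo t], by linarith [hT.up t]⟩

theorem Clamp.diff_le (hT : Clamp m M T) (s t : ℝ) : |T s - T t| ≤ m + 2 * M := by
  rw [_root_.abs_le]
  exact ⟨by linarith [hT.lo s, hT.up t], by linarith [hT.lo t, hT.up s]⟩

theorem Clamp.sub_le (hT : Clamp m M T) (s t : ℝ) : |T s - T t| ≤ |s - t| := by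
  have h := hT.lip.dist_le_mul s t
  rwa [Real.dist_eq, Real.dist_eq, NNReal.coe_one, one_mul] at h

/-- there are clamps -/
theorem exists_clamp {m M : ℝ} (hm : 0 ≤ m) (hM : 0 < M) : ∃ T, Clamp m M T := by
  -- a smooth bump function `θ`, `θ = 1` on `[-m, 0]`, `θ = 0` off `[-m-M, M]`
  have hr : 0 < m / 2 + M / 3 := by positivity
  let B : ContDiffBump (-m / 2 : ℝ) := ⟨m / 2 + M / 3, m / 2 + M / 2, hr, by linarith⟩
  set θ : ℝ → ℝ := fun t => B t with hθ
  have hθs : ContDiff ℝ ∞ θ := B.contDiff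
  have hθ0 : ∀ t, 0 ≤ θ t := fun t => B.nonneg
  have hθ1 : ∀ t, θ t ≤ 1 := fun t => B.le_one
  have hθone : ∀ t, -m - M / 3 ≤ t → t ≤ M / 3 → θ t = 1 := fun t h1 h2 => by
    refine B.one_of_mem_closedBall ?_
    rw [Metric.mem_closedBall, Real.dist_eq, _root_.abs_le]
    constructor <;> (show _ ≤ _; simp only [B]; linarith)
  have hθz : ∀ t, (t ≤ -m - M / 2 ∨ M / 2 ≤ t) → θ t = 0 := fun t h => by
    refine B.zero_of_le_dist ?_
    rw [Real.dist_eq]
    show m / 2 + M / 2 ≤ _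
    rcases h with h | h
    · rw [abs_of_nonpos (by linarith)]; linarith
    · rw [abs_of_nonneg (by linarith)]; linarith
  have hθc : Continuous θ := hθs.continuous
  have hI : ∀ s t, IntervalIntegrable θ volume s t := fun s t => hθc.intervalIntegrable s t
  set T : ℝ → ℝ := fun t => ∫ s in (0:ℝ)..t, θ s with hTd
  have hder : ∀ t, HasDerivAt T (θ t) t := fun t =>
    intervalIntegral.integral_hasDerivAt_right (hI 0 t)
      (hθc.stronglyMeasurableAtFilter _ _) hθc.continuousAt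
  have hdT : deriv T = θ := funext fun t => (hder t).deriv
  have hsm : ContDiff ℝ ∞ T := by
    rw [contDiff_infty_iff_deriv]
    exact ⟨fun t => (hder t).differentiableAt, by rw [hdT]; exact hθs⟩
  have hid : ∀ t, -m ≤ t → t ≤ 0 → T t = t := by
    intro t h1 h2
    have : ∫ s in (0:ℝ)..t, θ s = ∫ _ in (0:ℝ)..t, (1:ℝ) := by
      refine intervalIntegral.integral_congr fun s hs => ?_
      rw [uIcc_of_ge h2] at hs
      exact hθone s (by linarith [hs.1]) (by linarith [hs.2])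
    show ∫ s in (0:ℝ)..t, θ s = t
    rw [this]; simp
  refine ⟨T, hsm, fun t => by rw [hdT]; exact hθ0 t, fun t => by rw [hdT]; exact hθ1 t, hid,
    fun t h1 h2 => by rw [hdT]; exact hθone t (by linarith) (by linarith), ?_, ?_⟩
  · -- lower bound
    intro t
    have hmono : Monotone T := monotone_of_deriv_nonneg (fun t => (hder t).differentiableAt)
      fun t => by rw [hdT]; exact hθ0 t
    have hlow : ∀ t, t ≤ -m - M / 2 → T t = T (-m - M / 2) := by
      intro t ht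
      have h1 : T (-m - M / 2) - T t = ∫ s in t..(-m - M / 2), θ s :=
        intervalIntegral.integral_interval_sub_left (hI _ _) (hI _ _)
      have h2 : ∫ s in t..(-m - M / 2), θ s = ∫ _ in t..(-m - M / 2), (0:ℝ) := by
        refine intervalIntegral.integral_congr fun s hs => ?_
        rw [uIcc_of_le ht] at hs
        exact hθz s (Or.inl hs.2)
      rw [h2] at h1
      simp at h1
      linarith
    have hb : -m - M ≤ T (-m - M / 2) := by
      have h1 : T (-m) - T (-m - M / 2) = ∫ s in (-m - M / 2)..(-m), θ s :=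
        intervalIntegral.integral_interval_sub_left (hI _ _) (hI _ _)
      have h2 : ∫ s in (-m - M / 2)..(-m), θ s ≤ ∫ _ in (-m - M / 2)..(-m), (1:ℝ) :=
        intervalIntegral.integral_mono_on (by linarith) (hI _ _) intervalIntegrable_const
          fun s _ => hθ1 s
      have h3 : ∫ _ in (-m - M / 2)..(-m), (1:ℝ) = M / 2 := by simp
      have h4 := hid (-m) le_rfl (by linarith)
      linarith
    rcases le_total t (-m - M / 2) with h | h
    · rw [hlow t h]; exact hb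
    · exact hb.trans (hmono h)
  · intro t
    have hmono : Monotone T := monotone_of_deriv_nonneg (fun t => (hder t).differentiableAt)
      fun t => by rw [hdT]; exact hθ0 t
    have hup : ∀ t, M / 2 ≤ t → T t = T (M / 2) := by
      intro t ht
      have h1 : T t - T (M / 2) = ∫ s in (M / 2)..t, θ s :=
        intervalIntegral.integral_interval_sub_left (hI _ _) (hI _ _)
      have h2 : ∫ s in (M / 2)..t, θ s = ∫ _ in (M / 2)..t, (0:ℝ) := by
        refine intervalIntegral.integral_congr fun s hs => ?_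
        rw [uIcc_of_le ht] at hs
        exact hθz s (Or.inr hs.1)
      rw [h2] at h1
      simp at h1
      linarith
    have hb : T (M / 2) ≤ M := by
      have h2 : ∫ s in (0:ℝ)..(M / 2), θ s ≤ ∫ _ in (0:ℝ)..(M / 2), (1:ℝ) :=
        intervalIntegral.integral_mono_on (by linarith) (hI _ _) intervalIntegrable_const
          fun s _ => hθ1 s
      have h3 : ∫ _ in (0:ℝ)..(M / 2), (1:ℝ) = M / 2 := by simp
      show ∫ s in (0:ℝ)..(M / 2), θ s ≤ M
      linarith
    rcases le_total t (M / 2) with h | h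
    · exact (hmono h).trans hb
    · rw [hup t h]; exact hb

/-- composition along the lines of an open set -/
theorem comp_line {O : Set ℝ} (hO : IsOpen O) {f g : ℝ → ℝ} (hg : LocallyIntegrable g volume)
    (hf : ∀ s t, s ≤ t → (∀ r ∈ Icc s t, r ∈ O) → f t - f s = ∫ r in s..t, g r)
    (hT : Clamp m M T) :
    ∀ s t, s ≤ t → (∀ r ∈ Icc s t, r ∈ O) →
      T (f t) - T (f s) = ∫ r in s..t, deriv T (f r) * g r := by
  intro s t hst hr
  have hfac : AC f s t := ac_of_line hst (intervalIntegrable_of_li hg s t)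
    fun x hx => hf s x hx.1 fun r hr' => hr r ⟨hr'.1, hr'.2.trans hx.2⟩
  have hTf : AC (fun r => T (f r)) s t := ac_lip (h := T) (C := 1) hfac zero_le_one
    (fun u v => by rw [one_mul]; exact hT.sub_le u v)
  rw [← hTf.integral_deriv_eq_sub]
  refine intervalIntegral.integral_congr_ae ?_
  filter_upwards [ae_hasDerivAt_of_line hO hg hf] with r h1 hrm
  rw [uIoc_of_le hst] at hrm
  have d1 := h1 (hr r ⟨hrm.1.le, hrm.2⟩)
  have d2 : HasDerivAt T (deriv T (f r)) (f r) :=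
    (hT.c1.differentiable (by norm_num) (f r)).hasDerivAt
  exact (d2.comp r d1).deriv

/-- a function with its derivatives on all lines (`StrV` without the square integrability of the
function) -/
structure LineV (V : Set (ℝ × ℝ)) (f U1 U2 : ℝ × ℝ → ℝ) : Prop where
  cont : ContinuousOn f V
  V1 : MemLp U1 2 (volume.restrict V)
  V2 : MemLp U2 2 (volume.restrict V)
  hor : ∀ᵐ y : ℝ, ∀ x x', x ≤ x' → (∀ s ∈ Icc x x', (s, y) ∈ V) →
    f (x', y) - f (x, y) = ∫ s in x..x', U1 (s, y)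
  ver : ∀ᵐ x : ℝ, ∀ y y', y ≤ y' → (∀ t ∈ Icc y y', (x, t) ∈ V) →
    f (x, y') - f (x, y) = ∫ t in y..y', U2 (x, t)

theorem LineV.ind (hV : IsOpen V) (h : LineV V F U1 U2) :
    LineV V F (V.indicator U1) (V.indicator U2) ∧
      MemLp (V.indicator U1) 2 (volume : Measure (ℝ × ℝ)) ∧
      MemLp (V.indicator U2) 2 (volume : Measure (ℝ × ℝ)) := by
  have e1 : ∀ {U : ℝ × ℝ → ℝ}, MemLp U 2 (volume.restrict V) →
      MemLp (V.indicator U) 2 (volume : Measure (ℝ × ℝ)) := fun hU =>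
    (memLp_indicator_iff_restrict hV.measurableSet).2 hU
  refine ⟨⟨h.cont, (e1 h.V1).restrict V, (e1 h.V2).restrict V, ?_, ?_⟩, e1 h.V1, e1 h.V2⟩
  · filter_upwards [h.hor] with y hy x x' hxx' hs
    rw [hy x x' hxx' hs]
    refine intervalIntegral.integral_congr fun s hs' => ?_
    rw [uIcc_of_le hxx'] at hs'
    exact (indicator_of_mem (hs s hs') _).symm
  · filter_upwards [h.ver] with x hx y y' hyy' hs
    rw [hx y y' hyy' hs]
    refine intervalIntegral.integral_congr fun s hs' => ?_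
    rw [uIcc_of_le hyy'] at hs'
    exact (indicator_of_mem (hs s hs') _).symm

/-- the clamped function -/
theorem LineV.clamp (hV : IsOpen V) (hVv : volume V ≠ ⊤) (h : LineV V F U1 U2)
    (hT : Clamp m M T) (hm : 0 ≤ m) :
    StrV V (fun p => T (F p)) (fun p => deriv T (F p) * U1 p) (fun p => deriv T (F p) * U2 p) := by
  obtain ⟨h', hU1, hU2⟩ := h.ind hV
  have hdT : Continuous (deriv T) := hT.c1.continuous_deriv le_rfl
  have hmeas : AEStronglyMeasurable (fun p => deriv T (F p)) (volume.restrict V) :=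
    (hdT.comp_continuousOn h.cont).aestronglyMeasurable hV.measurableSet
  have hmul : ∀ {U : ℝ × ℝ → ℝ}, MemLp U 2 (volume.restrict V) →
      MemLp (fun p => deriv T (F p) * U p) 2 (volume.restrict V) := fun hU =>
    memLp_mul_of_bdd (C := 1) hU hmeas fun p => by
      rw [abs_of_nonneg (hT.nn _)]; exact hT.le _
  refine ⟨hT.c1.continuous.comp_continuousOn h.cont, ?_, hmul h.V1, hmul h.V2, ?_, ?_⟩
  · have : IsFiniteMeasure (volume.restrict V) :=
      ⟨by rw [Measure.restrict_apply_univ]; exact lt_top_iff_ne_top.2 hVv⟩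
    refine MemLp.of_bound ((hT.c1.continuous.comp_continuousOn h.cont).aestronglyMeasurable
      hV.measurableSet) (m + M) (Eventually.of_forall fun p => ?_)
    rw [Real.norm_eq_abs]
    exact hT.bdd hm _
  · filter_upwards [h'.hor, Mp_87.ae_line_y hU1] with y h1 h2 x x' hxx' hr
    have hO : IsOpen {s : ℝ | (s, y) ∈ V} := hV.preimage (by fun_prop)
    rw [comp_line hO (f := fun s => F (s, y)) (g := fun s => V.indicator U1 (s, y))
      (h2.locallyIntegrable (by norm_num)) (fun s t hst hs => h1 s t hst hs) hT x x' hxx' hr]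
    refine intervalIntegral.integral_congr fun s hs => ?_
    rw [uIcc_of_le hxx'] at hs
    show deriv T (F (s, y)) * V.indicator U1 (s, y) = _
    rw [indicator_of_mem (hr s hs)]
  · filter_upwards [h'.ver, Mp_87.ae_line_x hU2] with x h1 h2 y y' hyy' hr
    have hO : IsOpen {s : ℝ | (x, s) ∈ V} := hV.preimage (by fun_prop)
    rw [comp_line hO (f := fun s => F (x, s)) (g := fun s => V.indicator U2 (x, s))
      (h2.locallyIntegrable (by norm_num)) (fun s t hst hs => h1 s t hst hs) hT y y' hyy' hr]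
    refine intervalIntegral.integral_congr fun s hs => ?_
    rw [uIcc_of_le hyy'] at hs
    show deriv T (F (x, s)) * V.indicator U2 (x, s) = _
    rw [indicator_of_mem (hr s hs)]

/-! ### limits at the components -/

theorem LimAt.oscLe (h : LimAt E P F k) : OscLe Eᶜ P F 0 := by
  intro ε hε
  obtain ⟨O, hO, hPO, hb⟩ := h (ε / 2) (by positivity)
  refine ⟨O, hO, hPO, fun q hq q' hq' => ?_⟩
  have h1 := hb q hq
  have h2 := hb q' hq'
  have : F q - F q' = (F q - k) - (F q' - k) := by ring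
  rw [this]
  refine (abs_sub _ _).trans ?_
  linarith

/-- the test function near a component on which the cut-off is the constant `c` -/
theorem limAt_phi (hT : Clamp m M T) (h : LimAt E P F k) (hc0 : 0 ≤ c) (hc1 : c ≤ 1)
    (hχ : ∃ O, IsOpen O ∧ P ⊆ O ∧ ∀ p ∈ O, χ p = c) (hw : LimAt E P w 0) :
    LimAt E P (fun p => χ p * T (F p) + w p) (c * T k) := by
  intro ε hε
  obtain ⟨O, hO, hPO, hb⟩ := h (ε / 2) (by positivity)
  obtain ⟨O₁, hO₁, hPO₁, hb₁⟩ := hw (ε / 2) (by positivity)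
  obtain ⟨O₂, hO₂, hPO₂, hb₂⟩ := hχ
  refine ⟨O ∩ O₁ ∩ O₂, (hO.inter hO₁).inter hO₂, subset_inter (subset_inter hPO hPO₁) hPO₂,
    fun p hp => ?_⟩
  have h1 := hb p ⟨hp.1.1.1, hp.2⟩
  have h2 := hb₁ p ⟨hp.1.1.2, hp.2⟩
  rw [sub_zero] at h2
  show |χ p * T (F p) + w p - c * T k| ≤ ε
  rw [hb₂ p hp.1.2]
  have e : c * T (F p) + w p - c * T k = c * (T (F p) - T k) + w p := by ring
  rw [e]
  refine (abs_add_le _ _).trans ?_
  rw [abs_mul, abs_of_nonneg hc0]
  have h3 := hT.sub_le (F p) k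
  have h4 : c * |T (F p) - T k| ≤ 1 * |T (F p) - T k| :=
    mul_le_mul_of_nonneg_right hc1 (abs_nonneg _)
  linarith

theorem oscLe_phi (hT : Clamp m M T) {o : ℝ} (h : OscLe Eᶜ P F o) (hc0 : 0 ≤ c) (hc1 : c ≤ 1)
    (hχ : ∃ O, IsOpen O ∧ P ⊆ O ∧ ∀ p ∈ O, χ p = c) (hw : LimAt E P w 0) :
    OscLe Eᶜ P (fun p => χ p * T (F p) + w p) o := by
  intro ε hε
  obtain ⟨O, hO, hPO, hb⟩ := h (ε / 2) (by positivity)
  obtain ⟨O₁, hO₁, hPO₁, hb₁⟩ := hw (ε / 4) (by positivity)
  obtain ⟨O₂, hO₂, hPO₂, hb₂⟩ := hχ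
  refine ⟨O ∩ O₁ ∩ O₂, (hO.inter hO₁).inter hO₂, subset_inter (subset_inter hPO hPO₁) hPO₂,
    fun p hp q hq => ?_⟩
  have h1 := hb p ⟨hp.1.1.1, hp.2⟩ q ⟨hq.1.1.1, hq.2⟩
  have h2 := hb₁ p ⟨hp.1.1.2, hp.2⟩
  have h2' := hb₁ q ⟨hq.1.1.2, hq.2⟩
  rw [sub_zero] at h2 h2'
  show |χ p * T (F p) + w p - (χ q * T (F q) + w q)| ≤ o + ε
  rw [hb₂ p hp.1.2, hb₂ q hq.1.2]
  have e : c * T (F p) + w p - (c * T (F q) + w q) = c * (T (F p) - T (F q)) + (w p - w q) := by ring
  rw [e]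
  refine (abs_add_le _ _).trans ?_
  rw [abs_mul, abs_of_nonneg hc0]
  have h3 := hT.sub_le (F p) (F q)
  have h4 : c * |T (F p) - T (F q)| ≤ 1 * |T (F p) - T (F q)| :=
    mul_le_mul_of_nonneg_right hc1 (abs_nonneg _)
  have h5 := abs_sub (w p) (w q)
  linarith

theorem oscLe_phi_clamp (hT : Clamp m M T) (hc0 : 0 ≤ c)
    (hχ : ∃ O, IsOpen O ∧ P ⊆ O ∧ ∀ p ∈ O, χ p = c) (hw : LimAt E P w 0) :
    OscLe Eᶜ P (fun p => χ p * T (F p) + w p) (c * (m + 2 * M)) := by
  intro ε hε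
  obtain ⟨O₁, hO₁, hPO₁, hb₁⟩ := hw (ε / 2) (by positivity)
  obtain ⟨O₂, hO₂, hPO₂, hb₂⟩ := hχ
  refine ⟨O₁ ∩ O₂, hO₁.inter hO₂, subset_inter hPO₁ hPO₂, fun p hp q hq => ?_⟩
  have h2 := hb₁ p ⟨hp.1.1, hp.2⟩
  have h2' := hb₁ q ⟨hq.1.1, hq.2⟩
  rw [sub_zero] at h2 h2'
  show |χ p * T (F p) + w p - (χ q * T (F q) + w q)| ≤ c * (m + 2 * M) + ε
  rw [hb₂ p hp.1.2, hb₂ q hq.1.2]
  have e : c * T (F p) + w p - (c * T (F q) + w q) = c * (T (F p) - T (F q)) + (w p - w q) := by ring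
  rw [e]
  refine (abs_add_le _ _).trans ?_
  rw [abs_mul, abs_of_nonneg hc0]
  have h3 := mul_le_mul_of_nonneg_left (hT.diff_le (F p) (F q)) hc0
  have h5 := abs_sub (w p) (w q)
  linarith

/-- a continuous function which vanishes on `E` has the limit `0` at the components -/
theorem limAt_zero (hw : Continuous w) (h0 : ∀ p ∈ P, w p = 0) : LimAt E P w 0 := by
  intro ε hε
  refine ⟨{p | |w p| < ε}, isOpen_lt hw.abs continuous_const, fun p hp => ?_, fun p hp => ?_⟩
  · show |w p| < ε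
    rw [h0 p hp, abs_zero]; exact hε
  · rw [sub_zero]; exact le_of_lt hp.1

end Crest.Agent.R105.Psq_425
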