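import Crest.Agent.R105.Sq1_363
import Crest.Agent.R105.Mp6_87

-- ▼ part R105/Psi1_425
section

/-!
Row 105, lemma A, analytic half: continuous representatives from small essential oscillation.
-/

open MeasureTheory Set Filter Topology
open scoped ENNReal NNReal

namespace Crest.Agent.R105.Psi_425

open Sq_363

/-- the essential oscillation of `ψ` on `O ∩ A` is at most `ε` -/
def EOsc (A O : Set (ℝ × ℝ)) (ψ : ℝ × ℝ → ℝ) (ε : ℝ) : Prop :=
  ∃ N : Set (ℝ × ℝ), volume N = 0 ∧ ∀ z ∈ (O ∩ A) \ N, ∀ z' ∈ (O ∩ A) \ N, |ψ z - ψ z'| ≤ ε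

theorem EOsc.mono {A O A' O' : Set (ℝ × ℝ)} {ψ : ℝ × ℝ → ℝ} {ε ε' : ℝ} (h : EOsc A O ψ ε)
    (hA : A' ⊆ A) (hO : O' ⊆ O) (hε : ε ≤ ε') : EOsc A' O' ψ ε' := by
  obtain ⟨N, hN, h⟩ := h
  refine ⟨N, hN, fun z hz z' hz' => (h z ?_ z' ?_).trans hε⟩
  · exact ⟨⟨hO hz.1.1, hA hz.1.2⟩, hz.2⟩
  · exact ⟨⟨hO hz'.1.1, hA hz'.1.2⟩, hz'.2⟩

/-- essential oscillation from essential bounds -/
theorem eosc_of_bounds {A O : Set (ℝ × ℝ)} {ψ : ℝ × ℝ → ℝ} {m M ε : ℝ}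
    (h : ∀ᵐ z ∂(volume : Measure (ℝ × ℝ)), z ∈ O ∩ A → m ≤ ψ z ∧ ψ z ≤ M) (hε : M - m ≤ ε) :
    EOsc A O ψ ε := by
  refine ⟨{z | ¬ (z ∈ O ∩ A → m ≤ ψ z ∧ ψ z ≤ M)}, h, fun z hz z' hz' => ?_⟩
  have h1 : m ≤ ψ z ∧ ψ z ≤ M := by
    by_contra hc
    exact hz.2 fun h => hc (h hz.1)
  have h2 : m ≤ ψ z' ∧ ψ z' ≤ M := by
    by_contra hc
    exact hz'.2 fun h => hc (h hz'.1)
  rw [abs_le]
  constructor <;> linarith [h1.1, h1.2, h2.1, h2.2]

theorem EOsc.congr {A O : Set (ℝ × ℝ)} {ψ φ : ℝ × ℝ → ℝ} {ε : ℝ} (h : EOsc A O ψ ε)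
    (hφ : ∀ᵐ z ∂(volume : Measure (ℝ × ℝ)), z ∈ O ∩ A → φ z = ψ z) : EOsc A O φ ε := by
  obtain ⟨N, hN, h⟩ := h
  refine ⟨N ∪ {z | ¬ (z ∈ O ∩ A → φ z = ψ z)}, measure_union_null hN hφ, fun z hz z' hz' => ?_⟩
  have h1 : φ z = ψ z := by
    by_contra hc
    exact hz.2 (Or.inr fun h => hc (h hz.1))
  have h2 : φ z' = ψ z' := by
    by_contra hc
    exact hz'.2 (Or.inr fun h => hc (h hz'.1))
  rw [h1, h2]
  exact h z ⟨hz.1, fun h => hz.2 (Or.inl h)⟩ z' ⟨hz'.1, fun h => hz'.2 (Or.inl h)⟩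

/-- **continuous representative.**  If `ψ` has essential oscillation (relative to `A`) tending to
zero at every point of `B`, there is a function `f`, continuous on `B`, equal to `ψ` almost
everywhere on `A ∩ B`, and it is the essential limit of `ψ` at the points of `B`. -/
theorem cont_rep {A B : Set (ℝ × ℝ)} {ψ : ℝ × ℝ → ℝ}
    (h : ∀ z ∈ B, ∀ ε > 0, ∃ O, IsOpen O ∧ z ∈ O ∧ EOsc A O ψ ε)
    (hd : ∀ z ∈ B, ∀ O, IsOpen O → z ∈ O → volume (O ∩ A) ≠ 0) :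
    ∃ f : ℝ × ℝ → ℝ, ContinuousOn f B ∧
      (∀ᵐ z ∂(volume : Measure (ℝ × ℝ)), z ∈ A ∩ B → ψ z = f z) ∧
      ∀ z ∈ B, ∀ ε > 0, ∃ O, IsOpen O ∧ z ∈ O ∧
        ∀ᵐ w ∂(volume : Measure (ℝ × ℝ)), w ∈ O ∩ A → |ψ w - f z| ≤ ε := by
  classical
  obtain ⟨𝓑, h𝓑c, -, h𝓑⟩ := TopologicalSpace.exists_countable_basis (ℝ × ℝ)
  -- the exceptional null set
  set bad : Set (ℝ × ℝ) → ℕ → Set (ℝ × ℝ) := fun b n =>
    if hb : EOsc A b ψ (1 / ((n : ℝ) + 1)) then hb.choose else ∅ with hbad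
  set N : Set (ℝ × ℝ) := ⋃ b ∈ 𝓑, ⋃ n : ℕ, bad b n with hN
  have hN0 : volume N = 0 := by
    rw [hN, measure_biUnion_null_iff h𝓑c]
    intro b _
    rw [measure_iUnion_null_iff]
    intro n
    simp only [hbad]
    split_ifs with hb
    · exact hb.choose_spec.1
    · simp
  set A' : Set (ℝ × ℝ) := A \ N with hA'
  have key : ∀ z ∈ B, ∀ ε > 0, ∃ b, IsOpen b ∧ z ∈ b ∧
      ∀ x ∈ b ∩ A', ∀ y ∈ b ∩ A', |ψ x - ψ y| ≤ ε := by
    intro z hz ε hε
    obtain ⟨n, hn⟩ := exists_nat_one_div_lt hε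
    obtain ⟨O, hO, hzO, hosc⟩ := h z hz (1 / ((n : ℝ) + 1)) (by positivity)
    obtain ⟨b, hb, hzb, hbO⟩ := h𝓑.exists_subset_of_mem_open hzO hO
    have hb' : EOsc A b ψ (1 / ((n : ℝ) + 1)) := hosc.mono le_rfl hbO le_rfl
    refine ⟨b, h𝓑.isOpen hb, hzb, fun x hx y hy => ?_⟩
    have hsub : hb'.choose ⊆ N := by
      have : hb'.choose = bad b n := by simp only [hbad, dif_pos hb']
      rw [this]
      exact (subset_iUnion (fun n => bad b n) n).trans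
        (subset_biUnion_of_mem (u := fun b => ⋃ n : ℕ, bad b n) hb)
    refine (hb'.choose_spec.2 x ⟨⟨hx.1, hx.2.1⟩, fun h => hx.2.2 (hsub h)⟩ y
      ⟨⟨hy.1, hy.2.1⟩, fun h => hy.2.2 (hsub h)⟩).trans hn.le
  have hcl : B ⊆ closure A' := by
    intro z hz
    rw [mem_closure_iff]
    intro O hO hzO
    by_contra hc
    rw [not_nonempty_iff_eq_empty] at hc
    apply hd z hz O hO hzO
    refine measure_mono_null (fun x hx => ?_) hN0
    by_contra hxN
    have : x ∈ O ∩ A' := ⟨hx.1, hx.2, hxN⟩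
    rw [hc] at this
    exact this
  have hlim : ∀ z ∈ B, ∃ y, Tendsto ψ (𝓝[A'] z) (𝓝 y) := by
    intro z hz
    have : (𝓝[A'] z).NeBot := mem_closure_iff_nhdsWithin_neBot.1 (hcl hz)
    rw [← cauchy_map_iff_exists_tendsto]
    rw [Metric.cauchy_iff]
    refine ⟨inferInstance, fun ε hε => ?_⟩
    obtain ⟨b, hb, hzb, hosc⟩ := key z hz (ε / 2) (by positivity)
    refine ⟨ψ '' (b ∩ A'), ?_, ?_⟩
    · rw [mem_map]
      refine mem_of_superset ?_ (subset_preimage_image ψ (b ∩ A'))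
      rw [inter_comm]
      exact inter_mem_nhdsWithin _ (hb.mem_nhds hzb)
    · rintro _ ⟨x, hx, rfl⟩ _ ⟨y, hy, rfl⟩
      rw [Real.dist_eq]
      linarith [hosc x hx y hy]
  refine ⟨extendFrom A' ψ, continuousOn_extendFrom hcl hlim, ?_, ?_⟩
  · have hNn : ∀ᵐ z ∂(volume : Measure (ℝ × ℝ)), z ∉ N := measure_eq_zero_iff_ae_notMem.1 hN0
    filter_upwards [hNn] with z hzN hzAB
    have hzA' : z ∈ A' := ⟨hzAB.1, hzN⟩
    have ht : Tendsto ψ (𝓝[A'] z) (𝓝 (ψ z)) := by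
      rw [Metric.tendsto_nhds]
      intro ε hε
      obtain ⟨b, hb, hzb, hosc⟩ := key z hzAB.2 (ε / 2) (by positivity)
      have : b ∩ A' ∈ 𝓝[A'] z := by
        rw [inter_comm]
        exact inter_mem_nhdsWithin _ (hb.mem_nhds hzb)
      filter_upwards [this] with x hx
      rw [Real.dist_eq]
      linarith [hosc x hx z ⟨hzb, hzA'⟩]
    exact (extendFrom_eq (hcl hzAB.2) ht).symm
  · intro z hz ε hε
    obtain ⟨b, hb, hzb, hosc⟩ := key z hz (ε / 2) (by positivity)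
    have : (𝓝[A'] z).NeBot := mem_closure_iff_nhdsWithin_neBot.1 (hcl hz)
    obtain ⟨y, hy⟩ := hlim z hz
    have hfy : extendFrom A' ψ z = y := extendFrom_eq (hcl hz) hy
    refine ⟨b, hb, hzb, ?_⟩
    have hNn : ∀ᵐ z ∂(volume : Measure (ℝ × ℝ)), z ∉ N := measure_eq_zero_iff_ae_notMem.1 hN0
    filter_upwards [hNn] with w hwN hw
    have hwA' : w ∈ b ∩ A' := ⟨hw.1, hw.2, hwN⟩
    have hmem : b ∩ A' ∈ 𝓝[A'] z := by
      rw [inter_comm]
      exact inter_mem_nhdsWithin _ (hb.mem_nhds hzb)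
    have h1 : Tendsto (fun x => |ψ w - ψ x|) (𝓝[A'] z) (𝓝 |ψ w - y|) :=
      (tendsto_const_nhds.sub hy).abs
    have h2 : |ψ w - y| ≤ ε / 2 := by
      refine le_of_tendsto h1 ?_
      filter_upwards [hmem] with x hx
      exact hosc w hwA' x hx
    rw [hfy]
    linarith

end Crest.Agent.R105.Psi_425
end

-- ▼ part R105/Psi2_425
section

/-!
Row 105, lemma A, analytic half: from line representations and the maximum principle on squares
to small essential oscillation.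
-/

open MeasureTheory Set Filter Topology
open scoped ENNReal NNReal

namespace Crest.Agent.R105.Psi_425

open Sq_363


theorem isOpen_Qo (p : ℝ × ℝ) (s : ℝ) : IsOpen (Qo p s) := isOpen_Ioo.prod isOpen_Ioo










end Crest.Agent.R105.Psi_425
end

-- ▼ part R105/Psi3_425
section

/-!
Row 105, lemma A, analytic half: the continuous representative agrees with the line
representatives on every point of almost every line; it is constant on hairs.
-/

open MeasureTheory Set Filter Topology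
open scoped ENNReal NNReal

namespace Crest.Agent.R105.Psi_425

open Sq_363



theorem mp_swap : MeasurePreserving (Prod.swap : ℝ × ℝ → ℝ × ℝ) volume volume := by
  rw [Measure.volume_eq_prod]; exact Measure.measurePreserving_swap


/-- Fubini for null sets, vertical lines -/
theorem ae_vert {P : ℝ × ℝ → Prop} (h : ∀ᵐ z ∂(volume : Measure (ℝ × ℝ)), P z) :
    ∀ᵐ x ∂(volume : Measure ℝ), ∀ᵐ y ∂(volume : Measure ℝ), P (x, y) :=
  Measure.ae_ae_of_ae_prod (by rwa [← Measure.volume_eq_prod])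

/-- Fubini for null sets, horizontal lines -/
theorem ae_hor {P : ℝ × ℝ → Prop} (h : ∀ᵐ z ∂(volume : Measure (ℝ × ℝ)), P z) :
    ∀ᵐ y ∂(volume : Measure ℝ), ∀ᵐ x ∂(volume : Measure ℝ), P (x, y) := by
  have := mp_swap.quasiMeasurePreserving.ae h
  exact ae_vert (P := fun z => P z.swap) this

/-- two continuous functions equal almost everywhere on an open set of reals are equal there -/
theorem eq_on_open {O : Set ℝ} (hO : IsOpen O) {g h : ℝ → ℝ} (hg : ContinuousOn g O)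
    (hh : ContinuousOn h O) (hae : ∀ᵐ x ∂(volume : Measure ℝ), x ∈ O → g x = h x) :
    ∀ x ∈ O, g x = h x := by
  have hae' : g =ᵐ[volume.restrict O] h := (ae_restrict_iff' hO.measurableSet).2 hae
  exact fun x hx => Measure.eqOn_open_of_ae_eq hae' hO hg hh hx



/-- a function continuous near a vertical segment which is almost everywhere equal to `c` on its
interior is equal to `c` on the whole segment -/
theorem const_on_segment {G : Set (ℝ × ℝ)} {Ψ f : ℝ × ℝ → ℝ} (hf : ContinuousOn f G)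
    (hline : ∀ᵐ y ∂(volume : Measure ℝ), ∀ x, (x, y) ∈ G → Ψ (x, y) = f (x, y))
    {x b t c : ℝ} (hbt : b < t) (hsub : ∀ y ∈ Icc b t, (x, y) ∈ G)
    (hc : ∀ᵐ y ∂(volume : Measure ℝ), y ∈ Ioo b t → Ψ (x, y) = c) :
    ∀ y ∈ Icc b t, f (x, y) = c := by
  have hcont : ContinuousOn (fun y => f (x, y)) (Icc b t) :=
    hf.comp (by fun_prop) fun y hy => hsub y hy
  have h1 : ∀ y ∈ Ioo b t, f (x, y) = c := by
    refine eq_on_open isOpen_Ioo (hcont.mono Ioo_subset_Icc_self) continuousOn_const ?_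
    filter_upwards [hline, hc] with y hy1 hy2 hy
    rw [← hy1 x (hsub y ⟨hy.1.le, hy.2.le⟩)]
    exact hy2 hy
  intro y hy
  have hcl : y ∈ closure (Ioo b t) := by rw [closure_Ioo hbt.ne]; exact hy
  have hcont' : ContinuousOn (fun y => f (x, y)) (closure (Ioo b t)) := by
    rw [closure_Ioo hbt.ne]; exact hcont
  exact (closure_minimal (s := Ioo b t) (t := {y | y ∈ closure (Ioo b t) ∧ f (x, y) = c})
    (fun y hy => ⟨subset_closure hy, h1 y hy⟩)
    (by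
      have := hcont'.preimage_isClosed_of_isClosed isClosed_closure (isClosed_singleton (x := c))
      exact this) hcl).2

end Crest.Agent.R105.Psi_425
end

-- ▼ part R105/Psi4_425

/-!
Row 105, lemma A, analytic half: the continuous representative of the stream function of the lower
problem, from `Lines` (helper87) and the maximum principle `MPat`.
-/

open MeasureTheory Set Filter Topology
open scoped ENNReal NNReal

namespace Crest.Agent.R105.Psi_425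

open Sq_363 Mp_87

variable {a b c B σ : ℝ} {X1 X2 ψ Ψ : ℝ × ℝ → ℝ} {μ : Measure (ℝ × ℝ)}

/-- points at which the maximum principle can be used in all small squares -/
def Adm (a b c : ℝ) (μ : Measure (ℝ × ℝ)) (PR : ℝ → ℝ → ℝ → ℝ → Prop) : Set (ℝ × ℝ) :=
  {z | ∃ r > 0, a < z.1 - 2 * r ∧ z.1 + 2 * r < b ∧ c < z.2 - 2 * r ∧
    (∀ x ∈ Icc (z.1 - 2 * r) (z.1 + 2 * r), μ {q | q.1 = x ∧ q.2 < z.2 + 2 * r} = 0) ∧
    ∀ x0 x1 y0 y1, z.1 - 2 * r < x0 → x0 < x1 → x1 < z.1 + 2 * r → z.2 - 2 * r < y0 → y0 < y1 →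
      y1 < z.2 + 2 * r → PR x0 x1 y0 y1}

theorem Adm.sub {PR : ℝ → ℝ → ℝ → ℝ → Prop} :
    Adm a b c μ PR ⊆ Ioo a b ×ˢ Ioi c := by
  rintro z ⟨r, hr, h1, h2, h3, -, -⟩
  exact ⟨⟨by linarith, by linarith⟩, by show c < z.2; linarith⟩

/-- admissibility is inherited by smaller squares around nearby points -/
theorem adm_shrink {PR : ℝ → ℝ → ℝ → ℝ → Prop} {z : ℝ × ℝ} {r : ℝ}
    (h1 : a < z.1 - 2 * r) (h2 : z.1 + 2 * r < b) (h3 : c < z.2 - 2 * r)
    (h4 : ∀ x ∈ Icc (z.1 - 2 * r) (z.1 + 2 * r), μ {q | q.1 = x ∧ q.2 < z.2 + 2 * r} = 0)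
    (h5 : ∀ x0 x1 y0 y1, z.1 - 2 * r < x0 → x0 < x1 → x1 < z.1 + 2 * r → z.2 - 2 * r < y0 →
      y0 < y1 → y1 < z.2 + 2 * r → PR x0 x1 y0 y1)
    {z' : ℝ × ℝ} {r' : ℝ} (hx1 : z.1 - 2 * r ≤ z'.1 - 2 * r') (hx2 : z'.1 + 2 * r' ≤ z.1 + 2 * r)
    (hy1 : z.2 - 2 * r ≤ z'.2 - 2 * r') (hy2 : z'.2 + 2 * r' ≤ z.2 + 2 * r) :
    a < z'.1 - 2 * r' ∧ z'.1 + 2 * r' < b ∧ c < z'.2 - 2 * r' ∧
    (∀ x ∈ Icc (z'.1 - 2 * r') (z'.1 + 2 * r'), μ {q | q.1 = x ∧ q.2 < z'.2 + 2 * r'} = 0) ∧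
    ∀ x0 x1 y0 y1, z'.1 - 2 * r' < x0 → x0 < x1 → x1 < z'.1 + 2 * r' → z'.2 - 2 * r' < y0 →
      y0 < y1 → y1 < z'.2 + 2 * r' → PR x0 x1 y0 y1 := by
  refine ⟨by linarith, by linarith, by linarith, fun x hx => ?_, fun x0 x1 y0 y1 e1 e2 e3 e4 e5 e6 =>
    h5 x0 x1 y0 y1 (by linarith) e2 (by linarith) (by linarith) e5 (by linarith)⟩
  refine measure_mono_null ?_ (h4 x ⟨by linarith [hx.1], by linarith [hx.2]⟩)
  rintro q ⟨q1, q2⟩
  exact ⟨q1, by linarith⟩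

theorem isOpen_Adm {PR : ℝ → ℝ → ℝ → ℝ → Prop} : IsOpen (Adm a b c μ PR) := by
  rw [isOpen_iff_mem_nhds]
  rintro z ⟨r, hr, h1, h2, h3, h4, h5⟩
  refine mem_of_superset ((isOpen_Qo z r).mem_nhds ⟨⟨by linarith, by linarith⟩,
    ⟨by linarith, by linarith⟩⟩) ?_
  rintro z' ⟨hz1, hz2⟩
  exact ⟨r / 2, by positivity, adm_shrink h1 h2 h3 h4 h5 (by linarith [hz1.1])
    (by linarith [hz1.2]) (by linarith [hz2.1]) (by linarith [hz2.2])⟩

/-- small squares have small energy -/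
theorem tendsto_energy {X : ℝ × ℝ → ℝ} (hX : MemLp X 2 (volume : Measure (ℝ × ℝ))) (u v : ℝ) :
    Tendsto (fun r : ℝ => Real.sqrt (∫ p in Rc (u - 2 * r) (u + 2 * r) (v - 2 * r) (v + 2 * r),
      X p ^ 2)) (𝓝[>] 0) (𝓝 0) := by
  have h1 : Tendsto (fun r : ℝ => ∫ p in Rc (u - 2 * r) (u + 2 * r) (v - 2 * r) (v + 2 * r),
      X p ^ 2) (𝓝[>] 0) (𝓝 0) := by
    refine hX.integrable_sq.tendsto_setIntegral_nhds_zero ?_
    have h2 : ∀ r : ℝ, volume (Rc (u - 2 * r) (u + 2 * r) (v - 2 * r) (v + 2 * r)) =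
        ENNReal.ofReal (4 * r) * ENNReal.ofReal (4 * r) := by
      intro r
      rw [Rc, Measure.volume_eq_prod, Measure.prod_prod, Real.volume_Ioo, Real.volume_Ioo]
      congr 2 <;> ring
    show Tendsto (fun r : ℝ => volume (Rc (u - 2 * r) (u + 2 * r) (v - 2 * r) (v + 2 * r)))
      (𝓝[>] 0) (𝓝 0)
    simp_rw [h2]
    have h3 : Tendsto (fun r : ℝ => ENNReal.ofReal (4 * r)) (𝓝[>] 0) (𝓝 0) := by
      have h4 : Tendsto (fun r : ℝ => 4 * r) (𝓝[>] 0) (𝓝 0) := by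
        have : Tendsto (fun r : ℝ => 4 * r) (𝓝 0) (𝓝 (4 * 0)) :=
          (continuous_const.mul continuous_id).tendsto 0
        rw [mul_zero] at this
        exact this.mono_left nhdsWithin_le_nhds
      simpa using ENNReal.tendsto_ofReal h4
    have h5 := ENNReal.Tendsto.mul h3 (Or.inr ENNReal.zero_ne_top) h3
      (Or.inr ENNReal.zero_ne_top)
    simpa using h5
  have h2 := (Real.continuous_sqrt.tendsto 0).comp h1
  rw [Real.sqrt_zero] at h2
  exact h2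

/-- small squares without atoms have small flux -/
theorem tendsto_flux [IsFiniteMeasure μ] {u t : ℝ} (hu : μ {q | q.1 = u ∧ q.2 < t} = 0) :
    Tendsto (fun r : ℝ => (μ {q | q.1 ∈ Icc (u - 2 * r) (u + 2 * r) ∧ q.2 < t}).toReal)
      (𝓝[>] 0) (𝓝 0) := by
  have h1 : Tendsto (fun r : ℝ => μ {q | q.1 ∈ Icc (u - 2 * r) (u + 2 * r) ∧ q.2 < t})
      (𝓝[>] 0) (𝓝 (μ (⋂ r > (0:ℝ), {q | q.1 ∈ Icc (u - 2 * r) (u + 2 * r) ∧ q.2 < t}))) := by
    refine tendsto_measure_biInter_gt (fun r _ => ?_) (fun i j _ hij => ?_) ⟨1, one_pos,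
      measure_ne_top _ _⟩
    · exact ((measurable_fst measurableSet_Icc).inter
        (measurableSet_lt measurable_snd measurable_const)).nullMeasurableSet
    · rintro q ⟨q1, q2⟩
      exact ⟨⟨by linarith [q1.1], by linarith [q1.2]⟩, q2⟩
  have h2 : μ (⋂ r > (0:ℝ), {q : ℝ × ℝ | q.1 ∈ Icc (u - 2 * r) (u + 2 * r) ∧ q.2 < t}) = 0 := by
    refine measure_mono_null ?_ hu
    intro q hq
    simp only [mem_iInter] at hq
    refine ⟨?_, (hq 1 one_pos).2⟩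
    refine le_antisymm (le_of_forall_pos_le_add fun ε hε => ?_)
      (le_of_forall_pos_le_add fun ε hε => ?_)
    · have := (hq (ε / 2) (by positivity)).1.2
      linarith
    · have := (hq (ε / 2) (by positivity)).1.1
      linarith
  rw [h2] at h1
  have h3 := (ENNReal.tendsto_toReal ENNReal.zero_ne_top).comp h1
  rw [ENNReal.toReal_zero] at h3
  exact h3

/-- the oscillation of `ψ` is small near every admissible point -/
theorem small_osc_adm [IsFiniteMeasure μ] (L : Lines a b c B σ X1 X2 μ ψ Ψ) (hσ : |σ| = 1)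
    {PX PY : ℝ → Prop} {PR : ℝ → ℝ → ℝ → ℝ → Prop} (hPX : ∀ᵐ x, x ∈ Ioo a b → PX x)
    (hPY : ∀ᵐ y, c < y → PY y)
    (mp : MPat a b c σ X1 X2 μ ψ Ψ PX PY PR)
    (mn : MPat a b c (-σ) (fun p => -X1 p) (fun p => -X2 p) μ (fun p => -ψ p) (fun p => -Ψ p)
      PX PY PR) :
    ∀ z ∈ Adm a b c μ PR, ∀ ε > 0, ∃ O, IsOpen O ∧ z ∈ O ∧ EOsc univ O ψ ε := by
  rintro z ⟨r₀, hr₀, h1, h2, h3, h4, h5⟩ ε hε
  have hatom : μ {q | q.1 = z.1 ∧ q.2 < z.2 + 2 * r₀} = 0 :=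
    h4 z.1 ⟨by linarith, by linarith⟩
  have hT := (((tendsto_energy L.L1 z.1 z.2).const_mul 4).add
    ((tendsto_energy L.L2 z.1 z.2).const_mul 4)).add (tendsto_flux hatom)
  simp only [mul_zero, add_zero] at hT
  have hev := (hT.eventually (gt_mem_nhds (half_pos hε))).and
    (Ioo_mem_nhdsGT hr₀)
  obtain ⟨r, hrε, hr⟩ := hev.exists
  obtain ⟨e1, e2, e3, e4, e5⟩ := adm_shrink (z' := z) (r' := r) h1 h2 h3 h4 h5
    (by linarith [hr.2]) (by linarith [hr.2]) (by linarith [hr.2]) (by linarith [hr.2])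
  obtain ⟨m0, hm0⟩ := osc L hσ hPX hPY mp mn hr.1 e1 e2 e3 e4 e5
  refine ⟨Qo z r, isOpen_Qo z r, ⟨⟨by linarith [hr.1], by linarith [hr.1]⟩,
    ⟨by linarith [hr.1], by linarith [hr.1]⟩⟩, ?_⟩
  refine eosc_of_bounds (m := m0 - ε / 2) (M := m0 + ε / 2) ?_ (by linarith)
  rw [ae_restrict_iff' (measurableSet_Rc _ _ _ _)] at hm0
  filter_upwards [hm0] with p hp hpQ
  have hp1 := hp hpQ.1
  have hflux : (μ {q | q.1 ∈ Ico (z.1 - 2 * r) (z.1 + 2 * r) ∧ q.2 < z.2 + 2 * r}).toReal ≤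
      (μ {q | q.1 ∈ Icc (z.1 - 2 * r) (z.1 + 2 * r) ∧ q.2 < z.2 + 2 * r₀}).toReal := by
    refine ENNReal.toReal_mono (measure_ne_top _ _) (measure_mono ?_)
    rintro q ⟨q1, q2⟩
    exact ⟨⟨q1.1, q1.2.le⟩, by linarith [hr.2]⟩
  have : |ψ p - m0| ≤ ε / 2 := by
    refine hp1.trans (le_trans ?_ hrε.le)
    linarith
  rw [abs_le] at this
  exact ⟨by linarith [this.1], by linarith [this.2]⟩

/-- **continuous representative of the stream function (lower problem)** -/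
theorem exists_cont [IsFiniteMeasure μ] (L : Lines a b c B σ X1 X2 μ ψ Ψ) (hσ : |σ| = 1)
    {PX PY : ℝ → Prop} {PR : ℝ → ℝ → ℝ → ℝ → Prop} (hPX : ∀ᵐ x, x ∈ Ioo a b → PX x)
    (hPY : ∀ᵐ y, c < y → PY y)
    (mp : MPat a b c σ X1 X2 μ ψ Ψ PX PY PR)
    (mn : MPat a b c (-σ) (fun p => -X1 p) (fun p => -X2 p) μ (fun p => -ψ p) (fun p => -Ψ p)
      PX PY PR) :
    ∃ f : ℝ × ℝ → ℝ, ContinuousOn f (Adm a b c μ PR) ∧
      (∀ᵐ z ∂(volume : Measure (ℝ × ℝ)), z ∈ Adm a b c μ PR → ψ z = f z) ∧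
      (∀ᵐ y ∂(volume : Measure ℝ), ∀ x, (x, y) ∈ Adm a b c μ PR → Ψ (x, y) = f (x, y)) ∧
      (∀ᵐ x ∂(volume : Measure ℝ), ∀ y, (x, y) ∈ Adm a b c μ PR → ψ (x, y) = f (x, y)) := by
  obtain ⟨f, hf, hae, -⟩ := cont_rep (A := univ) (small_osc_adm L hσ hPX hPY mp mn)
    (fun z hz O hO hzO => by
      rw [inter_univ]; exact (hO.measure_pos volume ⟨z, hzO⟩).ne')
  have hae' : ∀ᵐ z ∂(volume : Measure (ℝ × ℝ)), z ∈ Adm a b c μ PR → ψ z = f z := by
    filter_upwards [hae] with z hz hzA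
    exact hz ⟨mem_univ _, hzA⟩
  have haeΨ : ∀ᵐ z ∂(volume : Measure (ℝ × ℝ)), z ∈ Adm a b c μ PR → Ψ z = f z := by
    filter_upwards [hae', L.E] with z hz hE hzA
    have := Adm.sub hzA
    rw [hE this.1 this.2, hz hzA]
  refine ⟨f, hf, hae', ?_, ?_⟩
  · filter_upwards [L.goodY, ae_hor haeΨ] with y hy h3
    have hO : IsOpen {x : ℝ | (x, y) ∈ Adm a b c μ PR} := isOpen_Adm.preimage (by fun_prop)
    refine eq_on_open hO ?_ (hf.comp (by fun_prop) fun x hx => hx) h3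
    rintro x ⟨r, hr, h1, h2, h3, h4, -⟩
    simp only at h1 h2 h3 h4
    have hyc : c < y := by linarith
    have hcont := (hy hyc).continuousOn h1 h2 (fun x' hx' => by
      refine measure_mono_null ?_ (h4 x' hx')
      rintro q ⟨q1, q2⟩
      exact ⟨q1, by linarith⟩)
    exact (hcont.continuousAt (Icc_mem_nhds (by linarith) (by linarith))).continuousWithinAt
  · filter_upwards [L.goodX, ae_vert hae'] with x hx h3
    have hO : IsOpen {y : ℝ | (x, y) ∈ Adm a b c μ PR} := isOpen_Adm.preimage (by fun_prop)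
    refine eq_on_open hO ?_ (hf.comp (by fun_prop) fun y hy => hy) h3
    intro y hy
    have hy' := Adm.sub hy
    have G := hx hy'.1
    have hyc : c < y := hy'.2
    -- `ψ (x, ·)` is a primitive on `(c, ∞)`
    set y₀ : ℝ := (c + y) / 2 with hy₀
    have hy₀c : c < y₀ := by rw [hy₀]; linarith
    have hy₀y : y₀ < y := by rw [hy₀]; linarith
    have hcont : Continuous fun t => ψ (x, y₀) + ∫ s in y₀..t, X1 (x, s) :=
      continuous_const.add (intervalIntegral.continuous_primitive G.int y₀)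
    refine (hcont.continuousAt.congr ?_).continuousWithinAt
    filter_upwards [Ioi_mem_nhds hy₀y] with t ht
    have := G.V y₀ t hy₀c (le_of_lt ht)
    linarith

end Crest.Agent.R105.Psi_425
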