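import Crest.Agent.R105.SqC_87
import Crest.Agent.R105.SqF2_136
import Crest.Agent.R105.Cq2_463
import Crest.Agent.R105.Gl0_363
import Crest.Agent.R105.SqX_87

-- ▼ part R105/Sqw1_693
section

/-! Row 105, S0138, exact squares: oscillation of the stream function over one charged square
(leaf (W) of 87 #10566). -/

open MeasureTheory Set Filter Topology

namespace Crest.Agent.R105.Sqw_693

open Crest.Agent.R105.Mp_87 (lam Rc ae_x_of_ae ae_y_of_ae)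
open Crest.Agent.R105.Sq_87

variable {ι : Type} {Q : Rects ι} {a b c B σ : ℝ} {X1 X2 ψ Ψ : ℝ × ℝ → ℝ}
  {μ : Measure (ℝ × ℝ)} {i : ι} {M : ℝ}

/-- property (F3) of the fill, for the rectangle `i` (`M = 2 * f i`) -/
structure F3 (Q : Rects ι) (i : ι) (X1 X2 : ℝ × ℝ → ℝ) (M : ℝ) : Prop where
  h1 : ∀ a' b' c' d' : ℝ, a' ≤ b' → c' ≤ d' →
    ∫ p in Q.op i ∩ (Ioo a' b' ×ˢ Ioo c' d'), |X1 p| ≤ (b' - a') * M
  h2 : ∀ a' b' c' d' : ℝ, a' ≤ b' → c' ≤ d' →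
    ∫ p in Q.op i ∩ (Ioo a' b' ×ˢ Ioo c' d'), |X2 p| ≤ (d' - c') * M

theorem F3.nonneg (h : F3 Q i X1 X2 M) : 0 ≤ M := by
  have h1 := h.h1 0 1 0 1 zero_le_one zero_le_one
  have h2 : 0 ≤ ∫ p in Q.op i ∩ (Ioo (0 : ℝ) 1 ×ˢ Ioo (0 : ℝ) 1), |X1 p| :=
    integral_nonneg fun _ => abs_nonneg _
  linarith

/-- the flow through a.e. horizontal line of the rectangle -/
theorem F3.line_y (h : F3 Q i X1 X2 M) (hi : Integrable X2 (volume : Measure (ℝ × ℝ))) :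
    ∀ᵐ y : ℝ, y ∈ Ioo (Q.y i - Q.h2 i) (Q.y i + Q.h2 i) →
      ∫ s in Ioo (Q.x i - Q.h1 i) (Q.x i + Q.h1 i), |X2 (s, y)| ≤ M := by
  set X' : ℝ × ℝ → ℝ := (Q.op i).indicator X2 with hX'
  have hm := Q.measurableSet_op i
  have hi' : Integrable X' (volume : Measure (ℝ × ℝ)) := hi.indicator hm
  have hi2 := hi'
  rw [Measure.volume_eq_prod] at hi2
  have hf : Integrable fun y' : ℝ => ∫ x', |X' (x', y')| := hi2.abs.integral_prod_right
  have key : ∀ c' d', c' ≤ d' → ∫ y' in c'..d', (∫ x', |X' (x', y')|) ≤ (d' - c') * M := by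
    intro c' d' hcd
    have h0 : Q.x i - Q.h1 i ≤ Q.x i + Q.h1 i := by have := Q.p1 i; linarith
    have h3 := h.h2 _ _ c' d' h0 hcd
    refine le_trans (le_of_eq ?_) h3
    have hi3 : Integrable (fun u : ℝ × ℝ => |X' u|)
        ((volume : Measure ℝ).prod (volume.restrict (Ioo c' d'))) := by
      have : (volume : Measure ℝ).prod (volume.restrict (Ioo c' d')) =
          ((volume : Measure ℝ).prod volume).restrict (univ ×ˢ Ioo c' d') := by
        rw [← Measure.prod_restrict, Measure.restrict_univ]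
      rw [this]
      exact hi2.abs.integrableOn
    rw [intervalIntegral.integral_of_le hcd, integral_Ioc_eq_integral_Ioo,
      ← integral_prod_symm _ hi3]
    have e1 : (volume : Measure ℝ).prod (volume.restrict (Ioo c' d')) =
          (volume : Measure (ℝ × ℝ)).restrict (univ ×ˢ Ioo c' d') := by
      rw [Measure.volume_eq_prod, ← Measure.prod_restrict, Measure.restrict_univ]
    rw [e1]
    have e2 : ∀ p, |X' p| = (Q.op i).indicator (fun p => |X2 p|) p := by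
      intro p
      by_cases hp : p ∈ Q.op i
      · rw [hX', indicator_of_mem hp, indicator_of_mem hp]
      · rw [hX', indicator_of_notMem hp, indicator_of_notMem hp, abs_zero]
    simp only [e2]
    rw [setIntegral_indicator hm]
    congr 2
    ext p
    constructor
    · rintro ⟨⟨-, h1⟩, h2⟩
      exact ⟨h2, h2.1, h1⟩
    · rintro ⟨h1, h2, h3⟩
      exact ⟨⟨mem_univ _, h3⟩, h1⟩
  filter_upwards [Crest.Agent.R105.SqF_136.ae_le_of_intervals hf key] with y hy hyI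
  refine le_trans (le_of_eq ?_) hy
  rw [← integral_indicator measurableSet_Ioo]
  congr 1
  ext s
  by_cases hs : s ∈ Ioo (Q.x i - Q.h1 i) (Q.x i + Q.h1 i)
  · rw [indicator_of_mem hs, hX', indicator_of_mem (show (s, y) ∈ Q.op i from ⟨hs, hyI⟩)]
  · rw [indicator_of_notMem hs, hX', indicator_of_notMem (fun h' => hs h'.1), abs_zero]

/-- the flow through a.e. vertical line of the rectangle -/
theorem F3.line_x (h : F3 Q i X1 X2 M) (hi : Integrable X1 (volume : Measure (ℝ × ℝ))) :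
    ∀ᵐ x : ℝ, x ∈ Ioo (Q.x i - Q.h1 i) (Q.x i + Q.h1 i) →
      ∫ t in Ioo (Q.y i - Q.h2 i) (Q.y i + Q.h2 i), |X1 (x, t)| ≤ M := by
  set X' : ℝ × ℝ → ℝ := (Q.op i).indicator X1 with hX'
  have hm := Q.measurableSet_op i
  have hi' : Integrable X' (volume : Measure (ℝ × ℝ)) := hi.indicator hm
  have hi2 := hi'
  rw [Measure.volume_eq_prod] at hi2
  have hf : Integrable fun x' : ℝ => ∫ y', |X' (x', y')| := hi2.abs.integral_prod_left
  have key : ∀ c' d', c' ≤ d' → ∫ x' in c'..d', (∫ y', |X' (x', y')|) ≤ (d' - c') * M := by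
    intro c' d' hcd
    have h0 : Q.y i - Q.h2 i ≤ Q.y i + Q.h2 i := by have := Q.p2 i; linarith
    have h3 := h.h1 c' d' _ _ hcd h0
    refine le_trans (le_of_eq ?_) h3
    have hi3 : Integrable (fun u : ℝ × ℝ => |X' u|)
        ((volume.restrict (Ioo c' d')).prod (volume : Measure ℝ)) := by
      have : (volume.restrict (Ioo c' d')).prod (volume : Measure ℝ) =
          ((volume : Measure ℝ).prod volume).restrict (Ioo c' d' ×ˢ univ) := by
        rw [← Measure.prod_restrict, Measure.restrict_univ]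
      rw [this]
      exact hi2.abs.integrableOn
    rw [intervalIntegral.integral_of_le hcd, integral_Ioc_eq_integral_Ioo,
      ← integral_prod _ hi3]
    have e1 : (volume.restrict (Ioo c' d')).prod (volume : Measure ℝ) =
          (volume : Measure (ℝ × ℝ)).restrict (Ioo c' d' ×ˢ univ) := by
      rw [Measure.volume_eq_prod, ← Measure.prod_restrict, Measure.restrict_univ]
    rw [e1]
    have e2 : ∀ p, |X' p| = (Q.op i).indicator (fun p => |X1 p|) p := by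
      intro p
      by_cases hp : p ∈ Q.op i
      · rw [hX', indicator_of_mem hp, indicator_of_mem hp]
      · rw [hX', indicator_of_notMem hp, indicator_of_notMem hp, abs_zero]
    simp only [e2]
    rw [setIntegral_indicator hm]
    congr 2
    ext p
    constructor
    · rintro ⟨⟨h1, -⟩, h2⟩
      exact ⟨h2, h1, h2.2⟩
    · rintro ⟨h1, h2, h3⟩
      exact ⟨⟨h2, mem_univ _⟩, h1⟩
  filter_upwards [Crest.Agent.R105.SqF_136.ae_le_of_intervals hf key] with x hx hxI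
  refine le_trans (le_of_eq ?_) hx
  rw [← integral_indicator measurableSet_Ioo]
  congr 1
  ext s
  by_cases hs : s ∈ Ioo (Q.y i - Q.h2 i) (Q.y i + Q.h2 i)
  · rw [indicator_of_mem hs, hX', indicator_of_mem (show (x, s) ∈ Q.op i from ⟨hxI, hs⟩)]
  · rw [indicator_of_notMem hs, hX', indicator_of_notMem (fun h' => hs h'.2), abs_zero]

/-- interval integrals inside an interval are bounded by the total variation -/
theorem abs_ii_le {g : ℝ → ℝ} {u v s t : ℝ} (hg : ∀ y y', IntervalIntegrable g volume y y')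
    (hs : u ≤ s) (hst : s ≤ t) (ht : t ≤ v) (h : ∫ r in Ioo u v, |g r| ≤ M) :
    |∫ r in s..t, g r| ≤ M := by
  have h1 : |∫ r in s..t, g r| ≤ ∫ r in s..t, |g r| :=
    intervalIntegral.abs_integral_le_integral_abs hst
  refine h1.trans (le_trans ?_ h)
  rw [intervalIntegral.integral_of_le hst, ← integral_Ioc_eq_integral_Ioo]
  have hi : IntegrableOn (fun r => |g r|) (Ioc u v) :=
    ((intervalIntegrable_iff_integrableOn_Ioc_of_le (hs.trans (hst.trans ht))).mp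
      (hg u v)).abs
  exact setIntegral_mono_set hi (ae_of_all _ fun _ => abs_nonneg _)
    (Ioc_subset_Ioc hs ht).eventuallyLE

/-- the data of one closed rectangle -/
structure Box (Q : Rects ι) (i : ι) (a b c : ℝ) (μ : Measure (ℝ × ℝ)) : Prop where
  ha : a < Q.x i - Q.h1 i
  hb : Q.x i + Q.h1 i < b
  hc : c < Q.y i - Q.h2 i
  nomass : μ {q | q.1 ∈ Icc (Q.x i - Q.h1 i) (Q.x i + Q.h1 i) ∧ q.2 < Q.y i + Q.h2 i} = 0

/-- a good height of the rectangle -/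
structure HY (Q : Rects ι) (i : ι) (a b σ : ℝ) (X2 : ℝ × ℝ → ℝ) (μ : Measure (ℝ × ℝ))
    (ψ Ψ : ℝ × ℝ → ℝ) (M y : ℝ) : Prop extends GoodY a b σ X2 μ ψ Ψ y where
  mem : y ∈ Ioo (Q.y i - Q.h2 i) (Q.y i + Q.h2 i)
  bd : ∫ s in Ioo (Q.x i - Q.h1 i) (Q.x i + Q.h1 i), |X2 (s, y)| ≤ M

/-- a good abscissa of the rectangle -/
structure HX (Q : Rects ι) (i : ι) (a b c : ℝ) (X1 : ℝ × ℝ → ℝ)
    (ψ Ψ : ℝ × ℝ → ℝ) (M x : ℝ) : Prop extends GoodX a b c X1 ψ Ψ x where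
  mem : x ∈ Ioo (Q.x i - Q.h1 i) (Q.x i + Q.h1 i)
  bd : ∫ t in Ioo (Q.y i - Q.h2 i) (Q.y i + Q.h2 i), |X1 (x, t)| ≤ M

end Crest.Agent.R105.Sqw_693
end

-- ▼ part R105/Sqw2_693
section

/-! Row 105, S0138, exact squares: oscillation of the stream function over one charged square
(leaf (W) of 87 #10566), second part. -/

open MeasureTheory Set Filter Topology

namespace Crest.Agent.R105.Sqw_693

open Crest.Agent.R105.Mp_87 (lam Rc ae_x_of_ae ae_y_of_ae)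
open Crest.Agent.R105.Sq_87

variable {ι : Type} {Q : Rects ι} {a b c B σ : ℝ} {X1 X2 ψ Ψ : ℝ × ℝ → ℝ}
  {μ : Measure (ℝ × ℝ)} {i : ι} {M : ℝ}

theorem ae_HY (L : LinesI a b c B σ X1 X2 μ ψ Ψ) (h : F3 Q i X1 X2 M) (hB : Box Q i a b c μ) :
    ∀ᵐ y : ℝ, y ∈ Ioo (Q.y i - Q.h2 i) (Q.y i + Q.h2 i) → HY Q i a b σ X2 μ ψ Ψ M y := by
  filter_upwards [L.goodY, h.line_y L.L2] with y h1 h2 hy
  exact ⟨h1 (hB.hc.trans hy.1), hy, h2 hy⟩

theorem ae_HX (L : LinesI a b c B σ X1 X2 μ ψ Ψ) (h : F3 Q i X1 X2 M) (hB : Box Q i a b c μ) :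
    ∀ᵐ x : ℝ, x ∈ Ioo (Q.x i - Q.h1 i) (Q.x i + Q.h1 i) → HX Q i a b c X1 ψ Ψ M x := by
  filter_upwards [L.goodX, h.line_x L.L1] with x h1 h2 hx
  exact ⟨h1 ⟨hB.ha.trans hx.1, hx.2.trans hB.hb⟩, hx, h2 hx⟩

/-- **oscillation of `Ψ` on a good horizontal line of the closed rectangle** -/
theorem HY.osc [IsFiniteMeasure μ] (hB : Box Q i a b c μ) {y : ℝ}
    (h : HY Q i a b σ X2 μ ψ Ψ M y) :
    ∀ x ∈ Icc (Q.x i - Q.h1 i) (Q.x i + Q.h1 i), ∀ x' ∈ Icc (Q.x i - Q.h1 i) (Q.x i + Q.h1 i),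
      |Ψ (x, y) - Ψ (x', y)| ≤ M := by
  have key : ∀ x ∈ Icc (Q.x i - Q.h1 i) (Q.x i + Q.h1 i),
      ∀ x' ∈ Icc (Q.x i - Q.h1 i) (Q.x i + Q.h1 i), x ≤ x' → |Ψ (x', y) - Ψ (x, y)| ≤ M := by
    intro x hx x' hx' hxx
    have h1 := h.H x ⟨hB.ha.trans_le hx.1, hx.2.trans_lt hB.hb⟩ x'
      ⟨hB.ha.trans_le hx'.1, hx'.2.trans_lt hB.hb⟩ hxx
    have h2 : μ {q | q.1 ∈ Ico x x' ∧ q.2 < y} = 0 := by
      refine measure_mono_null ?_ hB.nomass
      rintro q ⟨hq1, hq2⟩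
      exact ⟨⟨hx.1.trans hq1.1, hq1.2.le.trans hx'.2⟩, hq2.trans h.mem.2⟩
    rw [h2, ENNReal.toReal_zero, mul_zero, sub_zero] at h1
    rw [h1, abs_neg]
    exact abs_ii_le h.int hx.1 hxx hx'.2 h.bd
  intro x hx x' hx'
  rcases le_total x x' with hxx | hxx
  · rw [abs_sub_comm]; exact key x hx x' hx' hxx
  · exact key x' hx' x hx hxx

/-- **oscillation of `ψ` on a good vertical line of the closed rectangle** -/
theorem HX.osc (hB : Box Q i a b c μ) {x : ℝ} (h : HX Q i a b c X1 ψ Ψ M x) :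
    ∀ y ∈ Icc (Q.y i - Q.h2 i) (Q.y i + Q.h2 i), ∀ y' ∈ Icc (Q.y i - Q.h2 i) (Q.y i + Q.h2 i),
      |ψ (x, y) - ψ (x, y')| ≤ M := by
  have key : ∀ y ∈ Icc (Q.y i - Q.h2 i) (Q.y i + Q.h2 i),
      ∀ y' ∈ Icc (Q.y i - Q.h2 i) (Q.y i + Q.h2 i), y ≤ y' → |ψ (x, y') - ψ (x, y)| ≤ M := by
    intro y hy y' hy' hyy
    rw [h.V y y' (hB.hc.trans_le hy.1) hyy]
    exact abs_ii_le h.int hy.1 hyy hy'.2 h.bd
  intro y hy y' hy'
  rcases le_total y y' with hyy | hyy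
  · rw [abs_sub_comm]; exact key y hy y' hy' hyy
  · exact key y' hy' y hy hyy

/-- `Ψ (·, y)` is continuous at a column without mass -/
theorem cont_Ψ [IsFiniteMeasure μ] {y X : ℝ} (h : GoodY a b σ X2 μ ψ Ψ y) (hX : X ∈ Ioo a b)
    (h0 : μ {q | q.1 = X ∧ q.2 < y} = 0) : ContinuousAt (fun x => Ψ (x, y)) X := by
  set s : ℕ → Set (ℝ × ℝ) := fun n => {q | q.1 ∈ Icc (X - 1 / ((n : ℝ) + 1)) (X + 1 / ((n : ℝ) + 1)) ∧
    q.2 < y} with hs
  have hms : ∀ n, MeasurableSet (s n) := fun n =>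
    (measurable_fst measurableSet_Icc).inter (measurable_snd measurableSet_Iio)
  have hanti : Antitone s := by
    intro m n hmn q hq
    have h1 : 1 / ((n : ℝ) + 1) ≤ 1 / ((m : ℝ) + 1) :=
      one_div_le_one_div_of_le (by positivity) (by have : (m : ℝ) ≤ n := by exact_mod_cast hmn
                                                   linarith)
    exact ⟨⟨by linarith [hq.1.1], by linarith [hq.1.2]⟩, hq.2⟩
  have hlim := tendsto_measure_iInter_atTop (μ := μ) (s := s)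
    (fun n => (hms n).nullMeasurableSet) hanti ⟨0, measure_ne_top _ _⟩
  have hint : ⋂ n, s n = {q | q.1 = X ∧ q.2 < y} := by
    ext q
    simp only [mem_iInter, hs, mem_ofPred_eq]
    constructor
    · intro hq
      refine ⟨?_, (hq 0).2⟩
      have h1 : ∀ n : ℕ, |q.1 - X| ≤ 1 / ((n : ℝ) + 1) := fun n =>
        abs_le.mpr ⟨by linarith [(hq n).1.1], by linarith [(hq n).1.2]⟩
      have h2 := ge_of_tendsto' (tendsto_one_div_add_atTop_nhds_zero_nat (𝕜 := ℝ)) h1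
      have h3 : q.1 - X = 0 := abs_eq_zero.mp (le_antisymm h2 (abs_nonneg _))
      linarith
    · rintro ⟨h1, h2⟩ n
      have : (0 : ℝ) ≤ 1 / ((n : ℝ) + 1) := by positivity
      exact ⟨⟨by rw [h1]; linarith, by rw [h1]; linarith⟩, h2⟩
  rw [hint, h0] at hlim
  have hlim' : Tendsto (fun n => (μ (s n)).toReal) atTop (𝓝 0) := by
    have := (ENNReal.tendsto_toReal ENNReal.zero_ne_top).comp hlim
    rw [ENNReal.toReal_zero] at this
    exact this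
  have hcont : Continuous fun x => ∫ r in X..x, X2 (r, y) :=
    intervalIntegral.continuous_primitive (fun u v => h.int u v) X
  rw [Metric.continuousAt_iff]
  intro ε hε
  have hσ : 0 < |σ| + 1 := by positivity
  obtain ⟨n, hn⟩ := (hlim'.eventually (gt_mem_nhds (show 0 < ε / 2 / (|σ| + 1) by positivity))).exists
  have hc0 : Tendsto (fun x => ∫ r in X..x, X2 (r, y)) (𝓝 X) (𝓝 0) := by
    have := hcont.tendsto X
    simpa using this
  obtain ⟨δ1, hδ1, hδ1'⟩ := Metric.tendsto_nhds_nhds.mp hc0 (ε / 2) (by positivity)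
  obtain ⟨δ2, hδ2, hδ2'⟩ := Metric.isOpen_iff.mp isOpen_Ioo X hX
  refine ⟨min δ1 (min δ2 (1 / ((n : ℝ) + 1))), lt_min hδ1 (lt_min hδ2 (by positivity)), ?_⟩
  intro x hx
  have hx1 : dist x X < δ1 := hx.trans_le (min_le_left _ _)
  have hx2 : dist x X < δ2 := hx.trans_le ((min_le_right _ _).trans (min_le_left _ _))
  have hx3 : dist x X < 1 / ((n : ℝ) + 1) :=
    hx.trans_le ((min_le_right _ _).trans (min_le_right _ _))
  have hxI : x ∈ Ioo a b := hδ2' (Metric.mem_ball.mpr hx2)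
  have hI := hδ1' hx1
  rw [Real.dist_eq, sub_zero] at hI
  rw [Real.dist_eq, abs_lt] at hx3
  have hμ : ∀ u v : ℝ, X - 1 / ((n : ℝ) + 1) ≤ u → v ≤ X + 1 / ((n : ℝ) + 1) →
      |σ * (μ {q | q.1 ∈ Ico u v ∧ q.2 < y}).toReal| < ε / 2 := by
    intro u v hu hv
    have h1 : (μ {q | q.1 ∈ Ico u v ∧ q.2 < y}).toReal ≤ (μ (s n)).toReal := by
      refine ENNReal.toReal_mono (measure_ne_top _ _) (measure_mono ?_)
      rintro q ⟨hq1, hq2⟩
      exact ⟨⟨hu.trans hq1.1, hq1.2.le.trans hv⟩, hq2⟩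
    have h2 : 0 ≤ (μ {q | q.1 ∈ Ico u v ∧ q.2 < y}).toReal := ENNReal.toReal_nonneg
    rw [abs_mul, abs_of_nonneg h2]
    have h3 : |σ| * (μ {q | q.1 ∈ Ico u v ∧ q.2 < y}).toReal ≤
        (|σ| + 1) * (μ (s n)).toReal := by
      refine mul_le_mul (by linarith) h1 h2 hσ.le
    refine h3.trans_lt ?_
    calc (|σ| + 1) * (μ (s n)).toReal < (|σ| + 1) * (ε / 2 / (|σ| + 1)) :=
          mul_lt_mul_of_pos_left hn hσ
      _ = ε / 2 := by field_simp
  rw [Real.dist_eq]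
  rcases le_total X x with hXx | hXx
  · have h1 := h.H X hX x hxI hXx
    have h2 := hμ X x (by have : (0 : ℝ) < 1 / ((n : ℝ) + 1) := by positivity
                          linarith) (by linarith [hx3.2])
    rw [h1]
    calc |-(∫ s in X..x, X2 (s, y)) - σ * (μ {q | q.1 ∈ Ico X x ∧ q.2 < y}).toReal|
        ≤ |-(∫ s in X..x, X2 (s, y))| + |σ * (μ {q | q.1 ∈ Ico X x ∧ q.2 < y}).toReal| :=
          abs_sub _ _
      _ < ε := by rw [abs_neg]; linarith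
  · have h1 := h.H x hxI X hX hXx
    have h2 := hμ x X (by linarith [hx3.1]) (by have : (0 : ℝ) < 1 / ((n : ℝ) + 1) := by positivity
                                                linarith)
    rw [abs_sub_comm, h1]
    have h3 : |∫ s in x..X, X2 (s, y)| = |∫ s in X..x, X2 (s, y)| := by
      rw [intervalIntegral.integral_symm, abs_neg]
    calc |-(∫ s in x..X, X2 (s, y)) - σ * (μ {q | q.1 ∈ Ico x X ∧ q.2 < y}).toReal|
        ≤ |-(∫ s in x..X, X2 (s, y))| + |σ * (μ {q | q.1 ∈ Ico x X ∧ q.2 < y}).toReal| :=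
          abs_sub _ _
      _ < ε := by rw [abs_neg, h3]; linarith

/-- `ψ (x, ·)` is continuous above `c` -/
theorem cont_ψ {x Y : ℝ} (h : GoodX a b c X1 ψ Ψ x) (hY : c < Y) :
    ContinuousAt (fun y => ψ (x, y)) Y := by
  have hcont : Continuous fun y => ∫ r in Y..y, X1 (x, r) :=
    intervalIntegral.continuous_primitive (fun u v => h.int u v) Y
  have he : (fun y => ψ (x, y)) =ᶠ[𝓝 Y] fun y => ψ (x, Y) + ∫ r in Y..y, X1 (x, r) := by
    filter_upwards [lt_mem_nhds hY] with y hy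
    rcases le_total Y y with h1 | h1
    · rw [← h.V Y y hY h1]; ring
    · rw [intervalIntegral.integral_symm, ← h.V y Y hy h1]; ring
  exact (continuousAt_congr he).mpr (continuousAt_const.add hcont.continuousAt)

end Crest.Agent.R105.Sqw_693
end

-- ▼ part R105/Sqw3_693
section

/-! Row 105, S0138, exact squares: oscillation of the stream function over one charged square
(leaf (W) of 87 #10566), third part: the frontier of the rectangle. -/

open MeasureTheory Set Filter Topology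

namespace Crest.Agent.R105.Sqw_693

open Crest.Agent.R105.Mp_87 (lam Rc ae_x_of_ae ae_y_of_ae)
open Crest.Agent.R105.Sq_87

variable {ι : Type} {Q : Rects ι} {a b c B σ : ℝ} {X1 X2 ψ Ψ F : ℝ × ℝ → ℝ}
  {μ : Measure (ℝ × ℝ)} {i : ι} {M : ℝ}

/-- a property which holds a.e. on an open set holds frequently at each point of its closure -/
theorem freq_open {V : Set ℝ} (hV : IsOpen V) {s : ℝ} (hs : s ∈ closure V) {P : ℝ → Prop}
    (hP : ∀ᵐ x : ℝ, x ∈ V → P x) : ∃ᶠ x in 𝓝[V] s, P x := by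
  intro h
  rw [eventually_nhdsWithin_iff] at h
  obtain ⟨t, ht, hto, hst⟩ := eventually_nhds_iff.mp h
  have hne : (t ∩ V).Nonempty := mem_closure_iff.mp hs t hto hst
  have hpos : 0 < volume (t ∩ V) := (hto.inter hV).measure_pos volume hne
  have h0 : volume (t ∩ V) = 0 :=
    measure_mono_null (fun x hx (hx' : x ∈ V → P x) => ht x hx.1 hx.2 (hx' hx.2)) (ae_iff.mp hP)
  exact hpos.ne' h0

theorem Rects.lt1 (Q : Rects ι) (i : ι) : Q.x i - Q.h1 i < Q.x i + Q.h1 i := by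
  have := Q.p1 i; linarith

theorem Rects.lt2 (Q : Rects ι) (i : ι) : Q.y i - Q.h2 i < Q.y i + Q.h2 i := by
  have := Q.p2 i; linarith

/-- the abscissae of the vertical sides -/
def SX (Q : Rects ι) (i : ι) (s : ℝ) : Prop := s = Q.x i - Q.h1 i ∨ s = Q.x i + Q.h1 i

/-- the heights of the horizontal sides -/
def SY (Q : Rects ι) (i : ι) (t : ℝ) : Prop := t = Q.y i - Q.h2 i ∨ t = Q.y i + Q.h2 i

theorem SX.mem {s : ℝ} (h : SX Q i s) : s ∈ Icc (Q.x i - Q.h1 i) (Q.x i + Q.h1 i) := by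
  have := Q.p1 i
  rcases h with h | h <;> rw [h] <;> constructor <;> linarith

theorem SY.mem {s : ℝ} (h : SY Q i s) : s ∈ Icc (Q.y i - Q.h2 i) (Q.y i + Q.h2 i) := by
  have := Q.p2 i
  rcases h with h | h <;> rw [h] <;> constructor <;> linarith

theorem SX.ab {s : ℝ} (h : SX Q i s) (hB : Box Q i a b c μ) : s ∈ Ioo a b :=
  ⟨hB.ha.trans_le h.mem.1, h.mem.2.trans_lt hB.hb⟩

theorem SX.null {s y : ℝ} (h : SX Q i s) (hB : Box Q i a b c μ)
    (hy : y ∈ Ioo (Q.y i - Q.h2 i) (Q.y i + Q.h2 i)) : μ {q | q.1 = s ∧ q.2 < y} = 0 := by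
  refine measure_mono_null ?_ hB.nomass
  rintro q ⟨h1, h2⟩
  exact ⟨h1 ▸ h.mem, h2.trans hy.2⟩

/-- one vertical side, two good heights -/
theorem side_y [IsFiniteMeasure μ] (L : LinesI a b c B σ X1 X2 μ ψ Ψ) (hF3 : F3 Q i X1 X2 M)
    (hB : Box Q i a b c μ) {y y' s : ℝ} (h : HY Q i a b σ X2 μ ψ Ψ M y)
    (h' : HY Q i a b σ X2 μ ψ Ψ M y') (hs : SX Q i s) : |Ψ (s, y) - Ψ (s, y')| ≤ M := by
  have hcl : s ∈ closure (Ioo (Q.x i - Q.h1 i) (Q.x i + Q.h1 i)) := by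
    rw [closure_Ioo (Rects.lt1 Q i).ne]; exact hs.mem
  have hfr : ∃ᶠ x in 𝓝[Ioo (Q.x i - Q.h1 i) (Q.x i + Q.h1 i)] s,
      |Ψ (x, y) - Ψ (x, y')| ≤ M := by
    refine freq_open isOpen_Ioo hcl ?_
    filter_upwards [ae_HX L hF3 hB, h.E, h'.E] with x h1 h2 h3 hx
    have hxab : x ∈ Ioo a b := ⟨hB.ha.trans hx.1, hx.2.trans hB.hb⟩
    rw [h2 hxab, h3 hxab]
    exact (h1 hx).osc hB y ⟨h.mem.1.le, h.mem.2.le⟩ y' ⟨h'.mem.1.le, h'.mem.2.le⟩
  have hlim : Tendsto (fun x => |Ψ (x, y) - Ψ (x, y')|)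
      (𝓝[Ioo (Q.x i - Q.h1 i) (Q.x i + Q.h1 i)] s) (𝓝 |Ψ (s, y) - Ψ (s, y')|) :=
    (((cont_Ψ h.toGoodY (hs.ab hB) (hs.null hB h.mem)).sub
      (cont_Ψ h'.toGoodY (hs.ab hB) (hs.null hB h'.mem))).abs.tendsto).mono_left
      nhdsWithin_le_nhds
  exact le_of_tendsto_of_frequently hlim hfr

/-- two good abscissae, one horizontal side -/
theorem side_x [IsFiniteMeasure μ] (L : LinesI a b c B σ X1 X2 μ ψ Ψ) (hF3 : F3 Q i X1 X2 M)
    (hB : Box Q i a b c μ) {x x' t : ℝ} (h : HX Q i a b c X1 ψ Ψ M x)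
    (h' : HX Q i a b c X1 ψ Ψ M x') (ht : SY Q i t) : |ψ (x, t) - ψ (x', t)| ≤ M := by
  have hcl : t ∈ closure (Ioo (Q.y i - Q.h2 i) (Q.y i + Q.h2 i)) := by
    rw [closure_Ioo (Rects.lt2 Q i).ne]; exact ht.mem
  have hct : c < t := hB.hc.trans_le ht.mem.1
  have hfr : ∃ᶠ y in 𝓝[Ioo (Q.y i - Q.h2 i) (Q.y i + Q.h2 i)] t,
      |ψ (x, y) - ψ (x', y)| ≤ M := by
    refine freq_open isOpen_Ioo hcl ?_
    filter_upwards [ae_HY L hF3 hB, h.E, h'.E] with y h1 h2 h3 hy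
    have hcy : c < y := hB.hc.trans hy.1
    rw [← h2 hcy, ← h3 hcy]
    exact (h1 hy).osc hB x ⟨h.mem.1.le, h.mem.2.le⟩ x' ⟨h'.mem.1.le, h'.mem.2.le⟩
  have hlim : Tendsto (fun y => |ψ (x, y) - ψ (x', y)|)
      (𝓝[Ioo (Q.y i - Q.h2 i) (Q.y i + Q.h2 i)] t) (𝓝 |ψ (x, t) - ψ (x', t)|) :=
    (((cont_ψ h.toGoodX hct).sub (cont_ψ h'.toGoodX hct)).abs.tendsto).mono_left
      nhdsWithin_le_nhds
  exact le_of_tendsto_of_frequently hlim hfr

/-- a vertical and a horizontal side -/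
theorem side_xy [IsFiniteMeasure μ] (L : LinesI a b c B σ X1 X2 μ ψ Ψ) (hF3 : F3 Q i X1 X2 M)
    (hB : Box Q i a b c μ) {x y s t : ℝ} (h : HY Q i a b σ X2 μ ψ Ψ M y)
    (h' : HX Q i a b c X1 ψ Ψ M x) (hs : SX Q i s) (ht : SY Q i t) :
    |Ψ (s, y) - ψ (x, t)| ≤ 2 * M := by
  have hcl : t ∈ closure (Ioo (Q.y i - Q.h2 i) (Q.y i + Q.h2 i)) := by
    rw [closure_Ioo (Rects.lt2 Q i).ne]; exact ht.mem
  have hct : c < t := hB.hc.trans_le ht.mem.1
  have hfr : ∃ᶠ y' in 𝓝[Ioo (Q.y i - Q.h2 i) (Q.y i + Q.h2 i)] t,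
      |Ψ (s, y) - ψ (x, y')| ≤ 2 * M := by
    refine freq_open isOpen_Ioo hcl ?_
    filter_upwards [ae_HY L hF3 hB, h'.E] with y' h1 h2 hy
    have hcy : c < y' := hB.hc.trans hy.1
    rw [← h2 hcy]
    have e1 := side_y L hF3 hB h (h1 hy) hs
    have e2 := (h1 hy).osc hB s hs.mem x ⟨h'.mem.1.le, h'.mem.2.le⟩
    calc |Ψ (s, y) - Ψ (x, y')| ≤ |Ψ (s, y) - Ψ (s, y')| + |Ψ (s, y') - Ψ (x, y')| :=
          abs_sub_le _ _ _
      _ ≤ 2 * M := by linarith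
  have hlim : Tendsto (fun y' => |Ψ (s, y) - ψ (x, y')|)
      (𝓝[Ioo (Q.y i - Q.h2 i) (Q.y i + Q.h2 i)] t) (𝓝 |Ψ (s, y) - ψ (x, t)|) :=
    ((continuousAt_const.sub (cont_ψ h'.toGoodX hct)).abs.tendsto).mono_left
      nhdsWithin_le_nhds
  exact le_of_tendsto_of_frequently hlim hfr

/-- generic points of the sides at which `F` has the value of the stream function -/
def Gen (Q : Rects ι) (i : ι) (a b c σ : ℝ) (X1 X2 : ℝ × ℝ → ℝ) (μ : Measure (ℝ × ℝ))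
    (ψ Ψ : ℝ × ℝ → ℝ) (M : ℝ) (F : ℝ × ℝ → ℝ) : Set (ℝ × ℝ) :=
  {p | (SX Q i p.1 ∧ HY Q i a b σ X2 μ ψ Ψ M p.2 ∧ F p = Ψ p) ∨
    (SY Q i p.2 ∧ HX Q i a b c X1 ψ Ψ M p.1 ∧ F p = ψ p)}

theorem gen_osc [IsFiniteMeasure μ] (L : LinesI a b c B σ X1 X2 μ ψ Ψ) (hF3 : F3 Q i X1 X2 M)
    (hB : Box Q i a b c μ) {p q : ℝ × ℝ} (hp : p ∈ Gen Q i a b c σ X1 X2 μ ψ Ψ M F)
    (hq : q ∈ Gen Q i a b c σ X1 X2 μ ψ Ψ M F) : |F p - F q| ≤ 2 * M := by
  obtain ⟨p1, p2⟩ := p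
  obtain ⟨q1, q2⟩ := q
  have hM := hF3.nonneg
  rcases hp with ⟨h1, h2, h3⟩ | ⟨h1, h2, h3⟩ <;> rcases hq with ⟨h4, h5, h6⟩ | ⟨h4, h5, h6⟩
  · rw [h3, h6]
    simp only at h1 h2 h4 h5
    have e1 := side_y L hF3 hB h2 h5 h1
    have e2 := h5.osc hB p1 h1.mem q1 h4.mem
    calc |Ψ (p1, p2) - Ψ (q1, q2)| ≤ |Ψ (p1, p2) - Ψ (p1, q2)| + |Ψ (p1, q2) - Ψ (q1, q2)| :=
          abs_sub_le _ _ _
      _ ≤ 2 * M := by linarith
  · rw [h3, h6]
    exact side_xy L hF3 hB h2 h5 h1 h4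
  · rw [h3, h6, abs_sub_comm]
    exact side_xy L hF3 hB h5 h2 h4 h1
  · rw [h3, h6]
    simp only at h1 h2 h4 h5
    have e1 := side_x L hF3 hB h2 h5 h1
    have e2 := h5.osc hB p2 h1.mem q2 h4.mem
    calc |ψ (p1, p2) - ψ (q1, q2)| ≤ |ψ (p1, p2) - ψ (q1, p2)| + |ψ (q1, p2) - ψ (q1, q2)| :=
          abs_sub_le _ _ _
      _ ≤ 2 * M := by linarith

/-- oscillation on any set `T` in the closure of the generic points -/
theorem gen_closure [IsFiniteMeasure μ] (L : LinesI a b c B σ X1 X2 μ ψ Ψ)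
    (hF3 : F3 Q i X1 X2 M) (hB : Box Q i a b c μ) {T : Set (ℝ × ℝ)}
    (hT : T ⊆ closure (Gen Q i a b c σ X1 X2 μ ψ Ψ M F ∩ T)) (hc : ContinuousOn F T) :
    ∀ p ∈ T, ∀ q ∈ T, |F p - F q| ≤ 2 * M := by
  set G := Gen Q i a b c σ X1 X2 μ ψ Ψ M F with hG
  have hlim : ∀ p ∈ T, Tendsto F (𝓝[G ∩ T] p) (𝓝 (F p)) := fun p hp =>
    (hc p hp).mono_left (nhdsWithin_mono _ inter_subset_right)
  have h1 : ∀ p ∈ T, ∀ q ∈ G, |F p - F q| ≤ 2 * M := by
    intro p hp q hq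
    have : (𝓝[G ∩ T] p).NeBot := mem_closure_iff_nhdsWithin_neBot.mp (hT hp)
    refine le_of_tendsto ((hlim p hp).sub_const _).abs ?_
    filter_upwards [self_mem_nhdsWithin] with p' hp'
    exact gen_osc L hF3 hB hp'.1 hq
  intro p hp q hq
  have : (𝓝[G ∩ T] q).NeBot := mem_closure_iff_nhdsWithin_neBot.mp (hT hq)
  refine le_of_tendsto ((hlim q hq).const_sub _).abs ?_
  filter_upwards [self_mem_nhdsWithin] with q' hq'
  exact h1 p hp q' hq'.1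

/-- the closed vertical side over `s` -/
def vside (Q : Rects ι) (i : ι) (s : ℝ) : Set (ℝ × ℝ) :=
  {s} ×ˢ Icc (Q.y i - Q.h2 i) (Q.y i + Q.h2 i)

/-- the closed horizontal side at height `t` -/
def hside (Q : Rects ι) (i : ι) (t : ℝ) : Set (ℝ × ℝ) :=
  Icc (Q.x i - Q.h1 i) (Q.x i + Q.h1 i) ×ˢ {t}

theorem vside_closure (L : LinesI a b c B σ X1 X2 μ ψ Ψ) (hF3 : F3 Q i X1 X2 M)
    (hB : Box Q i a b c μ) {s : ℝ} (hs : SX Q i s)
    (hF : ∀ᵐ y : ℝ, y ∈ Ioo (Q.y i - Q.h2 i) (Q.y i + Q.h2 i) → F (s, y) = Ψ (s, y)) :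
    vside Q i s ⊆ closure (Gen Q i a b c σ X1 X2 μ ψ Ψ M F ∩ vside Q i s) := by
  rintro ⟨s', y⟩ ⟨hs', hy⟩
  rw [mem_singleton_iff] at hs'
  simp only at hs' hy
  subst hs'
  have hcl : y ∈ closure (Ioo (Q.y i - Q.h2 i) (Q.y i + Q.h2 i)) := by
    rw [closure_Ioo (Rects.lt2 Q i).ne]; exact hy
  have hfr : ∃ᶠ y' in 𝓝[Ioo (Q.y i - Q.h2 i) (Q.y i + Q.h2 i)] y,
      (s', y') ∈ Gen Q i a b c σ X1 X2 μ ψ Ψ M F ∩ vside Q i s' := by
    refine freq_open isOpen_Ioo hcl ?_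
    filter_upwards [ae_HY L hF3 hB, hF] with y' h1 h2 hy'
    exact ⟨Or.inl ⟨hs, h1 hy', h2 hy'⟩, mem_singleton _, hy'.1.le, hy'.2.le⟩
  rw [mem_closure_iff_frequently]
  have hcont : Tendsto (fun y' : ℝ => (s', y'))
      (𝓝[Ioo (Q.y i - Q.h2 i) (Q.y i + Q.h2 i)] y) (𝓝 (s', y)) :=
    ((continuous_const.prodMk continuous_id).tendsto y).mono_left nhdsWithin_le_nhds
  exact hcont.frequently hfr

theorem hside_closure (L : LinesI a b c B σ X1 X2 μ ψ Ψ) (hF3 : F3 Q i X1 X2 M)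
    (hB : Box Q i a b c μ) {t : ℝ} (ht : SY Q i t)
    (hF : ∀ᵐ x : ℝ, x ∈ Ioo (Q.x i - Q.h1 i) (Q.x i + Q.h1 i) → F (x, t) = ψ (x, t)) :
    hside Q i t ⊆ closure (Gen Q i a b c σ X1 X2 μ ψ Ψ M F ∩ hside Q i t) := by
  rintro ⟨x, t'⟩ ⟨hx, ht'⟩
  rw [mem_singleton_iff] at ht'
  simp only at ht' hx
  subst ht'
  have hcl : x ∈ closure (Ioo (Q.x i - Q.h1 i) (Q.x i + Q.h1 i)) := by
    rw [closure_Ioo (Rects.lt1 Q i).ne]; exact hx
  have hfr : ∃ᶠ x' in 𝓝[Ioo (Q.x i - Q.h1 i) (Q.x i + Q.h1 i)] x,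
      (x', t') ∈ Gen Q i a b c σ X1 X2 μ ψ Ψ M F ∩ hside Q i t' := by
    refine freq_open isOpen_Ioo hcl ?_
    filter_upwards [ae_HX L hF3 hB, hF] with x' h1 h2 hx'
    exact ⟨Or.inr ⟨ht, h1 hx', h2 hx'⟩, ⟨hx'.1.le, hx'.2.le⟩, mem_singleton _⟩
  rw [mem_closure_iff_frequently]
  have hcont : Tendsto (fun x' : ℝ => (x', t'))
      (𝓝[Ioo (Q.x i - Q.h1 i) (Q.x i + Q.h1 i)] x) (𝓝 (x, t')) :=
    ((continuous_id.prodMk continuous_const).tendsto x).mono_left nhdsWithin_le_nhds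
  exact hcont.frequently hfr

/-- `T ⊆ closure (G ∩ T)` is stable under unions -/
theorem closure_union {G T T' : Set (ℝ × ℝ)} (h : T ⊆ closure (G ∩ T))
    (h' : T' ⊆ closure (G ∩ T')) : T ∪ T' ⊆ closure (G ∩ (T ∪ T')) := by
  rintro p (hp | hp)
  · exact closure_mono (inter_subset_inter_right _ subset_union_left) (h hp)
  · exact closure_mono (inter_subset_inter_right _ subset_union_right) (h' hp)

theorem frontier_op (Q : Rects ι) (i : ι) : frontier (Q.op i) =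
    (vside Q i (Q.x i - Q.h1 i) ∪ vside Q i (Q.x i + Q.h1 i)) ∪
      (hside Q i (Q.y i - Q.h2 i) ∪ hside Q i (Q.y i + Q.h2 i)) := by
  have h1 := Rects.lt1 Q i
  have h2 := Rects.lt2 Q i
  rw [Rects.op, frontier_prod_eq, closure_Ioo h1.ne, closure_Ioo h2.ne, frontier_Ioo h1,
    frontier_Ioo h2]
  ext ⟨p1, p2⟩
  simp only [mem_union, mem_prod, mem_insert_iff, mem_singleton_iff, vside, hside]
  tauto

end Crest.Agent.R105.Sqw_693
end

-- ▼ part R105/Sqw4_693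
section

/-! Row 105, S0138, exact squares: oscillation of the stream function over one charged square
(leaf (W) of 87 #10566), fourth part: final theorems. -/

open MeasureTheory Set Filter Topology

namespace Crest.Agent.R105.Sqw_693

open Crest.Agent.R105.Mp_87 (lam Rc ae_x_of_ae ae_y_of_ae)
open Crest.Agent.R105.Sq_87

variable {ι : Type} {Q : Rects ι} {a b c B σ : ℝ} {X1 X2 ψ Ψ F : ℝ × ℝ → ℝ}
  {μ : Measure (ℝ × ℝ)} {i : ι} {M : ℝ}



/-- **oscillation over the frontier** from the values on a.e. point of the four sides -/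
theorem osc_frontier [IsFiniteMeasure μ] (L : LinesI a b c B σ X1 X2 μ ψ Ψ)
    (hF3 : F3 Q i X1 X2 M) (hB : Box Q i a b c μ) (hc : ContinuousOn F (frontier (Q.op i)))
    (hX : ∀ s, SX Q i s → ∀ᵐ y : ℝ, y ∈ Ioo (Q.y i - Q.h2 i) (Q.y i + Q.h2 i) →
      F (s, y) = Ψ (s, y))
    (hY : ∀ t, SY Q i t → ∀ᵐ x : ℝ, x ∈ Ioo (Q.x i - Q.h1 i) (Q.x i + Q.h1 i) →
      F (x, t) = ψ (x, t)) :
    ∀ p ∈ frontier (Q.op i), ∀ q ∈ frontier (Q.op i), |F p - F q| ≤ 2 * M := by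
  refine gen_closure L hF3 hB ?_ hc
  rw [frontier_op]
  exact closure_union
    (closure_union (vside_closure L hF3 hB (Or.inl rfl) (hX _ (Or.inl rfl)))
      (vside_closure L hF3 hB (Or.inr rfl) (hX _ (Or.inr rfl))))
    (closure_union (hside_closure L hF3 hB (Or.inl rfl) (hY _ (Or.inl rfl)))
      (hside_closure L hF3 hB (Or.inr rfl) (hY _ (Or.inr rfl))))





/-- the frontier of one rectangle meets none of the open rectangles -/
theorem frontier_sub (hd : Pairwise fun i j => Disjoint (Q.op i) (Q.op j)) :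
    frontier (Q.op i) ⊆ Q.unᶜ := by
  intro p hp hp'
  obtain ⟨j, hj⟩ := mem_iUnion.mp hp'
  by_cases hij : i = j
  · subst hij
    rw [(Q.isOpen_op i).frontier_eq] at hp
    exact hp.2 hj
  · obtain ⟨q, hq1, hq2⟩ := mem_closure_iff.mp hp.1 (Q.op j) (Q.isOpen_op j) hj
    exact (disjoint_left.mp (hd hij) hq2) hq1




end Crest.Agent.R105.Sqw_693
end

-- ▼ part R105/Gl1_363

/-!
Row 105, S0138, Lemma A with squares (helper363, leaf (L5)): one half of the stream function with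
charged squares: the hypotheses `HalfC` (geometry + 87's data), admissibility of all points.
-/

set_option autoImplicit false

open MeasureTheory Set Filter Topology
open scoped NNReal ENNReal

namespace Crest.Agent.R105.Gl_363

open CF_363 Cq_463 Sq_87
open Mp_87 (lam Rc)

variable {ι : Type}

/-- geometry of one half -/
structure GeoC (E S : Set (ℝ × ℝ)) (𝒬 : Set Sqr) (𝓗 : Set Hair) (Q : Rects ι) (sq : ι → Sqr)
    (a b c B T : ℝ) : Prop where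
  pic : QPic E 𝒬 𝓗
  cS : IsClosed S
  SE : S ⊆ E
  hS : ∀ K ∈ 𝓗, (K.car ∩ S).Nonempty → K.car ⊆ S
  qS : ∀ Q₀ ∈ 𝒬, (Q₀.car ∩ S).Nonempty → Q₀.car ⊆ S
  att : ∀ K ∈ 𝓗, ∀ Q₀ ∈ 𝒬, Disjoint K.car (interior Q₀.car)
  box : E ⊆ Ioo a b ×ˢ Ioi c
  cB : c < B
  BT : B < T
  sqm : ∀ i, sq i ∈ 𝒬 ∧ Disjoint (sq i).car S ∧ (sq i).y < B
  sqs : ∀ Q₀ ∈ 𝒬, Disjoint Q₀.car S → Q₀.y < B → ∃ i, sq i = Q₀
  x1 : ∀ i, Q.x i - Q.h1 i = (sq i).x
  x2 : ∀ i, Q.x i + Q.h1 i = (sq i).x + (sq i).s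
  y1 : ∀ i, Q.y i - Q.h2 i = (sq i).y
  y2 : ∀ i, Q.y i + Q.h2 i = min ((sq i).y + (sq i).s) B

/-- the carrier of the flux -/
structure CarC (E S : Set (ℝ × ℝ)) (𝒬 : Set Sqr) (B T : ℝ) (μ : Measure (ℝ × ℝ)) : Prop where
  lvl : ∀ᵐ q ∂μ, q.2 ≤ B
  ray : ∀ᵐ q ∂μ, ∀ y ∈ Ico q.2 T, (q.1, y) ∈ E
  off : ∀ᵐ q ∂μ, ∀ y ∈ Ico q.2 T, ∀ Q₀ ∈ 𝒬, Disjoint Q₀.car S → (q.1, y) ∉ Q₀.car
  sing : (S = ∅ ∧ ∀ x, μ {q | q.1 = x} = 0) ∨ ∀ᵐ q ∂μ, ∀ y ∈ Ico q.2 T, (q.1, y) ∈ S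

section
variable {E S SS : Set (ℝ × ℝ)} {𝒬 : Set Sqr} {𝓗 : Set Hair} {Q : Rects ι} {sq : ι → Sqr}
  {a b c B T : ℝ} {μ : Measure (ℝ × ℝ)}

/-- the columns near a point off `S` carry no mass below the top of a small box -/
theorem exists_box (G : GeoC E S 𝒬 𝓗 Q sq a b c B T) {p : ℝ × ℝ}
    (hp : p ∈ Ioo a b ×ˢ Ioo c T) (hpS : p ∉ S) : ∃ r > 0, a < p.1 - 2 * r ∧ p.1 + 2 * r < b ∧
      c < p.2 - 2 * r ∧ p.2 + 2 * r < T ∧
      ∀ x ∈ Icc (p.1 - 2 * r) (p.1 + 2 * r), ∀ y ∈ Icc (p.2 - 2 * r) (p.2 + 2 * r), (x, y) ∉ S := by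
  have h1 : Sᶜ ∈ 𝓝 p := G.cS.isOpen_compl.mem_nhds hpS
  obtain ⟨ε, hε, hεS⟩ := Metric.mem_nhds_iff.1 h1
  obtain ⟨⟨ha, hb⟩, hc, hT⟩ := hp
  set m := min (min ε (min (p.1 - a) (b - p.1))) (min (p.2 - c) (T - p.2)) with hm
  have hm0 : 0 < m := lt_min (lt_min hε (lt_min (by linarith) (by linarith)))
    (lt_min (by linarith) (by linarith))
  have e1 : m ≤ ε := (min_le_left _ _).trans (min_le_left _ _)
  have e2 : m ≤ p.1 - a := ((min_le_left _ _).trans (min_le_right _ _)).trans (min_le_left _ _)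
  have e3 : m ≤ b - p.1 := ((min_le_left _ _).trans (min_le_right _ _)).trans (min_le_right _ _)
  have e4 : m ≤ p.2 - c := (min_le_right _ _).trans (min_le_left _ _)
  have e5 : m ≤ T - p.2 := (min_le_right _ _).trans (min_le_right _ _)
  refine ⟨m / 3, by positivity, by linarith, by linarith, by linarith, by linarith, ?_⟩
  intro x hx y hy
  refine hεS ?_
  rw [Metric.mem_ball, Prod.dist_eq, Real.dist_eq, Real.dist_eq, max_lt_iff, abs_lt, abs_lt]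
  exact ⟨⟨by linarith [hx.1], by linarith [hx.2]⟩, ⟨by linarith [hy.1], by linarith [hy.2]⟩⟩

/-- no mass in the columns of a box off `S` -/
theorem box_null (C : CarC E S 𝒬 B T μ) {u1 u2 v1 v2 : ℝ} (hv : v1 ≤ v2) (hvT : v2 < T)
    (h : ∀ x ∈ Icc u1 u2, ∀ y ∈ Icc v1 v2, (x, y) ∉ S) {x : ℝ} (hx : x ∈ Icc u1 u2) :
    μ {q | q.1 = x ∧ q.2 ≤ v2} = 0 := by
  rcases C.sing with ⟨-, h1⟩ | h1
  · exact measure_mono_null (fun q hq => hq.1) (h1 x)
  · rw [measure_eq_zero_iff_ae_notMem]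
    filter_upwards [h1] with q hq hq2
    obtain ⟨hq2, hq3⟩ := hq2
    have h2 := hq (max q.2 v1) ⟨le_max_left _ _, max_lt (lt_of_le_of_lt hq3 hvT)
      (lt_of_le_of_lt hv hvT)⟩
    rw [hq2] at h2
    exact h x hx (max q.2 v1) ⟨le_max_right _ _, max_le hq3 hv⟩ h2

/-- **all points off `S` are admissible** -/
theorem admQ (G : GeoC E S 𝒬 𝓗 Q sq a b c B T) (C : CarC E S 𝒬 B T μ)
    (hSS : volume (SS \ S) = 0) {J : ℕ → Finset Hair} (hJ : ∀ n, ∀ K ∈ J n, K ∈ 𝓗) {p : ℝ × ℝ}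
    (hp : p ∈ Ioo a b ×ˢ Ioo c T) (hpS : p ∉ S) : p ∈ AdmQ a b c SS μ J := by
  obtain ⟨r, hr, h1, h2, h3, h4, h5⟩ := exists_box G hp hpS
  refine ⟨r, hr, h1, h2, h3, fun x hx => ?_, fun n K hK hne hKx => ?_, ?_⟩
  · refine measure_mono_null (fun q hq => ?_) (box_null C (by linarith) h4 h5 hx)
    exact ⟨hq.1, le_of_lt hq.2⟩
  · rcases C.sing with ⟨-, h6⟩ | h6
    · exact absurd (measure_mono_null (fun q hq => hq.1) (h6 K.x)) hne
    · by_contra hcon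
      push Not at hcon
      obtain ⟨hc1, hc2⟩ := hcon
      apply hne
      rw [measure_eq_zero_iff_ae_notMem]
      filter_upwards [h6, C.lvl] with q hq hqB hq2
      obtain ⟨hq2, hq3⟩ := hq2
      -- a point of the hair in the box
      have hy : ∃ y ∈ Icc (p.2 - 2 * r) (p.2 + 2 * r), (K.x, y) ∈ K.car := by
        refine ⟨max (p.2 - 2 * r) K.b, ⟨le_max_left _ _, max_le (by linarith) hc2.le⟩,
          Hair.mem_car.2 ⟨rfl, le_max_right _ _, max_le hc1.le K.hbt.le⟩⟩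
      obtain ⟨y, hyI, hyK⟩ := hy
      have hyS : (K.x, y) ∉ S := h5 K.x ⟨hKx.1.le, hKx.2.le⟩ y hyI
      by_cases hqb : q.2 ≤ y
      · have := hq y ⟨hqb, lt_of_le_of_lt hyI.2 h4⟩
        rw [hq2] at this
        exact hyS this
      · push Not at hqb
        -- the mass point lies on the hair
        rcases lt_or_ge q.2 T with hqT | hqT
        · have h7 := hq q.2 ⟨le_rfl, hqT⟩
          rw [hq2] at h7
          have h8 : (K.x, q.2) ∈ K.car := by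
            have h9 := Hair.mem_car.1 hyK
            exact Hair.mem_car.2 ⟨rfl, h9.2.1.trans hqb.le, hq3.le⟩
          exact hyS (G.hS K (hJ n K hK) ⟨_, h8, h7⟩ hyK)
        · exact absurd (hqB.trans_lt G.BT) (not_lt.2 hqT)
  · have h6 : SS ∩ Rc (p.1 - 2 * r) (p.1 + 2 * r) (p.2 - 2 * r) (p.2 + 2 * r) ⊆ SS \ S := by
      rintro w ⟨hw, hw2⟩
      exact ⟨hw, h5 w.1 ⟨hw2.1.1.le, hw2.1.2.le⟩ w.2 ⟨hw2.2.1.le, hw2.2.2.le⟩⟩
    exact measure_mono_null h6 hSS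

end

end Crest.Agent.R105.Gl_363
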