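import Crest.Agent.R105.Nip5_31
import Crest.Agent.R105.Sl2_732
import Crest.Agent.R105.Ni0_459

-- ▼ part R105/Nip6_31
section

/-!
# Row 105, S0138 (T-frame), module NI of helper459, part (P2), file 6 (helper31)

* `acv_of_slb` : the slice bound gives 732's `ACV`;
* `ni_acv` : `NI Y A f` implies `ACV Y (Lv Y A t) f` for a.e. `t`;
* `pos_ae` : for a.e. `t` there is a finite measure which charges every non degenerate continuum of
  the level set off `Y`.
-/

set_option autoImplicit false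

open Set Filter Topology MeasureTheory Metric
open scoped ENNReal NNReal

namespace Crest.Agent.R105.Nip_31

open Bd_775 Tc_808 Ni_459 Crest.AnalysisR Sl_732

variable {Y : Set ℂ} {A f : ℂ → ℝ} {R t : ℝ}

theorem acv_of_slb (hR : Y ⊆ ball 0 R) (h : SlB Y A f R t) :
    ACV Y (Lv Y A t) f := by
  classical
  obtain ⟨ν, S, hν, hSc, hSs, hνS, hC⟩ := h
  refine ⟨(fun K : Cmp Y => K.1) '' {K : Cmp Y | K.1 ⊆ S}, hSc.image _, ?_, fun η hη => ?_⟩
  · rintro _ ⟨K, -, rfl⟩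
    exact K.2
  · have hη' : ENNReal.ofReal η ≠ 0 := by
      rw [Ne, ENNReal.ofReal_eq_zero]; linarith
    obtain ⟨W, hYW, hW, hνW⟩ := (Y \ S).exists_isOpen_lt_add (μ := ν) (by rw [hνS]; simp) hη'
    rw [hνS, zero_add] at hνW
    refine ⟨W ∩ ball 0 R, hW.inter isOpen_ball, ?_, ?_⟩
    · rintro z ⟨⟨-, hzY⟩, hzS⟩
      refine ⟨hYW ⟨hzY, fun hzS' => hzS ?_⟩, hR hzY⟩
      exact mem_sUnion.2 ⟨_, ⟨Cmp.of hzY, hSs _ ⟨z, mem_connectedComponentIn hzY, hzS'⟩, rfl⟩,
        mem_connectedComponentIn hzY⟩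
    · intro F p q hF hd
      have h1 : ∀ C ∈ F, |f (p C) - f (q C)| ≤ (ν C).toReal := by
        intro C hCF
        obtain ⟨hcpt, hconn, hsat, hsub, hp, hq⟩ := hF C hCF
        refine hC C (fun z hz => ⟨(hsub hz).1, (hsub hz).2.2⟩) hcpt hconn (fun z hz => ?_) _ hp _ hq
        by_cases hzY : z ∈ Y
        · exact hsat z hz hzY
        · rw [connectedComponentIn_eq_empty hzY]; exact empty_subset _
      have hfin : ∀ B : Set ℂ, ν B ≠ ∞ := fun B => measure_ne_top ν B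
      calc ∑ C ∈ F, |f (p C) - f (q C)| ≤ ∑ C ∈ F, (ν C).toReal := Finset.sum_le_sum h1
        _ = (∑ C ∈ F, ν C).toReal := (ENNReal.toReal_sum fun C _ => hfin C).symm
        _ = (ν (⋃ C ∈ F, C)).toReal := by
            have e := measure_biUnion_finset (μ := ν) (f := id) hd
              fun C hCF => (hF C hCF).cpt.measurableSet
            simp only [id] at e
            rw [e]
        _ ≤ (ENNReal.ofReal η).toReal := by
            refine ENNReal.toReal_mono ENNReal.ofReal_ne_top (le_trans (measure_mono ?_) hνW.le)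
            exact iUnion₂_subset fun C hCF z hz => ((hF C hCF).sub hz).2.1
        _ = η := ENNReal.toReal_ofReal hη.le

/-- `NI` gives `ACV` on a.e. level. -/
theorem ni_acv (hY : IsExteriorDomain Yᶜ) (hR : Y ⊆ ball 0 R)
    (hA : LocallyLipschitzOn Yᶜ A) (hAb : LB A)
    (hf : LocallyLipschitzOn Yᶜ f) (hfb : LB f) (hNI : NI Y A f) {𝒥 : Set (Cmp Y)}
    (h𝒥 : 𝒥.Countable) (hJA : JJ Y A ⊆ 𝒥) (hJf : JJ Y f ⊆ 𝒥)
    (hU : ∫⁻ z in ball 0 R \ Y, ENNReal.ofReal |wdg A f z| ≠ ∞)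
    (hS : ∑' K : 𝒥, ENNReal.ofReal (osp Y f (pt K.1)) *
      ENNReal.ofReal (osp Y A (pt K.1)) ≠ ∞) :
    ∀ᵐ t, ACV Y (Lv Y A t) f := by
  filter_upwards [ni_slice hY hA hAb hf hfb hNI h𝒥 hJA hJf hU hS] with t ht
  exact acv_of_slb hR ht

/-! ### positivity -/

lemma slab_smooth (hY : IsExteriorDomain Yᶜ) (hA : LocallyLipschitzOn Yᶜ A) (hAb : LB A)
    {g : ℂ → ℝ} (hg : LipschitzWith 1 g) {W F : Set ℂ} {T : Set ℝ}
    (hF : IsCompact F) (hFW : F ⊆ W \ Y) (hT : MeasurableSet T) :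
    volume (Nip_31.ZF (lo Y A) (up Y A) g g F ∩ T ×ˢ univ) ≤ rU Y A g W (T ×ˢ F) := by
  have hYc : IsCompact Y := cpt_of hY
  have hm : Measurable (up Y A) := (usc_up hY hAb).measurable
  have hFm : MeasurableSet F := hF.measurableSet
  have hcov : Nip_31.ZF (lo Y A) (up Y A) g g F ∩ T ×ˢ univ ⊆
      (fun z => (A z, g z)) '' ((F \ Y) ∩ up Y A ⁻¹' T) := by
    rintro ⟨x, y⟩ ⟨⟨z, hz, h1, h2, h3, h4⟩, hxT, -⟩
    simp only at h1 h2 h3 h4 hxT
    have hzY : z ∉ Y := (hFW hz).2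
    rw [lo_eq hY hA hAb hzY] at h1
    rw [up_eq hY hA hAb hzY] at h2
    refine ⟨z, ⟨⟨hz, hzY⟩, ?_⟩, Prod.ext (le_antisymm h1 h2) (le_antisymm h3 h4)⟩
    show up Y A z ∈ T
    rw [up_eq hY hA hAb hzY, le_antisymm h1 h2]
    exact hxT
  have hM : MeasurableSet ((F \ Y) ∩ up Y A ⁻¹' T) :=
    (hFm.diff hYc.measurableSet).inter (hm hT)
  have hgl : LocallyLipschitzOn Yᶜ g := hg.locallyLipschitz.locallyLipschitzOn
  refine (measure_mono hcov).trans ?_
  rw [rU_apply hm hT hFm]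
  have e : (W \ Y) ∩ (F ∩ up Y A ⁻¹' T) = (F \ Y) ∩ up Y A ⁻¹' T := by
    ext z
    constructor
    · rintro ⟨⟨-, h⟩, h', h''⟩; exact ⟨⟨h', h⟩, h''⟩
    · rintro ⟨⟨h, h'⟩, h''⟩; exact ⟨⟨(hFW h).1, h'⟩, h, h''⟩
  rw [e]
  exact area hYc.isClosed hA hgl hM fun z hz => hz.1.2

lemma slice_smooth (hY : IsExteriorDomain Yᶜ) (hA : LocallyLipschitzOn Yᶜ A) (hAb : LB A)
    {g : ℂ → ℝ} (hg : LipschitzWith 1 g)
    (hU : ∫⁻ z in ball 0 R \ Y, ENNReal.ofReal |wdg A g z| ≠ ∞) :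
    ∀ᵐ t, ∃ ν : Measure ℂ, IsFiniteMeasure ν ∧ ∀ C ⊆ Lv Y A t \ Y, C ⊆ ball 0 R → IsCompact C →
      volume (g '' C) ≤ ν C := by
  have hYc : IsCompact Y := cpt_of hY
  have hm : Measurable (up Y A) := (usc_up hY hAb).measurable
  set ρ : Measure (ℝ × ℂ) := rU Y A g (ball 0 R) with hρ
  have hfin : IsFiniteMeasure ρ := ⟨by
    rw [← univ_prod_univ, rU_apply hm MeasurableSet.univ MeasurableSet.univ]
    simpa using hU.lt_top⟩
  have hsl := slice_le (E := Y) (W₀ := ball 0 R \ Y) hYc (isOpen_ball.sdiff hYc.isClosed)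
    (lsc_lo hY hAb) (usc_up hY hAb) hg.continuous.lowerSemicontinuous
    hg.continuous.upperSemicontinuous (ρ := ρ)
    (fun F hF _ hFW T hT => slab_smooth hY hA hAb hg hF hFW hT)
  filter_upwards [hsl, ae_slc_lt_top ρ] with t ht htt
  refine ⟨slc ρ t, ⟨htt univ⟩, fun C hC hCb hCc => ?_⟩
  refine le_trans (measure_mono ?_) (ht C hCc (fun z hz hzY => absurd hzY (hC hz).2)
    fun z hz => ⟨hCb hz, (hC hz).2⟩)
  rintro _ ⟨z, hz, rfl⟩
  exact ⟨z, hz, (hC hz).1.1, (hC hz).1.2, le_rfl, le_rfl⟩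

lemma lip_re : LipschitzWith 1 Complex.re := by
  refine LipschitzWith.of_dist_le_mul fun x y => ?_
  rw [Real.dist_eq, dist_eq_norm, NNReal.coe_one, one_mul, ← Complex.sub_re]
  exact Complex.abs_re_le_norm _

lemma lip_im : LipschitzWith 1 Complex.im := by
  refine LipschitzWith.of_dist_le_mul fun x y => ?_
  rw [Real.dist_eq, dist_eq_norm, NNReal.coe_one, one_mul, ← Complex.sub_im]
  exact Complex.abs_im_le_norm _

lemma en_lip {g : ℂ → ℝ} (hg : LipschitzWith 1 g) (z : ℂ) : en g z ≤ 1 := by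
  rw [en_eq]
  have h1 : ‖fderiv ℝ g z‖ ≤ 1 := by
    have := norm_fderiv_le_of_lipschitz ℝ hg (x₀ := z)
    simpa using this
  have h0 := norm_nonneg (fderiv ℝ g z)
  nlinarith

lemma wdg_fin {g : ℂ → ℝ} (hg : LipschitzWith 1 g)
    (hE : ∫⁻ z in ball 0 R \ Y, ENNReal.ofReal (en A z) ≠ ∞) :
    ∫⁻ z in ball 0 R \ Y, ENNReal.ofReal |wdg A g z| ≠ ∞ := by
  have h1 : ∫⁻ z in ball 0 R \ Y, ENNReal.ofReal |wdg A g z| ≤
      ∫⁻ z in ball 0 R \ Y, (ENNReal.ofReal (en A z) + 1) := by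
    refine lintegral_mono fun z => ?_
    rw [← ENNReal.ofReal_one, ← ENNReal.ofReal_add (en_nonneg _ _) zero_le_one]
    refine ENNReal.ofReal_le_ofReal ((abs_wdg_le A g z).trans ?_)
    have := en_lip hg z
    have := en_nonneg A z
    linarith
  refine ne_top_of_le_ne_top ?_ h1
  rw [lintegral_add_right _ measurable_const]
  refine ENNReal.add_ne_top.2 ⟨hE, ?_⟩
  rw [lintegral_const, one_mul, Measure.restrict_apply_univ]
  exact ((measure_mono sdiff_subset).trans_lt measure_ball_lt_top).ne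

/-- **positivity** -/
theorem pos_ae (hY : IsExteriorDomain Yᶜ) (hA : LocallyLipschitzOn Yᶜ A) (hAb : LB A)
    (hE : ∀ R : ℝ, ∫⁻ z in ball 0 R \ Y, ENNReal.ofReal (en A z) ≠ ∞) :
    ∀ᵐ t, ∃ μ : Measure ℂ, IsFiniteMeasure μ ∧ ∀ C ⊆ Lv Y A t \ Y, IsCompact C →
      IsPreconnected C → C.Nontrivial → μ C ≠ 0 := by
  have hre : ∀ n : ℕ, _ := fun n : ℕ => slice_smooth hY hA hAb lip_re (wdg_fin lip_re (hE n))
  have him : ∀ n : ℕ, _ := fun n : ℕ => slice_smooth hY hA hAb lip_im (wdg_fin lip_im (hE n))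
  filter_upwards [ae_all_iff.2 hre, ae_all_iff.2 him] with t h1 h2
  choose ν hν hνC using h1
  choose ν' hν' hνC' using h2
  set σ : Measure ℂ := Measure.sum (fun n => ν n + ν' n) with hσ
  have hsf : SFinite σ := by rw [hσ]; infer_instance
  obtain ⟨μ, hμ, hμ1, -⟩ := exists_isFiniteMeasure_absolutelyContinuous σ
  refine ⟨μ, hμ, fun C hC hCc hCp hCn h0 => ?_⟩
  have hσ0 : σ C = 0 := hμ1 h0
  rw [hσ, Measure.sum_apply _ hCc.measurableSet, ENNReal.tsum_eq_zero] at hσ0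
  obtain ⟨M, hM⟩ := hCc.isBounded.exists_norm_le
  obtain ⟨n, hn⟩ := exists_nat_gt M
  have hCb : C ⊆ ball 0 (n : ℝ) := fun z hz => by
    rw [mem_ball_zero_iff]; exact (hM z hz).trans_lt hn
  have h3 := hσ0 n
  rw [Measure.add_apply, add_eq_zero] at h3
  have hr : volume (Complex.re '' C) = 0 :=
    le_antisymm ((hνC n C hC hCb hCc).trans h3.1.le) bot_le
  have hi : volume (Complex.im '' C) = 0 :=
    le_antisymm ((hνC' n C hC hCb hCc).trans h3.2.le) bot_le
  have key : ∀ g : ℂ → ℝ, Continuous g → volume (g '' C) = 0 → ∀ p ∈ C, ∀ q ∈ C, g p = g q := by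
    intro g hg hg0 p hp q hq
    by_contra hne
    have hord : (g '' C).OrdConnected := (hCp.image g hg.continuousOn).ordConnected
    have hsub : uIcc (g p) (g q) ⊆ g '' C := hord.uIcc_subset ⟨p, hp, rfl⟩ ⟨q, hq, rfl⟩
    have h5 := measure_mono_null hsub hg0
    rw [Real.volume_interval, ENNReal.ofReal_eq_zero] at h5
    have := abs_pos.2 (sub_ne_zero.2 (Ne.symm hne))
    linarith
  obtain ⟨p, hp, q, hq, hpq⟩ := hCn
  exact hpq (Complex.ext (key _ Complex.continuous_re hr p hp q hq)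
    (key _ Complex.continuous_im hi p hp q hq))

end Crest.Agent.R105.Nip_31
end

-- ▼ part R105/Sl3_732

/-!
# Row 105, S0138 (T-frame), SLICES, part 3 (helper732):
small variation near `Y` along almost every level of `A`  ⟹  null image.
-/

set_option autoImplicit false

open MeasureTheory Set Filter Topology Metric
open scoped NNReal ENNReal

namespace Crest.Agent.R105.Sl_732

open Thin_12 Tc_808 Ni_459 Crest.AnalysisR

noncomputable section

/-- a point of the component -/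
def pt {Y : Set ℂ} (K : Cmp Y) : ℂ := K.2.choose

lemma pt_mem {Y : Set ℂ} (K : Cmp Y) : pt K ∈ Y := K.2.choose_spec.1

lemma pt_eq {Y : Set ℂ} (K : Cmp Y) : K.1 = connectedComponentIn Y (pt K) := K.2.choose_spec.2

/-- the component of a point -/
def cmp {Y : Set ℂ} (z : ℂ) (hz : z ∈ Y) : Cmp Y := ⟨connectedComponentIn Y z, z, hz, rfl⟩

/-- the jump at a component -/
def dj (Y : Set ℂ) (u : ℂ → ℝ) (K : Cmp Y) : ℝ := up Y u (pt K) - lo Y u (pt K)

lemma mem_cc_pt {Y : Set ℂ} {z : ℂ} (hz : z ∈ Y) :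
    z ∈ connectedComponentIn Y (pt (cmp z hz)) := by
  rw [← pt_eq (cmp z hz)]
  exact mem_connectedComponentIn hz

lemma up_pt {Y : Set ℂ} {u : ℂ → ℝ} {z : ℂ} (hz : z ∈ Y) :
    up Y u (pt (cmp z hz)) = up Y u z :=
  (up_congr_cc (pt_mem _) (mem_cc_pt hz)).symm

lemma lo_pt {Y : Set ℂ} {u : ℂ → ℝ} {z : ℂ} (hz : z ∈ Y) :
    lo Y u (pt (cmp z hz)) = lo Y u z :=
  (lo_congr_cc (pt_mem _) (mem_cc_pt hz)).symm

section
variable {Y : Set ℂ} {A f : ℂ → ℝ}

/-- the multivalued image of a compact set is closed -/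
lemma isClosed_ZF (hY : IsExteriorDomain Yᶜ) (hA : LB A) (hf : LB f) {F : Set ℂ}
    (hF : IsCompact F) : IsClosed (ZF Y A f F) := by
  have : CompactSpace F := isCompact_iff_compactSpace.1 hF
  have e1 := (lsc_lo hY hA).isClosed_epigraph
  have e2 := upperSemicontinuous_iff_IsClosed_hypograph.1 (usc_up hY hA)
  have e3 := (lsc_lo hY hf).isClosed_epigraph
  have e4 := upperSemicontinuous_iff_IsClosed_hypograph.1 (usc_up hY hf)
  have h1 : IsClosed {x : F × (ℝ × ℝ) | (lo Y A x.1 ≤ x.2.1 ∧ x.2.1 ≤ up Y A x.1) ∧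
      (lo Y f x.1 ≤ x.2.2 ∧ x.2.2 ≤ up Y f x.1)} := by
    refine IsClosed.and ?_ ?_
    · exact (e1.preimage (f := fun x : F × (ℝ × ℝ) => ((x.1 : ℂ), x.2.1)) (by fun_prop)).and
        (e2.preimage (f := fun x : F × (ℝ × ℝ) => ((x.1 : ℂ), x.2.1)) (by fun_prop))
    · exact (e3.preimage (f := fun x : F × (ℝ × ℝ) => ((x.1 : ℂ), x.2.2)) (by fun_prop)).and
        (e4.preimage (f := fun x : F × (ℝ × ℝ) => ((x.1 : ℂ), x.2.2)) (by fun_prop))
  have h2 := isClosedMap_snd_of_compactSpace _ h1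
  convert h2 using 1
  ext p
  constructor
  · rintro ⟨z, hz, h1, h2, h3, h4⟩
    exact ⟨(⟨z, hz⟩, p), ⟨⟨h1, h2⟩, h3, h4⟩, rfl⟩
  · rintro ⟨⟨z, q⟩, ⟨⟨h1, h2⟩, h3, h4⟩, rfl⟩
    exact ⟨z.1, z.2, h1, h2, h3, h4⟩

/-- compact saturated exhaustion of `Y` minus finitely many components -/
lemma exists_exhaust (hY : IsCompact Y) (J : Finset (Cmp Y)) :
    ∃ F : ℕ → Set ℂ, (∀ k, IsCompact (F k)) ∧ (∀ k, F k ⊆ Y) ∧
      (∀ k, ∀ z, ∀ hz : z ∈ Y, z ∈ F k → cmp z hz ∉ J) ∧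
      ∀ z, ∀ hz : z ∈ Y, cmp z hz ∉ J → ∃ k, z ∈ F k := by
  classical
  have hK : ∀ k : ℕ, ∀ K ∈ J, ∃ B, IsCompact B ∧ IsCompact (Y \ B) ∧ B ⊆ Y ∧ K.1 ⊆ B ∧
      B ⊆ thickening (1 / ((k : ℝ) + 1)) K.1 := by
    intro k K _
    rw [pt_eq K]
    refine exists_clopen hY (pt_mem K) isOpen_thickening ?_
    exact self_subset_thickening (by positivity) _
  choose! B hB1 hB2 hB3 hB4 hB5 using hK
  refine ⟨fun k => Y \ ⋃ K ∈ J, B k K, fun k => ?_, fun k => sdiff_subset, fun k z hz hzF hJ => ?_,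
    fun z hz hJ => ?_⟩
  · refine hY.of_isClosed_subset ?_ sdiff_subset
    change IsClosed (Y \ ⋃ K ∈ J, B k K)
    have : Y \ ⋃ K ∈ J, B k K = Y ∩ ⋂ K ∈ J, (Y \ B k K) := by
      ext y
      simp only [Set.mem_sdiff, mem_iUnion, mem_inter_iff, mem_iInter, not_exists]
      exact ⟨fun hy => ⟨hy.1, fun z hz => ⟨hy.1, hy.2 z hz⟩⟩,
        fun hy => ⟨hy.1, fun z hz => (hy.2 z hz).2⟩⟩
    rw [this]
    exact hY.isClosed.inter (isClosed_biInter fun z hz => (hB2 k z hz).isClosed)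
  · exact hzF.2 (mem_iUnion₂.2 ⟨_, hJ, hB4 k _ hJ (mem_connectedComponentIn hz)⟩)
  · by_contra hcon
    push Not at hcon
    have h1 : ∀ k : ℕ, ∃ K ∈ J, z ∈ thickening (1 / ((k : ℝ) + 1)) K.1 := by
      intro k
      have h2 := hcon k
      have h3 : z ∈ ⋃ K ∈ J, B k K := by
        by_contra h
        exact h2 ⟨hz, h⟩
      obtain ⟨K, hK, hzK⟩ := mem_iUnion₂.1 h3
      exact ⟨K, hK, hB5 k K hK hzK⟩
    have h2 : z ∈ ⋃ K ∈ J, K.1 := by
      have hcl : IsClosed (⋃ K ∈ J, K.1) := by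
        refine (J.finite_toSet.isClosed_biUnion fun K _ => ?_)
        rw [pt_eq K]; exact (isCompact_cc hY _).isClosed
      rw [← hcl.closure_eq, Metric.mem_closure_iff]
      intro ε hε
      obtain ⟨k, hk⟩ := exists_nat_one_div_lt hε
      obtain ⟨K, hK, hzK⟩ := h1 k
      obtain ⟨y, hy, hzy⟩ := mem_thickening_iff.1 hzK
      exact ⟨y, mem_iUnion₂.2 ⟨K, hK, hy⟩, hzy.trans hk⟩
    obtain ⟨K, hK, hzK⟩ := mem_iUnion₂.1 h2
    apply hJ
    have h3 : cmp z hz = K := by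
      apply Subtype.ext
      change connectedComponentIn Y z = K.1
      rw [pt_eq K] at hzK ⊢
      exact (connectedComponentIn_eq hzK).symm
    rw [h3]; exact hK

/-- **small variation near `Y` along a.e. level of `A` implies a null image.** -/
theorem ni_of_acv (hY : IsExteriorDomain Yᶜ) (hA : LB A) (hf : LB f)
    (hfc : ∀ z ∉ Y, ContinuousAt f z)
    (hcf : {K : Cmp Y | dj Y f K ≠ 0}.Countable)
    (hw : ∑' K : Cmp Y, ENNReal.ofReal (dj Y A K) * ENNReal.ofReal (dj Y f K) ≠ ∞)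
    (hlev : ∀ᵐ t : ℝ, IsPreconnected (Lv Y A t) ∧ (Lv Y A t \ Y).Nonempty ∧
      ∃ μ : Measure ℂ, SigmaFinite μ ∧
        ∀ C ⊆ Lv Y A t \ Y, IsCompact C → IsPreconnected C → C.Nontrivial → μ C ≠ 0)
    (hacv : ∀ᵐ t : ℝ, ACV Y (Lv Y A t) f) : NI Y A f := by
  classical
  have hYc : IsCompact Y := cpt_of hY
  unfold NI
  refine le_antisymm (ENNReal.le_of_forall_pos_le_add fun ε hε _ => ?_) zero_le
  rw [zero_add]
  obtain ⟨J, hJ⟩ : ∃ J : Finset (Cmp Y), ∑' K : {K : Cmp Y // K ∉ J},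
      ENNReal.ofReal (dj Y A K) * ENNReal.ofReal (dj Y f K) < ε := by
    have h1 := ENNReal.tendsto_tsum_compl_atTop_zero hw
    exact ((h1.eventually (gt_mem_nhds (show (0 : ℝ≥0∞) < ε by exact_mod_cast hε))).exists)
  obtain ⟨F, hFc, hFY, hFJ, hFe⟩ := exists_exhaust hYc J
  set N : Set (ℝ × ℝ) := ⋃ k, ZF Y A f (F k) with hN
  have hNm : MeasurableSet N := MeasurableSet.iUnion fun k => (isClosed_ZF hY hA hf (hFc k)).measurableSet
  set ι : Type := {K : Cmp Y // dj Y f K ≠ 0 ∧ K ∉ J} with hι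
  have hιc : Countable ι := (hcf.mono fun K hK => hK.1).to_subtype
  -- the slices
  have slice : ∀ᵐ t : ℝ, volume (Prod.mk t ⁻¹' N) ≤
      ∑' K : ι, (Icc (lo Y A (pt K.1)) (up Y A (pt K.1))).indicator
        (fun _ => ENNReal.ofReal (dj Y f K.1)) t := by
    filter_upwards [hlev, hacv] with t ⟨hLp, hLU, μ, hμ, pos⟩ ht
    have hLc : IsClosed (Lv Y A t) := by
      have h1 : IsClosed {z | lo Y A z ≤ t} := by
        rw [← isOpen_compl_iff]
        convert isOpen_lt_lo hY hA t using 1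
        ext z; simp [not_le]
      have h2 : IsClosed {z | t ≤ up Y A z} := by
        rw [← isOpen_compl_iff]
        convert isOpen_up_lt hY hA t using 1
        ext z; simp [not_le]
      exact h1.inter h2
    have hLs : Sat Y (Lv Y A t) := fun z hz hzY w hw => by
      refine ⟨?_, ?_⟩
      · rw [lo_congr_cc hzY hw]; exact hz.1
      · rw [up_congr_cc hzY hw]; exact hz.2
    set G : Set ℂ := {z | z ∈ Lv Y A t ∩ Y ∧ lo Y f z = up Y f z} with hG
    have hnull : volume (up Y f '' G) = 0 := by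
      refine ACV.null (E := Y) hYc hLc hLp hLs hLU μ pos (b := up Y f)
        (ht.congr fun z hz => up_of_notMem hY hf hz.2 (hfc z hz.2)) (fun z hz => hz.1)
        ?_ ?_ ?_
      · intro z hz hzY w hw
        refine ⟨⟨hLs z hz.1.1 hzY hw, connectedComponentIn_subset _ _ hw⟩, ?_⟩
        rw [lo_congr_cc hzY hw, up_congr_cc hzY hw]
        exact hz.2
      · intro z hz w hw
        exact up_congr_cc hz.1.2 hw
      · intro z hz δ hδ
        obtain ⟨O, hO, h1⟩ := exists_lt_of_up_lt hY hf (show up Y f z < up Y f z + δ by linarith)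
        obtain ⟨P, hP, h2⟩ := exists_gt_of_lt_lo hY hf (show lo Y f z - δ < lo Y f z by linarith)
        refine ⟨O ∩ P, hO.op.inter hP.op, subset_inter hO.sub hP.sub, fun w hw => ?_⟩
        have h3 := h1 w hw.1.1 hw.2
        have h4 := h2 w hw.1.2 hw.2
        have h5 := hz.2
        rw [up_of_notMem hY hf hw.2 (hfc w hw.2), abs_lt]
        constructor <;> linarith
    have hsub : Prod.mk t ⁻¹' N ⊆ up Y f '' G ∪ ⋃ K : ι,
        {s | (lo Y A (pt K.1) ≤ t ∧ t ≤ up Y A (pt K.1)) ∧ s ∈ Icc (lo Y f (pt K.1)) (up Y f (pt K.1))} := by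
      intro s hs
      obtain ⟨k, z, hz, h1, h2, h3, h4⟩ := mem_iUnion.1 hs
      simp only at h1 h2 h3 h4
      have hzY := hFY k hz
      by_cases hj : lo Y f z = up Y f z
      · left
        refine ⟨z, ⟨⟨⟨h1, h2⟩, hzY⟩, hj⟩, ?_⟩
        linarith
      · right
        refine mem_iUnion.2 ⟨⟨cmp z hzY, ?_, hFJ k z hzY hz⟩, ?_⟩
        · unfold dj
          rw [up_pt, lo_pt]
          exact fun h => hj (by linarith)
        · refine ⟨⟨?_, ?_⟩, ?_, ?_⟩
          · rw [lo_pt]; exact h1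
          · rw [up_pt]; exact h2
          · rw [lo_pt]; exact h3
          · rw [up_pt]; exact h4
    refine (measure_mono hsub).trans ((measure_union_le _ _).trans ?_)
    rw [hnull, zero_add]
    refine (measure_iUnion_le _).trans (ENNReal.tsum_le_tsum fun K => ?_)
    by_cases hK : lo Y A (pt K.1) ≤ t ∧ t ≤ up Y A (pt K.1)
    · rw [indicator_of_mem (show t ∈ Icc _ _ from hK)]
      refine (measure_mono (t := Icc (lo Y f (pt K.1)) (up Y f (pt K.1))) fun s hs => hs.2).trans ?_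
      rw [Real.volume_Icc]
      exact le_rfl
    · rw [show {s | (lo Y A (pt K.1) ≤ t ∧ t ≤ up Y A (pt K.1)) ∧
        s ∈ Icc (lo Y f (pt K.1)) (up Y f (pt K.1))} = ∅ from by
          ext s; simp only [mem_ofPred_eq, mem_empty_iff_false, iff_false]; exact fun h => hK h.1]
      rw [measure_empty]
      exact zero_le
  have hNle : volume N ≤ ε := by
    rw [Measure.volume_eq_prod, Measure.prod_apply hNm]
    refine (lintegral_mono_ae slice).trans ?_
    rw [lintegral_tsum fun K => (measurable_const.indicator measurableSet_Icc).aemeasurable]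
    have h1 : ∀ K : ι, ∫⁻ t : ℝ, (Icc (lo Y A (pt K.1)) (up Y A (pt K.1))).indicator
        (fun _ => ENNReal.ofReal (dj Y f K.1)) t =
        ENNReal.ofReal (dj Y A K.1) * ENNReal.ofReal (dj Y f K.1) := by
      intro K
      rw [lintegral_indicator_const measurableSet_Icc, Real.volume_Icc, mul_comm]
      rfl
    simp_rw [h1]
    refine le_trans ?_ hJ.le
    exact ENNReal.tsum_comp_le_tsum_of_injective
      (f := fun K : ι => (⟨K.1, K.2.2⟩ : {K : Cmp Y // K ∉ J}))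
      (fun K K' h => Subtype.ext (by simpa using h))
      (fun K : {K : Cmp Y // K ∉ J} => ENNReal.ofReal (dj Y A K) * ENNReal.ofReal (dj Y f K))
  have hsub : NP Y A f ⊆ N ∪ ((fun K : Cmp Y => (up Y A (pt K), up Y f (pt K))) '' (J : Set (Cmp Y))) := by
    rintro p ⟨z, hz, h1, h2, h3, h4⟩
    by_cases hzJ : cmp z hz ∈ J
    · right
      refine ⟨_, hzJ, ?_⟩
      simp only
      rw [up_pt, up_pt, h2, h4]
    · left
      obtain ⟨k, hk⟩ := hFe z hz hzJ
      exact mem_iUnion.2 ⟨k, z, hk, h1.le, h2.ge, h3.le, h4.ge⟩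
  refine (measure_mono hsub).trans ((measure_union_le _ _).trans ?_)
  have hfin : volume ((fun K : Cmp Y => (up Y A (pt K), up Y f (pt K))) '' (J : Set (Cmp Y))) = 0 :=
    (J.finite_toSet.image _).measure_zero _
  rw [hfin, add_zero]
  exact hNle

end

end

end Crest.Agent.R105.Sl_732
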