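import Crest.Agent.R105.Grd3_782
import Crest.Agent.R105.Vs4_439
import Crest.Agent.R105.Nip9_31
import Crest.Agent.R105.SkA1_8
import Crest.Agent.R105.Ata1_782
import Crest.Agent.R105.Ni3_459
import Crest.Agent.R105.Uw4_913
import Crest.Agent.R105.SkA4_8

-- ▼ part R105/Gl1_395
section

/-!
# Row 105, S0138 (T-frame, NI): OUTER GREEDY over anchors with a property `X` (319 #10367 (GG))

* `HypL` : hypotheses of the greedy selection, switching only against finite lists of anchors and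
  up to `ε`
* `greedyL`, `greedyTTL` : 782's `greedy`, `greedyTT` under `HypL`
* `SwitchLP`, `selTL` : 782's `selT` with anchors of the property `X`
-/

set_option autoImplicit false

open MeasureTheory Set Filter Topology Metric
open scoped NNReal ENNReal

namespace Crest.Agent.R105.Gl_395

open Bd_775 Ends_897 Tc_808 Ni_459 Crest.AnalysisR Grd_782
open Crest.Agent.R105.IfB_641 (J di lap X0)

noncomputable section

section Greedy

variable {α : Type*} {N : α → α → Prop} {T : α → ℝ} {C S : Set α} {u0 : α}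

/-- the hypotheses of the greedy selection: replacement against finite lists, up to `ε` -/
structure HypL (N : α → α → Prop) (T : α → ℝ) (C S : Set α) (u0 : α) : Prop where
  mem : u0 ∈ C
  sw : u0 ∈ S
  symm : ∀ a ∈ C, ∀ b ∈ C, N a b → N b a
  refl : ∀ a ∈ C, N a a
  bdd : ∃ M, ∀ a ∈ C, M ≤ T a
  switch : ∀ l : List α, (∀ a ∈ l, a ∈ C ∧ a ∈ S) → (∀ a ∈ l, ∀ b ∈ l, N a b) →
    ∀ b ∈ C, (∀ a ∈ l, N a b) → ∀ ε > 0, ∃ b' ∈ C, b' ∈ S ∧ T b' ≤ T b + ε ∧ ∀ a ∈ l, N a b'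

lemma exists_goodStepL (h : HypL N T C S u0) (l : List α) (hl : ∀ a ∈ l, a ∈ C ∧ a ∈ S)
    (hp : ∀ a ∈ l, ∀ b ∈ l, N a b) {b0 : α} (hb0 : b0 ∈ C) (hb0' : ∀ a ∈ l, N a b0) : ∃ b, GoodStep N T C S l b := by
  classical
  set A : Set ℝ := {t | ∃ b ∈ C, (∀ a ∈ l, N a b) ∧ T b = t} with hA
  have hne : A.Nonempty := ⟨T b0, b0, hb0, hb0', rfl⟩
  obtain ⟨M, hM⟩ := h.bdd
  have hbd : BddBelow A := ⟨M, by rintro _ ⟨b, hb, -, rfl⟩; exact hM b hb⟩
  have hε : (0 : ℝ) < (1 / 2 : ℝ) ^ l.length := by positivity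
  obtain ⟨_, ⟨b, hb, hbl, rfl⟩, hlt⟩ := exists_lt_of_csInf_lt hne
    (lt_add_of_pos_right (sInf A) (half_pos hε))
  obtain ⟨b', hb', hbS, hT, hN⟩ := h.switch l hl hp b hb hbl _ (half_pos hε)
  refine ⟨b', hb', hbS, hN, fun c hc hcl => ?_⟩
  have h1 : sInf A ≤ T c := csInf_le hbd ⟨c, hc, hcl, rfl⟩
  linarith

lemma step_specL (h : HypL N T C S u0) (l : List α) (hl : ∀ a ∈ l, a ∈ C ∧ a ∈ S)
    (hp : ∀ a ∈ l, ∀ b ∈ l, N a b)
    {b0 : α} (hb0 : b0 ∈ C) (hb0' : ∀ a ∈ l, N a b0) : GoodStep N T C S l (step N T C S u0 l) := by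
  have he := exists_goodStepL h l hl hp hb0 hb0'
  unfold step
  rw [dif_pos he]
  exact he.choose_spec

lemma sq_specL (h : HypL N T C S u0) (n : ℕ) :
    (∀ k ≤ n, sq N T C S u0 k ∈ C ∧ sq N T C S u0 k ∈ S) ∧
    (∀ i ≤ n, ∀ j ≤ n, i ≤ j → N (sq N T C S u0 i) (sq N T C S u0 j)) ∧
    GoodStep N T C S (lst N T C S u0 n) (sq N T C S u0 (n + 1)) := by
  induction n with
  | zero =>
    have h0 : ∀ k ≤ 0, sq N T C S u0 k ∈ C ∧ sq N T C S u0 k ∈ S := by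
      intro k hk; obtain rfl : k = 0 := Nat.le_zero.1 hk; exact ⟨h.mem, h.sw⟩
    refine ⟨h0, ?_, ?_⟩
    · intro i hi j hj _
      obtain rfl : i = 0 := Nat.le_zero.1 hi
      obtain rfl : j = 0 := Nat.le_zero.1 hj
      exact h.refl _ h.mem
    · refine step_specL h _ ?_ ?_ h.mem ?_
      · intro a ha
        obtain ⟨k, hk, rfl⟩ := (mem_lst N T C S u0 0 a).1 ha
        exact h0 k hk
      · intro a ha b hb
        obtain ⟨k, hk, rfl⟩ := (mem_lst N T C S u0 0 a).1 ha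
        obtain ⟨k', hk', rfl⟩ := (mem_lst N T C S u0 0 b).1 hb
        obtain rfl : k = 0 := Nat.le_zero.1 hk
        obtain rfl : k' = 0 := Nat.le_zero.1 hk'
        exact h.refl _ h.mem
      · intro a ha
        obtain ⟨k, hk, rfl⟩ := (mem_lst N T C S u0 0 a).1 ha
        obtain rfl : k = 0 := Nat.le_zero.1 hk
        exact h.refl _ h.mem
  | succ n ih =>
    obtain ⟨h1, h2, h3⟩ := ih
    have h1' : ∀ k ≤ n + 1, sq N T C S u0 k ∈ C ∧ sq N T C S u0 k ∈ S := by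
      intro k hk
      rcases Nat.lt_or_ge k (n + 1) with hlt | hge
      · exact h1 k (Nat.lt_succ_iff.1 hlt)
      · obtain rfl : k = n + 1 := le_antisymm hk hge
        exact ⟨h3.1, h3.2.1⟩
    have h2' : ∀ i ≤ n + 1, ∀ j ≤ n + 1, i ≤ j → N (sq N T C S u0 i) (sq N T C S u0 j) := by
      intro i hi j hj hij
      rcases Nat.lt_or_ge j (n + 1) with hlt | hge
      · exact h2 i (hij.trans (Nat.lt_succ_iff.1 hlt)) j (Nat.lt_succ_iff.1 hlt) hij
      · obtain rfl : j = n + 1 := le_antisymm hj hge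
        rcases Nat.lt_or_ge i (n + 1) with hlt | hge'
        · exact h3.2.2.1 _ ((mem_lst N T C S u0 n _).2 ⟨i, Nat.lt_succ_iff.1 hlt, rfl⟩)
        · obtain rfl : i = n + 1 := le_antisymm hi hge'
          exact h.refl _ h3.1
    refine ⟨h1', h2', ?_⟩
    refine step_specL h _ ?_ ?_ (b0 := sq N T C S u0 (n + 1)) h3.1 ?_
    · intro a ha
      obtain ⟨k, hk, rfl⟩ := (mem_lst N T C S u0 (n + 1) a).1 ha
      exact h1' k hk
    · intro a ha b hb
      obtain ⟨k, hk, rfl⟩ := (mem_lst N T C S u0 (n + 1) a).1 ha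
      obtain ⟨k', hk', rfl⟩ := (mem_lst N T C S u0 (n + 1) b).1 hb
      rcases le_total k k' with hkk | hkk
      · exact h2' k hk k' hk' hkk
      · exact h.symm _ (h1' k' hk').1 _ (h1' k hk).1 (h2' k' hk' k hk hkk)
    · intro a ha
      obtain ⟨k, hk, rfl⟩ := (mem_lst N T C S u0 (n + 1) a).1 ha
      exact h2' k hk (n + 1) le_rfl hk

/-- **the greedy sequence, list version** -/
theorem greedyL (h : HypL N T C S u0) :
    ∃ (u : ℕ → α) (m : ℝ), u 0 = u0 ∧ (∀ n, u n ∈ C ∧ u n ∈ S) ∧ (∀ i j, N (u i) (u j)) ∧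
      Tendsto (fun n => T (u n)) atTop (𝓝 m) ∧ (∀ n, m ≤ T (u n)) ∧
      ∀ b ∈ C, (∀ i, N (u i) b) → m ≤ T b := by
  set u := sq N T C S u0 with hu
  have hmem : ∀ n, u n ∈ C ∧ u n ∈ S := fun n => (sq_specL h n).1 n le_rfl
  have hN : ∀ i j, N (u i) (u j) := by
    intro i j
    rcases le_total i j with hij | hij
    · exact (sq_specL h j).2.1 i hij j le_rfl hij
    · exact h.symm _ (hmem j).1 _ (hmem i).1 ((sq_specL h i).2.1 j hij i le_rfl hij)
  set A : Set ℝ := {t | ∃ b ∈ C, (∀ i, N (u i) b) ∧ T b = t} with hA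
  obtain ⟨M, hM⟩ := h.bdd
  have hbd : BddBelow A := ⟨M, by rintro _ ⟨b, hb, -, rfl⟩; exact hM b hb⟩
  have hle : ∀ b ∈ C, (∀ i, N (u i) b) → sInf A ≤ T b := fun b hb hb' => csInf_le hbd ⟨b, hb, hb', rfl⟩
  have hne : A.Nonempty := ⟨T (u 0), u 0, (hmem 0).1, fun i => hN i 0, rfl⟩
  have hupper : ∀ n, T (u (n + 1)) ≤ sInf A + (1 / 2 : ℝ) ^ (n + 1) := by
    intro n
    have h1 : T (u (n + 1)) - (1 / 2 : ℝ) ^ (n + 1) ≤ sInf A := by
      refine le_csInf hne ?_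
      rintro _ ⟨b, hb, hb', rfl⟩
      have h2 := (sq_specL h n).2.2.2.2.2 b hb (fun a ha => by
        obtain ⟨k, _, rfl⟩ := (mem_lst N T C S u0 n a).1 ha
        exact hb' k)
      rw [length_lst] at h2
      linarith
    linarith
  refine ⟨u, sInf A, rfl, hmem, hN, ?_, fun n => hle _ (hmem n).1 fun i => hN i n, hle⟩
  rw [← tendsto_add_atTop_iff_nat 1]
  refine tendsto_of_tendsto_of_tendsto_of_le_of_le (tendsto_const_nhds (x := sInf A)) ?_
    (fun n => hle _ (hmem _).1 fun i => hN i _) hupper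
  have h3 : Tendsto (fun n : ℕ => (1 / 2 : ℝ) ^ (n + 1)) atTop (𝓝 0) :=
    (tendsto_pow_atTop_nhds_zero_of_lt_one (by norm_num) (by norm_num)).comp (tendsto_add_atTop_nat 1)
  simpa using h3.const_add (sInf A)

end Greedy

variable {Y : Set ℂ} {x0 φ ψ a b : ℂ → ℝ}

/-- **greedy package in the class `TT`, list version** -/
theorem greedyTTL (hY : IsClosed Y) {N : (ℂ → ℝ) → (ℂ → ℝ) → Prop} {C S : Set (ℂ → ℝ)}
    {ℓ : (ℂ → ℝ) → ℝ} {u0 : ℂ → ℝ} (hC : ∀ a ∈ C, TT Y a)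
    (hℓ : ∀ a ∈ C, ∀ b ∈ C, ℓ (mid a b) = (ℓ a + ℓ b) / 2)
    (hmid : ∀ a ∈ C, ∀ b ∈ C, mid a b ∈ C)
    (hN : ∀ a ∈ C, a ∈ S → ∀ b ∈ C, ∀ b' ∈ C, N a b → N a b' → N a (mid b b'))
    (h : HypL N (fun a => ET Y a + ℓ a) C S u0) :
    ∃ (u : ℕ → ℂ → ℝ) (m : ℝ) (σ : Cmp Y → ℝ), u 0 = u0 ∧ (∀ n, u n ∈ C ∧ u n ∈ S) ∧
      (∀ i j, N (u i) (u j)) ∧ Tendsto (fun n => ET Y (u n) + ℓ (u n)) atTop (𝓝 m) ∧
      (∀ b ∈ C, (∀ i, N (u i) b) → m ≤ ET Y b + ℓ b) ∧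
      (∀ ε > 0, ∃ n₀, ∀ i ≥ n₀, ∀ j ≥ n₀, ∫ z in Yᶜ, en (fun w => u i w - u j w) z ≤ ε) ∧
      (Summable fun K => σ K ^ 2) ∧
      (∀ K, Tendsto (fun n => Tc_808.osc Y (u n) K.1) atTop (𝓝 (σ K))) ∧
      Tendsto (fun n => ∑' K : Cmp Y, (Tc_808.osc Y (u n) K.1 - σ K) ^ 2) atTop (𝓝 0) ∧
      (∀ ε > 0, ∃ (F : Finset (Cmp Y)) (n₀ : ℕ), ∀ n ≥ n₀, ∀ A : Set (Cmp Y),
        Disjoint A (F : Set (Cmp Y)) → ∑' K : A, Tc_808.osc Y (u n) K.1.1 ^ 2 ≤ ε) := by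
  obtain ⟨u, m, hu0, hmem, hNN, hlim, -, hmin⟩ := greedyL h
  set q : (ℂ → ℝ) → (ℂ → ℝ) → ℝ := fun a b =>
    (1 / 4) * (∫ z in Yᶜ, en (fun w => a w - b w) z) +
      (1 / 4) * ∑' K : Cmp Y, (Tc_808.osc Y a K.1 - Tc_808.osc Y b K.1) ^ 2 with hq
  have hC' : ∀ n, TT Y (u n) := fun n => hC _ (hmem n).1
  have hmidA : ∀ i j, m ≤ ET Y (mid (u i) (u j)) + ℓ (mid (u i) (u j)) := fun i j =>
    hmin _ (hmid _ (hmem i).1 _ (hmem j).1) fun k =>
      hN _ (hmem k).1 (hmem k).2 _ (hmem i).1 _ (hmem j).1 (hNN k i) (hNN k j)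
  have hpar : ∀ i j, (ET Y (mid (u i) (u j)) + ℓ (mid (u i) (u j))) + q (u i) (u j) ≤
      ((ET Y (u i) + ℓ (u i)) + (ET Y (u j) + ℓ (u j))) / 2 := by
    intro i j
    have h1 := ET_mid hY (hC' i) (hC' j)
    rw [hℓ _ (hmem i).1 _ (hmem j).1]
    simp only [hq]
    linarith
  have hcau := cauchy_of_parallelogram (T := fun a => ET Y a + ℓ a) (mid := mid) (q := q) hlim
    hmidA hpar
  have hI0 : ∀ a b : ℂ → ℝ, 0 ≤ ∫ z in Yᶜ, en (fun w => a w - b w) z := fun a b =>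
    integral_nonneg fun z => en_nonneg _ _
  have hS0 : ∀ a b : ℂ → ℝ,
      0 ≤ ∑' K : Cmp Y, (Tc_808.osc Y a K.1 - Tc_808.osc Y b K.1) ^ 2 := fun a b =>
    tsum_nonneg fun K => sq_nonneg _
  obtain ⟨σ, hσ, hσlim, hd, hσ0⟩ := l2_limit (s := fun n (K : Cmp Y) => Tc_808.osc Y (u n) K.1)
    (fun n => (hC' n).sum) (fun ε hε => by
      obtain ⟨n₀, hn₀⟩ := hcau (ε / 4) (by positivity)
      refine ⟨n₀, fun i hi j hj => ?_⟩
      have h1 := hn₀ i hi j hj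
      simp only [hq] at h1
      linarith [hI0 (u i) (u j)])
  refine ⟨u, m, σ, hu0, hmem, hNN, hlim, hmin, fun ε hε => ?_, hσ, hσlim, hσ0, fun ε hε => ?_⟩
  · obtain ⟨n₀, hn₀⟩ := hcau (ε / 4) (by positivity)
    refine ⟨n₀, fun i hi j hj => ?_⟩
    have h1 := hn₀ i hi j hj
    simp only [hq] at h1
    linarith [hS0 (u i) (u j)]
  · exact tail_small (fun n => (hC' n).sum) hσ hd hσ0 hε

/-- replacement by an anchor of the property `X`, against finite lists, up to `ε` -/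
def SwitchLP (Y : Set ℂ) (x0 : ℂ → ℝ) (P X : (ℂ → ℝ) → Prop) : Prop :=
  ∀ l : List (ℂ → ℝ), (∀ a ∈ l, TT Y a ∧ P a ∧ Swd Y (fun z => x0 z + a z) ∧ X a) →
    (∀ a ∈ l, ∀ b ∈ l, NI Y a b) → ∀ φ, TT Y φ → P φ → (∀ a ∈ l, NI Y a φ) → ∀ ε > 0,
      ∃ ψ, TT Y ψ ∧ P ψ ∧ Swd Y (fun z => x0 z + ψ z) ∧ X ψ ∧ TJ Y x0 ψ ≤ TJ Y x0 φ + ε ∧
        ∀ a ∈ l, NI Y a ψ

/-- **SELECTION with anchors of the property `X`** -/
theorem selTL (hY : IsCompact Y) (hx : X0 Y x0) {P X : (ℂ → ℝ) → Prop} (hP : PLin P)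
    (hsw : SwitchLP Y x0 P X) (hlin : CombP Y x0 P) {φ0 : ℂ → ℝ} (h0 : TT Y φ0) (hP0 : P φ0)
    (hs0 : Swd Y (fun z => x0 z + φ0 z)) (hX0 : X φ0) :
    ∃ (u : ℕ → ℂ → ℝ) (m : ℝ) (σ : Cmp Y → ℝ), u 0 = φ0 ∧ (∀ n, X (u n)) ∧
      SelT Y x0 P u m σ := by
  have hYc := hY.isClosed
  set C : Set (ℂ → ℝ) := {φ | TT Y φ ∧ P φ} with hC
  set S : Set (ℂ → ℝ) := {φ | Swd Y (fun z => x0 z + φ z) ∧ X φ} with hS
  set ℓ : (ℂ → ℝ) → ℝ := fun φ => -2 * ∫ z, φ z * lap x0 z with hℓ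
  have hT : ∀ φ, ET Y φ + ℓ φ = TJ Y x0 φ := fun φ => (TJ_eq Y x0 φ).symm
  have hmidC : ∀ a ∈ C, ∀ b ∈ C, mid a b ∈ C := by
    rintro a ⟨ha, ha'⟩ b ⟨hb, hb'⟩
    exact ⟨TT_mid hYc ha hb, by rw [mid_eq]; exact hP a b ha' hb' _ _⟩
  have hyp : HypL (NI Y) (fun a => ET Y a + ℓ a) C S φ0 := by
    refine ⟨⟨h0, hP0⟩, ⟨hs0, hX0⟩, fun a _ b _ h => NI_symm h, fun a _ => NI_self Y a, ?_, ?_⟩
    · obtain ⟨M, hM⟩ := TJ_bdd hY hx
      exact ⟨M, fun a ha => by rw [hT]; exact hM a ha.1⟩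
    · rintro l hl hp b ⟨hb, hb'⟩ hlb ε hε
      obtain ⟨ψ, h1, h2, h3, h4, h5, h6⟩ := hsw l
        (fun a ha => ⟨(hl a ha).1.1, (hl a ha).1.2, (hl a ha).2.1, (hl a ha).2.2⟩) hp b hb hb'
        hlb ε hε
      exact ⟨ψ, ⟨h1, h2⟩, ⟨h3, h4⟩, by rw [hT, hT]; exact h5, h6⟩
  obtain ⟨u, m, σ, e0, h1, h2, h3, h4, h5, h6, h7, h8, h9⟩ := greedyTTL hYc (fun a ha => ha.1)
    (fun a ha b hb => ell_mid hYc hx ha.1 hb.1) hmidC
    (fun a ha hs b hb b' hb' h h' => by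
      rw [mid_eq]; exact hlin a ha.1 ha.2 hs.1 b b' hb.1 hb.2 hb'.1 hb'.2 h h' _ _) hyp
  refine ⟨u, m, σ, e0, fun n => (h1 n).2.2, ?_⟩
  exact
    { tt := fun n => (h1 n).1.1
      p := fun n => (h1 n).1.2
      swd := fun n => (h1 n).2.1
      ni := h2
      lim := by simpa only [hT] using h3
      min := fun b hb hPb h => by rw [← hT]; exact h4 b ⟨hb, hPb⟩ h
      cauchy := h5
      sum := h6
      oscl := h7
      l2 := h8
      tail := h9 }

end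

end Crest.Agent.R105.Gl_395
end

-- ▼ part R105/Vs5_439
section

/-!
# Row 105, S0138, NI (P2), part 5 (helper439): closedness without compact support of the anchor

* `acv_of_tendstoG`, `ni_of_tendstoG` : `a ∈ TT Y`, `x0 + a` switched
* `closedg` : `CLOSEDP` without `HasCompactSupport a`
-/

set_option autoImplicit false

open MeasureTheory Set Filter Topology Metric
open scoped NNReal ENNReal

namespace Crest.Agent.R105.Vs_439

open Bd_775 Ends_897 Tc_808 Ni_459 Crest.AnalysisR IfB_641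

noncomputable section

variable {Y : Set ℂ} {x0 a b : ℂ → ℝ}

theorem x0_W0 (hY : IsExteriorDomain Yᶜ) (hx : X0 Y x0) (ha : TT Y a) :
    LB (fun z => x0 z + a z) ∧ LocallyLipschitzOn Yᶜ (fun z => x0 z + a z) ∧
    ∃ W0, IsOpen W0 ∧ Y ⊆ W0 ∧ TW Y W0 (fun z => x0 z + a z) ≠ ∞ := by
  classical
  have hYc : IsCompact Y := cpt_of hY
  have hLB : LB (fun z => x0 z + a z) := (LB.of_cont hx.sm.continuous).add (LB.of_bdd ha.q.bdd)
  have hxl : LocallyLipschitzOn Yᶜ x0 :=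
    ((hx.sm.of_le (by simp)).locallyLipschitz).locallyLipschitzOn
  have hll : LocallyLipschitzOn Yᶜ (fun z => x0 z + a z) := ll_add hxl ha.q.loc
  refine ⟨hLB, hll, (tsupport x0)ᶜ, (isClosed_tsupport _).isOpen_compl, ?_, ?_⟩
  · intro z hz hz'
    exact hx.zero hz' hz
  · have h1 : TW Y (tsupport x0)ᶜ (fun z => x0 z + a z) = TW Y (tsupport x0)ᶜ a := by
      unfold TW
      congr 1
      · refine setLIntegral_congr_fun
          (((isClosed_tsupport _).isOpen_compl.measurableSet).diff hYc.isClosed.measurableSet)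
          fun z hz => ?_
        have h2 : (fun z => x0 z + a z) =ᶠ[𝓝 z] a := by
          filter_upwards [(isClosed_tsupport x0).isOpen_compl.mem_nhds hz.1] with w hw
          rw [image_eq_zero_of_notMem_tsupport hw, zero_add]
        show ENNReal.ofReal (en (fun z => x0 z + a z) z) = ENNReal.ofReal (en a z)
        rw [en_eq_of_eventuallyEq h2]
      · refine tsum_congr fun K => ?_
        have h3 : gap Y (fun z => x0 z + a z) K = gap Y a K := by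
          unfold gap upK loK
          rw [SkA_8.up_x0 hx K.2.choose_spec.1, SkA_8.lo_x0 hx K.2.choose_spec.1]
        rw [h3]
    rw [h1]
    exact ne_top_of_le_ne_top (ENNReal.add_ne_top.2 ⟨ENNReal.ofReal_ne_top, ENNReal.ofReal_ne_top⟩)
      (TW_le hY ha)

/-- pointwise limits off `Y` with bounded energies: small variation along a.e. level -/
theorem acv_of_tendstoG (hY : IsExteriorDomain Yᶜ) (hx : X0 Y x0) (ha : TT Y a)
    {B : ℕ → ℂ → ℝ} (hB : ∀ n, TT Y (B n))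
    (hNI : ∀ n, NI Y a (B n)) {ψ : ℂ → ℝ} {M : ℝ}
    (hM : ∀ n, (∫ z in Yᶜ, en (B n) z) + ∑' K : Cmp Y, Tc_808.osc Y (B n) K.1 ^ 2 ≤ M)
    (hlim : ∀ z ∉ Y, Tendsto (fun n => B n z) atTop (𝓝 (ψ z))) :
    ∀ᵐ t : ℝ, Sl_732.ACV Y (Lv Y (fun z => x0 z + a z) t) ψ := by
  obtain ⟨hLB, hll, W0, hW0, hYW, hfin⟩ := x0_W0 hY hx ha
  refine acv_of_tendsto hY hLB hll hW0 hYW hfin (fun n => LB.of_bdd (hB n).q.bdd)
    (fun n => (hB n).q.loc) (M := ENNReal.ofReal M) ENNReal.ofReal_ne_top (fun n => ?_)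
    (fun n => ni_x0 hx (hNI n)) hlim
  refine (TW_le hY (hB n)).trans ?_
  rw [← ENNReal.ofReal_add (integral_nonneg fun z => en_nonneg _ z)
    (tsum_nonneg fun K => sq_nonneg _)]
  exact ENNReal.ofReal_le_ofReal (hM n)

/-- **the commutant of a switched function is closed** under pointwise limits off `Y` with bounded
energies (no compact support) -/
theorem ni_of_tendstoG (hY : IsExteriorDomain Yᶜ) (hx : X0 Y x0) (ha : TT Y a)
    (hs : Swd Y (fun z => x0 z + a z)) {B : ℕ → ℂ → ℝ} (hB : ∀ n, TT Y (B n))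
    (hNI : ∀ n, NI Y a (B n)) {ψ : ℂ → ℝ} (hψ : TT Y ψ) {M : ℝ}
    (hM : ∀ n, (∫ z in Yᶜ, en (B n) z) + ∑' K : Cmp Y, Tc_808.osc Y (B n) K.1 ^ 2 ≤ M)
    (hlim : ∀ z ∉ Y, Tendsto (fun n => B n z) atTop (𝓝 (ψ z))) : NI Y a ψ :=
  (Nip_31.ni_iff_acvG hY hx ha hs hψ).2 (acv_of_tendstoG hY hx ha hB hNI hM hlim)

/-- **CLOSEDG** -/
theorem closedg (hY : IsExteriorDomain Yᶜ) (hx : X0 Y x0) (ha : TT Y a)
    (hs : Swd Y (fun z => x0 z + a z)) {b : ℕ → ℂ → ℝ} {ψ : ℂ → ℝ} {σ : Cmp Y → ℝ}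
    (hb : ∀ n, TT Y (b n)) (hψ : TT Y ψ) (hNI : ∀ n, NI Y a (b n))
    (hσ : Summable fun K => σ K ^ 2)
    (hlim : ∀ z ∉ Y, Tendsto (fun n => b n z) atTop (𝓝 (ψ z)))
    (hen : Tendsto (fun n => ∫ z in Yᶜ, en (fun w => b n w - ψ w) z) atTop (𝓝 0))
    (hosc : Tendsto (fun n => ∑' K : Cmp Y, (Tc_808.osc Y (b n) K.1 - σ K) ^ 2) atTop (𝓝 0)) :
    NI Y a ψ := by
  have hYc : IsClosed Y := (cpt_of hY).isClosed
  obtain ⟨M1, hM1⟩ := hen.bddAbove_range
  obtain ⟨M2, hM2⟩ := hosc.bddAbove_range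
  refine ni_of_tendstoG hY hx ha hs hb hNI hψ
    (M := (2 * M1 + 2 * ∫ z in Yᶜ, en ψ z) + (2 * M2 + 2 * ∑' K, σ K ^ 2)) (fun n => ?_) hlim
  refine add_le_add ?_ ?_
  · have h1 : ∫ z in Yᶜ, en (b n) z ≤ ∫ z in Yᶜ, (2 * en (fun w => b n w - ψ w) z + 2 * en ψ z) := by
      have hq : Q Y (fun w => b n w - ψ w) := (hb n).q.sub hYc hψ.q
      refine integral_mono_ae (hb n).q.fin ((hq.fin.const_mul 2).add (hψ.q.fin.const_mul 2)) ?_
      filter_upwards [hq.ae_diff hYc, hψ.q.ae_diff hYc] with z h1 h2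
      have h3 := en_add_le h1 h2
      simpa using h3
    have hq : Q Y (fun w => b n w - ψ w) := (hb n).q.sub hYc hψ.q
    rw [integral_add (hq.fin.const_mul 2) (hψ.q.fin.const_mul 2), integral_const_mul,
      integral_const_mul] at h1
    have h4 := hM1 ⟨n, rfl⟩
    linarith
  · have hs1 : Summable fun K : Cmp Y => (Tc_808.osc Y (b n) K.1 - σ K) ^ 2 := by
      refine Summable.of_nonneg_of_le (fun K => sq_nonneg _) (fun K => ?_)
        (((hb n).sum.mul_left 2).add (hσ.mul_left 2))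
      nlinarith [sq_nonneg (Tc_808.osc Y (b n) K.1 + σ K)]
    have h1 : ∑' K : Cmp Y, Tc_808.osc Y (b n) K.1 ^ 2 ≤
        ∑' K : Cmp Y, (2 * (Tc_808.osc Y (b n) K.1 - σ K) ^ 2 + 2 * σ K ^ 2) := by
      refine Summable.tsum_le_tsum (fun K => ?_) (hb n).sum ((hs1.mul_left 2).add (hσ.mul_left 2))
      nlinarith [sq_nonneg (Tc_808.osc Y (b n) K.1 - 2 * σ K)]
    rw [(hs1.mul_left 2).tsum_add (hσ.mul_left 2), tsum_mul_left, tsum_mul_left] at h1
    have h4 := hM2 ⟨n, rfl⟩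
    linarith

end

end Crest.Agent.R105.Vs_439
end

-- ▼ part R105/Swd1_782
section

/-!
# Row 105, S0138: the `T`-minimiser of the package `SkA_8.Pk` is exactly switched (helper782)

* `ni_glue` : `w` is `φ` or the constant `s` near `Y` ⟹ `NI Y a φ → NI Y a w`
* `swd_of_min` : the same for any minimiser over a commutant; `no_bdd'`, `no_bdd`
* `swd_of_pk` : `SkA_8.Pk Y x0 a φ F → Swd Y (x0 + φ)`
-/

set_option autoImplicit false

open MeasureTheory Set Filter Topology Metric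
open scoped NNReal ENNReal

namespace Crest.Agent.R105.Grd_782

open Bd_775 Ends_897 Tc_808 Ni_459 Crest.AnalysisR
open Crest.Agent.R105.IfB_641 (J di lap X0)

noncomputable section

variable {Y : Set ℂ} {x0 φ w a : ℂ → ℝ}

/-- gluing a constant does not destroy `NI` -/
theorem ni_glue (hY : IsExteriorDomain Yᶜ) (ha : TT Y a) (hφ : TT Y φ) (hw : TT Y w)
    {O : Set ℂ} (hO : IsOpen O) (hYO : Y ⊆ O) {s : ℝ}
    (h : ∀ z ∈ O, z ∉ Y → w z = φ z ∨ w z = s) (hni : NI Y a φ) : NI Y a w := by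
  refine valp Y a φ w hY ha hφ hw hni {s} (countable_singleton s) fun z hz hzw => ?_
  by_cases hs : up Y w z = s
  · exact Or.inr (Or.inl hs)
  by_cases hj : lo Y φ z = up Y φ z
  · left
    refine ⟨hj, ?_⟩
    have hlb : LB w := LB.of_bdd hw.q.bdd
    have hnb : Nb Y z O := ⟨hO, hYO hz, (connectedComponentIn_subset _ _).trans hYO⟩
    have key : ∃ P, Nb Y z P ∧ ∀ p ∈ P, p ∉ Y → w p ≠ s := by
      rcases lt_or_gt_of_ne hs with h1 | h1
      · obtain ⟨P, hP, hP'⟩ := exists_lt_of_up_lt hY hlb h1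
        exact ⟨P, hP, fun p hp hpY => (hP' p hp hpY).ne⟩
      · rw [← hzw] at h1
        obtain ⟨P, hP, hP'⟩ := exists_gt_of_lt_lo hY hlb h1
        exact ⟨P, hP, fun p hp hpY => (hP' p hp hpY).ne'⟩
    obtain ⟨P, hP, hP'⟩ := key
    exact (up_congr' (hP.inter hnb) fun p hp hpY =>
      ((h p hp.2 hpY).resolve_right (hP' p hp.1 hpY))).symm
  · exact Or.inr (Or.inr hj)

/-- truncation on a bounded component is admissible and does not beat the minimiser -/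
theorem no_bdd' {ι : Type*} {F : ℂ → ℂ} {b : ι → ℂ → ℝ} (hU : IsExteriorDomain Yᶜ) (hx0 : X0 Y x0)
    (tta : ∀ i, TT Y (b i)) (tt : TT Y φ) (com : ∀ i, NI Y (b i) φ)
    (min : ∀ c, TT Y c → (∀ i, NI Y (b i) c) → TJ Y x0 φ ≤ TJ Y x0 c)
    (hol : DifferentiableOn ℂ F Yᶜ) (re : ∀ z ∈ Yᶜ, (F z).re = x0 z + φ z)
    (inf : ∃ c : ℂ, Tendsto (fun z => F z - z) (cocompact ℂ) (𝓝 c)) {σ : ℝ}
    (hσ : σ = 1 ∨ σ = -1) {t : ℝ} {z0 : ℂ} (hz0 : z0 ∉ Y) (ht : t < σ * (F z0).re) :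
    ¬ Bornology.IsBounded (connectedComponentIn {z | z ∈ Yᶜ ∧ t < σ * (F z).re} z0) := by
  intro hVb
  set V := connectedComponentIn {z | z ∈ Yᶜ ∧ t < σ * (F z).re} z0 with hVdef
  have e : Yᶜᶜ = Y := compl_compl Y
  have hσ2 : σ * σ = 1 := by rcases hσ with rfl | rfl <;> norm_num
  have hx : X0 Yᶜᶜ x0 := by rw [e]; exact hx0
  have hu : TT Yᶜᶜ φ := by rw [e]; exact tt
  have hfc : ContinuousOn (fun z => σ * (F z).re) Yᶜ :=
    continuousOn_const.mul (Complex.continuous_re.comp_continuousOn hol.continuousOn)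
  have hWo : IsOpen {z | z ∈ Yᶜ ∧ t < σ * (F z).re} := hfc.isOpen_inter_preimage hU.1 isOpen_Ioi
  have hV : IsOpen V := hWo.connectedComponentIn
  have hVW : V ⊆ {z | z ∈ Yᶜ ∧ t < σ * (F z).re} := connectedComponentIn_subset _ _
  have hVU : V ⊆ Yᶜ := fun z hz => (hVW hz).1
  have hfr : ∀ z ∈ Yᶜ, z ∈ frontier V → (F z).re = σ * t := by
    intro z hz hzf
    have h1 := Uw_913.frontier_cc hU.1 hfc z0 z hz hzf
    rw [← h1, ← mul_assoc, hσ2, one_mul]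
  have hsg : ∀ z ∈ V, 0 ≤ σ * ((F z).re - σ * t) := by
    intro z hz
    have h1 := (hVW hz).2
    rw [mul_sub, ← mul_assoc, hσ2, one_mul]
    linarith
  have hT' := Uw_913.trunc_TT hU hol hx hu re hV hVU hVb hfr hσ hsg
  have hT : TT Y (fun z => φ z + (-1) * Uw_913.inc V F (σ * t) z) := by rw [e] at hT'; exact hT'
  have hO : IsOpen (tsupport x0)ᶜ := (isClosed_tsupport x0).isOpen_compl
  have hYO : Y ⊆ (tsupport x0)ᶜ := fun z hz h' => hx0.zero h' hz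
  have hni : ∀ i, NI Y (b i) (fun z => φ z + (-1) * Uw_913.inc V F (σ * t) z) := by
    intro i
    refine ni_glue (s := σ * t) hU (tta i) tt hT hO hYO (fun z hz hzY => ?_) (com i)
    by_cases hzV : z ∈ V
    · right
      rw [Uw_913.inc_of_mem hzV, re z hzY, image_eq_zero_of_notMem_tsupport hz]; ring
    · left
      rw [Uw_913.inc_of_notMem hzV]; ring
  have hmin := min _ hT hni
  refine Uw_913.no_bounded_comp (V := V) hU hol hx hu re inf hσ hz0 ht rfl ?_ hVb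
  rw [e]
  exact hmin

/-- **a minimiser over a commutant is exactly switched** (any family of `TT` anchors) -/
theorem swd_of_min {ι : Type*} {F : ℂ → ℂ} {b : ι → ℂ → ℝ} (hY : IsExteriorDomain Yᶜ)
    (hx0 : X0 Y x0) (tta : ∀ i, TT Y (b i)) (tt : TT Y φ) (com : ∀ i, NI Y (b i) φ)
    (min : ∀ c, TT Y c → (∀ i, NI Y (b i) c) → TJ Y x0 φ ≤ TJ Y x0 c)
    (hol : DifferentiableOn ℂ F Yᶜ) (re : ∀ z ∈ Yᶜ, (F z).re = x0 z + φ z)
    (inf : ∃ c : ℂ, Tendsto (fun z => F z - z) (cocompact ℂ) (𝓝 c)) :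
    Swd Y (fun z => x0 z + φ z) := by
  have hlb : LB (fun z => x0 z + φ z) :=
    (LB.of_cont hx0.sm.continuous).add (LB.of_bdd tt.q.bdd)
  have hxc : ∀ z, z ∉ Y → ContinuousAt (fun z => x0 z + φ z) z := by
    intro z hz
    have h1 : ContinuousAt (fun w => (F w).re) z :=
      (Complex.continuous_re.comp_continuousOn hol.continuousOn).continuousAt (hY.1.mem_nhds hz)
    refine h1.congr ?_
    filter_upwards [hY.1.mem_nhds hz] with w hw using re w hw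
  -- general step: `A` open saturated, contains the truncation component
  have key : ∀ (A : Set ℂ) (σ t : ℝ), (σ = 1 ∨ σ = -1) → IsOpen A →
      (∀ w ∈ A, connectedComponentIn Y w ⊆ A) → (∀ w, w ∉ Y → (w ∈ A ↔ t < σ * (F w).re)) →
      ∀ z ∈ A, ¬ Bornology.IsBounded (connectedComponentIn A z) := by
    intro A σ t hσ hA hsat hiff z hz hb
    have hG : IsOpen (connectedComponentIn A z) := hA.connectedComponentIn
    have hzG : z ∈ connectedComponentIn A z := mem_connectedComponentIn hz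
    have hnb : Nb Y z (connectedComponentIn A z) := by
      refine ⟨hG, hzG, ?_⟩
      by_cases hzY : z ∈ Y
      · exact isPreconnected_connectedComponentIn.subset_connectedComponentIn
          (mem_connectedComponentIn hzY) (hsat z hz)
      · rw [connectedComponentIn_eq_empty hzY]; exact empty_subset _
    obtain ⟨z', hz'G, hz'Y⟩ := hnb.nonempty hY
    have hz'A : z' ∈ A := connectedComponentIn_subset _ _ hz'G
    have ht := (hiff z' hz'Y).1 hz'A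
    refine no_bdd' hY hx0 tta tt com min hol re inf hσ hz'Y ht (hb.subset ?_)
    rw [connectedComponentIn_eq hz'G]
    refine isPreconnected_connectedComponentIn.subset_connectedComponentIn
      (mem_connectedComponentIn ⟨hz'Y, ht⟩) fun w hw => ?_
    have hw' := connectedComponentIn_subset _ _ hw
    exact (hiff w hw'.1).2 hw'.2
  constructor
  · intro t z hz
    refine key {w | t < lo Y (fun z => x0 z + φ z) w} 1 t (Or.inl rfl) (isOpen_lt_lo hY hlb t)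
      (fun w hw y hy => ?_) (fun w hw => ?_) z hz
    · by_cases hwY : w ∈ Y
      · show t < lo Y _ y
        rw [lo_congr_cc hwY hy]; exact hw
      · rw [connectedComponentIn_eq_empty hwY] at hy; exact hy.elim
    · show t < lo Y _ w ↔ _
      rw [lo_of_notMem hY hlb hw (hxc w hw), one_mul, re w hw]
  · intro t z hz
    refine key {w | up Y (fun z => x0 z + φ z) w < t} (-1) (-t) (Or.inr rfl)
      (isOpen_up_lt hY hlb t) (fun w hw y hy => ?_) (fun w hw => ?_) z hz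
    · by_cases hwY : w ∈ Y
      · show up Y _ y < t
        rw [up_congr_cc hwY hy]; exact hw
      · rw [connectedComponentIn_eq_empty hwY] at hy; exact hy.elim
    · show up Y _ w < t ↔ _
      rw [up_of_notMem hY hlb hw (hxc w hw), re w hw]
      constructor <;> intro h1 <;> linarith


/-- **the minimiser of 8's package is exactly switched** -/
theorem swd_of_pk {F : ℂ → ℂ} {b : ℕ → ℂ → ℝ} (h : SkA_8.Pk Y x0 b φ F) :
    Swd Y (fun z => x0 z + φ z) :=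
  swd_of_min h.hY h.hx h.tta h.tt h.com h.min h.hol h.re h.inf

end

end Crest.Agent.R105.Grd_782
end

-- ▼ part R105/Gl2_395

/-!
# Row 105, S0138 (T-frame, NI): generic attainment for the greedy sequence inside a commutant
(319 #10367 (GG); helper395)

* `PA Y 𝒜 b` : `b ∈ TT Y` commutes with every member of `𝒜`
* `attG`     : the limit of a greedy sequence in the class `PA Y 𝒜` is a minimiser over the
  commutant of `𝒜 ∪ range u` (8's `attain` without compact supports: 755 `conv_gen`, 31 `linG`,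
  439 `closedg`)
-/

set_option autoImplicit false

open MeasureTheory Set Filter Topology Metric
open scoped NNReal ENNReal ContDiff

namespace Crest.Agent.R105.Gl_395

open Crest.AnalysisR Bd_775 IfB_641 Tc_808 Ni_459 Grd_782 SkA_8

variable {Y : Set ℂ} {x0 φ ψ a b : ℂ → ℝ} {𝒜 : Set (ℂ → ℝ)} {u : ℕ → ℂ → ℝ} {m : ℝ}
  {σ : Cmp Y → ℝ}

/-- functions of the class `TT` commuting with `𝒜` -/
def PA (Y : Set ℂ) (𝒜 : Set (ℂ → ℝ)) (b : ℂ → ℝ) : Prop := TT Y b ∧ ∀ a ∈ 𝒜, NI Y a b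

/-- admissible families of anchors -/
def Anc (Y : Set ℂ) (x0 : ℂ → ℝ) (𝒜 : Set (ℂ → ℝ)) : Prop :=
  ∀ a ∈ 𝒜, TT Y a ∧ Swd Y (fun z => x0 z + a z)

theorem plin_PA (hY : IsExteriorDomain Yᶜ) (hx : X0 Y x0) (h𝒜 : Anc Y x0 𝒜) : PLin (PA Y 𝒜) := by
  intro b b' hb hb' s t
  have hYc : IsClosed Y := (cpt_of hY).isClosed
  refine ⟨(TT_smul hYc s hb.1).add hYc (TT_smul hYc t hb'.1), fun a ha => ?_⟩
  exact Nip_31.linG hY hx (h𝒜 a ha).1 (h𝒜 a ha).2 hb.1 hb'.1 (hb.2 a ha) (hb'.2 a ha) s t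

theorem combG (hY : IsExteriorDomain Yᶜ) (hx : X0 Y x0) (P : (ℂ → ℝ) → Prop) : CombP Y x0 P :=
  fun _ ha _ hs _ _ hb _ hb' _ h h' s t => Nip_31.linG hY hx ha hs hb hb' h h' s t

/-- **generic attainment** -/
theorem attG (hY : IsExteriorDomain Yᶜ) (hx : X0 Y x0) (h𝒜 : Anc Y x0 𝒜)
    (h : SelT Y x0 (PA Y 𝒜) u m σ) :
    ∃ (ψ : ℂ → ℝ) (F : ℂ → ℂ), TT Y ψ ∧ (∀ i, NI Y (u i) ψ) ∧ (∀ a ∈ 𝒜, NI Y a ψ) ∧
      (∀ b, TT Y b → (∀ i, NI Y (u i) b) → (∀ a ∈ 𝒜, NI Y a b) → TJ Y x0 ψ ≤ TJ Y x0 b) ∧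
      DifferentiableOn ℂ F Yᶜ ∧ (∀ z ∈ Yᶜ, (F z).re = x0 z + ψ z) ∧
      (∃ c : ℂ, Tendsto (fun z => F z - z) (cocompact ℂ) (𝓝 c)) := by
  have hYc : IsCompact Y := cpt_of hY
  have hcomb : CombP Y x0 (PA Y 𝒜) := combG hY hx _
  have hplin : PLin (PA Y 𝒜) := plin_PA hY hx h𝒜
  -- Euler-Lagrange limit for locally constant test functions
  have hel : ∀ ψ, TT Y ψ → HasCompactSupport ψ → (∀ z ∈ Y, ∀ᶠ w in 𝓝 z, ψ w = ψ z) →
      Tendsto (fun n => di Y (u n) ψ - ∫ z, ψ z * lap x0 z) atTop (𝓝 0) := by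
    intro ψ hψ _ hlc
    have hni : ∀ i, NI Y (u i) ψ := fun i => NI_locconst hY hlc
    have hosc : ∀ K : Cmp Y, Tc_808.osc Y ψ K.1 = 0 := osc_locconst hlc
    have hb : ∀ n, |di Y (u n) ψ - ∫ z, ψ z * lap x0 z| ≤
        Real.sqrt ((TJ Y x0 (u n) - m) * ET Y ψ) := by
      intro n
      have := h.near_el hYc.isClosed hx hplin hcomb hψ ⟨hψ, fun a _ => NI_locconst hY hlc⟩ hni n
      simpa [hosc] using this
    have ht : Tendsto (fun n => Real.sqrt ((TJ Y x0 (u n) - m) * ET Y ψ)) atTop (𝓝 0) := by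
      have h1 : Tendsto (fun n => (TJ Y x0 (u n) - m) * ET Y ψ) atTop (𝓝 ((m - m) * ET Y ψ)) :=
        (h.lim.sub_const m).mul_const _
      have h2 := (Real.continuous_sqrt.tendsto _).comp h1
      rw [sub_self, zero_mul, Real.sqrt_zero] at h2
      exact h2
    exact squeeze_zero_norm hb ht
  obtain ⟨F, ψ, c, hF, hre, hinf, hq, hcv1, hcv2⟩ :=
    Cnv_755.conv_gen hY hx h.tt h.swd h.cauchy hel
  -- the sequence with the constants
  have tv : ∀ n, TT Y (fun z => u n z + c n) := fun n => TT_add_const hYc.isClosed (h.tt n) (c n)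
  have hLB : ∀ n, LB fun z => x0 z + u n z := fun n => LB_x0 hx (h.tt n)
  have sv : ∀ n, Swd Y (fun z => x0 z + (u n z + c n)) := by
    intro n
    have := Swd_add_const hY (hLB n) (h.swd n) (c n)
    have e : (fun z => x0 z + (u n z + c n)) = fun z => (x0 z + u n z) + c n := by
      funext z; ring
    rw [e]; exact this
  have nv : ∀ i j, NI Y (fun z => u i z + c i) (fun z => u j z + c j) := fun i j =>
    (NI_add_const₂ hY (LB_TT (h.tt i)) (LB_TT (h.tt j)) (c i) (c j)).2 (h.ni i j)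
  have ov : ∀ n (K : Cmp Y), Tc_808.osc Y (fun z => u n z + c n) K.1 = Tc_808.osc Y (u n) K.1 := by
    intro n K
    exact osc_addc (h.tt n).q.bdd (c n)
  have he : Tendsto (fun n => ∫ z in Yᶜ, en (fun w => u n w - ψ w) z) atTop (𝓝 0) := by
    simpa only [SkA_8.en_add_const] using hcv2
  have hx0l : LocallyLipschitz x0 := (hx.sm.of_le (by exact_mod_cast le_top)).locallyLipschitz
  have lipv : ∀ n, LocallyLipschitzOn Yᶜ fun z => x0 z + (u n z + c n) := by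
    intro n
    exact hx0l.locallyLipschitzOn.add (tv n).q.loc
  have hlbv : ∀ n, LB fun z => x0 z + (u n z + c n) := fun n => LB_x0 hx (tv n)
  have hcnt : ∀ n, {K : Cmp Y | Tc_808.osc Y (fun z => x0 z + (u n z + c n)) K.1 ≠ 0}.Countable := by
    intro n
    refine (tv n).countable.mono fun K hK => ?_
    have : Tc_808.osc Y (fun z => x0 z + (u n z + c n)) K.1 =
        Tc_808.osc Y (fun z => u n z + c n) K.1 := osc_x0 hx _ K
    show Tc_808.osc Y (fun z => u n z + c n) K.1 ≠ 0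
    rw [← this]; exact hK
  have hosc : ∀ K : Cmp Y, Tc_808.osc Y ψ K.1 ≤ σ K := by
    refine Att3_790.att hY hx.sm.continuous hx.zero tv sv (fun n => ?_) (fun i j G hG => ?_)
      hq.loc hq.fin hcv1 hcv2 (fun n => ?_) h.sum ?_
    · intro t N hN hNb z hz
      obtain ⟨C, h1, h2, h3, h4, h5, -⟩ :=
        Uni_659.bump hY (lipv n) (hlbv n) (sv n) t hN hNb hz
      exact ⟨C, h1, h2, h3, h4, h5⟩
    · exact Ni_459.areap Y _ _ hY (lipv i) (lipv j) (hlbv i) (hlbv j) (hcnt i) (hcnt j)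
        ((NI_x0 hx).2 (nv i j)) G hG
    · have hQ := ((tv n).q.sub hYc.isClosed hq)
      exact hQ.fin
    · simpa only [ov] using h.l2
  have hpos : ∀ K : Cmp Y, Tc_808.osc Y ψ K.1 ^ 2 ≤ σ K ^ 2 := fun K =>
    pow_le_pow_left₀ (osc_nonneg _ _ _) (hosc K) 2
  have hT : TT Y ψ := ⟨hq, Summable.of_nonneg_of_le (fun K => sq_nonneg _) hpos h.sum⟩
  have hpt : ∀ z ∉ Y, Tendsto (fun n => u n z + c n) atTop (𝓝 (ψ z)) := fun z hz =>
    (hcv1 {z} isCompact_singleton (singleton_subset_iff.2 hz)).tendsto_at rfl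
  -- members of the commutant pass to the limit
  have hcl : ∀ a, TT Y a → Swd Y (fun z => x0 z + a z) → (∀ n, NI Y a (u n)) → NI Y a ψ := by
    intro a ha hs hn
    refine Vs_439.closedg hY hx ha hs tv hT (fun n => ?_) h.sum hpt hcv2 ?_
    · exact (NI_add_const hY (LB_TT (h.tt n)) (c n)).2 (hn n)
    · simpa only [ov] using h.l2
  have hniu : ∀ i, NI Y (u i) ψ := fun i => hcl (u i) (h.tt i) (h.swd i) (h.ni i)
  have hniA : ∀ a ∈ 𝒜, NI Y a ψ := fun a ha => hcl a (h𝒜 a ha).1 (h𝒜 a ha).2 fun n => (h.p n).2 a ha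
  -- the value
  have hJ := tendsto_J hYc hx (fun n => (h.tt n).q) hq he
  have hS := h.tendsto_sum
  have hm : m = J Y x0 ψ + ∑' K : Cmp Y, σ K ^ 2 := tendsto_nhds_unique h.lim (hJ.add hS)
  have hle : (∑' K : Cmp Y, Tc_808.osc Y ψ K.1 ^ 2) ≤ ∑' K : Cmp Y, σ K ^ 2 :=
    Summable.tsum_le_tsum hpos hT.sum h.sum
  have hTm : TJ Y x0 ψ ≤ m := by
    rw [hm]; unfold TJ; linarith
  exact ⟨ψ, F, hT, hniu, hniA, fun b hb h1 h2 => hTm.trans (h.min b hb ⟨hb, h2⟩ h1), hF, hre, hinf⟩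

end Crest.Agent.R105.Gl_395
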