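import Crest.Agent.R105.SqC_87
import Crest.Agent.R105.Psi10_425
import Crest.Agent.R105.Psi11_425

-- ▼ part R105/Hq1_363
section

/-!
Row 105, S0138, Lemma A with squares (helper363): the flux of `χ ψ` for one half of the stream
function with squares (helper87's `LinesI`, `SqData`).
-/

open MeasureTheory Set Filter Topology
open scoped NNReal ENNReal ContDiff

namespace Crest.Agent.R105.Hq_363

open Sq_87 CF_363 Mp_87 Psi7_425

variable {ι : Type} {Q : Rects ι} {S : Set (ℝ × ℝ)}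
variable {a b c B : ℝ} {X1 X2 ψ Ψ χ : ℝ × ℝ → ℝ} {μ : Measure (ℝ × ℝ)} {f : ι → ℝ}

/-- a smooth function with compact support in `Ioo a b`: the support stays away from the ends -/
theorem exists_inner {a b : ℝ} (hab : a < b) {φ : ℝ → ℝ} (hc : HasCompactSupport φ)
    (hsub : tsupport φ ⊆ Ioo a b) : ∃ a1 b1, a < a1 ∧ a1 ≤ b1 ∧ b1 < b ∧
      ∀ x, x ∉ Ioo a1 b1 → x ∉ tsupport φ := by
  obtain ⟨a2, ha2, h3⟩ := hc.isCompact.exists_forall_le' (f := fun x : ℝ => x) (a := a)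
    continuous_id.continuousOn (fun x hx => (hsub hx).1)
  obtain ⟨b2', hb2', h4'⟩ := hc.isCompact.exists_forall_le' (f := fun x : ℝ => -x) (a := -b)
    continuous_neg.continuousOn (fun x hx => neg_lt_neg (hsub hx).2)
  obtain ⟨b2, rfl⟩ : ∃ b2, b2' = -b2 := ⟨-b2', by ring⟩
  have hb2 : b2 < b := by linarith
  have h4 : ∀ x ∈ tsupport φ, x ≤ b2 := fun x hx => by
    have := h4' x hx
    linarith
  refine ⟨min ((a + a2) / 2) ((a + b) / 2), max ((b + b2) / 2) ((a + b) / 2),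
    lt_min (by linarith) (by linarith), (min_le_right _ _).trans (le_max_right _ _),
    max_lt (by linarith) (by linarith), fun x hx hxs => hx ⟨?_, ?_⟩⟩
  · have := h3 x hxs
    exact lt_of_le_of_lt (min_le_left _ _) (by linarith)
  · have := h4 x hxs
    exact lt_of_lt_of_le (by linarith) (le_max_left _ _)



/-- Fubini on a rectangle, horizontal lines inside -/
theorem integral_rect_y {F : ℝ × ℝ → ℝ} (hF : IntegrableOn F (Ioo a b ×ˢ Ioo c B)) :
    ∫ p in Ioo a b ×ˢ Ioo c B, F p = ∫ y in Ioo c B, ∫ x in Ioo a b, F (x, y) := by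
  unfold IntegrableOn at hF
  rw [volume_restrict_rect] at hF
  rw [volume_restrict_rect, integral_prod_symm _ hF]



/-- the set of the rectangles on which `χ` is not zero -/
def On (Q : Rects ι) (χ : ℝ × ℝ → ℝ) : Set ι := {i | ∃ p ∈ Q.op i, χ p ≠ 0}


end Crest.Agent.R105.Hq_363
end

-- ▼ part R105/Hq2_363

/-!
Row 105, S0138, Lemma A with squares (helper363): the flux of one half together with its part of
the strip, and the two halves glued.
-/

open MeasureTheory Set Filter Topology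
open scoped NNReal ENNReal ContDiff

namespace Crest.Agent.R105.Hq_363

open Sq_87 CF_363 Mp_87 Psi7_425

variable {ι : Type} {Q : Rects ι} {S : Set (ℝ × ℝ)}
variable {a b c B M : ℝ} {X1 X2 ψ Ψ χ : ℝ × ℝ → ℝ} {μ : Measure (ℝ × ℝ)} {f : ι → ℝ}

/-- one half of the data (lower problem), everything the flux computation uses -/
structure HalfD (Q : Rects ι) (S : Set (ℝ × ℝ)) (a b c B : ℝ) (X1 X2 ψ Ψ : ℝ × ℝ → ℝ)
    (μ : Measure (ℝ × ℝ)) (f : ι → ℝ) : Prop where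
  L : LinesI a b c B 1 X1 X2 μ ψ Ψ
  mS : MeasurableSet S
  XS : ∀ᵐ p : ℝ × ℝ, p ∈ S → X2 p = 0
  XB : ∀ p : ℝ × ℝ, B ≤ p.2 → X2 p = 0
  dis : Pairwise (fun i j => Disjoint (Q.op i) (Q.op j))
  box : ∀ i, Q.op i ⊆ Ioo a b ×ˢ Ioo c B
  ly : ∀ i, ∀ᵐ y, y ∈ Ioo (Q.y i - Q.h2 i) (Q.y i + Q.h2 i) →
    |∫ s in Ioo (Q.x i - Q.h1 i) (Q.x i + Q.h1 i), X2 (s, y)| ≤ 2 * f i
  f0 : ∀ i, 0 ≤ f i
  sf : Summable fun i => Q.h2 i * f i
  car : ∀ᵐ q ∂μ, q.2 ≤ B

/-- the cut-off for one half: `M` = top of the part of the strip -/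
structure CutD (Q : Rects ι) (S Z : Set (ℝ × ℝ)) (a b c M : ℝ) (μ : Measure (ℝ × ℝ))
    (χ : ℝ × ℝ → ℝ) : Prop where
  sm : ContDiff ℝ 1 χ
  cs : HasCompactSupport χ
  ts : tsupport χ ⊆ Ioo a b ×ˢ univ
  nn : ∀ p, 0 ≤ χ p
  le : ∀ p, χ p ≤ 1
  gx : ∀ p ∈ Q.un ∪ S ∪ Z, gx χ p = 0
  ct : ∀ i, ∃ k, ∀ p ∈ Q.op i, χ p = k
  one : ∀ y, c < y → y < M → ∀ᵐ q ∂μ, q.2 < y → χ (q.1, y) = 1

theorem gx_zero_of_notMem {χ : ℝ × ℝ → ℝ} {p : ℝ × ℝ} (h : p ∉ tsupport χ) : gx χ p = 0 := by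
  have : fderiv ℝ χ p = 0 := by
    have h1 := tsupport_fderiv_subset (𝕜 := ℝ) (f := χ)
    exact image_eq_zero_of_notMem_tsupport fun h' => h (h1 h')
  show fderiv ℝ χ p _ = 0
  rw [this]; rfl

theorem continuous_gx {χ : ℝ × ℝ → ℝ} (hχ : ContDiff ℝ 1 χ) : Continuous (gx χ) := by
  unfold gx
  exact (hχ.continuous_fderiv (by norm_num)).clm_apply continuous_const

theorem bdd_gx {χ : ℝ × ℝ → ℝ} (hχ : ContDiff ℝ 1 χ) (hc : HasCompactSupport χ) :
    ∃ C, ∀ p, ‖gx χ p‖ ≤ C := by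
  refine (continuous_gx hχ).bounded_above_of_compact_support (hc.mono' ?_)
  intro p hp
  by_contra hcon
  exact hp (gx_zero_of_notMem hcon)

theorem measurable_lam [IsFiniteMeasure μ] : Measurable (lam μ) :=
  (lam_mono μ).measurable

/-- the flux on a level of the strip -/
theorem flux_strip [IsFiniteMeasure μ] (hab : a < b) (hχ : ContDiff ℝ 1 χ)
    (hχc : HasCompactSupport χ) (hχs : tsupport χ ⊆ Ioo a b ×ˢ univ) {y : ℝ}
    (h1 : ∀ᵐ q ∂μ, χ (q.1, y) = 1) :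
    ∫ x, gx χ (x, y) * (-lam μ x) = (μ univ).toReal := by
  obtain ⟨hc', hs'⟩ := line_x_support hχc y
  set φ : ℝ → ℝ := fun x => χ (x, y) with hφ
  have hφ1 : ContDiff ℝ 1 φ := hχ.comp (by fun_prop)
  have hgx : ∀ x, gx χ (x, y) = deriv φ x := fun x =>
    (Psi8_425.hasDerivAt_x (hχ.differentiable (by norm_num) (x, y))).deriv.symm
  have hsub : tsupport φ ⊆ Ioo a b := fun x hx => (hχs (hs' hx)).1
  obtain ⟨a1, b1, ha1, hab1, hb1, hab1s⟩ := exists_inner hab hc' hsub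
  have hφ0 : ∀ x, x ∉ Ioo a1 b1 → φ x = 0 := fun x hx =>
    image_eq_zero_of_notMem_tsupport (hab1s x hx)
  have hφd0 : ∀ x, x ∉ Ioo a1 b1 → deriv φ x = 0 := fun x hx =>
    image_eq_zero_of_notMem_tsupport fun h =>
      hab1s x hx ((tsupport_deriv_subset (𝕜 := ℝ) (f := φ)) h)
  set ρ : Measure ℝ := μ.map Prod.fst with hρ
  have hρI : ∀ x, ρ (Ico a1 x) = μ {q | q.1 ∈ Ico a1 x} := by
    intro x
    rw [hρ, Measure.map_apply measurable_fst measurableSet_Ico]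
    rfl
  have hρu : ρ univ = μ univ := by
    rw [hρ, Measure.map_apply measurable_fst MeasurableSet.univ, preimage_univ]
  have hm1 : MeasurableSet {x : ℝ | φ x = 1} :=
    (isClosed_singleton.preimage hφ1.continuous).measurableSet
  have hρ1 : ∀ᵐ q ∂ρ, φ q = 1 := by
    rw [hρ, ae_map_iff measurable_fst.aemeasurable hm1]
    exact h1
  have key := Psi10_425.flux_line (k := -lam μ a1) (h := fun _ => 0) hab1 hφ1 hφ0 hρ1
    intervalIntegrable_const
    (F := fun x => -lam μ a1 - (∫ _ in a1..x, (0:ℝ)) - (ρ (Ico a1 x)).toReal)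
    (fun x _ => rfl)
  rw [hρu] at key
  rw [← key]
  have e1 : ∫ x, gx χ (x, y) * (-lam μ x) = ∫ x in a1..b1, gx χ (x, y) * (-lam μ x) := by
    rw [intervalIntegral.integral_of_le hab1, ← integral_indicator measurableSet_Ioc]
    congr 1
    funext x
    by_cases hx : x ∈ Ioc a1 b1
    · rw [indicator_of_mem hx]
    · rw [indicator_of_notMem hx, hgx, hφd0 x fun h => hx ⟨h.1, h.2.le⟩]
      ring
  rw [e1]
  refine intervalIntegral.integral_congr fun x hx => ?_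
  rw [uIcc_of_le hab1] at hx
  have h5 := Psi11_425.lam_sub (μ := μ) hx.1
  show gx χ (x, y) * (-lam μ x) = _
  rw [hgx, hρI x]
  simp only [intervalIntegral.integral_zero, sub_zero, mul_zero]
  rw [← h5]
  ring


end Crest.Agent.R105.Hq_363
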