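import Crest.Agent.R105.Kin6_238
import Crest.Agent.R105.Kks2_247

-- ▼ part R105/Knq1_247
section

set_option autoImplicit false

open Set Filter MeasureTheory Topology
open scoped ENNReal NNReal InnerProductSpace

namespace Crest.Agent.R105.Knq_247

open CF_363 Kin_238 Kkt_238

/-- oscillation over a set -/
noncomputable def osc (C : Set (ℝ × ℝ)) (e : ℝ × ℝ → ℝ) : ℝ := ⨆ q : C × C, |e q.1 - e q.2|

section osc
variable {C : Set (ℝ × ℝ)} {e e' : ℝ × ℝ → ℝ}

/-- boundedness on a set -/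
def Bo (C : Set (ℝ × ℝ)) (e : ℝ × ℝ → ℝ) : Prop := ∃ M : ℝ, ∀ p ∈ C, |e p| ≤ M

theorem Bo.of_cont (hC : IsCompact C) (he : ContinuousOn e C) : Bo C e := by
  obtain ⟨M, hM⟩ := hC.exists_bound_of_continuousOn he
  exact ⟨M, fun p hp => by simpa using hM p hp⟩

theorem Bo.bdd (h : Bo C e) : BddAbove (range fun q : C × C => |e q.1 - e q.2|) := by
  obtain ⟨M, hM⟩ := h
  refine ⟨2 * M, ?_⟩
  rintro _ ⟨q, rfl⟩
  have h1 := abs_le.1 (hM _ q.1.2)
  have h2 := abs_le.1 (hM _ q.2.2)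
  exact abs_le.2 ⟨by linarith, by linarith⟩

theorem osc_nonneg (C : Set (ℝ × ℝ)) (e : ℝ × ℝ → ℝ) : 0 ≤ osc C e :=
  Real.iSup_nonneg fun _ => abs_nonneg _

theorem le_osc (h : Bo C e) {p q : ℝ × ℝ} (hp : p ∈ C) (hq : q ∈ C) : |e p - e q| ≤ osc C e :=
  le_ciSup h.bdd (⟨⟨p, hp⟩, ⟨q, hq⟩⟩ : C × C)

theorem osc_le {r : ℝ} (hr : 0 ≤ r) (h : ∀ p ∈ C, ∀ q ∈ C, |e p - e q| ≤ r) : osc C e ≤ r :=
  Real.iSup_le (fun q => h _ q.1.2 _ q.2.2) hr

theorem osc_add_le (h : Bo C e) (h' : Bo C e') : osc C (e + e') ≤ osc C e + osc C e' := by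
  refine osc_le (add_nonneg (osc_nonneg _ _) (osc_nonneg _ _)) fun p hp q hq => ?_
  have h1 := le_osc h hp hq
  have h2 := le_osc h' hp hq
  have h3 : (e + e') p - (e + e') q = (e p - e q) + (e' p - e' q) := by
    simp only [Pi.add_apply]; ring
  rw [h3]
  exact (abs_add_le _ _).trans (add_le_add h1 h2)

theorem osc_smul (t : ℝ) : osc C (t • e) = |t| * osc C e := by
  unfold osc
  rw [Real.mul_iSup_of_nonneg (abs_nonneg t)]
  refine iSup_congr fun q => ?_
  rw [← abs_mul]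
  congr 1
  simp only [Pi.smul_apply, smul_eq_mul]
  ring



theorem osc_comp_le {G : ℝ → ℝ} (hG : ∀ s t, |G s - G t| ≤ |s - t|) (h : Bo C e) :
    osc C (fun p => G (e p)) ≤ osc C e :=
  osc_le (osc_nonneg _ _) fun _ hp _ hq => (hG _ _).trans (le_osc h hp hq)

theorem osc_le_of_lip {L : ℝ≥0} (hC : Bornology.IsBounded C) (h : LipschitzOnWith L e C) :
    osc C e ≤ L * Metric.diam C := by
  refine osc_le (by positivity) fun p hp q hq => ?_
  have h1 := h.dist_le_mul p hp q hq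
  rw [Real.dist_eq] at h1
  exact h1.trans (mul_le_mul_of_nonneg_left (Metric.dist_le_diam_of_mem hC hp hq) L.2)

end osc

variable {ι : Type*} {a b c B : ℝ} {𝓗 : Set Hair} {Q : ι → Set (ℝ × ℝ)} {S : Set (ℝ × ℝ)}
  {e e' : ℝ × ℝ → ℝ}

/-- geometry of the charged sets -/
structure QQ (𝓗 : Set Hair) (a b c B : ℝ) (Q : ι → Set (ℝ × ℝ)) : Prop where
  cpt : ∀ i, IsCompact (Q i ∩ Wl a b c B)
  conv : ∀ i, Convex ℝ (Q i)
  sum : Summable fun i => Metric.diam (Q i ∩ Wl a b c B) ^ 2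
  fin : ∀ K ∈ 𝓗, {i | (Q i ∩ K.car).Nonempty}.Finite

/-- functions of class `Vl`, continuous on every charged set -/
def Vq (𝓗 : Set Hair) (a b c B : ℝ) (Q : ι → Set (ℝ × ℝ)) : Submodule ℝ (ℝ × ℝ → ℝ) where
  carrier := {e | e ∈ Vl 𝓗 a b c B ∧ ∀ i, ContinuousOn e (Q i ∩ Wl a b c B)}
  add_mem' := by
    rintro e e' ⟨h, h0⟩ ⟨h', h0'⟩
    exact ⟨add_mem h h', fun i => (h0 i).add (h0' i)⟩
  zero_mem' := ⟨zero_mem _, fun i => continuousOn_const⟩
  smul_mem' := by
    rintro t e ⟨h, h0⟩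
    exact ⟨(Vl 𝓗 a b c B).smul_mem t h, fun i => (h0 i).const_smul t⟩

theorem mem_Vq : e ∈ Vq 𝓗 a b c B Q ↔
    e ∈ Vl 𝓗 a b c B ∧ ∀ i, ContinuousOn e (Q i ∩ Wl a b c B) := Iff.rfl

theorem QQ.bo (H : QQ 𝓗 a b c B Q) (he : e ∈ Vq 𝓗 a b c B Q) (i : ι) : Bo (Q i ∩ Wl a b c B) e :=
  Bo.of_cont (H.cpt i) (he.2 i)

/-- the charges as seminorms -/
noncomputable def lamQ (H : QQ 𝓗 a b c B Q) (i : ι) : Seminorm ℝ (Vq 𝓗 a b c B Q) :=
  Seminorm.of (fun e => osc (Q i ∩ Wl a b c B) e)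
    (fun e e' => osc_add_le (H.bo e.2 i) (H.bo e'.2 i))
    (fun t e => osc_smul t)

@[simp] theorem lamQ_apply (H : QQ 𝓗 a b c B Q) (i : ι) (e : Vq 𝓗 a b c B Q) :
    lamQ H i e = osc (Q i ∩ Wl a b c B) e := rfl

theorem QQ.summable (H : QQ 𝓗 a b c B Q) (he : e ∈ Vq 𝓗 a b c B Q) :
    Summable fun i => osc (Q i ∩ Wl a b c B) e ^ 2 := by
  obtain ⟨J, hJ, L, C, hL, hS, hC⟩ := he.1.1
  have hfin : {i | (Q i ∩ cut J).Nonempty}.Finite := by
    have h1 : {i | (Q i ∩ cut J).Nonempty} ⊆ ⋃ K ∈ J, {i | (Q i ∩ K.car).Nonempty} := by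
      rintro i ⟨p, hp, K, hK, hpK⟩
      simp only [mem_iUnion]
      exact ⟨K, hK, ⟨p, hp, hpK⟩⟩
    exact (J.finite_toSet.biUnion fun K hK => H.fin K (hJ K hK)).subset h1
  refine Summable.of_norm_bounded_eventually (H.sum.mul_left (L ^ 2)) ?_
  filter_upwards [hfin.compl_mem_cofinite] with i hi
  have hi' : Disjoint (Q i) (cut J) := by
    rw [Set.disjoint_iff_inter_eq_empty]
    exact not_nonempty_iff_eq_empty.1 hi
  have h1 : LipschitzOnWith L.toNNReal e (Q i ∩ Wl a b c B) :=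
    hS.lipschitzOnWith ((H.conv i).inter convex_Wl) fun p hp =>
      ⟨hp.2, fun hpJ => Set.disjoint_left.1 hi' hp.1 hpJ⟩
  have h2 := osc_le_of_lip (H.cpt i).isBounded h1
  rw [Real.coe_toNNReal _ hL] at h2
  rw [Real.norm_of_nonneg (sq_nonneg _), ← mul_pow]
  exact pow_le_pow_left₀ (osc_nonneg _ _) h2 2

/-- the T-energy -/
noncomputable def EQ (a b c B : ℝ) (S : Set (ℝ × ℝ)) (Q : ι → Set (ℝ × ℝ)) (e : ℝ × ℝ → ℝ) : ℝ :=
  En (Wo a b c B \ S) e + ∑' i, osc (Q i ∩ Wl a b c B) e ^ 2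

theorem EQ_nonneg : 0 ≤ EQ a b c B S Q e :=
  add_nonneg (En_nonneg _ _) (tsum_nonneg fun _ => sq_nonneg _)

/-! ### the gradient off `S` -/

/-- gradient off `S` as an element of `L² × L²` -/
noncomputable def grS (𝓗 : Set Hair) (a b c B : ℝ) (hS : MeasurableSet S) :
    Vl 𝓗 a b c B →ₗ[ℝ] HF where
  toFun e := WithLp.toLp 2 ![((memLp_G1 e.2.1).indicator hS.compl).toLp _,
    ((memLp_G2 e.2.1).indicator hS.compl).toLp _]
  map_add' := by
    intro e e'
    have h := G_add e.2.1 e'.2.1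
    ext i : 1
    fin_cases i
    · show ((memLp_G1 (e + e').2.1).indicator hS.compl).toLp _ =
        ((memLp_G1 e.2.1).indicator hS.compl).toLp _ + ((memLp_G1 e'.2.1).indicator hS.compl).toLp _
      rw [← MemLp.toLp_add, MemLp.toLp_eq_toLp_iff]
      filter_upwards [h.1] with p hp
      by_cases hpS : p ∈ Sᶜ
      · simp only [Pi.add_apply, indicator_of_mem hpS]; exact hp
      · simp only [Pi.add_apply, indicator_of_notMem hpS, add_zero]
    · show ((memLp_G2 (e + e').2.1).indicator hS.compl).toLp _ =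
        ((memLp_G2 e.2.1).indicator hS.compl).toLp _ + ((memLp_G2 e'.2.1).indicator hS.compl).toLp _
      rw [← MemLp.toLp_add, MemLp.toLp_eq_toLp_iff]
      filter_upwards [h.2] with p hp
      by_cases hpS : p ∈ Sᶜ
      · simp only [Pi.add_apply, indicator_of_mem hpS]; exact hp
      · simp only [Pi.add_apply, indicator_of_notMem hpS, add_zero]
  map_smul' := by
    intro t e
    have h := G_smul e.2.1 t
    ext i : 1
    fin_cases i
    · show ((memLp_G1 (t • e).2.1).indicator hS.compl).toLp _ =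
        t • ((memLp_G1 e.2.1).indicator hS.compl).toLp _
      rw [← MemLp.toLp_const_smul, MemLp.toLp_eq_toLp_iff]
      filter_upwards [h.1] with p hp
      by_cases hpS : p ∈ Sᶜ
      · simp only [Pi.smul_apply, indicator_of_mem hpS]; exact hp
      · simp only [Pi.smul_apply, indicator_of_notMem hpS, smul_zero]
    · show ((memLp_G2 (t • e).2.1).indicator hS.compl).toLp _ =
        t • ((memLp_G2 e.2.1).indicator hS.compl).toLp _
      rw [← MemLp.toLp_const_smul, MemLp.toLp_eq_toLp_iff]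
      filter_upwards [h.2] with p hp
      by_cases hpS : p ∈ Sᶜ
      · simp only [Pi.smul_apply, indicator_of_mem hpS]; exact hp
      · simp only [Pi.smul_apply, indicator_of_notMem hpS, smul_zero]

variable {hS : MeasurableSet S}

theorem grS0_eq (e : Vl 𝓗 a b c B) :
    ∀ᵐ p : ℝ × ℝ, (grS 𝓗 a b c B hS e) 0 p = (Wo a b c B \ S).indicator (gx e) p := by
  have h : ∀ᵐ p : ℝ × ℝ, (grS 𝓗 a b c B hS e) 0 p = Sᶜ.indicator (G1 a b c B e) p :=
    ((memLp_G1 e.2.1).indicator hS.compl).coeFn_toLp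
  filter_upwards [h] with p hp
  rw [hp, G1, indicator_indicator, inter_comm]
  rfl

theorem grS1_eq (e : Vl 𝓗 a b c B) :
    ∀ᵐ p : ℝ × ℝ, (grS 𝓗 a b c B hS e) 1 p = (Wo a b c B \ S).indicator (gy e) p := by
  have h : ∀ᵐ p : ℝ × ℝ, (grS 𝓗 a b c B hS e) 1 p = Sᶜ.indicator (G2 a b c B e) p :=
    ((memLp_G2 e.2.1).indicator hS.compl).coeFn_toLp
  filter_upwards [h] with p hp
  rw [hp, G2, indicator_indicator, inter_comm]
  rfl

theorem memLp_x (hS : MeasurableSet S) (h : CFJ 𝓗 (Wl a b c B) e) :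
    MemLp ((Wo a b c B \ S).indicator (gx e)) 2 volume := by
  have h1 := (memLp_G1 h).indicator hS.compl
  have h2 : Sᶜ.indicator (G1 a b c B e) = (Wo a b c B \ S).indicator (gx e) := by
    rw [G1, indicator_indicator, inter_comm]; rfl
  rwa [h2] at h1

theorem memLp_y (hS : MeasurableSet S) (h : CFJ 𝓗 (Wl a b c B) e) :
    MemLp ((Wo a b c B \ S).indicator (gy e)) 2 volume := by
  have h1 := (memLp_G2 h).indicator hS.compl
  have h2 : Sᶜ.indicator (G2 a b c B e) = (Wo a b c B \ S).indicator (gy e) := by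
    rw [G2, indicator_indicator, inter_comm]; rfl
  rwa [h2] at h1

theorem measurableSet_WS (hS : MeasurableSet S) : MeasurableSet (Wo a b c B \ S) :=
  measurableSet_Wo.diff hS

theorem inner_grS (X : HF) (e : Vl 𝓗 a b c B) :
    ⟪X, grS 𝓗 a b c B hS e⟫_ℝ =
      ∫ p in Wo a b c B \ S, (X 0 p * gx e p + X 1 p * gy e p) := by
  rw [PiLp.inner_apply, Fin.sum_univ_two, inner_L2_eq, inner_L2_eq,
    ← integral_indicator (measurableSet_WS hS)]
  have h0 : ∫ p, X 0 p * (grS 𝓗 a b c B hS e) 0 p =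
      ∫ p, X 0 p * (Wo a b c B \ S).indicator (gx e) p := by
    refine integral_congr_ae ?_
    filter_upwards [grS0_eq (hS := hS) e] with p hp
    rw [hp]
  have h1 : ∫ p, X 1 p * (grS 𝓗 a b c B hS e) 1 p =
      ∫ p, X 1 p * (Wo a b c B \ S).indicator (gy e) p := by
    refine integral_congr_ae ?_
    filter_upwards [grS1_eq (hS := hS) e] with p hp
    rw [hp]
  rw [h0, h1, ← integral_add]
  · refine integral_congr_ae (Eventually.of_forall fun p => ?_)
    by_cases hp : p ∈ Wo a b c B \ S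
    · simp only [indicator_of_mem hp]
    · simp only [indicator_of_notMem hp, mul_zero, add_zero]
  · exact (Lp.memLp _).integrable_mul (memLp_x hS e.2.1)
  · exact (Lp.memLp _).integrable_mul (memLp_y hS e.2.1)

theorem norm_grS_sq (e : Vl 𝓗 a b c B) :
    ‖grS 𝓗 a b c B hS e‖ ^ 2 = En (Wo a b c B \ S) e := by
  rw [← real_inner_self_eq_norm_sq, inner_grS, En]
  refine setIntegral_congr_ae (measurableSet_WS hS) ?_
  filter_upwards [grS0_eq (hS := hS) e, grS1_eq (hS := hS) e] with p hp0 hp1 hp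
  rw [hp0, hp1, indicator_of_mem hp, indicator_of_mem hp]
  unfold g2; ring

/-- measurable representatives -/
noncomputable def repS (a b c B : ℝ) (S : Set (ℝ × ℝ)) (X : HF) (i : Fin 2) : ℝ × ℝ → ℝ :=
  (Wo a b c B \ S).indicator (X i)

theorem measurable_repS (hS : MeasurableSet S) (X : HF) (i : Fin 2) :
    Measurable (repS a b c B S X i) :=
  (Lp.stronglyMeasurable (X i)).measurable.indicator (measurableSet_WS hS)

theorem memLp_repS (hS : MeasurableSet S) (X : HF) (i : Fin 2) :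
    MemLp (repS a b c B S X i) 2 (volume : Measure (ℝ × ℝ)) :=
  (Lp.memLp (X i)).indicator (measurableSet_WS hS)

theorem inner_grS_rep (X : HF) (e : Vl 𝓗 a b c B) :
    ⟪X, grS 𝓗 a b c B hS e⟫_ℝ =
      ∫ p in Wo a b c B \ S, (repS a b c B S X 0 p * gx e p + repS a b c B S X 1 p * gy e p) := by
  rw [inner_grS]
  refine setIntegral_congr_fun (measurableSet_WS hS) fun p hp => ?_
  simp only [repS, indicator_of_mem hp]

theorem zero_off_of_closure {X : HF} (hX : X ∈ closure (range (grS 𝓗 a b c B hS))) (i : Fin 2) :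
    ∀ᵐ p : ℝ × ℝ, p ∉ Wo a b c B \ S → X i p = 0 := by
  have hcl := isClosed_zero_off (Wo a b c B \ S) (measurableSet_WS hS)
  have hc : Continuous fun Y : HF => Y i := PiLp.continuous_apply 2 _ i
  have h : X ∈ (fun Y : HF => Y i) ⁻¹' {f | ∀ᵐ p : ℝ × ℝ, p ∉ Wo a b c B \ S → f p = 0} := by
    refine closure_minimal ?_ (hcl.preimage hc) hX
    rintro _ ⟨e, rfl⟩
    fin_cases i
    · show ∀ᵐ p : ℝ × ℝ, p ∉ Wo a b c B \ S → (grS 𝓗 a b c B hS e) 0 p = 0
      filter_upwards [grS0_eq (hS := hS) e] with p hp hpW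
      rw [hp, indicator_of_notMem hpW]
    · show ∀ᵐ p : ℝ × ℝ, p ∉ Wo a b c B \ S → (grS 𝓗 a b c B hS e) 1 p = 0
      filter_upwards [grS1_eq (hS := hS) e] with p hp hpW
      rw [hp, indicator_of_notMem hpW]
  exact h

theorem repS_ae {X : HF} {i : Fin 2} (h : ∀ᵐ p : ℝ × ℝ, p ∉ Wo a b c B \ S → X i p = 0) :
    ∀ᵐ p : ℝ × ℝ, repS a b c B S X i p = X i p := by
  filter_upwards [h] with p hp
  by_cases hpW : p ∈ Wo a b c B \ S
  · exact indicator_of_mem hpW _
  · rw [repS, indicator_of_notMem hpW, hp hpW]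

theorem norm_repS {X : HF} (hX : X ∈ closure (range (grS 𝓗 a b c B hS))) :
    (∫ p, repS a b c B S X 0 p ^ 2) + ∫ p, repS a b c B S X 1 p ^ 2 = ‖X‖ ^ 2 := by
  rw [norm_HF_sq]
  congr 1
  · refine integral_congr_ae ?_
    filter_upwards [repS_ae (zero_off_of_closure hX 0)] with p hp
    rw [hp]
  · refine integral_congr_ae ?_
    filter_upwards [repS_ae (zero_off_of_closure hX 1)] with p hp
    rw [hp]

theorem norm_sub_repS (X : HF) (e : Vl 𝓗 a b c B) :
    ∫ p in Wo a b c B \ S,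
      ((gx e p - repS a b c B S X 0 p) ^ 2 + (gy e p - repS a b c B S X 1 p) ^ 2) ≤
      ‖grS 𝓗 a b c B hS e - X‖ ^ 2 := by
  rw [norm_HF_sq]
  have h0 : ∀ᵐ p : ℝ × ℝ, (grS 𝓗 a b c B hS e - X) 0 p =
      (Wo a b c B \ S).indicator (gx e) p - X 0 p := by
    have := Lp.coeFn_sub ((grS 𝓗 a b c B hS e) 0) (X 0)
    filter_upwards [this, grS0_eq (hS := hS) e] with p hp hp'
    rw [← hp']; exact hp
  have h1 : ∀ᵐ p : ℝ × ℝ, (grS 𝓗 a b c B hS e - X) 1 p =
      (Wo a b c B \ S).indicator (gy e) p - X 1 p := by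
    have := Lp.coeFn_sub ((grS 𝓗 a b c B hS e) 1) (X 1)
    filter_upwards [this, grS1_eq (hS := hS) e] with p hp hp'
    rw [← hp']; exact hp
  have i0 : Integrable (fun p => (grS 𝓗 a b c B hS e - X) 0 p ^ 2) volume :=
    (Lp.memLp _).integrable_sq
  have i1 : Integrable (fun p => (grS 𝓗 a b c B hS e - X) 1 p ^ 2) volume :=
    (Lp.memLp _).integrable_sq
  rw [← integral_add i0 i1, ← integral_indicator (measurableSet_WS hS)]
  refine integral_mono_of_nonneg ?_ (i0.add i1) ?_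
  · refine Eventually.of_forall fun p => indicator_nonneg (fun q _ => ?_) p
    positivity
  · filter_upwards [h0, h1] with p hp0 hp1
    simp only [hp0, hp1]
    by_cases hpW : p ∈ Wo a b c B \ S
    · simp [repS, hpW]
    · rw [indicator_of_notMem hpW]; positivity

end Crest.Agent.R105.Knq_247
end

-- ▼ part R105/Knq2_247
section

set_option autoImplicit false

open Set Filter MeasureTheory Topology
open scoped ENNReal NNReal InnerProductSpace

namespace Crest.Agent.R105.Knq_247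

open CF_363 Kin_238 Kkt_238

variable {P : Type*} {lam : (P → ℝ) →ₗ[ℝ] ℝ}

open Classical in
/-- push forward of a positive functional to a compact subset -/
theorem push_to {Y : Type*} [TopologicalSpace Y] [T2Space Y] [MeasurableSpace Y] [BorelSpace Y]
    (hp : Pos lam) {C : Set Y} (hC : IsCompact C) (π : P → Y) (hπ : ∀ q, π q ∈ C) :
    ∃ μ : Measure Y, IsFiniteMeasure μ ∧ μ Cᶜ = 0 ∧ μ.real univ = lam 1 ∧
      (∀ f : Y → ℝ, ContinuousOn f C → ∫ p, f p ∂μ = lam (fun q => f (π q))) ∧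
      (∀ F : Set Y, IsClosed F → lam (fun q => if π q ∈ F then 1 else 0) ≤ μ.real F) ∧
      (∀ U : Set Y, IsOpen U → μ.real U ≤ lam (fun q => if π q ∈ U then 1 else 0)) := by
  have : CompactSpace C := isCompact_iff_compactSpace.1 hC
  obtain ⟨μ', hreg, hfin, hint, hone, hF, hU⟩ :=
    exists_push hp (Y := C) (fun q => ⟨π q, hπ q⟩)
  have hme : MeasurableEmbedding (Subtype.val : C → Y) :=
    MeasurableEmbedding.subtype_coe hC.isClosed.measurableSet
  refine ⟨μ'.map Subtype.val, inferInstance, ?_, ?_, fun f hf => ?_, fun F hFc => ?_,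
    fun U hUo => ?_⟩
  · rw [hme.map_apply]; simp
  · rw [← hone, measureReal_def, measureReal_def, hme.map_apply]; simp
  · rw [hme.integral_map]
    exact hint ⟨_, hf.domRestrict⟩
  · have h1 := hF (Subtype.val ⁻¹' F) (hFc.preimage continuous_subtype_val)
    have h2 : (μ'.map Subtype.val).real F = μ'.real (Subtype.val ⁻¹' F) := by
      rw [measureReal_def, measureReal_def, hme.map_apply]
    rw [h2]
    exact h1
  · have h1 := hU (Subtype.val ⁻¹' U) (hUo.preimage continuous_subtype_val)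
    have h2 : (μ'.map Subtype.val).real U = μ'.real (Subtype.val ⁻¹' U) := by
      rw [measureReal_def, measureReal_def, hme.map_apply]
    rw [h2]
    exact h1

variable {ι : Type*} {a b c B : ℝ} {𝓗 : Set Hair} {Q : ι → Set (ℝ × ℝ)} {S C : Set (ℝ × ℝ)}
  {e e' : ℝ × ℝ → ℝ}

open Classical in
/-- the functional of the side traces is the integral -/
theorem flow_id (hp : Pos lam) (hCW : C ⊆ Wl a b c B) (pt : P → ℝ × ℝ) (s : P → Bool)
    (hpt : ∀ q, pt q ∈ C)
    {μ : Measure (ℝ × ℝ)} [IsFiniteMeasure μ] (hcar : μ Cᶜ = 0)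
    (hint : ∀ f : ℝ × ℝ → ℝ, ContinuousOn f C → ∫ p, f p ∂μ = lam (fun q => f (pt q)))
    (hcl : ∀ F : Set (ℝ × ℝ), IsClosed F →
      lam (fun q => if pt q ∈ F then 1 else 0) ≤ μ.real F)
    {J : Finset Hair} (he : CF (Wl a b c B \ cut J) e) (hJ : μ (cut J) = 0) :
    lam (fun q => tr e (s q) (pt q).1 (pt q).2) = ∫ p, e p ∂μ := by
  obtain ⟨L, C', hL, hSL, hC⟩ := he
  wlog hC0 : 0 ≤ C' generalizing C'
  · exact this |C'| (fun p hp => (hC p hp).trans (le_abs_self C')) (abs_nonneg C')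
  have hpos : ∀ q, pt q ∈ Wl a b c B := fun q => hCW (hpt q)
  have htr : ∀ q, |tr e (s q) (pt q).1 (pt q).2| ≤ C' := fun q =>
    abs_tr_le hSL hC (s q) (hpos q).1 (hpos q).2.1 (hpos q).2.2
  have hbd : ∀ᵐ p ∂μ, p ∈ Wl a b c B ∧ p ∉ cut J := by
    have h1 : ∀ᵐ p ∂μ, p ∈ C := by
      rw [ae_iff]; exact hcar
    have h2 : ∀ᵐ p ∂μ, p ∉ cut J := measure_eq_zero_iff_ae_notMem.1 hJ
    filter_upwards [h1, h2] with p hp1 hp2 using ⟨hCW hp1, hp2⟩
  have hmeas : AEStronglyMeasurable e μ := by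
    have h1 : MeasurableSet (Wl a b c B \ cut J) :=
      measurableSet_Wl.diff (isClosed_cut J).measurableSet
    have h2 : μ.restrict (Wl a b c B \ cut J) = μ := by
      apply Measure.restrict_eq_self_of_ae_mem
      filter_upwards [hbd] with p hp using hp
    rw [← h2]
    exact (continuousOn_of hSL).aestronglyMeasurable h1
  have hie : Integrable e μ := by
    refine Integrable.of_bound hmeas C' ?_
    filter_upwards [hbd] with p hp using by simpa using hC p hp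
  have key : ∀ ε : ℝ, 0 < ε →
      |lam (fun q => tr e (s q) (pt q).1 (pt q).2) - ∫ p, e p ∂μ| ≤ 4 * C' * ε := by
    intro ε hε
    obtain ⟨u, O, F, hu, hu01, hO, hSO, huO, hF, hμF, hOF, hu1⟩ :=
      exists_cutoff μ (isCompact_cut J) hJ hε
    set f : ℝ × ℝ → ℝ := fun p => u p * e p with hf
    have hfc : ContinuousOn f (Wl a b c B) := by
      intro p hp
      by_cases hpO : p ∈ O
      · have : f =ᶠ[𝓝[Wl a b c B] p] fun _ => 0 := by
          filter_upwards [nhdsWithin_le_nhds (hO.mem_nhds hpO)] with q hq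
          simp [hf, huO q hq]
        refine continuousWithinAt_const.congr_of_eventuallyEq this ?_
        simp [hf, huO p hpO]
      · exact hu.continuousWithinAt.mul (continuousWithinAt_of hSL hp fun h => hpO (hSO h))
    have hfe : ∀ p ∈ Wl a b c B, p ∉ cut J → |e p - f p| ≤ C' * (if p ∈ F then 1 else 0) := by
      intro p hp hpJ
      by_cases hpF : p ∈ F
      · rw [if_pos hpF, mul_one]
        have h1 := hC p ⟨hp, hpJ⟩
        have h2 := hu01 p
        have h3 : e p - f p = (1 - u p) * e p := by simp only [hf]; ring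
        rw [h3, abs_mul, abs_of_nonneg (by linarith)]
        nlinarith [abs_nonneg (e p)]
      · rw [if_neg hpF, mul_zero]
        simp [hf, hu1 p hpF]
    -- comparison of the functionals
    have hA : |lam (fun q => tr e (s q) (pt q).1 (pt q).2) - lam (fun q => f (pt q))|
        ≤ 2 * C' * ε := by
      rw [← map_sub]
      have h1 : ∀ q, |((fun q => tr e (s q) (pt q).1 (pt q).2) - fun q => f (pt q)) q| ≤
          2 * C' * (if pt q ∈ F then 1 else 0) := by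
        intro q
        simp only [Pi.sub_apply]
        by_cases hqJ : pt q ∈ cut J
        · have h2 := hSO hqJ
          rw [if_pos (hOF h2), mul_one]
          have h3 : f (pt q) = 0 := by simp [hf, huO _ h2]
          rw [h3, sub_zero]
          have := htr q
          linarith
        · have h4 : tr e (s q) (pt q).1 (pt q).2 = e (pt q) :=
            tr_eq_self hSL (s q) (hpos q).1 (hpos q).2.1 (hpos q).2.2 hqJ
          rw [h4]
          refine (hfe _ (hpos q) hqJ).trans ?_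
          have : (0:ℝ) ≤ if pt q ∈ F then 1 else 0 := by split_ifs <;> norm_num
          nlinarith
      have hb1 : Bd (fun q => (if pt q ∈ F then (1:ℝ) else 0)) :=
        ⟨1, fun q => by beta_reduce; split_ifs <;> simp⟩
      have hb2 : Bd ((fun q => tr e (s q) (pt q).1 (pt q).2) - fun q => f (pt q)) := by
        refine ⟨2 * C', fun q => (h1 q).trans ?_⟩
        split_ifs <;> linarith
      have h2 : lam ((2 * C') • fun q => (if pt q ∈ F then (1:ℝ) else 0)) ≤ 2 * C' * ε := by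
        rw [map_smul, smul_eq_mul]
        exact mul_le_mul_of_nonneg_left ((hcl F hF).trans hμF.le) (by linarith)
      rw [abs_le]
      constructor
      · have h3 := hp.mono ((hb1.smul (2 * C')).neg) hb2 (fun q => by
          have := (abs_le.1 (h1 q)).1
          simpa using this)
        rw [map_neg] at h3
        linarith
      · have h3 := hp.mono hb2 (hb1.smul (2 * C')) (fun q => by
          have := (abs_le.1 (h1 q)).2
          simpa using this)
        linarith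
    -- comparison of the integrals
    have hBb : |(∫ p, e p ∂μ) - ∫ p, f p ∂μ| ≤ C' * ε := by
      have hif : Integrable f μ := by
        refine Integrable.of_bound ?_ C' ?_
        · have h2 : μ.restrict (Wl a b c B) = μ := by
            apply Measure.restrict_eq_self_of_ae_mem
            filter_upwards [hbd] with p hp using hp.1
          rw [← h2]
          exact hfc.aestronglyMeasurable measurableSet_Wl
        · filter_upwards [hbd] with p hp
          have h1 := hC p hp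
          have h2 := hu01 p
          rw [hf]
          simp only [Real.norm_eq_abs, abs_mul, abs_of_nonneg h2.1]
          nlinarith [abs_nonneg (e p)]
      rw [← integral_sub hie hif]
      have h6 := norm_integral_le_integral_norm (μ := μ) (fun p => e p - f p)
      rw [Real.norm_eq_abs] at h6
      refine h6.trans ?_
      calc ∫ p, ‖e p - f p‖ ∂μ ≤ ∫ p, F.indicator (fun _ => C') p ∂μ := by
            refine integral_mono_ae (hie.sub hif).norm
              ((integrable_const C').indicator hF.measurableSet) ?_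
            filter_upwards [hbd] with p hp
            have := hfe p hp.1 hp.2
            by_cases hpF : p ∈ F
            · simp only [Real.norm_eq_abs, indicator_of_mem hpF]
              simpa [hpF] using this
            · simp only [Real.norm_eq_abs, indicator_of_notMem hpF]
              simpa [hpF] using this
        _ = C' * μ.real F := by
            rw [integral_indicator hF.measurableSet, setIntegral_const, smul_eq_mul, mul_comm]
        _ ≤ C' * ε := mul_le_mul_of_nonneg_left hμF.le hC0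
    rw [hint f (hfc.mono hCW)] at hBb
    have h5 := abs_sub_le (lam (fun q => tr e (s q) (pt q).1 (pt q).2))
      (lam (fun q => f (pt q))) (∫ p, e p ∂μ)
    rw [abs_sub_comm (lam (fun q => f (pt q)))] at h5
    nlinarith
  have h0 : |lam (fun q => tr e (s q) (pt q).1 (pt q).2) - ∫ p, e p ∂μ| ≤ 0 := by
    refine le_of_forall_pos_le_add fun ε hε => ?_
    have := key (ε / (4 * C' + 1)) (by positivity)
    refine this.trans ?_
    rw [zero_add, mul_div_assoc', div_le_iff₀ (by positivity)]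
    nlinarith
  exact sub_eq_zero.1 (abs_nonpos_iff.1 h0)

/-! ### the functional of one charged set -/

theorem exists_charge (H : QQ 𝓗 a b c B Q) (i : ι) {k : ℝ} (hk : 0 ≤ k)
    (hemp : Q i ∩ Wl a b c B = ∅ → k = 0) (l : Vq 𝓗 a b c B Q →ₗ[ℝ] ℝ)
    (hl : ∀ e : Vq 𝓗 a b c B Q, |l e| ≤ k * osc (Q i ∩ Wl a b c B) e) :
    ∃ νp νm : Measure (ℝ × ℝ), IsFiniteMeasure νp ∧ IsFiniteMeasure νm ∧
      νp (Q i ∩ Wl a b c B)ᶜ = 0 ∧ νm (Q i ∩ Wl a b c B)ᶜ = 0 ∧ νp.real univ = k ∧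
      νm.real univ = k ∧ ∀ e : Vq 𝓗 a b c B Q,
        l e = (∫ p, (e : ℝ × ℝ → ℝ) p ∂νp) - ∫ p, (e : ℝ × ℝ → ℝ) p ∂νm := by
  rcases (Q i ∩ Wl a b c B).eq_empty_or_nonempty with hE | hE
  · have hk0 := hemp hE
    refine ⟨0, 0, inferInstance, inferInstance, by simp, by simp, by simp [hk0], by simp [hk0],
      fun e => ?_⟩
    have := hl e
    rw [hk0, zero_mul] at this
    simpa using abs_nonpos_iff.1 this
  · set T := Q i ∩ Wl a b c B with hT
    have hne : Nonempty (T × T) := by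
      obtain ⟨p, hp⟩ := hE
      exact ⟨⟨⟨p, hp⟩, ⟨p, hp⟩⟩⟩
    let Bm : Vq 𝓗 a b c B Q →ₗ[ℝ] (T × T → ℝ) :=
      { toFun := fun e q => (e : ℝ × ℝ → ℝ) q.1 - (e : ℝ × ℝ → ℝ) q.2
        map_add' := fun e e' => by
          ext q
          show (e : ℝ × ℝ → ℝ) q.1 + (e' : ℝ × ℝ → ℝ) q.1 -
            ((e : ℝ × ℝ → ℝ) q.2 + (e' : ℝ × ℝ → ℝ) q.2) = _
          simp only [Pi.add_apply]; ring
        map_smul' := fun t e => by
          ext q
          show t * (e : ℝ × ℝ → ℝ) q.1 - t * (e : ℝ × ℝ → ℝ) q.2 = _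
          simp only [RingHom.id_apply, Pi.smul_apply, smul_eq_mul]; ring }
    have hBm : ∀ e, Bd (Bm e) := fun e =>
      ⟨osc T e, fun q => le_osc (H.bo e.2 i) q.1.2 q.2.2⟩
    obtain ⟨nu, hp, h1, h2⟩ := Kks_247.rep Bm hBm k hk l (fun v r hr => by
      have hr0 : 0 ≤ r := by
        obtain ⟨p, hp⟩ := hE
        have := hr ⟨⟨p, hp⟩, ⟨p, hp⟩⟩
        have h3 : Bm v ⟨⟨p, hp⟩, ⟨p, hp⟩⟩ = (v : ℝ × ℝ → ℝ) p - (v : ℝ × ℝ → ℝ) p := rfl
        rw [h3, sub_self] at this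
        exact this
      have h3 : osc T v ≤ r := osc_le hr0 fun p hp q hq => by
        rw [abs_le]
        have e1 : (v : ℝ × ℝ → ℝ) p - (v : ℝ × ℝ → ℝ) q ≤ r := hr ⟨⟨p, hp⟩, ⟨q, hq⟩⟩
        have e2 : (v : ℝ × ℝ → ℝ) q - (v : ℝ × ℝ → ℝ) p ≤ r := hr ⟨⟨q, hq⟩, ⟨p, hp⟩⟩
        exact ⟨by linarith, e1⟩
      exact (le_abs_self _).trans ((hl v).trans (mul_le_mul_of_nonneg_left h3 hk)))
    obtain ⟨μ1, f1, c1, m1, i1, -, -⟩ := push_to hp (H.cpt i) (fun q : T × T => (q.1 : ℝ × ℝ))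
      (fun q => q.1.2)
    obtain ⟨μ2, f2, c2, m2, i2, -, -⟩ := push_to hp (H.cpt i) (fun q : T × T => (q.2 : ℝ × ℝ))
      (fun q => q.2.2)
    refine ⟨μ1, μ2, f1, f2, c1, c2, by rw [m1, h1], by rw [m2, h1], fun e => ?_⟩
    rw [i1 _ (e.2.2 i), i2 _ (e.2.2 i), h2, ← map_sub]
    rfl

/-! ### the flow on one half -/

/-- the flow on one half, with charges -/
structure HalfQ (𝓗 : Set Hair) (a b c B : ℝ) (S : Set (ℝ × ℝ)) (Q : ι → Set (ℝ × ℝ))
    (C : Set (ℝ × ℝ)) (X1 X2 : ℝ × ℝ → ℝ) (f : ι → ℝ) (νp νm : ι → Measure (ℝ × ℝ))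
    (μ : Measure (ℝ × ℝ)) : Prop where
  m1 : Measurable X1
  m2 : Measurable X2
  L1 : MemLp X1 2 (volume : Measure (ℝ × ℝ))
  L2 : MemLp X2 2 (volume : Measure (ℝ × ℝ))
  z1 : ∀ p, p ∉ Wo a b c B \ S → X1 p = 0
  z2 : ∀ p, p ∉ Wo a b c B \ S → X2 p = 0
  fin : IsFiniteMeasure μ
  carried : μ Cᶜ = 0
  f0 : ∀ i, 0 ≤ f i
  fs : Summable fun i => f i ^ 2
  pfin : ∀ i, IsFiniteMeasure (νp i)
  mfin : ∀ i, IsFiniteMeasure (νm i)
  pc : ∀ i, νp i (Q i ∩ Wl a b c B)ᶜ = 0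
  mc : ∀ i, νm i (Q i ∩ Wl a b c B)ᶜ = 0
  pm : ∀ i, (νp i).real univ = f i
  mm : ∀ i, (νm i).real univ = f i
  /-- flow identity -/
  F : ∀ (e : ℝ × ℝ → ℝ) (J : Finset Hair), e ∈ Vq 𝓗 a b c B Q → CF (Wl a b c B \ cut J) e →
    μ (cut J) = 0 → (∫ p in Wo a b c B \ S, (X1 p * gx e p + X2 p * gy e p)) +
      ∑' i, ((∫ p, e p ∂(νp i)) - ∫ p, e p ∂(νm i)) = ∫ p, e p ∂μ
  /-- closure sequence -/
  cl : ∃ E : ℕ → ℝ × ℝ → ℝ, (∀ n, E n ∈ Vq 𝓗 a b c B Q) ∧
    Tendsto (fun n => ∫ p in Wo a b c B \ S,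
      ((gx (E n) p - X1 p) ^ 2 + (gy (E n) p - X2 p) ^ 2)) atTop (𝓝 0) ∧
    Tendsto (fun n => ∑' i, (osc (Q i ∩ Wl a b c B) (E n) - f i) ^ 2) atTop (𝓝 0) ∧
    ∀ i, Tendsto (fun n => (∫ p, E n p ∂(νp i)) - ∫ p, E n p ∂(νm i)) atTop (𝓝 (f i ^ 2))

/-- the inclusion -/
def inc (𝓗 : Set Hair) (a b c B : ℝ) (Q : ι → Set (ℝ × ℝ)) :
    Vq 𝓗 a b c B Q →ₗ[ℝ] Vl 𝓗 a b c B :=
  Submodule.inclusion fun _ he => he.1

@[simp] theorem inc_coe (e : Vq 𝓗 a b c B Q) :
    ((inc 𝓗 a b c B Q e : Vl 𝓗 a b c B) : ℝ × ℝ → ℝ) = e := rfl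

open Classical in
theorem exists_halfQ (H : QQ 𝓗 a b c B Q) {hS : MeasurableSet S} (hp : Pos lam)
    (hCW : C ⊆ Wl a b c B) (pt : P → ℝ × ℝ) (s : P → Bool) (hpt : ∀ q, pt q ∈ C)
    {μ : Measure (ℝ × ℝ)} (hfin : IsFiniteMeasure μ) (hcar : μ Cᶜ = 0)
    (hint : ∀ f : ℝ × ℝ → ℝ, ContinuousOn f C → ∫ p, f p ∂μ = lam (fun q => f (pt q)))
    (hcl : ∀ F : Set (ℝ × ℝ), IsClosed F →
      lam (fun q => if pt q ∈ F then 1 else 0) ≤ μ.real F)
    {X : HF} {k : ι → ℝ} (hk0 : ∀ i, 0 ≤ k i) (hks : Summable fun i => k i ^ 2)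
    (hemp : ∀ i, Q i ∩ Wl a b c B = ∅ → k i = 0)
    (l : ι → Vq 𝓗 a b c B Q →ₗ[ℝ] ℝ)
    (hl : ∀ i (e : Vq 𝓗 a b c B Q), |l i e| ≤ k i * osc (Q i ∩ Wl a b c B) e)
    (hX : ∀ e : Vq 𝓗 a b c B Q, ⟪X, grS 𝓗 a b c B hS (inc 𝓗 a b c B Q e)⟫_ℝ + ∑' i, l i e =
      lam (fun q => tr e (s q) (pt q).1 (pt q).2))
    (E : ℕ → Vq 𝓗 a b c B Q)
    (hE1 : Tendsto (fun n => grS 𝓗 a b c B hS (inc 𝓗 a b c B Q (E n))) atTop (𝓝 X))
    (hE2 : Tendsto (fun n => ∑' i, (osc (Q i ∩ Wl a b c B) (E n) - k i) ^ 2) atTop (𝓝 0))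
    (hE3 : ∀ i, Tendsto (fun n => l i (E n)) atTop (𝓝 (k i ^ 2))) :
    ∃ νp νm : ι → Measure (ℝ × ℝ),
      HalfQ 𝓗 a b c B S Q C (repS a b c B S X 0) (repS a b c B S X 1) k νp νm μ ∧
      ∀ i (e : Vq 𝓗 a b c B Q),
        l i e = (∫ p, (e : ℝ × ℝ → ℝ) p ∂(νp i)) - ∫ p, (e : ℝ × ℝ → ℝ) p ∂(νm i) := by
  choose νp νm p1 p2 p3 p4 p5 p6 p7 using
    fun i => exists_charge H i (hk0 i) (hemp i) (l i) (hl i)
  refine ⟨νp, νm, ?_, p7⟩
  refine ⟨measurable_repS hS X 0, measurable_repS hS X 1, memLp_repS hS X 0, memLp_repS hS X 1,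
    fun p hp => indicator_of_notMem hp _, fun p hp => indicator_of_notMem hp _, hfin, hcar,
    hk0, hks, p1, p2, p3, p4, p5, p6, fun e J he hCF hJ => ?_, fun n => E n, fun n => (E n).2,
    ?_, hE2, fun i => ?_⟩
  · have h1 := hX ⟨e, he⟩
    rw [inner_grS_rep] at h1
    have h2 := flow_id hp hCW pt s hpt hcar hint hcl hCF hJ
    rw [← h2, ← h1]
    congr 1
    exact tsum_congr fun i => (p7 i ⟨e, he⟩).symm
  · have h1 : Tendsto (fun n => ‖grS 𝓗 a b c B hS (inc 𝓗 a b c B Q (E n)) - X‖ ^ 2) atTop (𝓝 0) := by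
      have h2 := (tendsto_iff_norm_sub_tendsto_zero.1 hE1).pow 2
      simpa using h2
    exact squeeze_zero (fun n => integral_nonneg fun p => by positivity)
      (fun n => norm_sub_repS (hS := hS) X (inc 𝓗 a b c B Q (E n))) h1
  · refine (hE3 i).congr fun n => p7 i (E n)

end Crest.Agent.R105.Knq_247
end

-- ▼ part R105/Knq3_247
section

set_option autoImplicit false

open Set Filter MeasureTheory Topology
open scoped ENNReal NNReal InnerProductSpace

namespace Crest.Agent.R105.Knq_247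

open CF_363 Kin_238 Kkt_238
open Kks_247 (Lc)

variable {ι : Type*} {a b c B : ℝ} {𝓗 : Set Hair} {Q : ι → Set (ℝ × ℝ)} {S C : Set (ℝ × ℝ)}
  {e e' : ℝ × ℝ → ℝ}

/-! ### auxiliary facts -/

theorem tr_zero (σ : Bool) (x y : ℝ) : tr (0 : ℝ × ℝ → ℝ) σ x y = 0 :=
  tr_eq_of_tendsto tendsto_const_nhds

/-- the function `min 1 (max 0 ((y - c - δ) / δ))` -/
theorem exists_bottomQ (𝓗 : Set Hair) (a b c B : ℝ) (Q : ι → Set (ℝ × ℝ)) {δ : ℝ} (hδ : 0 < δ) :
    ∃ e ∈ Vq 𝓗 a b c B Q, ∀ (σ : Bool) (x y : ℝ), (a < x ∧ x < b) → c + 2 * δ ≤ y → y ≤ B →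
      tr e σ x y = 1 := by
  set G : ℝ → ℝ := fun t => min 1 (max 0 ((t - c - δ) / δ)) with hG
  have hGlip : ∀ s t, |G s - G t| ≤ δ⁻¹ * |s - t| := by
    intro s t
    have h1 : |max 0 ((s - c - δ) / δ) - max 0 ((t - c - δ) / δ)| ≤ δ⁻¹ * |s - t| := by
      refine (abs_max_sub_max_le_max _ _ _ _).trans (max_le (by simp; positivity) ?_)
      rw [← sub_div]
      rw [abs_div, abs_of_pos hδ, div_eq_inv_mul]
      apply le_of_eq
      congr 2
      ring
    refine (abs_min_sub_min_le_max _ _ _ _).trans (max_le (by simp; positivity) h1)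
  have hsnd : SL (univ : Set (ℝ × ℝ)) 1 (fun p : ℝ × ℝ => p.2) := by
    intro p q _
    rw [one_mul, ← Real.dist_eq, Prod.dist_eq]
    exact le_max_right _ _
  have hSL := hsnd.comp (inv_nonneg.2 hδ.le) hGlip
  have hb : ∀ t, |G t| ≤ 1 := by
    intro t
    have h1 : 0 ≤ G t := le_min zero_le_one (le_max_left _ _)
    rw [abs_of_nonneg h1]
    exact min_le_left _ _
  have hCF : CF (Wl a b c B \ cut ∅) (fun p : ℝ × ℝ => G p.2) :=
    ⟨δ⁻¹ * 1, 1, by positivity, hSL.mono (subset_univ _), fun p _ => hb _⟩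
  have hcont : Continuous fun p : ℝ × ℝ => G p.2 := by
    simp only [hG]; fun_prop
  refine ⟨fun p => G p.2, ⟨⟨⟨∅, by simp, hCF⟩, δ, hδ, fun p hp hpc => ?_⟩,
    fun i => hcont.continuousOn⟩, fun σ x y hx hy hyB => ?_⟩
  · have h1 : (p.2 - c - δ) / δ ≤ 0 := div_nonpos_of_nonpos_of_nonneg (by linarith) hδ.le
    simp only [hG]
    rw [max_eq_left h1]
    simp
  · obtain ⟨L, C, hL, hS, hC⟩ := hCF
    rw [tr_eq_self hS σ hx (by linarith) hyB (by simp)]
    have h1 : 1 ≤ (y - c - δ) / δ := by rw [le_div_iff₀ hδ]; linarith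
    simp only [hG]
    rw [min_eq_left (h1.trans (le_max_right _ _))]

/-- a compact subset of `Wl` stays away from the bottom -/
theorem exists_low (hC : IsCompact C) (hCW : C ⊆ Wl a b c B) :
    ∃ δ > 0, ∀ p ∈ C, c + 2 * δ ≤ p.2 := by
  rcases C.eq_empty_or_nonempty with rfl | hne
  · exact ⟨1, one_pos, by simp⟩
  · obtain ⟨q, hq, hmin⟩ := hC.exists_isMinOn hne (f := fun p : ℝ × ℝ => p.2)
      continuous_snd.continuousOn
    refine ⟨(q.2 - c) / 2, by linarith [(hCW hq).2.1], fun p hp => ?_⟩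
    have h1 : q.2 ≤ p.2 := hmin hp
    linarith

theorem Vq_max (he : e ∈ Vq 𝓗 a b c B Q) : (fun p => max (e p) 0) ∈ Vq 𝓗 a b c B Q :=
  ⟨max_mem he.1, fun i => (he.2 i).sup continuousOn_const⟩

theorem EQ_max_le (H : QQ 𝓗 a b c B Q) (hS : IsClosed S) (he : e ∈ Vq 𝓗 a b c B Q) :
    EQ a b c B S Q (fun p => max (e p) 0) ≤ EQ a b c B S Q e := by
  refine add_le_add ?_ ?_
  · obtain ⟨J, -, L, C, hL, hSL, hC⟩ := he.1.1
    have hopen : IsOpen (Wo a b c B \ S) := isOpen_Wo.sdiff hS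
    refine En_max_const_le (S := cut J) (L := L) (hSL.mono ?_) 0 hopen (isClosed_cut J)
      (volume_cut J) ?_
    · intro p hp
      exact ⟨Wo_subset hp.1.1, hp.2⟩
    · exact ((measure_mono sdiff_subset).trans_lt volume_Wo_lt).ne
  · refine (H.summable (Vq_max he)).tsum_le_tsum (fun i => ?_) (H.summable he)
    refine pow_le_pow_left₀ (osc_nonneg _ _) ?_ 2
    exact osc_comp_le (G := fun t => max t 0)
      (fun s t => by
        have := abs_max_sub_max_le_max s 0 t 0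
        simpa using this) (H.bo he i)

/-- traces near a point are close to one of the two traces at the point -/
theorem tr_near {𝓗 : Set Hair} (he : CFJ 𝓗 (Wl a b c B) e) {p₀ : ℝ × ℝ} (hp₀ : p₀ ∈ Wl a b c B)
    {η : ℝ} (hη : 0 < η) :
    ∃ r > 0, ∀ p ∈ Wl a b c B, dist p p₀ < r → ∀ σ : Bool, ∃ σ₀ : Bool,
      |tr e σ p.1 p.2 - tr e σ₀ p₀.1 p₀.2| ≤ η := by
  obtain ⟨J, -, L, C, hL, hS, hC⟩ := he
  obtain ⟨r1, hr1, g1, hg1, h1⟩ := exists_side hS true hp₀.1
  obtain ⟨r2, hr2, g2, hg2, h2⟩ := exists_side hS false hp₀.1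
  have hη' : 0 < η / (L + 1) := by positivity
  have main : ∀ (σ₀ : Bool) (r' : ℝ) (g' : ℝ × ℝ → ℝ), 0 < r' → LipschitzWith L.toNNReal g' →
      (∀ s ∈ sInt σ₀ p₀.1 r', (a < s ∧ s < b) ∧ ∀ y, c < y → y ≤ B →
        (s, y) ∉ cut J ∧ e (s, y) = g' (s, y)) →
      ∀ p ∈ Wl a b c B, dist p p₀ < η / (L + 1) → ∀ σ : Bool,
        (p.1 ∈ sInt σ₀ p₀.1 r' ∨ (p.1 = p₀.1 ∧ σ = σ₀)) →
        |tr e σ p.1 p.2 - tr e σ₀ p₀.1 p₀.2| ≤ η := by
    intro σ₀ r' g' hr' hg' hside p hp hd σ hcase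
    have e2 : tr e σ₀ p₀.1 p₀.2 = g' (p₀.1, p₀.2) :=
      tr_eq_of_tendsto (tendsto_tr_aux hg' hr' fun s hs =>
        ((hside s hs).2 _ hp₀.2.1 hp₀.2.2).2)
    have e1 : tr e σ p.1 p.2 = g' (p.1, p.2) := by
      rcases hcase with hs | ⟨hx, rfl⟩
      · rw [tr_eq_self hS σ (hside _ hs).1 hp.2.1 hp.2.2 ((hside _ hs).2 p.2 hp.2.1 hp.2.2).1,
          ((hside _ hs).2 p.2 hp.2.1 hp.2.2).2]
      · rw [hx]
        exact tr_eq_of_tendsto (tendsto_tr_aux hg' hr' fun s hs =>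
          ((hside s hs).2 _ hp.2.1 hp.2.2).2)
    rw [e1, e2, ← Real.dist_eq]
    refine (hg'.dist_le_mul _ _).trans ?_
    rw [Real.coe_toNNReal _ hL]
    have e4 : dist ((p.1, p.2) : ℝ × ℝ) (p₀.1, p₀.2) ≤ η / (L + 1) := hd.le
    refine (mul_le_mul_of_nonneg_left e4 hL).trans ?_
    rw [mul_div_assoc', div_le_iff₀ (by positivity)]
    nlinarith
  refine ⟨min (η / (L + 1)) (min r1 r2), lt_min hη' (lt_min hr1 hr2), fun p hp hd σ => ?_⟩
  have hd1 : dist p p₀ < η / (L + 1) := hd.trans_le (min_le_left _ _)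
  have hd2 : dist p p₀ < r1 := hd.trans_le ((min_le_right _ _).trans (min_le_left _ _))
  have hd3 : dist p p₀ < r2 := hd.trans_le ((min_le_right _ _).trans (min_le_right _ _))
  have hx : |p.1 - p₀.1| ≤ dist p p₀ := by
    rw [← Real.dist_eq, Prod.dist_eq]; exact le_max_left _ _
  rcases lt_trichotomy p.1 p₀.1 with h | h | h
  · refine ⟨false, main false r2 g2 hr2 hg2 h2 p hp hd1 σ (Or.inl ?_)⟩
    simp only [sInt, Bool.false_eq_true, if_false]
    exact ⟨by linarith [(abs_le.1 hx).1], h⟩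
  · cases σ
    · exact ⟨false, main false r2 g2 hr2 hg2 h2 p hp hd1 false (Or.inr ⟨h, rfl⟩)⟩
    · exact ⟨true, main true r1 g1 hr1 hg1 h1 p hp hd1 true (Or.inr ⟨h, rfl⟩)⟩
  · refine ⟨true, main true r1 g1 hr1 hg1 h1 p hp hd1 σ (Or.inl ?_)⟩
    simp only [sInt, if_true]
    exact ⟨h, by linarith [(abs_le.1 hx).2]⟩

/-- the traces on a set of points as a linear map -/
noncomputable def trL (𝓗 : Set Hair) (a b c B : ℝ) (Q : ι → Set (ℝ × ℝ)) {P : Type*}
    (pt : P → ℝ × ℝ) (s : P → Bool) (hpt : ∀ q, pt q ∈ Wl a b c B) :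
    Vq 𝓗 a b c B Q →ₗ[ℝ] (P → ℝ) where
  toFun e := fun q => tr e (s q) (pt q).1 (pt q).2
  map_add' := by
    intro e e'
    ext q
    exact tr_add e.2.1.1 e'.2.1.1 (s q) (hpt q).1 (hpt q).2.1 (hpt q).2.2
  map_smul' := by
    intro t e
    ext q
    exact tr_smul e.2.1.1 t (s q) (hpt q).1 (hpt q).2.1 (hpt q).2.2


theorem bd_trL {P : Type*} (pt : P → ℝ × ℝ) (s : P → Bool) (hpt : ∀ q, pt q ∈ Wl a b c B)
    (e : Vq 𝓗 a b c B Q) : Bd (trL 𝓗 a b c B Q pt s hpt e) := by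
  obtain ⟨J, -, L, C, hL, hS, hC⟩ := e.2.1.1
  exact ⟨C, fun q => abs_tr_le hS hC (s q) (hpt q).1 (hpt q).2.1 (hpt q).2.2⟩

/-! ### coordinates in `ℓ²` -/

theorem tendsto_coord {κ : Type*} {z : ℕ → Kks_247.L2 κ} {k : Kks_247.L2 κ}
    (h : Tendsto z atTop (𝓝 k)) (i : κ) : Tendsto (fun n => z n i) atTop (𝓝 (k i)) := by
  have h2 : Continuous fun f : Kks_247.L2 κ => f i :=
    (lp.lipschitzWith_one_eval (p := 2) (E := fun _ : κ => ℝ) i).continuous
  exact (h2.tendsto k).comp h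

theorem tendsto_sum_sq {κ : Type*} {z : ℕ → Kks_247.L2 κ} {k : Kks_247.L2 κ}
    (h : Tendsto z atTop (𝓝 k)) : Tendsto (fun n => ∑' i, (z n i - k i) ^ 2) atTop (𝓝 0) := by
  have h2 := (tendsto_iff_norm_sub_tendsto_zero.1 h).pow 2
  simp only [ne_eq, OfNat.ofNat_ne_zero, not_false_eq_true, zero_pow] at h2
  refine h2.congr fun n => ?_
  rw [Kks_247.l2_norm_sq]
  rfl

/-! ### the one-sided problem -/

/-- one-sided nullness of the compact set `C` -/
def Null1 (𝓗 : Set Hair) (a b c B : ℝ) (S : Set (ℝ × ℝ)) (Q : ι → Set (ℝ × ℝ))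
    (C : Set (ℝ × ℝ)) : Prop :=
  ∀ ε > 0, ∃ e ∈ Vq 𝓗 a b c B Q, EQ a b c B S Q e < ε ∧
    ∀ p ∈ C, ∀ σ : Bool, 1 ≤ tr e σ p.1 p.2

theorem EQ_zero : EQ a b c B S Q 0 = 0 := by
  have h1 : En (Wo a b c B \ S) (0 : ℝ × ℝ → ℝ) = 0 := En_const _ 0
  have h2 : ∀ i, osc (Q i ∩ Wl a b c B) (0 : ℝ × ℝ → ℝ) = 0 := fun i =>
    le_antisymm (osc_le le_rfl fun p _ q _ => by simp) (osc_nonneg _ _)
  simp [EQ, h1, h2]


end Crest.Agent.R105.Knq_247
end

-- ▼ part R105/Knq4_247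

set_option autoImplicit false

open Set Filter MeasureTheory Topology
open scoped ENNReal NNReal InnerProductSpace

namespace Crest.Agent.R105.Knq_247

open CF_363 Kin_238 Kkt_238

variable {ι : Type*} {a b c B : ℝ} {𝓗 : Set Hair} {Q : ι → Set (ℝ × ℝ)} {S C : Set (ℝ × ℝ)}
  {e e' : ℝ × ℝ → ℝ}

/-- squeeze with a parameter -/
theorem tendsto_zero_of_le {u v : ℕ → ℝ} {A : ℝ} (hu : ∀ n, 0 ≤ u n) (hA : 0 ≤ A)
    (h : ∀ n, ∀ δ > 0, u n ≤ δ * A + δ⁻¹ * v n) (hv : Tendsto v atTop (𝓝 0)) :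
    Tendsto u atTop (𝓝 0) := by
  rw [Metric.tendsto_atTop]
  intro ε hε
  set δ := ε / (2 * (A + 1)) with hδ
  have hδ0 : 0 < δ := by positivity
  have h1 : δ * A ≤ ε / 2 := by
    rw [hδ, div_mul_eq_mul_div, div_le_div_iff₀ (by positivity) (by norm_num)]
    nlinarith
  obtain ⟨N, hN⟩ := (hv.eventually (gt_mem_nhds (show 0 < δ * (ε / 2) by positivity))).exists_forall_of_atTop
  refine ⟨N, fun n hn => ?_⟩
  rw [Real.dist_eq, sub_zero, abs_of_nonneg (hu n)]
  have h2 := h n δ hδ0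
  have h3 : δ⁻¹ * v n < ε / 2 := by
    rw [inv_mul_lt_iff₀ hδ0]
    exact hN n hn
  linarith

/-- convergence of the sum of the charges -/
theorem tendsto_tsum_slack {f : ι → ℝ} (hf : ∀ i, 0 ≤ f i) (hfs : Summable fun i => f i ^ 2)
    {o : ℕ → ι → ℝ} (ho : ∀ n, Summable fun i => o n i ^ 2)
    (hlim : Tendsto (fun n => ∑' i, (o n i - f i) ^ 2) atTop (𝓝 0)) {l : ℕ → ι → ℝ}
    (hl : ∀ n i, |l n i| ≤ f i * o n i) (hl' : ∀ i, Tendsto (fun n => l n i) atTop (𝓝 (f i ^ 2))) :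
    Tendsto (fun n => ∑' i, l n i) atTop (𝓝 (∑' i, f i ^ 2)) := by
  classical
  have hfo : ∀ n, Summable fun i => f i * o n i := fun n => by
    refine Summable.of_norm_bounded ((hfs.add (ho n)).mul_left (1 / 2)) fun i => ?_
    rw [Real.norm_eq_abs, abs_le]
    constructor <;> nlinarith [sq_nonneg (f i - o n i), sq_nonneg (f i + o n i)]
  have hd : ∀ n, Summable fun i => (o n i - f i) ^ 2 := fun n => by
    refine Summable.of_nonneg_of_le (fun i => sq_nonneg _) (fun i => ?_)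
      ((hfs.add (ho n)).mul_left 2)
    nlinarith [sq_nonneg (f i + o n i)]
  have hls : ∀ n, Summable fun i => l n i := fun n =>
    Summable.of_norm_bounded (hfo n) fun i => by rw [Real.norm_eq_abs]; exact hl n i
  have hds : ∀ n, Summable fun i => |l n i - f i ^ 2| := fun n => ((hls n).sub hfs).abs
  have hpt : ∀ n i, ∀ δ > 0, |l n i - f i ^ 2| ≤
      2 * f i ^ 2 + (δ * f i ^ 2 + δ⁻¹ * (o n i - f i) ^ 2) := by
    intro n i δ hδ
    have h1 := hl n i
    have h2 : |l n i - f i ^ 2| ≤ |l n i| + f i ^ 2 := by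
      refine (abs_sub _ _).trans ?_
      rw [abs_of_nonneg (sq_nonneg (f i))]
    have h3 : f i * (o n i - f i) ≤ δ * f i ^ 2 + δ⁻¹ * (o n i - f i) ^ 2 := by
      have h4 : 0 ≤ δ⁻¹ * (δ * f i - (o n i - f i)) ^ 2 := by positivity
      have h5 : δ⁻¹ * (δ * f i - (o n i - f i)) ^ 2 =
          δ * f i ^ 2 - 2 * (f i * (o n i - f i)) + δ⁻¹ * (o n i - f i) ^ 2 := by
        field_simp
        ring
      have h6 : 0 ≤ δ * f i ^ 2 + δ⁻¹ * (o n i - f i) ^ 2 := by positivity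
      by_cases h7 : f i * (o n i - f i) ≤ 0
      · linarith
      · push Not at h7
        linarith
    nlinarith
  have key : ∀ ε > 0, ∃ F : Finset ι, ∀ n, ∀ δ > 0, |(∑' i, l n i) - ∑' i, f i ^ 2| ≤
      ε + ∑ i ∈ F, |l n i - f i ^ 2| + (δ * (∑' i, f i ^ 2) + δ⁻¹ * ∑' i, (o n i - f i) ^ 2) := by
    intro ε hε
    have h1 := tendsto_tsum_compl_atTop_zero (fun i => f i ^ 2)
    obtain ⟨F, hF⟩ := (h1.eventually (gt_mem_nhds (half_pos hε))).exists
    refine ⟨F, fun n δ hδ => ?_⟩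
    rw [← (hls n).tsum_sub hfs]
    have h2 := norm_tsum_le_tsum_norm (f := fun i => l n i - f i ^ 2)
      (by simpa [Real.norm_eq_abs] using hds n)
    simp only [Real.norm_eq_abs] at h2
    refine h2.trans ?_
    rw [← (hds n).sum_add_tsum_subtype_compl F]
    have hg : Summable fun i => 2 * f i ^ 2 + (δ * f i ^ 2 + δ⁻¹ * (o n i - f i) ^ 2) :=
      (hfs.mul_left 2).add ((hfs.mul_left δ).add ((hd n).mul_left δ⁻¹))
    have h3 : ∑' i : {x // x ∉ F}, |l n i - f i ^ 2| ≤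
        2 * (∑' i : {x // x ∉ F}, f i ^ 2) +
          (δ * (∑' i, f i ^ 2) + δ⁻¹ * ∑' i, (o n i - f i) ^ 2) := by
      refine ((hds n).subtype _).tsum_le_tsum (g := fun i : {x // x ∉ F} =>
        2 * f i ^ 2 + (δ * f i ^ 2 + δ⁻¹ * (o n i - f i) ^ 2)) (fun i => hpt n i δ hδ)
        (hg.subtype _) |>.trans ?_
      have e1 : Summable fun i : {x // x ∉ F} => f i ^ 2 := hfs.subtype _
      have e2 : Summable fun i : {x // x ∉ F} => (o n i - f i) ^ 2 := (hd n).subtype _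
      rw [(e1.mul_left 2).tsum_add ((e1.mul_left δ).add (e2.mul_left δ⁻¹)),
        (e1.mul_left δ).tsum_add (e2.mul_left δ⁻¹), tsum_mul_left, tsum_mul_left, tsum_mul_left]
      have e3 : ∑' i : {x // x ∉ F}, f i ^ 2 ≤ ∑' i, f i ^ 2 :=
        hfs.tsum_subtype_le _ _ (fun i => sq_nonneg _)
      have e4 : ∑' i : {x // x ∉ F}, (o n i - f i) ^ 2 ≤ ∑' i, (o n i - f i) ^ 2 :=
        (hd n).tsum_subtype_le _ _ (fun i => sq_nonneg _)
      have e5 := mul_le_mul_of_nonneg_left e3 hδ.le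
      have e6 := mul_le_mul_of_nonneg_left e4 (inv_nonneg.2 hδ.le)
      linarith
    have h4 : ∑' i : {x // x ∉ F}, f i ^ 2 < ε / 2 := hF
    linarith
  rw [Metric.tendsto_atTop]
  intro ε hε
  obtain ⟨F, hF⟩ := key (ε / 4) (by linarith)
  set A := ∑' i, f i ^ 2 with hA
  have hA0 : 0 ≤ A := tsum_nonneg fun i => sq_nonneg _
  set δ := ε / (4 * (A + 1)) with hδ
  have hδ0 : 0 < δ := by positivity
  have h1 : δ * A ≤ ε / 4 := by
    rw [hδ, div_mul_eq_mul_div, div_le_div_iff₀ (by positivity) (by norm_num)]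
    nlinarith
  have h2 : Tendsto (fun n => ∑ i ∈ F, |l n i - f i ^ 2|) atTop (𝓝 0) := by
    have : Tendsto (fun n => ∑ i ∈ F, |l n i - f i ^ 2|) atTop (𝓝 (∑ i ∈ F, |f i ^ 2 - f i ^ 2|)) :=
      tendsto_finsetSum _ fun i _ => ((hl' i).sub_const _).abs
    simpa using this
  have h3 : ∀ᶠ n in atTop, ∑' i, (o n i - f i) ^ 2 < δ * (ε / 4) :=
    hlim.eventually (gt_mem_nhds (by positivity))
  have h4 : ∀ᶠ n in atTop, ∑ i ∈ F, |l n i - f i ^ 2| < ε / 4 :=
    h2.eventually (gt_mem_nhds (by positivity))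
  obtain ⟨N, hN⟩ := (h3.and h4).exists_forall_of_atTop
  refine ⟨N, fun n hn => ?_⟩
  obtain ⟨h5, h6⟩ := hN n hn
  rw [Real.dist_eq]
  have h7 := hF n δ hδ0
  have h8 : δ⁻¹ * ∑' i, (o n i - f i) ^ 2 < ε / 4 := by
    rw [inv_mul_lt_iff₀ hδ0]; exact h5
  linarith


variable {X1 X2 : ℝ × ℝ → ℝ} {f : ι → ℝ} {νp νm : ι → Measure (ℝ × ℝ)} {μ : Measure (ℝ × ℝ)}

/-- the functional of one charged set is bounded by `f i * osc` -/
theorem HalfQ.abs_charge_le (H : QQ 𝓗 a b c B Q) (h : HalfQ 𝓗 a b c B S Q C X1 X2 f νp νm μ)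
    (he : e ∈ Vq 𝓗 a b c B Q) (i : ι) :
    |(∫ p, e p ∂(νp i)) - ∫ p, e p ∂(νm i)| ≤ f i * osc (Q i ∩ Wl a b c B) e := by
  have := h.pfin i
  have := h.mfin i
  set T := Q i ∩ Wl a b c B with hT
  rcases T.eq_empty_or_nonempty with hE | ⟨q, hq⟩
  · have h1 : νp i = 0 := by
      rw [← Measure.measure_univ_eq_zero, ← compl_empty, ← hE]; exact h.pc i
    have h2 : νm i = 0 := by
      rw [← Measure.measure_univ_eq_zero, ← compl_empty, ← hE]; exact h.mc i
    rw [h1, h2]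
    simpa using mul_nonneg (h.f0 i) (osc_nonneg _ _)
  · have hTm : MeasurableSet T := (H.cpt i).isClosed.measurableSet
    obtain ⟨M, hM⟩ := H.bo he i
    have main : ∀ ν : Measure (ℝ × ℝ), IsFiniteMeasure ν → ν Tᶜ = 0 → ν.real univ = f i →
        Integrable e ν ∧ (sInf (e '' T)) * f i ≤ ∫ p, e p ∂ν ∧ ∫ p, e p ∂ν ≤ (sSup (e '' T)) * f i := by
      intro ν hν hc hm
      have hae : ∀ᵐ p ∂ν, p ∈ T := by rw [ae_iff]; exact hc
      have hres : ν.restrict T = ν := Measure.restrict_eq_self_of_ae_mem hae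
      have hmeas : AEStronglyMeasurable e ν := by
        rw [← hres]; exact (he.2 i).aestronglyMeasurable hTm
      have hint : Integrable e ν := Integrable.of_bound hmeas M (by
        filter_upwards [hae] with p hp using by simpa using hM p hp)
      have hbb : BddBelow (e '' T) := ⟨-M, by
        rintro _ ⟨p, hp, rfl⟩; exact (abs_le.1 (hM p hp)).1⟩
      have hba : BddAbove (e '' T) := ⟨M, by
        rintro _ ⟨p, hp, rfl⟩; exact (abs_le.1 (hM p hp)).2⟩
      have hcst : ∀ r : ℝ, ∫ _, r ∂ν = r * f i := fun r => by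
        rw [integral_const, hm, smul_eq_mul, mul_comm]
      refine ⟨hint, ?_, ?_⟩
      · rw [← hcst]
        refine integral_mono_ae (integrable_const _) hint ?_
        filter_upwards [hae] with p hp using csInf_le hbb ⟨p, hp, rfl⟩
      · rw [← hcst]
        refine integral_mono_ae hint (integrable_const _) ?_
        filter_upwards [hae] with p hp using le_csSup hba ⟨p, hp, rfl⟩
    obtain ⟨-, p1, p2⟩ := main (νp i) ‹_› (h.pc i) (h.pm i)
    obtain ⟨-, q1, q2⟩ := main (νm i) ‹_› (h.mc i) (h.mm i)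
    have hos : sSup (e '' T) - sInf (e '' T) ≤ osc T e := by
      have hne : (e '' T).Nonempty := ⟨_, q, hq, rfl⟩
      have h1 : ∀ s ∈ e '' T, s ≤ sInf (e '' T) + osc T e := by
        rintro _ ⟨p, hp, rfl⟩
        have h2 : e p - osc T e ≤ sInf (e '' T) := by
          refine le_csInf hne ?_
          rintro _ ⟨p', hp', rfl⟩
          have := (abs_le.1 (le_osc (H.bo he i) hp hp')).2
          linarith
        linarith
      have := csSup_le hne h1
      linarith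
    have h4 := mul_le_mul_of_nonneg_left hos (h.f0 i)
    rw [abs_le]
    constructor <;> nlinarith



end Crest.Agent.R105.Knq_247
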