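import Crest.Agent.R105.Psq5_425
import Crest.Agent.R105.Psq4_425
import Crest.Agent.R105.Famq2_306

-- ▼ part R105/Psq6_425
section

/-!
# Row 105 (S0138), helper425: shrinking cut-offs; the inequality of Lemma A with squares
-/

set_option autoImplicit false

open MeasureTheory Set Filter Topology
open scoped NNReal ENNReal ContDiff

namespace Crest.Agent.R105.Psq_425

open Psi5_425 Psi6_425 Psi7_425 CF_363 Psq_463 Sq_87 Mp_87 Hq_363
open Crest.Agent.R105.Stp_722 Crest.Agent.R105.Cq_463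
open Crest.Agent.R105.Nal_649 Crest.Agent.R105.Exs_992 Crest.Agent.R105.SkT1_137
open Crest.Agent.R105.Skp2_257 (Comps Reg Lo Up)

/-- **the glued function with its flux** (all the input of the inequality). -/
structure Glue {ι ι' : Type} (E : Set (ℝ × ℝ)) (𝒬 : Set Sqr) (g S₀ : Set (Set (ℝ × ℝ)))
    (a b c d Bm Bp L m : ℝ) (Q : Rects ι) (Q' : Rects ι') (S S' : Set (ℝ × ℝ))
    (X1 X2 ψ Ψ Y1 Y2 ψ' Ψ' : ℝ × ℝ → ℝ) (μ ν : Measure (ℝ × ℝ)) (f : ι → ℝ) (f' : ι' → ℝ)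
    (F U2 : ℝ × ℝ → ℝ) (o : Sqr → ℝ) (sq : ι → Sqr) (sq' : ι' → Sqr) : Prop where
  two : TwoQ Q Q' S S' E a b c d Bm Bp L X1 X2 ψ Ψ Y1 Y2 ψ' Ψ' μ ν f f' F
  la : ∀ i, ∫ p in Q.op i, |X2 p| ≤ 4 * (Q.h2 i * f i)
  la' : ∀ i, ∫ p in Q'.op i, |Y2 p| ≤ 4 * (Q'.h2 i * f' i)
  gf : GFun E 𝒬 (Ioo a b ×ˢ Ioo c d) g S₀ m F (W1 X2 Y2) U2 o
  sub : ⋃₀ g ⊆ Ioo a b ×ˢ Ioo c d
  mass : (μ univ).toReal = m
  SE : S ⊆ E
  SE' : ∀ p ∈ S', rf p ∈ E
  sq : ∀ i, sq i ∈ 𝒬 ∧ Q.op i ⊆ (sq i).car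
  sq' : ∀ i, sq' i ∈ 𝒬 ∧ ∀ p ∈ Q'.op i, rf p ∈ (sq' i).car
  up : ∀ᵐ q ∂μ, ∀ y, q.2 < y → y < L → (q.1, y) ∈ ⋃₀ g
  up' : ∀ᵐ q ∂ν, ∀ y, L < y → q.2 < -y → (q.1, y) ∈ ⋃₀ g
  pla : ∀ (T : ℝ → ℝ) (M₀ : ℝ), Clamp m M₀ T → ∀ (κ : ℝ × ℝ → ℝ) (K : ℝ≥0), LipschitzWith K κ →
    HasCompactSupport κ → tsupport κ ⊆ Ioo a b ×ˢ Ioo c d →
    (∃ O, IsOpen O ∧ ⋃₀ g ⊆ O ∧ ∀ p ∈ O, κ p = 0) → PlaLim E 𝒬 fun p => κ p * T (F p)

variable {E R O : Set (ℝ × ℝ)} {𝒬 : Set Sqr} {𝓗 : Set Hair} {g S₀ : Set (Set (ℝ × ℝ))}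
  {F U1 U2 χ : ℝ × ℝ → ℝ} {T : ℝ → ℝ} {m M Bm Bp : ℝ} {o : Sqr → ℝ}

/-- (after helper70) In a compact set, a component inside an open set is inside a relatively clopen piece inside it:
`E = E₁ ∪ E₂`, disjoint compact pieces, component in `E₁`, `E₁` in the open set. -/
theorem exists_clopen_piece {X : Type*} [TopologicalSpace X] [T2Space X] {E : Set X} (hE : IsCompact E)
    {x : X} (hx : x ∈ E) {W : Set X} (hW : IsOpen W) (hK : connectedComponentIn E x ⊆ W) :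
    ∃ E₁ ⊆ E, IsCompact E₁ ∧ IsCompact (E \ E₁) ∧ connectedComponentIn E x ⊆ E₁ ∧ E₁ ⊆ W := by
  have : CompactSpace E := isCompact_iff_compactSpace.mp hE
  have h1 : connectedComponentIn E x = Subtype.val '' connectedComponent (⟨x, hx⟩ : E) :=
    connectedComponentIn_eq_image hx
  have h2 : connectedComponent (⟨x, hx⟩ : E) ⊆ Subtype.val ⁻¹' W := by
    intro y hy
    exact hK (by rw [h1]; exact ⟨y, hy, rfl⟩)
  rw [connectedComponent_eq_iInter_isClopen] at h2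
  have hdir : Directed (· ⊇ ·) fun s : { s : Set E // IsClopen s ∧ (⟨x, hx⟩ : E) ∈ s } => s.val := by
    rintro ⟨a, ha, hxa⟩ ⟨b, hb, hxb⟩
    exact ⟨⟨a ∩ b, ha.inter hb, hxa, hxb⟩, inter_subset_left, inter_subset_right⟩
  have : Nonempty { s : Set E // IsClopen s ∧ (⟨x, hx⟩ : E) ∈ s } := ⟨⟨univ, isClopen_univ, trivial⟩⟩
  obtain ⟨⟨s, hs, hxs⟩, hsW⟩ := exists_subset_nhds_of_isCompact' hdir
    (fun s => s.2.1.isClosed.isCompact) (fun s => s.2.1.isClosed)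
    (U := Subtype.val ⁻¹' W) (fun y hy => (hW.preimage continuous_subtype_val).mem_nhds (h2 hy))
  refine ⟨Subtype.val '' s, by rintro _ ⟨y, _, rfl⟩; exact y.2,
    hs.isClosed.isCompact.image continuous_subtype_val, ?_, ?_, ?_⟩
  · have : E \ Subtype.val '' s = Subtype.val '' sᶜ := by
      ext y
      constructor
      · rintro ⟨hy, hn⟩
        exact ⟨⟨y, hy⟩, fun h => hn ⟨_, h, rfl⟩, rfl⟩
      · rintro ⟨z, hz, rfl⟩
        refine ⟨z.2, ?_⟩
        rintro ⟨z', hz', he⟩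
        have : z' = z := Subtype.ext he
        exact hz (this ▸ hz')
    rw [this]
    exact hs.compl.isClosed.isCompact.image continuous_subtype_val
  · rw [h1]
    apply image_mono
    exact hs.connectedComponent_subset hxs
  · rintro _ ⟨y, hy, rfl⟩
    exact hsW hy

/-- a saturated compact part of `E` inside an open set is inside a clopen piece inside it -/
theorem exists_clopen_fam (hE : IsCompact E) {K : Set (ℝ × ℝ)} (hK : IsCompact K) (hKE : K ⊆ E)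
    (hO : IsOpen O) (hsat : ∀ x ∈ K, connectedComponentIn E x ⊆ O) :
    ∃ E₁ ⊆ E, IsCompact E₁ ∧ IsCompact (E \ E₁) ∧ K ⊆ E₁ ∧ E₁ ⊆ O := by
  choose! f hf using fun x (hx : x ∈ K) => exists_clopen_piece hE (hKE hx) hO (hsat x hx)
  obtain ⟨t, ht, hcov⟩ := hK.elim_nhds_subcover (fun x => (E \ f x)ᶜ) (fun x hx => by
    refine (hf x hx).2.2.1.isClosed.isOpen_compl.mem_nhds fun h => h.2 ?_
    exact (hf x hx).2.2.2.1 (mem_connectedComponentIn (hKE hx)))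
  have hc : IsCompact (⋃ x ∈ t, f x) := t.isCompact_biUnion fun x hx => (hf x (ht x hx)).2.1
  refine ⟨⋃ x ∈ t, f x, iUnion₂_subset fun x hx => (hf x (ht x hx)).1, hc, ?_, ?_,
    iUnion₂_subset fun x hx => (hf x (ht x hx)).2.2.2.2⟩
  · have h1 : E \ ⋃ x ∈ t, f x = E ∩ ⋂ x ∈ t, (E \ f x) := by
      ext y
      simp only [Set.mem_sdiff, mem_iUnion, exists_prop, not_exists, not_and, mem_inter_iff,
        mem_iInter]
      exact ⟨fun h => ⟨h.1, fun i hi => ⟨h.1, h.2 i hi⟩⟩, fun h => ⟨h.1, fun i hi => (h.2 i hi).2⟩⟩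
    rw [h1]
    refine hE.inter_right (isClosed_biInter fun x hx => ?_)
    exact (hf x (ht x hx)).2.2.1.isClosed
  · intro y hy
    obtain ⟨x, hx, hyx⟩ := mem_iUnion₂.1 (hcov hy)
    refine mem_iUnion₂.2 ⟨x, hx, ?_⟩
    by_contra hn
    exact hyx ⟨hKE hy, hn⟩

theorem comps_conn {P : Set (ℝ × ℝ)} (hP : P ∈ Comps E) : IsPreconnected P := by
  obtain ⟨p, hp, rfl⟩ := hP
  exact isPreconnected_connectedComponentIn

theorem Cut.mono (h : Cut E O g χ) (hOR : O ⊆ R) : Cut E R g χ :=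
  ⟨h.sm, h.cpt, h.sub.trans hOR, h.nn, h.le, h.loc, h.one⟩

/-- **cut-offs with small support** -/
theorem exists_cut (hE : IsCompact E) (hg : g ⊆ Comps E) (hgc : IsCompact (⋃₀ g))
    (hO : IsOpen O) (hgO : ⋃₀ g ⊆ O) : ∃ χ, Cut E O g χ := by
  have hgE : ⋃₀ g ⊆ E := sUnion_subset fun P hP => comps_sub (hg hP)
  obtain ⟨E₁, h1E, h1c, h2c, h1g, h1O⟩ := exists_clopen_fam hE hgc hgE hO (by
    intro x hx
    obtain ⟨P, hP, hxP⟩ := hx
    obtain ⟨p, hp, rfl⟩ := hg hP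
    rw [← connectedComponentIn_eq hxP]
    exact (subset_sUnion_of_mem hP).trans hgO)
  obtain ⟨L, hL, hL1, hL2⟩ := exists_compact_between h1c (hO.sdiff h2c.isClosed) (fun p hp =>
    ⟨h1O hp, fun h => h.2 hp⟩)
  obtain ⟨χ, hs, h1, h0, hb⟩ := MsB_425.cutoff h1c.isClosed hL1
  have hsup : tsupport χ ⊆ L := by
    refine closure_minimal (fun p hp => ?_) hL.isClosed
    by_contra hn
    exact hp (h0 p hn)
  obtain ⟨O1, hO1, hEO1, hO1'⟩ := mem_nhdsSet_iff_exists.1 h1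
  refine ⟨χ, hs, HasCompactSupport.of_support_subset_isCompact hL
    ((subset_tsupport χ).trans hsup), fun p hp => (hL2 (hsup hp)).1, fun p => (hb p).1,
    fun p => (hb p).2, fun P hP => ?_, fun P hP => ?_⟩
  · by_cases hPE : (P ∩ E₁).Nonempty
    · refine ⟨1, O1, hO1, ?_, fun p hp => hO1' hp⟩
      refine Subset.trans ?_ hEO1
      by_contra hn
      obtain ⟨q, hq, hqE⟩ := not_subset.1 hn
      have h2 := isPreconnected_closed_iff.1 (comps_conn hP) E₁ (E \ E₁) h1c.isClosed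
        h2c.isClosed (fun p hp => by
          by_cases h : p ∈ E₁
          · exact Or.inl h
          · exact Or.inr ⟨comps_sub hP hp, h⟩) hPE ⟨q, hq, comps_sub hP hq, hqE⟩
      obtain ⟨r, -, hr1, hr2⟩ := h2
      exact hr2.2 hr1
    · refine ⟨0, Lᶜ, hL.isClosed.isOpen_compl, fun p hp hpL => ?_, fun p hp => h0 p hp⟩
      refine (hL2 hpL).2 ⟨comps_sub hP hp, fun h => hPE ⟨p, hp, h⟩⟩
  · exact ⟨O1, hO1, ((subset_sUnion_of_mem hP).trans h1g).trans hEO1, fun p hp => hO1' hp⟩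

/-- tails -/
theorem tail {κ : Type*} {u v : κ → ℝ} (hu : Summable u) (hu0 : ∀ i, 0 ≤ u i)
    (hv0 : ∀ i, 0 ≤ v i) (hvu : ∀ i, v i ≤ u i) {G : Set κ} {t : Finset κ} {ε : ℝ}
    (ht : ∑' i : {i // i ∉ t}, u i.1 ≤ ε) (h0 : ∀ i ∈ t, i ∉ G → v i = 0) :
    ∑' i, v i ≤ ∑' i, G.indicator u i + ε := by
  have h1 : ∀ i, v i ≤ G.indicator u i + {i | i ∉ t}.indicator u i := by
    intro i
    by_cases hG : i ∈ G
    · rw [indicator_of_mem hG]
      have : 0 ≤ {i | i ∉ t}.indicator u i := indicator_nonneg (fun i _ => hu0 i) i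
      linarith [hvu i]
    · rw [indicator_of_notMem hG]
      by_cases hi : i ∈ t
      · rw [h0 i hi hG]
        have : 0 ≤ {i | i ∉ t}.indicator u i := indicator_nonneg (fun i _ => hu0 i) i
        linarith
      · rw [indicator_of_mem (show i ∈ {i | i ∉ t} from hi)]
        linarith [hvu i]
  have hs1 : Summable (G.indicator u) := hu.indicator G
  have hs2 : Summable ({i | i ∉ t}.indicator u) := hu.indicator _
  have hsv : Summable v := Summable.of_nonneg_of_le hv0 hvu hu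
  calc ∑' i, v i ≤ ∑' i, (G.indicator u i + {i | i ∉ t}.indicator u i) :=
        hsv.tsum_le_tsum h1 (hs1.add hs2)
    _ = ∑' i, G.indicator u i + ∑' i, {i | i ∉ t}.indicator u i := hs1.tsum_add hs2
    _ ≤ _ := by
        refine add_le_add le_rfl (le_trans (le_of_eq ?_) ht)
        exact (tsum_subtype {i | i ∉ t} u).symm

theorem exists_tail {κ : Type*} {u : κ → ℝ} {ε : ℝ} (hε : 0 < ε) :
    ∃ t : Finset κ, ∑' i : {i // i ∉ t}, u i.1 ≤ ε := by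
  have h := tendsto_tsum_compl_atTop_zero u
  obtain ⟨t, ht⟩ := (h.eventually (gt_mem_nhds hε)).exists
  exact ⟨t, ht.le⟩

end Crest.Agent.R105.Psq_425
end

-- ▼ part R105/Psq7_425
section

/-!
# Row 105 (S0138), helper425: the inequality of Lemma A with squares
-/

set_option autoImplicit false

open MeasureTheory Set Filter Topology
open scoped NNReal ENNReal ContDiff

namespace Crest.Agent.R105.Psq_425

open Psi5_425 Psi6_425 Psi7_425 CF_363 Psq_463 Sq_87 Mp_87 Hq_363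
open Crest.Agent.R105.Stp_722 Crest.Agent.R105.Cq_463
open Crest.Agent.R105.Nal_649 Crest.Agent.R105.Exs_992 Crest.Agent.R105.SkT1_137
open Crest.Agent.R105.Skp2_257 (Comps Reg Lo Up)

variable {ι ι' : Type} {E : Set (ℝ × ℝ)} {𝒬 : Set Sqr} {𝓗 : Set Hair}
  {g S₀ : Set (Set (ℝ × ℝ))} {a b c d Bm Bp L m M : ℝ} {Q : Rects ι} {Q' : Rects ι'}
  {S S' : Set (ℝ × ℝ)} {X1 X2 ψ Ψ Y1 Y2 ψ' Ψ' : ℝ × ℝ → ℝ} {μ ν : Measure (ℝ × ℝ)}
  {f : ι → ℝ} {f' : ι' → ℝ} {F U2 χ : ℝ × ℝ → ℝ} {o : Sqr → ℝ} {sq : ι → Sqr} {sq' : ι' → Sqr}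

theorem Cut.gx_zero {R : Set (ℝ × ℝ)} (h : Cut E R g χ) {p : ℝ × ℝ} (hp : p ∈ E) :
    CF_363.gx χ p = 0 := by
  obtain ⟨k, O, hO, hPO, hk⟩ := h.loc _ ⟨p, hp, rfl⟩
  have h1 : χ =ᶠ[𝓝 p] fun _ => k := by
    filter_upwards [hO.mem_nhds (hPO (mem_connectedComponentIn hp))] with q hq
    exact hk q hq
  unfold CF_363.gx
  rw [h1.fderiv_eq, fderiv_fun_const]
  rfl

theorem Cut.one' {R : Set (ℝ × ℝ)} (h : Cut E R g χ) {p : ℝ × ℝ} (hp : p ∈ ⋃₀ g) : χ p = 1 := by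
  obtain ⟨P, hP, hpP⟩ := hp
  obtain ⟨O, -, hPO, h1⟩ := h.one P hP
  exact h1 p (hPO hpP)

theorem Cut.const_car {R : Set (ℝ × ℝ)} (hE : QPic E 𝒬 𝓗) (h : Cut E R g χ) {P : Sqr}
    (hP : P ∈ 𝒬) : ∃ k, ∀ p ∈ P.car, χ p = k := by
  obtain ⟨k, O, -, hPO, hk⟩ := h.loc _ (comp_mem hE hP)
  exact ⟨k, fun p hp => hk p (hPO (car_sub_comp hE hP hp))⟩

/-- the cut-off is admissible for the flux -/
theorem Cut.cutT (hE : QPic E 𝒬 𝓗)
    (G : Glue E 𝒬 g S₀ a b c d Bm Bp L m Q Q' S S' X1 X2 ψ Ψ Y1 Y2 ψ' Ψ' μ ν f f' F U2 o sq sq')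
    (h : Cut E (Ioo a b ×ˢ Ioo c d) g χ) : CutT Q Q' S S' E a b c d L μ ν χ := by
  refine ⟨h.sm.of_le (by norm_num), h.cpt, fun p hp => ⟨(h.sub hp).1, mem_univ _⟩, h.nn, h.le,
    ?_, ?_, fun i => ?_, fun i => ?_, ?_, ?_⟩
  · rintro p ((hp | hp) | hp)
    · obtain ⟨i, hi⟩ := mem_iUnion.1 hp
      exact h.gx_zero (hE.sub _ (G.sq i).1 ((G.sq i).2 hi))
    · exact h.gx_zero (G.SE hp)
    · exact h.gx_zero hp
  · rintro p (hp | hp)
    · obtain ⟨i, hi⟩ := mem_iUnion.1 hp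
      exact h.gx_zero (hE.sub _ (G.sq' i).1 ((G.sq' i).2 p hi))
    · exact h.gx_zero (G.SE' p hp)
  · obtain ⟨k, hk⟩ := h.const_car hE (G.sq i).1
    exact ⟨k, fun p hp => hk p ((G.sq i).2 hp)⟩
  · obtain ⟨k, hk⟩ := h.const_car hE (G.sq' i).1
    exact ⟨k, fun p hp => hk _ ((G.sq' i).2 p hp)⟩
  · intro y _ hy
    filter_upwards [G.up] with q hq hqy
    exact h.one' (hq y hqy hy)
  · intro y hy _
    filter_upwards [G.up'] with q hq hqy
    exact h.one' (hq y hy hqy)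

theorem mem_g_of_meet (hE : QPic E 𝒬 𝓗) (hg : g ⊆ Comps E) {P : Sqr} (hP : P ∈ 𝒬)
    {p : ℝ × ℝ} (hp : p ∈ P.car) (hpg : p ∈ ⋃₀ g) : comp E P ∈ g := by
  obtain ⟨A, hA, hpA⟩ := hpg
  have := Famq_306.comp_unique (hg hA) (comp_mem hE hP) ⟨p, hpA, car_sub_comp hE hP hp⟩
  rwa [this] at hA

/-- cut-offs which vanish on finitely many given squares -/
theorem exists_cut_off (hE : QPic E 𝒬 𝓗) (hg : FamQ E g Bm Bp) {R : Set (ℝ × ℝ)} (hR : IsOpen R)
    (hgR : ⋃₀ g ⊆ R) {s : Set Sqr} (hs : s.Finite) (hsQ : s ⊆ 𝒬) :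
    ∃ χ, Cut E R g χ ∧ ∀ P ∈ s, comp E P ∉ g → ∀ p ∈ P.car, χ p = 0 := by
  set B : Set (ℝ × ℝ) := ⋃ P ∈ {P ∈ s | comp E P ∉ g}, P.car with hB
  have hBc : IsClosed B := by
    refine Set.Finite.isClosed_biUnion (hs.subset fun P hP => hP.1) fun P _ => ?_
    exact P.isCompact_car.isClosed
  obtain ⟨χ, hχ⟩ := exists_cut hE.cpt hg.sub hg.cpt (hR.sdiff hBc) (fun p hp => ⟨hgR hp, fun h => by
    obtain ⟨P, hP, hpP⟩ := mem_iUnion₂.1 h
    exact hP.2 (mem_g_of_meet hE hg.sub (hsQ hP.1) hpP hp)⟩)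
  refine ⟨χ, hχ.mono sdiff_subset, fun P hP hPg p hp => ?_⟩
  by_contra hne
  have h1 := hχ.sub (subset_tsupport χ hne)
  exact h1.2 (mem_iUnion₂.2 ⟨P, ⟨hP, hPg⟩, hp⟩)

open Classical in
theorem summable_terms (hE : QPic E 𝒬 𝓗) (hfin : S₀.Finite) (o0 : ∀ P, 0 ≤ o P)
    (hsum : Summable fun P : 𝒬 => o P.1 ^ 2) {A : ℝ} (hA : 0 ≤ A) :
    Summable fun P : 𝒬 => P.1.s * (if comp E P.1 ∈ S₀ then A else o P.1) := by
  have h1 := hE.summable_sq
  have h2 : Summable fun P : 𝒬 => (if comp E P.1 ∈ S₀ then A ^ 2 else (0:ℝ)) := by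
    refine summable_of_hasFiniteSupport ?_
    have h3 : ((fun P : 𝒬 => comp E P.1) ⁻¹' S₀ : Set 𝒬).Finite := by
      refine hfin.preimage ?_
      intro P _ P' _ he
      exact Subtype.ext (eq_of_comp_eq hE P.2 P'.2 he)
    refine h3.subset fun P hP' => ?_
    by_contra hn
    have : comp E P.1 ∉ S₀ := hn
    rw [Function.mem_support, if_neg this] at hP'
    exact hP' rfl
  refine Summable.of_nonneg_of_le (fun P => ?_) (fun P => ?_) ((h1.add h2).add hsum)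
  · refine mul_nonneg P.1.hs.le ?_
    split_ifs
    · exact hA
    · exact o0 _
  · split_ifs
    · nlinarith [sq_nonneg (P.1.s - A), sq_nonneg (o P.1), sq_nonneg P.1.s, sq_nonneg A]
    · nlinarith [sq_nonneg (P.1.s - o P.1), sq_nonneg (o P.1), sq_nonneg P.1.s]

open Classical in
/-- **THE INEQUALITY** (at a fixed clamping `M`). -/
theorem Glue.ineqM [Countable ι] [Countable ι'] [IsFiniteMeasure μ] [IsFiniteMeasure ν]
    (hP : PicS E 𝒬 𝓗) (hEL : ELS StrQ E 𝒬 𝓗) (hg : FamQ E g Bm Bp)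
    (G : Glue E 𝒬 g S₀ a b c d Bm Bp L m Q Q' S S' X1 X2 ψ Ψ Y1 Y2 ψ' Ψ' μ ν f f' F U2 o sq sq')
    (hM : 0 < M) :
    (Bp - Bm) * m ≤
      ∑' P : 𝒬, {P : 𝒬 | comp E P.1 ∈ g}.indicator
        (fun P => P.1.s * (if comp E P.1 ∈ S₀ then m + 2 * M else o P.1)) P +
      ∑' i, {i | comp E (sq i) ∈ g}.indicator (fun i => 4 * (Q.h2 i * f i)) i +
      ∑' i, {i | comp E (sq' i) ∈ g}.indicator (fun i => 4 * (Q'.h2 i * f' i)) i := by
  have hE := hP.q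
  have hm : 0 ≤ m := by rw [← G.mass]; exact ENNReal.toReal_nonneg
  have hA : 0 ≤ m + 2 * M := by linarith
  have hR : IsOpen (Ioo a b ×ˢ Ioo c d : Set (ℝ × ℝ)) := isOpen_Ioo.prod isOpen_Ioo
  -- the three summable majorants
  have hs1 := summable_terms hE G.gf.fin G.gf.o0 G.gf.sum hA
  have hs2 : Summable fun i => 4 * (Q.h2 i * f i) := G.two.lo.sf.mul_left 4
  have hs3 : Summable fun i => 4 * (Q'.h2 i * f' i) := G.two.up.sf.mul_left 4
  have n1 : ∀ P : 𝒬, 0 ≤ P.1.s * (if comp E P.1 ∈ S₀ then m + 2 * M else o P.1) := fun P => by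
    refine mul_nonneg P.1.hs.le ?_
    split_ifs
    · exact hA
    · exact G.gf.o0 _
  have n2 : ∀ i, 0 ≤ 4 * (Q.h2 i * f i) := fun i =>
    mul_nonneg (by norm_num) (mul_nonneg (Q.p2 i).le (G.two.lo.f0 i))
  have n3 : ∀ i, 0 ≤ 4 * (Q'.h2 i * f' i) := fun i =>
    mul_nonneg (by norm_num) (mul_nonneg (Q'.p2 i).le (G.two.up.f0 i))
  refine le_of_forall_pos_le_add fun ε hε => ?_
  have hε3 : 0 < ε / 3 := by positivity
  obtain ⟨t1, ht1⟩ := exists_tail (u := fun P : 𝒬 =>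
    P.1.s * (if comp E P.1 ∈ S₀ then m + 2 * M else o P.1)) hε3
  obtain ⟨t2, ht2⟩ := exists_tail (u := fun i => 4 * (Q.h2 i * f i)) hε3
  obtain ⟨t3, ht3⟩ := exists_tail (u := fun i => 4 * (Q'.h2 i * f' i)) hε3
  set s : Set Sqr := (Subtype.val '' (t1 : Set 𝒬)) ∪ (sq '' (t2 : Set ι)) ∪
    (sq' '' (t3 : Set ι')) with hs
  have hsf : s.Finite := ((t1.finite_toSet.image _).union (t2.finite_toSet.image _)).union
    (t3.finite_toSet.image _)
  have hsQ : s ⊆ 𝒬 := by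
    rintro P ((⟨x, -, rfl⟩ | ⟨x, -, rfl⟩) | ⟨x, -, rfl⟩)
    · exact x.2
    · exact (G.sq x).1
    · exact (G.sq' x).1
  obtain ⟨χ, hχ, hχ0⟩ := exists_cut_off hE hg hR G.sub hsf hsQ
  obtain ⟨T, hT⟩ := exists_clamp hm hM
  have hCT := hχ.cutT hE G
  obtain ⟨-, hflux⟩ := TwoQ.fluxT G.two G.la G.la' hCT hT G.mass.le
  have hRv : volume (Ioo a b ×ˢ Ioo c d : Set (ℝ × ℝ)) ≠ ⊤ := by
    rw [Measure.volume_eq_prod, Measure.prod_prod, Real.volume_Ioo, Real.volume_Ioo]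
    exact ENNReal.mul_ne_top ENNReal.ofReal_ne_top ENNReal.ofReal_ne_top
  have hel := el_test hP hEL hg hR hRv hm hM hT G.gf (G.pla T M hT) hχ
  have hmass := G.mass
  rw [hmass] at hflux
  -- the three sums
  have b1 : ∑' P : 𝒬, P.1.s * oCut E S₀ χ (m + 2 * M) o P.1 ≤
      ∑' P : 𝒬, {P : 𝒬 | comp E P.1 ∈ g}.indicator
        (fun P => P.1.s * (if comp E P.1 ∈ S₀ then m + 2 * M else o P.1)) P + ε / 3 := by
    refine tail hs1 n1 (fun P => ?_) (fun P => ?_) ht1 (fun P hP' hPg => ?_)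
    · unfold oCut
      refine mul_nonneg P.1.hs.le ?_
      split_ifs
      · exact hA
      · exact G.gf.o0 _
      · exact le_rfl
    · unfold oCut
      by_cases h : ∃ p ∈ P.1.car, χ p ≠ 0
      · rw [if_pos h]
      · rw [if_neg h, mul_zero]; exact n1 P
    · have h0 := hχ0 P.1 (Or.inl (Or.inl ⟨P, hP', rfl⟩)) hPg
      unfold oCut
      rw [if_neg, mul_zero]
      rintro ⟨p, hp, hne⟩
      exact hne (h0 p hp)
  have b2 : ∑' i, (On Q χ).indicator (fun i => 4 * (Q.h2 i * f i)) i ≤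
      ∑' i, {i | comp E (sq i) ∈ g}.indicator (fun i => 4 * (Q.h2 i * f i)) i + ε / 3 := by
    refine tail hs2 n2 (fun i => indicator_nonneg (fun i _ => n2 i) i) (fun i => ?_) ht2
      (fun i hi hig => ?_)
    · exact indicator_le_self' (fun i _ => n2 i) i
    · have h0 := hχ0 (sq i) (Or.inl (Or.inr ⟨i, hi, rfl⟩)) hig
      rw [indicator_of_notMem]
      rintro ⟨p, hp, hne⟩
      exact hne (h0 p ((G.sq i).2 hp))
  have b3 : ∑' i, (On Q' (fun p => χ (rf p))).indicator (fun i => 4 * (Q'.h2 i * f' i)) i ≤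
      ∑' i, {i | comp E (sq' i) ∈ g}.indicator (fun i => 4 * (Q'.h2 i * f' i)) i + ε / 3 := by
    refine tail hs3 n3 (fun i => indicator_nonneg (fun i _ => n3 i) i) (fun i => ?_) ht3
      (fun i hi hig => ?_)
    · exact indicator_le_self' (fun i _ => n3 i) i
    · have h0 := hχ0 (sq' i) (Or.inr ⟨i, hi, rfl⟩) hig
      rw [indicator_of_notMem]
      rintro ⟨p, hp, hne⟩
      exact hne (h0 _ ((G.sq' i).2 p hp))
  have h5 := (le_abs_self _).trans hel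
  linarith

end Crest.Agent.R105.Psq_425
end

-- ▼ part R105/Psq8_425

/-!
# Row 105 (S0138), helper425: the three consequences of the inequality (hair, solid, family)
-/

set_option autoImplicit false

open MeasureTheory Set Filter Topology
open scoped NNReal ENNReal ContDiff

namespace Crest.Agent.R105.Psq_425

open Psi5_425 Psi6_425 Psi7_425 CF_363 Psq_463 Sq_87 Mp_87 Hq_363
open Crest.Agent.R105.Stp_722 Crest.Agent.R105.Cq_463 Crest.Agent.R105.Famq_306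
open Crest.Agent.R105.Nal_649 Crest.Agent.R105.Exs_992 Crest.Agent.R105.SkT1_137
open Crest.Agent.R105.Skp2_257 (Comps Reg Lo Up)

variable {ι ι' : Type} {E : Set (ℝ × ℝ)} {𝒬 : Set Sqr} {𝓗 : Set Hair}
  {g S₀ : Set (Set (ℝ × ℝ))} {a b c d Bm Bp L m M : ℝ} {Q : Rects ι} {Q' : Rects ι'}
  {S S' : Set (ℝ × ℝ)} {X1 X2 ψ Ψ Y1 Y2 ψ' Ψ' : ℝ × ℝ → ℝ} {μ ν : Measure (ℝ × ℝ)}
  {f : ι → ℝ} {f' : ι' → ℝ} {F U2 χ : ℝ × ℝ → ℝ} {o : Sqr → ℝ} {sq : ι → Sqr} {sq' : ι' → Sqr}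

/-- **hair**: no solid in the family -/
theorem Glue.hair [Countable ι] [Countable ι'] [IsFiniteMeasure μ] [IsFiniteMeasure ν]
    (hP : PicS E 𝒬 𝓗) (hEL : ELS StrQ E 𝒬 𝓗) (hg : FamQ E g Bm Bp)
    (G : Glue E 𝒬 g S₀ a b c d Bm Bp L m Q Q' S S' X1 X2 ψ Ψ Y1 Y2 ψ' Ψ' μ ν f f' F U2 o sq sq')
    (hm : 0 < m) (hno : ∀ P ∈ 𝒬, comp E P ∉ g) : False := by
  have h := G.ineqM hP hEL hg one_pos
  have e1 : {P : 𝒬 | comp E P.1 ∈ g} = ∅ := by
    ext P; simpa using hno P.1 P.2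
  have e2 : {i | comp E (sq i) ∈ g} = ∅ := by
    ext i; simpa using hno _ (G.sq i).1
  have e3 : {i | comp E (sq' i) ∈ g} = ∅ := by
    ext i; simpa using hno _ (G.sq' i).1
  rw [e1, e2, e3] at h
  simp only [indicator_empty, tsum_zero, add_zero] at h
  have := hg.lt
  nlinarith [mul_pos (sub_pos.2 this) hm]

/-- **solid**: the family is one solid, which is exempt and not charged -/
theorem Glue.solid [Countable ι] [Countable ι'] [IsFiniteMeasure μ] [IsFiniteMeasure ν]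
    (hP : PicS E 𝒬 𝓗) (hEL : ELS StrQ E 𝒬 𝓗) (hg : FamQ E g Bm Bp)
    (G : Glue E 𝒬 g S₀ a b c d Bm Bp L m Q Q' S S' X1 X2 ψ Ψ Y1 Y2 ψ' Ψ' μ ν f f' F U2 o sq sq')
    (hm : 0 < m) {Q0 : Sqr} (hQ0 : Q0 ∈ 𝒬) (hgQ : g = {comp E Q0}) (hS : comp E Q0 ∈ S₀)
    (h1 : ∀ i, sq i ≠ Q0) (h2 : ∀ i, sq' i ≠ Q0) : Bp - Bm ≤ Q0.s := by
  classical
  have hE := hP.q
  have hcomp : ∀ P ∈ 𝒬, comp E P ∈ g ↔ P = Q0 := by
    intro P hPQ
    rw [hgQ, mem_singleton_iff]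
    constructor
    · intro h; exact eq_of_comp_eq hE hPQ hQ0 h
    · rintro rfl; rfl
  have key : ∀ M > 0, (Bp - Bm) * m ≤ Q0.s * (m + 2 * M) := by
    intro M hM
    have h := G.ineqM hP hEL hg hM
    have e2 : {i | comp E (sq i) ∈ g} = ∅ := by
      ext i
      simp only [mem_ofPred_eq, mem_empty_iff_false, iff_false]
      rw [hcomp _ (G.sq i).1]
      exact h1 i
    have e3 : {i | comp E (sq' i) ∈ g} = ∅ := by
      ext i
      simp only [mem_ofPred_eq, mem_empty_iff_false, iff_false]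
      rw [hcomp _ (G.sq' i).1]
      exact h2 i
    rw [e2, e3] at h
    simp only [indicator_empty, tsum_zero, add_zero] at h
    refine h.trans (le_of_eq ?_)
    rw [tsum_eq_single (⟨Q0, hQ0⟩ : 𝒬)]
    · rw [indicator_of_mem (show (⟨Q0, hQ0⟩ : 𝒬) ∈ {P : 𝒬 | comp E P.1 ∈ g} from
        (hcomp _ hQ0).2 rfl), if_pos hS]
    · intro P hne
      rw [indicator_of_notMem]
      intro h'
      exact hne (Subtype.ext ((hcomp _ P.2).1 h'))
  have h3 : (Bp - Bm) * m ≤ Q0.s * m := by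
    refine le_of_forall_pos_le_add fun ε hε => ?_
    have hs := Q0.hs
    have h4 := key (ε / (2 * Q0.s)) (by positivity)
    refine h4.trans (le_of_eq ?_)
    field_simp
  exact le_of_mul_le_mul_right h3 hm

theorem tsum_sqSub {κ : Type*} (hE : QPic E 𝒬 𝓗) {h : κ → Sqr} (hh : ∀ i, h i ∈ 𝒬)
    (hi : Function.Injective h) {C : ℝ} (hc : SqSub 𝒬 (⋃₀ g) C) :
    Summable ({i | comp E (h i) ∈ g}.indicator fun i => (h i).s ^ 2) ∧
    ∑' i, {i | comp E (h i) ∈ g}.indicator (fun i => (h i).s ^ 2) i ≤ C := by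
  classical
  have h0 : ∀ i, 0 ≤ {i | comp E (h i) ∈ g}.indicator (fun i => (h i).s ^ 2) i := fun i =>
    indicator_nonneg (fun i _ => sq_nonneg _) i
  have h1 : ∀ t : Finset κ,
      ∑ i ∈ t, {i | comp E (h i) ∈ g}.indicator (fun i => (h i).s ^ 2) i ≤ C := by
    intro t
    have h2 := hc ((t.filter fun i => comp E (h i) ∈ g).image h) (by
      intro P hP
      obtain ⟨i, hit, rfl⟩ := Finset.mem_image.1 hP
      refine ⟨hh i, ?_⟩
      exact (car_sub_comp hE (hh i)).trans (subset_sUnion_of_mem (Finset.mem_filter.1 hit).2))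
    rw [Finset.sum_image (fun x _ y _ he => hi he)] at h2
    refine le_trans (le_of_eq ?_) h2
    rw [Finset.sum_filter]
    refine Finset.sum_congr rfl fun i _ => ?_
    by_cases h3 : comp E (h i) ∈ g
    · rw [if_pos h3, indicator_of_mem (show i ∈ {i | comp E (h i) ∈ g} from h3)]
    · rw [if_neg h3, indicator_of_notMem (show i ∉ {i | comp E (h i) ∈ g} from h3)]
  exact ⟨summable_of_sum_le h0 h1, Real.tsum_le_of_sum_le h0 h1⟩

/-- weighted Cauchy-Schwarz over the squares of the family -/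
theorem sum_bound {κ : Type*} {G : Set κ} {s u v : κ → ℝ} {C D t : ℝ} (ht : 0 < t)
    (hs : Summable (G.indicator fun i => s i ^ 2)) (hsC : ∑' i, G.indicator (fun i => s i ^ 2) i ≤ C)
    (hu : Summable fun i => u i ^ 2) (huD : ∑' i, u i ^ 2 ≤ D) (hv0 : ∀ i, 0 ≤ v i)
    (hv : ∀ i, v i ≤ s i * u i) :
    ∑' i, G.indicator v i ≤ t / 2 * C + D / (2 * t) := by
  have hb : ∀ i, G.indicator v i ≤
      t / 2 * G.indicator (fun i => s i ^ 2) i + 1 / (2 * t) * u i ^ 2 := by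
    intro i
    by_cases hi : i ∈ G
    · rw [indicator_of_mem hi, indicator_of_mem hi]
      refine (hv i).trans ?_
      have h1 : 0 ≤ (t * s i - u i) ^ 2 := sq_nonneg _
      have h2 : s i * u i ≤ (t ^ 2 * s i ^ 2 + u i ^ 2) / (2 * t) := by
        rw [le_div_iff₀ (by positivity)]
        nlinarith
      refine h2.trans (le_of_eq ?_)
      field_simp
    · rw [indicator_of_notMem hi, indicator_of_notMem hi]
      have : 0 ≤ 1 / (2 * t) * u i ^ 2 := by positivity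
      linarith
  have h1 := (hs.mul_left (t / 2)).add (hu.mul_left (1 / (2 * t)))
  have h2 : Summable (G.indicator v) :=
    Summable.of_nonneg_of_le (fun i => indicator_nonneg (fun i _ => hv0 i) i) hb h1
  calc ∑' i, G.indicator v i
      ≤ ∑' i, (t / 2 * G.indicator (fun i => s i ^ 2) i + 1 / (2 * t) * u i ^ 2) :=
        h2.tsum_le_tsum hb h1
    _ = t / 2 * ∑' i, G.indicator (fun i => s i ^ 2) i + 1 / (2 * t) * ∑' i, u i ^ 2 := by
        rw [(hs.mul_left (t / 2)).tsum_add (hu.mul_left (1 / (2 * t))), tsum_mul_left,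
          tsum_mul_left]
    _ ≤ t / 2 * C + 1 / (2 * t) * D := by gcongr
    _ = t / 2 * C + D / (2 * t) := by ring

/-- **family** -/
theorem Glue.family [Countable ι] [Countable ι'] [IsFiniteMeasure μ] [IsFiniteMeasure ν]
    (hP : PicS E 𝒬 𝓗) (hEL : ELS StrQ E 𝒬 𝓗) (hg : FamQ E g Bm Bp)
    (G : Glue E 𝒬 g ∅ a b c d Bm Bp L m Q Q' S S' X1 X2 ψ Ψ Y1 Y2 ψ' Ψ' μ ν f f' F U2 o sq sq')
    {Co C : ℝ} (hCo : 0 ≤ Co) (hc : SqSub 𝒬 (⋃₀ g) C)
    (ho : ∑' P : 𝒬, o P.1 ^ 2 ≤ Co * m)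
    (hf : Summable fun i => f i ^ 2) (hfm : ∑' i, f i ^ 2 ≤ m)
    (hf' : Summable fun i => f' i ^ 2) (hfm' : ∑' i, f' i ^ 2 ≤ m)
    (hi : Function.Injective sq) (hi' : Function.Injective sq')
    (hh : ∀ i, 2 * Q.h2 i ≤ (sq i).s) (hh' : ∀ i, 2 * Q'.h2 i ≤ (sq' i).s) :
    (Bp - Bm) ^ 2 * m ≤ (5 * Co + 20) * C := by
  classical
  have hE := hP.q
  have hD : 0 < Bp - Bm := sub_pos.2 hg.lt
  have hm : 0 ≤ m := by rw [← G.mass]; exact ENNReal.toReal_nonneg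
  have h := G.ineqM hP hEL hg one_pos
  simp only [mem_empty_iff_false, if_false] at h
  set t : ℝ := (Co + 4) / (Bp - Bm) with ht
  have ht0 : 0 < t := by positivity
  obtain ⟨s1, c1⟩ := tsum_sqSub (g := g) hE (h := fun P : 𝒬 => P.1) (fun P => P.2)
    Subtype.val_injective hc
  obtain ⟨s2, c2⟩ := tsum_sqSub (g := g) hE (h := sq) (fun i => (G.sq i).1) hi hc
  obtain ⟨s3, c3⟩ := tsum_sqSub (g := g) hE (h := sq') (fun i => (G.sq' i).1) hi' hc
  have b1 := sum_bound (v := fun P : 𝒬 => P.1.s * o P.1) ht0 s1 c1 G.gf.sum ho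
    (fun P => mul_nonneg P.1.hs.le (G.gf.o0 _)) (fun P => le_rfl)
  have b2 := sum_bound (s := fun i => (sq i).s) (v := fun i => 2 * (Q.h2 i * f i)) ht0 s2 c2 hf hfm
    (fun i => by have := Q.p2 i; have := G.two.lo.f0 i; positivity) (fun i => by
      have := G.two.lo.f0 i
      nlinarith [mul_le_mul_of_nonneg_right (hh i) this])
  have b3 := sum_bound (s := fun i => (sq' i).s) (v := fun i => 2 * (Q'.h2 i * f' i)) ht0 s3 c3
    hf' hfm' (fun i => by have := Q'.p2 i; have := G.two.up.f0 i; positivity) (fun i => by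
      have := G.two.up.f0 i
      nlinarith [mul_le_mul_of_nonneg_right (hh' i) this])
  have e2 : ∑' i, {i | comp E (sq i) ∈ g}.indicator (fun i => 4 * (Q.h2 i * f i)) i =
      2 * ∑' i, {i | comp E (sq i) ∈ g}.indicator (fun i => 2 * (Q.h2 i * f i)) i := by
    rw [← tsum_mul_left]
    refine tsum_congr fun i => ?_
    by_cases hi : i ∈ {i | comp E (sq i) ∈ g}
    · rw [indicator_of_mem hi, indicator_of_mem hi]; ring
    · rw [indicator_of_notMem hi, indicator_of_notMem hi, mul_zero]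
  have e3 : ∑' i, {i | comp E (sq' i) ∈ g}.indicator (fun i => 4 * (Q'.h2 i * f' i)) i =
      2 * ∑' i, {i | comp E (sq' i) ∈ g}.indicator (fun i => 2 * (Q'.h2 i * f' i)) i := by
    rw [← tsum_mul_left]
    refine tsum_congr fun i => ?_
    by_cases hi : i ∈ {i | comp E (sq' i) ∈ g}
    · rw [indicator_of_mem hi, indicator_of_mem hi]; ring
    · rw [indicator_of_notMem hi, indicator_of_notMem hi, mul_zero]
  rw [e2, e3] at h
  -- `D m ≤ 5/2 t C + (Co/2 + 2) m / t`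
  have h1 : (Bp - Bm) * m ≤ 5 / 2 * t * C + (Co * m + 4 * m) / (2 * t) := by
    have : (Co * m + 4 * m) / (2 * t) = Co * m / (2 * t) + 2 * (m / (2 * t)) + 2 * (m / (2 * t)) := by
      ring
    rw [this]
    linarith
  have h2 : (Co * m + 4 * m) / (2 * t) = (Bp - Bm) * m / 2 := by
    rw [ht]
    have : Co + 4 ≠ 0 := by positivity
    field_simp
  rw [h2] at h1
  have h3 : (Bp - Bm) * m ≤ 5 * t * C := by linarith
  have h4 : (Bp - Bm) * ((Bp - Bm) * m) ≤ (Bp - Bm) * (5 * t * C) :=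
    mul_le_mul_of_nonneg_left h3 hD.le
  have h5 : (Bp - Bm) * (5 * t * C) = (5 * Co + 20) * C := by
    rw [ht]; field_simp; ring
  rw [h5] at h4
  calc (Bp - Bm) ^ 2 * m = (Bp - Bm) * ((Bp - Bm) * m) := by ring
    _ ≤ _ := h4

end Crest.Agent.R105.Psq_425
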