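import Crest.Agent.R105.Skp2_257
import Crest.Agent.R105.CFcls_363

/-!
Row 105, leaf SINGLE (task 2360), part 1: energy tools for compactly supported functions of class
`CFJ` on arbitrary open sets, and the logarithmic cut-off at a point.
-/

set_option autoImplicit false

open Set Filter MeasureTheory Topology Metric
open scoped ENNReal NNReal

namespace Crest.Agent.R105.Sin_891

open CF_363 Stp_722 Skp2_257

variable {𝓗 : Set Hair} {W N S : Set (ℝ × ℝ)} {f g : ℝ × ℝ → ℝ}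

theorem g2_eq_zero {p : ℝ × ℝ} {c : ℝ} (h : f =ᶠ[𝓝 p] fun _ => c) : g2 f p = 0 := by
  simp [g2, gx_congr h, gy_congr h]

theorem g2_congr {p : ℝ × ℝ} (h : f =ᶠ[𝓝 p] g) : g2 f p = g2 g p := by
  simp only [g2, gx_congr h, gy_congr h]

theorem g2_eq_zero_of_support (hW : IsOpen W) (hS : IsClosed S) (h0 : ∀ p ∈ W, p ∉ S → f p = 0)
    {p : ℝ × ℝ} (hp : p ∈ W) (hpS : p ∉ S) : g2 f p = 0 := by
  apply g2_eq_zero (c := 0)
  filter_upwards [(hW.inter hS.isOpen_compl).mem_nhds ⟨hp, hpS⟩] with q hq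
  exact h0 q hq.1 hq.2

theorem volume_inter_ball_ne_top (W : Set (ℝ × ℝ)) (c : ℝ × ℝ) (R : ℝ) :
    volume (W ∩ ball c R) ≠ ∞ :=
  (lt_of_le_of_lt (measure_mono inter_subset_right) measure_ball_lt_top).ne

/-- integrability of the energy density of a compactly supported function. -/
theorem integrableOn_g2 (hW : IsOpen W) (hf : CFJ 𝓗 W f) (hS : IsCompact S)
    (h0 : ∀ p ∈ W, p ∉ S → f p = 0) : IntegrableOn (g2 f) W := by
  obtain ⟨R, hR⟩ := hS.isBounded.subset_ball (0 : ℝ × ℝ)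
  have h1 : IntegrableOn (g2 f) (W ∩ ball 0 R) :=
    (hf.mono subset_rfl inter_subset_left).integrableOn_g2 (hW.inter isOpen_ball)
      (volume_inter_ball_ne_top W 0 R)
  have h2 : IntegrableOn (g2 f) (W \ ball 0 R) := by
    have : IntegrableOn (fun _ => (0 : ℝ)) (W \ ball (0 : ℝ × ℝ) R) := integrableOn_zero
    refine this.congr_fun (fun p hp => ?_) (hW.measurableSet.diff measurableSet_ball)
    exact (g2_eq_zero_of_support hW hS.isClosed h0 hp.1 fun h => hp.2 (hR h)).symm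
  have h3 := h1.union h2
  rwa [inter_union_sdiff] at h3


theorem En_mono {W' : Set (ℝ × ℝ)} (hW : IsOpen W) (hWW : W' ⊆ W) (hf : CFJ 𝓗 W f)
    (hS : IsCompact S) (h0 : ∀ p ∈ W, p ∉ S → f p = 0) : En W' f ≤ En W f :=
  setIntegral_mono_set (integrableOn_g2 hW hf hS h0)
    (ae_of_all _ fun p => g2_nonneg f p) (HasSubset.Subset.eventuallyLE hWW)


theorem Half.mono {E W W' N N' : Set (ℝ × ℝ)} {ε ε' : ℝ} {z : ℝ × ℝ → ℝ} (hW : IsOpen W)
    (hz : Half E W N ε z) (hWW : W' ⊆ W) (hN : N ⊆ N') (hε : ε ≤ ε') : Half E W' N' ε' z := by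
  obtain ⟨S, hS, hSN, h0⟩ := hz.sp
  refine ⟨hz.cf.mono subset_rfl hWW, hz.rg, ⟨S, hS, hSN.trans hN, fun p hp => h0 p (hWW hp)⟩, ?_⟩
  exact ((En_mono hW hWW hz.cf hS h0).trans hz.en).trans hε

theorem Half.integrableOn {E W N : Set (ℝ × ℝ)} {ε : ℝ} {z : ℝ × ℝ → ℝ} (hW : IsOpen W)
    (hz : Half E W N ε z) : IntegrableOn (g2 z) W := by
  obtain ⟨S, hS, hSN, h0⟩ := hz.sp
  exact integrableOn_g2 hW hz.cf hS h0

theorem isOpen_Lo (B : ℝ) : IsOpen (Lo B) := isOpen_lt continuous_snd continuous_const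
theorem isOpen_Up (B : ℝ) : IsOpen (Up B) := isOpen_lt continuous_const continuous_snd

/-! ### the cut-off at a point -/

/-- the basic bump -/
noncomputable def bmp (c : ℝ × ℝ) (r : ℝ) (p : ℝ × ℝ) : ℝ := max 0 (min 1 (2 - dist p c / r))

theorem bmp_nonneg (c : ℝ × ℝ) (r : ℝ) (p : ℝ × ℝ) : 0 ≤ bmp c r p := le_max_left _ _

theorem bmp_le_one (c : ℝ × ℝ) (r : ℝ) (p : ℝ × ℝ) : bmp c r p ≤ 1 :=
  max_le zero_le_one (min_le_left _ _)

theorem bmp_eq_one {c : ℝ × ℝ} {r : ℝ} (hr : 0 < r) {p : ℝ × ℝ} (h : dist p c ≤ r) :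
    bmp c r p = 1 := by
  have h1 : dist p c / r ≤ 1 := (div_le_one hr).2 h
  unfold bmp
  rw [min_eq_left (by linarith), max_eq_right zero_le_one]

theorem bmp_eq_zero {c : ℝ × ℝ} {r : ℝ} (hr : 0 < r) {p : ℝ × ℝ} (h : 2 * r ≤ dist p c) :
    bmp c r p = 0 := by
  have h1 : 2 ≤ dist p c / r := (le_div_iff₀ hr).2 h
  unfold bmp
  rw [max_eq_left]
  exact (min_le_right _ _).trans (by linarith)

theorem bmp_lip {c : ℝ × ℝ} {r : ℝ} (hr : 0 < r) (p q : ℝ × ℝ) :
    |bmp c r p - bmp c r q| ≤ r⁻¹ * dist p q := by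
  have h1 : |bmp c r p - bmp c r q| ≤ |dist p c / r - dist q c / r| := by
    unfold bmp
    refine (abs_max_sub_max_le_max _ _ _ _).trans ?_
    rw [sub_self, abs_zero]
    refine max_le (abs_nonneg _) ?_
    refine (abs_min_sub_min_le_max _ _ _ _).trans ?_
    rw [sub_self, abs_zero]
    refine max_le (abs_nonneg _) ?_
    rw [show (2 - dist p c / r) - (2 - dist q c / r) = -(dist p c / r - dist q c / r) by ring,
      abs_neg]
  refine h1.trans ?_
  rw [← sub_div, abs_div, abs_of_pos hr, div_eq_inv_mul]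
  exact mul_le_mul_of_nonneg_left (abs_dist_sub_le p q c) (inv_nonneg.2 hr.le)

theorem bmp_SL {c : ℝ × ℝ} {r : ℝ} (hr : 0 < r) (U : Set (ℝ × ℝ)) : SL U r⁻¹ (bmp c r) :=
  fun p q _ => bmp_lip hr p q

theorem volume_closedBall_plane (c : ℝ × ℝ) {r : ℝ} (hr : 0 ≤ r) :
    (volume (closedBall c r)).toReal = 4 * r ^ 2 := by
  rw [← closedBall_prod_same, Measure.volume_eq_prod, Measure.prod_prod, Real.volume_closedBall,
    Real.volume_closedBall, ENNReal.toReal_mul, ENNReal.toReal_ofReal (by linarith)]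
  ring


end Crest.Agent.R105.Sin_891
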