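import Crest.Agent.R105.SqF2_136
import Crest.Agent.R105.SqB_87

-- ▼ part R105/SqJa_361
section

/-! Row 105, S0138, exact squares: the fill of a RECTANGLE (136's fill of the unit square, scaled). -/

open MeasureTheory Set Filter Topology Metric
open scoped NNReal ENNReal

namespace Crest.Agent.R105.SqJ_361

open Crest.Agent.R105.CF_363 Crest.Agent.R105.Sq_87 Crest.Agent.R105.SqF_136

/-! ### scaling -/

/-- the homeomorphism which takes the rectangle with centre `(x, y)` and half sides `h1`, `h2` to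
the unit square -/
noncomputable def sc (x y : ℝ) {h1 h2 : ℝ} (p1 : 0 < h1) (p2 : 0 < h2) : ℝ × ℝ ≃ₜ ℝ × ℝ where
  toFun p := ((p.1 - x) / h1, (p.2 - y) / h2)
  invFun u := (x + h1 * u.1, y + h2 * u.2)
  left_inv p := by
    have := p1.ne'
    have := p2.ne'
    ext <;> simp <;> field_simp <;> ring
  right_inv u := by
    have := p1.ne'
    have := p2.ne'
    ext <;> simp <;> field_simp
  continuous_toFun := by fun_prop
  continuous_invFun := by fun_prop

variable {x y h1 h2 : ℝ}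

theorem sc_apply (p1 : 0 < h1) (p2 : 0 < h2) (p : ℝ × ℝ) :
    sc x y p1 p2 p = ((p.1 - x) / h1, (p.2 - y) / h2) := rfl

theorem sc_symm_apply (p1 : 0 < h1) (p2 : 0 < h2) (u : ℝ × ℝ) :
    (sc x y p1 p2).symm u = (x + h1 * u.1, y + h2 * u.2) := rfl

theorem map_line (x : ℝ) {h : ℝ} (hh : 0 < h) :
    (volume : Measure ℝ).map (fun t => (t - x) / h) = ENNReal.ofReal h • (volume : Measure ℝ) := by
  have e : (fun t : ℝ => (t - x) / h) = (fun t => t * h⁻¹) ∘ fun t => t - x := by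
    ext t; simp [div_eq_mul_inv]
  rw [e, ← Measure.map_map (by fun_prop) (by fun_prop), map_sub_right_eq_self,
    Real.map_volume_mul_right (inv_ne_zero hh.ne'), inv_inv, abs_of_pos hh]

theorem map_sc (p1 : 0 < h1) (p2 : 0 < h2) :
    (volume : Measure (ℝ × ℝ)).map (sc x y p1 p2) =
      ENNReal.ofReal (h1 * h2) • (volume : Measure (ℝ × ℝ)) := by
  have e : (sc x y p1 p2 : ℝ × ℝ → ℝ × ℝ) =
      Prod.map (fun t => (t - x) / h1) fun t => (t - y) / h2 := rfl
  rw [e, Measure.volume_eq_prod, ← Measure.map_prod_map _ _ (by fun_prop) (by fun_prop),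
    map_line x p1, map_line y p2, Measure.prod_smul_left, Measure.prod_smul_right, smul_smul,
    ENNReal.ofReal_mul p1.le]


theorem setIntegral_sc (p1 : 0 < h1) (p2 : 0 < h2) (g : ℝ × ℝ → ℝ) (S : Set (ℝ × ℝ)) :
    ∫ p in sc x y p1 p2 ⁻¹' S, g (sc x y p1 p2 p) = h1 * h2 * ∫ u in S, g u := by
  rw [← (sc x y p1 p2).measurableEmbedding.setIntegral_map, map_sc, Measure.restrict_smul,
    integral_smul_measure, ENNReal.toReal_ofReal (by positivity), smul_eq_mul]

theorem setIntegral_sc_div (p1 : 0 < h1) (p2 : 0 < h2) (g : ℝ × ℝ → ℝ) (S : Set (ℝ × ℝ)) :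
    ∫ p in sc x y p1 p2 ⁻¹' S, g (sc x y p1 p2 p) / (h1 * h2) = ∫ u in S, g u := by
  rw [integral_div, setIntegral_sc, mul_div_cancel_left₀ _ (mul_pos p1 p2).ne']

theorem setIntegral_sc_abs (p1 : 0 < h1) (p2 : 0 < h2) (Y : ℝ × ℝ → ℝ) {c : ℝ} (hc : 0 < c)
    (S : Set (ℝ × ℝ)) :
    ∫ p in sc x y p1 p2 ⁻¹' S, |Y (sc x y p1 p2 p) / c| = h1 * h2 / c * ∫ u in S, |Y u| := by
  have h := setIntegral_sc (x := x) (y := y) p1 p2 (fun u => |Y u / c|) S
  rw [h]
  have e : ∀ u, |Y u / c| = |Y u| / c := fun u => by rw [abs_div, abs_of_pos hc]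
  simp_rw [e]
  rw [integral_div]
  ring

theorem integrable_sc (p1 : 0 < h1) (p2 : 0 < h2) {g : ℝ × ℝ → ℝ} (hg : Integrable g volume) :
    Integrable (fun p => g (sc x y p1 p2 p)) volume := by
  have h : Integrable g ((volume : Measure (ℝ × ℝ)).map (sc x y p1 p2)) := by
    rw [map_sc]; exact hg.smul_measure ENNReal.ofReal_ne_top
  exact ((sc x y p1 p2).measurableEmbedding.integrable_map_iff).mp h

/-- the scaling as a continuous linear equivalence -/
noncomputable def iso (p1 : 0 < h1) (p2 : 0 < h2) : (ℝ × ℝ) ≃L[ℝ] (ℝ × ℝ) :=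
  (ContinuousLinearEquiv.smulLeft (Units.mk0 h1 p1.ne')).prodCongr
    (ContinuousLinearEquiv.smulLeft (Units.mk0 h2 p2.ne'))


theorem fderiv_sc (p1 : 0 < h1) (p2 : 0 < h2) (e : ℝ × ℝ → ℝ) (u : ℝ × ℝ) :
    fderiv ℝ (fun u => e ((sc x y p1 p2).symm u)) u =
      (fderiv ℝ e ((sc x y p1 p2).symm u)).comp (iso p1 p2 : (ℝ × ℝ) →L[ℝ] (ℝ × ℝ)) := by
  have h := (iso p1 p2).comp_right_fderiv (f := fun v => e ((x, y) + v)) (x := u)
  rw [fderiv_comp_add_left] at h
  exact h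

theorem gx_sc (p1 : 0 < h1) (p2 : 0 < h2) (e : ℝ × ℝ → ℝ) (u : ℝ × ℝ) :
    gx (fun u => e ((sc x y p1 p2).symm u)) u = h1 * gx e ((sc x y p1 p2).symm u) := by
  unfold gx
  rw [fderiv_sc, ContinuousLinearMap.comp_apply]
  have : (iso p1 p2 : (ℝ × ℝ) →L[ℝ] (ℝ × ℝ)) (1, 0) = h1 • ((1, 0) : ℝ × ℝ) := by
    change (h1 * 1, h2 * 0) = (h1 * 1, h1 * 0); simp
  rw [this, map_smul, smul_eq_mul]

theorem gy_sc (p1 : 0 < h1) (p2 : 0 < h2) (e : ℝ × ℝ → ℝ) (u : ℝ × ℝ) :
    gy (fun u => e ((sc x y p1 p2).symm u)) u = h2 * gy e ((sc x y p1 p2).symm u) := by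
  unfold gy
  rw [fderiv_sc, ContinuousLinearMap.comp_apply]
  have : (iso p1 p2 : (ℝ × ℝ) →L[ℝ] (ℝ × ℝ)) (0, 1) = h2 • ((0, 1) : ℝ × ℝ) := by
    change (h1 * 0, h2 * 1) = (h2 * 0, h2 * 1); simp
  rw [this, map_smul, smul_eq_mul]

/-! ### the rectangle -/

/-- gauge of the rectangle -/
noncomputable def rg (x y h1 h2 : ℝ) (p : ℝ × ℝ) : ℝ := max (|p.1 - x| / h1) (|p.2 - y| / h2)

/-- open rectangle -/
def ro (x y h1 h2 : ℝ) : Set (ℝ × ℝ) := Ioo (x - h1) (x + h1) ×ˢ Ioo (y - h2) (y + h2)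

/-- closed rectangle -/
def rc (x y h1 h2 : ℝ) : Set (ℝ × ℝ) := Icc (x - h1) (x + h1) ×ˢ Icc (y - h2) (y + h2)

/-- distance in the scale of the rectangle -/
noncomputable def rd (h1 h2 : ℝ) (p q : ℝ × ℝ) : ℝ := max (|p.1 - q.1| / h1) (|p.2 - q.2| / h2)

theorem dist_sc (p1 : 0 < h1) (p2 : 0 < h2) (p q : ℝ × ℝ) :
    dist (sc x y p1 p2 p) (sc x y p1 p2 q) = rd h1 h2 p q := by
  rw [Prod.dist_eq, sc_apply, sc_apply, rd]
  simp only [Real.dist_eq]
  rw [← sub_div, ← sub_div, abs_div, abs_div, abs_of_pos p1, abs_of_pos p2]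
  congr 3 <;> ring

theorem sc_center (p1 : 0 < h1) (p2 : 0 < h2) : sc x y p1 p2 (x, y) = (0, 0) := by
  rw [sc_apply]; simp

theorem dist_sc_zero (p1 : 0 < h1) (p2 : 0 < h2) (p : ℝ × ℝ) :
    dist (sc x y p1 p2 p) (0, 0) = rg x y h1 h2 p := by
  rw [← sc_center (x := x) (y := y) p1 p2, dist_sc]; rfl

theorem rg_lt (p1 : 0 < h1) (p2 : 0 < h2) (p : ℝ × ℝ) : rg x y h1 h2 p < 1 ↔ p ∈ ro x y h1 h2 := by
  unfold rg ro
  rw [max_lt_iff, div_lt_one p1, div_lt_one p2, abs_sub_lt_iff, abs_sub_lt_iff, mem_prod, mem_Ioo,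
    mem_Ioo]
  constructor <;> rintro ⟨⟨_, _⟩, _, _⟩ <;> refine ⟨⟨?_, ?_⟩, ?_, ?_⟩ <;> linarith

theorem rg_le (p1 : 0 < h1) (p2 : 0 < h2) (p : ℝ × ℝ) : rg x y h1 h2 p ≤ 1 ↔ p ∈ rc x y h1 h2 := by
  unfold rg rc
  rw [max_le_iff, div_le_one p1, div_le_one p2, abs_sub_le_iff, abs_sub_le_iff, mem_prod, mem_Icc,
    mem_Icc]
  constructor <;> rintro ⟨⟨_, _⟩, _, _⟩ <;> refine ⟨⟨?_, ?_⟩, ?_, ?_⟩ <;> linarith

theorem sc_ball (p1 : 0 < h1) (p2 : 0 < h2) :
    sc x y p1 p2 ⁻¹' ball (0, 0) 1 = ro x y h1 h2 := by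
  ext p; rw [mem_preimage, mem_ball, dist_sc_zero, rg_lt p1 p2]

theorem sc_closedBall (p1 : 0 < h1) (p2 : 0 < h2) :
    sc x y p1 p2 ⁻¹' closedBall (0, 0) 1 = rc x y h1 h2 := by
  ext p; rw [mem_preimage, mem_closedBall, dist_sc_zero, rg_le p1 p2]

/-- the properties of the fill of a rectangle -/
structure FillR (x y h1 h2 : ℝ) (ν₁ ν₂ : Measure (ℝ × ℝ)) (X1 X2 : ℝ × ℝ → ℝ) : Prop where
  m1 : Measurable X1
  m2 : Measurable X2
  z : ∀ p ∉ ro x y h1 h2, X1 p = 0 ∧ X2 p = 0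
  i1 : Integrable X1 volume
  i2 : Integrable X2 volume
  F1 : ∀ (L : ℝ) (e : ℝ × ℝ → ℝ), 0 ≤ L → (∀ p q, |e p - e q| ≤ L * dist p q) →
    ∫ p in ro x y h1 h2, (X1 p * gx e p + X2 p * gy e p) = (∫ p, e p ∂ν₁) - ∫ p, e p ∂ν₂
  F2 : ∀ ε, 0 < ε → ε ≤ 1 / 4 →
    ε⁻¹ * ∫ p in ro x y h1 h2 ∩ ann (rg x y h1 h2) ε,
      |X1 p * gx (rg x y h1 h2) p + X2 p * gy (rg x y h1 h2) p| ≤ (ν₁ univ + ν₂ univ).toReal
  F3 : ∀ a b c d, a ≤ b → c ≤ d → ∀ P, MeasurableSet P →
    (∀ p ∈ rc x y h1 h2, ∀ u ∈ Ioo a b ×ˢ Ioo c d,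
      rd h1 h2 u p ≤ 3 * (1 - rg x y h1 h2 u) → p ∈ P) →
    (∫ u in Ioo a b ×ˢ Ioo c d, |X1 u| ≤ (b - a) * (ν₁ P + ν₂ P).toReal) ∧
    (∫ u in Ioo a b ×ˢ Ioo c d, |X2 u| ≤ (d - c) * (ν₁ P + ν₂ P).toReal)
  F4 : ∀ δ, 0 ≤ δ → ∀ S P : Set (ℝ × ℝ), MeasurableSet S → MeasurableSet P →
    (∀ u ∈ S, 1 - rg x y h1 h2 u ≤ δ) →
    (∀ p ∈ rc x y h1 h2, ∀ u ∈ S, rd h1 h2 u p ≤ 3 * (1 - rg x y h1 h2 u) → p ∈ P) →
    (∫ u in S, |X1 u| ≤ h1 * (3 * δ * (ν₁ P + ν₂ P).toReal)) ∧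
    (∫ u in S, |X2 u| ≤ h2 * (3 * δ * (ν₁ P + ν₂ P).toReal))

theorem fillR (p1 : 0 < h1) (p2 : 0 < h2) (ν₁ ν₂ : Measure (ℝ × ℝ)) [IsFiniteMeasure ν₁]
    [IsFiniteMeasure ν₂] (c1 : ν₁ (rc x y h1 h2)ᶜ = 0) (c2 : ν₂ (rc x y h1 h2)ᶜ = 0)
    (hm : ν₁ univ = ν₂ univ) : ∃ X1 X2 : ℝ × ℝ → ℝ, FillR x y h1 h2 ν₁ ν₂ X1 X2 := by
  set T := sc x y p1 p2 with hT
  have hTm : Measurable T := T.continuous.measurable
  have hTe : MeasurableEmbedding T := T.measurableEmbedding
  have hA : h1 ≠ 0 := p1.ne'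
  have hB : h2 ≠ 0 := p2.ne'
  have hAB : 0 < h1 * h2 := mul_pos p1 p2
  have k1 : (ν₁.map T) (closedBall (0, 0) 1)ᶜ = 0 := by
    rw [Measure.map_apply hTm measurableSet_closedBall.compl, preimage_compl, hT, sc_closedBall]
    exact c1
  have k2 : (ν₂.map T) (closedBall (0, 0) 1)ᶜ = 0 := by
    rw [Measure.map_apply hTm measurableSet_closedBall.compl, preimage_compl, hT, sc_closedBall]
    exact c2
  have u1 : (ν₁.map T) univ = ν₁ univ := by rw [Measure.map_apply hTm MeasurableSet.univ]; simp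
  have u2 : (ν₂.map T) univ = ν₂ univ := by rw [Measure.map_apply hTm MeasurableSet.univ]; simp
  obtain ⟨Y1, Y2, F⟩ := fill2 (x := 0) (y := 0) one_pos (ν₁.map T) (ν₂.map T) k1 k2
    (by rw [u1, u2, hm])
  have hgau : ∀ u : ℝ × ℝ, (fun u => rg x y h1 h2 (T.symm u)) u = dist u (0, 0) / 1 := by
    intro u
    simp only
    rw [← dist_sc_zero (x := x) (y := y) p1 p2, ← hT, T.apply_symm_apply, div_one]
  have hgau' : (fun u : ℝ × ℝ => dist u (0, 0) / 1) = fun u => rg x y h1 h2 (T.symm u) :=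
    (funext hgau).symm
  have hS : ∀ p, T.symm (T p) = p := T.symm_apply_apply
  refine ⟨fun p => Y1 (T p) / h2, fun p => Y2 (T p) / h1, ?_⟩
  refine ⟨(F.m1.comp hTm).div_const _, (F.m2.comp hTm).div_const _, ?_, ?_, ?_, ?_, ?_, ?_, ?_⟩
  · intro p hp
    rw [← sc_ball p1 p2, mem_preimage] at hp
    have := F.z _ hp
    simp only [hT, this.1, this.2, zero_div, and_self]
  · exact (integrable_sc p1 p2 F.i1).div_const _
  · exact (integrable_sc p1 p2 F.i2).div_const _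
  · intro L e hL he
    have he' : ∀ u v : ℝ × ℝ, |e (T.symm u) - e (T.symm v)| ≤ (L * max h1 h2) * dist u v := by
      intro u v
      refine (he _ _).trans ?_
      rw [mul_assoc]
      refine mul_le_mul_of_nonneg_left ?_ hL
      rw [hT, sc_symm_apply, sc_symm_apply, Prod.dist_eq, Prod.dist_eq]
      simp only [Real.dist_eq]
      have e1 : x + h1 * u.1 - (x + h1 * v.1) = h1 * (u.1 - v.1) := by ring
      have e2 : y + h2 * u.2 - (y + h2 * v.2) = h2 * (u.2 - v.2) := by ring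
      rw [e1, e2, abs_mul, abs_mul, abs_of_pos p1, abs_of_pos p2]
      apply max_le
      · exact mul_le_mul (le_max_left _ _) (le_max_left _ _) (abs_nonneg _)
          (p1.le.trans (le_max_left _ _))
      · exact mul_le_mul (le_max_right _ _) (le_max_right _ _) (abs_nonneg _)
          (p1.le.trans (le_max_left _ _))
    have h := F.F1 (L * max h1 h2) (fun u => e (T.symm u))
      (mul_nonneg hL (p1.le.trans (le_max_left _ _))) he'
    rw [hTe.integral_map, hTe.integral_map] at h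
    simp only [hS] at h
    rw [← h, ← sc_ball p1 p2, ← hT]
    have h3 := setIntegral_sc_div (x := x) (y := y) p1 p2 (fun u => Y1 u * gx (fun u => e (T.symm u)) u +
      Y2 u * gy (fun u => e (T.symm u)) u) (ball (0, 0) 1)
    rw [← hT] at h3
    rw [← h3]
    refine setIntegral_congr_fun (hTm measurableSet_ball) fun p _ => ?_
    rw [hT, gx_sc, gy_sc, ← hT, hS]
    field_simp
  · intro ε hε hε4
    have h := F.F2 ε hε hε4
    rw [u1, u2, hgau'] at h
    refine le_trans (le_of_eq ?_) h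
    congr 1
    have h3 := setIntegral_sc_div (x := x) (y := y) p1 p2 (fun u => |Y1 u * gx (fun u => rg x y h1 h2 (T.symm u)) u +
      Y2 u * gy (fun u => rg x y h1 h2 (T.symm u)) u|) (ball (0, 0) 1 ∩ ann (fun u => rg x y h1 h2 (T.symm u)) ε)
    rw [← hT] at h3
    rw [← h3]
    have hset : T ⁻¹' (ball (0, 0) 1 ∩ ann (fun u => rg x y h1 h2 (T.symm u)) ε) =
        ro x y h1 h2 ∩ ann (rg x y h1 h2) ε := by
      rw [preimage_inter, hT, sc_ball]
      congr 1
      ext p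
      simp only [ann, mem_preimage, mem_ofPred_eq, Homeomorph.symm_apply_apply]
    rw [hset]
    have hro : MeasurableSet (ro x y h1 h2) := measurableSet_Ioo.prod measurableSet_Ioo
    have hrg : Measurable (rg x y h1 h2) := by unfold rg; fun_prop
    refine setIntegral_congr_fun (hro.inter (measurableSet_ann hrg ε)) fun p _ => ?_
    rw [hT, gx_sc, gy_sc, ← hT, hS]
    rw [show Y1 (T p) / h2 * gx (rg x y h1 h2) p + Y2 (T p) / h1 * gy (rg x y h1 h2) p =
      (Y1 (T p) * (h1 * gx (rg x y h1 h2) p) + Y2 (T p) * (h2 * gy (rg x y h1 h2) p)) / (h1 * h2) by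
        field_simp, abs_div, abs_of_pos hAB]
  · intro a b c d hab hcd P hP hc
    have hset : T ⁻¹' (Ioo ((a - x) / h1) ((b - x) / h1) ×ˢ Ioo ((c - y) / h2) ((d - y) / h2)) =
        Ioo a b ×ˢ Ioo c d := by
      ext p
      rw [mem_preimage, hT, sc_apply, mem_prod, mem_prod, mem_Ioo, mem_Ioo, mem_Ioo, mem_Ioo]
      simp only
      rw [div_lt_div_iff_of_pos_right p1, div_lt_div_iff_of_pos_right p1,
        div_lt_div_iff_of_pos_right p2, div_lt_div_iff_of_pos_right p2]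
      constructor <;> rintro ⟨⟨_, _⟩, _, _⟩ <;> refine ⟨⟨?_, ?_⟩, ?_, ?_⟩ <;> linarith
    have h := F.F3 ((a - x) / h1) ((b - x) / h1) ((c - y) / h2) ((d - y) / h2)
      (by rw [div_le_div_iff_of_pos_right p1]; linarith)
      (by rw [div_le_div_iff_of_pos_right p2]; linarith) (T.symm ⁻¹' P)
      (T.symm.continuous.measurable hP) (by
        intro p hp u hu hd
        have hu' : T.symm u ∈ Ioo a b ×ˢ Ioo c d := by
          rw [← hset, mem_preimage, T.apply_symm_apply]; exact hu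
        refine hc (T.symm p) ?_ (T.symm u) hu' ?_
        · rw [← sc_closedBall p1 p2, mem_preimage, ← hT, T.apply_symm_apply]; exact hp
        · rw [← dist_sc (x := x) (y := y) p1 p2, ← dist_sc_zero p1 p2, ← hT, T.apply_symm_apply,
            T.apply_symm_apply]; exact hd)
    rw [Measure.map_apply hTm (T.symm.continuous.measurable hP),
      Measure.map_apply hTm (T.symm.continuous.measurable hP)] at h
    have hPP : T ⁻¹' (T.symm ⁻¹' P) = P := by
      ext p; simp only [mem_preimage, T.symm_apply_apply]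
    rw [hPP] at h
    have h3 := setIntegral_sc_abs (x := x) (y := y) p1 p2 Y1 p2
      (Ioo ((a - x) / h1) ((b - x) / h1) ×ˢ Ioo ((c - y) / h2) ((d - y) / h2))
    have h4 := setIntegral_sc_abs (x := x) (y := y) p1 p2 Y2 p1
      (Ioo ((a - x) / h1) ((b - x) / h1) ×ˢ Ioo ((c - y) / h2) ((d - y) / h2))
    rw [← hT, hset] at h3 h4
    rw [h3, h4, mul_div_cancel_right₀ _ hB, mul_div_cancel_left₀ _ hA]
    constructor
    · refine (mul_le_mul_of_nonneg_left h.1 p1.le).trans (le_of_eq ?_)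
      rw [← mul_assoc]; congr 1; field_simp; ring
    · refine (mul_le_mul_of_nonneg_left h.2 p2.le).trans (le_of_eq ?_)
      rw [← mul_assoc]; congr 1; field_simp; ring
  · intro δ hδ S P hS' hP hSδ hc
    have hSm : MeasurableSet (T.symm ⁻¹' S) := T.symm.continuous.measurable hS'
    have hset : T ⁻¹' (T.symm ⁻¹' S) = S := by
      ext p; simp only [mem_preimage, T.symm_apply_apply]
    have h := F.F4 δ hδ (T.symm ⁻¹' S) (T.symm ⁻¹' P) hSm (T.symm.continuous.measurable hP) (by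
        intro u hu
        have := hSδ _ hu
        rwa [← dist_sc_zero p1 p2, ← hT, T.apply_symm_apply] at this) (by
        intro p hp u hu hd
        refine hc (T.symm p) ?_ (T.symm u) hu ?_
        · rw [← sc_closedBall p1 p2, mem_preimage, ← hT, T.apply_symm_apply]; exact hp
        · rw [← dist_sc (x := x) (y := y) p1 p2, ← dist_sc_zero p1 p2, ← hT, T.apply_symm_apply,
            T.apply_symm_apply]; exact hd)
    rw [Measure.map_apply hTm (T.symm.continuous.measurable hP),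
      Measure.map_apply hTm (T.symm.continuous.measurable hP)] at h
    have hPP : T ⁻¹' (T.symm ⁻¹' P) = P := by
      ext p; simp only [mem_preimage, T.symm_apply_apply]
    rw [hPP] at h
    have h3 := setIntegral_sc_abs (x := x) (y := y) p1 p2 Y1 p2 (T.symm ⁻¹' S)
    have h4 := setIntegral_sc_abs (x := x) (y := y) p1 p2 Y2 p1 (T.symm ⁻¹' S)
    rw [← hT, hset] at h3 h4
    rw [h3, h4, mul_div_cancel_right₀ _ hB, mul_div_cancel_left₀ _ hA]
    exact ⟨mul_le_mul_of_nonneg_left h.1 p1.le, mul_le_mul_of_nonneg_left h.2 p2.le⟩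

end Crest.Agent.R105.SqJ_361
end

-- ▼ part R105/SqJb_361

/-! Row 105, S0138, exact squares: the field of the whole box = field on `V` + fills of the charged
rectangles; integrability and the flow identity. -/

open MeasureTheory Set Filter Topology Metric
open scoped NNReal ENNReal

namespace Crest.Agent.R105.SqJ_361

open Crest.Agent.R105.CF_363 Crest.Agent.R105.Sq_87

/-! ### gluing countably many functions on disjoint open rectangles -/

section Join

variable {ι : Type} (Q : Rects ι)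



/-- closed rectangle -/
def cl (i : ι) : Set (ℝ × ℝ) := rc (Q.x i) (Q.y i) (Q.h1 i) (Q.h2 i)

theorem closure_op (i : ι) : closure (Q.op i) = cl Q i := by
  have p1 := Q.p1 i
  have p2 := Q.p2 i
  unfold Rects.op cl rc
  rw [closure_prod_eq, closure_Ioo (by linarith), closure_Ioo (by linarith)]

theorem op_subset_cl (i : ι) : Q.op i ⊆ cl Q i := by
  rw [← closure_op]; exact subset_closure

theorem isCompact_cl (i : ι) : IsCompact (cl Q i) := isCompact_Icc.prod isCompact_Icc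


theorem convex_op (i : ι) : Convex ℝ (Q.op i) := (convex_Ioo _ _).prod (convex_Ioo _ _)

theorem convex_cl (i : ι) : Convex ℝ (cl Q i) := (convex_Icc _ _).prod (convex_Icc _ _)

open Classical in
/-- `Y i` on the `i`-th open rectangle, `X` off the rectangles -/
noncomputable def join (X : ℝ × ℝ → ℝ) (Y : ι → ℝ × ℝ → ℝ) (p : ℝ × ℝ) : ℝ :=
  if h : ∃ i, p ∈ Q.op i then Y h.choose p else X p

variable {Q}

theorem join_of_mem (dis : Pairwise (fun i j => Disjoint (Q.op i) (Q.op j))) {X : ℝ × ℝ → ℝ}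
    {Y : ι → ℝ × ℝ → ℝ} {p : ℝ × ℝ} {i : ι} (hi : p ∈ Q.op i) : join Q X Y p = Y i p := by
  have h : ∃ i, p ∈ Q.op i := ⟨i, hi⟩
  unfold join
  rw [dif_pos h]
  have : h.choose = i := by
    by_contra hne
    exact (dis hne).le_bot ⟨h.choose_spec, hi⟩
  rw [this]

theorem join_of_not {X : ℝ × ℝ → ℝ} {Y : ι → ℝ × ℝ → ℝ} {p : ℝ × ℝ} (hp : p ∉ Q.un) :
    join Q X Y p = X p := by
  unfold join
  rw [dif_neg]
  rintro ⟨i, hi⟩
  exact hp (mem_iUnion.mpr ⟨i, hi⟩)

variable [Countable ι]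

theorem measurable_join (dis : Pairwise (fun i j => Disjoint (Q.op i) (Q.op j))) {X : ℝ × ℝ → ℝ}
    {Y : ι → ℝ × ℝ → ℝ} (hX : Measurable X) (hY : ∀ i, Measurable (Y i)) :
    Measurable (join Q X Y) := by
  intro s hs
  have : join Q X Y ⁻¹' s = (⋃ i, Q.op i ∩ Y i ⁻¹' s) ∪ (Q.unᶜ ∩ X ⁻¹' s) := by
    ext p
    constructor
    · intro hp
      by_cases h : p ∈ Q.un
      · obtain ⟨i, hi⟩ := mem_iUnion.mp h
        rw [mem_preimage, join_of_mem dis hi] at hp
        exact Or.inl (mem_iUnion.mpr ⟨i, hi, hp⟩)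
      · rw [mem_preimage, join_of_not h] at hp
        exact Or.inr ⟨h, hp⟩
    · rintro (hp | ⟨h, hp⟩)
      · obtain ⟨i, hi, hp⟩ := mem_iUnion.mp hp
        rw [mem_preimage, join_of_mem dis hi]; exact hp
      · rw [mem_preimage, join_of_not h]; exact hp
  rw [this]
  exact (MeasurableSet.iUnion fun i => (Q.measurableSet_op i).inter (hY i hs)).union
    (Q.measurableSet_un.compl.inter (hX hs))

theorem integrable_join (dis : Pairwise (fun i j => Disjoint (Q.op i) (Q.op j)))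
    {X : ℝ × ℝ → ℝ} {Y : ι → ℝ × ℝ → ℝ} (hX : IntegrableOn X Q.unᶜ)
    (hY : ∀ i, IntegrableOn (Y i) (Q.op i)) (hs : Summable fun i => ∫ p in Q.op i, |Y i p|) :
    Integrable (join Q X Y) volume := by
  have e1 : IntegrableOn (join Q X Y) Q.unᶜ := by
    refine hX.congr_fun (fun p hp => ?_) Q.measurableSet_un.compl
    exact (join_of_not hp).symm
  have e2 : IntegrableOn (join Q X Y) Q.un := by
    refine integrableOn_iUnion_of_summable_integral_norm (fun i => ?_) ?_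
    · refine (hY i).congr_fun (fun p hp => ?_) (Q.measurableSet_op i)
      exact (join_of_mem dis hp).symm
    · refine hs.congr fun i => ?_
      refine setIntegral_congr_fun (Q.measurableSet_op i) fun p hp => ?_
      rw [join_of_mem dis hp, Real.norm_eq_abs]
  have := e2.union e1
  rwa [union_compl_self, integrableOn_univ] at this

end Join

/-! ### one rectangle -/

section One

variable {x y h1 h2 : ℝ} {ν₁ ν₂ : Measure (ℝ × ℝ)} {X1 X2 : ℝ × ℝ → ℝ}

/-- `L¹` bounds of the fill -/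
theorem FillR.L1 (F : FillR x y h1 h2 ν₁ ν₂ X1 X2) (p1 : 0 < h1) (p2 : 0 < h2) :
    (∫ p in ro x y h1 h2, |X1 p| ≤ 2 * h1 * (ν₁ univ + ν₂ univ).toReal) ∧
      ∫ p in ro x y h1 h2, |X2 p| ≤ 2 * h2 * (ν₁ univ + ν₂ univ).toReal := by
  have h := F.F3 (x - h1) (x + h1) (y - h2) (y + h2) (by linarith) (by linarith) univ
    MeasurableSet.univ (fun _ _ _ _ _ => mem_univ _)
  refine ⟨h.1.trans (le_of_eq ?_), h.2.trans (le_of_eq ?_)⟩ <;> ring

/-- the flow identity on one rectangle for a function which is Lipschitz on the open and continuous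
on the closed rectangle -/
theorem FillR.flow (F : FillR x y h1 h2 ν₁ ν₂ X1 X2) (p1 : 0 < h1) (p2 : 0 < h2)
    (c1 : ν₁ (rc x y h1 h2)ᶜ = 0) (c2 : ν₂ (rc x y h1 h2)ᶜ = 0) {e : ℝ × ℝ → ℝ} {L : ℝ≥0}
    (he : LipschitzOnWith L e (ro x y h1 h2)) (hc : ContinuousOn e (rc x y h1 h2)) :
    ∫ p in ro x y h1 h2, (X1 p * gx e p + X2 p * gy e p) = (∫ p, e p ∂ν₁) - ∫ p, e p ∂ν₂ := by
  have hcl : closure (ro x y h1 h2) = rc x y h1 h2 := by
    unfold ro rc
    rw [closure_prod_eq, closure_Ioo (by linarith), closure_Ioo (by linarith)]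
  have hop : IsOpen (ro x y h1 h2) := isOpen_Ioo.prod isOpen_Ioo
  have he2 : LipschitzOnWith L e (rc x y h1 h2) := by
    rw [← hcl] at hc ⊢
    exact he.closure hc
  obtain ⟨g, hg, hge⟩ := he2.extend_real
  have h := F.F1 L g L.2 (fun p q => by
    have := hg.dist_le_mul p q
    rwa [Real.dist_eq] at this)
  have a1 : ∫ p, g p ∂ν₁ = ∫ p, e p ∂ν₁ := by
    refine integral_congr_ae ?_
    have : ∀ᵐ p ∂ν₁, p ∈ rc x y h1 h2 := by rw [ae_iff]; exact c1
    filter_upwards [this] with p hp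
    exact (hge hp).symm
  have a2 : ∫ p, g p ∂ν₂ = ∫ p, e p ∂ν₂ := by
    refine integral_congr_ae ?_
    have : ∀ᵐ p ∂ν₂, p ∈ rc x y h1 h2 := by rw [ae_iff]; exact c2
    filter_upwards [this] with p hp
    exact (hge hp).symm
  rw [a1, a2] at h
  rw [← h]
  refine setIntegral_congr_fun hop.measurableSet fun p hp => ?_
  have hev : e =ᶠ[𝓝 p] g := by
    filter_upwards [hop.mem_nhds hp] with q hq
    exact hge (hcl ▸ subset_closure hq)
  rw [gx_congr hev, gy_congr hev]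

end One

/-! ### the whole box -/

section Box

variable {ι : Type} {Q : Rects ι} {f : ι → ℝ} {np nm : ι → Measure (ℝ × ℝ)}
variable {X1 X2 : ℝ × ℝ → ℝ} {Y1 Y2 : ι → ℝ × ℝ → ℝ}

/-- the data: fills of the rectangles with total mass `2 f i` -/
structure Fills (Q : Rects ι) (f : ι → ℝ) (np nm : ι → Measure (ℝ × ℝ))
    (Y1 Y2 : ι → ℝ × ℝ → ℝ) : Prop where
  dis : Pairwise (fun i j => Disjoint (Q.op i) (Q.op j))
  F : ∀ i, FillR (Q.x i) (Q.y i) (Q.h1 i) (Q.h2 i) (np i) (nm i) (Y1 i) (Y2 i)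
  mass : ∀ i, (np i univ + nm i univ).toReal = 2 * f i
  cp : ∀ i, np i (cl Q i)ᶜ = 0
  cm : ∀ i, nm i (cl Q i)ᶜ = 0

/-- existence -/
theorem exists_fills (dis : Pairwise (fun i j => Disjoint (Q.op i) (Q.op j)))
    (fp : ∀ i, IsFiniteMeasure (np i)) (fm : ∀ i, IsFiniteMeasure (nm i))
    (cp : ∀ i, np i (cl Q i)ᶜ = 0) (cm : ∀ i, nm i (cl Q i)ᶜ = 0)
    (mp : ∀ i, (np i univ).toReal = f i) (mm : ∀ i, (nm i univ).toReal = f i) :
    ∃ Y1 Y2, Fills Q f np nm Y1 Y2 := by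
  have h : ∀ i, ∃ Y1 Y2, FillR (Q.x i) (Q.y i) (Q.h1 i) (Q.h2 i) (np i) (nm i) Y1 Y2 := by
    intro i
    have := fp i
    have := fm i
    refine fillR (Q.p1 i) (Q.p2 i) (np i) (nm i) (cp i) (cm i) ?_
    have e : (np i univ).toReal = (nm i univ).toReal := by rw [mp, mm]
    exact (ENNReal.toReal_eq_toReal_iff' (measure_ne_top _ _) (measure_ne_top _ _)).mp e
  choose Y1 Y2 hY using h
  refine ⟨Y1, Y2, dis, hY, fun i => ?_, cp, cm⟩
  have := fp i
  have := fm i
  rw [ENNReal.toReal_add (measure_ne_top _ _) (measure_ne_top _ _), mp, mm]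
  ring

variable (F : Fills Q f np nm Y1 Y2)
include F

theorem Fills.L1 (i : ι) : ∫ p in Q.op i, |Y1 i p| ≤ 4 * (Q.h1 i * f i) := by
  refine ((F.F i).L1 (Q.p1 i) (Q.p2 i)).1.trans (le_of_eq ?_)
  rw [F.mass]; ring

theorem Fills.L2 (i : ι) : ∫ p in Q.op i, |Y2 i p| ≤ 4 * (Q.h2 i * f i) := by
  refine ((F.F i).L1 (Q.p1 i) (Q.p2 i)).2.trans (le_of_eq ?_)
  rw [F.mass]; ring

variable [Countable ι]

theorem Fills.m1 (hX : Measurable X1) : Measurable (join Q X1 Y1) :=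
  measurable_join F.dis hX fun i => (F.F i).m1

theorem Fills.m2 (hX : Measurable X2) : Measurable (join Q X2 Y2) :=
  measurable_join F.dis hX fun i => (F.F i).m2

theorem Fills.i1 (hX : IntegrableOn X1 Q.unᶜ) (hs : Summable fun i => Q.h1 i * f i) :
    Integrable (join Q X1 Y1) volume :=
  integrable_join F.dis hX (fun i => (F.F i).i1.integrableOn)
    (Summable.of_nonneg_of_le (fun _ => integral_nonneg fun _ => abs_nonneg _)
      (fun i => F.L1 i) (hs.mul_left 4))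

theorem Fills.i2 (hX : IntegrableOn X2 Q.unᶜ) (hs : Summable fun i => Q.h2 i * f i) :
    Integrable (join Q X2 Y2) volume :=
  integrable_join F.dis hX (fun i => (F.F i).i2.integrableOn)
    (Summable.of_nonneg_of_le (fun _ => integral_nonneg fun _ => abs_nonneg _)
      (fun i => F.L2 i) (hs.mul_left 4))

omit [Countable ι] in
/-- the annular bound, literally `SqData.F2` -/
theorem Fills.F2 (i : ι) (ε : ℝ) (hε : 0 < ε) (hε4 : ε ≤ 1 / 4) :
    ε⁻¹ * ∫ p in Q.op i ∩ ann (Q.gau i) ε,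
      |join Q X1 Y1 p * gx (Q.gau i) p + join Q X2 Y2 p * gy (Q.gau i) p| ≤ 2 * f i := by
  have h := (F.F i).F2 ε hε hε4
  rw [F.mass] at h
  refine le_trans (le_of_eq ?_) h
  congr 1
  have hrg : Measurable (Q.gau i) := by unfold Rects.gau; fun_prop
  refine setIntegral_congr_fun ((Q.measurableSet_op i).inter (measurableSet_ann hrg ε))
    fun p hp => ?_
  rw [join_of_mem F.dis hp.1, join_of_mem F.dis hp.1]
  rfl

omit [Countable ι] in
/-- the integral over one rectangle -/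
theorem Fills.one (i : ι) {e : ℝ × ℝ → ℝ} {L : ℝ≥0} (he : LipschitzOnWith L e (Q.op i))
    (hc : ContinuousOn e (cl Q i)) :
    ∫ p in Q.op i, (join Q X1 Y1 p * gx e p + join Q X2 Y2 p * gy e p) =
      (∫ p, e p ∂np i) - ∫ p, e p ∂nm i := by
  rw [← (F.F i).flow (Q.p1 i) (Q.p2 i) (F.cp i) (F.cm i) he hc]
  refine setIntegral_congr_fun (Q.measurableSet_op i) fun p hp => ?_
  rw [join_of_mem F.dis hp, join_of_mem F.dis hp]

/-- **flow identity of the joined field**: `W` contains the open rectangles, `e` has bounded gradient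
a.e. on `W`, is Lipschitz on the open and continuous on the closed rectangles -/
theorem Fills.flow
    (hX1 : IntegrableOn X1 Q.unᶜ) (hX2 : IntegrableOn X2 Q.unᶜ)
    (hs1 : Summable fun i => Q.h1 i * f i) (hs2 : Summable fun i => Q.h2 i * f i)
    {W : Set (ℝ × ℝ)} (hW : MeasurableSet W) (hop : ∀ i, Q.op i ⊆ W) {e : ℝ × ℝ → ℝ} {L : ℝ≥0}
    (hb : ∀ᵐ p : ℝ × ℝ, p ∈ W → |gx e p| ≤ L ∧ |gy e p| ≤ L)
    (he : ∀ i, LipschitzOnWith L e (Q.op i)) (hc : ∀ i, ContinuousOn e (cl Q i)) :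
    Summable (fun i => (∫ p, e p ∂np i) - ∫ p, e p ∂nm i) ∧
    ∫ p in W, (join Q X1 Y1 p * gx e p + join Q X2 Y2 p * gy e p) =
      (∫ p in W \ Q.un, (X1 p * gx e p + X2 p * gy e p)) +
        ∑' i, ((∫ p, e p ∂np i) - ∫ p, e p ∂nm i) := by
  have I1 := F.i1 hX1 hs1
  have I2 := F.i2 hX2 hs2
  have hG : IntegrableOn (fun p => join Q X1 Y1 p * gx e p + join Q X2 Y2 p * gy e p) W := by
    have hb1 : ∀ᵐ p ∂(volume.restrict W), ‖gx e p‖ ≤ L := by
      rw [ae_restrict_iff' hW]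
      filter_upwards [hb] with p hp hpW using (by rw [Real.norm_eq_abs]; exact (hp hpW).1)
    have hb2 : ∀ᵐ p ∂(volume.restrict W), ‖gy e p‖ ≤ L := by
      rw [ae_restrict_iff' hW]
      filter_upwards [hb] with p hp hpW using (by rw [Real.norm_eq_abs]; exact (hp hpW).2)
    exact (I1.integrableOn.mul_bdd (c := L) (measurable_gx e).aestronglyMeasurable hb1).add
      (I2.integrableOn.mul_bdd (c := L) (measurable_gy e).aestronglyMeasurable hb2)
  have hun : Q.un ⊆ W := iUnion_subset hop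
  have hsum := hasSum_integral_iUnion (f := fun p => join Q X1 Y1 p * gx e p + join Q X2 Y2 p * gy e p)
    (μ := volume) (fun i => Q.measurableSet_op i) F.dis (hG.mono_set hun)
  have hone : (fun i => ∫ p in Q.op i, (join Q X1 Y1 p * gx e p + join Q X2 Y2 p * gy e p)) =
      fun i => (∫ p, e p ∂np i) - ∫ p, e p ∂nm i := by
    ext i; exact F.one i (he i) (hc i)
  rw [hone] at hsum
  refine ⟨hsum.summable, ?_⟩
  have hsplit : ∫ p in W, (join Q X1 Y1 p * gx e p + join Q X2 Y2 p * gy e p) =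
      (∫ p in W \ Q.un, (join Q X1 Y1 p * gx e p + join Q X2 Y2 p * gy e p)) +
        ∫ p in Q.un, (join Q X1 Y1 p * gx e p + join Q X2 Y2 p * gy e p) := by
    rw [← setIntegral_union disjoint_sdiff_left Q.measurableSet_un (hG.mono_set sdiff_subset)
      (hG.mono_set hun), sdiff_union_of_subset hun]
  rw [hsplit, hsum.tsum_eq]
  congr 1
  refine setIntegral_congr_fun (hW.diff Q.measurableSet_un) fun p hp => ?_
  rw [join_of_not hp.2, join_of_not hp.2]

end Box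

end Crest.Agent.R105.SqJ_361
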