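import Crest.Agent.R105.SqC_87
import Crest.Agent.R105.Mp7_87

-- ▼ part R105/SqE_87
section

/-! Row 105, S0138, exact squares: one square, consequences of (SQ). -/

open MeasureTheory Set Filter Topology
open scoped NNReal

namespace Crest.Agent.R105.Sq_87

open Crest.Agent.R105.Mp_87 (lam lam_mono Rc measurableSet_Rc restrict_Rc hline vline wx wy ae_swap
  ae_x_of_ae ae_y_of_ae ii_mono)
open Crest.Agent.R105.CF_363 (gx gy SL cut Hair measurable_gx measurable_gy gx_congr gy_congr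
  gx_eq_deriv gy_eq_deriv)

variable {ι : Type} {Q : Rects ι}

/-- the annular flux -/
noncomputable def af (Q : Rects ι) (i : ι) (w1 w2 : ℝ × ℝ → ℝ) (ε : ℝ) : ℝ :=
  ε⁻¹ * ∫ p in Q.op i ∩ ann (Q.gau i) ε, |dn (Q.gau i) w1 w2 p|

theorem af_nonneg (Q : Rects ι) (i : ι) (w1 w2 : ℝ × ℝ → ℝ) {ε : ℝ} (hε : 0 < ε) :
    0 ≤ af Q i w1 w2 ε :=
  mul_nonneg (inv_pos.mpr hε).le (integral_nonneg fun _ => abs_nonneg _)

/-- a sequence of widths -/
noncomputable def wd (n : ℕ) : ℝ := 1 / ((n : ℝ) + 4)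

theorem wd_pos (n : ℕ) : 0 < wd n := by unfold wd; positivity

theorem wd_le (n : ℕ) : wd n ≤ 1 / 4 := by
  unfold wd
  apply one_div_le_one_div_of_le (by norm_num)
  have : (0 : ℝ) ≤ n := Nat.cast_nonneg n
  linarith

theorem wd_lim : Tendsto wd atTop (𝓝 0) := by
  have h1 : Tendsto (fun n : ℕ => (n : ℝ) + 4) atTop atTop :=
    tendsto_atTop_add_const_right _ _ tendsto_natCast_atTop_atTop
  have := h1.inv_tendsto_atTop
  refine this.congr fun n => ?_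
  simp [wd]

theorem gau_const_nonneg (Q : Rects ι) (i : ι) : 0 ≤ (Q.h1 i)⁻¹ + (Q.h2 i)⁻¹ := by
  have h1 := Q.p1 i
  have h2 := Q.p2 i
  positivity

/-- **(SQ) on the square `i`**, for a function Lipschitz on the open square -/
theorem sq_one (i : ι) {w1 w2 V1 V2 : ℝ × ℝ → ℝ}
    (A : ACL (Q.x i - Q.h1 i) (Q.x i + Q.h1 i) (Q.y i - Q.h2 i) (Q.y i + Q.h2 i) w1 w2 V1 V2)
    {L : ℝ} (hL : 0 ≤ L) {e : ℝ × ℝ → ℝ}
    (he : ∀ p ∈ Q.op i, ∀ q ∈ Q.op i, |e p - e q| ≤ L * dist p q)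
    {k D : ℝ} (hD : 0 ≤ D) (hk : ∀ p ∈ Q.op i, |e p - k| ≤ D) {F : ℝ}
    (hF : ∃ᶠ n in atTop, af Q i w1 w2 (wd n) ≤ F) :
    |∫ p in Q.op i, (w2 p * gx e p - w1 p * gy e p)| ≤ D * F := by
  have hl : LipschitzOnWith (Real.toNNReal L) e (Q.op i) := by
    refine LipschitzOnWith.of_dist_le_mul fun p hp q hq => ?_
    rw [Real.dist_eq, Real.coe_toNNReal _ hL]
    exact he p hp q hq
  obtain ⟨E, hE, hEq⟩ := hl.extend_real
  have hE' : ∀ p q : ℝ × ℝ, |E p - E q| ≤ L * dist p q := by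
    intro p q
    have := hE.dist_le_mul p q
    rwa [Real.dist_eq, Real.coe_toNNReal _ hL] at this
  have key := sq_lim (hx_le Q i) (hy_le Q i) hL A (gau_const_nonneg Q i) (Q.gau_lip i)
    (fun p hp => Q.gau_bd i p hp) (fun p => Q.gau_lt i p) hE' hD
    (fun p hp => by rw [← hEq hp]; exact hk p hp) wd_pos wd_lim hF
  have hcongr : ∀ p ∈ Q.op i, w2 p * gx e p - w1 p * gy e p = w2 p * gx E p - w1 p * gy E p := by
    intro p hp
    have hev : e =ᶠ[𝓝 p] E := by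
      filter_upwards [(Q.isOpen_op i).mem_nhds hp] with q hq using hEq hq
    rw [gx_congr hev, gy_congr hev]
  rw [setIntegral_congr_fun (Q.measurableSet_op i) hcongr]
  exact key

/-- lower limit of a sequence bounded below by `0`, by hand -/
noncomputable def lowlim (u : ℕ → ℝ) : ℝ := sInf {F | ∃ᶠ n in atTop, u n ≤ F}

theorem lowlim_lt {u : ℕ → ℝ} {C : ℝ} (hC : ∀ n, u n ≤ C) {F : ℝ}
    (hF : lowlim u < F) : ∃ᶠ n in atTop, u n ≤ F := by
  have hne : {F | ∃ᶠ n in atTop, u n ≤ F}.Nonempty := ⟨C, Frequently.of_forall hC⟩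
  obtain ⟨F', hF', hlt⟩ := exists_lt_of_csInf_lt hne hF
  exact hF'.mono fun n hn => hn.trans hlt.le

theorem lt_lowlim {u : ℕ → ℝ} (h0 : ∀ n, 0 ≤ u n) {F : ℝ} (hF : F < lowlim u) :
    ∀ᶠ n in atTop, F < u n := by
  have hbd : BddBelow {F | ∃ᶠ n in atTop, u n ≤ F} := by
    refine ⟨0, fun F hF => ?_⟩
    obtain ⟨n, hn⟩ := hF.exists
    exact (h0 n).trans hn
  by_contra hcon
  rw [not_eventually] at hcon
  have : F ∈ {F | ∃ᶠ n in atTop, u n ≤ F} := hcon.mono fun n hn => not_lt.mp hn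
  exact absurd (csInf_le hbd this) (not_le.mpr hF)

theorem lowlim_nonneg {u : ℕ → ℝ} {C : ℝ} (h0 : ∀ n, 0 ≤ u n) (hC : ∀ n, u n ≤ C) :
    0 ≤ lowlim u := by
  apply le_csInf ⟨C, Frequently.of_forall hC⟩
  intro F hF
  obtain ⟨n, hn⟩ := hF.exists
  exact (h0 n).trans hn

theorem lowlim_le {u : ℕ → ℝ} {C : ℝ} (h0 : ∀ n, 0 ≤ u n) (hC : ∀ n, u n ≤ C) :
    lowlim u ≤ C := by
  apply csInf_le
  · refine ⟨0, fun F hF => ?_⟩
    obtain ⟨n, hn⟩ := hF.exists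
    exact (h0 n).trans hn
  · exact Frequently.of_forall hC

theorem sq_lowlim (i : ι) {w1 w2 V1 V2 : ℝ × ℝ → ℝ}
    (A : ACL (Q.x i - Q.h1 i) (Q.x i + Q.h1 i) (Q.y i - Q.h2 i) (Q.y i + Q.h2 i) w1 w2 V1 V2)
    {L : ℝ} (hL : 0 ≤ L) {e : ℝ × ℝ → ℝ}
    (he : ∀ p ∈ Q.op i, ∀ q ∈ Q.op i, |e p - e q| ≤ L * dist p q)
    {k D : ℝ} (hD : 0 ≤ D) (hk : ∀ p ∈ Q.op i, |e p - k| ≤ D) {C : ℝ}
    (hC : ∀ n, af Q i w1 w2 (wd n) ≤ C) :
    |∫ p in Q.op i, (w2 p * gx e p - w1 p * gy e p)| ≤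
      D * lowlim (fun n => af Q i w1 w2 (wd n)) := by
  have h0 : ∀ n, 0 ≤ af Q i w1 w2 (wd n) := fun n => af_nonneg Q i w1 w2 (wd_pos n)
  have key : ∀ F, lowlim (fun n => af Q i w1 w2 (wd n)) < F →
      |∫ p in Q.op i, (w2 p * gx e p - w1 p * gy e p)| ≤ D * F := fun F hF =>
    sq_one i A hL he hD hk (lowlim_lt hC hF)
  have hlim : Tendsto (fun F => D * F) (𝓝[>] (lowlim (fun n => af Q i w1 w2 (wd n))))
      (𝓝 (D * lowlim (fun n => af Q i w1 w2 (wd n)))) :=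
    ((continuous_const.mul continuous_id).tendsto _).mono_left nhdsWithin_le_nhds
  exact ge_of_tendsto hlim (by filter_upwards [self_mem_nhdsWithin] with F hF using key F hF)

/-- sections of `w1` have integral zero as soon as the annular fluxes are small -/
theorem section_zero (i : ι) {w1 w2 V1 V2 : ℝ × ℝ → ℝ}
    (A : ACL (Q.x i - Q.h1 i) (Q.x i + Q.h1 i) (Q.y i - Q.h2 i) (Q.y i + Q.h2 i) w1 w2 V1 V2)
    (hF : ∀ δ, 0 < δ → ∃ᶠ n in atTop, af Q i w1 w2 (wd n) ≤ δ) :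
    ∀ᵐ y, y ∈ Ioo (Q.y i - Q.h2 i) (Q.y i + Q.h2 i) →
      ∫ s in Ioo (Q.x i - Q.h1 i) (Q.x i + Q.h1 i), w1 (s, y) = 0 := by
  set I := Ioo (Q.x i - Q.h1 i) (Q.x i + Q.h1 i) with hI
  set K := Ioo (Q.y i - Q.h2 i) (Q.y i + Q.h2 i) with hK
  set G : ℝ → ℝ := fun y => ∫ s in I, w1 (s, y) with hG
  have hGm : Measurable G := by
    have h1 : StronglyMeasurable (fun q : ℝ × ℝ => w1 (q.2, q.1)) :=
      (A.m1.comp measurable_swap).stronglyMeasurable
    exact (h1.integral_prod_right' (ν := volume.restrict I)).measurable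
  have hi1 : Integrable w1 ((volume.restrict I).prod (volume.restrict K)) := by
    have := A.i1
    unfold IntegrableOn at this
    rwa [CF_363.volume_restrict_rect] at this
  have hGi : Integrable G (volume.restrict K) := hi1.integral_prod_right
  set u : ℝ → ℝ := fun y => SignType.sign (G y) with hu
  have hum : Measurable u := by
    have : u = fun y => if 0 < G y then 1 else if G y < 0 then -1 else 0 := by
      ext y
      simp only [hu]
      rcases lt_trichotomy (G y) 0 with h | h | h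
      · simp [sign_neg h, not_lt.mpr h.le, h]
      · simp [h]
      · simp [sign_pos h, h]
    rw [this]
    exact Measurable.ite (measurableSet_lt measurable_const hGm) measurable_const
      (Measurable.ite (measurableSet_lt hGm measurable_const) measurable_const measurable_const)
  have hub : ∀ y, |u y| ≤ 1 := by
    intro y
    simp only [hu]
    rcases lt_trichotomy (G y) 0 with h | h | h
    · simp [sign_neg h]
    · simp [h]
    · simp [sign_pos h]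
  have hui : ∀ α β, IntervalIntegrable u volume α β := by
    intro α β
    rw [intervalIntegrable_iff]
    exact Measure.integrableOn_of_bounded (M := 1) (by simp) hum.aestronglyMeasurable
      (Eventually.of_forall fun s => by rw [Real.norm_eq_abs]; exact hub s)
  set θ : ℝ → ℝ := fun y => ∫ t in (Q.y i)..y, u t with hθ
  set e : ℝ × ℝ → ℝ := fun p => θ p.2 with he
  have hθl : ∀ s t, |θ s - θ t| ≤ |s - t| := by
    intro s t
    simp only [hθ]
    rw [intervalIntegral.integral_interval_sub_left (hui _ _) (hui _ _)]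
    have := intervalIntegral.norm_integral_le_of_norm_le_const (a := t) (b := s) (f := u) (C := 1)
      (fun x _ => by rw [Real.norm_eq_abs]; exact hub x)
    rwa [Real.norm_eq_abs, one_mul] at this
  have hel : ∀ p q : ℝ × ℝ, |e p - e q| ≤ 1 * dist p q := by
    intro p q
    rw [one_mul]
    refine (hθl p.2 q.2).trans ?_
    rw [Prod.dist_eq, ← Real.dist_eq]; exact le_max_right _ _
  have heSL : SL univ 1 e := fun p q _ => hel p q
  have hloc : LocallyIntegrable u volume := by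
    intro x
    refine ⟨Ioc (x - 1) (x + 1), Ioc_mem_nhds (by linarith) (by linarith), ?_⟩
    have := hui (x - 1) (x + 1)
    rwa [intervalIntegrable_iff_integrableOn_Ioc_of_le (by linarith)] at this
  have hgrad : ∀ᵐ p : ℝ × ℝ, gx e p = 0 ∧ gy e p = u p.2 := by
    have h2 := ae_snd' (LocallyIntegrable.ae_hasDerivAt_integral hloc)
    filter_upwards [heSL.ae_differentiableAt (μ := volume) isOpen_univ, h2] with p hp hp2
    have d := hp (mem_univ p)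
    constructor
    · have h1 := gx_eq_deriv (x := p.1) (y := p.2) d
      have h3 : HasDerivAt (fun s : ℝ => e (s, p.2)) 0 p.1 := by
        have h4 : HasDerivAt (fun _ : ℝ => θ p.2) 0 p.1 := hasDerivAt_const _ _
        exact h4
      exact h1.unique h3
    · have h1 := gy_eq_deriv (x := p.1) (y := p.2) d
      exact h1.unique (hp2 (Q.y i))
  have hD0 : 0 ≤ Q.h2 i := (Q.p2 i).le
  have hk : ∀ p ∈ Q.op i, |e p - 0| ≤ Q.h2 i := by
    intro p hp
    have h1 := hθl p.2 (Q.y i)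
    have h2 : θ (Q.y i) = 0 := by simp [hθ]
    rw [h2] at h1
    refine h1.trans ?_
    rw [abs_le]
    constructor <;> linarith [hp.2.1, hp.2.2]
  have hz : ∫ p in Q.op i, (w2 p * gx e p - w1 p * gy e p) = 0 := by
    have h1 : ∀ δ, 0 < δ → |∫ p in Q.op i, (w2 p * gx e p - w1 p * gy e p)| ≤ Q.h2 i * δ :=
      fun δ hδ => sq_one i A zero_le_one (fun p _ q _ => hel p q) hD0 hk (hF δ hδ)
    have h2 : |∫ p in Q.op i, (w2 p * gx e p - w1 p * gy e p)| ≤ 0 := by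
      apply le_of_forall_pos_le_add
      intro δ hδ
      have h3 := h1 (δ / Q.h2 i) (div_pos hδ (Q.p2 i))
      rw [mul_div_cancel₀ _ (Q.p2 i).ne'] at h3
      linarith
    exact abs_eq_zero.mp (le_antisymm h2 (abs_nonneg _))
  have hz2 : ∫ p in Q.op i, w1 p * u p.2 = 0 := by
    have : ∫ p in Q.op i, (w2 p * gx e p - w1 p * gy e p) = ∫ p in Q.op i, -(w1 p * u p.2) := by
      apply integral_congr_ae
      apply ae_restrict_of_ae
      filter_upwards [hgrad] with p hp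
      rw [hp.1, hp.2]; ring
    rw [this, integral_neg, neg_eq_zero] at hz
    exact hz
  have hi2 : Integrable (fun p : ℝ × ℝ => w1 p * u p.2)
      ((volume.restrict I).prod (volume.restrict K)) :=
    hi1.mul_bdd (c := 1) (hum.comp measurable_snd).aestronglyMeasurable
      (Eventually.of_forall fun p => by rw [Real.norm_eq_abs]; exact hub _)
  have hz3 : ∫ y in K, |G y| = 0 := by
    have h1 : ∫ p in Q.op i, w1 p * u p.2 = ∫ y in K, ∫ s in I, w1 (s, y) * u y := by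
      rw [Rects.op, CF_363.volume_restrict_rect]
      exact integral_prod_symm _ hi2
    rw [hz2] at h1
    rw [h1]
    congr 1
    ext y
    rw [integral_mul_const]
    show |G y| = G y * u y
    simp only [hu]
    rcases lt_trichotomy (G y) 0 with h | h | h
    · simp [sign_neg h, abs_of_neg h]
    · simp [h]
    · simp [sign_pos h, abs_of_pos h]
  have hz4 := (integral_eq_zero_iff_of_nonneg (fun y => abs_nonneg (G y)) hGi.abs).mp hz3
  have hz5 := (ae_restrict_iff' measurableSet_Ioo).mp hz4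
  filter_upwards [hz5] with y hy hyK
  exact abs_eq_zero.mp (hy hyK)

end Crest.Agent.R105.Sq_87
end

-- ▼ part R105/SqM_87

/-! Row 105, S0138, exact squares: maximum principle for the stream function on `V`.
Part 1: Green's formula for `w = (ψ - M)⁺` and the approximating functions. -/

open MeasureTheory Set Filter Topology
open scoped NNReal

namespace Crest.Agent.R105.Sq_87

open Crest.Agent.R105.Mp_87 (lam lam_mono Rc measurableSet_Rc restrict_Rc hline vline wx wy ae_swap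
  ae_x_of_ae ae_y_of_ae ii_mono tendsto_integral_mul PXh)
open Crest.Agent.R105.CF_363 (gx gy SL cut Hair measurable_gx measurable_gy gx_congr gy_congr
  gx_eq_deriv gy_eq_deriv isOpen_diff_cut volume_cut green_hairs)

variable {ι : Type} {Q : Rects ι} {S : Set (ℝ × ℝ)}
variable {a b c B σ : ℝ} {X1 X2 ψ Ψ : ℝ × ℝ → ℝ} {μ : Measure (ℝ × ℝ)} {f : ι → ℝ}

/-- The data of the approximating sequence (lower problem, with squares). -/
structure ApprQ (Q : Rects ι) (S : Set (ℝ × ℝ)) (a b c B σ : ℝ) (X1 X2 : ℝ × ℝ → ℝ) (μ : Measure (ℝ × ℝ))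
    (Ψ : ℝ × ℝ → ℝ) (f : ι → ℝ) (J : ℕ → Finset Hair) (z : ℕ → ℝ × ℝ → ℝ) (κ : Hair → ℝ)
    (r : ℕ → ι → ℝ) : Prop where
  X1B : ∀ p : ℝ × ℝ, B ≤ p.2 → X1 p = 0
  X2B : ∀ p : ℝ × ℝ, B ≤ p.2 → X2 p = 0
  disj : ∀ n, ∀ K ∈ J n, ∀ K' ∈ J n, K ≠ K' → Disjoint K.car K'.car
  dq : ∀ n, ∀ i, Disjoint (cut (J n)) (Q.op i)
  sl : ∀ n, ∃ L : ℝ, 0 ≤ L ∧ SL ((Ioo a b ×ˢ Ioo c B) \ cut (J n)) L (z n)
  c1 : Tendsto (fun n => ∫ p in (Ioo a b ×ˢ Ioo c B) \ (Q.un ∪ S), (gx (z n) p - X1 p) ^ 2) atTop (𝓝 0)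
  c2 : Tendsto (fun n => ∫ p in (Ioo a b ×ˢ Ioo c B) \ (Q.un ∪ S), (gy (z n) p - X2 p) ^ 2) atTop (𝓝 0)
  osc : ∀ n i, ∃ k, ∀ p ∈ Q.op i, |z n p - k| ≤ r n i / 2
  r1 : ∀ i, Tendsto (fun n => r n i) atTop (𝓝 (f i))
  r2 : ∀ n, Summable (fun i => f i * r n i)
  r3 : Tendsto (fun n => ∑' i, (f i * r n i -
    ∫ p in Q.op i, (X1 p * gx (z n) p + X2 p * gy (z n) p))) atTop (𝓝 0)
  T : ∀ n, ∀ K ∈ J n, K.x ∈ Ioo a b → μ {q | q.1 = K.x ∧ q.2 < K.t} = 0 →
    (∀ᵐ y, c < y → y ∈ Ioo K.b K.t → Ψ (K.x, y) = κ K) ∧ (B ≤ K.t → κ K = -σ * lam μ K.x)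

/-- property of the horizontal sides -/
def PYq (a b : ℝ) (μ : Measure (ℝ × ℝ)) (Ψ : ℝ × ℝ → ℝ) (J : ℕ → Finset Hair) (κ : Hair → ℝ)
    (y : ℝ) : Prop :=
  ∀ n, ∀ K ∈ J n, y ≠ K.b ∧ y ≠ K.t ∧
    (K.x ∈ Ioo a b → μ {q | q.1 = K.x ∧ q.2 < K.t} = 0 → y ∈ Ioo K.b K.t → Ψ (K.x, y) = κ K)

/-- the rectangle avoids the atomic hairs -/
def PRq (μ : Measure (ℝ × ℝ)) (J : ℕ → Finset Hair) (x0 x1 y0 y1 : ℝ) : Prop :=
  ∀ n, ∀ K ∈ J n, μ {q | q.1 = K.x ∧ q.2 < K.t} ≠ 0 → K.x ∈ Ioo x0 x1 → K.t ≤ y0 ∨ y1 ≤ K.b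

theorem ae_PYq {J : ℕ → Finset Hair} {z : ℕ → ℝ × ℝ → ℝ} {κ : Hair → ℝ} {r : ℕ → ι → ℝ}
    (A : ApprQ Q S a b c B σ X1 X2 μ Ψ f J z κ r) : ∀ᵐ y, c < y → PYq a b μ Ψ J κ y := by
  have h2 : ∀ᵐ y : ℝ, ∀ n, ∀ K ∈ J n, c < y → y ≠ K.b ∧ y ≠ K.t ∧
    (K.x ∈ Ioo a b → μ {q | q.1 = K.x ∧ q.2 < K.t} = 0 → y ∈ Ioo K.b K.t →
      Ψ (K.x, y) = κ K) := by
    rw [ae_all_iff]
    intro n
    refine (Finset.eventually_all (J n)).mpr (fun K hK => ?_)
    have h1 : ∀ᵐ y : ℝ, y ≠ K.b := by rw [ae_iff]; simp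
    have h3 : ∀ᵐ y : ℝ, y ≠ K.t := by rw [ae_iff]; simp
    by_cases hx : K.x ∈ Ioo a b ∧ μ {q | q.1 = K.x ∧ q.2 < K.t} = 0
    · filter_upwards [h1, h3, (A.T n K hK hx.1 hx.2).1] with y e1 e2 e3 hc
      exact ⟨e1, e2, fun _ _ h => e3 hc h⟩
    · filter_upwards [h1, h3] with y e1 e2 hc
      exact ⟨e1, e2, fun h h' => absurd ⟨h, h'⟩ hx⟩
  filter_upwards [h2] with y hy hc n K hK
  exact hy n K hK hc

theorem strip_leI [IsFiniteMeasure μ] (L : LinesI a b c B σ X1 X2 μ ψ Ψ) (hσ : σ = 1 ∨ σ = -1)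
    {x0 x1 y0 y1 M : ℝ} (R : GoodR a b c σ X1 X2 μ ψ Ψ x0 x1 y0 y1)
    (hM : BdLe M ψ Ψ x0 x1 y0 y1) (hB : B < y1) :
    ∀ x ∈ Icc x0 x1, -σ * lam μ x ≤ M := by
  intro x hx
  set y := (max B y0 + y1) / 2 with hy
  have hm : max B y0 < y1 := max_lt hB R.hy
  have hyB : B ≤ y := by
    have := le_max_left B y0
    rw [hy]; linarith
  have hyI : y ∈ Icc y0 y1 := by
    have := le_max_right B y0
    constructor <;> rw [hy] <;> linarith
  have h0 := hM.l y hyI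
  have h1 := hM.r y hyI
  rw [L.strip (x0, y) hyB] at h0
  rw [L.strip (x1, y) hyB] at h1
  simp only at h0 h1
  have m0 := lam_mono μ hx.1
  have m1 := lam_mono μ hx.2
  rcases hσ with rfl | rfl <;> linarith

/-- Green's formula for `w` and the approximating functions -/
theorem greenQ [IsFiniteMeasure μ] (L : LinesI a b c B σ X1 X2 μ ψ Ψ) (hσ : σ = 1 ∨ σ = -1)
    {J : ℕ → Finset Hair} {z : ℕ → ℝ × ℝ → ℝ} {κ : Hair → ℝ} {r : ℕ → ι → ℝ}
    (A : ApprQ Q S a b c B σ X1 X2 μ Ψ f J z κ r) {x0 x1 y0 y1 M : ℝ}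
    (R : GoodR a b c σ X1 X2 μ ψ Ψ x0 x1 y0 y1)
    (py0 : PYq a b μ Ψ J κ y0) (py1 : PYq a b μ Ψ J κ y1) (pr : PRq μ J x0 x1 y0 y1)
    (hM : BdLe M ψ Ψ x0 x1 y0 y1) (hB0 : y0 < B) (n : ℕ) :
    ∫ p in Ioo a b ×ˢ Ioo c B, (W2 x0 x1 y0 y1 M X1 ψ p * gx (z n) p -
      W1 x0 x1 y0 y1 M X2 Ψ p * gy (z n) p) = 0 := by
  set d := min y1 B with hd
  have hy0d : y0 < d := lt_min R.hy hB0
  have hdy1 : d ≤ y1 := min_le_left _ _
  have hdB : d ≤ B := min_le_right _ _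
  have hsub : Ioo x0 x1 ×ˢ Ioo y0 d ⊆ Ioo a b ×ˢ Ioo c B := by
    intro p hp
    exact ⟨⟨R.ha.trans hp.1.1, hp.1.2.trans R.hb⟩, ⟨R.hc.trans hp.2.1, lt_of_lt_of_le hp.2.2 hdB⟩⟩
  have hcap : (Ioo a b ×ˢ Ioo c B) ∩ Rc x0 x1 y0 y1 = Ioo x0 x1 ×ˢ Ioo y0 d := by
    ext p
    simp only [Rc, mem_inter_iff, mem_prod, mem_Ioo, hd, lt_min_iff]
    have h1 := R.ha
    have h2 := R.hb
    have h3 := R.hc
    constructor
    · rintro ⟨⟨⟨_, _⟩, _, _⟩, ⟨_, _⟩, _, _⟩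
      exact ⟨⟨by assumption, by assumption⟩, by assumption, by assumption, by assumption⟩
    · rintro ⟨⟨_, _⟩, _, _, _⟩
      exact ⟨⟨⟨by linarith, by linarith⟩, by linarith, by linarith⟩,
        ⟨by assumption, by assumption⟩, by assumption, by assumption⟩
  have hwxm : Measurable (wx M X2 Ψ) := measurable_wx M L.m2 L.mΨ
  have hh := w_hlines L hσ R hM
  have hv := w_vlines L R hM
  -- boundary conditions
  have hb : ∀ᵐ y, y ∈ Ioo y0 d → ∫ s in x0..x1, wx M X2 Ψ (s, y) = 0 := by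
    filter_upwards [hh] with y hy hyI
    obtain ⟨h1, h2, h3⟩ := hy ⟨hyI.1, lt_of_lt_of_le hyI.2 hdy1⟩
    rw [← h1 x1 ⟨R.hx.le, le_refl _⟩]
    exact max_eq_right (by linarith)
  have hd0 : ∀ᵐ x, x ∈ Ioo x0 x1 → ∫ t in y0..d, wy M X1 ψ (x, t) = 0 := by
    filter_upwards [hv] with x hx hxI
    obtain ⟨h1, h2, h3⟩ := hx hxI
    rw [← h1 d ⟨hy0d.le, hdy1⟩]
    apply max_eq_right
    rcases le_or_gt y1 B with h4 | h4
    · have : d = y1 := min_eq_left h4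
      rw [this]; linarith
    · have : d = B := min_eq_right h4.le
      rw [this, L.strip (x, B) (le_refl _)]
      have := strip_leI L hσ R hM h4 x ⟨hxI.1.le, hxI.2.le⟩
      simp only
      linarith
  have hUV : ∀ᵐ p : ℝ × ℝ, p ∈ Ioo x0 x1 ×ˢ Ioo y0 d →
      ∫ s in x0..p.1, wx M X2 Ψ (s, p.2) = ∫ t in y0..p.2, wy M X1 ψ (p.1, t) := by
    filter_upwards [ae_snd' hh, ae_fst' hv, L.E] with p h1 h2 h3 hp
    have g1 := (h1 ⟨hp.2.1, lt_of_lt_of_le hp.2.2 hdy1⟩).1 p.1 ⟨hp.1.1.le, hp.1.2.le⟩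
    have g2 := (h2 hp.1).1 p.2 ⟨hp.2.1.le, (hp.2.2.le.trans hdy1)⟩
    rw [← g1, ← g2]
    have := h3 ⟨R.ha.trans hp.1.1, hp.1.2.trans R.hb⟩ (R.hc.trans hp.2.1)
    rw [show ((p.1, p.2) : ℝ × ℝ) = p from rfl, this]
  obtain ⟨Ln, hLn, hsl0⟩ := A.sl n
  have hsl : SL ((Ioo x0 x1 ×ˢ Ioo y0 d) \ cut (J n)) Ln (z n) :=
    hsl0.mono (sdiff_subset_sdiff_left hsub)
  have hw1i : IntegrableOn (wx M X2 Ψ) (Ioo x0 x1 ×ˢ Ioo y0 d) :=
    (integrable_wx M L.L2 L.mΨ).integrableOn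
  have hw2i : IntegrableOn (wy M X1 ψ) (Ioo x0 x1 ×ˢ Ioo y0 d) :=
    (integrable_wy M L.L1 L.mψ).integrableOn
  have hκ : ∀ K ∈ J n, K.x ∈ Ioo x0 x1 → ∃ κ' : ℝ,
      (∀ᵐ y, y ∈ Ioo y0 d → y ∈ Ioo K.b K.t → ∫ s in x0..K.x, wx M X2 Ψ (s, y) = κ') ∧
      (κ' ≠ 0 → y0 < K.b ∧ K.t < d) := by
    intro K hK hKx
    by_cases hne : K.b < d ∧ y0 < K.t
    swap
    · refine ⟨0, ?_, fun h => absurd rfl h⟩
      filter_upwards with y hy hyK
      exact absurd ⟨hyK.1.trans hy.2, hy.1.trans hyK.2⟩ hne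
    by_cases hat : μ {q | q.1 = K.x ∧ q.2 < K.t} = 0
    swap
    · exfalso
      rcases pr n K hK hat hKx with h | h
      · exact absurd hne.2 (not_lt.mpr h)
      · exact absurd hne.1 (not_lt.mpr (hdy1.trans h))
    have hKab : K.x ∈ Ioo a b := ⟨R.ha.trans hKx.1, hKx.2.trans R.hb⟩
    have hKI : K.x ∈ Icc x0 x1 := ⟨hKx.1.le, hKx.2.le⟩
    obtain ⟨hT1, hT2⟩ := A.T n K hK hKab hat
    refine ⟨max (κ K - M) 0, ?_, ?_⟩
    · filter_upwards [hT1, hh] with y h1 h2 hy hyK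
      have h3 := (h2 ⟨hy.1, lt_of_lt_of_le hy.2 hdy1⟩).1 K.x hKI
      rw [← h3, h1 (R.hc.trans hy.1) hyK]
    · intro hk
      have hkM : M < κ K := by
        by_contra hcon
        exact hk (max_eq_right (by linarith))
      have hb0 : y0 < K.b := by
        by_contra hcon
        push Not at hcon
        have h1 := py0 n K hK
        have h2 := h1.2.2 hKab hat ⟨lt_of_le_of_ne hcon (fun h => h1.1 h.symm), hne.2⟩
        have h3 := hM.d K.x hKI
        rw [h2] at h3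
        exact absurd hkM (not_lt.mpr h3)
      refine ⟨hb0, ?_⟩
      by_contra hcon
      push Not at hcon
      rcases le_or_gt y1 B with h4 | h4
      · have hdy : d = y1 := min_eq_left h4
        have h1 := py1 n K hK
        have h2 := h1.2.2 hKab hat ⟨hdy ▸ hne.1, lt_of_le_of_ne (hdy ▸ hcon) h1.2.1⟩
        have h3 := hM.u K.x hKI
        rw [h2] at h3
        exact absurd hkM (not_lt.mpr h3)
      · have hdB' : d = B := min_eq_right h4.le
        have h5 := hT2 (hdB' ▸ hcon)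
        have h6 := strip_leI L hσ R hM h4 K.x hKI
        rw [h5] at hkM
        exact absurd hkM (not_lt.mpr h6)
  have green := green_hairs R.hx.le hy0d.le hLn (A.disj n) hwxm hw1i hw2i hb hd0 hUV hsl hκ
  -- restrict the indicator
  have e1 : ∀ p, W2 x0 x1 y0 y1 M X1 ψ p * gx (z n) p - W1 x0 x1 y0 y1 M X2 Ψ p * gy (z n) p =
      (Rc x0 x1 y0 y1).indicator
        (fun p => wy M X1 ψ p * gx (z n) p - wx M X2 Ψ p * gy (z n) p) p := by
    intro p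
    unfold W1 W2
    by_cases hp : p ∈ Rc x0 x1 y0 y1
    · simp only [indicator_of_mem hp]
    · simp only [indicator_of_notMem hp]; ring
  rw [setIntegral_congr_fun (measurableSet_Ioo.prod measurableSet_Ioo) (fun p _ => e1 p),
    setIntegral_indicator (measurableSet_Rc _ _ _ _), hcap]
  -- the two products are integrable
  have hbd : ∀ᵐ p ∂((volume : Measure (ℝ × ℝ)).restrict (Ioo x0 x1 ×ˢ Ioo y0 d)),
      ‖gx (z n) p‖ ≤ Ln ∧ ‖gy (z n) p‖ ≤ Ln := by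
    rw [ae_restrict_iff' (measurableSet_Ioo.prod measurableSet_Ioo)]
    have hnull : ∀ᵐ p : ℝ × ℝ, p ∉ cut (J n) := measure_eq_zero_iff_ae_notMem.mp (volume_cut (J n))
    have hop : IsOpen ((Ioo x0 x1 ×ˢ Ioo y0 d) \ cut (J n)) :=
      isOpen_diff_cut (isOpen_Ioo.prod isOpen_Ioo) _
    filter_upwards [hnull] with p hp hpR
    exact ⟨hsl.abs_gx_le hop hLn ⟨hpR, hp⟩, hsl.abs_gy_le hop hLn ⟨hpR, hp⟩⟩
  have i1 : IntegrableOn (fun p => wy M X1 ψ p * gx (z n) p) (Ioo x0 x1 ×ˢ Ioo y0 d) :=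
    Integrable.mul_bdd (μ := (volume : Measure (ℝ × ℝ)).restrict (Ioo x0 x1 ×ˢ Ioo y0 d))
      (c := Ln) hw2i (measurable_gx _).aestronglyMeasurable (hbd.mono fun p h => h.1)
  have i2 : IntegrableOn (fun p => wx M X2 Ψ p * gy (z n) p) (Ioo x0 x1 ×ˢ Ioo y0 d) :=
    Integrable.mul_bdd (μ := (volume : Measure (ℝ × ℝ)).restrict (Ioo x0 x1 ×ˢ Ioo y0 d))
      (c := Ln) hw1i (measurable_gy _).aestronglyMeasurable (hbd.mono fun p h => h.2)
  rw [integral_sub i1 i2, green, sub_self]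

end Crest.Agent.R105.Sq_87
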