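import Crest.Agent.R105.SqM_87

-- ▼ part R105/SqN_87
section

/-! Row 105, S0138, exact squares: maximum principle for the stream function on `V`.
Part 2: Thomson's principle with truncated costs. -/

open MeasureTheory Set Filter Topology
open scoped NNReal

namespace Crest.Agent.R105.Sq_87

open Crest.Agent.R105.Mp_87 (lam lam_mono Rc measurableSet_Rc restrict_Rc hline vline wx wy ae_swap
  ae_x_of_ae ae_y_of_ae ii_mono tendsto_integral_mul PXh)
open Crest.Agent.R105.CF_363 (gx gy SL cut Hair measurable_gx measurable_gy gx_congr gy_congr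
  gx_eq_deriv gy_eq_deriv isOpen_diff_cut volume_cut green_hairs)

variable {ι : Type} {Q : Rects ι} {S : Set (ℝ × ℝ)}
variable {a b c B σ : ℝ} {X1 X2 ψ Ψ : ℝ × ℝ → ℝ} {μ : Measure (ℝ × ℝ)} {f : ι → ℝ}

theorem ae_rel (L : LinesI a b c B σ X1 X2 μ ψ Ψ) (x0 x1 y0 y1 M : ℝ) :
    ∀ᵐ p : ℝ × ℝ, p ∈ Ioo a b ×ˢ Ioo c B →
      (W1 x0 x1 y0 y1 M X2 Ψ p = -X2 p ∧ W2 x0 x1 y0 y1 M X1 ψ p = X1 p) ∨
      (W1 x0 x1 y0 y1 M X2 Ψ p = 0 ∧ W2 x0 x1 y0 y1 M X1 ψ p = 0) := by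
  filter_upwards [L.E] with p hp hpB
  have he := hp hpB.1 hpB.2.1
  unfold W1 W2
  by_cases h : p ∈ Rc x0 x1 y0 y1
  · rw [indicator_of_mem h, indicator_of_mem h]
    unfold wx wy
    rw [he]
    by_cases h2 : M < ψ p
    · left; simp [h2]
    · right; simp [h2]
  · right
    rw [indicator_of_notMem h, indicator_of_notMem h]
    exact ⟨rfl, rfl⟩

theorem af_add_le (L : LinesI a b c B σ X1 X2 μ ψ Ψ) (D : SqData Q S a b c B X1 X2 μ f)
    (x0 x1 y0 y1 M : ℝ) (i : ι) {ε : ℝ} (hε : 0 < ε) (hε4 : ε ≤ 1 / 4) :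
    af Q i (fun p => -X2 p - W1 x0 x1 y0 y1 M X2 Ψ p) (fun p => X1 p - W2 x0 x1 y0 y1 M X1 ψ p) ε +
      af Q i (W1 x0 x1 y0 y1 M X2 Ψ) (W2 x0 x1 y0 y1 M X1 ψ) ε ≤ 2 * f i := by
  refine le_trans (le_of_eq ?_) (D.F2 i ε hε hε4)
  unfold af
  rw [← mul_add]
  congr 1
  have iW1 := integrable_W1 x0 x1 y0 y1 M L.L2 L.mΨ
  have iW2 := integrable_W2 x0 x1 y0 y1 M L.L1 L.mψ
  have hgm : Measurable (Q.gau i) := by
    have hSL : SL univ ((Q.h1 i)⁻¹ + (Q.h2 i)⁻¹) (Q.gau i) := fun p q _ => Q.gau_lip i p q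
    exact (continuous_iff_continuousAt.mpr fun p =>
      hSL.continuousAt isOpen_univ (mem_univ p)).measurable
  have j1 : IntegrableOn (dn (Q.gau i) (fun p => -X2 p - W1 x0 x1 y0 y1 M X2 Ψ p)
      (fun p => X1 p - W2 x0 x1 y0 y1 M X1 ψ p)) (Q.op i ∩ ann (Q.gau i) ε) :=
    integrableOn_dn (gau_const_nonneg Q i) (Q.gau_lip i)
      ((L.L2.neg.sub iW1).integrableOn) ((L.L1.sub iW2).integrableOn)
  have j2 : IntegrableOn (dn (Q.gau i) (W1 x0 x1 y0 y1 M X2 Ψ) (W2 x0 x1 y0 y1 M X1 ψ))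
      (Q.op i ∩ ann (Q.gau i) ε) :=
    integrableOn_dn (gau_const_nonneg Q i) (Q.gau_lip i) iW1.integrableOn iW2.integrableOn
  rw [← integral_add j1.abs j2.abs]
  apply integral_congr_ae
  rw [EventuallyEq, ae_restrict_iff' ((Q.measurableSet_op i).inter (measurableSet_ann hgm ε))]
  filter_upwards [ae_rel L x0 x1 y0 y1 M] with p hp hpi
  rcases hp (D.box i hpi.1) with ⟨h1, h2⟩ | ⟨h1, h2⟩
  · simp only [dn, h1, h2]
    rw [show (X1 p - X1 p) * gx (Q.gau i) p - (-X2 p - -X2 p) * gy (Q.gau i) p = 0 by ring, abs_zero,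
      zero_add]
    congr 1; ring
  · simp only [dn, h1, h2]
    rw [show (0 : ℝ) * gx (Q.gau i) p - 0 * gy (Q.gau i) p = 0 by ring, abs_zero, add_zero]
    congr 1; ring

theorem grad_bd {J : ℕ → Finset Hair} {z : ℕ → ℝ × ℝ → ℝ} {κ : Hair → ℝ} {r : ℕ → ι → ℝ}
    (A : ApprQ Q S a b c B σ X1 X2 μ Ψ f J z κ r) (n : ℕ) :
    ∃ Ln : ℝ, 0 ≤ Ln ∧ ∀ᵐ p ∂((volume : Measure (ℝ × ℝ)).restrict (Ioo a b ×ˢ Ioo c B)),
      ‖gx (z n) p‖ ≤ Ln ∧ ‖gy (z n) p‖ ≤ Ln := by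
  obtain ⟨Ln, hLn, hsl⟩ := A.sl n
  refine ⟨Ln, hLn, ?_⟩
  rw [ae_restrict_iff' (measurableSet_Ioo.prod measurableSet_Ioo)]
  have hnull : ∀ᵐ p : ℝ × ℝ, p ∉ cut (J n) := measure_eq_zero_iff_ae_notMem.mp (volume_cut (J n))
  have hop : IsOpen ((Ioo a b ×ˢ Ioo c B) \ cut (J n)) :=
    isOpen_diff_cut (isOpen_Ioo.prod isOpen_Ioo) _
  filter_upwards [hnull] with p hp hpR
  exact ⟨hsl.abs_gx_le hop hLn ⟨hpR, hp⟩, hsl.abs_gy_le hop hLn ⟨hpR, hp⟩⟩

theorem lip_op (D : SqData Q S a b c B X1 X2 μ f)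
    {J : ℕ → Finset Hair} {z : ℕ → ℝ × ℝ → ℝ} {κ : Hair → ℝ} {r : ℕ → ι → ℝ}
    (A : ApprQ Q S a b c B σ X1 X2 μ Ψ f J z κ r) (n : ℕ) :
    ∃ Ln : ℝ, 0 ≤ Ln ∧ ∀ i, ∀ p ∈ Q.op i, ∀ q ∈ Q.op i, |z n p - z n q| ≤ Ln * dist p q := by
  obtain ⟨Ln, hLn, hsl⟩ := A.sl n
  refine ⟨Ln, hLn, fun i p hp q hq => ?_⟩
  apply hsl p q
  have hconv : Convex ℝ (Q.op i) := (convex_Ioo _ _).prod (convex_Ioo _ _)
  intro s hs
  have hsi := hconv.segment_subset hp hq hs
  exact ⟨D.box i hsi, fun h => Set.disjoint_left.mp (A.dq n i) h hsi⟩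

/-- **Thomson's principle with truncated costs.** -/
theorem thomson [IsFiniteMeasure μ] [Countable ι] (L : LinesI a b c B σ X1 X2 μ ψ Ψ)
    (hσ : σ = 1 ∨ σ = -1) (D : SqData Q S a b c B X1 X2 μ f)
    {J : ℕ → Finset Hair} {z : ℕ → ℝ × ℝ → ℝ} {κ : Hair → ℝ} {r : ℕ → ι → ℝ}
    (A : ApprQ Q S a b c B σ X1 X2 μ Ψ f J z κ r) {x0 x1 y0 y1 M : ℝ}
    (R : GoodR a b c σ X1 X2 μ ψ Ψ x0 x1 y0 y1)
    (py0 : PYq a b μ Ψ J κ y0) (py1 : PYq a b μ Ψ J κ y1) (pr : PRq μ J x0 x1 y0 y1)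
    (hM : BdLe M ψ Ψ x0 x1 y0 y1) (hB0 : y0 < B) (hS : volume (S ∩ Rc x0 x1 y0 y1) = 0) :
    (∀ᵐ p : ℝ × ℝ, p ∈ (Ioo a b ×ˢ Ioo c B) \ (Q.un ∪ S) → W1 x0 x1 y0 y1 M X2 Ψ p = 0) ∧
    ∀ j, ∀ δ, 0 < δ → ∃ᶠ n in atTop,
      af Q j (W1 x0 x1 y0 y1 M X2 Ψ) (W2 x0 x1 y0 y1 M X1 ψ) (wd n) ≤ δ := by
  set w1 := W1 x0 x1 y0 y1 M X2 Ψ with hw1
  set w2 := W2 x0 x1 y0 y1 M X1 ψ with hw2
  set BB : Set (ℝ × ℝ) := Ioo a b ×ˢ Ioo c B with hBB
  have hmBB : MeasurableSet BB := measurableSet_Ioo.prod measurableSet_Ioo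
  set DD : Set (ℝ × ℝ) := BB \ (Q.un ∪ S) with hDD
  have hmDD : MeasurableSet DD := hmBB.diff (Q.measurableSet_un.union D.mS)
  have hfinBB : volume BB ≠ ⊤ := by
    rw [hBB, Measure.volume_eq_prod, Measure.prod_prod, Real.volume_Ioo, Real.volume_Ioo]
    exact ENNReal.mul_ne_top ENNReal.ofReal_ne_top ENNReal.ofReal_ne_top
  have hfin : IsFiniteMeasure ((volume : Measure (ℝ × ℝ)).restrict DD) := by
    refine ⟨?_⟩
    rw [Measure.restrict_apply_univ]
    exact lt_of_le_of_lt (measure_mono sdiff_subset) (lt_top_iff_ne_top.mpr hfinBB)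
  have hw1m : Measurable w1 := measurable_W1 _ _ _ _ _ L.m2 L.mΨ
  have hw2m : Measurable w2 := (measurable_wy M L.m1 L.mψ).indicator (measurableSet_Rc _ _ _ _)
  have iw1 : Integrable w1 (volume : Measure (ℝ × ℝ)) := integrable_W1 _ _ _ _ _ L.L2 L.mΨ
  have iw2 : Integrable w2 (volume : Measure (ℝ × ℝ)) := integrable_W2 _ _ _ _ _ L.L1 L.mψ
  have hrel := ae_rel L x0 x1 y0 y1 M
  have hDsub : DD ⊆ (Q.un ∪ S)ᶜ := fun p hp => hp.2
  have hX1D : MemLp X1 2 ((volume : Measure (ℝ × ℝ)).restrict DD) :=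
    D.V1.mono_measure (Measure.restrict_mono hDsub le_rfl)
  have hX2D : MemLp X2 2 ((volume : Measure (ℝ × ℝ)).restrict DD) :=
    D.V2.mono_measure (Measure.restrict_mono hDsub le_rfl)
  have hrelD : ∀ᵐ p ∂((volume : Measure (ℝ × ℝ)).restrict DD),
      (w1 p = -X2 p ∧ w2 p = X1 p) ∨ (w1 p = 0 ∧ w2 p = 0) := by
    rw [ae_restrict_iff' hmDD]
    filter_upwards [hrel] with p hp hpD
    exact hp hpD.1
  have hw1D : MemLp w1 2 ((volume : Measure (ℝ × ℝ)).restrict DD) := by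
    refine hX2D.of_le hw1m.aestronglyMeasurable ?_
    filter_upwards [hrelD] with p hp
    rcases hp with ⟨h1, _⟩ | ⟨h1, _⟩
    · rw [h1, norm_neg]
    · rw [h1, norm_zero]; exact norm_nonneg _
  have hw2D : MemLp w2 2 ((volume : Measure (ℝ × ℝ)).restrict DD) := by
    refine hX1D.of_le hw2m.aestronglyMeasurable ?_
    filter_upwards [hrelD] with p hp
    rcases hp with ⟨_, h1⟩ | ⟨_, h1⟩
    · rw [h1]
    · rw [h1, norm_zero]; exact norm_nonneg _
  -- complement costs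
  set u1 : ℝ × ℝ → ℝ := fun p => -X2 p - w1 p with hu1
  set u2 : ℝ × ℝ → ℝ := fun p => X1 p - w2 p with hu2
  have hσ' : |σ| = 1 := by rcases hσ with h | h <;> rw [h] <;> simp
  have hsum : ∀ i n, af Q i u1 u2 (wd n) + af Q i w1 w2 (wd n) ≤ 2 * f i := fun i n =>
    af_add_le L D x0 x1 y0 y1 M i (wd_pos n) (wd_le n)
  have hu0 : ∀ i n, 0 ≤ af Q i u1 u2 (wd n) := fun i n => af_nonneg Q i u1 u2 (wd_pos n)
  have hw0 : ∀ i n, 0 ≤ af Q i w1 w2 (wd n) := fun i n => af_nonneg Q i w1 w2 (wd_pos n)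
  have huC : ∀ i n, af Q i u1 u2 (wd n) ≤ 2 * f i := fun i n => by linarith [hsum i n, hw0 i n]
  set l : ι → ℝ := fun i => lowlim (fun n => af Q i u1 u2 (wd n)) with hl
  have hl0 : ∀ i, 0 ≤ l i := fun i => lowlim_nonneg (hu0 i) (huC i)
  have hlC : ∀ i, l i ≤ 2 * f i := fun i => lowlim_le (hu0 i) (huC i)
  have hacl : ∀ i, ACL (Q.x i - Q.h1 i) (Q.x i + Q.h1 i) (Q.y i - Q.h2 i) (Q.y i + Q.h2 i) u1 u2
      (fun p => Ψ p - U1 x0 x1 y0 y1 M Ψ p) (fun p => ψ p - U1 x0 x1 y0 y1 M ψ p) := fun i =>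
    ACL.sub (hx_le Q i) (hy_le Q i) (acl_psi L hσ' D i) (acl_w L hσ D R hM i)
  have hr0 : ∀ n i, 0 ≤ r n i := by
    intro n i
    obtain ⟨k, hk⟩ := A.osc n i
    have := hk (Q.x i, Q.y i) ⟨cx_mem Q i, cy_mem Q i⟩
    linarith [abs_nonneg (z n (Q.x i, Q.y i) - k)]
  -- integrability of the products
  have hprod : ∀ (v1 v2 : ℝ × ℝ → ℝ), Integrable v1 (volume : Measure (ℝ × ℝ)) →
      Integrable v2 (volume : Measure (ℝ × ℝ)) → ∀ n,
      IntegrableOn (fun p => v2 p * gx (z n) p - v1 p * gy (z n) p) BB := by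
    intro v1 v2 h1 h2 n
    obtain ⟨Ln, hLn, hbd⟩ := grad_bd A n
    have e1 : IntegrableOn (fun p => v2 p * gx (z n) p) BB :=
      Integrable.mul_bdd (μ := (volume : Measure (ℝ × ℝ)).restrict BB) (c := Ln) h2.integrableOn
        (measurable_gx _).aestronglyMeasurable (hbd.mono fun p h => h.1)
    have e2 : IntegrableOn (fun p => v1 p * gy (z n) p) BB :=
      Integrable.mul_bdd (μ := (volume : Measure (ℝ × ℝ)).restrict BB) (c := Ln) h1.integrableOn
        (measurable_gy _).aestronglyMeasurable (hbd.mono fun p h => h.2)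
    exact e1.sub e2
  have hunBB : Q.un ⊆ BB := iUnion_subset fun i => D.box i
  set G : ℕ → ℝ × ℝ → ℝ := fun n p => w2 p * gx (z n) p - w1 p * gy (z n) p with hG
  have hGi : ∀ n, IntegrableOn (G n) BB := fun n => hprod w1 w2 iw1 iw2 n
  set T : ℕ → ι → ℝ := fun n i => ∫ p in Q.op i, G n p with hT
  set Fl : ℕ → ι → ℝ := fun n i => ∫ p in Q.op i, (X1 p * gx (z n) p + X2 p * gy (z n) p) with hFl
  have hTsum : ∀ n, HasSum (T n) (∫ p in Q.un, G n p) := fun n =>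
    hasSum_integral_iUnion (fun i => Q.measurableSet_op i) D.dis ((hGi n).mono_set hunBB)
  have hXi : ∀ n, IntegrableOn (fun p => X1 p * gx (z n) p + X2 p * gy (z n) p) BB := by
    intro n
    have := hprod (fun p => -X2 p) X1 L.L2.neg L.L1 n
    refine this.congr (Eventually.of_forall fun p => ?_)
    simp only; ring
  have hFsum : ∀ n, Summable (Fl n) := fun n =>
    (hasSum_integral_iUnion (fun i => Q.measurableSet_op i) D.dis
      ((hXi n).mono_set hunBB)).summable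
  have hFsum' : ∀ n, Summable (fun i => f i * r n i - Fl n i) := fun n =>
    (A.r2 n).sub (hFsum n)
  -- per square
  have hsq : ∀ n i, (f i - l i / 2) * r n i ≤ T n i + (f i * r n i - Fl n i) := by
    intro n i
    obtain ⟨Ln, hLn, hlip⟩ := lip_op D A n
    obtain ⟨k, hk⟩ := A.osc n i
    have h1 := sq_lowlim i (hacl i) hLn (hlip i) (D := r n i / 2) (by linarith [hr0 n i]) hk (huC i)
    have hsubi : Q.op i ⊆ BB := D.box i
    have h2 : ∫ p in Q.op i, (u2 p * gx (z n) p - u1 p * gy (z n) p) = Fl n i - T n i := by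
      simp only [hFl, hT]
      rw [← integral_sub ((hXi n).mono_set hsubi) ((hGi n).mono_set hsubi)]
      congr 1; ext p
      simp only [hu1, hu2, hG]; ring
    rw [h2] at h1
    have h3 := (abs_le.mp h1).2
    have h4 : r n i / 2 * l i = l i / 2 * r n i := by ring
    have h5 : r n i / 2 * lowlim (fun n => af Q i u1 u2 (wd n)) = l i / 2 * r n i := h4
    rw [h5] at h3
    linarith
  have hsq0 : ∀ n i, 0 ≤ T n i + (f i * r n i - Fl n i) := by
    intro n i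
    refine le_trans (mul_nonneg ?_ (hr0 n i)) (hsq n i)
    linarith [hlC i]
  have hgreen := fun n => greenQ L hσ A R py0 py1 pr hM hB0 n
  -- splitting
  have hsplit : ∀ n, (∫ p in DD, G n p) + ∑' i, (T n i + (f i * r n i - Fl n i)) -
      ∑' i, (f i * r n i - Fl n i) = 0 := by
    intro n
    have e1 : ∫ p in BB, G n p = (∫ p in Q.un, G n p) + ∫ p in BB \ Q.un, G n p := by
      have := integral_inter_add_sdiff (μ := (volume : Measure (ℝ × ℝ))) (f := G n) (s := BB)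
        Q.measurableSet_un (hGi n)
      rw [inter_eq_right.mpr hunBB] at this
      exact this.symm
    have e2 : ∫ p in BB \ Q.un, G n p = ∫ p in DD, G n p := by
      apply setIntegral_eq_of_subset_of_ae_sdiff_eq_zero
        (hmBB.diff Q.measurableSet_un).nullMeasurableSet
      · intro p hp
        exact ⟨hp.1, fun h => hp.2 (Or.inl h)⟩
      · have hnull : ∀ᵐ p : ℝ × ℝ, p ∉ S ∩ Rc x0 x1 y0 y1 := measure_eq_zero_iff_ae_notMem.mp hS
        filter_upwards [hnull] with p hp hpd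
        have hpS : p ∈ S := by
          by_contra hcon
          exact hpd.2 ⟨hpd.1.1, fun h => h.elim hpd.1.2 hcon⟩
        have hpR : p ∉ Rc x0 x1 y0 y1 := fun h => hp ⟨hpS, h⟩
        have z1 : w1 p = 0 := indicator_of_notMem hpR _
        have z2 : w2 p = 0 := indicator_of_notMem hpR _
        simp only [hG, z1, z2]; ring
    have e3 := hgreen n
    have e3' : ∫ p in BB, G n p = 0 := e3
    rw [e1, e2, ← (hTsum n).tsum_eq] at e3'
    rw [(hTsum n).summable.tsum_add (hFsum' n)]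
    linarith
  -- limits
  have hgL : ∀ n, MemLp (gx (z n)) 2 ((volume : Measure (ℝ × ℝ)).restrict DD) ∧
      MemLp (gy (z n)) 2 ((volume : Measure (ℝ × ℝ)).restrict DD) := by
    intro n
    obtain ⟨Ln, hLn, hbd⟩ := grad_bd A n
    have hbd' := ae_restrict_of_ae_restrict_of_subset (sdiff_subset : DD ⊆ BB) hbd
    exact ⟨MemLp.of_bound (measurable_gx _).aestronglyMeasurable Ln (hbd'.mono fun p h => h.1),
      MemLp.of_bound (measurable_gy _).aestronglyMeasurable Ln (hbd'.mono fun p h => h.2)⟩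
  have t1 := tendsto_integral_mul hw2D (fun n => (hgL n).1) hX1D A.c1
  have t2 := tendsto_integral_mul hw1D (fun n => (hgL n).2) hX2D A.c2
  have t3 : Tendsto (fun n => ∫ p in DD, G n p) atTop
      (𝓝 ((∫ p in DD, w2 p * X1 p) - ∫ p in DD, w1 p * X2 p)) := by
    refine (t1.sub t2).congr fun n => ?_
    have k1 : Integrable (fun p => w2 p * gx (z n) p) (volume.restrict DD) :=
      hw2D.integrable_mul (hgL n).1
    have k2 : Integrable (fun p => w1 p * gy (z n) p) (volume.restrict DD) :=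
      hw1D.integrable_mul (hgL n).2
    exact (integral_sub k1 k2).symm
  set e0 := (∫ p in DD, w2 p * X1 p) - ∫ p in DD, w1 p * X2 p with he0
  have kk1 : Integrable (fun p => w2 p * X1 p) (volume.restrict DD) := hw2D.integrable_mul hX1D
  have kk2 : Integrable (fun p => w1 p * X2 p) (volume.restrict DD) := hw1D.integrable_mul hX2D
  have e0' : e0 = ∫ p in DD, (w2 p * X1 p - w1 p * X2 p) := (integral_sub kk1 kk2).symm
  have hnn : 0 ≤ᵐ[(volume : Measure (ℝ × ℝ)).restrict DD] fun p => w2 p * X1 p - w1 p * X2 p := by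
    filter_upwards [hrelD] with p hp
    rcases hp with ⟨h1, h2⟩ | ⟨h1, h2⟩
    · rw [h1, h2]; simp only [Pi.zero_apply]; nlinarith [sq_nonneg (X1 p), sq_nonneg (X2 p)]
    · rw [h1, h2]; simp
  have he0nn : 0 ≤ e0 := by rw [e0']; exact integral_nonneg_of_ae hnn
  have he0le : e0 ≤ 0 := by
    have h1 : ∀ n, (∫ p in DD, G n p) - ∑' i, (f i * r n i - Fl n i) ≤ 0 := by
      intro n
      have h2 := hsplit n
      have h3 : 0 ≤ ∑' i, (T n i + (f i * r n i - Fl n i)) := tsum_nonneg (hsq0 n)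
      linarith
    have h4 := t3.sub A.r3
    rw [sub_zero] at h4
    exact le_of_tendsto' h4 h1
  have hj : ∀ j, e0 + (f j - l j / 2) * f j ≤ 0 := by
    intro j
    have h1 : ∀ n, (∫ p in DD, G n p) + (f j - l j / 2) * r n j -
        ∑' i, (f i * r n i - Fl n i) ≤ 0 := by
      intro n
      have h2 := hsplit n
      have h3 : T n j + (f j * r n j - Fl n j) ≤ ∑' i, (T n i + (f i * r n i - Fl n i)) :=
        ((hTsum n).summable.add (hFsum' n)).le_tsum j (fun i _ => hsq0 n i)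
      have h4 := hsq n j
      linarith
    have h5 := (t3.add ((A.r1 j).const_mul (f j - l j / 2))).sub A.r3
    rw [sub_zero] at h5
    exact le_of_tendsto' h5 h1
  have he0z : e0 = 0 := le_antisymm he0le he0nn
  constructor
  · -- w1 = 0 on DD
    rw [e0'] at he0z
    have h1 := (integral_eq_zero_iff_of_nonneg_ae hnn
      (kk1.sub kk2)).mp he0z
    have h2 : ∀ᵐ p ∂((volume : Measure (ℝ × ℝ)).restrict DD), w1 p = 0 := by
      filter_upwards [h1, hrelD] with p hp hpr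
      rcases hpr with ⟨k1, k2⟩ | ⟨k1, _⟩
      · rw [k1, k2] at hp
        simp only [Pi.zero_apply] at hp
        have : X2 p = 0 := by nlinarith [sq_nonneg (X1 p), sq_nonneg (X2 p)]
        rw [k1, this, neg_zero]
      · exact k1
    exact (ae_restrict_iff' hmDD).mp h2
  · intro j δ hδ
    have h1 := hj j
    rw [he0z, zero_add] at h1
    rcases eq_or_lt_of_le (D.f0 j) with h0 | h0
    · refine Frequently.of_forall fun n => ?_
      have h2 := hsum j n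
      rw [← h0] at h2
      linarith [hu0 j n]
    · have h2 : 2 * f j ≤ l j := by
        by_contra hcon
        push Not at hcon
        have : 0 < (f j - l j / 2) * f j := mul_pos (by linarith) h0
        linarith
      have h3 : 2 * f j - δ < lowlim (fun n => af Q j u1 u2 (wd n)) := by
        have : 2 * f j ≤ lowlim (fun n => af Q j u1 u2 (wd n)) := h2
        linarith
      have h4 := lt_lowlim (hu0 j) h3
      exact (h4.mono fun n hn => by linarith [hsum j n]).frequently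

end Crest.Agent.R105.Sq_87
end

-- ▼ part R105/SqO_87
section

/-! Row 105, S0138, exact squares: maximum principle for the stream function on `V`.
Part 3: `ψ ≤ M` almost everywhere off the squares. -/

open MeasureTheory Set Filter Topology
open scoped NNReal

namespace Crest.Agent.R105.Sq_87

open Crest.Agent.R105.Mp_87 (lam lam_mono Rc measurableSet_Rc restrict_Rc hline vline wx wy ae_swap
  ae_x_of_ae ae_y_of_ae ii_mono tendsto_integral_mul PXh)
open Crest.Agent.R105.CF_363 (gx gy SL cut Hair measurable_gx measurable_gy gx_congr gy_congr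
  gx_eq_deriv gy_eq_deriv isOpen_diff_cut volume_cut green_hairs)

variable {ι : Type} {Q : Rects ι} {S : Set (ℝ × ℝ)}
variable {a b c B σ : ℝ} {X1 X2 ψ Ψ : ℝ × ℝ → ℝ} {μ : Measure (ℝ × ℝ)} {f : ι → ℝ}

/-- a function on a line, zero off the sections of the squares and with integral zero over each
section, has integral zero over `(-∞, x)` if `x` is not in a section -/
theorem line_zero [Countable ι] (hd : Pairwise (fun i j => Disjoint (Q.op i) (Q.op j)))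
    {y : ℝ} {w : ℝ → ℝ} (hw : Integrable w)
    (h0 : ∀ᵐ s : ℝ, (s, y) ∉ Q.un → w s = 0)
    (hj : ∀ j, y ∈ Ioo (Q.y j - Q.h2 j) (Q.y j + Q.h2 j) →
      ∫ s in Ioo (Q.x j - Q.h1 j) (Q.x j + Q.h1 j), w s = 0)
    {x : ℝ} (hx : (x, y) ∉ Q.un) : ∫ s in Iio x, w s = 0 := by
  classical
  set T : ι → Set ℝ := fun j =>
    if y ∈ Ioo (Q.y j - Q.h2 j) (Q.y j + Q.h2 j) ∧ Q.x j + Q.h1 j ≤ x then
      Ioo (Q.x j - Q.h1 j) (Q.x j + Q.h1 j) else ∅ with hT
  have hTm : ∀ j, MeasurableSet (T j) := by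
    intro j
    simp only [hT]
    split_ifs
    · exact measurableSet_Ioo
    · exact MeasurableSet.empty
  have hmem : ∀ j s, s ∈ T j → (s, y) ∈ Q.op j ∧ s < x := by
    intro j s hs
    simp only [hT] at hs
    split_ifs at hs with h
    · exact ⟨⟨hs, h.1⟩, lt_of_lt_of_le hs.2 h.2⟩
    · exact absurd hs (notMem_empty s)
  have hsub : (⋃ j, T j) ⊆ Iio x := iUnion_subset fun j s hs => (hmem j s hs).2
  have hTd : Pairwise (Function.onFun Disjoint T) := by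
    intro i j hij
    rw [Function.onFun, Set.disjoint_left]
    intro s hi hj'
    exact Set.disjoint_left.mp (hd hij) (hmem i s hi).1 (hmem j s hj').1
  rw [setIntegral_eq_of_subset_of_ae_sdiff_eq_zero measurableSet_Iio.nullMeasurableSet hsub]
  · rw [integral_iUnion hTm hTd hw.integrableOn]
    have : ∀ j, ∫ s in T j, w s = 0 := by
      intro j
      by_cases h : y ∈ Ioo (Q.y j - Q.h2 j) (Q.y j + Q.h2 j) ∧ Q.x j + Q.h1 j ≤ x
      · have : T j = Ioo (Q.x j - Q.h1 j) (Q.x j + Q.h1 j) := by simp only [hT]; exact if_pos h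
        rw [this]; exact hj j h.1
      · have : T j = ∅ := by simp only [hT]; exact if_neg h
        rw [this]; simp
    simp [this]
  · filter_upwards [h0] with s hs hsd
    apply hs
    intro hun
    obtain ⟨j, hj'⟩ := mem_iUnion.mp hun
    apply hsd.2
    refine mem_iUnion.mpr ⟨j, ?_⟩
    have hxj : Q.x j + Q.h1 j ≤ x := by
      by_contra hcon
      push Not at hcon
      apply hx
      refine mem_iUnion.mpr ⟨j, ⟨?_, hj'.2⟩⟩
      have : s < x := hsd.1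
      exact ⟨lt_trans hj'.1.1 this, hcon⟩
    have : T j = Ioo (Q.x j - Q.h1 j) (Q.x j + Q.h1 j) := by
      simp only [hT]; exact if_pos ⟨hj'.2, hxj⟩
    rw [this]
    exact hj'.1

/-- **Maximum principle with squares.** -/
theorem mpq [IsFiniteMeasure μ] [Countable ι] (L : LinesI a b c B σ X1 X2 μ ψ Ψ)
    (hσ : σ = 1 ∨ σ = -1) (D : SqData Q S a b c B X1 X2 μ f)
    {J : ℕ → Finset Hair} {z : ℕ → ℝ × ℝ → ℝ} {κ : Hair → ℝ} {r : ℕ → ι → ℝ}
    (A : ApprQ Q S a b c B σ X1 X2 μ Ψ f J z κ r) {x0 x1 y0 y1 M : ℝ}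
    (R : GoodR a b c σ X1 X2 μ ψ Ψ x0 x1 y0 y1)
    (py0 : PYq a b μ Ψ J κ y0) (py1 : PYq a b μ Ψ J κ y1) (pr : PRq μ J x0 x1 y0 y1)
    (hM : BdLe M ψ Ψ x0 x1 y0 y1) (hS : volume (S ∩ Rc x0 x1 y0 y1) = 0) :
    ∀ᵐ p : ℝ × ℝ, p ∈ Rc x0 x1 y0 y1 → p ∉ Q.un → ψ p ≤ M := by
  rcases le_or_gt B y0 with hB0 | hB0
  · filter_upwards with p hp _
    rw [L.strip p (hB0.trans hp.2.1.le)]
    exact strip_leI L hσ R hM (lt_of_le_of_lt hB0 R.hy) p.1 ⟨hp.1.1.le, hp.1.2.le⟩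
  obtain ⟨hw, hf⟩ := thomson L hσ D A R py0 py1 pr hM hB0 hS
  have hsec : ∀ᵐ y, ∀ j, y ∈ Ioo (Q.y j - Q.h2 j) (Q.y j + Q.h2 j) →
      ∫ s in Ioo (Q.x j - Q.h1 j) (Q.x j + Q.h1 j), W1 x0 x1 y0 y1 M X2 Ψ (s, y) = 0 := by
    rw [ae_all_iff]
    intro j
    exact section_zero j (acl_w L hσ D R hM j) (hf j)
  have hnull : ∀ᵐ p : ℝ × ℝ, p ∉ S ∩ Rc x0 x1 y0 y1 := measure_eq_zero_iff_ae_notMem.mp hS
  have hline0 : ∀ᵐ y, y ∈ Ioo y0 y1 → ∀ x ∈ Ioo x0 x1, (x, y) ∉ Q.un → Ψ (x, y) ≤ M := by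
    filter_upwards [w_hglobal L hσ R hM, ae_y_of_ae' hw, ae_y_of_ae' hnull, hsec,
      ae_int_y (integrable_W1 x0 x1 y0 y1 M L.L2 L.mΨ)] with y h1 h2 h3 h4 h5 hy x hx hxu
    have h0 : ∀ᵐ s : ℝ, (s, y) ∉ Q.un → W1 x0 x1 y0 y1 M X2 Ψ (s, y) = 0 := by
      filter_upwards [h2, h3] with s k2 k3 hs
      by_cases hR : (s, y) ∈ Rc x0 x1 y0 y1
      · rcases lt_or_ge y B with hyB | hyB
        · apply k2
          refine ⟨⟨⟨R.ha.trans hR.1.1, hR.1.2.trans R.hb⟩, R.hc.trans hy.1, hyB⟩, ?_⟩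
          rintro (h | h)
          · exact hs h
          · exact k3 ⟨h, hR⟩
        · unfold W1
          rw [indicator_of_mem hR]
          unfold wx
          rw [A.X2B (s, y) hyB]
          simp
      · exact indicator_of_notMem hR _
    have key := line_zero D.dis h5 h0 h4 hxu
    have e1 := h1 x0 x
    have e2 : ∫ s in x0..x, W1 x0 x1 y0 y1 M X2 Ψ (s, y) = ∫ s in Iio x,
        W1 x0 x1 y0 y1 M X2 Ψ (s, y) := by
      rw [intervalIntegral.integral_of_le hx.1.le, integral_Ioc_eq_integral_Ioo]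
      symm
      apply setIntegral_eq_of_subset_of_ae_sdiff_eq_zero measurableSet_Iio.nullMeasurableSet
        (fun s hs => hs.2)
      filter_upwards with s hs
      apply indicator_of_notMem
      intro hR
      exact hs.2 ⟨hR.1.1, hs.1⟩
    rw [e2, key] at e1
    have e3 : U1 x0 x1 y0 y1 M Ψ (x0, y) = 0 :=
      indicator_of_notMem (fun h => absurd h.1.1 (lt_irrefl _)) _
    have e4 : U1 x0 x1 y0 y1 M Ψ (x, y) = max (Ψ (x, y) - M) 0 :=
      indicator_of_mem (show (x, y) ∈ Rc x0 x1 y0 y1 from ⟨hx, hy⟩) _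
    rw [e3, e4, sub_zero] at e1
    have := le_max_left (Ψ (x, y) - M) 0
    linarith
  filter_upwards [ae_snd' hline0, L.E] with p h1 h2 hpR hpu
  have h3 := h1 hpR.2 p.1 hpR.1 hpu
  rw [show ((p.1, p.2) : ℝ × ℝ) = p from rfl,
    h2 ⟨R.ha.trans hpR.1.1, hpR.1.2.trans R.hb⟩ (R.hc.trans hpR.2.1)] at h3
  exact h3

end Crest.Agent.R105.Sq_87
end

-- ▼ part R105/SqP_87

/-! Row 105, S0138, exact squares: oscillation estimate for the stream function. -/

open MeasureTheory Set Filter Topology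
open scoped NNReal

namespace Crest.Agent.R105.Sq_87

open Crest.Agent.R105.Mp_87 (lam lam_mono Rc measurableSet_Rc restrict_Rc hline vline wx wy ae_swap
  ae_x_of_ae ae_y_of_ae ii_mono tendsto_integral_mul PXh abs_ii_le setIntegral_swap)
open Crest.Agent.R105.CF_363 (gx gy SL cut Hair measurable_gx measurable_gy gx_congr gy_congr
  gx_eq_deriv gy_eq_deriv isOpen_diff_cut volume_cut green_hairs)

variable {ι : Type} {Q : Rects ι} {S : Set (ℝ × ℝ)}
variable {a b c B σ : ℝ} {X1 X2 ψ Ψ : ℝ × ℝ → ℝ} {μ : Measure (ℝ × ℝ)} {f : ι → ℝ}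

theorem LinesI.neg (L : LinesI a b c B σ X1 X2 μ ψ Ψ) :
    LinesI a b c B (-σ) (fun p => -X1 p) (fun p => -X2 p) μ (fun p => -ψ p) (fun p => -Ψ p) where
  mψ := L.mψ.neg
  mΨ := L.mΨ.neg
  m1 := L.m1.neg
  m2 := L.m2.neg
  L1 := L.L1.neg
  L2 := L.L2.neg
  strip := by intro p hp; rw [L.strip p hp]; ring
  V := by
    filter_upwards [L.V] with x hx hxI y y' hy hyy'
    rw [intervalIntegral.integral_neg, ← hx hxI y y' hy hyy']; ring
  H := by
    filter_upwards [L.H] with y hy hc x hx x' hx' hxx'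
    rw [intervalIntegral.integral_neg]
    have := hy hc x hx x' hx' hxx'
    linarith
  E := by
    filter_upwards [L.E] with p hp h1 h2
    rw [hp h1 h2]
  S := by
    filter_upwards [L.S] with y hy hc
    have : {q : ℝ × ℝ | q.2 < y ∧ μ {q2 | q2.1 = q.1 ∧ q2.2 < y} = 0 ∧
        -Ψ (q.1, y) ≠ - -σ * lam μ q.1} =
        {q : ℝ × ℝ | q.2 < y ∧ μ {q2 | q2.1 = q.1 ∧ q2.2 < y} = 0 ∧
        Ψ (q.1, y) ≠ -σ * lam μ q.1} := by
      ext q
      simp only [mem_ofPred_eq, ne_eq, and_congr_right_iff]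
      intro _ _
      constructor
      · intro h h'; apply h; rw [h']; ring
      · intro h h'; apply h; linarith
    rw [this]; exact hy hc

theorem GoodX.neg {x : ℝ} (G : GoodX a b c X1 ψ Ψ x) :
    GoodX a b c (fun p => -X1 p) (fun p => -ψ p) (fun p => -Ψ p) x where
  int := fun y y' => (G.int y y').neg
  V := by
    intro y y' hy hyy'
    rw [intervalIntegral.integral_neg, ← G.V y y' hy hyy']; ring
  E := by
    filter_upwards [G.E] with y hy h1
    rw [hy h1]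

theorem GoodY.neg {y : ℝ} (G : GoodY a b σ X2 μ ψ Ψ y) :
    GoodY a b (-σ) (fun p => -X2 p) μ (fun p => -ψ p) (fun p => -Ψ p) y where
  int := fun y y' => (G.int y y').neg
  H := by
    intro x hx x' hx' hxx'
    rw [intervalIntegral.integral_neg]
    have := G.H x hx x' hx' hxx'
    linarith
  E := by
    filter_upwards [G.E] with y hy h1
    rw [hy h1]
  S := by
    have : {q : ℝ × ℝ | q.2 < y ∧ μ {q2 | q2.1 = q.1 ∧ q2.2 < y} = 0 ∧
        -Ψ (q.1, y) ≠ - -σ * lam μ q.1} =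
        {q : ℝ × ℝ | q.2 < y ∧ μ {q2 | q2.1 = q.1 ∧ q2.2 < y} = 0 ∧
        Ψ (q.1, y) ≠ -σ * lam μ q.1} := by
      ext q
      simp only [mem_ofPred_eq, ne_eq, and_congr_right_iff]
      intro _ _
      constructor
      · intro h h'; apply h; rw [h']; ring
      · intro h h'; apply h; linarith
    rw [this]; exact G.S

theorem GoodR.neg {x0 x1 y0 y1 : ℝ} (R : GoodR a b c σ X1 X2 μ ψ Ψ x0 x1 y0 y1) :
    GoodR a b c (-σ) (fun p => -X1 p) (fun p => -X2 p) μ (fun p => -ψ p) (fun p => -Ψ p)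
      x0 x1 y0 y1 where
  ha := R.ha
  hx := R.hx
  hb := R.hb
  hc := R.hc
  hy := R.hy
  gx0 := R.gx0.neg
  gx1 := R.gx1.neg
  gy0 := R.gy0.neg
  gy1 := R.gy1.neg
  hat := R.hat

theorem SqData.neg (D : SqData Q S a b c B X1 X2 μ f) :
    SqData Q S a b c B (fun p => -X1 p) (fun p => -X2 p) μ f where
  mS := D.mS
  dis := D.dis
  box := D.box
  nomass := D.nomass
  V1 := D.V1.neg
  V2 := D.V2.neg
  f0 := D.f0
  F2 := by
    intro i ε hε hε4
    refine le_trans (le_of_eq ?_) (D.F2 i ε hε hε4)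
    congr 2
    ext p
    rw [show -X1 p * gx (Q.gau i) p + -X2 p * gy (Q.gau i) p =
      -(X1 p * gx (Q.gau i) p + X2 p * gy (Q.gau i) p) by ring, abs_neg]

theorem ApprQ.neg {J : ℕ → Finset Hair} {z : ℕ → ℝ × ℝ → ℝ} {κ : Hair → ℝ} {r : ℕ → ι → ℝ}
    (A : ApprQ Q S a b c B σ X1 X2 μ Ψ f J z κ r) :
    ApprQ Q S a b c B (-σ) (fun p => -X1 p) (fun p => -X2 p) μ (fun p => -Ψ p) f J
      (fun n p => -z n p) (fun K => -κ K) r where
  X1B := by intro p hp; simp [A.X1B p hp]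
  X2B := by intro p hp; simp [A.X2B p hp]
  disj := A.disj
  dq := A.dq
  sl := by
    intro n
    obtain ⟨L, h1, h2⟩ := A.sl n
    exact ⟨L, h1, h2.neg⟩
  c1 := by
    refine A.c1.congr (fun n => ?_)
    congr 1; ext p; rw [CF_363.gx_neg]; ring
  c2 := by
    refine A.c2.congr (fun n => ?_)
    congr 1; ext p; rw [CF_363.gy_neg]; ring
  osc := by
    intro n i
    obtain ⟨k, hk⟩ := A.osc n i
    refine ⟨-k, fun p hp => ?_⟩
    have := hk p hp
    rwa [show -z n p - -k = -(z n p - k) by ring, abs_neg]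
  r1 := A.r1
  r2 := A.r2
  r3 := by
    refine A.r3.congr (fun n => ?_)
    congr 1; ext i
    congr 1
    congr 1; ext p
    rw [CF_363.gx_neg, CF_363.gy_neg]; ring
  T := by
    intro n K hK hx hat
    obtain ⟨h1, h2⟩ := A.T n K hK hx hat
    refine ⟨?_, fun h => by rw [h2 h]; ring⟩
    filter_upwards [h1] with y hy hc hyI
    rw [hy hc hyI]

theorem PYq_neg {J : ℕ → Finset Hair} {κ : Hair → ℝ} {y : ℝ}
    (h : PYq a b μ Ψ J κ y) : PYq a b μ (fun p => -Ψ p) J (fun K => -κ K) y := by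
  intro n K hK
  obtain ⟨h1, h2, h3⟩ := h n K hK
  exact ⟨h1, h2, fun a1 a2 a3 => by show -Ψ (K.x, y) = -κ K; rw [h3 a1 a2 a3]⟩

/-- a good vertical line in a strip of width `r` -/
theorem exists_line_xI {X : ℝ × ℝ → ℝ} (hX : Integrable X (volume : Measure (ℝ × ℝ)))
    {α γ δ r : ℝ} (hr : 0 < r) {P : ℝ → Prop} (hP : ∀ᵐ x, x ∈ Ioo α (α + r) → P x) :
    ∃ x ∈ Ioo α (α + r), P x ∧ ∫ t in Ioo γ δ, |X (x, t)| ≤
      r⁻¹ * ∫ p in Rc α (α + r) γ δ, |X p| := by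
  set T := Rc α (α + r) γ δ with hT
  have hint : Integrable (fun p => |X p|) ((volume : Measure (ℝ × ℝ)).restrict T) := hX.abs.restrict
  rw [hT, restrict_Rc] at hint
  have hfub : ∫ p in T, |X p| = ∫ x in Ioo α (α + r), ∫ t in Ioo γ δ, |X (x, t)| := by
    rw [hT, restrict_Rc]
    exact integral_prod _ hint
  have hint2 : Integrable (fun x => ∫ t in Ioo γ δ, |X (x, t)|)
      ((volume : Measure ℝ).restrict (Ioo α (α + r))) := hint.integral_prod_left
  have hm0 : (volume : Measure ℝ).restrict (Ioo α (α + r)) ≠ 0 := by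
    intro h0
    have h1 := congrArg (fun m : Measure ℝ => m univ) h0
    simp only [Measure.restrict_apply_univ, Real.volume_Ioo, Measure.coe_zero, Pi.zero_apply] at h1
    rw [ENNReal.ofReal_eq_zero] at h1
    linarith
  have hfin1 : IsFiniteMeasure ((volume : Measure ℝ).restrict (Ioo α (α + r))) :=
    ⟨by rw [Measure.restrict_apply_univ, Real.volume_Ioo]; exact ENNReal.ofReal_lt_top⟩
  have hPr : ((volume : Measure ℝ).restrict (Ioo α (α + r))) {x | ¬ (x ∈ Ioo α (α + r) ∧ P x)} = 0 := by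
    have : ∀ᵐ x ∂((volume : Measure ℝ).restrict (Ioo α (α + r))), x ∈ Ioo α (α + r) ∧ P x := by
      rw [ae_restrict_iff' measurableSet_Ioo]
      filter_upwards [hP] with x hx hxI
      exact ⟨hxI, hx hxI⟩
    exact ae_iff.mp this
  obtain ⟨x, hxN, hxle⟩ := exists_notMem_null_le_average hm0 hint2 hPr
  simp only [mem_ofPred_eq, not_not] at hxN
  refine ⟨x, hxN.1, hxN.2, hxle.trans (le_of_eq ?_)⟩
  rw [average_eq, ← hfub]
  have hreal : ((volume : Measure ℝ).restrict (Ioo α (α + r))).real univ = r := by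
    rw [Measure.real, Measure.restrict_apply_univ, Real.volume_Ioo, ENNReal.toReal_ofReal (by linarith)]
    ring
  rw [hreal, smul_eq_mul]

/-- a good horizontal line in a strip of height `r` -/
theorem exists_line_yI {X : ℝ × ℝ → ℝ} (hX : Integrable X (volume : Measure (ℝ × ℝ)))
    {α γ δ r : ℝ} (hr : 0 < r) {P : ℝ → Prop} (hP : ∀ᵐ y, y ∈ Ioo α (α + r) → P y) :
    ∃ y ∈ Ioo α (α + r), P y ∧ ∫ s in Ioo γ δ, |X (s, y)| ≤
      r⁻¹ * ∫ p in Rc γ δ α (α + r), |X p| := by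
  have h1 : Integrable (fun p : ℝ × ℝ => X p.swap) (volume : Measure (ℝ × ℝ)) := by
    rw [Measure.volume_eq_prod] at hX ⊢
    exact hX.swap
  obtain ⟨y, hy, hPy, hle⟩ := exists_line_xI h1 hr hP (γ := γ) (δ := δ)
  refine ⟨y, hy, hPy, ?_⟩
  rw [setIntegral_swap (X := fun p => |X p|)] at hle
  exact hle

theorem int_mono_set {X : ℝ × ℝ → ℝ} (hX : Integrable X (volume : Measure (ℝ × ℝ)))
    {T T' : Set (ℝ × ℝ)} (hTT : T ⊆ T') : ∫ p in T, |X p| ≤ ∫ p in T', |X p| := by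
  apply setIntegral_mono_set hX.abs.integrableOn
  · filter_upwards with t using abs_nonneg _
  · exact LE.le.eventuallyLE hTT

/-- **Oscillation estimate with squares.** -/
theorem oscQ [IsFiniteMeasure μ] [Countable ι] (L : LinesI a b c B σ X1 X2 μ ψ Ψ)
    (hσ : σ = 1 ∨ σ = -1) (D : SqData Q S a b c B X1 X2 μ f)
    {J : ℕ → Finset Hair} {z : ℕ → ℝ × ℝ → ℝ} {κ : Hair → ℝ} {ρ : ℕ → ι → ℝ}
    (A : ApprQ Q S a b c B σ X1 X2 μ Ψ f J z κ ρ)
    {u v r : ℝ} (hr : 0 < r) (ha : a < u - 2 * r) (hb : u + 2 * r < b) (hc : c < v - 2 * r)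
    (hat : ∀ x ∈ Icc (u - 2 * r) (u + 2 * r), μ {q | q.1 = x ∧ q.2 < v + 2 * r} = 0)
    (hav : ∀ n, ∀ K ∈ J n, μ {q | q.1 = K.x ∧ q.2 < K.t} ≠ 0 →
      K.x ∈ Ioo (u - 2 * r) (u + 2 * r) → K.t ≤ v - 2 * r ∨ v + 2 * r ≤ K.b)
    (hS : volume (S ∩ Rc (u - 2 * r) (u + 2 * r) (v - 2 * r) (v + 2 * r)) = 0) :
    ∃ m0 : ℝ, ∀ᵐ p : ℝ × ℝ, p ∈ Rc (u - r) (u + r) (v - r) (v + r) → p ∉ Q.un →
      |ψ p - m0| ≤ r⁻¹ * (∫ p in Rc (u - 2 * r) (u + 2 * r) (v - 2 * r) (v + 2 * r), |X1 p|)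
        + r⁻¹ * (∫ p in Rc (u - 2 * r) (u + 2 * r) (v - 2 * r) (v + 2 * r), |X2 p|)
        + (μ {q | q.1 ∈ Ico (u - 2 * r) (u + 2 * r) ∧ q.2 < v + 2 * r}).toReal := by
  have hσa : |σ| = 1 := by rcases hσ with h | h <;> rw [h] <;> simp
  have hσ' : -σ = 1 ∨ -σ = -1 := by
    rcases hσ with h | h
    · right; rw [h]
    · left; rw [h]; norm_num
  set K := Rc (u - 2 * r) (u + 2 * r) (v - 2 * r) (v + 2 * r) with hK
  set s1 := r⁻¹ * ∫ p in K, |X1 p| with hs1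
  set s2 := r⁻¹ * ∫ p in K, |X2 p| with hs2
  set m1 := (μ {q | q.1 ∈ Ico (u - 2 * r) (u + 2 * r) ∧ q.2 < v + 2 * r}).toReal with hm1
  have hri : 0 < r⁻¹ := inv_pos.mpr hr
  have hgy0 := ae_PYq A
  have hsubx : ∀ α, u - 2 * r ≤ α → α + r ≤ u + 2 * r →
      Rc α (α + r) (v - 2 * r) (v + 2 * r) ⊆ K := by
    intro α h1 h2 p hp
    exact ⟨⟨lt_of_le_of_lt h1 hp.1.1, lt_of_lt_of_le hp.1.2 h2⟩, hp.2⟩
  have hsuby : ∀ α, v - 2 * r ≤ α → α + r ≤ v + 2 * r →
      Rc (u - 2 * r) (u + 2 * r) α (α + r) ⊆ K := by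
    intro α h1 h2 p hp
    exact ⟨hp.1, ⟨lt_of_le_of_lt h1 hp.2.1, lt_of_lt_of_le hp.2.2 h2⟩⟩
  obtain ⟨x0, hx0, gx0, A0⟩ := exists_line_xI L.L1 (α := u - 2 * r) (γ := v - 2 * r)
    (δ := v + 2 * r) hr (P := fun x => GoodX a b c X1 ψ Ψ x) (by
      filter_upwards [L.goodX] with x h hx
      exact h ⟨by linarith [hx.1], by linarith [hx.2]⟩)
  obtain ⟨x1, hx1, gx1, A1⟩ := exists_line_xI L.L1 (α := u + r) (γ := v - 2 * r)
    (δ := v + 2 * r) hr (P := fun x => GoodX a b c X1 ψ Ψ x) (by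
      filter_upwards [L.goodX] with x h hx
      exact h ⟨by linarith [hx.1], by linarith [hx.2]⟩)
  have hgy : ∀ᵐ y, c < y → GoodY a b σ X2 μ ψ Ψ y ∧ PYq a b μ Ψ J κ y ∧ Ψ (x0, y) = ψ (x0, y) ∧
      Ψ (x1, y) = ψ (x1, y) := by
    filter_upwards [L.goodY, hgy0, gx0.E, gx1.E] with y h1 h2 h3 h4 hy
    exact ⟨h1 hy, h2 hy, h3 hy, h4 hy⟩
  obtain ⟨y0, hy0, ⟨gy0, py0, e00, e10⟩, B0⟩ := exists_line_yI L.L2 (α := v - 2 * r)
    (γ := u - 2 * r) (δ := u + 2 * r) hr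
    (P := fun y => GoodY a b σ X2 μ ψ Ψ y ∧ PYq a b μ Ψ J κ y ∧ Ψ (x0, y) = ψ (x0, y) ∧
      Ψ (x1, y) = ψ (x1, y)) (by
      filter_upwards [hgy] with x h hx
      exact h (by linarith [hx.1]))
  obtain ⟨y1, hy1, ⟨gy1, py1, e01, e11⟩, B1⟩ := exists_line_yI L.L2 (α := v + r)
    (γ := u - 2 * r) (δ := u + 2 * r) hr
    (P := fun y => GoodY a b σ X2 μ ψ Ψ y ∧ PYq a b μ Ψ J κ y ∧ Ψ (x0, y) = ψ (x0, y) ∧
      Ψ (x1, y) = ψ (x1, y)) (by
      filter_upwards [hgy] with x h hx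
      exact h (by linarith [hx.1]))
  have A0' := A0.trans (mul_le_mul_of_nonneg_left
    (int_mono_set L.L1 (hsubx _ (by linarith) (by linarith))) hri.le)
  have A1' := A1.trans (mul_le_mul_of_nonneg_left
    (int_mono_set L.L1 (hsubx _ (by linarith) (by linarith))) hri.le)
  have B0' := B0.trans (mul_le_mul_of_nonneg_left
    (int_mono_set L.L2 (hsuby _ (by linarith) (by linarith))) hri.le)
  have B1' := B1.trans (mul_le_mul_of_nonneg_left
    (int_mono_set L.L2 (hsuby _ (by linarith) (by linarith))) hri.le)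
  rw [← hs1] at A0' A1'
  rw [← hs2] at B0' B1'
  have R : GoodR a b c σ X1 X2 μ ψ Ψ x0 x1 y0 y1 := by
    refine ⟨by linarith [hx0.1], by linarith [hx0.2, hx1.1], by linarith [hx1.2],
      by linarith [hy0.1], by linarith [hy0.2, hy1.1], gx0, gx1, gy0, gy1, ?_⟩
    intro x hx
    apply measure_mono_null _ (hat x ⟨by linarith [hx.1, hx0.1], by linarith [hx.2, hx1.2]⟩)
    intro q hq
    exact ⟨hq.1, by linarith [hq.2, hy1.2]⟩
  -- variations along the sides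
  have vert : ∀ x, GoodX a b c X1 ψ Ψ x → (∫ t in Ioo (v - 2 * r) (v + 2 * r), |X1 (x, t)| ≤ s1) →
      ∀ y ∈ Icc y0 y1, |ψ (x, y) - ψ (x, y0)| ≤ s1 := by
    intro x gx hA y hy
    rw [gx.V y0 y (by linarith [hy0.1]) hy.1]
    exact (abs_ii_le gx.int (γ := v - 2 * r) (δ := v + 2 * r) (by linarith [hy0.1]) hy.1
      (by linarith [hy.2, hy1.2])).trans hA
  have hmem : ∀ x ∈ Icc x0 x1, x ∈ Ioo a b := fun x hx =>
    ⟨by linarith [hx.1, hx0.1], by linarith [hx.2, hx1.2]⟩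
  have hx01 : x0 ≤ x1 := by linarith [hx0.2, hx1.1]
  have horz : ∀ y, GoodY a b σ X2 μ ψ Ψ y → y < v + 2 * r →
      (∫ s in Ioo (u - 2 * r) (u + 2 * r), |X2 (s, y)| ≤ s2) →
      ∀ x ∈ Icc x0 x1, |Ψ (x, y) - Ψ (x0, y)| ≤ s2 + m1 := by
    intro y gy hyv hB x hx
    rw [gy.H x0 (hmem x0 ⟨le_refl _, hx01⟩) x (hmem x hx) hx.1]
    have h1 := (abs_ii_le gy.int (γ := u - 2 * r) (δ := u + 2 * r) (by linarith [hx0.1]) hx.1
      (by linarith [hx.2, hx1.2])).trans hB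
    have h2 : (μ {q | q.1 ∈ Ico x0 x ∧ q.2 < y}).toReal ≤ m1 := by
      rw [hm1]
      apply ENNReal.toReal_mono (measure_ne_top _ _)
      apply measure_mono
      intro q hq
      exact ⟨⟨by linarith [hq.1.1, hx0.1], by linarith [hq.1.2, hx.2, hx1.2]⟩, hq.2.trans hyv⟩
    have h3 : 0 ≤ (μ {q | q.1 ∈ Ico x0 x ∧ q.2 < y}).toReal := ENNReal.toReal_nonneg
    have h4 : |σ * (μ {q | q.1 ∈ Ico x0 x ∧ q.2 < y}).toReal| ≤ m1 := by
      rw [abs_mul, hσa, one_mul, abs_of_nonneg h3]; exact h2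
    calc |-(∫ s in x0..x, X2 (s, y)) - σ * (μ {q | q.1 ∈ Ico x0 x ∧ q.2 < y}).toReal|
        ≤ |-(∫ s in x0..x, X2 (s, y))| + |σ * (μ {q | q.1 ∈ Ico x0 x ∧ q.2 < y}).toReal| := abs_sub _ _
      _ ≤ s2 + m1 := by rw [abs_neg]; exact add_le_add h1 h4
  have l1 := vert x0 gx0 A0'
  have l2 := vert x1 gx1 A1'
  have l3 := horz y0 gy0 (by linarith [hy0.2]) B0'
  have l4 := horz y1 gy1 (by linarith [hy1.2]) B1'
  set m0 := ψ (x0, y0) with hm0
  have hs1n : 0 ≤ s1 := mul_nonneg hri.le (integral_nonneg fun _ => abs_nonneg _)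
  have hs2n : 0 ≤ s2 := mul_nonneg hri.le (integral_nonneg fun _ => abs_nonneg _)
  have hm1n : 0 ≤ m1 := ENNReal.toReal_nonneg
  have hy01 : y0 ≤ y1 := by linarith [hy0.2, hy1.1]
  -- corner values
  have c10 : |ψ (x1, y0) - m0| ≤ s2 + m1 := by
    have := l3 x1 ⟨hx01, le_refl _⟩
    rwa [e10, e00] at this
  have c01 : |ψ (x0, y1) - m0| ≤ s1 := l1 y1 ⟨hy01, le_refl _⟩
  have bl : ∀ y ∈ Icc y0 y1, |ψ (x0, y) - m0| ≤ s1 + s2 + m1 := fun y hy =>
    (l1 y hy).trans (by linarith)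
  have br : ∀ y ∈ Icc y0 y1, |ψ (x1, y) - m0| ≤ s1 + s2 + m1 := by
    intro y hy
    have h1 := l2 y hy
    rw [abs_le] at h1 c10 ⊢
    constructor <;> linarith [h1.1, h1.2, c10.1, c10.2]
  have bd : ∀ x ∈ Icc x0 x1, |Ψ (x, y0) - m0| ≤ s1 + s2 + m1 := by
    intro x hx
    have h1 := l3 x hx
    rw [e00] at h1
    exact h1.trans (by linarith)
  have bu : ∀ x ∈ Icc x0 x1, |Ψ (x, y1) - m0| ≤ s1 + s2 + m1 := by
    intro x hx
    have h1 := l4 x hx
    rw [e01] at h1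
    rw [abs_le] at h1 c01 ⊢
    constructor <;> linarith [h1.1, h1.2, c01.1, c01.2]
  have hM : BdLe (m0 + (s1 + s2 + m1)) ψ Ψ x0 x1 y0 y1 := by
    refine ⟨fun y hy => ?_, fun y hy => ?_, fun x hx => ?_, fun x hx => ?_⟩
    · linarith [(abs_le.mp (bl y hy)).2]
    · linarith [(abs_le.mp (br y hy)).2]
    · linarith [(abs_le.mp (bd x hx)).2]
    · linarith [(abs_le.mp (bu x hx)).2]
  have hN : BdLe (-m0 + (s1 + s2 + m1)) (fun p => -ψ p) (fun p => -Ψ p) x0 x1 y0 y1 := by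
    refine ⟨fun y hy => ?_, fun y hy => ?_, fun x hx => ?_, fun x hx => ?_⟩
    · show -ψ (x0, y) ≤ _; linarith [(abs_le.mp (bl y hy)).1]
    · show -ψ (x1, y) ≤ _; linarith [(abs_le.mp (br y hy)).1]
    · show -Ψ (x, y0) ≤ _; linarith [(abs_le.mp (bd x hx)).1]
    · show -Ψ (x, y1) ≤ _; linarith [(abs_le.mp (bu x hx)).1]
  have hsubK : Rc x0 x1 y0 y1 ⊆ K := by
    intro p hp
    exact ⟨⟨by linarith [hp.1.1, hx0.1], by linarith [hp.1.2, hx1.2]⟩,
      ⟨by linarith [hp.2.1, hy0.1], by linarith [hp.2.2, hy1.2]⟩⟩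
  have hSR : volume (S ∩ Rc x0 x1 y0 y1) = 0 :=
    measure_mono_null (inter_subset_inter_right _ hsubK) hS
  have hpr : PRq μ J x0 x1 y0 y1 := by
    intro n Kh hKh hne hKx
    have h1 : Kh.x ∈ Ioo (u - 2 * r) (u + 2 * r) :=
      ⟨by linarith [hKx.1, hx0.1], by linarith [hKx.2, hx1.2]⟩
    rcases hav n Kh hKh hne h1 with h | h
    · left; linarith [hy0.1]
    · right; linarith [hy1.2]
  have f1 := mpq L hσ D A R py0 py1 hpr hM hSR
  have f2 := mpq L.neg hσ' D.neg A.neg R.neg (PYq_neg py0) (PYq_neg py1) hpr hN hSR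
  refine ⟨m0, ?_⟩
  have hsub : Rc (u - r) (u + r) (v - r) (v + r) ⊆ Rc x0 x1 y0 y1 := by
    intro p hp
    exact ⟨⟨by linarith [hp.1.1, hx0.2], by linarith [hp.1.2, hx1.1]⟩,
      ⟨by linarith [hp.2.1, hy0.2], by linarith [hp.2.2, hy1.1]⟩⟩
  filter_upwards [f1, f2] with p g1 g2 hp hpu
  have k1 := g1 (hsub hp) hpu
  have k2 := g2 (hsub hp) hpu
  rw [abs_le]
  constructor <;> linarith

end Crest.Agent.R105.Sq_87
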