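import Crest.Agent.R105.Kna6_421
import Crest.Agent.R105.Psq8_425
import Crest.Agent.R105.SqX_87
import Crest.Agent.R105.SqJb_361
import Crest.Agent.R105.Sin1_925
import Crest.Agent.R105.Knq4_247
import Crest.Agent.R105.Sin1_891
import Crest.Agent.R105.SqJd_361
import Crest.Agent.R105.Hmx_361
import Crest.Agent.R105.Gl2_363
import Crest.Agent.R105.Kbx3_247
import Crest.Agent.R105.SqP_87
import Crest.Agent.R105.Str8_421
import Crest.Agent.R105.Hq2_363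
import Crest.Agent.R105.Kbx1_247
import Crest.Agent.R105.Kbx2_247
import Crest.Agent.R105.Psi4_425
import Crest.Agent.R105.Gl1_363
import Crest.Agent.R105.Psi11_425

-- ▼ part R105/Kna7_421
section

/-!
Row 105, S0138, lemma A with squares (helper421). Part 7, leaf (J3) of 425: the statements (A), (B),
(C) of `lemaq_of_abc` from the glued functions (`Psq_425.Glue`).
-/

set_option autoImplicit false

open Set Filter MeasureTheory Topology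
open scoped ENNReal NNReal

namespace Crest.Agent.R105.Kna_421

open CF_363 Stp_722 Cq_463
open Hq_363 (TwoQ)
open Sq_87 (Rects)
open Skp2_257 (Lo Up Comps)
open Nal_649 (FamQ Win comp)
open Famq_306 (Gen SqSub isCompact_comp exists_gen)
open Kbx_247 (rfS QA SolF FamF)
open Exs_992 (PicS)
open SkT1_137 (ELS SOLO BNDQ LEMAQ)
open Psq_425 (Glue StrQ)

variable {E P C W N : Set (ℝ × ℝ)} {𝒬 𝒬' : Set Sqr} {𝓗 𝓗₀ : Set Hair}
  {a b c d B a1 b1 r ε Bm Bp m : ℝ} {e e' z : ℝ × ℝ → ℝ} {g S₀ : Set (Set (ℝ × ℝ))}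

/-- **(JA)** the glued function of a single solid -/
def JoinA (E : Set (ℝ × ℝ)) (𝒬 : Set Sqr) (a b c d B Bp : ℝ) (Q0 : Sqr) : Prop :=
  ∃ (ι ι' : Type) (_ : Countable ι) (_ : Countable ι') (L m : ℝ) (Q : Rects ι) (Q' : Rects ι')
    (S S' : Set (ℝ × ℝ)) (X1 X2 ψ Ψ Y1 Y2 ψ' Ψ' : ℝ × ℝ → ℝ) (μ ν : Measure (ℝ × ℝ))
    (_ : IsFiniteMeasure μ) (_ : IsFiniteMeasure ν) (f : ι → ℝ) (f' : ι' → ℝ)
    (F U2 : ℝ × ℝ → ℝ) (o : Sqr → ℝ) (sq : ι → Sqr) (sq' : ι' → Sqr),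
    Glue E 𝒬 {comp E Q0} {comp E Q0} a b c d B Bp L m Q Q' S S' X1 X2 ψ Ψ Y1 Y2 ψ' Ψ' μ ν f f' F
      U2 o sq sq' ∧ 0 < m ∧ (∀ i, sq i ≠ Q0) ∧ ∀ i, sq' i ≠ Q0

/-- **(JB)** the glued function of a single free hair -/
def JoinB (E : Set (ℝ × ℝ)) (𝒬 : Set Sqr) (a b c d Bm Bp : ℝ) (K : Hair) : Prop :=
  ∃ (ι ι' : Type) (_ : Countable ι) (_ : Countable ι') (S₀ : Set (Set (ℝ × ℝ))) (L m : ℝ)
    (Q : Rects ι) (Q' : Rects ι')
    (S S' : Set (ℝ × ℝ)) (X1 X2 ψ Ψ Y1 Y2 ψ' Ψ' : ℝ × ℝ → ℝ) (μ ν : Measure (ℝ × ℝ))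
    (_ : IsFiniteMeasure μ) (_ : IsFiniteMeasure ν) (f : ι → ℝ) (f' : ι' → ℝ)
    (F U2 : ℝ × ℝ → ℝ) (o : Sqr → ℝ) (sq : ι → Sqr) (sq' : ι' → Sqr),
    Glue E 𝒬 {K.car} S₀ a b c d Bm Bp L m Q Q' S S' X1 X2 ψ Ψ Y1 Y2 ψ' Ψ' μ ν f f' F U2 o sq sq' ∧
      0 < m

/-- **(JC)** the glued function of a family without atoms -/
def JoinC (E : Set (ℝ × ℝ)) (𝒬 : Set Sqr) (a b c d Bm Bp m : ℝ) (g : Set (Set (ℝ × ℝ))) : Prop :=
  ∃ (ι ι' : Type) (_ : Countable ι) (_ : Countable ι') (L : ℝ) (Q : Rects ι) (Q' : Rects ι')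
    (S S' : Set (ℝ × ℝ)) (X1 X2 ψ Ψ Y1 Y2 ψ' Ψ' : ℝ × ℝ → ℝ) (μ ν : Measure (ℝ × ℝ))
    (_ : IsFiniteMeasure μ) (_ : IsFiniteMeasure ν) (f : ι → ℝ) (f' : ι' → ℝ)
    (F U2 : ℝ × ℝ → ℝ) (o : Sqr → ℝ) (sq : ι → Sqr) (sq' : ι' → Sqr),
    Glue E 𝒬 g ∅ a b c d Bm Bp L m Q Q' S S' X1 X2 ψ Ψ Y1 Y2 ψ' Ψ' μ ν f f' F U2 o sq sq' ∧
      ∑' P : 𝒬, o P.1 ^ 2 ≤ 32 * m ∧ (Summable fun i => f i ^ 2) ∧ ∑' i, f i ^ 2 ≤ m ∧
      (Summable fun i => f' i ^ 2) ∧ ∑' i, f' i ^ 2 ≤ m ∧ Function.Injective sq ∧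
      Function.Injective sq' ∧ (∀ i, 2 * Q.h2 i ≤ (sq i).s) ∧ ∀ i, 2 * Q'.h2 i ≤ (sq' i).s

/-- **(A)** -/
theorem stepA_of (hP : PicS E 𝒬 𝓗) (hel : ELS StrQ E 𝒬 𝓗)
    (h : ∀ Q0 ∈ 𝒬, ∀ B Bp, Gen 𝒬 B → Gen 𝒬 Bp → c < B → Q0.y < B → B < Q0.y + Q0.s →
      Q0.y + Q0.s < Bp → Bp < d → ∀ X1 X2 f νp νm μ Y1 Y2 f' νp' νm' ν,
      SolF E 𝒬 𝓗 Q0 B Bp a b c d X1 X2 f νp νm μ Y1 Y2 f' νp' νm' ν →
        JoinA E 𝒬 a b c d B Bp Q0)
    (hbox : E ⊆ Ioo a b ×ˢ Ioo c d) : StepA E 𝒬 𝓗 a b c d := by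
  intro Q0 hQ Bp gp hBp hBd
  have hs := Q0.hs
  have hE := hP.q
  obtain ⟨B, gB, h1, h2⟩ := exists_gen hE (show Q0.y < min (Q0.y + Q0.s) (Bp - Q0.s) from
    lt_min (by linarith) (by linarith))
  have h3 := h2.trans_le (min_le_left _ _)
  have h4 := h2.trans_le (min_le_right _ _)
  refine ⟨B, gB, h1, h3, fun X1 X2 f νp νm μ Y1 Y2 f' νp' νm' ν hF => ?_⟩
  have hcB : c < B := by
    have := (hbox (hE.sub Q0 hQ (Kbx_247.corner_mem Q0))).2.1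
    simp only at this
    linarith
  have hcm := SkT1_137.comp_mem hE hQ
  have hcar := SkT1_137.car_sub_comp hE hQ
  -- the family is one crossing solid
  have hg : FamQ E {comp E Q0} B Bp := by
    refine ⟨by linarith, singleton_subset_iff.2 hcm, ?_, ?_⟩
    · rw [sUnion_singleton]; exact isCompact_comp hE hcm
    · rintro _ rfl
      refine ⟨⟨_, hcar (Kbx_247.corner_mem Q0), h1.le⟩, ?_⟩
      have hne : (ae ν).NeBot := by
        rw [ae_neBot]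
        intro h0
        have := hF.m2
        rw [h0] at this
        simp at this
      obtain ⟨q, hq2, K, hK, hKP, -, hqK, -⟩ := hF.c2.exists
      refine ⟨rf q, hKP hqK, ?_⟩
      rw [rf_snd]; linarith
  obtain ⟨ι, ι', _, _, L, m, Q, Q', S, S', x1, x2, ψ, Ψ, y1, y2, ψ', Ψ', μ1, ν1, _, _, f1, f2, F,
    U2, o, sq, sq', G, hm, e1, e2⟩ := h Q0 hQ B Bp gB gp hcB h1 h3 hBp hBd _ _ _ _ _ _ _ _ _ _ _ _ hF
  have := G.solid hP hel hg hm hQ rfl (mem_singleton _) e1 e2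
  linarith

/-- **(B)** -/
theorem stepB_of (hP : PicS E 𝒬 𝓗) (hel : ELS StrQ E 𝒬 𝓗)
    (h : ∀ K ∈ 𝓗, ∀ Bm Bp, Gen 𝒬 Bm → Gen 𝒬 Bp → FamQ E {K.car} Bm Bp → c < Bm → Bp < d →
      ∀ m X1 X2 f νp νm μ Y1 Y2 f' νp' νm' ν,
      FamF E 𝒬 𝓗 {K.car} Bm Bp a b c d m X1 X2 f νp νm μ Y1 Y2 f' νp' νm' ν →
        JoinB E 𝒬 a b c d Bm Bp K) : StepB E 𝒬 𝓗 a b c d := by
  intro K hK Bm Bp gm gp hg hcm hpd m X1 X2 f νp νm μ Y1 Y2 f' νp' νm' ν hF
  have hE := hP.q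
  obtain ⟨ι, ι', _, _, S₀, L, m, Q, Q', S, S', x1, x2, ψ, Ψ, y1, y2, ψ', Ψ', μ1, ν1, _, _, f1, f2,
    F, U2, o, sq, sq', G, hm⟩ := h K hK Bm Bp gm gp hg hcm hpd _ _ _ _ _ _ _ _ _ _ _ _ _ hF
  refine G.hair hP hel hg hm fun Q hQ hc => ?_
  rw [mem_singleton_iff] at hc
  refine Kbx_247.not_sub_hair (Q := Q) (K := K) ?_
  rw [sUnion_singleton, ← hc]
  exact SkT1_137.car_sub_comp hE hQ

/-- **(C)** -/
theorem stepC_of (hP : PicS E 𝒬 𝓗) (hel : ELS StrQ E 𝒬 𝓗)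
    (h : ∀ g Bm Bp, Gen 𝒬 Bm → Gen 𝒬 Bp → FamQ E g Bm Bp → Win 𝒬 g Bm Bp →
      c < Bm → Bp < d → ∀ m X1 X2 f νp νm μ Y1 Y2 f' νp' νm' ν,
      FamF E 𝒬 𝓗 g Bm Bp a b c d m X1 X2 f νp νm μ Y1 Y2 f' νp' νm' ν →
        (∀ x, μ {q | q.1 = x} = 0) → (∀ x, ν {q | q.1 = x} = 0) →
          JoinC E 𝒬 a b c d Bm Bp m g) : StepC E 𝒬 𝓗 a b c d := by
  refine ⟨5 * 32 + 20, by norm_num, ?_⟩
  intro g Bm Bp gm gp hg hw hcm hpd m X1 X2 f νp νm μ Y1 Y2 f' νp' νm' ν hF h1 h2 s hs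
  obtain ⟨ι, ι', _, _, L, Q, Q', S, S', x1, x2, ψ, Ψ, y1, y2, ψ', Ψ', μ1, ν1, _, _, f1, f2,
    F, U2, o, sq, sq', G, a1, a2, a3, a4, a5, a6, a7, a8, a9⟩ :=
      h g Bm Bp gm gp hg hw hcm hpd _ _ _ _ _ _ _ _ _ _ _ _ _ hF h1 h2
  exact G.family hP hel hg (by norm_num) hs a1 a2 a3 a4 a5 a6 a7 a8 a9

/-- the frame of the three joins -/
def Frame (T : Set (ℝ × ℝ) → Set Sqr → Set Hair → ℝ → ℝ → ℝ → ℝ → Prop) : Prop :=
  ∀ E 𝒬 𝓗, PicS E 𝒬 𝓗 → DisjH 𝓗 → ∀ a b c d, a < b → c < d → E ⊆ Ioo a b ×ˢ Ioo c d →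
    T E 𝒬 𝓗 a b c d

/-- **`LEMAQ StrQ` from the three joins** -/
theorem lemaq_of_joins
    (hA : Frame fun E 𝒬 𝓗 a b c d => ∀ Q0 ∈ 𝒬, ∀ B Bp, Gen 𝒬 B → Gen 𝒬 Bp → c < B → Q0.y < B →
      B < Q0.y + Q0.s → Q0.y + Q0.s < Bp → Bp < d → ∀ X1 X2 f νp νm μ Y1 Y2 f' νp' νm' ν,
      SolF E 𝒬 𝓗 Q0 B Bp a b c d X1 X2 f νp νm μ Y1 Y2 f' νp' νm' ν →
        JoinA E 𝒬 a b c d B Bp Q0)
    (hB : Frame fun E 𝒬 𝓗 a b c d => ∀ K ∈ 𝓗, ∀ Bm Bp, Gen 𝒬 Bm → Gen 𝒬 Bp →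
      FamQ E {K.car} Bm Bp → c < Bm → Bp < d → ∀ m X1 X2 f νp νm μ Y1 Y2 f' νp' νm' ν,
      FamF E 𝒬 𝓗 {K.car} Bm Bp a b c d m X1 X2 f νp νm μ Y1 Y2 f' νp' νm' ν →
        JoinB E 𝒬 a b c d Bm Bp K)
    (hC : Frame fun E 𝒬 𝓗 a b c d => ∀ g Bm Bp, Gen 𝒬 Bm → Gen 𝒬 Bp → FamQ E g Bm Bp →
      Win 𝒬 g Bm Bp → c < Bm → Bp < d → ∀ m X1 X2 f νp νm μ Y1 Y2 f' νp' νm' ν,
      FamF E 𝒬 𝓗 g Bm Bp a b c d m X1 X2 f νp νm μ Y1 Y2 f' νp' νm' ν →
        (∀ x, μ {q | q.1 = x} = 0) → (∀ x, ν {q | q.1 = x} = 0) →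
          JoinC E 𝒬 a b c d Bm Bp m g) : LEMAQ StrQ :=
  lemaq_of_abc
    (fun E 𝒬 𝓗 hP hd hel a b c d hab hcd hbox =>
      stepA_of hP hel (hA E 𝒬 𝓗 hP hd a b c d hab hcd hbox) hbox)
    (fun E 𝒬 𝓗 hP hd hel a b c d hab hcd hbox =>
      stepB_of hP hel (hB E 𝒬 𝓗 hP hd a b c d hab hcd hbox))
    (fun E 𝒬 𝓗 hP hd hel a b c d hab hcd hbox =>
      stepC_of hP hel (hC E 𝒬 𝓗 hP hd a b c d hab hcd hbox))

end Crest.Agent.R105.Kna_421
end

-- ▼ part R105/SqY_87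
section

/-! Row 105, S0138, exact squares: the joined field (361) satisfies `SqFlux`. -/

open MeasureTheory Set Filter Topology
open scoped NNReal ENNReal

namespace Crest.Agent.R105.Sq_87

open Crest.Agent.R105.Mp_87 (Rc measurableSet_Rc restrict_Rc cs_line)
open Crest.Agent.R105.SqJ_361 (join join_of_mem Fills rg rd ro rc FillR)

variable {ι : Type} {Q : Rects ι}
variable {X1 X2 : ℝ × ℝ → ℝ} {Y1 Y2 : ι → ℝ × ℝ → ℝ} {f : ι → ℝ} {np nm : ι → Measure (ℝ × ℝ)}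

theorem join_int_le (F : Fills Q f np nm Y1 Y2) (i : ι) (T : Set (ℝ × ℝ)) (hT : MeasurableSet T)
    (X : ℝ × ℝ → ℝ) (Y : ι → ℝ × ℝ → ℝ) (hY : Integrable (Y i) (volume : Measure (ℝ × ℝ))) :
    ∫ p in Q.op i ∩ T, |join Q X Y p| ≤ ∫ p in T, |Y i p| := by
  have e1 : ∫ p in Q.op i ∩ T, |join Q X Y p| = ∫ p in Q.op i ∩ T, |Y i p| := by
    apply setIntegral_congr_fun ((Q.measurableSet_op i).inter hT)
    intro p hp
    simp only
    rw [join_of_mem F.dis hp.1]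
  rw [e1]
  exact int_mono_set hY inter_subset_right

theorem flux3_of_fills (F : Fills Q f np nm Y1 Y2) :
    Flux3 Q (join Q X1 Y1) (join Q X2 Y2) f where
  x := by
    intro i a b c d hab hcd
    refine (join_int_le F i _ (measurableSet_Ioo.prod measurableSet_Ioo) X1 Y1 (F.F i).i1).trans ?_
    have h := ((F.F i).F3 a b c d hab hcd univ MeasurableSet.univ (fun _ _ _ _ _ => mem_univ _)).1
    rwa [F.mass i] at h
  y := by
    intro i a b c d hab hcd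
    refine (join_int_le F i _ (measurableSet_Ioo.prod measurableSet_Ioo) X2 Y2 (F.F i).i2).trans ?_
    have h := ((F.F i).F3 a b c d hab hcd univ MeasurableSet.univ (fun _ _ _ _ _ => mem_univ _)).2
    rwa [F.mass i] at h

theorem dist_le_rd {h1 h2 : ℝ} (p1 : 0 < h1) (p2 : 0 < h2) (u p : ℝ × ℝ) :
    dist u p ≤ max h1 h2 * rd h1 h2 u p := by
  have e1 : |u.1 - p.1| ≤ max h1 h2 * rd h1 h2 u p := by
    have k1 : |u.1 - p.1| / h1 ≤ rd h1 h2 u p := le_max_left _ _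
    rw [div_le_iff₀ p1] at k1
    refine k1.trans ?_
    rw [mul_comm]
    exact mul_le_mul_of_nonneg_right (le_max_left _ _)
      (le_trans (div_nonneg (abs_nonneg _) p1.le) (le_max_left _ _))
  have e2 : |u.2 - p.2| ≤ max h1 h2 * rd h1 h2 u p := by
    have k1 : |u.2 - p.2| / h2 ≤ rd h1 h2 u p := le_max_right _ _
    rw [div_le_iff₀ p2] at k1
    refine k1.trans ?_
    rw [mul_comm]
    exact mul_le_mul_of_nonneg_right (le_max_right _ _)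
      (le_trans (div_nonneg (abs_nonneg _) p1.le) (le_max_left _ _))
  rw [Prod.dist_eq, Real.dist_eq, Real.dist_eq]
  exact max_le e1 e2

theorem locF_cond (i : ι) {u v r : ℝ} {P : Set (ℝ × ℝ)}
    (hP : ∀ p q : ℝ × ℝ, q ∈ Rc (u - 2 * r) (u + 2 * r) (v - 2 * r) (v + 2 * r) →
      dist q p ≤ 3 * max (Q.h1 i) (Q.h2 i) * (1 - Q.gau i q) → p ∈ P) :
    ∀ p ∈ rc (Q.x i) (Q.y i) (Q.h1 i) (Q.h2 i),
      ∀ w ∈ Ioo (u - 2 * r) (u + 2 * r) ×ˢ Ioo (v - 2 * r) (v + 2 * r),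
      rd (Q.h1 i) (Q.h2 i) w p ≤ 3 * (1 - rg (Q.x i) (Q.y i) (Q.h1 i) (Q.h2 i) w) → p ∈ P := by
  intro p _ w hw hrd
  apply hP p w hw
  have h1 := dist_le_rd (Q.p1 i) (Q.p2 i) w p
  have h2 : 0 ≤ max (Q.h1 i) (Q.h2 i) := le_max_of_le_left (Q.p1 i).le
  calc dist w p ≤ max (Q.h1 i) (Q.h2 i) * rd (Q.h1 i) (Q.h2 i) w p := h1
    _ ≤ max (Q.h1 i) (Q.h2 i) * (3 * (1 - Q.gau i w)) := mul_le_mul_of_nonneg_left hrd h2
    _ = 3 * max (Q.h1 i) (Q.h2 i) * (1 - Q.gau i w) := by ring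

theorem locF1_of_fills (F : Fills Q f np nm Y1 Y2) (i : ι) :
    LocF Q i (join Q X1 Y1) (np i + nm i) := by
  intro u v r hr P hmP hP
  refine (join_int_le F i _ (measurableSet_Rc _ _ _ _) X1 Y1 (F.F i).i1).trans ?_
  have h := ((F.F i).F3 (u - 2 * r) (u + 2 * r) (v - 2 * r) (v + 2 * r) (by linarith) (by linarith)
    P hmP (locF_cond i hP)).1
  refine h.trans (le_of_eq ?_)
  rw [Measure.add_apply]; ring

theorem locF2_of_fills (F : Fills Q f np nm Y1 Y2) (i : ι) :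
    LocF Q i (join Q X2 Y2) (np i + nm i) := by
  intro u v r hr P hmP hP
  refine (join_int_le F i _ (measurableSet_Rc _ _ _ _) X2 Y2 (F.F i).i2).trans ?_
  have h := ((F.F i).F3 (u - 2 * r) (u + 2 * r) (v - 2 * r) (v + 2 * r) (by linarith) (by linarith)
    P hmP (locF_cond i hP)).2
  refine h.trans (le_of_eq ?_)
  rw [Measure.add_apply]; ring

/-- **The joined field satisfies all flux bounds.** -/
theorem sqFlux_of_fills (F : Fills Q f np nm Y1 Y2) {s : ι → ℝ} {q : ι → ℝ × ℝ} (P : Pack Q s q)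
    (fs : Summable fun i => f i ^ 2) (fp : ∀ i, IsFiniteMeasure (np i))
    (fm : ∀ i, IsFiniteMeasure (nm i)) (ap : ∀ i p, np i {p} = 0) (am : ∀ i p, nm i {p} = 0) :
    SqFlux Q (join Q X1 Y1) (join Q X2 Y2) f s q (fun i => np i + nm i) where
  P := P
  F := flux3_of_fills F
  fs := fs
  fin := by
    intro i
    have := fp i
    have := fm i
    infer_instance
  na := by
    intro i p
    rw [Measure.add_apply, ap i p, am i p, add_zero]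
  l1 := fun i => locF1_of_fills F i
  l2 := fun i => locF2_of_fills F i

end Crest.Agent.R105.Sq_87
end

-- ▼ part R105/Cpq1_925
section

/-!
# Row 105, S0138, T-frame: cut-off at a point when disjoint squares are charged

`cap_point_sq`: `Q i` pairwise disjoint closed squares of side `s i` (finitely many of side `> η`
for every `η > 0`), `q` in none of them; there is a cut-off `lam` at `q` with small Dirichlet
energy AND small `∑ osc (lam; Q i) ^ 2`.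
-/

namespace Crest.Agent.R105.Sin_925

open Set Filter MeasureTheory Topology Metric
open CF_363
open scoped ENNReal NNReal

/-- the closed square with lower left corner `c` and side `s` -/
def sqr (c : ℝ × ℝ) (s : ℝ) : Set (ℝ × ℝ) := Icc c.1 (c.1 + s) ×ˢ Icc c.2 (c.2 + s)

theorem mem_sqr {c p : ℝ × ℝ} {s : ℝ} :
    p ∈ sqr c s ↔ (c.1 ≤ p.1 ∧ p.1 ≤ c.1 + s) ∧ (c.2 ≤ p.2 ∧ p.2 ≤ c.2 + s) := Iff.rfl

theorem isCompact_sqr (c : ℝ × ℝ) (s : ℝ) : IsCompact (sqr c s) := isCompact_Icc.prod isCompact_Icc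

theorem measurableSet_sqr (c : ℝ × ℝ) (s : ℝ) : MeasurableSet (sqr c s) :=
  (isCompact_sqr c s).measurableSet

theorem dist_le_sqr {c p p' : ℝ × ℝ} {s : ℝ} (hp : p ∈ sqr c s) (hp' : p' ∈ sqr c s) :
    dist p p' ≤ s := by
  obtain ⟨⟨a1, a2⟩, a3, a4⟩ := mem_sqr.1 hp
  obtain ⟨⟨b1, b2⟩, b3, b4⟩ := mem_sqr.1 hp'
  rw [Prod.dist_eq, Real.dist_eq, Real.dist_eq]
  refine max_le ?_ ?_ <;> rw [abs_le] <;> constructor <;> linarith

/-- length of `[a, a+s] ∩ [u - 2 δ, u + 2 δ]` if `[a, a+s]` meets `[u - δ, u + δ]` -/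
theorem icc_inter_len {a s u δ t : ℝ} (h1 : a ≤ t) (h2 : t ≤ a + s)
    (h3 : u - δ ≤ t) (h4 : t ≤ u + δ) :
    ENNReal.ofReal (min s δ) ≤ volume (Icc a (a + s) ∩ Icc (u - 2 * δ) (u + 2 * δ)) := by
  rw [Icc_inter_Icc, Real.volume_Icc]
  refine ENNReal.ofReal_le_ofReal ?_
  rcases le_total a (u - 2 * δ) with ha | ha <;>
    rcases le_total (a + s) (u + 2 * δ) with hb | hb
  · rw [sup_eq_right.2 ha, inf_eq_left.2 hb]
    refine (min_le_right _ _).trans ?_; linarith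
  · rw [sup_eq_right.2 ha, inf_eq_right.2 hb]
    refine (min_le_right _ _).trans ?_; linarith
  · rw [sup_eq_left.2 ha, inf_eq_left.2 hb]
    refine (min_le_left _ _).trans ?_; linarith
  · rw [sup_eq_left.2 ha, inf_eq_right.2 hb]
    refine (min_le_right _ _).trans ?_; linarith

theorem sqr_inter_vol {c q p : ℝ × ℝ} {s δ : ℝ} (hs : 0 ≤ s) (hδ : 0 ≤ δ) (hp : p ∈ sqr c s)
    (hpq : dist p q ≤ δ) :
    ENNReal.ofReal (min s δ ^ 2) ≤ volume (sqr c s ∩ closedBall q (2 * δ)) := by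
  obtain ⟨⟨a1, a2⟩, a3, a4⟩ := mem_sqr.1 hp
  rw [Prod.dist_eq, Real.dist_eq, Real.dist_eq, max_le_iff, abs_le, abs_le] at hpq
  obtain ⟨⟨b1, b2⟩, b3, b4⟩ := hpq
  have e : sqr c s ∩ closedBall q (2 * δ) = (Icc c.1 (c.1 + s) ∩ Icc (q.1 - 2 * δ) (q.1 + 2 * δ)) ×ˢ
      (Icc c.2 (c.2 + s) ∩ Icc (q.2 - 2 * δ) (q.2 + 2 * δ)) := by
    obtain ⟨x, y⟩ := q
    rw [← closedBall_prod_same, sqr, prod_inter_prod, Real.closedBall_eq_Icc,
      Real.closedBall_eq_Icc]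
  rw [e, Measure.volume_eq_prod, Measure.prod_prod, sq,
    ENNReal.ofReal_mul (le_min hs hδ)]
  exact mul_le_mul' (icc_inter_len a1 a2 (by linarith) (by linarith))
    (icc_inter_len a3 a4 (by linarith) (by linarith))

theorem volume_closedBall_plane (q : ℝ × ℝ) {ρ : ℝ} (hρ : 0 ≤ ρ) :
    volume (closedBall q ρ) = ENNReal.ofReal (4 * ρ ^ 2) := by
  obtain ⟨a, b⟩ := q
  rw [← closedBall_prod_same, Measure.volume_eq_prod, Measure.prod_prod, Real.volume_closedBall,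
    Real.volume_closedBall, ← ENNReal.ofReal_mul (by positivity)]
  congr 1; ring

/-- disjoint squares which meet the ball of radius `δ` -/
theorem sum_sqr_le {ι : Type*} {c : ι → ℝ × ℝ} {s : ι → ℝ} (hs : ∀ i, 0 ≤ s i)
    (hd : Pairwise fun i j => Disjoint (sqr (c i) (s i)) (sqr (c j) (s j))) (q : ℝ × ℝ) {δ : ℝ}
    (hδ : 0 < δ) (F : Finset ι) (hF : ∀ i ∈ F, ∃ p ∈ sqr (c i) (s i), dist p q ≤ δ) :
    ∑ i ∈ F, (min 1 (2 / δ * s i)) ^ 2 ≤ 64 := by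
  have h1 : ∑ i ∈ F, ENNReal.ofReal (min (s i) δ ^ 2) ≤ ENNReal.ofReal (16 * δ ^ 2) := by
    calc ∑ i ∈ F, ENNReal.ofReal (min (s i) δ ^ 2)
        ≤ ∑ i ∈ F, volume (sqr (c i) (s i) ∩ closedBall q (2 * δ)) := by
          refine Finset.sum_le_sum fun i hi => ?_
          obtain ⟨p, hp, hpq⟩ := hF i hi
          exact sqr_inter_vol (hs i) hδ.le hp hpq
      _ = volume (⋃ i ∈ F, sqr (c i) (s i) ∩ closedBall q (2 * δ)) := by
          rw [measure_biUnion_finset]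
          · intro i _ j _ hij
            exact (hd hij).mono inter_subset_left inter_subset_left
          · intro i _
            exact (measurableSet_sqr _ _).inter measurableSet_closedBall
      _ ≤ volume (closedBall q (2 * δ)) :=
          measure_mono (iUnion₂_subset fun _ _ => inter_subset_right)
      _ = ENNReal.ofReal (16 * δ ^ 2) := by
          rw [volume_closedBall_plane q (by positivity)]; congr 1; ring
  rw [← ENNReal.ofReal_sum_of_nonneg (fun i _ => sq_nonneg _)] at h1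
  have h2 : ∑ i ∈ F, min (s i) δ ^ 2 ≤ 16 * δ ^ 2 :=
    (ENNReal.ofReal_le_ofReal_iff (by positivity)).1 h1
  have h3 : ∀ i ∈ F, (min 1 (2 / δ * s i)) ^ 2 ≤ 4 / δ ^ 2 * min (s i) δ ^ 2 := by
    intro i _
    have e : 4 / δ ^ 2 * min (s i) δ ^ 2 = (2 / δ * min (s i) δ) ^ 2 := by field_simp; ring
    rw [e]
    refine pow_le_pow_left₀ (le_min zero_le_one (by have := hs i; positivity)) ?_ 2
    rcases le_total (s i) δ with h | h
    · rw [min_eq_left h]; exact min_le_right _ _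
    · rw [min_eq_right h]
      refine (min_le_left _ _).trans ?_
      rw [div_mul_cancel₀ _ hδ.ne']; norm_num
  refine (Finset.sum_le_sum h3).trans ?_
  rw [← Finset.mul_sum]
  calc 4 / δ ^ 2 * ∑ i ∈ F, min (s i) δ ^ 2 ≤ 4 / δ ^ 2 * (16 * δ ^ 2) :=
        mul_le_mul_of_nonneg_left h2 (by positivity)
    _ = 64 := by field_simp; norm_num




end Crest.Agent.R105.Sin_925
end

-- ▼ part R105/SqK_87
section

/-! Row 105, S0138, exact squares: no atoms. For 247's `HalfQ` with disjoint closed squares: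
`μ {p} = 0` off the charged squares, and the measures `νp i`, `νm i` of the charged squares have no
atoms (if `μ` has none on them). -/

set_option autoImplicit false

open Set Filter MeasureTheory Topology
open scoped ENNReal NNReal

namespace Crest.Agent.R105.SqK_87

open CF_363 Kin_238 Kkt_238 Knq_247
open Sin_891 (bmp bmp_nonneg bmp_le_one bmp_eq_one bmp_eq_zero bmp_lip bmp_SL
  volume_closedBall_plane)
open Sin_925 (sqr mem_sqr isCompact_sqr dist_le_sqr sum_sqr_le)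

/-- sequences bounded in `ℓ²` against a fixed `ℓ²` weight: termwise limits give the limit of the
sums -/
theorem weak0 {ι : Type*} {f : ι → ℝ} (fs : Summable fun i => f i ^ 2) {l g : ℕ → ι → ℝ} {M : ℝ}
    (hg : ∀ n (T : Finset ι), ∑ i ∈ T, g n i ^ 2 ≤ M) (hl : ∀ n i, |l n i| ≤ f i * g n i)
    {l0 : ι → ℝ} (hlim : ∀ i, Tendsto (fun n => l n i) atTop (𝓝 (l0 i))) :
    Tendsto (fun n => ∑' i, l n i) atTop (𝓝 (∑' i, l0 i)) := by
  classical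
  have hM : 0 ≤ M := by simpa using hg 0 ∅
  have key : ∀ δ > 0, ∀ n (T : Finset ι), ∑ i ∈ T, |l n i| ≤ δ⁻¹ * ∑ i ∈ T, f i ^ 2 + δ * M := by
    intro δ hδ n T
    have h1 : ∀ i ∈ T, |l n i| ≤ δ⁻¹ * f i ^ 2 + δ * g n i ^ 2 := by
      intro i _
      have h2 := hl n i
      have h3 : 0 ≤ f i * g n i := (abs_nonneg _).trans h2
      have e : δ⁻¹ * f i ^ 2 + δ * g n i ^ 2 =
          δ⁻¹ * (f i - δ * g n i) ^ 2 + 2 * (f i * g n i) := by field_simp; ring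
      have h4 : 0 ≤ δ⁻¹ * (f i - δ * g n i) ^ 2 := by positivity
      linarith
    refine (Finset.sum_le_sum h1).trans ?_
    rw [Finset.sum_add_distrib, ← Finset.mul_sum, ← Finset.mul_sum]
    have := mul_le_mul_of_nonneg_left (hg n T) hδ.le
    linarith
  have key0 : ∀ δ > 0, ∀ T : Finset ι, ∑ i ∈ T, |l0 i| ≤ δ⁻¹ * ∑ i ∈ T, f i ^ 2 + δ * M :=
    fun δ hδ T => le_of_tendsto' (tendsto_finsetSum _ fun i _ => (hlim i).abs)
      fun n => key δ hδ n T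
  have hF : ∀ T : Finset ι, ∑ i ∈ T, f i ^ 2 ≤ ∑' i, f i ^ 2 := fun T =>
    fs.sum_le_tsum T fun i _ => sq_nonneg _
  have hsum : ∀ u : ι → ℝ,
      (∀ δ > 0, ∀ T : Finset ι, ∑ i ∈ T, |u i| ≤ δ⁻¹ * ∑ i ∈ T, f i ^ 2 + δ * M) → Summable u := by
    intro u hu
    refine Summable.of_abs (summable_of_sum_le (c := ∑' i, f i ^ 2 + M) (fun i => abs_nonneg _)
      fun T => ?_)
    have h1 := hu 1 one_pos T
    have h2 := hF T
    rw [inv_one, one_mul, one_mul] at h1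
    linarith
  have s1 : ∀ n, Summable (l n) := fun n => hsum _ fun δ hδ T => key δ hδ n T
  have s0 : Summable l0 := hsum _ key0
  rw [Metric.tendsto_atTop]
  intro ε hε
  set δ := ε / (8 * (M + 1)) with hδ
  have hδ0 : 0 < δ := by positivity
  have hδM : δ * M ≤ ε / 8 := by
    rw [hδ, div_mul_eq_mul_div, div_le_div_iff₀ (by positivity) (by norm_num)]
    nlinarith
  obtain ⟨T, hT⟩ : ∃ T : Finset ι, ∑' i, f i ^ 2 - δ * (ε / 8) < ∑ i ∈ T, f i ^ 2 := by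
    have h1 : ∀ᶠ T : Finset ι in atTop, ∑' i, f i ^ 2 - δ * (ε / 8) < ∑ i ∈ T, f i ^ 2 :=
      fs.hasSum.eventually (lt_mem_nhds (by have : 0 < δ * (ε / 8) := by positivity
                                            linarith))
    exact h1.exists
  -- tails
  have tail : ∀ u : ι → ℝ, Summable u →
      (∀ δ > 0, ∀ T : Finset ι, ∑ i ∈ T, |u i| ≤ δ⁻¹ * ∑ i ∈ T, f i ^ 2 + δ * M) →
      |∑' i, u i - ∑ i ∈ T, u i| ≤ ε / 4 := by
    intro u hu1 hu2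
    have h1 : ∑' i, u i = ∑ i ∈ T, u i + ∑' i, (if i ∈ T then 0 else u i) := by
      have h2 : ∀ i, u i = (if i ∈ T then u i else 0) + (if i ∈ T then 0 else u i) := by
        intro i; split_ifs <;> simp
      have h3 : Summable fun i => (if i ∈ T then u i else 0) :=
        summable_of_ne_finset_zero (s := T) fun i hi => by simp [hi]
      have h4 : Summable fun i => (if i ∈ T then 0 else u i) := by
        have := hu1.sub h3
        refine this.congr fun i => ?_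
        split_ifs <;> simp
      have h5 := h3.tsum_add h4
      rw [tsum_eq_sum (s := T) (f := fun i => (if i ∈ T then u i else 0))
        (fun i hi => by simp [hi])] at h5
      rw [tsum_congr h2, h5]
      congr 1
      exact Finset.sum_congr rfl fun i hi => by simp [hi]
    rw [h1, add_sub_cancel_left]
    have h6 : ∀ T' : Finset ι, ∑ i ∈ T', |(if i ∈ T then 0 else u i)| ≤ ε / 4 := by
      intro T'
      have h7 : ∑ i ∈ T', |(if i ∈ T then 0 else u i)| = ∑ i ∈ T' \ T, |u i| := by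
        have h70 : ∑ i ∈ T' \ T, |u i| = ∑ i ∈ T' \ T, |(if i ∈ T then 0 else u i)| :=
          Finset.sum_congr rfl fun i hi => by rw [if_neg (Finset.mem_sdiff.1 hi).2]
        rw [h70]
        refine (Finset.sum_subset Finset.sdiff_subset fun i hi hi' => ?_).symm
        have h71 : i ∈ T := by
          by_contra hcon
          exact hi' (Finset.mem_sdiff.2 ⟨hi, hcon⟩)
        rw [if_pos h71, abs_zero]
      rw [h7]
      refine (hu2 δ hδ0 _).trans ?_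
      have h8 : ∑ i ∈ T' \ T, f i ^ 2 + ∑ i ∈ T, f i ^ 2 ≤ ∑' i, f i ^ 2 := by
        rw [← Finset.sum_union Finset.sdiff_disjoint]
        exact hF _
      have h9 : ∑ i ∈ T' \ T, f i ^ 2 ≤ δ * (ε / 8) := by linarith
      have h10 : δ⁻¹ * ∑ i ∈ T' \ T, f i ^ 2 ≤ ε / 8 := by
        rw [inv_mul_le_iff₀ hδ0]; exact h9
      linarith
    have h11 : Summable fun i => |(if i ∈ T then 0 else u i)| :=
      summable_of_sum_le (fun i => abs_nonneg _) h6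
    refine le_trans ?_ (Real.tsum_le_of_sum_le (fun i => abs_nonneg _) h6)
    have h12 := norm_tsum_le_tsum_norm (f := fun i => (if i ∈ T then 0 else u i))
      (by simpa [Real.norm_eq_abs] using h11)
    simpa [Real.norm_eq_abs] using h12
  have hfin : Tendsto (fun n => ∑ i ∈ T, l n i) atTop (𝓝 (∑ i ∈ T, l0 i)) :=
    tendsto_finsetSum _ fun i _ => hlim i
  obtain ⟨N, hN⟩ := (Metric.tendsto_atTop.1 hfin) (ε / 4) (by positivity)
  refine ⟨N, fun n hn => ?_⟩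
  have h1 := hN n hn
  rw [Real.dist_eq] at h1 ⊢
  have h2 := abs_le.1 (tail (l n) (s1 n) fun δ hδ T => key δ hδ n T)
  have h3 := abs_le.1 (tail l0 s0 key0)
  have h4 := abs_lt.1 h1
  rw [abs_lt]
  constructor <;> linarith [h2.1, h2.2, h3.1, h3.2, h4.1, h4.2]

section bump

variable {p : ℝ × ℝ} {r : ℝ}

theorem bmp_cont (hr : 0 < r) : Continuous (bmp p r) := by
  have h : LipschitzWith ⟨r⁻¹, by positivity⟩ (bmp p r) :=
    LipschitzWith.of_dist_le_mul fun x y => by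
      rw [Real.dist_eq]; exact bmp_lip hr x y
  exact h.continuous

/-- integrals of shrinking bumps -/
theorem bmp_lim (ν : Measure (ℝ × ℝ)) [IsFiniteMeasure ν] {r : ℕ → ℝ} (hr : ∀ n, 0 < r n)
    (hr0 : Tendsto r atTop (𝓝 0)) (p : ℝ × ℝ) :
    Tendsto (fun n => ∫ z, bmp p (r n) z ∂ν) atTop (𝓝 (ν.real {p})) := by
  have h1 : ∫ z, ({p} : Set (ℝ × ℝ)).indicator (fun _ => (1:ℝ)) z ∂ν = ν.real {p} := by
    rw [integral_indicator (measurableSet_singleton p)]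
    simp [Measure.real]
  rw [← h1]
  refine tendsto_integral_of_dominated_convergence (fun _ => (1:ℝ))
    (fun n => (bmp_cont (hr n)).aestronglyMeasurable) (integrable_const _)
    (fun n => ae_of_all _ fun z => ?_) (ae_of_all _ fun z => ?_)
  · rw [Real.norm_of_nonneg (bmp_nonneg _ _ _)]; exact bmp_le_one _ _ _
  · by_cases hz : z = p
    · subst hz
      simp only [indicator_of_mem (mem_singleton z)]
      refine tendsto_const_nhds.congr fun n => ?_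
      rw [bmp_eq_one (hr n) (by simpa using (hr n).le)]
    · rw [indicator_of_notMem (by simpa using hz)]
      have hd : 0 < dist z p := dist_pos.2 hz
      have h2 : ∀ᶠ n in atTop, r n < dist z p / 2 := hr0.eventually (gt_mem_nhds (by positivity))
      refine tendsto_const_nhds.congr' ?_
      filter_upwards [h2] with n hn
      exact (bmp_eq_zero (hr n) (by linarith)).symm

end bump

variable {ι : Type*} {a b c B : ℝ} {𝓗 : Set Hair} {Q : ι → Set (ℝ × ℝ)} {S C : Set (ℝ × ℝ)}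
  {X1 X2 : ℝ × ℝ → ℝ} {f : ι → ℝ} {νp νm : ι → Measure (ℝ × ℝ)} {μ : Measure (ℝ × ℝ)}
  {e : ℝ × ℝ → ℝ}

/-- the charged sets are pairwise disjoint closed squares -/
structure SqG (Q : ι → Set (ℝ × ℝ)) (q : ι → ℝ × ℝ) (s : ι → ℝ) : Prop where
  eq : ∀ i, Q i = sqr (q i) (s i)
  s0 : ∀ i, 0 ≤ s i
  dis : Pairwise fun i j => Disjoint (sqr (q i) (s i)) (sqr (q j) (s j))

/-- a small bump is an admissible test function -/
theorem bmp_mem_Vq {p : ℝ × ℝ} {r : ℝ} (hr : 0 < r) (hp : c + 2 * r < p.2) :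
    bmp p r ∈ Vq 𝓗 a b c B Q := by
  refine ⟨⟨⟨∅, by simp, ⟨r⁻¹, 1, by positivity, bmp_SL hr _, fun z _ => ?_⟩⟩,
    p.2 - c - 2 * r, by linarith, fun z _ hz => ?_⟩, fun i => (bmp_cont hr).continuousOn⟩
  · rw [abs_of_nonneg (bmp_nonneg _ _ _)]; exact bmp_le_one _ _ _
  · refine bmp_eq_zero hr ?_
    rw [Prod.dist_eq]
    refine le_trans ?_ (le_max_right _ _)
    rw [Real.dist_eq, abs_sub_comm]
    exact le_trans (by linarith) (le_abs_self _)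

theorem osc_bmp_le {p : ℝ × ℝ} {r : ℝ} (hr : 0 < r) {q : ℝ × ℝ} {s : ℝ} (hs : 0 ≤ s)
    {T : Set (ℝ × ℝ)} (hT : T ⊆ sqr q s) :
    osc T (bmp p r) ≤ min 1 (2 / (2 * r) * s) := by
  refine osc_le (le_min zero_le_one (by positivity)) fun z hz w hw => le_min ?_ ?_
  · have := bmp_nonneg p r z
    have := bmp_le_one p r z
    have := bmp_nonneg p r w
    have := bmp_le_one p r w
    rw [abs_le]; constructor <;> linarith
  · refine (bmp_lip hr z w).trans ?_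
    have h1 := dist_le_sqr (hT hz) (hT hw)
    have h2 : 2 / (2 * r) = r⁻¹ := by field_simp
    rw [h2]
    exact mul_le_mul_of_nonneg_left h1 (by positivity)

theorem osc_bmp_zero {p : ℝ × ℝ} {r : ℝ} (hr : 0 < r) {T : Set (ℝ × ℝ)}
    (hT : ∀ z ∈ T, 2 * r ≤ dist z p) : osc T (bmp p r) = 0 := by
  refine le_antisymm (osc_le le_rfl fun z hz w hw => ?_) (osc_nonneg _ _)
  rw [bmp_eq_zero hr (hT z hz), bmp_eq_zero hr (hT w hw)]
  simp

/-- the bulk term tends to zero -/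
theorem bulk_lim {W : Set (ℝ × ℝ)}
    (L1 : MemLp X1 2 (volume : Measure (ℝ × ℝ))) (L2 : MemLp X2 2 (volume : Measure (ℝ × ℝ)))
    {p : ℝ × ℝ} {r : ℕ → ℝ} (hr : ∀ n, 0 < r n) (hra : Antitone r)
    (hr0 : Tendsto r atTop (𝓝 0)) :
    Tendsto (fun n => ∫ z in W, (X1 z * gx (bmp p (r n)) z + X2 z * gy (bmp p (r n)) z))
      atTop (𝓝 0) := by
  rw [tendsto_zero_iff_norm_tendsto_zero]
  have hsq : Integrable (fun z => X1 z ^ 2 + X2 z ^ 2) (volume : Measure (ℝ × ℝ)) :=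
    L1.integrable_sq.add L2.integrable_sq
  set K : ℕ → Set (ℝ × ℝ) := fun n => Metric.closedBall p (2 * r n) with hK
  have hKm : ∀ n, MeasurableSet (K n) := fun n => measurableSet_closedBall
  have hv : Tendsto (fun n => ∫ z in K n, (X1 z ^ 2 + X2 z ^ 2)) atTop (𝓝 0) := by
    have h1 := tendsto_setIntegral_of_antitone (s := K) (f := fun z => X1 z ^ 2 + X2 z ^ 2)
      (μ := (volume : Measure (ℝ × ℝ))) (fun n => hKm n)
      (fun i j hij => Metric.closedBall_subset_closedBall (by linarith [hra hij]))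
      ⟨0, hsq.integrableOn⟩
    have h2 : (⋂ n, K n) = {p} := by
      ext z
      simp only [hK, mem_iInter, Metric.mem_closedBall, mem_singleton_iff]
      constructor
      · intro h
        rw [← dist_le_zero]
        have h3 : Tendsto (fun n => 2 * r n) atTop (𝓝 0) := by simpa using hr0.const_mul 2
        exact ge_of_tendsto' h3 h
      · rintro rfl n
        have := hr n
        simpa using this.le
    rw [h2] at h1
    have h4 : (volume : Measure (ℝ × ℝ)).restrict {p} = 0 := by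
      rw [Measure.restrict_eq_zero]; exact measure_singleton _
    rw [h4, integral_zero_measure] at h1
    exact h1
  refine tendsto_zero_of_le (A := 32) (fun n => norm_nonneg _) (by norm_num)
    (fun n δ hδ => ?_) hv
  have hpt : ∀ z, ‖X1 z * gx (bmp p (r n)) z + X2 z * gy (bmp p (r n)) z‖ ≤
      (K n).indicator (fun z => δ * (2 * (r n)⁻¹ ^ 2) + δ⁻¹ * (X1 z ^ 2 + X2 z ^ 2)) z := by
    intro z
    by_cases hz : z ∈ K n
    · rw [indicator_of_mem hz, Real.norm_eq_abs]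
      have h1 : g2 (bmp p (r n)) z ≤ 2 * (r n)⁻¹ ^ 2 :=
        (bmp_SL (hr n) univ).g2_le isOpen_univ (inv_nonneg.2 (hr n).le) (mem_univ z)
      unfold g2 at h1
      set u := gx (bmp p (r n)) z
      set v := gy (bmp p (r n)) z
      have h2 : δ * (u ^ 2 + v ^ 2) ≤ δ * (2 * (r n)⁻¹ ^ 2) := mul_le_mul_of_nonneg_left h1 hδ.le
      have e1 : δ⁻¹ * (X1 z ^ 2 + X2 z ^ 2) + δ * (u ^ 2 + v ^ 2) - 2 * (X1 z * u + X2 z * v) =
          δ⁻¹ * ((X1 z - δ * u) ^ 2 + (X2 z - δ * v) ^ 2) := by field_simp; ring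
      have e2 : δ⁻¹ * (X1 z ^ 2 + X2 z ^ 2) + δ * (u ^ 2 + v ^ 2) + 2 * (X1 z * u + X2 z * v) =
          δ⁻¹ * ((X1 z + δ * u) ^ 2 + (X2 z + δ * v) ^ 2) := by field_simp; ring
      have h3 : 0 ≤ δ⁻¹ * ((X1 z - δ * u) ^ 2 + (X2 z - δ * v) ^ 2) := by positivity
      have h4 : 0 ≤ δ⁻¹ * ((X1 z + δ * u) ^ 2 + (X2 z + δ * v) ^ 2) := by positivity
      have h5 : 0 ≤ δ⁻¹ * (X1 z ^ 2 + X2 z ^ 2) := by positivity
      have h6 : 0 ≤ δ * (u ^ 2 + v ^ 2) := by positivity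
      rw [abs_le]
      constructor <;> linarith
    · rw [indicator_of_notMem hz]
      have h0 : bmp p (r n) =ᶠ[𝓝 z] fun _ => (0:ℝ) := by
        filter_upwards [Metric.isClosed_closedBall.isOpen_compl.mem_nhds hz] with w hw
        rw [mem_compl_iff, Metric.mem_closedBall, not_le] at hw
        exact bmp_eq_zero (hr n) hw.le
      have h1 : gx (bmp p (r n)) z = 0 := by
        rw [gx_congr h0]; simp [gx]
      have h2 : gy (bmp p (r n)) z = 0 := by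
        rw [gy_congr h0]; simp [gy]
      rw [h1, h2]; simp
  have hKfin : (volume : Measure (ℝ × ℝ)) (K n) ≠ ∞ := measure_closedBall_lt_top.ne
  have hint : Integrable ((K n).indicator
      (fun z => δ * (2 * (r n)⁻¹ ^ 2) + δ⁻¹ * (X1 z ^ 2 + X2 z ^ 2)))
      (volume : Measure (ℝ × ℝ)) := by
    rw [integrable_indicator_iff (hKm n)]
    exact (integrableOn_const hKfin).add (hsq.integrableOn.const_mul _)
  calc ‖∫ z in W, (X1 z * gx (bmp p (r n)) z + X2 z * gy (bmp p (r n)) z)‖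
      ≤ ∫ z in W, ‖X1 z * gx (bmp p (r n)) z + X2 z * gy (bmp p (r n)) z‖ :=
        norm_integral_le_integral_norm _
    _ ≤ ∫ z in W, (K n).indicator
          (fun z => δ * (2 * (r n)⁻¹ ^ 2) + δ⁻¹ * (X1 z ^ 2 + X2 z ^ 2)) z :=
        integral_mono_of_nonneg (ae_of_all _ fun z => norm_nonneg _) hint.integrableOn
          (ae_of_all _ hpt)
    _ ≤ ∫ z, (K n).indicator
          (fun z => δ * (2 * (r n)⁻¹ ^ 2) + δ⁻¹ * (X1 z ^ 2 + X2 z ^ 2)) z :=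
        setIntegral_le_integral hint (ae_of_all _ fun z =>
          (norm_nonneg _).trans (hpt z))
    _ = δ * 32 + δ⁻¹ * ∫ z in K n, (X1 z ^ 2 + X2 z ^ 2) := by
        have hc1 : Integrable (fun _ : ℝ × ℝ => δ * (2 * (r n)⁻¹ ^ 2))
            ((volume : Measure (ℝ × ℝ)).restrict (K n)) := integrableOn_const hKfin
        have hc2 : Integrable (fun z => δ⁻¹ * (X1 z ^ 2 + X2 z ^ 2))
            ((volume : Measure (ℝ × ℝ)).restrict (K n)) := hsq.integrableOn.const_mul _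
        rw [integral_indicator (hKm n), integral_add hc1 hc2, setIntegral_const,
          integral_const_mul, smul_eq_mul, Measure.real,
          volume_closedBall_plane p (by have := hr n; positivity)]
        congr 1
        have := (hr n).ne'
        field_simp
        ring

section main

variable {q : ι → ℝ × ℝ} {s : ι → ℝ}

/-- **point test**: the net flux of the charged squares into the point `p` is `μ {p}` -/
theorem point (H : QQ 𝓗 a b c B Q) (h : HalfQ 𝓗 a b c B S Q C X1 X2 f νp νm μ)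
    (G : SqG Q q s) {p : ℝ × ℝ} (hp : c < p.2) :
    ∑' i, ((νp i).real {p} - (νm i).real {p}) = μ.real {p} := by
  classical
  have := h.fin
  have := h.pfin
  have := h.mfin
  set R := (p.2 - c) / 4 with hR
  have hR0 : 0 < R := by rw [hR]; linarith
  set r : ℕ → ℝ := fun n => R / (n + 1) with hr
  have hr1 : ∀ n, 0 < r n := fun n => by simp only [hr]; positivity
  have hrR : ∀ n, r n ≤ R := fun n => div_le_self hR0.le (by
    have : (0:ℝ) ≤ n := Nat.cast_nonneg n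
    linarith)
  have hra : Antitone r := fun i j hij => by
    simp only [hr]
    refine div_le_div_of_nonneg_left hR0.le (by positivity) ?_
    have : (i:ℝ) ≤ j := by exact_mod_cast hij
    linarith
  have hr0 : Tendsto r atTop (𝓝 0) := by
    simp only [hr]
    have h1 := tendsto_one_div_add_atTop_nhds_zero_nat.const_mul R
    rw [mul_zero] at h1
    refine h1.congr fun n => ?_
    ring
  have hV : ∀ n, bmp p (r n) ∈ Vq 𝓗 a b c B Q := fun n =>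
    bmp_mem_Vq (hr1 n) (by have := hrR n; rw [hR] at this; linarith)
  have hCF : ∀ n, CF (Wl a b c B \ cut ∅) (bmp p (r n)) := fun n =>
    ⟨(r n)⁻¹, 1, by have := hr1 n; positivity, bmp_SL (hr1 n) _, fun z _ => by
      rw [abs_of_nonneg (bmp_nonneg _ _ _)]; exact bmp_le_one _ _ _⟩
  have hcut : μ (cut ∅) = 0 := by
    have : cut ∅ = (∅ : Set (ℝ × ℝ)) := by simp [cut]
    rw [this, measure_empty]
  have hid := fun n => h.F (bmp p (r n)) ∅ (hV n) (hCF n) hcut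
  have h1 := bulk_lim h.L1 h.L2 (p := p) hr1 hra hr0 (W := Wo a b c B \ S)
  have h2 := bmp_lim μ hr1 hr0 p
  have h3 : Tendsto (fun n => ∑' i, ((∫ z, bmp p (r n) z ∂(νp i)) - ∫ z, bmp p (r n) z ∂(νm i)))
      atTop (𝓝 (∑' i, ((νp i).real {p} - (νm i).real {p}))) := by
    refine weak0 h.fs (g := fun n i => osc (Q i ∩ Wl a b c B) (bmp p (r n))) (M := 64)
      (fun n T => ?_) (fun n i => h.abs_charge_le H (hV n) i)
      (fun i => (bmp_lim (νp i) hr1 hr0 p).sub (bmp_lim (νm i) hr1 hr0 p))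
    set T' := T.filter (fun i => ∃ z ∈ sqr (q i) (s i), dist z p ≤ 2 * r n) with hT'
    have h4 : ∑ i ∈ T, osc (Q i ∩ Wl a b c B) (bmp p (r n)) ^ 2 =
        ∑ i ∈ T', osc (Q i ∩ Wl a b c B) (bmp p (r n)) ^ 2 := by
      refine (Finset.sum_subset (Finset.filter_subset _ _) fun i hi hi' => ?_).symm
      have h5 : ∀ z ∈ Q i ∩ Wl a b c B, 2 * r n ≤ dist z p := by
        intro z hz
        by_contra hcon
        rw [not_le] at hcon
        refine hi' (Finset.mem_filter.2 ⟨hi, z, ?_, hcon.le⟩)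
        rw [← G.eq i]; exact hz.1
      rw [osc_bmp_zero (hr1 n) h5]
      norm_num
    rw [h4]
    refine le_trans (Finset.sum_le_sum fun i _ => ?_)
      (sum_sqr_le G.s0 G.dis p (δ := 2 * r n) (by have := hr1 n; positivity) T' fun i hi =>
        (Finset.mem_filter.1 hi).2)
    refine pow_le_pow_left₀ (osc_nonneg _ _) (osc_bmp_le (hr1 n) (q := q i) (G.s0 i) ?_) 2
    rw [← G.eq i]; exact inter_subset_left
  have h6 := (h1.add h3).congr hid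
  rw [zero_add] at h6
  exact tendsto_nhds_unique h6 h2

/-- `μ` has no point masses off the charged squares -/
theorem nopt (H : QQ 𝓗 a b c B Q) (h : HalfQ 𝓗 a b c B S Q C X1 X2 f νp νm μ)
    (hC : C ⊆ Wl a b c B) (G : SqG Q q s) {p : ℝ × ℝ}
    (hp : ∀ i, p ∉ Q i) : μ {p} = 0 := by
  have := h.fin
  by_cases hpC : p ∈ C
  · have h1 := point H h G (hC hpC).2.1
    have h2 : ∀ i, (νp i).real {p} - (νm i).real {p} = 0 := by
      intro i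
      have h3 : ({p} : Set (ℝ × ℝ)) ⊆ (Q i ∩ Wl a b c B)ᶜ := by
        rintro z rfl hz
        exact hp i hz.1
      rw [Measure.real, Measure.real, measure_mono_null h3 (h.pc i),
        measure_mono_null h3 (h.mc i)]
      simp
    simp only [h2, tsum_zero] at h1
    exact (measureReal_eq_zero_iff (by finiteness)).1 h1.symm
  · exact measure_mono_null (by rintro z rfl; exact hpC) h.carried

/-- no common atoms -/
theorem noboth (H : QQ 𝓗 a b c B Q) (h : HalfQ 𝓗 a b c B S Q C X1 X2 f νp νm μ) (i : ι)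
    {p : ℝ × ℝ} {α : ℝ} (hα : 0 < α) (h1 : α ≤ (νp i).real {p}) (h2 : α ≤ (νm i).real {p}) :
    False := by
  have := h.pfin i
  have := h.mfin i
  obtain ⟨E, hE, hg, ho, hl⟩ := h.cl
  set T := Q i ∩ Wl a b c B with hT
  have hpT : p ∈ T := by
    by_contra hcon
    have h3 : (νp i) {p} = 0 := measure_mono_null (by rintro z rfl; exact hcon) (h.pc i)
    rw [Measure.real, h3] at h1
    simp only [ENNReal.toReal_zero] at h1
    linarith
  have hTm : MeasurableSet T := (H.cpt i).isClosed.measurableSet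
  have hfα : α ≤ f i := h1.trans ((measureReal_mono (subset_univ _)).trans (h.pm i).le)
  -- one function
  have main : ∀ e ∈ Vq 𝓗 a b c B Q,
      (∫ z, e z ∂(νp i)) - ∫ z, e z ∂(νm i) ≤ (f i - α) * osc T e := by
    intro e he
    obtain ⟨z1, hz1, hmax⟩ := (H.cpt i).exists_isMaxOn ⟨p, hpT⟩ (he.2 i)
    obtain ⟨z2, hz2, hmin⟩ := (H.cpt i).exists_isMinOn ⟨p, hpT⟩ (he.2 i)
    obtain ⟨M, hM⟩ := H.bo he i
    have hone : ∀ ν : Measure (ℝ × ℝ), IsFiniteMeasure ν → ν Tᶜ = 0 → ν.real univ = f i →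
        α ≤ ν.real {p} → α * e p + (f i - α) * e z2 ≤ ∫ z, e z ∂ν ∧
          ∫ z, e z ∂ν ≤ α * e p + (f i - α) * e z1 := by
      intro ν hν hc hm hαν
      have hae : ∀ᵐ z ∂ν, z ∈ T := by rw [ae_iff]; exact hc
      have hres : ν.restrict T = ν := Measure.restrict_eq_self_of_ae_mem hae
      have hmeas : AEStronglyMeasurable e ν := by
        rw [← hres]; exact (he.2 i).aestronglyMeasurable hTm
      have hint : Integrable e ν := Integrable.of_bound hmeas M (by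
        filter_upwards [hae] with z hz using by simpa using hM z hz)
      have hsplit : ∫ z, e z ∂ν = e p * ν.real {p} + ∫ z in {p}ᶜ, e z ∂ν := by
        rw [← integral_add_compl (measurableSet_singleton p) hint]
        congr 1
        rw [integral_singleton, smul_eq_mul, mul_comm]
      have hmass : ν.real ({p}ᶜ : Set (ℝ × ℝ)) = f i - ν.real {p} := by
        rw [measureReal_compl (measurableSet_singleton p), hm]
      have hcst : ∀ k : ℝ, ∫ _ in ({p}ᶜ : Set (ℝ × ℝ)), k ∂ν = k * (f i - ν.real {p}) := fun k => by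
        rw [setIntegral_const, hmass, smul_eq_mul, mul_comm]
      have hup : ∫ z in {p}ᶜ, e z ∂ν ≤ e z1 * (f i - ν.real {p}) := by
        rw [← hcst]
        refine integral_mono_ae hint.integrableOn (integrable_const _) ?_
        filter_upwards [ae_restrict_of_ae hae] with z hz using hmax hz
      have hlo : e z2 * (f i - ν.real {p}) ≤ ∫ z in {p}ᶜ, e z ∂ν := by
        rw [← hcst]
        refine integral_mono_ae (integrable_const _) hint.integrableOn ?_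
        filter_upwards [ae_restrict_of_ae hae] with z hz using hmin hz
      have hp1 : e p ≤ e z1 := hmax hpT
      have hp2 : e z2 ≤ e p := hmin hpT
      rw [hsplit]
      constructor <;> nlinarith
    have hA := (hone (νp i) ‹_› (h.pc i) (h.pm i) h1).2
    have hB := (hone (νm i) ‹_› (h.mc i) (h.mm i) h2).1
    have hC := (abs_le.1 (le_osc (H.bo he i) hz1 hz2)).2
    have hD := mul_le_mul_of_nonneg_left hC (sub_nonneg.2 hfα)
    nlinarith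
  -- the oscillation tends to `f i`
  have hosc : Tendsto (fun n => osc T (E n)) atTop (𝓝 (f i)) := by
    have h4 : Tendsto (fun n => (osc T (E n) - f i) ^ 2) atTop (𝓝 0) := by
      refine squeeze_zero (fun n => sq_nonneg _) (fun n => ?_) ho
      have h5 : Summable fun j => (osc (Q j ∩ Wl a b c B) (E n) - f j) ^ 2 := by
        refine Summable.of_nonneg_of_le (fun j => sq_nonneg _) (fun j => ?_)
          (((H.summable (hE n)).add h.fs).mul_left 2)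
        nlinarith [sq_nonneg (osc (Q j ∩ Wl a b c B) (E n) + f j)]
      exact h5.le_tsum i fun j _ => sq_nonneg _
    have h6 : Tendsto (fun n => |osc T (E n) - f i|) atTop (𝓝 0) := by
      have := h4.sqrt
      simpa [Real.sqrt_sq_eq_abs] using this
    rw [tendsto_iff_norm_sub_tendsto_zero]
    simpa [Real.norm_eq_abs] using h6
  have h7 : f i ^ 2 ≤ (f i - α) * f i :=
    le_of_tendsto_of_tendsto' (hl i) (hosc.const_mul (f i - α)) fun n => main _ (hE n)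
  nlinarith

/-- **no atoms on the charged squares** -/
theorem na (H : QQ 𝓗 a b c B Q) (h : HalfQ 𝓗 a b c B S Q C X1 X2 f νp νm μ)
    (G : SqG Q q s) (hμ : ∀ i, ∀ p ∈ Q i ∩ Wl a b c B, μ {p} = 0)
    (i : ι) (p : ℝ × ℝ) : νp i {p} = 0 ∧ νm i {p} = 0 := by
  have := h.pfin
  have := h.mfin
  have hout : ∀ j, p ∉ Q j ∩ Wl a b c B → νp j {p} = 0 ∧ νm j {p} = 0 := fun j hj =>
    ⟨measure_mono_null (by rintro z rfl; exact hj) (h.pc j),
      measure_mono_null (by rintro z rfl; exact hj) (h.mc j)⟩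
  by_cases hpi : p ∈ Q i ∩ Wl a b c B
  · have h1 := point H h G hpi.2.2.1
    rw [tsum_eq_single i] at h1
    · have h2 : (νp i).real {p} = (νm i).real {p} := by
        rw [measureReal_def μ, hμ i p hpi] at h1
        simp only [ENNReal.toReal_zero] at h1
        linarith
      have h3 : (νp i).real {p} = 0 := by
        by_contra hne
        have h4 : 0 < (νp i).real {p} := lt_of_le_of_ne measureReal_nonneg (Ne.symm hne)
        exact noboth H h i h4 le_rfl h2.le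
      refine ⟨(measureReal_eq_zero_iff (by finiteness)).1 h3, ?_⟩
      rw [h2] at h3
      exact (measureReal_eq_zero_iff (by finiteness)).1 h3
    · intro j hj
      have h5 : p ∉ Q j ∩ Wl a b c B := by
        intro hpj
        have h6 := Set.disjoint_left.1 (G.dis hj) (by rw [← G.eq j]; exact hpj.1)
        exact h6 (by rw [← G.eq i]; exact hpi.1)
      obtain ⟨h7, h8⟩ := hout j h5
      rw [Measure.real, Measure.real, h7, h8]
      simp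
  · exact hout i hpi

end main

end Crest.Agent.R105.SqK_87
end

-- ▼ part R105/SqJe_361
section

/-! Row 105, S0138, Lemma A with exact squares: the box problem of a picture (helper361).
Geometry: the charged squares cut at the level `B`. -/

set_option autoImplicit false

open MeasureTheory Set Filter Topology Metric
open scoped NNReal ENNReal

namespace Crest.Agent.R105.SqJ_361

open Crest.Agent.R105.CF_363 Crest.Agent.R105.Sq_87 Crest.Agent.R105.Kin_238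
open Crest.Agent.R105.Cq_463 Crest.Agent.R105.Exs_992
open Crest.Agent.R105.Knq_247 (QQ)

variable {E : Set (ℝ × ℝ)} {𝒬 𝒬' : Set Sqr} {𝓗 : Set Hair} {a b c d B : ℝ}

/-- a picture in a box, the hairs are pairwise disjoint -/
structure BoxP (E : Set (ℝ × ℝ)) (𝒬 : Set Sqr) (𝓗 : Set Hair) (a b c d : ℝ) : Prop where
  pic : PicS E 𝒬 𝓗
  dis : ∀ K ∈ 𝓗, ∀ K' ∈ 𝓗, K ≠ K' → Disjoint K.car K'.car
  box : E ⊆ Ioo a b ×ˢ Ioo c d

/-- the squares of `𝒬'` which meet the lower half -/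
abbrev Ix (𝒬' : Set Sqr) (B : ℝ) : Type := {i : {Q : Sqr // Q ∈ 𝒬'} // i.1.y < B}

/-- the squares of `𝒬'` cut at the level `B` -/
noncomputable def cutR (𝒬' : Set Sqr) (B : ℝ) : Rects (Ix 𝒬' B) where
  x i := i.1.1.x + i.1.1.s / 2
  y i := (i.1.1.y + min (i.1.1.y + i.1.1.s) B) / 2
  h1 i := i.1.1.s / 2
  h2 i := (min (i.1.1.y + i.1.1.s) B - i.1.1.y) / 2
  p1 i := by
    have := i.1.1.hs
    linarith
  p2 i := by
    have h1 := i.1.1.hs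
    have h2 := i.2
    have : i.1.1.y < min (i.1.1.y + i.1.1.s) B := lt_min (by linarith) h2
    linarith

theorem cutR_op (i : Ix 𝒬' B) : (cutR 𝒬' B).op i =
    Ioo i.1.1.x (i.1.1.x + i.1.1.s) ×ˢ Ioo i.1.1.y (min (i.1.1.y + i.1.1.s) B) := by
  have e1 : (cutR 𝒬' B).x i - (cutR 𝒬' B).h1 i = i.1.1.x := by simp only [cutR]; ring
  have e2 : (cutR 𝒬' B).x i + (cutR 𝒬' B).h1 i = i.1.1.x + i.1.1.s := by simp only [cutR]; ring
  have e3 : (cutR 𝒬' B).y i - (cutR 𝒬' B).h2 i = i.1.1.y := by simp only [cutR]; ring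
  have e4 : (cutR 𝒬' B).y i + (cutR 𝒬' B).h2 i = min (i.1.1.y + i.1.1.s) B := by
    simp only [cutR]; ring
  rw [Rects.op, e1, e2, e3, e4]

theorem cutR_cl (i : Ix 𝒬' B) : cl (cutR 𝒬' B) i =
    Icc i.1.1.x (i.1.1.x + i.1.1.s) ×ˢ Icc i.1.1.y (min (i.1.1.y + i.1.1.s) B) := by
  have e1 : (cutR 𝒬' B).x i - (cutR 𝒬' B).h1 i = i.1.1.x := by simp only [cutR]; ring
  have e2 : (cutR 𝒬' B).x i + (cutR 𝒬' B).h1 i = i.1.1.x + i.1.1.s := by simp only [cutR]; ring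
  have e3 : (cutR 𝒬' B).y i - (cutR 𝒬' B).h2 i = i.1.1.y := by simp only [cutR]; ring
  have e4 : (cutR 𝒬' B).y i + (cutR 𝒬' B).h2 i = min (i.1.1.y + i.1.1.s) B := by
    simp only [cutR]; ring
  rw [cl, rc, e1, e2, e3, e4]

/-- the closed rectangle is the part of the square at or below the level -/
theorem mem_cl {i : Ix 𝒬' B} {p : ℝ × ℝ} :
    p ∈ cl (cutR 𝒬' B) i ↔ p ∈ i.1.1.car ∧ p.2 ≤ B := by
  rw [cutR_cl, Sqr.mem_car, mem_prod, mem_Icc, mem_Icc, le_min_iff]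
  tauto

theorem mem_op {i : Ix 𝒬' B} {p : ℝ × ℝ} : p ∈ (cutR 𝒬' B).op i ↔
    (i.1.1.x < p.1 ∧ p.1 < i.1.1.x + i.1.1.s) ∧ (i.1.1.y < p.2 ∧ p.2 < i.1.1.y + i.1.1.s) ∧
      p.2 < B := by
  rw [cutR_op, mem_prod, mem_Ioo, mem_Ioo, lt_min_iff]
  tauto

theorem cl_sub_car (i : Ix 𝒬' B) : cl (cutR 𝒬' B) i ⊆ i.1.1.car := fun _ hp => (mem_cl.1 hp).1

theorem op_sub_car (i : Ix 𝒬' B) : (cutR 𝒬' B).op i ⊆ i.1.1.car :=
  (op_subset_cl _ i).trans (cl_sub_car i)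

/-- the set where the field vanishes, without the open charged rectangles -/
def Sl (E : Set (ℝ × ℝ)) (𝒬' : Set Sqr) (B : ℝ) : Set (ℝ × ℝ) :=
  (E ∩ {p | p.2 < B}) \ (cutR 𝒬' B).un

theorem un_sub (hsub : ∀ Q ∈ 𝒬', Q.car ⊆ E) : (cutR 𝒬' B).un ⊆ E ∩ {p | p.2 < B} := by
  refine iUnion_subset fun i p hp => ⟨hsub _ i.1.2 (op_sub_car i hp), ?_⟩
  exact (mem_op.1 hp).2.2

theorem countable_Ix (hc : 𝒬'.Countable) : Countable (Ix 𝒬' B) := by
  have : Countable {Q : Sqr // Q ∈ 𝒬'} := hc.to_subtype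
  infer_instance

section

variable (hP : BoxP E 𝒬 𝓗 a b c d) (h𝒬 : 𝒬' ⊆ 𝒬)
include hP h𝒬

theorem BoxP.countable : Countable (Ix 𝒬' B) :=
  countable_Ix (hP.pic.q.countable.mono h𝒬)

theorem BoxP.dis_car {i j : {Q : Sqr // Q ∈ 𝒬'}} (hij : i ≠ j) : Disjoint i.1.car j.1.car :=
  hP.pic.q.disjoint (h𝒬 i.2) (h𝒬 j.2) fun h => hij (Subtype.ext h)

theorem BoxP.cl_eq (i : Ix 𝒬' B) : i.1.1.car ∩ Wl a b c B = cl (cutR 𝒬' B) i := by
  ext p
  rw [mem_cl]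
  constructor
  · rintro ⟨h1, h2⟩
    exact ⟨h1, h2.2.2⟩
  · rintro ⟨h1, h2⟩
    have h3 := hP.box (hP.pic.q.sub _ (h𝒬 i.1.2) h1)
    exact ⟨h1, h3.1, h3.2.1, h2⟩

omit hP h𝒬 in
theorem empty_of_notMem (gen : ∀ Q ∈ 𝒬', Q.y ≠ B) (j : {Q : Sqr // Q ∈ 𝒬'})
    (hj : j ∉ range (Subtype.val : Ix 𝒬' B → {Q : Sqr // Q ∈ 𝒬'})) :
    j.1.car ∩ Wl a b c B = ∅ := by
  have h1 : ¬ j.1.y < B := fun h => hj ⟨⟨j, h⟩, rfl⟩
  have h2 := gen j.1 j.2
  rw [eq_empty_iff_forall_notMem]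
  rintro p ⟨h3, h4⟩
  have h5 := (Sqr.mem_car.1 h3).2.1
  have h6 := h4.2.2
  exact h2 (le_antisymm (by linarith) (not_lt.1 h1))

theorem BoxP.summable_s : Summable fun i : Ix 𝒬' B => i.1.1.s ^ 2 :=
  hP.pic.q.summable_sq.comp_injective
    (i := fun i : Ix 𝒬' B => (⟨i.1.1, h𝒬 i.1.2⟩ : 𝒬)) fun i j h => by
      have h1 := Subtype.ext_iff.1 h
      exact Subtype.ext (Subtype.ext h1)

/-- **geometry of the box problem** -/
theorem BoxP.rg : RG 𝓗 a b c B (cutR 𝒬' B) (E ∩ {p | p.2 < B}) where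
  dis := by
    intro i j hij
    exact (hP.dis_car h𝒬 fun h => hij (Subtype.ext h)).mono (cl_sub_car i) (cl_sub_car j)
  box := fun i => by
    rw [← hP.cl_eq h𝒬]
    exact inter_subset_right
  hq := by
    intro K hK i
    rw [Set.disjoint_left]
    intro p hp hpi
    have h1 := mem_op.1 hpi
    have h2 := hP.pic.att K hK i.1.1 (h𝒬 i.1.2) ⟨p, hp, op_sub_car i hpi⟩
    rcases h2 with h | h
    · linarith [hp.2.1, h1.2.1.2]
    · linarith [hp.2.2, h1.2.1.1]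
  mS := hP.pic.q.cpt.isClosed.measurableSet.inter (measurableSet_lt measurable_snd measurable_const)
  sub := un_sub fun Q hQ => hP.pic.q.sub Q (h𝒬 hQ)
  s1 := by
    have h1 : Summable fun i : Ix 𝒬' B => i.1.1.s ^ 2 := hP.summable_s h𝒬
    refine Summable.of_nonneg_of_le (fun _ => sq_nonneg _) (fun i => ?_) h1
    simp only [cutR]
    nlinarith [sq_nonneg i.1.1.s]
  s2 := by
    have h1 : Summable fun i : Ix 𝒬' B => i.1.1.s ^ 2 := hP.summable_s h𝒬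
    refine Summable.of_nonneg_of_le (fun _ => sq_nonneg _) (fun i => ?_) h1
    have h2 := (cutR 𝒬' B).p2 i
    have h3 : (cutR 𝒬' B).h2 i ≤ i.1.1.s := by
      simp only [cutR]
      have := min_le_left (i.1.1.y + i.1.1.s) B
      have := i.1.1.hs
      linarith
    exact pow_le_pow_left₀ h2.le h3 2

theorem BoxP.pack : Pack (cutR 𝒬' B) (fun i => i.1.1.s) (fun i => (i.1.1.x, i.1.1.y)) where
  w1 := fun i => by simp only [cutR]; linarith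
  w2 := fun i => by
    simp only [cutR]
    have := min_le_left (i.1.1.y + i.1.1.s) B
    linarith
  sub := fun i => by
    rw [cutR_op]
    exact prod_mono Subset.rfl (Ioo_subset_Ioo_right (min_le_left _ _))
  dis := by
    intro i j hij
    refine (hP.dis_car h𝒬 fun h => hij (Subtype.ext h)).mono ?_ ?_ <;>
      exact prod_mono Ioo_subset_Icc_self Ioo_subset_Icc_self

theorem BoxP.sqG : SqK_87.SqG (fun i : {Q : Sqr // Q ∈ 𝒬'} => i.1.car)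
    (fun i => (i.1.x, i.1.y)) (fun i => i.1.s) where
  eq := fun i => rfl
  s0 := fun i => i.1.hs.le
  dis := fun i j hij => hP.dis_car h𝒬 hij

/-- the part of `S'` off the uncharged squares is null -/
theorem BoxP.null : volume (Sl E 𝒬' B \ ⋃ Q ∈ 𝒬 \ 𝒬', Q.car) = 0 := by
  have hc : Countable (Ix 𝒬' B) := hP.countable h𝒬
  have h1 : volume (⋃ i : Ix 𝒬' B, cl (cutR 𝒬' B) i \ (cutR 𝒬' B).op i) = 0 := by
    rw [measure_iUnion_null_iff]
    intro i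
    have : cl (cutR 𝒬' B) i \ (cutR 𝒬' B).op i ⊆ frontier ((cutR 𝒬' B).op i) := by
      rw [((cutR 𝒬' B).isOpen_op i).frontier_eq, closure_op]
    refine measure_mono_null this ?_
    exact (convex_op (cutR 𝒬' B) i).addHaar_frontier volume
  refine measure_mono_null ?_ (measure_union_null h1 hP.pic.q.null)
  rintro p ⟨⟨⟨hpE, hpB⟩, hpu⟩, hpn⟩
  by_cases hp : p ∈ ⋃ Q ∈ 𝒬, Q.car
  · left
    obtain ⟨Q, hQ, hpQ⟩ := mem_iUnion₂.1 hp
    have hQ' : Q ∈ 𝒬' := by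
      by_contra hcon
      exact hpn (mem_iUnion₂.2 ⟨Q, ⟨hQ, hcon⟩, hpQ⟩)
    have hyB : Q.y < B := lt_of_le_of_lt (Sqr.mem_car.1 hpQ).2.1 hpB
    refine mem_iUnion.2 ⟨⟨⟨Q, hQ'⟩, hyB⟩, mem_cl.2 ⟨hpQ, le_of_lt hpB⟩, fun h => ?_⟩
    exact hpu (mem_iUnion.2 ⟨_, h⟩)
  · exact Or.inr ⟨hpE, hp⟩

end

end Crest.Agent.R105.SqJ_361
end

-- ▼ part R105/Ins1_306
section

/-!
# Row 105 (S0138), LEMAQ, helper306: the instance (363 #11225): `GeoC`, `CarC` and the marginals of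
247's box problem in the three cases: family without solid mass (`S = ∅`), one free hair
(`S = K₀.car`), one solid (`S = comp E Q₀`).
-/

set_option autoImplicit false

open MeasureTheory Set Filter Topology
open scoped NNReal ENNReal

namespace Crest.Agent.R105.Ins_306

open CF_363 Cq_463 Exs_992 Sq_87 Nal_649 Famq_306 Kbx_247 Gl_363 SqJ_361
open Skp2_257 (Comps)
open Mp_87 (lam)

variable {E S : Set (ℝ × ℝ)} {𝒬 𝒬' : Set Sqr} {𝓗 : Set Hair} {g : Set (Set (ℝ × ℝ))}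
  {a b c d B T Bm Bp : ℝ} {Q₀ : Sqr} {μ ν : Measure (ℝ × ℝ)}

/-- `S` is a closed union of components of `E` -/
structure SatC (E S : Set (ℝ × ℝ)) : Prop where
  cl : IsClosed S
  sub : S ⊆ E
  sat : ∀ P ∈ Comps E, (P ∩ S).Nonempty → P ⊆ S

theorem satC_empty : SatC E ∅ :=
  ⟨isClosed_empty, empty_subset _, fun P _ h => by simp at h⟩

theorem satC_comp (hE : QPic E 𝒬 𝓗) {P : Set (ℝ × ℝ)} (hP : P ∈ Comps E) : SatC E P :=
  ⟨(isCompact_comp hE hP).isClosed, Kbx_247.comps_sub hP, fun P' hP' h => by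
    rw [comp_unique hP' hP h]⟩

theorem SatC.rf (h : SatC E S) : SatC (rf ⁻¹' E) (rf ⁻¹' S) where
  cl := h.cl.preimage continuous_rf
  sub := preimage_mono h.sub
  sat := by
    intro P hP hne
    rw [comps_rf] at hP
    obtain ⟨p, hp, hpS⟩ := hne
    have h1 : CF_363.rf ⁻¹' P ⊆ S := h.sat _ hP ⟨CF_363.rf p, by simpa using hp, hpS⟩
    intro q hq
    exact h1 (by simpa using hq)

/-- a connected part of `E` which meets `S` lies in `S` -/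
theorem SatC.conn (h : SatC E S) {C : Set (ℝ × ℝ)} (hC : IsPreconnected C) (hCE : C ⊆ E)
    (hne : (C ∩ S).Nonempty) : C ⊆ S := by
  obtain ⟨p, hp, hpS⟩ := hne
  have h1 := h.sat (connectedComponentIn E p) ⟨p, hCE hp, rfl⟩
    ⟨p, mem_connectedComponentIn (hCE hp), hpS⟩
  exact (hC.subset_connectedComponentIn hp hCE).trans h1

theorem interior_car (Q : Sqr) :
    interior Q.car = Ioo Q.x (Q.x + Q.s) ×ˢ Ioo Q.y (Q.y + Q.s) := by
  rw [Sqr.car, interior_prod_eq, interior_Icc, interior_Icc]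

/-- **GeoC of the box problem** -/
theorem geoC_of (hP : PicS E 𝒬 𝓗) (hbox : E ⊆ Ioo a b ×ˢ Ioo c d) (hcB : c < B) (hBT : B < T)
    (hS : SatC E S) (h𝒬 : ∀ Q, Q ∈ 𝒬' ↔ Q ∈ 𝒬 ∧ Disjoint Q.car S) :
    GeoC E S 𝒬 𝓗 (cutR 𝒬' B) (fun i => i.1.1) a b c B T where
  pic := hP.q
  cS := hS.cl
  SE := hS.sub
  hS := fun K hK hne => hS.conn (preconn_car K) (hP.q.hsub K hK) hne
  qS := fun Q hQ hne => hS.conn Q.convex_car.isPreconnected (hP.q.sub Q hQ) hne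
  att := by
    intro K hK Q hQ
    rw [Set.disjoint_left]
    intro p hp hpQ
    rw [interior_car] at hpQ
    obtain ⟨⟨h1, h2⟩, h3, h4⟩ := hpQ
    rcases hP.att K hK Q hQ ⟨p, hp, ⟨⟨h1.le, h2.le⟩, h3.le, h4.le⟩⟩ with h | h
    · have := hp.2.1; linarith
    · have := hp.2.2; linarith
  box := fun p hp => ⟨(hbox hp).1, (hbox hp).2.1⟩
  cB := hcB
  BT := hBT
  sqm := fun i => ⟨((h𝒬 _).1 i.1.2).1, ((h𝒬 _).1 i.1.2).2, i.2⟩
  sqs := fun Q hQ hd hy => ⟨⟨⟨Q, (h𝒬 Q).2 ⟨hQ, hd⟩⟩, hy⟩, rfl⟩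
  x1 := fun i => by simp only [cutR]; ring
  x2 := fun i => by simp only [cutR]; ring
  y1 := fun i => by simp only [cutR]; ring
  y2 := fun i => by simp only [cutR]; ring

theorem rfS_iff (h𝒬 : ∀ Q, Q ∈ 𝒬' ↔ Q ∈ 𝒬 ∧ Disjoint Q.car S) :
    ∀ Q, Q ∈ rfS '' 𝒬' ↔ Q ∈ rfS '' 𝒬 ∧ Disjoint Q.car (rf ⁻¹' S) := by
  intro Q
  rw [mem_rfS, mem_rfS, h𝒬]
  refine and_congr_right fun _ => ?_
  constructor
  · intro h
    rw [Set.disjoint_left] at h ⊢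
    intro p hp hpS
    exact h (mem_car_rfS.2 (by simpa using hp)) hpS
  · intro h
    rw [Set.disjoint_left] at h ⊢
    intro p hp hpS
    exact h (mem_car_rfS.1 hp) (by simpa using hpS)

/-- the same for the reflected picture -/
theorem geoC_up (hP : PicS E 𝒬 𝓗) (hbox : E ⊆ Ioo a b ×ˢ Ioo c d) (hBd : B < d) {T : ℝ}
    (hBT : -B < T) (hS : SatC E S) (h𝒬 : ∀ Q, Q ∈ 𝒬' ↔ Q ∈ 𝒬 ∧ Disjoint Q.car S) :
    GeoC (rf ⁻¹' E) (rf ⁻¹' S) (rfS '' 𝒬) (reflH 𝓗) (cutR (rfS '' 𝒬') (-B)) (fun i => i.1.1)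
      a b (-d) (-B) T :=
  geoC_of (refl_pic hP) (refl_box hbox) (by linarith) hBT hS.rf (rfS_iff h𝒬)

/-- no square in a hair -/
theorem not_car_sub_hair {Q : Sqr} {K : Hair} : ¬ Q.car ⊆ K.car := by
  intro h
  have := not_sub_hair (Q := Q) (K := K)
  rw [sUnion_singleton] at this
  exact this h

/-! ### families -/

/-- **CarC of a family** (lower half; the upper half is the lower half of the reflected picture) -/
theorem carC_fam (hE : QPic E 𝒬 𝓗) (hg : g ⊆ Comps E)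
    (c1 : ∀ᵐ q ∂μ, ∃ K ∈ 𝓗, K.car ∈ g ∧ q ∈ K.car ∧ q.2 ≤ B ∧ K.b ≤ B ∧ T ≤ K.t)
    (hs : (S = ∅ ∧ ∀ x, μ {q | q.1 = x} = 0) ∨ ⋃₀ g ⊆ S) : CarC E S 𝒬 B T μ where
  lvl := by filter_upwards [c1] with q hq; obtain ⟨K, -, -, -, h, -⟩ := hq; exact h
  ray := by
    filter_upwards [c1] with q hq y hy
    obtain ⟨K, hK, hKg, hqK, h1, h2, h3⟩ := hq
    exact hE.hsub K hK ⟨hqK.1, hqK.2.1.trans hy.1, hy.2.le.trans h3⟩
  off := by
    filter_upwards [c1] with q hq y hy Q hQ _ hyQ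
    obtain ⟨K, hK, hKg, hqK, h1, h2, h3⟩ := hq
    have h4 : (q.1, y) ∈ K.car := ⟨hqK.1, hqK.2.1.trans hy.1, hy.2.le.trans h3⟩
    exact not_car_sub_hair (sq_in_comp hE hQ (hg hKg) ⟨_, hyQ, h4⟩)
  sing := by
    rcases hs with h | h
    · exact Or.inl h
    · right
      filter_upwards [c1] with q hq y hy
      obtain ⟨K, hK, hKg, hqK, h1, h2, h3⟩ := hq
      exact h ⟨K.car, hKg, hqK.1, hqK.2.1.trans hy.1, hy.2.le.trans h3⟩

/-- the upper carrier condition of 247's `FamF` in the form of `carC_fam` for the reflected picture -/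
theorem c1_up (c2 : ∀ᵐ q ∂ν, ∃ K ∈ 𝓗, K.car ∈ g ∧ rf q ∈ K.car ∧ q.2 ≤ -Bp ∧ K.b ≤ Bm ∧
    Bp ≤ K.t) :
    ∀ᵐ q ∂ν, ∃ K ∈ reflH 𝓗, K.car ∈ (fun P => rf ⁻¹' P) '' g ∧ q ∈ K.car ∧ q.2 ≤ -Bp ∧
      K.b ≤ -Bp ∧ -Bm ≤ K.t := by
  filter_upwards [c2] with q hq
  obtain ⟨K, hK, hKg, hqK, h1, h2, h3⟩ := hq
  refine ⟨K.refl, show K.refl.refl ∈ 𝓗 by simpa using hK, ⟨K.car, hKg, (Hair.car_refl K).symm⟩,
    Hair.mem_car_refl.2 hqK, h1, ?_, ?_⟩
  · simp only [Hair.refl_b]; linarith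
  · simp only [Hair.refl_t]; linarith

theorem sUnion_rf : ⋃₀ ((fun P : Set (ℝ × ℝ) => rf ⁻¹' P) '' g) = rf ⁻¹' ⋃₀ g := by
  ext p
  simp only [sUnion_image, mem_iUnion, exists_prop, mem_preimage, mem_sUnion]

theorem rf_sub_comps (hg : g ⊆ Comps E) : (fun P => rf ⁻¹' P) '' g ⊆ Comps (rf ⁻¹' E) := by
  rintro _ ⟨P, hP, rfl⟩
  exact comps_rf' (hg hP)

/-- equal marginals -/
theorem lam_congr (h : μ.map Prod.fst = ν.map Prod.fst) (x : ℝ) : lam μ x = lam ν x := by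
  have h1 : ∀ ρ : Measure (ℝ × ℝ), ρ {q | q.1 < x} = (ρ.map Prod.fst) (Iio x) := fun ρ => by
    rw [Measure.map_apply measurable_fst measurableSet_Iio]; rfl
  rw [Mp_87.lam, Mp_87.lam, h1, h1, h]

section Fam

variable {m : ℝ} {X1 X2 : ℝ × ℝ → ℝ} {f : {Q : Sqr // Q ∈ 𝒬} → ℝ}
  {νp νm : {Q : Sqr // Q ∈ 𝒬} → Measure (ℝ × ℝ)}
  {Y1 Y2 : ℝ × ℝ → ℝ} {f' : {Q : Sqr // Q ∈ rfS '' 𝒬} → ℝ}
  {νp' νm' : {Q : Sqr // Q ∈ rfS '' 𝒬} → Measure (ℝ × ℝ)}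



/-- (ii) one free hair: both carriers, `S = K₀.car`, `Tl = Bp`, `Tu = -Bm` -/
theorem carC_hairF (hP : PicS E 𝒬 𝓗) {K₀ : Hair} (hK₀ : K₀.car ∈ Comps E)
    (F : FamF E 𝒬 𝓗 {K₀.car} Bm Bp a b c d m X1 X2 f νp νm μ Y1 Y2 f' νp' νm' ν) :
    CarC E K₀.car 𝒬 Bm Bp μ ∧ CarC (rf ⁻¹' E) (rf ⁻¹' K₀.car) (rfS '' 𝒬) (-Bp) (-Bm) ν := by
  have hg : {K₀.car} ⊆ Comps E := singleton_subset_iff.2 hK₀
  refine ⟨carC_fam hP.q hg F.c1 (Or.inr (by rw [sUnion_singleton])), ?_⟩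
  exact carC_fam (refl_qpic hP.q) (rf_sub_comps hg) (c1_up F.c2)
    (Or.inr (by rw [sUnion_rf, sUnion_singleton]))

end Fam

/-- the squares off a free hair: all of them -/
theorem hair_iff (hE : QPic E 𝒬 𝓗) {K₀ : Hair} (hK₀ : K₀.car ∈ Comps E) :
    ∀ Q, Q ∈ 𝒬 ↔ Q ∈ 𝒬 ∧ Disjoint Q.car K₀.car := by
  refine fun Q => ⟨fun hQ => ⟨hQ, ?_⟩, fun h => h.1⟩
  rw [Set.disjoint_left]
  intro p hp hpK
  exact not_car_sub_hair (sq_in_comp hE hQ hK₀ ⟨p, hp, hpK⟩)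

theorem empty_iff : ∀ Q : Sqr, Q ∈ 𝒬 ↔ Q ∈ 𝒬 ∧ Disjoint Q.car (∅ : Set (ℝ × ℝ)) := fun Q => by simp

/-! ### one solid -/

/-- the squares off the solid of `Q₀` -/
theorem sol_iff (hE : QPic E 𝒬 𝓗) (hQ₀ : Q₀ ∈ 𝒬) :
    ∀ Q, Q ∈ 𝒬 \ {Q₀} ↔ Q ∈ 𝒬 ∧ Disjoint Q.car (comp E Q₀) := by
  intro Q
  have hcm := SkT1_137.comp_mem hE hQ₀
  constructor
  · rintro ⟨hQ, hne⟩
    refine ⟨hQ, ?_⟩
    rw [Set.disjoint_left]
    intro p hp hpK
    exact hne (SkT1_137.eq_of_comp_eq hE hQ hQ₀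
      (SkT1_137.eq_comp hE hQ hcm (sq_in_comp hE hQ hcm ⟨p, hp, hpK⟩)).symm)
  · rintro ⟨hQ, hd⟩
    refine ⟨hQ, fun h => ?_⟩
    rw [mem_singleton_iff] at h
    subst h
    obtain ⟨p, hp⟩ := Q.nonempty
    exact Set.disjoint_left.1 hd hp (SkT1_137.car_sub_comp hE hQ hp)

/-- (iii) lower half of the solid: `Tl` = top of the square -/
theorem carC_sol_lo (hE : QPic E 𝒬 𝓗) (hQ₀ : Q₀ ∈ 𝒬) (c1 : ∀ᵐ q ∂μ, q ∈ Q₀.car ∧ q.2 ≤ B) :
    CarC E (comp E Q₀) 𝒬 B (Q₀.y + Q₀.s) μ := by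
  have hin : ∀ᵐ q ∂μ, ∀ y ∈ Ico q.2 (Q₀.y + Q₀.s), (q.1, y) ∈ comp E Q₀ := by
    filter_upwards [c1] with q hq y hy
    exact SkT1_137.car_sub_comp hE hQ₀ ⟨hq.1.1, hq.1.2.1.trans hy.1, hy.2.le⟩
  refine ⟨by filter_upwards [c1] with q hq using hq.2, ?_, ?_, Or.inr hin⟩
  · filter_upwards [hin] with q hq y hy
    exact Kbx_247.comps_sub (SkT1_137.comp_mem hE hQ₀) (hq y hy)
  · filter_upwards [hin] with q hq y hy Q _ hd hyQ
    exact Set.disjoint_left.1 hd hyQ (hq y hy)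

/-- the teeth above the square stand over the square -/
theorem tooth_x (hP : PicS E 𝒬 𝓗) (hQ₀ : Q₀ ∈ 𝒬) {K : Hair} (hKP : K.car ⊆ comp E Q₀)
    (hKb : K.b = Q₀.y + Q₀.s) : Q₀.x ≤ K.x ∧ K.x ≤ Q₀.x + Q₀.s := by
  have hE := hP.q
  have hcm := SkT1_137.comp_mem hE hQ₀
  have htop : (K.x, K.t) ∈ comp E Q₀ := hKP (top_mem K)
  have hbt := K.hbt
  obtain ⟨K', hK', hKP', hb', hmem⟩ := above_hair hP hQ₀ htop (by simp only; linarith)
  have hnot : (K.x, K.t) ∉ Q₀.car := fun h => by have := h.2.2; simp only at this; linarith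
  rcases hP.comp _ hcm with ⟨z, hz⟩ | ⟨K1, hK1, h⟩ | ⟨Q, hQ', hQP, hpt⟩
  · exfalso
    have h1 := SkT1_137.car_sub_comp hE hQ₀ (corner_mem Q₀)
    rw [hz, mem_singleton_iff] at h1 htop
    have h2 := congrArg Prod.snd (htop.trans h1.symm)
    simp only at h2
    have := Q₀.hs
    linarith
  · exfalso
    exact not_car_sub_hair (h ▸ SkT1_137.car_sub_comp hE hQ₀)
  · have hQQ : Q = Q₀ := SkT1_137.eq_of_comp_eq hE hQ' hQ₀
      (SkT1_137.eq_comp hE hQ' hcm hQP).symm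
    subst hQQ
    obtain ⟨K2, hK2, hKP2, hp2, z, hzK, hzQ⟩ := hpt _ htop hnot
    have h1 : K.x = K2.x := hp2.1
    rw [h1, ← hzK.1]
    exact hzQ.1

/-- (iii) upper half of the solid (reflected picture): `Tu = -B` -/
theorem carC_sol_up (hP : PicS E 𝒬 𝓗) (hQ₀ : Q₀ ∈ 𝒬) (hB : Q₀.y ≤ B)
    (c2 : ∀ᵐ q ∂ν, q.2 ≤ -Bp ∧
      ∃ K ∈ 𝓗, K.car ⊆ comp E Q₀ ∧ K.b = Q₀.y + Q₀.s ∧ rf q ∈ K.car ∧ Bp ≤ K.t) :
    CarC (rf ⁻¹' E) (rf ⁻¹' comp E Q₀) (rfS '' 𝒬) (-Bp) (-B) ν := by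
  have hE := hP.q
  have hin : ∀ᵐ q ∂ν, ∀ y ∈ Ico q.2 (-B), (q.1, y) ∈ rf ⁻¹' comp E Q₀ := by
    filter_upwards [c2] with q hq y hy
    obtain ⟨hq1, K, hK, hKP, hKb, hqK, hKt⟩ := hq
    have hx := tooth_x hP hQ₀ hKP hKb
    have hqx : q.1 = K.x := hqK.1
    have hqt : -q.2 ≤ K.t := hqK.2.2
    show (q.1, -y) ∈ comp E Q₀
    have hy1 := hy.1
    have hy2 := hy.2
    by_cases h : Q₀.y + Q₀.s ≤ -y
    · exact hKP ⟨hqx, by rw [hKb]; exact h, by show -y ≤ K.t; linarith⟩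
    · push Not at h
      exact SkT1_137.car_sub_comp hE hQ₀ ⟨by rw [show ((q.1, -y) : ℝ × ℝ).1 = K.x from hqx]; exact hx,
        by show Q₀.y ≤ -y; linarith, h.le⟩
  refine ⟨by filter_upwards [c2] with q hq using hq.1, ?_, ?_, Or.inr hin⟩
  · filter_upwards [hin] with q hq y hy
    exact Kbx_247.comps_sub (SkT1_137.comp_mem hE hQ₀) (hq y hy)
  · filter_upwards [hin] with q hq y hy Q _ hd hyQ
    exact Set.disjoint_left.1 hd hyQ (hq y hy)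

/-- (iii) the marginals off the solid in the strip of the square -/
theorem marg_sol (hP : PicS E 𝒬 𝓗) (hQ₀ : Q₀ ∈ 𝒬) (hB : Q₀.y ≤ B)
    (m1 : μ univ = 1) (m2 : ν univ = 1) (c1 : ∀ᵐ q ∂μ, q ∈ Q₀.car ∧ q.2 ≤ B)
    (c2 : ∀ᵐ q ∂ν, q.2 ≤ -Bp ∧
      ∃ K ∈ 𝓗, K.car ⊆ comp E Q₀ ∧ K.b = Q₀.y + Q₀.s ∧ rf q ∈ K.car ∧ Bp ≤ K.t)
    {p : ℝ × ℝ} (h1 : B < p.2) (h2 : p.2 < Q₀.y + Q₀.s) (hp : p ∉ comp E Q₀) :
    lam μ p.1 = lam ν p.1 := by
  have hE := hP.q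
  have hcol : ∀ᵐ q ∂ν, Q₀.x ≤ q.1 ∧ q.1 ≤ Q₀.x + Q₀.s := by
    filter_upwards [c2] with q hq
    obtain ⟨hq1, K, hK, hKP, hKb, hqK, hKt⟩ := hq
    have hx := tooth_x hP hQ₀ hKP hKb
    have hqx : q.1 = K.x := hqK.1
    rw [hqx]; exact hx
  have hcol' : ∀ᵐ q ∂μ, Q₀.x ≤ q.1 ∧ q.1 ≤ Q₀.x + Q₀.s := by
    filter_upwards [c1] with q hq using hq.1.1
  have hside : p.1 < Q₀.x ∨ Q₀.x + Q₀.s < p.1 := by
    by_contra hcon
    push Not at hcon
    exact hp (SkT1_137.car_sub_comp hE hQ₀ ⟨⟨hcon.1, hcon.2⟩, by linarith, h2.le⟩)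
  have key : ∀ ρ : Measure (ℝ × ℝ), ρ univ = 1 →
      (∀ᵐ q ∂ρ, Q₀.x ≤ q.1 ∧ q.1 ≤ Q₀.x + Q₀.s) →
      lam ρ p.1 = if p.1 < Q₀.x then 0 else 1 := by
    intro ρ hρ1 hρ
    unfold Mp_87.lam
    rcases hside with h | h
    · rw [if_pos h]
      have h0 : ρ {q | q.1 < p.1} = 0 := by
        refine measure_mono_null (fun q hq => ?_) (ae_iff.1 hρ)
        rintro ⟨h3, -⟩
        have h4 : q.1 < p.1 := hq
        linarith
      rw [h0]; rfl
    · have hs := Q₀.hs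
      rw [if_neg (by linarith)]
      have h0 : ρ {q | q.1 < p.1} = ρ univ := by
        refine measure_congr ?_
        rw [eventuallyEq_set]
        filter_upwards [hρ] with q hq
        refine ⟨fun _ => trivial, fun _ => ?_⟩
        show q.1 < p.1
        linarith [hq.2]
      rw [h0, hρ1]; rfl
  rw [key μ m1 hcol', key ν m2 hcol]

end Crest.Agent.R105.Ins_306
end

-- ▼ part R105/SqW_832
section

/-! Row 105, S0138, exact squares, leaf (W) of helper87 #10566 (helper832): oscillation of the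
stream function over a charged square.

`F3H` : the flux of the field through every sub-rectangle of a charged square.
`hosc` / `vosc` : a.e. horizontal / vertical line of the open square, oscillation `≤ 2 f i`.
`oscQ_lines` : `oscQ` with the two good horizontal lines.
`sqosc` : the values of `ψ` off the squares at two points of the closed square differ by `≤ 4 f i`. -/

open MeasureTheory Set Filter Topology
open scoped NNReal

namespace Crest.Agent.R105.SqW_832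

open Crest.Agent.R105.Sq_87
open Crest.Agent.R105.Mp_87 (lam lam_mono Rc measurableSet_Rc restrict_Rc hline vline wx wy ae_swap
  ae_x_of_ae ae_y_of_ae ii_mono tendsto_integral_mul PXh abs_ii_le setIntegral_swap)
open Crest.Agent.R105.CF_363 (gx gy SL cut Hair measurable_gx measurable_gy gx_congr gy_congr
  gx_eq_deriv gy_eq_deriv isOpen_diff_cut volume_cut green_hairs)

variable {ι : Type} {Q : Rects ι} {S : Set (ℝ × ℝ)}
variable {a b c B σ : ℝ} {X1 X2 ψ Ψ : ℝ × ℝ → ℝ} {μ : Measure (ℝ × ℝ)} {f : ι → ℝ}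

/-- the flux of the field through the sub-rectangles of the charged squares -/
structure F3H (Q : Rects ι) (X1 X2 : ℝ × ℝ → ℝ) (f : ι → ℝ) : Prop where
  F31 : ∀ i, ∀ a' b' c' d' : ℝ, a' ≤ b' →
    ∫ p in Q.op i ∩ Ioo a' b' ×ˢ Ioo c' d', |X1 p| ≤ (b' - a') * (2 * f i)
  F32 : ∀ i, ∀ a' b' c' d' : ℝ, c' ≤ d' →
    ∫ p in Q.op i ∩ Ioo a' b' ×ˢ Ioo c' d', |X2 p| ≤ (d' - c') * (2 * f i)

/-- a function whose integrals over all intervals are `≤ M · length` is `≤ M` a.e. -/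
theorem ae_le_of_intervals {g : ℝ → ℝ} {α β M : ℝ} (hg : IntegrableOn g (Ioo α β))
    (h : ∀ c' d', α ≤ c' → c' ≤ d' → d' ≤ β → ∫ t in Ioo c' d', g t ≤ (d' - c') * M) :
    ∀ᵐ t, t ∈ Ioo α β → g t ≤ M := by
  rcases le_or_gt β α with hle | hlt
  · filter_upwards with t ht
    exact absurd (ht.1.trans ht.2) (not_lt.2 hle)
  have hii : IntervalIntegrable g volume α β := by
    rw [intervalIntegrable_iff_integrableOn_Ioo_of_le hlt.le]; exact hg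
  filter_upwards [hii.ae_hasDerivAt_integral] with t ht htI
  have htu : t ∈ uIcc α β := by rw [uIcc_of_le hlt.le]; exact ⟨htI.1.le, htI.2.le⟩
  have hαu : α ∈ uIcc α β := left_mem_uIcc
  have hd := ht htu α hαu
  rw [hasDerivAt_iff_tendsto_slope] at hd
  have hd' : Tendsto (slope (fun x => ∫ s in α..x, g s) t) (𝓝[>] t) (𝓝 (g t)) :=
    hd.mono_left (nhdsWithin_mono _ fun x hx => (ne_of_gt hx))
  refine le_of_tendsto hd' ?_
  filter_upwards [Ioo_mem_nhdsGT htI.2] with x hx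
  have h1 : IntervalIntegrable g volume α t := hii.mono_set (by
    rw [uIcc_of_le hlt.le, uIcc_of_le htI.1.le]; exact Icc_subset_Icc_right htI.2.le)
  have h2 : IntervalIntegrable g volume α x := hii.mono_set (by
    rw [uIcc_of_le hlt.le, uIcc_of_le (htI.1.le.trans hx.1.le)]; exact Icc_subset_Icc_right hx.2.le)
  rw [slope_def_field, intervalIntegral.integral_interval_sub_left h2 h1,
    intervalIntegral.integral_of_le hx.1.le, integral_Ioc_eq_integral_Ioo,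
    div_le_iff₀ (by linarith [hx.1])]
  have := h t x htI.1.le hx.1.le hx.2.le
  linarith

/-- a.e. horizontal line -/
theorem hflux (hX : Integrable X2 (volume : Measure (ℝ × ℝ))) (F : F3H Q X1 X2 f) (i : ι) :
    ∀ᵐ t, t ∈ Ioo (Q.y i - Q.h2 i) (Q.y i + Q.h2 i) →
      ∫ s in Ioo (Q.x i - Q.h1 i) (Q.x i + Q.h1 i), |X2 (s, t)| ≤ 2 * f i := by
  have hfub : ∀ γ δ : ℝ, ∫ p in Rc (Q.x i - Q.h1 i) (Q.x i + Q.h1 i) γ δ, |X2 p| =
      ∫ t in Ioo γ δ, ∫ s in Ioo (Q.x i - Q.h1 i) (Q.x i + Q.h1 i), |X2 (s, t)| := by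
    intro γ δ
    have hint : Integrable (fun p => |X2 p|)
        ((volume : Measure (ℝ × ℝ)).restrict (Rc (Q.x i - Q.h1 i) (Q.x i + Q.h1 i) γ δ)) :=
      hX.abs.restrict
    rw [restrict_Rc] at hint ⊢
    exact integral_prod_symm _ hint
  have hint2 : Integrable (fun t => ∫ s in Ioo (Q.x i - Q.h1 i) (Q.x i + Q.h1 i), |X2 (s, t)|)
      ((volume : Measure ℝ).restrict (Ioo (Q.y i - Q.h2 i) (Q.y i + Q.h2 i))) := by
    have hint : Integrable (fun p => |X2 p|)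
        ((volume : Measure (ℝ × ℝ)).restrict (Rc (Q.x i - Q.h1 i) (Q.x i + Q.h1 i)
          (Q.y i - Q.h2 i) (Q.y i + Q.h2 i))) := hX.abs.restrict
    rw [restrict_Rc] at hint
    exact hint.integral_prod_right
  refine ae_le_of_intervals hint2 fun c' d' h1 h2 h3 => ?_
  rw [← hfub]
  have hset : Rc (Q.x i - Q.h1 i) (Q.x i + Q.h1 i) c' d' =
      Q.op i ∩ Ioo (Q.x i - Q.h1 i) (Q.x i + Q.h1 i) ×ˢ Ioo c' d' := by
    ext p
    simp only [Rc, Rects.op, mem_inter_iff, mem_prod, mem_Ioo]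
    constructor
    · rintro ⟨⟨e1, e2⟩, e3, e4⟩
      exact ⟨⟨⟨e1, e2⟩, by linarith, by linarith⟩, ⟨e1, e2⟩, e3, e4⟩
    · rintro ⟨-, h⟩
      exact h
  rw [hset]
  exact F.F32 i _ _ c' d' h2

















/-- the oscillation estimate applies at `p` at the scale `r` -/
structure LocR (S : Set (ℝ × ℝ)) (a b c : ℝ) (μ : Measure (ℝ × ℝ)) (J : ℕ → Finset Hair)
    (p : ℝ × ℝ) (r : ℝ) : Prop where
  ha : a < p.1 - 2 * r
  hb : p.1 + 2 * r < b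
  hc : c < p.2 - 2 * r
  hat : ∀ x ∈ Icc (p.1 - 2 * r) (p.1 + 2 * r), μ {q | q.1 = x ∧ q.2 < p.2 + 2 * r} = 0
  hav : ∀ n, ∀ K ∈ J n, μ {q | q.1 = K.x ∧ q.2 < K.t} ≠ 0 →
    K.x ∈ Ioo (p.1 - 2 * r) (p.1 + 2 * r) → K.t ≤ p.2 - 2 * r ∨ p.2 + 2 * r ≤ K.b
  hS : volume (S ∩ Rc (p.1 - 2 * r) (p.1 + 2 * r) (p.2 - 2 * r) (p.2 + 2 * r)) = 0

theorem LocR.mono {J : ℕ → Finset Hair} {p : ℝ × ℝ} {r r' : ℝ} (h : LocR S a b c μ J p r)
    (hr : r' ≤ r) : LocR S a b c μ J p r' where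
  ha := by linarith [h.ha]
  hb := by linarith [h.hb]
  hc := by linarith [h.hc]
  hat := fun x hx => by
    refine measure_mono_null ?_ (h.hat x ⟨by linarith [hx.1], by linarith [hx.2]⟩)
    rintro q ⟨h1, h2⟩
    exact ⟨h1, by linarith⟩
  hav := fun n K hK h1 h2 => by
    rcases h.hav n K hK h1 ⟨by linarith [h2.1], by linarith [h2.2]⟩ with h3 | h3
    · left; linarith
    · right; linarith
  hS := by
    refine measure_mono_null (inter_subset_inter_right _ ?_) h.hS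
    rintro q ⟨⟨h1, h2⟩, h3, h4⟩
    exact ⟨⟨by linarith, by linarith⟩, by linarith, by linarith⟩










end Crest.Agent.R105.SqW_832
end

-- ▼ part R105/SqW2_832
section

/-! Row 105, S0138, exact squares, leaf (W) of helper87 #10566 over `SqFlux` / `AdmQ` (helper832). -/

open MeasureTheory Set Filter Topology
open scoped NNReal

namespace Crest.Agent.R105.SqW_832

open Crest.Agent.R105.Sq_87
open Crest.Agent.R105.Mp_87 (Rc)
open Crest.Agent.R105.CF_363 (Hair)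

variable {ι : Type} {Q : Rects ι} {S : Set (ℝ × ℝ)}
variable {a b c B σ : ℝ} {X1 X2 ψ Ψ : ℝ × ℝ → ℝ} {μ : Measure (ℝ × ℝ)} {f : ι → ℝ}

theorem f3h_of_flux3 (F : Flux3 Q X1 X2 f) (f0 : ∀ i, 0 ≤ f i) : F3H Q X1 X2 f where
  F31 := by
    intro i a' b' c' d' h
    rcases le_or_gt c' d' with h1 | h1
    · exact F.x i a' b' c' d' h h1
    · rw [Ioo_eq_empty (not_lt.2 h1.le), prod_empty, inter_empty, setIntegral_empty]
      exact mul_nonneg (by linarith) (by linarith [f0 i])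
  F32 := by
    intro i a' b' c' d' h
    rcases le_or_gt a' b' with h1 | h1
    · exact F.y i a' b' c' d' h1 h
    · rw [Ioo_eq_empty (not_lt.2 h1.le), empty_prod, inter_empty, setIntegral_empty]
      exact mul_nonneg (by linarith) (by linarith [f0 i])




end Crest.Agent.R105.SqW_832
end

-- ▼ part R105/SqJf_361
section

/-! Row 105, S0138, Lemma A with exact squares, (L4) (helper361): from the Kantorovich problem of
helper247 to everything the stream function needs (`LowOut`). -/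

set_option autoImplicit false

open MeasureTheory Set Filter Topology Metric
open scoped NNReal ENNReal

namespace Crest.Agent.R105.SqJ_361

open Crest.Agent.R105.CF_363 Crest.Agent.R105.Sq_87 Crest.Agent.R105.Kin_238
open Crest.Agent.R105.Cq_463 Crest.Agent.R105.Exs_992
open Crest.Agent.R105.Knq_247 (QQ HalfQ)
open Crest.Agent.R105.Kbx_247 (QA)
open Crest.Agent.R105.Mp_87 (lam)
open Crest.Agent.R105.Str_421 (FlowF)

variable {E C : Set (ℝ × ℝ)} {𝒬 𝒬' : Set Sqr} {𝓗 : Set Hair} {a b c d B : ℝ}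
variable {X1 X2 : ℝ × ℝ → ℝ} {f : {Q : Sqr // Q ∈ 𝒬'} → ℝ}
variable {νp νm : {Q : Sqr // Q ∈ 𝒬'} → Measure (ℝ × ℝ)} {μ : Measure (ℝ × ℝ)}

/-- the carrier of the multiplier: almost every point lies on a hair which crosses the level, or in
a square which is not charged and crosses the level -/
def Carr (𝒬 𝒬' : Set Sqr) (𝓗 : Set Hair) (B : ℝ) (μ : Measure (ℝ × ℝ)) : Prop :=
  ∀ᵐ q ∂μ, (∃ K ∈ 𝓗, K.x = q.1 ∧ K.b ≤ q.2 ∧ B ≤ K.t) ∨
    ∃ Q ∈ 𝒬, Q ∉ 𝒬' ∧ q ∈ Q.car ∧ B ≤ Q.y + Q.s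

/-- **output of the lower half**: `U` = the field with the squares filled -/
structure LowOut (E : Set (ℝ × ℝ)) (𝒬' : Set Sqr) (𝓗 : Set Hair) (a b c B : ℝ)
    (X1 X2 : ℝ × ℝ → ℝ) (f : {Q : Sqr // Q ∈ 𝒬'} → ℝ)
    (νp νm : {Q : Sqr // Q ∈ 𝒬'} → Measure (ℝ × ℝ)) (μ : Measure (ℝ × ℝ))
    (U1 U2 ψ Ψ : ℝ × ℝ → ℝ) (J : ℕ → Finset Hair) (z : ℕ → ℝ × ℝ → ℝ) (κ : Hair → ℝ)
    (r : ℕ → Ix 𝒬' B → ℝ) : Prop where
  fl : FlowF a b c B 𝓗 U1 U2 μ
  L : LinesI a b c B 1 U1 U2 μ ψ Ψ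
  D : SqData (cutR 𝒬' B) (Sl E 𝒬' B) a b c B U1 U2 μ (fun i => f i.1)
  A : ApprQ (cutR 𝒬' B) (Sl E 𝒬' B) a b c B 1 U1 U2 μ Ψ (fun i => f i.1) J z κ r
  F : SqFlux (cutR 𝒬' B) U1 U2 (fun i => f i.1) (fun i => i.1.1.s) (fun i => (i.1.1.x, i.1.1.y))
    (fun i => νp i.1 + νm i.1)
  H : Hq_363.HalfD (cutR 𝒬' B) (Sl E 𝒬' B) a b c B U1 U2 ψ Ψ μ (fun i => f i.1)
  hJ : ∀ n, ∀ K ∈ J n, K ∈ 𝓗
  T : ∀ K ∈ 𝓗, K.x ∈ Ioo a b → μ {q | q.1 = K.x ∧ q.2 < K.t} = 0 →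
    (∀ᵐ y, c < y → y ∈ Ioo K.b K.t → Ψ (K.x, y) = κ K) ∧ (B ≤ K.t → κ K = -lam μ K.x)
  one : ∀ (i : Ix 𝒬' B) (e : ℝ × ℝ → ℝ) (L : ℝ≥0), LipschitzOnWith L e ((cutR 𝒬' B).op i) →
    ContinuousOn e (cl (cutR 𝒬' B) i) →
    ∫ p in (cutR 𝒬' B).op i, (U1 p * gx e p + U2 p * gy e p) =
      (∫ p, e p ∂νp i.1) - ∫ p, e p ∂νm i.1
  off : ∀ p ∉ (cutR 𝒬' B).un, U1 p = X1 p ∧ U2 p = X2 p
  vanE : ∀ p ∈ E, p ∉ (cutR 𝒬' B).un → U1 p = 0 ∧ U2 p = 0
  z : ∀ p, p ∉ Wo a b c B → U1 p = 0 ∧ U2 p = 0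
  na : ∀ i p, νp i {p} = 0 ∧ νm i {p} = 0
  noat : ∀ p, μ {p} = 0
  la : ∀ i, ∫ p in (cutR 𝒬' B).op i, |U2 p| ≤ 4 * ((cutR 𝒬' B).h2 i * f i.1)
  fz : ∀ i : {Q : Sqr // Q ∈ 𝒬'}, B < i.1.y → f i = 0 ∧ νp i = 0 ∧ νm i = 0

theorem HQ_congr {ι : Type} {Q : Rects ι} {S S' : Set (ℝ × ℝ)} {f : ι → ℝ}
    {np nm : ι → Measure (ℝ × ℝ)}
    (h : HQ 𝓗 a b c B Q S X1 X2 f np nm μ) (hS : Wo a b c B \ S = Wo a b c B \ S') :
    HQ 𝓗 a b c B Q S' X1 X2 f np nm μ where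
  m1 := h.m1
  m2 := h.m2
  L1 := h.L1
  L2 := h.L2
  z1 := hS ▸ h.z1
  z2 := hS ▸ h.z2
  fin := h.fin
  carried := h.carried
  fp := h.fp
  fm := h.fm
  cp := h.cp
  cm := h.cm
  mp := h.mp
  mm := h.mm
  f2 := h.f2
  F := hS ▸ h.F
  cl := hS ▸ h.cl
  ab := h.ab

theorem Wo_sdiff (E : Set (ℝ × ℝ)) : Wo a b c B \ E = Wo a b c B \ (E ∩ {p | p.2 < B}) := by
  ext p
  constructor
  · rintro ⟨h1, h2⟩
    exact ⟨h1, fun h => h2 h.1⟩
  · rintro ⟨h1, h2⟩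
    exact ⟨h1, fun h => h2 ⟨h, h1.2.2⟩⟩

/-- **(L4)** -/
theorem exists_lowOut (hP : BoxP E 𝒬 𝓗 a b c d) (h𝒬 : 𝒬' ⊆ 𝒬) (hab : a < b) (hcB : c < B)
    (gen : ∀ Q ∈ 𝒬', Q.y ≠ B) (hC : C ⊆ Wl a b c B) (H : QQ 𝓗 a b c B (QA 𝒬'))
    (h : HalfQ 𝓗 a b c B E (QA 𝒬') C X1 X2 f νp νm μ)
    (car : Carr 𝒬 𝒬' 𝓗 B μ) (off : ∀ Q ∈ 𝒬', μ Q.car = 0) :
    ∃ U1 U2 ψ Ψ J z κ r,
      LowOut E 𝒬' 𝓗 a b c B X1 X2 f νp νm μ U1 U2 ψ Ψ J z κ r := by
  have hc : Countable (Ix 𝒬' B) := hP.countable h𝒬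
  have hfin := h.fin
  have R := hP.rg (B := B) h𝒬
  have Hq := HQ_congr (HQ.of_half (Q := cutR 𝒬' B) H h hC (φ := Subtype.val)
    Subtype.val_injective (fun i => hP.cl_eq h𝒬 i) (fun j hj => empty_of_notMem gen j hj))
    (Wo_sdiff E)
  obtain ⟨Y1, Y2, F⟩ := Hq.exists_fills R
  have hz1 := Hq.z1
  have hz2 := Hq.z2
  have hWl : ∀ᵐ q ∂μ, q ∈ Wl a b c B := by rw [ae_iff]; exact Hq.carried
  have hunWo : (cutR 𝒬' B).un ⊆ Wo a b c B := iUnion_subset fun i => R.op_Wo i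
  -- squares which are not charged miss the charged rectangles
  have hmiss : ∀ Q ∈ 𝒬, Q ∉ 𝒬' → ∀ p ∈ Q.car, p ∉ (cutR 𝒬' B).un := by
    intro Q hQ hQ' p hp hpu
    obtain ⟨i, hi⟩ := mem_iUnion.1 hpu
    have h1 : Q ≠ i.1.1 := fun h => hQ' (h ▸ i.1.2)
    exact Set.disjoint_left.1 (hP.pic.q.disjoint hQ (h𝒬 i.1.2) h1) hp (op_sub_car i hi)
  -- saturation
  have sat : ∀ᵐ q ∂μ, (∃ K ∈ 𝓗, K.x = q.1 ∧ K.b ≤ q.2 ∧ B ≤ K.t) ∨
      (∃ α β b0 : ℝ, α < β ∧ α ≤ q.1 ∧ q.1 ≤ β ∧ b0 ≤ q.2 ∧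
        ∀ᵐ p : ℝ × ℝ, p.1 ∈ Ioo α β → b0 < p.2 → join (cutR 𝒬' B) X1 Y1 p = 0) := by
    filter_upwards [car] with q hq
    rcases hq with hq | ⟨Q, hQ, hQ', hqQ, hB⟩
    · exact Or.inl hq
    · right
      have hs := Q.hs
      have hq2 := Sqr.mem_car.1 hqQ
      refine ⟨Q.x, Q.x + Q.s, Q.y, by linarith, hq2.1.1, hq2.1.2, hq2.2.1,
        Eventually.of_forall fun p hp1 hp2 => ?_⟩
      by_cases hpB : p.2 < B
      · have hpQ : p ∈ Q.car := Sqr.mem_car.2 ⟨⟨hp1.1.le, hp1.2.le⟩, hp2.le, by linarith⟩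
        rw [join_of_not (hmiss Q hQ hQ' p hpQ)]
        exact hz1 p fun h => h.2 ⟨hP.pic.q.sub Q hQ hpQ, hpB⟩
      · rw [join_of_not fun h => hpB (hunWo h).2.2]
        exact hz1 p fun h => hpB h.1.2.2
  have fl := Hq.flowF R F sat
  have L := Str_421.linesI hab hcB fl
  -- no mass below the squares
  have nomass : ∀ i : Ix 𝒬' B, μ {q | q.1 ∈ Ioo ((cutR 𝒬' B).x i - (cutR 𝒬' B).h1 i)
      ((cutR 𝒬' B).x i + (cutR 𝒬' B).h1 i) ∧ q.2 < (cutR 𝒬' B).y i + (cutR 𝒬' B).h2 i} = 0 := by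
    intro i
    refine measure_mono_null ?_ (ae_iff.1 car)
    rintro q ⟨hq1, hq2⟩ hcon
    have p2 := (cutR 𝒬' B).p2 i
    set m := max q.2 ((cutR 𝒬' B).y i - (cutR 𝒬' B).h2 i) with hm
    have m1 : m < (cutR 𝒬' B).y i + (cutR 𝒬' B).h2 i := max_lt hq2 (by linarith)
    have m2 : q.2 ≤ m := le_max_left _ _
    have m3 : (cutR 𝒬' B).y i - (cutR 𝒬' B).h2 i ≤ m := le_max_right _ _
    set t := (m + ((cutR 𝒬' B).y i + (cutR 𝒬' B).h2 i)) / 2 with ht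
    have hin : ((q.1, t) : ℝ × ℝ) ∈ (cutR 𝒬' B).op i :=
      ⟨hq1, ⟨by simp only [ht]; linarith, by simp only [ht]; linarith⟩⟩
    have htB : t < B := (R.op_Wo i hin).2.2
    have hqt : q.2 ≤ t := by simp only [ht]; linarith
    rcases hcon with ⟨K, hK, hx, hb, hKt⟩ | ⟨Q, hQ, hQ', hqQ, hB⟩
    · exact Set.disjoint_left.1 (R.hq K hK i) (show ((q.1, t) : ℝ × ℝ) ∈ K.car from
        ⟨hx.symm, hb.trans hqt, htB.le.trans hKt⟩) hin
    · have hq3 := Sqr.mem_car.1 hqQ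
      refine hmiss Q hQ hQ' (q.1, t) (Sqr.mem_car.2 ⟨hq3.1, hq3.2.1.trans hqt, ?_⟩)
        (mem_iUnion.2 ⟨i, hin⟩)
      simp only
      linarith
  have D := Hq.sqData R F nomass
  -- no atoms
  have noat : ∀ p, μ {p} = 0 := by
    intro p
    by_cases hp : ∀ i : {Q : Sqr // Q ∈ 𝒬'}, p ∉ QA 𝒬' i
    · exact SqK_87.nopt H h hC (hP.sqG h𝒬) hp
    · push Not at hp
      obtain ⟨i, hi⟩ := hp
      exact measure_mono_null (singleton_subset_iff.2 hi) (off i.1 i.2)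
  have na : ∀ (i : {Q : Sqr // Q ∈ 𝒬'}) p, νp i {p} = 0 ∧ νm i {p} = 0 := fun i p =>
    SqK_87.na H h (hP.sqG h𝒬) (fun _ p _ => noat p) i p
  -- hair values
  have hT : ∀ K : Hair, ∃ κ : ℝ, K ∈ 𝓗 → K.x ∈ Ioo a b → μ {q | q.1 = K.x ∧ q.2 < K.t} = 0 →
      (∀ᵐ y, c < y → y ∈ Ioo K.b K.t → Str_421.Psi a b (join (cutR 𝒬' B) X1 Y1)
        (join (cutR 𝒬' B) X2 Y2) μ (K.x, y) = κ) ∧ (B ≤ K.t → κ = -lam μ K.x) := by
    intro K
    by_cases hK : K ∈ 𝓗 ∧ K.x ∈ Ioo a b ∧ μ {q | q.1 = K.x ∧ q.2 < K.t} = 0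
    · obtain ⟨κ, hκ⟩ := Str_421.T_strict hab hcB fl hK.1 hK.2.1.1 hK.2.1.2 hK.2.2 (noat _)
      exact ⟨κ, fun _ _ _ => hκ⟩
    · exact ⟨0, fun h1 h2 h3 => absurd ⟨h1, h2, h3⟩ hK⟩
  choose κ hκ using hT
  obtain ⟨J, z, r, hJ, hA⟩ := Hq.apprQ R F hP.dis
  have A := hA 1 (Str_421.Psi a b (join (cutR 𝒬' B) X1 Y1) (join (cutR 𝒬' B) X2 Y2) μ) κ
    (fun K hK hx hμ => by
      have h1 := hκ K hK hx hμ
      refine ⟨h1.1, fun hB => ?_⟩
      rw [h1.2 hB]; ring)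
  have SF : SqFlux (cutR 𝒬' B) (join (cutR 𝒬' B) X1 Y1) (join (cutR 𝒬' B) X2 Y2)
      (fun i => f i.1) (fun i => i.1.1.s) (fun i => (i.1.1.x, i.1.1.y))
      (fun i => νp i.1 + νm i.1) :=
    sqFlux_of_fills F (hP.pack h𝒬) Hq.f2 Hq.fp Hq.fm (fun i p => (na i.1 p).1)
      (fun i p => (na i.1 p).2)
  have hoff : ∀ p ∉ (cutR 𝒬' B).un,
      join (cutR 𝒬' B) X1 Y1 p = X1 p ∧ join (cutR 𝒬' B) X2 Y2 p = X2 p := fun p hp =>
    ⟨join_of_not hp, join_of_not hp⟩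
  have hvan : ∀ p ∈ E, p ∉ (cutR 𝒬' B).un →
      join (cutR 𝒬' B) X1 Y1 p = 0 ∧ join (cutR 𝒬' B) X2 Y2 p = 0 := by
    intro p hpE hp
    rw [(hoff p hp).1, (hoff p hp).2]
    exact ⟨hz1 p fun h => h.2 ⟨hpE, h.1.2.2⟩, hz2 p fun h => h.2 ⟨hpE, h.1.2.2⟩⟩
  have hzz : ∀ p, p ∉ Wo a b c B →
      join (cutR 𝒬' B) X1 Y1 p = 0 ∧ join (cutR 𝒬' B) X2 Y2 p = 0 := by
    intro p hp
    rw [(hoff p fun h => hp (hunWo h)).1, (hoff p fun h => hp (hunWo h)).2]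
    exact ⟨hz1 p fun h => hp h.1, hz2 p fun h => hp h.1⟩
  refine ⟨_, _, _, _, J, z, κ, r,
    { fl := fl
      L := L
      D := D
      A := A
      F := SF
      H := ?_
      hJ := hJ
      T := hκ
      one := fun i e L he hc => F.one i he hc
      off := hoff
      vanE := hvan
      z := hzz
      na := na
      noat := noat
      la := ?_
      fz := ?_ }⟩
  · exact
      { L := L
        mS := D.mS
        XS := Eventually.of_forall fun p hp => (hvan p hp.1.1 hp.2).2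
        XB := fun p hp => (hzz p fun h => absurd h.2.2 (not_lt.2 hp)).2
        dis := D.dis
        box := D.box
        ly := by
          intro i
          filter_upwards [SqW_832.hflux L.L2 (SqW_832.f3h_of_flux3 SF.F D.f0) i] with y hy hyI
          exact (abs_integral_le_integral_abs).trans (hy hyI)
        f0 := D.f0
        sf := summable_mul' R.s2 Hq.f2
        car := by filter_upwards [hWl] with q hq using hq.2.2 }
  · intro i
    have h1 := F.L2 i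
    refine le_trans (le_of_eq ?_) h1
    refine setIntegral_congr_fun ((cutR 𝒬' B).measurableSet_op i) fun p hp => ?_
    rw [join_of_mem F.dis hp]
  · intro i hi
    have h0 : QA 𝒬' i ∩ Wl a b c B = ∅ := by
      rw [eq_empty_iff_forall_notMem]
      rintro p ⟨h3, h4⟩
      have h5 := (Sqr.mem_car.1 h3).2.1
      have h6 := h4.2.2
      linarith
    have h1 : νp i = 0 := by
      have := h.pc i
      rw [h0, compl_empty] at this
      exact Measure.measure_univ_eq_zero.1 this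
    have h2 : νm i = 0 := by
      have := h.mc i
      rw [h0, compl_empty] at this
      exact Measure.measure_univ_eq_zero.1 this
    refine ⟨?_, h1, h2⟩
    rw [← h.pm i, h1]
    simp

end Crest.Agent.R105.SqJ_361
end

-- ▼ part R105/SqJg_361
section

/-! Row 105, S0138, Lemma A with exact squares: `LowOut` for both halves of helper247's box problems
`FamF` (families) and `SolF` (single solid) (helper361). -/

set_option autoImplicit false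

open MeasureTheory Set Filter Topology Metric
open scoped NNReal ENNReal

namespace Crest.Agent.R105.SqJ_361

open Crest.Agent.R105.CF_363 Crest.Agent.R105.Sq_87 Crest.Agent.R105.Kin_238
open Crest.Agent.R105.Cq_463 Crest.Agent.R105.Exs_992 Crest.Agent.R105.Stp_722
open Crest.Agent.R105.Nal_649 Crest.Agent.R105.Famq_306
open Crest.Agent.R105.Knq_247 (QQ HalfQ)
open Crest.Agent.R105.Kbx_247
open Crest.Agent.R105.Skp2_257 (Comps)

variable {E : Set (ℝ × ℝ)} {𝒬 : Set Sqr} {𝓗 : Set Hair} {a b c d B Bm Bp m : ℝ}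
variable {g : Set (Set (ℝ × ℝ))} {Q0 : Sqr}

/-- the reflected picture -/
theorem BoxP.refl (hP : BoxP E 𝒬 𝓗 a b c d) :
    BoxP (rf ⁻¹' E) (rfS '' 𝒬) (reflH 𝓗) a b (-d) (-c) where
  pic := refl_pic hP.pic
  dis := by
    intro K hK K' hK' hne
    have h := hP.dis K.refl hK K'.refl hK' fun h => hne (Hair.refl_injective h)
    rw [Hair.car_refl, Hair.car_refl] at h
    rw [Set.disjoint_left] at h ⊢
    intro p hp hp'
    exact h (a := rf p) (by simpa using hp) (by simpa using hp')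
  box := by
    intro p hp
    have h1 := hP.box hp
    refine ⟨h1.1, ?_, ?_⟩
    · have := h1.2.2
      rw [rf_snd] at this
      linarith
    · have := h1.2.1
      rw [rf_snd] at this
      linarith

/-- a square is not contained in a hair -/
theorem not_sub_hair (Q : Sqr) (K : Hair) : ¬ Q.car ⊆ K.car := by
  intro h
  have hs := Q.hs
  have h1 := (h (show (Q.x, Q.y) ∈ Q.car from
    Sqr.mem_car.2 ⟨⟨le_rfl, by linarith⟩, ⟨le_rfl, by linarith⟩⟩)).1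
  have h2 := (h (show (Q.x + Q.s, Q.y) ∈ Q.car from
    Sqr.mem_car.2 ⟨⟨by simp only; linarith, le_rfl⟩, ⟨le_rfl, by simp only; linarith⟩⟩)).1
  simp only at h1 h2
  linarith

/-- a free hair misses the squares -/
theorem free_misses (hP : PicS E 𝒬 𝓗) {K : Hair} (hK : K.car ∈ Comps E) {Q : Sqr} (hQ : Q ∈ 𝒬) :
    Disjoint K.car Q.car := by
  rw [Set.disjoint_left]
  intro p hp hpQ
  have h1 : K.car = comp E Q :=
    comp_unique hK (SkT1_137.comp_mem hP.q hQ) ⟨p, hp, SkT1_137.car_sub_comp hP.q hQ hpQ⟩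
  exact not_sub_hair Q K (h1 ▸ SkT1_137.car_sub_comp hP.q hQ)

section fam

variable {X1 X2 : ℝ × ℝ → ℝ} {f : {Q : Sqr // Q ∈ 𝒬} → ℝ}
  {νp νm : {Q : Sqr // Q ∈ 𝒬} → Measure (ℝ × ℝ)} {μ : Measure (ℝ × ℝ)}
  {Y1 Y2 : ℝ × ℝ → ℝ} {f' : {Q : Sqr // Q ∈ rfS '' 𝒬} → ℝ}
  {νp' νm' : {Q : Sqr // Q ∈ rfS '' 𝒬} → Measure (ℝ × ℝ)} {ν : Measure (ℝ × ℝ)}

/-- **the lower half of the flow of a family** -/
theorem famF_low (hP : BoxP E 𝒬 𝓗 a b c d) (hg : FamQ E g Bm Bp) (hab : a < b) (hc : c < Bm)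
    (gen : ∀ Q ∈ 𝒬, Q.y ≠ Bm)
    (F : FamF E 𝒬 𝓗 g Bm Bp a b c d m X1 X2 f νp νm μ Y1 Y2 f' νp' νm' ν) :
    ∃ U1 U2 ψ Ψ J z κ r,
      LowOut E 𝒬 𝓗 a b c Bm X1 X2 f νp νm μ U1 U2 ψ Ψ J z κ r := by
  refine exists_lowOut hP Subset.rfl hab hc gen ?_ (qq hP.pic.q hP.box Subset.rfl) F.lo ?_ ?_
  · rintro p ⟨⟨P, hPg, hpP⟩, h2⟩
    have h3 := hP.box (comps_sub (hg.sub hPg) hpP)
    exact ⟨h3.1, h3.2.1, h2⟩
  · filter_upwards [F.c1] with q hq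
    obtain ⟨K, hK, hKg, h1, h2, h3, h4⟩ := hq
    exact Or.inl ⟨K, hK, h1.1.symm, h1.2.1, (hg.lt.le).trans h4⟩
  · intro Q hQ
    refine measure_mono_null (fun q hq => ?_) (ae_iff.1 F.c1)
    rintro ⟨K, hK, hKg, h1, -⟩
    exact Set.disjoint_left.1 (free_misses hP.pic (hg.sub hKg) hQ) h1 hq

/-- **the upper half of the flow of a family** (reflected picture) -/
theorem famF_up (hP : BoxP E 𝒬 𝓗 a b c d) (hg : FamQ E g Bm Bp) (hab : a < b) (hd : Bp < d)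
    (gen : ∀ Q ∈ 𝒬, Q.y + Q.s ≠ Bp)
    (F : FamF E 𝒬 𝓗 g Bm Bp a b c d m X1 X2 f νp νm μ Y1 Y2 f' νp' νm' ν) :
    ∃ U1 U2 ψ Ψ J z κ r, LowOut (rf ⁻¹' E) (rfS '' 𝒬) (reflH 𝓗) a b (-d) (-Bp)
      Y1 Y2 f' νp' νm' ν U1 U2 ψ Ψ J z κ r := by
  have hP' := hP.refl
  refine exists_lowOut hP' Subset.rfl hab (by linarith) ?_ ?_ (qq hP'.pic.q hP'.box Subset.rfl)
    F.up ?_ ?_
  · rintro Q hQ h
    have h1 := gen (rfS Q) (mem_rfS.1 hQ)
    rw [rfS_y, rfS_s] at h1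
    exact h1 (by linarith)
  · rintro p ⟨⟨P, hPg, hpP⟩, h2⟩
    have h3 := hP'.box (show p ∈ rf ⁻¹' E from comps_sub (hg.sub hPg) hpP)
    exact ⟨h3.1, h3.2.1, h2⟩
  · filter_upwards [F.c2] with q hq
    obtain ⟨K, hK, hKg, h1, h2, h3, h4⟩ := hq
    have h5 : q ∈ K.refl.car := Hair.mem_car_refl.2 h1
    refine Or.inl ⟨K.refl, ?_, h5.1.symm, h5.2.1, ?_⟩
    · show K.refl.refl ∈ 𝓗
      rw [Hair.refl_refl]; exact hK
    · rw [Hair.refl_t]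
      have := hg.lt
      linarith
  · intro Q hQ
    refine measure_mono_null (fun q hq => ?_) (ae_iff.1 F.c2)
    rintro ⟨K, hK, hKg, h1, -⟩
    have h2 : rf q ∈ (rfS Q).car := by
      rw [mem_car_rfS, rf_rf]; exact hq
    exact Set.disjoint_left.1 (free_misses hP.pic (hg.sub hKg) (mem_rfS.1 hQ)) h1 h2

end fam

section sol

variable {X1 X2 : ℝ × ℝ → ℝ} {f : {Q : Sqr // Q ∈ 𝒬 \ {Q0}} → ℝ}
  {νp νm : {Q : Sqr // Q ∈ 𝒬 \ {Q0}} → Measure (ℝ × ℝ)} {μ : Measure (ℝ × ℝ)}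
  {Y1 Y2 : ℝ × ℝ → ℝ} {f' : {Q : Sqr // Q ∈ rfS '' (𝒬 \ {Q0})} → ℝ}
  {νp' νm' : {Q : Sqr // Q ∈ rfS '' (𝒬 \ {Q0})} → Measure (ℝ × ℝ)} {ν : Measure (ℝ × ℝ)}

/-- **the lower flow of a single solid** -/
theorem solF_low (hP : BoxP E 𝒬 𝓗 a b c d) (hQ0 : Q0 ∈ 𝒬) (hab : a < b) (hc : c < B)
    (hB : B ≤ Q0.y + Q0.s) (gen : ∀ Q ∈ 𝒬, Q.y ≠ B)
    (F : SolF E 𝒬 𝓗 Q0 B Bp a b c d X1 X2 f νp νm μ Y1 Y2 f' νp' νm' ν) :
    ∃ U1 U2 ψ Ψ J z κ r,
      LowOut E (𝒬 \ {Q0}) 𝓗 a b c B X1 X2 f νp νm μ U1 U2 ψ Ψ J z κ r := by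
  refine exists_lowOut hP sdiff_subset hab hc (fun Q hQ => gen Q hQ.1) ?_
    (qq hP.pic.q hP.box sdiff_subset) F.lo ?_ ?_
  · rintro p ⟨h1, h2⟩
    have h3 := hP.box (hP.pic.q.sub Q0 hQ0 h1)
    exact ⟨h3.1, h3.2.1, h2⟩
  · filter_upwards [F.c1] with q hq
    exact Or.inr ⟨Q0, hQ0, fun h => h.2 rfl, hq.1, hB⟩
  · intro Q hQ
    refine measure_mono_null (fun q hq => ?_) (ae_iff.1 F.c1)
    rintro ⟨h1, -⟩
    exact Set.disjoint_left.1 (hP.pic.q.disjoint hQ.1 hQ0 hQ.2) hq h1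

/-- **the upper flow of a single solid** (reflected picture) -/
theorem solF_up (hP : BoxP E 𝒬 𝓗 a b c d) (hQ0 : Q0 ∈ 𝒬) (hab : a < b) (hd : Bp < d)
    (hBp : Q0.y + Q0.s < Bp) (gen : ∀ Q ∈ 𝒬, Q.y + Q.s ≠ Bp)
    (F : SolF E 𝒬 𝓗 Q0 B Bp a b c d X1 X2 f νp νm μ Y1 Y2 f' νp' νm' ν) :
    ∃ U1 U2 ψ Ψ J z κ r, LowOut (rf ⁻¹' E) (rfS '' (𝒬 \ {Q0})) (reflH 𝓗) a b (-d) (-Bp)
      Y1 Y2 f' νp' νm' ν U1 U2 ψ Ψ J z κ r := by
  have hP' := hP.refl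
  have hsub : rfS '' (𝒬 \ {Q0}) ⊆ rfS '' 𝒬 := image_mono sdiff_subset
  refine exists_lowOut hP' hsub hab (by linarith) ?_ ?_ (qq hP'.pic.q hP'.box hsub) F.up ?_ ?_
  · rintro Q hQ h
    have h1 := gen (rfS Q) (mem_rfS.1 (hsub hQ))
    rw [rfS_y, rfS_s] at h1
    exact h1 (by linarith)
  · rintro p ⟨h1, h2⟩
    have h3 := hP'.box (show p ∈ rf ⁻¹' E from
      comps_sub (SkT1_137.comp_mem hP.pic.q hQ0) h1)
    exact ⟨h3.1, h3.2.1, h2⟩
  · filter_upwards [F.c2] with q hq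
    obtain ⟨h0, K, hK, h1, h2, h3, h4⟩ := hq
    have h5 : q ∈ K.refl.car := Hair.mem_car_refl.2 h3
    refine Or.inl ⟨K.refl, ?_, h5.1.symm, h5.2.1, ?_⟩
    · show K.refl.refl ∈ 𝓗
      rw [Hair.refl_refl]; exact hK
    · rw [Hair.refl_t, h2]
      linarith
  · intro Q hQ
    refine measure_mono_null (fun q hq => ?_) (ae_iff.1 F.c2)
    rintro ⟨-, K, hK, h1, h2, h3, -⟩
    have h4 : rf q ∈ (rfS Q).car := by
      rw [mem_car_rfS, rf_rf]; exact hq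
    have h5 := mem_rfS.1 hQ
    have h6 : comp E (rfS Q) = comp E Q0 :=
      comp_unique (SkT1_137.comp_mem hP.pic.q h5.1) (SkT1_137.comp_mem hP.pic.q hQ0)
        ⟨rf q, SkT1_137.car_sub_comp hP.pic.q h5.1 h4, h1 h3⟩
    exact h5.2 (SkT1_137.eq_of_comp_eq hP.pic.q h5.1 hQ0 h6)

end sol

end Crest.Agent.R105.SqJ_361
end

-- ▼ part R105/SqQ_87
section

/-! Row 105, S0138, exact squares: the continuous representative of the stream function off the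
open charged rectangles. -/

open MeasureTheory Set Filter Topology
open scoped NNReal ENNReal

namespace Crest.Agent.R105.Sq_87

open Crest.Agent.R105.Mp_87 (Rc measurableSet_Rc restrict_Rc cs_line)
open Crest.Agent.R105.CF_363 (Hair)
open Crest.Agent.R105.Psi_425 (EOsc eosc_of_bounds cont_rep ae_hor ae_vert eq_on_open)

variable {ι : Type} {Q : Rects ι} {S : Set (ℝ × ℝ)}
variable {a b c B σ : ℝ} {X X1 X2 ψ Ψ : ℝ × ℝ → ℝ} {μ : Measure (ℝ × ℝ)} {f : ι → ℝ}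

theorem AdmQ.sub {J : ℕ → Finset Hair} : AdmQ a b c S μ J ⊆ Ioo a b ×ˢ Ioi c := by
  rintro z ⟨r, hr, h1, h2, h3, -⟩
  exact ⟨⟨by linarith, by linarith⟩, by show c < z.2; linarith⟩

/-- `Ψ (·, y)` is continuous at the admissible points -/
theorem contAt_h [IsFiniteMeasure μ] {J : ℕ → Finset Hair} {x y : ℝ}
    (G : GoodY a b σ X2 μ ψ Ψ y) (h : (x, y) ∈ AdmQ a b c S μ J) :
    ContinuousAt (fun s => Ψ (s, y)) x := by
  obtain ⟨r, hr, h1, h2, h3, h4, -⟩ := h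
  simp only at h1 h2 h3 h4
  have hcont := G.continuousOn h1 h2 (fun x' hx' => by
    refine measure_mono_null ?_ (h4 x' hx')
    rintro q ⟨q1, q2⟩
    exact ⟨q1, by linarith⟩)
  exact hcont.continuousAt (Icc_mem_nhds (by linarith) (by linarith))

/-- `ψ (x, ·)` is continuous above `c` -/
theorem contAt_v {x y : ℝ} (G : GoodX a b c X1 ψ Ψ x) (hy : c < y) :
    ContinuousAt (fun t => ψ (x, t)) y := by
  set y₀ : ℝ := (c + y) / 2 with hy₀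
  have hy₀c : c < y₀ := by rw [hy₀]; linarith
  have hy₀y : y₀ < y := by rw [hy₀]; linarith
  have hcont : Continuous fun t => ψ (x, y₀) + ∫ s in y₀..t, X1 (x, s) :=
    continuous_const.add (intervalIntegral.continuous_primitive G.int y₀)
  refine hcont.continuousAt.congr ?_
  filter_upwards [Ioi_mem_nhds hy₀y] with t ht
  have := G.V y₀ t hy₀c (le_of_lt ht)
  linarith

/-- from almost everywhere on an open set of the line to its closure -/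
theorem line_closure {A : Set ℝ} {O : Set ℝ} (hO : IsOpen O) (hOA : O ⊆ A) {u g : ℝ → ℝ}
    (hu : ∀ x ∈ A, ContinuousAt u x) (hg : ContinuousOn g A)
    (hae : ∀ᵐ x ∂(volume : Measure ℝ), x ∈ O → u x = g x) {x : ℝ} (hx : x ∈ A)
    (hxO : x ∈ closure O) : u x = g x := by
  have h1 : ∀ x ∈ O, u x = g x :=
    eq_on_open hO (fun x hx => (hu x (hOA hx)).continuousWithinAt) (hg.mono hOA) hae
  have : (𝓝[O] x).NeBot := mem_closure_iff_nhdsWithin_neBot.1 hxO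
  have h2 : Tendsto u (𝓝[O] x) (𝓝 (u x)) := (hu x hx).mono_left nhdsWithin_le_nhds
  have h3 : Tendsto g (𝓝[O] x) (𝓝 (g x)) := (hg x hx).mono_left (nhdsWithin_mono _ hOA)
  have h4 : Tendsto u (𝓝[O] x) (𝓝 (g x)) :=
    h3.congr' (by filter_upwards [self_mem_nhdsWithin] with s hs using (h1 s hs).symm)
  exact tendsto_nhds_unique h2 h4

/-- **Continuous representative of the stream function off the open charged rectangles.**
`V` = any open set of admissible points off the rectangles, for instance the domain. -/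
theorem exists_contQ [IsFiniteMeasure μ] [Countable ι] (L : LinesI a b c B σ X1 X2 μ ψ Ψ)
    (hσ : σ = 1 ∨ σ = -1) (D : SqData Q S a b c B X1 X2 μ f)
    {J : ℕ → Finset Hair} {z : ℕ → ℝ × ℝ → ℝ} {κ : Hair → ℝ} {ρ : ℕ → ι → ℝ}
    (A : ApprQ Q S a b c B σ X1 X2 μ Ψ f J z κ ρ) {s : ι → ℝ} {q : ι → ℝ × ℝ}
    {ν : ι → Measure (ℝ × ℝ)} (F : SqFlux Q X1 X2 f s q ν)
    (hd : ∀ p ∈ AdmQ a b c S μ J, p ∉ Q.un → ∀ O ∈ 𝓝 p, volume (O \ Q.un) ≠ 0) :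
    ∃ g : ℝ × ℝ → ℝ, ContinuousOn g (AdmQ a b c S μ J \ Q.un) ∧
      (∀ᵐ w : ℝ × ℝ, w ∈ AdmQ a b c S μ J → w ∉ Q.un → g w = ψ w) ∧
      (∀ w ∈ AdmQ a b c S μ J \ Q.un, ∀ ε > 0, ∃ O, IsOpen O ∧ w ∈ O ∧
        ∀ᵐ p : ℝ × ℝ, p ∈ O → p ∉ Q.un → |ψ p - g w| ≤ ε) ∧
      ∀ V, IsOpen V → V ⊆ AdmQ a b c S μ J \ Q.un →
        (∀ᵐ y : ℝ, ∀ x, (x, y) ∈ AdmQ a b c S μ J \ Q.un →
          x ∈ closure {x' | (x', y) ∈ V} → Ψ (x, y) = g (x, y)) ∧
        (∀ᵐ x : ℝ, ∀ y, (x, y) ∈ AdmQ a b c S μ J \ Q.un →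
          y ∈ closure {y' | (x, y') ∈ V} → ψ (x, y) = g (x, y)) := by
  obtain ⟨g, hg, hae, hlim⟩ := cont_rep (A := Q.unᶜ) (B := AdmQ a b c S μ J \ Q.un) (ψ := ψ)
    (fun w hw ε hε => by
      obtain ⟨r, ⟨m0, hm0⟩, hr⟩ := ((small_oscQ L hσ D A F hw.1 hw.2 (half_pos hε)).and
        self_mem_nhdsWithin).exists
      have hr' : 0 < r := hr
      refine ⟨Rc (w.1 - r) (w.1 + r) (w.2 - r) (w.2 + r), ?_, ?_, ?_⟩
      · exact isOpen_Ioo.prod isOpen_Ioo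
      · exact ⟨⟨by linarith, by linarith⟩, by linarith, by linarith⟩
      · refine eosc_of_bounds (m := m0 - ε / 2) (M := m0 + ε / 2) ?_ (by linarith)
        filter_upwards [hm0] with p hp hpO
        have := abs_le.1 (hp hpO.1 hpO.2)
        exact ⟨by linarith [this.1], by linarith [this.2]⟩)
    (fun w hw O hO hwO => by
      have := hd w hw.1 hw.2 O (hO.mem_nhds hwO)
      rwa [sdiff_eq] at this)
  have hae' : ∀ᵐ w : ℝ × ℝ, w ∈ AdmQ a b c S μ J → w ∉ Q.un → g w = ψ w := by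
    filter_upwards [hae] with w hw h1 h2
    exact (hw ⟨h2, h1, h2⟩).symm
  refine ⟨g, hg, hae', ?_, fun V hV hVA => ⟨?_, ?_⟩⟩
  · intro w hw ε hε
    obtain ⟨O, hO, hwO, h⟩ := hlim w hw ε hε
    refine ⟨O, hO, hwO, ?_⟩
    filter_upwards [h] with p hp h1 h2
    exact hp ⟨h1, h2⟩
  · have hΨ : ∀ᵐ w : ℝ × ℝ, w ∈ V → Ψ w = g w := by
      filter_upwards [hae', L.E] with w h1 h2 hw
      have h3 := hVA hw
      have h4 := AdmQ.sub h3.1
      rw [h1 h3.1 h3.2, h2 h4.1 h4.2]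
    filter_upwards [L.goodY, ae_hor hΨ] with y hy h3 x hx hxO
    have hyc : c < y := (AdmQ.sub hx.1).2
    refine line_closure (A := {x' | (x', y) ∈ AdmQ a b c S μ J \ Q.un})
      (O := {x' | (x', y) ∈ V}) (hV.preimage (by fun_prop)) (fun x' hx' => hVA hx')
      (u := fun s => Ψ (s, y)) (g := fun s => g (s, y)) (fun x' hx' => contAt_h (hy hyc) hx'.1)
      (hg.comp (by fun_prop) fun x' hx' => hx') ?_ hx hxO
    filter_upwards [h3] with x' hx'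
    exact hx'
  · have hψ : ∀ᵐ w : ℝ × ℝ, w ∈ V → ψ w = g w := by
      filter_upwards [hae'] with w h1 hw
      have h3 := hVA hw
      rw [h1 h3.1 h3.2]
    filter_upwards [L.goodX, ae_vert hψ] with x hx h3 y hy hyO
    have hxab : x ∈ Ioo a b := (AdmQ.sub hy.1).1
    refine line_closure (A := {y' | (x, y') ∈ AdmQ a b c S μ J \ Q.un})
      (O := {y' | (x, y') ∈ V}) (hV.preimage (by fun_prop)) (fun y' hy' => hVA hy')
      (u := fun s => ψ (x, s)) (g := fun s => g (x, s))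
      (fun y' hy' => contAt_v (hx hxab) (AdmQ.sub hy'.1).2)
      (hg.comp (by fun_prop) fun y' hy' => hy') ?_ hy hyO
    filter_upwards [h3] with y' hy'
    exact hy'

end Crest.Agent.R105.Sq_87
end

-- ▼ part R105/SqH_87
section

/-! Row 105, S0138, exact squares: geometry for the half list: every point off the open squares is
accessible from the complement of `E` along almost every line; density of `Q.unᶜ`. -/

set_option autoImplicit false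

open MeasureTheory Set Filter Topology
open scoped NNReal ENNReal

namespace Crest.Agent.R105.SqH_87

open CF_363 Cq_463 Sq_87 Gl_363
open Mp_87 (ae_x_of_ae ae_y_of_ae)

theorem exists_mem_Ioo {P : ℝ → Prop} (h : ∀ᵐ x : ℝ, P x) {u v : ℝ} (huv : u < v) :
    ∃ x ∈ Ioo u v, P x := by
  by_contra hcon
  push Not at hcon
  have hpos : 0 < volume (Ioo u v) := by rw [Real.volume_Ioo]; simpa using huv
  exact hpos.ne' (measure_mono_null (fun x hx => hcon x hx) (ae_iff.mp h))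

variable {E : Set (ℝ × ℝ)} {𝒬 : Set Sqr} {𝓗 : Set Hair}

theorem interior_car (Q : Sqr) : interior Q.car = Ioo Q.x (Q.x + Q.s) ×ˢ Ioo Q.y (Q.y + Q.s) := by
  rw [Sqr.car, interior_prod_eq, interior_Icc, interior_Icc]

theorem notMem_closure_Ioo {A : Set ℝ} {x : ℝ} (h : x ∉ closure A) :
    ∃ δ > 0, ∀ x' ∈ Ioo (x - δ) (x + δ), x' ∉ A := by
  rw [Metric.mem_closure_iff] at h
  push Not at h
  obtain ⟨δ, hδ, h⟩ := h
  refine ⟨δ, hδ, fun x' hx' hA => ?_⟩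
  have := h x' hA
  rw [Real.dist_eq] at this
  exact absurd (abs_lt.2 ⟨by linarith [hx'.2], by linarith [hx'.1]⟩ : |x - x'| < δ) (not_lt.2 this)

/-- **horizontal access** to every point off the open squares -/
theorem acc_h (hE : QPic E 𝒬 𝓗) : ∀ᵐ y : ℝ, ∀ x, (∀ Q ∈ 𝒬, (x, y) ∉ interior Q.car) →
    x ∈ closure {x' | (x', y) ∈ Eᶜ} := by
  have h1 : ∀ᵐ p : ℝ × ℝ, p ∉ E \ ⋃ Q ∈ 𝒬, Q.car := measure_eq_zero_iff_ae_notMem.mp hE.null
  have h2 : ∀ᵐ y : ℝ, y ∉ (fun Q : Sqr => Q.y) '' 𝒬 :=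
    (hE.countable.image _).ae_notMem volume
  have h3 : ∀ᵐ y : ℝ, y ∉ (fun Q : Sqr => Q.y + Q.s) '' 𝒬 :=
    (hE.countable.image _).ae_notMem volume
  filter_upwards [ae_y_of_ae h1, h2, h3] with y h0 hy1 hy2 x hx
  by_contra hcon
  obtain ⟨δ, hδ, hδE⟩ := notMem_closure_Ioo hcon
  have hin : ∀ x' ∈ Ioo (x - δ) (x + δ), (x', y) ∈ E := fun x' hx' => by
    by_contra h
    exact hδE x' hx' h
  obtain ⟨x1, hx1, hx1'⟩ := exists_mem_Ioo h0 (u := x - δ) (v := x) (by linarith)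
  obtain ⟨x2, hx2, hx2'⟩ := exists_mem_Ioo h0 (u := x) (v := x + δ) (by linarith)
  have hq : ∀ x' ∈ Ioo (x - δ) (x + δ), (x', y) ∉ E \ ⋃ Q ∈ 𝒬, Q.car →
      ∃ Q ∈ 𝒬, (x', y) ∈ Q.car := by
    intro x' hx' h
    by_contra hc
    push Not at hc
    exact h ⟨hin x' hx', by simpa using hc⟩
  have m1 : x1 ∈ Ioo (x - δ) (x + δ) := ⟨hx1.1, by linarith [hx1.2]⟩
  have m2 : x2 ∈ Ioo (x - δ) (x + δ) := ⟨by linarith [hx2.1], hx2.2⟩
  obtain ⟨Q1, hQ1, hc1⟩ := hq x1 m1 hx1'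
  obtain ⟨Q2, hQ2, hc2⟩ := hq x2 m2 hx2'
  have hPE : Ioo (x - δ) (x + δ) ×ˢ {y} ⊆ E := by
    rintro ⟨x', y'⟩ ⟨a1, a2⟩
    rw [mem_singleton_iff] at a2
    simp only at a1 a2
    subst a2
    exact hin x' a1
  have hPc : IsPreconnected (Ioo (x - δ) (x + δ) ×ˢ {y}) :=
    (convex_Ioo _ _).isPreconnected.prod isPreconnected_singleton
  have h12 : Q1 = Q2 := hE.sep _ hPE hPc Q1 hQ1 Q2 hQ2 ⟨(x1, y), ⟨m1, rfl⟩, hc1⟩
    ⟨(x2, y), ⟨m2, rfl⟩, hc2⟩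
  subst h12
  refine hx Q1 hQ1 ?_
  rw [interior_car]
  have e1 := hc1.1.1
  have e2 := hc2.1.2
  have e3 := hc1.2
  simp only at e1 e2 e3
  refine ⟨⟨by simp only; linarith [hx1.2], by simp only; linarith [hx2.1]⟩,
    lt_of_le_of_ne e3.1 ?_, lt_of_le_of_ne e3.2 ?_⟩
  · intro h
    exact hy1 ⟨Q1, hQ1, h⟩
  · intro h
    exact hy2 ⟨Q1, hQ1, h.symm⟩

/-- **vertical access** to every point off the open squares -/
theorem acc_v (hE : QPic E 𝒬 𝓗) : ∀ᵐ x : ℝ, ∀ y, (∀ Q ∈ 𝒬, (x, y) ∉ interior Q.car) →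
    y ∈ closure {y' | (x, y') ∈ Eᶜ} := by
  have h1 : ∀ᵐ p : ℝ × ℝ, p ∉ E \ ⋃ Q ∈ 𝒬, Q.car := measure_eq_zero_iff_ae_notMem.mp hE.null
  have h2 : ∀ᵐ x : ℝ, x ∉ (fun Q : Sqr => Q.x) '' 𝒬 :=
    (hE.countable.image _).ae_notMem volume
  have h3 : ∀ᵐ x : ℝ, x ∉ (fun Q : Sqr => Q.x + Q.s) '' 𝒬 :=
    (hE.countable.image _).ae_notMem volume
  filter_upwards [ae_x_of_ae h1, h2, h3] with x h0 hy1 hy2 y hy
  by_contra hcon
  obtain ⟨δ, hδ, hδE⟩ := notMem_closure_Ioo hcon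
  have hin : ∀ y' ∈ Ioo (y - δ) (y + δ), (x, y') ∈ E := fun y' hy' => by
    by_contra h
    exact hδE y' hy' h
  obtain ⟨x1, hx1, hx1'⟩ := exists_mem_Ioo h0 (u := y - δ) (v := y) (by linarith)
  obtain ⟨x2, hx2, hx2'⟩ := exists_mem_Ioo h0 (u := y) (v := y + δ) (by linarith)
  have hq : ∀ y' ∈ Ioo (y - δ) (y + δ), (x, y') ∉ E \ ⋃ Q ∈ 𝒬, Q.car →
      ∃ Q ∈ 𝒬, (x, y') ∈ Q.car := by
    intro y' hy' h
    by_contra hc
    push Not at hc
    exact h ⟨hin y' hy', by simpa using hc⟩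
  have m1 : x1 ∈ Ioo (y - δ) (y + δ) := ⟨hx1.1, by linarith [hx1.2]⟩
  have m2 : x2 ∈ Ioo (y - δ) (y + δ) := ⟨by linarith [hx2.1], hx2.2⟩
  obtain ⟨Q1, hQ1, hc1⟩ := hq x1 m1 hx1'
  obtain ⟨Q2, hQ2, hc2⟩ := hq x2 m2 hx2'
  have hPE : {x} ×ˢ Ioo (y - δ) (y + δ) ⊆ E := by
    rintro ⟨x', y'⟩ ⟨a2, a1⟩
    rw [mem_singleton_iff] at a2
    simp only at a1 a2
    subst a2
    exact hin y' a1
  have hPc : IsPreconnected ({x} ×ˢ Ioo (y - δ) (y + δ)) :=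
    isPreconnected_singleton.prod (convex_Ioo _ _).isPreconnected
  have h12 : Q1 = Q2 := hE.sep _ hPE hPc Q1 hQ1 Q2 hQ2 ⟨(x, x1), ⟨rfl, m1⟩, hc1⟩
    ⟨(x, x2), ⟨rfl, m2⟩, hc2⟩
  subst h12
  refine hy Q1 hQ1 ?_
  rw [interior_car]
  have e1 := hc1.2.1
  have e2 := hc2.2.2
  have e3 := hc1.1
  simp only at e1 e2 e3
  refine ⟨⟨lt_of_le_of_ne e3.1 ?_, lt_of_le_of_ne e3.2 ?_⟩,
    by simp only; linarith [hx1.2], by simp only; linarith [hx2.1]⟩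
  · intro h
    exact hy1 ⟨Q1, hQ1, h⟩
  · intro h
    exact hy2 ⟨Q1, hQ1, h.symm⟩

section half

variable {ι : Type} {S SS : Set (ℝ × ℝ)} {Q : Rects ι} {sq : ι → Sqr}
  {a b c B T : ℝ} {μ : Measure (ℝ × ℝ)}

theorem op_sub_int (G : GeoC E S 𝒬 𝓗 Q sq a b c B T) (i : ι) : Q.op i ⊆ interior (sq i).car := by
  rw [interior_car]
  rintro p ⟨⟨h1, h2⟩, h3, h4⟩
  rw [G.x1 i] at h1
  rw [G.x2 i] at h2
  rw [G.y1 i] at h3
  rw [G.y2 i] at h4
  exact ⟨⟨h1, h2⟩, h3, h4.trans_le (min_le_left _ _)⟩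

theorem op_sub_car (G : GeoC E S 𝒬 𝓗 Q sq a b c B T) (i : ι) : Q.op i ⊆ (sq i).car :=
  (op_sub_int G i).trans interior_subset

theorem un_sub (G : GeoC E S 𝒬 𝓗 Q sq a b c B T) : Q.un ⊆ E := by
  refine iUnion_subset fun i => (op_sub_car G i).trans (G.pic.sub _ (G.sqm i).1)

theorem op_lt (G : GeoC E S 𝒬 𝓗 Q sq a b c B T) (i : ι) {p : ℝ × ℝ} (hp : p ∈ Q.op i) : p.2 < B := by
  have h4 := hp.2.2
  rw [G.y2 i] at h4
  exact h4.trans_le (min_le_right _ _)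

theorem un_lt (G : GeoC E S 𝒬 𝓗 Q sq a b c B T) {p : ℝ × ℝ} (hp : p ∈ Q.un) : p.2 < B := by
  obtain ⟨i, hi⟩ := mem_iUnion.1 hp
  exact op_lt G i hi


/-- the complement of the open rectangles is dense in measure -/
theorem densQ (G : GeoC E S 𝒬 𝓗 Q sq a b c B T) {p : ℝ × ℝ} (hp : p ∉ Q.un) :
    ∀ O ∈ 𝓝 p, volume (O \ Q.un) ≠ 0 := by
  intro O hO h0
  obtain ⟨ε, hε, hεO⟩ := Metric.mem_nhds_iff.1 hO
  set U := Metric.ball p ε with hU
  have hUo : IsOpen U := Metric.isOpen_ball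
  have hpU : p ∈ U := Metric.mem_ball_self hε
  have h1 : volume (U \ Q.un) = 0 := measure_mono_null (sdiff_subset_sdiff_left hεO) h0
  have hUE : U ⊆ E := by
    intro w hw
    by_contra hwE
    have h2 : IsOpen (U ∩ Eᶜ) := hUo.inter G.pic.cpt.isClosed.isOpen_compl
    have h3 : volume (U ∩ Eᶜ) = 0 :=
      measure_mono_null (fun z hz =>
        (⟨hz.1, fun hzu => hz.2 (un_sub G hzu)⟩ : z ∈ U \ Q.un)) h1
    exact (h2.measure_pos volume ⟨w, hw, hwE⟩).ne' h3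
  have hUc : IsPreconnected U := (convex_ball p ε).isPreconnected
  obtain ⟨w, hwU, hwu⟩ : ∃ w ∈ U, w ∈ Q.un := by
    by_contra hcon
    push Not at hcon
    have h3 : U \ Q.un = U := by
      ext z; exact ⟨fun h => h.1, fun h => ⟨h, hcon z h⟩⟩
    rw [h3] at h1
    exact (hUo.measure_pos volume ⟨p, hpU⟩).ne' h1
  obtain ⟨i, hi⟩ := mem_iUnion.1 hwu
  have hone : U ∩ Q.un ⊆ Q.op i := by
    rintro z ⟨hzU, hz⟩
    obtain ⟨j, hj⟩ := mem_iUnion.1 hz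
    have h4 : sq j = sq i := G.pic.sep U hUE hUc _ (G.sqm j).1 _ (G.sqm i).1
      ⟨z, hzU, op_sub_car G j hj⟩ ⟨w, hwU, op_sub_car G i hi⟩
    have e1 := G.x1 j
    have e2 := G.x2 j
    have e3 := G.y1 j
    have e4 := G.y2 j
    rw [h4] at e1 e2 e3 e4
    unfold Rects.op at hj ⊢
    rw [e1, e2, e3, e4] at hj
    rw [G.x1 i, G.x2 i, G.y1 i, G.y2 i]
    exact hj
  have hcl : U ⊆ closure (Q.op i) := by
    intro z hz
    by_contra hzc
    have h5 : IsOpen (U ∩ (closure (Q.op i))ᶜ) := hUo.inter isClosed_closure.isOpen_compl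
    have h6 : volume (U ∩ (closure (Q.op i))ᶜ) = 0 :=
      measure_mono_null (fun z hz => (⟨hz.1, fun hzu =>
        hz.2 (subset_closure (hone ⟨hz.1, hzu⟩))⟩ : z ∈ U \ Q.un)) h1
    exact (h5.measure_pos volume ⟨z, hz, hzc⟩).ne' h6
  have hint : p ∈ interior (closure (Q.op i)) := interior_maximal hcl hUo hpU
  have h7 : interior (closure (Q.op i)) = Q.op i := by
    have p1 := Q.p1 i
    have p2 := Q.p2 i
    unfold Rects.op
    rw [closure_prod_eq, closure_Ioo (by linarith), closure_Ioo (by linarith), interior_prod_eq,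
      interior_Icc, interior_Icc]
  rw [h7] at hint
  exact hp (mem_iUnion.2 ⟨i, hint⟩)

end half

end Crest.Agent.R105.SqH_87
end

-- ▼ part R105/SqG_87
section

/-! Row 105, S0138, exact squares: 363's half list `HalfG`. -/

set_option autoImplicit false

open MeasureTheory Set Filter Topology
open scoped NNReal ENNReal

namespace Crest.Agent.R105.SqH_87

open CF_363 Cq_463 Sq_87 Gl_363
open Mp_87 (ae_x_of_ae ae_y_of_ae lam)
open SqJ_361 (cl closure_op)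
open Psi11_425 (lam_continuousAt)

variable {ι : Type} {E S SS : Set (ℝ × ℝ)} {𝒬 : Set Sqr} {𝓗 : Set Hair} {Q : Rects ι}
  {sq : ι → Sqr} {a b c B T : ℝ} {μ : Measure (ℝ × ℝ)} {X1 X2 ψ Ψ g : ℝ × ℝ → ℝ} {f : ι → ℝ}
  {J : ℕ → Finset Hair} {z : ℕ → ℝ × ℝ → ℝ} {κ : Hair → ℝ} {ρ : ℕ → ι → ℝ}
  {s : ι → ℝ} {q : ι → ℝ × ℝ} {ν : ι → Measure (ℝ × ℝ)}

/-- the open set of generic access: the domain and the strip -/
def acs (E S : Set (ℝ × ℝ)) (a b c B T : ℝ) : Set (ℝ × ℝ) :=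
  ((Ioo a b ×ˢ Ioo c T) \ E) ∪ ((Ioo a b ×ˢ Ioo B T) \ S)

theorem isOpen_acs (G : GeoC E S 𝒬 𝓗 Q sq a b c B T) : IsOpen (acs E S a b c B T) :=
  ((isOpen_Ioo.prod isOpen_Ioo).sdiff G.pic.cpt.isClosed).union
    ((isOpen_Ioo.prod isOpen_Ioo).sdiff G.cS)

theorem acs_sub (G : GeoC E S 𝒬 𝓗 Q sq a b c B T) (C : CarC E S 𝒬 B T μ)
    (hSS : volume (SS \ S) = 0) (hJ : ∀ n, ∀ K ∈ J n, K ∈ 𝓗) :
    acs E S a b c B T ⊆ AdmQ a b c SS μ J \ Q.un := by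
  rintro p (⟨hp, hpE⟩ | ⟨⟨hp1, hp2⟩, hpS⟩)
  · exact ⟨admQ G C hSS hJ hp fun h => hpE (G.SE h), fun h => hpE (un_sub G h)⟩
  · exact ⟨admQ G C hSS hJ ⟨hp1, ⟨G.cB.trans hp2.1, hp2.2⟩⟩ hpS,
      fun h => absurd (un_lt G h) (not_lt.2 hp2.1.le)⟩

/-- no mass on the column of a point off `S` -/
theorem col_null (C : CarC E S 𝒬 B T μ) {p : ℝ × ℝ}
    (hp : p ∈ Ioo a b ×ˢ Ioo c T) (hB : B ≤ p.2) (hpS : p ∉ S) : μ {q | q.1 = p.1} = 0 := by
  have h1 : μ {q | q.1 = p.1 ∧ q.2 ≤ p.2} = 0 :=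
    box_null C (u1 := p.1) (u2 := p.1) (v1 := p.2) (v2 := p.2) le_rfl hp.2.2
      (fun x hx y hy => by
        have e1 : x = p.1 := le_antisymm hx.2 hx.1
        have e2 : y = p.2 := le_antisymm hy.2 hy.1
        rw [e1, e2]; exact hpS) ⟨le_rfl, le_rfl⟩
  rw [measure_eq_zero_iff_ae_notMem] at h1 ⊢
  filter_upwards [h1, C.lvl] with w hw hwB hw1
  exact hw ⟨hw1, hwB.trans hB⟩

/-- the strip value -/
theorem strip_of (G : GeoC E S 𝒬 𝓗 Q sq a b c B T) (C : CarC E S 𝒬 B T μ) [IsFiniteMeasure μ]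
    (L : LinesI a b c B 1 X1 X2 μ ψ Ψ)
    (cont : ContinuousOn g ((Ioo a b ×ˢ Ioo c T) \ (Q.un ∪ S)))
    (ae : ∀ᵐ w : ℝ × ℝ, w ∈ Ioo a b ×ˢ Ioo c T → w ∉ Q.un → w ∉ S → g w = ψ w) :
    ∀ p ∈ Ioo a b ×ˢ Ioo c T, B < p.2 → p ∉ S → g p = -lam μ p.1 := by
  intro p hp hpB hpS
  set O : Set (ℝ × ℝ) := (Ioo a b ×ˢ Ioo B T) \ S with hO
  have hOo : IsOpen O := (isOpen_Ioo.prod isOpen_Ioo).sdiff G.cS
  have hsub : O ⊆ (Ioo a b ×ˢ Ioo c T) \ (Q.un ∪ S) := by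
    rintro w ⟨⟨hw1, hw2⟩, hwS⟩
    refine ⟨⟨hw1, G.cB.trans hw2.1, hw2.2⟩, ?_⟩
    rintro (h | h)
    · exact absurd (un_lt G h) (not_lt.2 hw2.1.le)
    · exact hwS h
  have h1 : ContinuousOn (fun w : ℝ × ℝ => -lam μ w.1) O := by
    intro w hw
    have hw' := hsub hw
    have h2 := lam_continuousAt (μ := μ) (col_null C hw'.1 hw.1.2.1.le hw.2)
    exact ((ContinuousAt.comp (x := w) (f := Prod.fst) h2 continuousAt_fst).neg).continuousWithinAt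
  have h3 : g =ᵐ[volume.restrict O] fun w => -lam μ w.1 := by
    rw [Filter.EventuallyEq, ae_restrict_iff' hOo.measurableSet]
    filter_upwards [ae] with w hw hwO
    have hw' := hsub hwO
    rw [hw hw'.1 (fun h => hw'.2 (Or.inl h)) (fun h => hw'.2 (Or.inr h)),
      L.strip w hwO.1.2.1.le]
    ring
  exact Measure.eqOn_open_of_ae_eq h3 hOo (cont.mono hsub) h1 ⟨⟨hp.1, hpB, hp.2.2⟩, hpS⟩

/-- **the half list** -/
theorem exists_halfG [Countable ι] [IsFiniteMeasure μ] (G : GeoC E S 𝒬 𝓗 Q sq a b c B T)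
    (C : CarC E S 𝒬 B T μ)
    (hSS : volume (SS \ S) = 0) (hJ : ∀ n, ∀ K ∈ J n, K ∈ 𝓗)
    (L : LinesI a b c B 1 X1 X2 μ ψ Ψ) (D : SqData Q SS a b c B X1 X2 μ f)
    (A : ApprQ Q SS a b c B 1 X1 X2 μ Ψ f J z κ ρ) (F : SqFlux Q X1 X2 f s q ν)
    (hT : ∀ K ∈ 𝓗, K.x ∈ Ioo a b → μ {q | q.1 = K.x ∧ q.2 < K.t} = 0 →
      ∃ k : ℝ, ∀ᵐ y, c < y → y ∈ Ioo K.b K.t → Ψ (K.x, y) = k) :
    ∃ g, HalfG E S 𝓗 Q a b c B T X1 X2 μ f ψ g := by
  obtain ⟨g, hg, hgae, -, hacc⟩ := exists_contQ L (Or.inl rfl) D A F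
    (fun p _ hpu => densQ G hpu)
  obtain ⟨hgh, hgv⟩ := hacc (acs E S a b c B T) (isOpen_acs G) (acs_sub G C hSS hJ)
  have hdom : ((Ioo a b ×ˢ Ioo c T) \ (Q.un ∪ S)) ⊆ AdmQ a b c SS μ J \ Q.un := fun p hp =>
    ⟨admQ G C hSS hJ hp.1 fun h => hp.2 (Or.inr h), fun h => hp.2 (Or.inl h)⟩
  have hcont : ContinuousOn g ((Ioo a b ×ˢ Ioo c T) \ (Q.un ∪ S)) := hg.mono hdom
  have hae : ∀ᵐ w : ℝ × ℝ, w ∈ Ioo a b ×ˢ Ioo c T → w ∉ Q.un → w ∉ S → g w = ψ w := by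
    filter_upwards [hgae] with w hw h1 h2 h3
    exact hw (hdom ⟨h1, fun h => h.elim h2 h3⟩).1 h2
  have hstrip := strip_of G C L hcont hae
  -- access
  have haccH : ∀ᵐ y : ℝ, y ∈ Ioo c T → ∀ x ∈ Ioo a b, (∀ Q₀ ∈ 𝒬, (x, y) ∉ interior Q₀.car) →
      x ∈ closure {x' | (x', y) ∈ acs E S a b c B T} := by
    filter_upwards [acc_h G.pic] with y hy hyI x hx hxQ
    have h1 := isOpen_Ioo.inter_closure ⟨hx, hy x hxQ⟩
    refine closure_mono ?_ h1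
    rintro x' ⟨h2, h3⟩
    exact Or.inl ⟨⟨h2, hyI⟩, h3⟩
  have haccV : ∀ᵐ x : ℝ, x ∈ Ioo a b → ∀ y ∈ Ioo c T, (∀ Q₀ ∈ 𝒬, (x, y) ∉ interior Q₀.car) →
      y ∈ closure {y' | (x, y') ∈ acs E S a b c B T} := by
    filter_upwards [acc_v G.pic] with x hx hxI y hy hyQ
    have h1 := isOpen_Ioo.inter_closure ⟨hy, hx y hyQ⟩
    refine closure_mono ?_ h1
    rintro y' ⟨h2, h3⟩
    exact Or.inl ⟨⟨hxI, h2⟩, h3⟩
  -- points of a charged rectangle
  have hcar : ∀ i, ∀ p ∈ cl Q i, p ∈ (sq i).car ∧ p.2 ≤ B := by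
    rintro i p ⟨⟨h1, h2⟩, h3, h4⟩
    rw [G.x1 i] at h1
    rw [G.x2 i] at h2
    rw [G.y1 i] at h3
    rw [G.y2 i] at h4
    exact ⟨⟨⟨h1, h2⟩, h3, h4.trans (min_le_left _ _)⟩, h4.trans (min_le_right _ _)⟩
  have hbx : ∀ i, (sq i).car ⊆ Ioo a b ×ˢ Ioi c := fun i => (G.pic.sub _ (G.sqm i).1).trans G.box
  have hcdom : ∀ i, ∀ p ∈ cl Q i, p ∉ Q.un → p ∈ (Ioo a b ×ˢ Ioo c T) \ (Q.un ∪ S) := by
    intro i p hp hpu
    obtain ⟨h1, h2⟩ := hcar i p hp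
    have h3 := hbx i h1
    refine ⟨⟨h3.1, h3.2, h2.trans_lt G.BT⟩, ?_⟩
    rintro (h | h)
    · exact hpu h
    · exact disjoint_left.1 (G.sqm i).2.1 h1 h
  have hother : ∀ i, ∀ p ∈ (sq i).car, p ∉ interior (sq i).car → ∀ Q₀ ∈ 𝒬, p ∉ interior Q₀.car := by
    intro i p hp hpi Q₀ hQ₀ hp0
    by_cases h : Q₀ = sq i
    · rw [h] at hp0; exact hpi hp0
    · exact disjoint_left.1 (G.pic.disjoint hQ₀ (G.sqm i).1 h) (interior_subset hp0) hp
  refine ⟨g, hcont, hae, hstrip, ?_, ?_, ?_, ?_⟩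
  · -- hairs
    intro K hK hd
    have hbot : (K.x, K.b) ∈ K.car := Hair.mem_car.2 ⟨rfl, le_rfl, K.hbt.le⟩
    have hKx := G.box (G.pic.hsub K hK hbot)
    have hkey : ∃ k, ∀ y, y ∈ Icc K.b K.t → y < T → g (K.x, y) = k := by
      by_cases hbT : K.b < T
      swap
      · exact ⟨0, fun y hy hyT => absurd (hy.1.trans_lt hyT) hbT⟩
      have hμ0 : μ {q | q.1 = K.x ∧ q.2 < K.t} = 0 := by
        rcases C.sing with ⟨-, h1⟩ | h1
        · exact measure_mono_null (fun q hq => hq.1) (h1 K.x)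
        · rw [measure_eq_zero_iff_ae_notMem]
          filter_upwards [h1, C.lvl] with w hw hwB hw2
          obtain ⟨e1, e2⟩ := hw2
          have h2 := hw (max w.2 K.b) ⟨le_max_left _ _, max_lt (hwB.trans_lt G.BT) hbT⟩
          rw [e1] at h2
          exact disjoint_left.1 hd (Hair.mem_car.2
            ⟨rfl, le_max_right _ _, max_le e2.le K.hbt.le⟩) h2
      obtain ⟨k, hk⟩ := hT K hK hKx.1 hμ0
      refine ⟨k, fun y hy hyT => ?_⟩
      have hmem : ∀ y ∈ Icc K.b K.t, y < T → (K.x, y) ∈ (Ioo a b ×ˢ Ioo c T) \ (Q.un ∪ S) := by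
        intro y hy hyT
        have hyK : (K.x, y) ∈ K.car := Hair.mem_car.2 ⟨rfl, hy.1, hy.2⟩
        have h1 := G.box (G.pic.hsub K hK hyK)
        refine ⟨⟨h1.1, h1.2, hyT⟩, ?_⟩
        rintro (h | h)
        · obtain ⟨i, hi⟩ := mem_iUnion.1 h
          exact disjoint_left.1 (G.att K hK _ (G.sqm i).1) hyK (op_sub_int G i hi)
        · exact disjoint_left.1 hd hyK h
      refine (line_closure (A := {y | y ∈ Icc K.b K.t ∧ y < T}) (O := Ioo K.b (min K.t T))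
        isOpen_Ioo ?_ (u := fun _ => k) (g := fun y => g (K.x, y))
        (fun _ _ => continuousAt_const) (hcont.comp (by fun_prop) fun y hy => hmem y hy.1 hy.2)
        ?_ ⟨hy, hyT⟩ ?_).symm
      · rintro y ⟨h1, h2⟩
        exact ⟨⟨h1.le, (h2.trans_le (min_le_left _ _)).le⟩, h2.trans_le (min_le_right _ _)⟩
      · filter_upwards [hk, hgh, haccH] with y h1 h2 h3 hyO
        have hyI : y ∈ Icc K.b K.t := ⟨hyO.1.le, (hyO.2.trans_le (min_le_left _ _)).le⟩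
        have hyT' : y < T := hyO.2.trans_le (min_le_right _ _)
        have hcy : c < y := lt_of_lt_of_le hKx.2 hyI.1
        rw [← h1 hcy ⟨hyO.1, hyO.2.trans_le (min_le_left _ _)⟩]
        exact h2 K.x (hdom (hmem y hyI hyT')) (h3 ⟨hcy, hyT'⟩ K.x hKx.1 fun Q₀ hQ₀ h =>
          disjoint_left.1 (G.att K hK Q₀ hQ₀) (Hair.mem_car.2 ⟨rfl, hyI.1, hyI.2⟩) h)
      · rw [closure_Ioo (lt_min K.hbt hbT).ne]
        exact ⟨hy.1, le_min hy.2 hyT.le⟩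
    obtain ⟨k, hk⟩ := hkey
    rintro ⟨p1, p2⟩ hp ⟨q1, q2⟩ hq hpT hqT
    have hp' := Hair.mem_car.1 hp
    have hq' := Hair.mem_car.1 hq
    simp only at hp' hq' hpT hqT
    rw [hp'.1, hq'.1, hk p2 ⟨hp'.2.1, hp'.2.2⟩ hpT, hk q2 ⟨hq'.2.1, hq'.2.2⟩ hqT]
  · -- squares
    intro i p hp0 r hr0 hpu hru
    have hp : p ∈ cl Q i := hp0
    have hr : r ∈ cl Q i := hr0
    have hfr : ∀ w ∈ cl Q i, w ∉ Q.un → w ∈ frontier (Q.op i) := by
      intro w hw hwu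
      rw [(Q.isOpen_op i).frontier_eq, closure_op]
      exact ⟨hw, fun h => hwu (mem_iUnion.2 ⟨i, h⟩)⟩
    have hfd : ∀ w ∈ frontier (Q.op i), w ∈ cl Q i ∧ w ∉ Q.un := by
      intro w hw
      refine ⟨?_, Sqw_693.frontier_sub D.dis hw⟩
      rw [← closure_op]
      exact frontier_subset_closure hw
    have hc0 : (Q.x i - Q.h1 i, Q.y i - Q.h2 i) ∈ (sq i).car := by
      have hs := (sq i).hs
      rw [G.x1 i, G.y1 i]
      exact ⟨⟨le_rfl, by simp only; linarith⟩, le_rfl, by simp only; linarith⟩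
    have hc1 : (Q.x i + Q.h1 i, Q.y i - Q.h2 i) ∈ (sq i).car := by
      have hs := (sq i).hs
      rw [G.x2 i, G.y1 i]
      exact ⟨⟨by simp only; linarith, le_rfl⟩, le_rfl, by simp only; linarith⟩
    have hB : Sqw_693.Box Q i a b c μ := by
      refine ⟨(hbx i hc0).1.1, (hbx i hc1).1.2, (hbx i hc0).2, ?_⟩
      rw [measure_eq_zero_iff_ae_notMem]
      filter_upwards [C.off, C.lvl] with w hw hwB hw2
      obtain ⟨⟨e1, e2⟩, e3⟩ := hw2
      rw [G.x1 i] at e1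
      rw [G.x2 i] at e2
      rw [G.y2 i] at e3
      refine hw (max w.2 (sq i).y) ⟨le_max_left _ _, max_lt (hwB.trans_lt G.BT)
        ((G.sqm i).2.2.trans G.BT)⟩ (sq i) (G.sqm i).1 (G.sqm i).2.1 ?_
      exact ⟨⟨e1, e2⟩, le_max_right _ _, max_le (e3.trans_le (min_le_left _ _)).le
        (by have := (sq i).hs; linarith)⟩
    have hF3 : Sqw_693.F3 Q i X1 X2 (2 * f i) := ⟨F.F.x i, F.F.y i⟩
    have main := Sqw_693.osc_frontier L hF3 hB (F := g)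
      (hcont.mono fun w hw => hcdom i w (hfd w hw).1 (hfd w hw).2) ?_ ?_
    · have := main p (hfr p hp hpu) r (hfr r hr hru)
      linarith
    · intro s' hs'
      filter_upwards [hgh, haccH] with y h1 h2 hy
      have hpt : (s', y) ∈ cl Q i := ⟨hs'.mem, hy.1.le, hy.2.le⟩
      have hpu' : (s', y) ∉ Q.un := by
        refine Sqw_693.frontier_sub D.dis (i := i) ?_
        rw [(Q.isOpen_op i).frontier_eq, closure_op]
        refine ⟨hpt, fun h => ?_⟩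
        rcases hs' with h3 | h3
        · exact absurd h.1.1 (by rw [h3]; exact lt_irrefl _)
        · exact absurd h.1.2 (by rw [h3]; exact lt_irrefl _)
      have hd1 := hcdom i _ hpt hpu'
      refine (h1 s' (hdom hd1) (h2 hd1.1.2 s' hd1.1.1 (hother i _ (hcar i _ hpt).1 ?_))).symm
      rw [interior_car]
      rintro ⟨h3, -⟩
      rcases hs' with h4 | h4
      · rw [h4, G.x1 i] at h3; exact lt_irrefl _ h3.1
      · rw [h4, G.x2 i] at h3; exact lt_irrefl _ h3.2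
    · intro t ht
      filter_upwards [hgv, haccV] with x h1 h2 hx
      have hpt : (x, t) ∈ cl Q i := ⟨⟨hx.1.le, hx.2.le⟩, ht.mem⟩
      have hpu' : (x, t) ∉ Q.un := by
        refine Sqw_693.frontier_sub D.dis (i := i) ?_
        rw [(Q.isOpen_op i).frontier_eq, closure_op]
        refine ⟨hpt, fun h => ?_⟩
        rcases ht with h3 | h3
        · exact absurd h.2.1 (by rw [h3]; exact lt_irrefl _)
        · exact absurd h.2.2 (by rw [h3]; exact lt_irrefl _)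
      have hd1 := hcdom i _ hpt hpu'
      refine (h1 t (hdom hd1) ?_).symm
      rcases lt_or_ge t B with htB | htB
      · refine h2 hd1.1.1 t hd1.1.2 (hother i _ (hcar i _ hpt).1 ?_)
        rw [interior_car]
        rintro ⟨-, h3⟩
        rcases ht with h4 | h4
        · rw [h4, G.y1 i] at h3; exact lt_irrefl _ h3.1
        · rw [h4, G.y2 i] at h3 htB
          have h5 : (sq i).y + (sq i).s ≤ B := by
            by_contra hcon
            rw [min_eq_right (not_le.1 hcon).le] at htB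
            exact lt_irrefl _ htB
          rw [min_eq_left h5] at h3
          exact lt_irrefl _ h3.2
      · have htB' : t = B := le_antisymm (hcar i _ hpt).2 htB
        have hU : IsOpen {y' : ℝ | (x, y') ∉ S} := G.cS.isOpen_compl.preimage (by fun_prop)
        have h3 : t ∈ {y' : ℝ | (x, y') ∉ S} ∩ closure (Ioo B T) := by
          refine ⟨fun h => hd1.2 (Or.inr h), ?_⟩
          rw [closure_Ioo G.BT.ne, htB']
          exact ⟨le_rfl, G.BT.le⟩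
        refine closure_mono ?_ (hU.inter_closure h3)
        rintro y' ⟨h4, h5⟩
        exact Or.inr ⟨⟨hd1.1.1, h5⟩, h4⟩
  · -- vertical lines
    filter_upwards [hgv, L.V] with x h1 h2 y y' hyy hseg
    have e1 := hseg y ⟨le_rfl, hyy⟩
    have e2 := hseg y' ⟨hyy, le_rfl⟩
    have hval : ∀ t, (x, t) ∈ (Ioo a b ×ˢ Ioo c T) \ E → ψ (x, t) = g (x, t) := fun t ht =>
      h1 t (acs_sub G C hSS hJ (Or.inl ht)) (subset_closure (Or.inl ht))
    rw [← hval y e1, ← hval y' e2]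
    exact h2 e1.1.1 y y' e1.1.2.1 hyy
  · -- horizontal lines
    filter_upwards [hgh, L.H] with y h1 h2 hyB x x' hxx hseg
    have e1 := hseg x ⟨le_rfl, hxx⟩
    have e2 := hseg x' ⟨hxx, le_rfl⟩
    have hval : ∀ t, (t, y) ∈ (Ioo a b ×ˢ Ioo c T) \ E → Ψ (t, y) = g (t, y) := fun t ht =>
      h1 t (acs_sub G C hSS hJ (Or.inl ht)) (subset_closure (Or.inl ht))
    have hfl : μ {q | q.1 ∈ Ico x x' ∧ q.2 < y} = 0 := by
      rw [measure_eq_zero_iff_ae_notMem]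
      filter_upwards [C.ray] with w hw hw2
      exact (hseg w.1 ⟨hw2.1.1, hw2.1.2.le⟩).2 (hw y ⟨hw2.2.le, hyB.trans G.BT⟩)
    rw [← hval x e1, ← hval x' e2, h2 e1.1.2.1 x e1.1.1 x' e2.1.1 hxx, hfl]
    simp

end Crest.Agent.R105.SqH_87
end

-- ▼ part R105/SqT_361
section

/-! Row 105, S0138, Lemma A with exact squares: the join `LowOut + LowOut + GeoC + CarC ⟹ TwoG`
(helper361). -/

set_option autoImplicit false

open MeasureTheory Set Filter Topology Metric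
open scoped NNReal ENNReal

namespace Crest.Agent.R105.SqJ_361

open Crest.Agent.R105.CF_363 Crest.Agent.R105.Sq_87 Crest.Agent.R105.Kin_238
open Crest.Agent.R105.Cq_463 Crest.Agent.R105.Exs_992 Crest.Agent.R105.Stp_722
open Crest.Agent.R105.Nal_649 Crest.Agent.R105.Famq_306
open Crest.Agent.R105.Knq_247 (QQ HalfQ)
open Crest.Agent.R105.Kbx_247
open Crest.Agent.R105.Gl_363
open Crest.Agent.R105.Mp_87 (lam)
open Crest.Agent.R105.Skp2_257 (Comps)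

variable {E S : Set (ℝ × ℝ)} {𝒬 𝒬' 𝒬'' : Set Sqr} {𝓗 : Set Hair} {a b c d B Bm Bp T Tl Tu M : ℝ}
variable {X1 X2 U1 U2 ψ Ψ : ℝ × ℝ → ℝ} {f : {Q : Sqr // Q ∈ 𝒬'} → ℝ}
  {νp νm : {Q : Sqr // Q ∈ 𝒬'} → Measure (ℝ × ℝ)} {μ : Measure (ℝ × ℝ)}
  {J : ℕ → Finset Hair} {z : ℕ → ℝ × ℝ → ℝ} {κ : Hair → ℝ} {r : ℕ → Ix 𝒬' B → ℝ}

/-- one half: the continuous representative -/
theorem LowOut.halfG (hP : BoxP E 𝒬 𝓗 a b c d) (h𝒬 : 𝒬' ⊆ 𝒬)
    (O : LowOut E 𝒬' 𝓗 a b c B X1 X2 f νp νm μ U1 U2 ψ Ψ J z κ r) [IsFiniteMeasure μ]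
    (hS : ∀ Q ∈ 𝒬, Q ∉ 𝒬' → Q.car ⊆ S)
    (G : GeoC E S 𝒬 𝓗 (cutR 𝒬' B) (fun i => i.1.1) a b c B T) (C : CarC E S 𝒬 B T μ) :
    ∃ g, HalfG E S 𝓗 (cutR 𝒬' B) a b c B T U1 U2 μ (fun i => f i.1) ψ g := by
  have hc : Countable (Ix 𝒬' B) := hP.countable h𝒬
  have hSS : volume (Sl E 𝒬' B \ S) = 0 := by
    refine measure_mono_null ?_ (hP.null (B := B) h𝒬)
    rintro p ⟨h1, h2⟩
    refine ⟨h1, fun h => h2 ?_⟩
    obtain ⟨Q, hQ, hp⟩ := mem_iUnion₂.1 h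
    exact hS Q hQ.1 hQ.2 hp
  exact SqH_87.exists_halfG G C hSS O.hJ O.L O.D O.A O.F fun K hK hx hμ =>
    ⟨κ K, (O.T K hK hx hμ).1⟩

theorem LowOut.sq (h𝒬 : ∀ Q ∈ 𝒬', Q.car ⊆ E)
    (O : LowOut E 𝒬' 𝓗 a b c B X1 X2 f νp νm μ U1 U2 ψ Ψ J z κ r) :
    MemLp U1 2 (volume.restrict Eᶜ) ∧ MemLp U2 2 (volume.restrict Eᶜ) := by
  have h1 : Eᶜ ⊆ ((cutR 𝒬' B).un ∪ Sl E 𝒬' B)ᶜ := by
    rw [compl_subset_compl]
    refine union_subset (fun p hp => ?_) fun p hp => hp.1.1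
    obtain ⟨i, hi⟩ := mem_iUnion.1 hp
    exact h𝒬 _ i.1.2 (op_sub_car i hi)
  exact ⟨O.D.V1.mono_measure (Measure.restrict_mono h1 le_rfl),
    O.D.V2.mono_measure (Measure.restrict_mono h1 le_rfl)⟩

variable {Y1 Y2 V1 V2 ψ' Ψ' : ℝ × ℝ → ℝ} {f' : {Q : Sqr // Q ∈ 𝒬''} → ℝ}
  {νp' νm' : {Q : Sqr // Q ∈ 𝒬''} → Measure (ℝ × ℝ)} {ν : Measure (ℝ × ℝ)}
  {J' : ℕ → Finset Hair} {z' : ℕ → ℝ × ℝ → ℝ} {κ' : Hair → ℝ} {r' : ℕ → Ix 𝒬'' (-Bp) → ℝ}
  {r : ℕ → Ix 𝒬' Bm → ℝ}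

/-- **the join** -/
theorem twoG_of (hP : BoxP E 𝒬 𝓗 a b c d) (h𝒬 : 𝒬' ⊆ 𝒬) (h𝒬' : 𝒬'' ⊆ rfS '' 𝒬)
    (O : LowOut E 𝒬' 𝓗 a b c Bm X1 X2 f νp νm μ U1 U2 ψ Ψ J z κ r)
    (O' : LowOut (rf ⁻¹' E) 𝒬'' (reflH 𝓗) a b (-d) (-Bp) Y1 Y2 f' νp' νm' ν V1 V2 ψ' Ψ' J' z' κ' r')
    [IsFiniteMeasure μ] [IsFiniteMeasure ν]
    (hS : ∀ Q ∈ 𝒬, Q ∉ 𝒬' → Q.car ⊆ S) (hS' : ∀ Q ∈ rfS '' 𝒬, Q ∉ 𝒬'' → Q.car ⊆ rf ⁻¹' S)
    (G : GeoC E S 𝒬 𝓗 (cutR 𝒬' Bm) (fun i => i.1.1) a b c Bm Tl)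
    (G' : GeoC (rf ⁻¹' E) (rf ⁻¹' S) (rfS '' 𝒬) (reflH 𝓗) (cutR 𝒬'' (-Bp)) (fun i => i.1.1)
      a b (-d) (-Bp) Tu)
    (C : CarC E S 𝒬 Bm Tl μ) (C' : CarC (rf ⁻¹' E) (rf ⁻¹' S) (rfS '' 𝒬) (-Bp) Tu ν)
    (hab : a < b) (hBd : Bp < d) (hBM : Bm < M) (hMB : M < Bp) (hMl : M < Tl) (hMu : -Tu ≤ Bm)
    (mass : ν univ = μ univ)
    (marg : ∀ p ∈ Ioo a b ×ˢ Ioo Bm Bp, p.2 < Tl → p ∉ S → lam μ p.1 = lam ν p.1) :
    ∃ g g', TwoG E S 𝒬 𝓗 (cutR 𝒬' Bm) (cutR 𝒬'' (-Bp)) (fun i => i.1.1) (fun i => i.1.1)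
      a b c d Bm Bp Tl Tu M U1 U2 ψ Ψ V1 V2 ψ' Ψ' μ ν (fun i => f i.1) (fun i => f' i.1) g g' := by
  obtain ⟨g, hg⟩ := O.halfG hP h𝒬 hS G C
  obtain ⟨g', hg'⟩ := O'.halfG hP.refl h𝒬' hS' G' C'
  exact ⟨g, g',
    { ab := hab
      Bd := hBd
      BM := hBM
      MB := hMB
      Ml := hMl
      Mu := hMu
      box := hP.box
      G := G
      G' := G'
      C := C
      C' := C'
      H := hg
      H' := hg'
      D := O.H
      D' := O'.H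
      mass := mass
      marg := marg
      B1 := O.A.X1B
      B1' := O'.A.X1B
      sX := O.sq fun Q hQ => hP.pic.q.sub Q (h𝒬 hQ)
      sY := O'.sq fun Q hQ => hP.refl.pic.q.sub Q (h𝒬' hQ) }⟩

end Crest.Agent.R105.SqJ_361
end

-- ▼ part R105/Ins2_306

/-!
# Row 105 (S0138), LEMAQ, helper306: (J2) of 425 #11396: `FamF ⟹ TwoG` (`S = ∅`),
`FamF {K₀.car} ⟹ TwoG` (`S = K₀.car`), `SolF ⟹ TwoG` (`S = comp E Q₀`), with both `LowOut`s.
-/

set_option autoImplicit false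

open MeasureTheory Set Filter Topology
open scoped NNReal ENNReal

namespace Crest.Agent.R105.Ins_306

open CF_363 Cq_463 Exs_992 Sq_87 Nal_649 Famq_306 Kbx_247 Gl_363 SqJ_361
open Skp2_257 (Comps)
open Mp_87 (lam)

variable {E S : Set (ℝ × ℝ)} {𝒬 𝒬' : Set Sqr} {𝓗 : Set Hair} {g : Set (Set (ℝ × ℝ))}
  {a b c d B T Bm Bp M m : ℝ} {Q₀ : Sqr} {K₀ : Hair} {μ ν : Measure (ℝ × ℝ)}

section Fam

variable {X1 X2 : ℝ × ℝ → ℝ} {f : {Q : Sqr // Q ∈ 𝒬} → ℝ}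
  {νp νm : {Q : Sqr // Q ∈ 𝒬} → Measure (ℝ × ℝ)}
  {Y1 Y2 : ℝ × ℝ → ℝ} {f' : {Q : Sqr // Q ∈ rfS '' 𝒬} → ℝ}
  {νp' νm' : {Q : Sqr // Q ∈ rfS '' 𝒬} → Measure (ℝ × ℝ)}

/-- the common part of the two family cases -/
theorem famF_twoG_aux (hP : BoxP E 𝒬 𝓗 a b c d) (hg : FamQ E g Bm Bp) (hab : a < b)
    (hc : c < Bm) (hd : Bp < d) (hGm : Gen 𝒬 Bm) (hGp : Gen 𝒬 Bp)
    (F : FamF E 𝒬 𝓗 g Bm Bp a b c d m X1 X2 f νp νm μ Y1 Y2 f' νp' νm' ν)
    (hS : SatC E S) (hiff : ∀ Q, Q ∈ 𝒬 ↔ Q ∈ 𝒬 ∧ Disjoint Q.car S)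
    (C : CarC E S 𝒬 Bm Bp μ) (C' : CarC (rf ⁻¹' E) (rf ⁻¹' S) (rfS '' 𝒬) (-Bp) (-Bm) ν)
    (hM : Bm < M) (hM' : M < Bp) :
    ∃ U1 U2 ψ Ψ J z κ r V1 V2 ψ' Ψ' J' z' κ' r' h h',
      LowOut E 𝒬 𝓗 a b c Bm X1 X2 f νp νm μ U1 U2 ψ Ψ J z κ r ∧
      LowOut (rf ⁻¹' E) (rfS '' 𝒬) (reflH 𝓗) a b (-d) (-Bp) Y1 Y2 f' νp' νm' ν
        V1 V2 ψ' Ψ' J' z' κ' r' ∧
      TwoG E S 𝒬 𝓗 (cutR 𝒬 Bm) (cutR (rfS '' 𝒬) (-Bp)) (fun i => i.1.1) (fun i => i.1.1)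
        a b c d Bm Bp Bp (-Bm) M U1 U2 ψ Ψ V1 V2 ψ' Ψ' μ ν (fun i => f i.1) (fun i => f' i.1)
        h h' := by
  have hlt := hg.lt
  obtain ⟨U1, U2, ψ, Ψ, J, z, κ, r, O⟩ := famF_low hP hg hab hc (fun Q hQ => (hGm Q hQ).1) F
  obtain ⟨V1, V2, ψ', Ψ', J', z', κ', r', O'⟩ :=
    famF_up hP hg hab hd (fun Q hQ => (hGp Q hQ).2) F
  have f1 : IsFiniteMeasure μ := F.lo.fin
  have f2 : IsFiniteMeasure ν := F.up.fin
  have hiff' := rfS_iff hiff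
  obtain ⟨h, h', HG⟩ := twoG_of (M := M) (Tl := Bp) (Tu := -Bm) hP Subset.rfl Subset.rfl O O'
    (fun Q hQ hQ' => absurd hQ hQ') (fun Q hQ hQ' => absurd hQ hQ')
    (geoC_of hP.pic hP.box hc hlt hS hiff)
    (geoC_up hP.pic hP.box hd (by linarith) hS hiff) C C' hab hd hM hM' hM' (by linarith)
    (by rw [F.m1, F.m2]) (fun p _ _ _ => lam_congr F.marg p.1)
  exact ⟨U1, U2, ψ, Ψ, J, z, κ, r, V1, V2, ψ', Ψ', J', z', κ', r', h, h', O, O', HG⟩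

/-- **(i)** families without mass on columns: `S = ∅` -/
theorem famF_twoG (hP : BoxP E 𝒬 𝓗 a b c d) (hg : FamQ E g Bm Bp) (hab : a < b)
    (hc : c < Bm) (hd : Bp < d) (hGm : Gen 𝒬 Bm) (hGp : Gen 𝒬 Bp)
    (F : FamF E 𝒬 𝓗 g Bm Bp a b c d m X1 X2 f νp νm μ Y1 Y2 f' νp' νm' ν)
    (h1 : ∀ x, μ {q | q.1 = x} = 0) (h2 : ∀ x, ν {q | q.1 = x} = 0)
    (hM : Bm < M) (hM' : M < Bp) :
    ∃ U1 U2 ψ Ψ J z κ r V1 V2 ψ' Ψ' J' z' κ' r' h h',
      LowOut E 𝒬 𝓗 a b c Bm X1 X2 f νp νm μ U1 U2 ψ Ψ J z κ r ∧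
      LowOut (rf ⁻¹' E) (rfS '' 𝒬) (reflH 𝓗) a b (-d) (-Bp) Y1 Y2 f' νp' νm' ν
        V1 V2 ψ' Ψ' J' z' κ' r' ∧
      TwoG E ∅ 𝒬 𝓗 (cutR 𝒬 Bm) (cutR (rfS '' 𝒬) (-Bp)) (fun i => i.1.1) (fun i => i.1.1)
        a b c d Bm Bp Bp (-Bm) M U1 U2 ψ Ψ V1 V2 ψ' Ψ' μ ν (fun i => f i.1) (fun i => f' i.1)
        h h' :=
  famF_twoG_aux hP hg hab hc hd hGm hGp F satC_empty empty_iff
    (carC_fam hP.pic.q hg.sub F.c1 (Or.inl ⟨rfl, h1⟩))
    (carC_fam (refl_qpic hP.pic.q) (rf_sub_comps hg.sub) (c1_up F.c2)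
      (Or.inl ⟨preimage_empty, h2⟩)) hM hM'

/-- **(ii)** one free hair: `S = K₀.car` -/
theorem hairF_twoG (hP : BoxP E 𝒬 𝓗 a b c d) (hg : FamQ E {K₀.car} Bm Bp) (hab : a < b)
    (hc : c < Bm) (hd : Bp < d) (hGm : Gen 𝒬 Bm) (hGp : Gen 𝒬 Bp)
    (F : FamF E 𝒬 𝓗 {K₀.car} Bm Bp a b c d m X1 X2 f νp νm μ Y1 Y2 f' νp' νm' ν)
    (hM : Bm < M) (hM' : M < Bp) :
    ∃ U1 U2 ψ Ψ J z κ r V1 V2 ψ' Ψ' J' z' κ' r' h h',
      LowOut E 𝒬 𝓗 a b c Bm X1 X2 f νp νm μ U1 U2 ψ Ψ J z κ r ∧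
      LowOut (rf ⁻¹' E) (rfS '' 𝒬) (reflH 𝓗) a b (-d) (-Bp) Y1 Y2 f' νp' νm' ν
        V1 V2 ψ' Ψ' J' z' κ' r' ∧
      TwoG E K₀.car 𝒬 𝓗 (cutR 𝒬 Bm) (cutR (rfS '' 𝒬) (-Bp)) (fun i => i.1.1) (fun i => i.1.1)
        a b c d Bm Bp Bp (-Bm) M U1 U2 ψ Ψ V1 V2 ψ' Ψ' μ ν (fun i => f i.1) (fun i => f' i.1)
        h h' := by
  have hK : K₀.car ∈ Comps E := hg.sub rfl
  obtain ⟨C, C'⟩ := carC_hairF hP.pic hK F
  exact famF_twoG_aux hP hg hab hc hd hGm hGp F (satC_comp hP.pic.q hK) (hair_iff hP.pic.q hK)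
    C C' hM hM'

end Fam

section Sol

variable {X1 X2 : ℝ × ℝ → ℝ} {f : {Q : Sqr // Q ∈ 𝒬 \ {Q₀}} → ℝ}
  {νp νm : {Q : Sqr // Q ∈ 𝒬 \ {Q₀}} → Measure (ℝ × ℝ)}
  {Y1 Y2 : ℝ × ℝ → ℝ} {f' : {Q : Sqr // Q ∈ rfS '' (𝒬 \ {Q₀})} → ℝ}
  {νp' νm' : {Q : Sqr // Q ∈ rfS '' (𝒬 \ {Q₀})} → Measure (ℝ × ℝ)}

/-- **(iii)** one solid: `S = comp E Q₀`, levels `B < Bp`, `Tl` = top of the square, `Tu = -B` -/
theorem solF_twoG (hP : BoxP E 𝒬 𝓗 a b c d) (hQ₀ : Q₀ ∈ 𝒬) (hab : a < b) (hc : c < B)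
    (hd : Bp < d) (hG : Gen 𝒬 B) (hGp : Gen 𝒬 Bp) (hB : Q₀.y < B) (hB' : B < Q₀.y + Q₀.s)
    (hBp : Q₀.y + Q₀.s < Bp)
    (F : SolF E 𝒬 𝓗 Q₀ B Bp a b c d X1 X2 f νp νm μ Y1 Y2 f' νp' νm' ν)
    (hM : B < M) (hM' : M < Q₀.y + Q₀.s) :
    ∃ U1 U2 ψ Ψ J z κ r V1 V2 ψ' Ψ' J' z' κ' r' h h',
      LowOut E (𝒬 \ {Q₀}) 𝓗 a b c B X1 X2 f νp νm μ U1 U2 ψ Ψ J z κ r ∧
      LowOut (rf ⁻¹' E) (rfS '' (𝒬 \ {Q₀})) (reflH 𝓗) a b (-d) (-Bp) Y1 Y2 f' νp' νm' ν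
        V1 V2 ψ' Ψ' J' z' κ' r' ∧
      TwoG E (comp E Q₀) 𝒬 𝓗 (cutR (𝒬 \ {Q₀}) B) (cutR (rfS '' (𝒬 \ {Q₀})) (-Bp))
        (fun i => i.1.1) (fun i => i.1.1) a b c d B Bp (Q₀.y + Q₀.s) (-B) M U1 U2 ψ Ψ
        V1 V2 ψ' Ψ' μ ν (fun i => f i.1) (fun i => f' i.1) h h' := by
  have hE := hP.pic.q
  have hcm := SkT1_137.comp_mem hE hQ₀
  obtain ⟨U1, U2, ψ, Ψ, J, z, κ, r, O⟩ :=
    solF_low hP hQ₀ hab hc hB'.le (fun Q hQ => (hG Q hQ).1) F
  obtain ⟨V1, V2, ψ', Ψ', J', z', κ', r', O'⟩ :=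
    solF_up hP hQ₀ hab hd hBp (fun Q hQ => (hGp Q hQ).2) F
  have f1 : IsFiniteMeasure μ := F.lo.fin
  have f2 : IsFiniteMeasure ν := F.up.fin
  have hS := satC_comp hE hcm
  have hiff := sol_iff hE hQ₀
  have hiff' := rfS_iff hiff
  have hout : ∀ Q ∈ 𝒬, Q ∉ 𝒬 \ {Q₀} → Q.car ⊆ comp E Q₀ := by
    intro Q hQ hQ'
    have h1 : Q = Q₀ := by
      by_contra h
      exact hQ' ⟨hQ, h⟩
    rw [h1]
    exact SkT1_137.car_sub_comp hE hQ₀
  have hout' : ∀ Q ∈ rfS '' 𝒬, Q ∉ rfS '' (𝒬 \ {Q₀}) → Q.car ⊆ rf ⁻¹' comp E Q₀ := by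
    intro Q hQ hQ'
    rw [mem_rfS] at hQ hQ'
    have h1 := hout _ hQ hQ'
    intro p hp
    exact h1 (mem_car_rfS.2 (by simpa using hp))
  obtain ⟨h, h', HG⟩ := twoG_of (M := M) (Tl := Q₀.y + Q₀.s) (Tu := -B) hP sdiff_subset
    (image_mono sdiff_subset) O O' hout hout'
    (geoC_of hP.pic hP.box hc hB' hS hiff)
    (geoC_up hP.pic hP.box hd (by linarith) hS hiff)
    (carC_sol_lo hE hQ₀ F.c1) (carC_sol_up hP.pic hQ₀ hB.le F.c2) hab hd hM (by linarith) hM'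
    (by linarith) (by rw [F.m1, F.m2]) (fun p hp h2 h3 =>
      marg_sol hP.pic hQ₀ hB.le F.m1 F.m2 F.c1 F.c2 hp.2.1 h2 h3)
  exact ⟨U1, U2, ψ, Ψ, J, z, κ, r, V1, V2, ψ', Ψ', J', z', κ', r', h, h', O, O', HG⟩

end Sol

end Crest.Agent.R105.Ins_306
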