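import Crest.Agent.R105.Stp2_722
import Crest.Agent.R105.Thin1_891

-- ▼ part R105/Stp4_722
section

/-!
Row 105 (Koebe), task 2230 (PP-STEP), part 4: topology needed by the STEP
(compactness of families of components, thick pieces, portions, the level data).
-/

set_option autoImplicit false
set_option linter.unusedSectionVars false

open Set Filter Topology Metric

namespace Crest.Agent.R105.Stp_722

open Crest.Agent.R105.Thin_891

local notation "cc" => connectedComponentIn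

variable {X : Type*} [TopologicalSpace X] [T2Space X]

section top

variable {V E : Set X} {h : X → ℝ} {φ χ : X → ℝ}

theorem cc_eq {x y : X} (hy : y ∈ cc E x) : cc E y = cc E x := (connectedComponentIn_eq hy).symm

theorem isCompact_cc (hE : IsCompact E) (x : X) : IsCompact (cc E x) := by
  by_cases hx : x ∈ E
  · have : CompactSpace E := isCompact_iff_compactSpace.1 hE
    rw [connectedComponentIn_eq_image hx]
    exact (isClosed_connectedComponent.isCompact).image continuous_subtype_val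
  · rw [connectedComponentIn_eq_empty hx]; exact isCompact_empty

/-- a saturated condition which is open on the components defines a compact set. -/
theorem isCompact_of_comp {S : Set X} (hE : IsCompact E) (hS : S ⊆ E)
    (H : ∀ x ∈ E \ S, ∃ O, IsOpen O ∧ cc E x ⊆ O ∧ ∀ y ∈ E, cc E y ⊆ O → y ∉ S) :
    IsCompact S := by
  classical
  choose! O hO hxO hOS using H
  have hp : ∀ x ∈ E \ S, ∃ F, Piece E F ∧ cc E x ⊆ F ∧ F ⊆ O x := fun x hx =>
    exists_piece hE hx.1 (hO x hx) (hxO x hx)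
  choose! F hF hxF hFO using hp
  have e : S = E ∩ ⋂ x ∈ E \ S, E \ F x := by
    ext y
    simp only [mem_inter_iff, mem_iInter]
    constructor
    · intro hy
      refine ⟨hS hy, fun x hx => ⟨hS hy, fun hyF => ?_⟩⟩
      have := (hF x hx).component_subset hyF
      exact hOS x hx y (hS hy) (this.trans (hFO x hx)) hy
    · rintro ⟨hyE, hy⟩
      by_contra hyS
      exact (hy y ⟨hyE, hyS⟩).2 (hxF y ⟨hyE, hyS⟩ (mem_connectedComponentIn hyE))
  rw [e]
  exact hE.inter_right (isClosed_biInter fun x hx => (hF x hx).cpt'.isClosed)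

/-- the points of `E` whose component has oscillation at least `b`. -/
def gset (V E : Set X) (φ : X → ℝ) (b : ℝ) : Set X := {x ∈ E | ¬ ∃ c < b, OscLe V (cc E x) φ c}

theorem gset_subset {b : ℝ} : gset V E φ b ⊆ E := fun _ hx => hx.1

theorem gset_sat {b : ℝ} {x y : X} (hx : x ∈ gset V E φ b) (hy : y ∈ cc E x) :
    y ∈ gset V E φ b := by
  refine ⟨connectedComponentIn_subset E x hy, ?_⟩
  rw [cc_eq hy]
  exact hx.2

/-- the members of the family that cross both levels. -/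
def cross (E : Set X) (h : X → ℝ) (g : Set X) (B B' : ℝ) : Set X :=
  {x ∈ g | (∃ y ∈ cc E x, h y ≤ B) ∧ ∃ y ∈ cc E x, B' ≤ h y}

theorem cross_sat {g : Set X} {B B' : ℝ} (hg : ∀ x ∈ g, ∀ y ∈ cc E x, y ∈ g) {x y : X}
    (hx : x ∈ cross E h g B B') (hy : y ∈ cc E x) : y ∈ cross E h g B B' := by
  refine ⟨hg x hx.1 y hy, ?_⟩
  rw [cc_eq hy]
  exact hx.2

theorem isCompact_gset (hE : IsCompact E) (b : ℝ) : IsCompact (gset V E φ b) := by
  refine isCompact_of_comp hE gset_subset ?_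
  rintro x ⟨hxE, hx⟩
  simp only [gset, mem_ofPred_eq, not_and, not_not] at hx
  obtain ⟨c, hc, hosc⟩ := hx hxE
  obtain ⟨O, hO, hxO, H⟩ := hosc.exists_nhds (show c < (c + b) / 2 by linarith)
  refine ⟨O, hO, hxO, fun y _ hyO hyg => hyg.2 ⟨(c + b) / 2, by linarith, H _ hyO⟩⟩

theorem isCompact_cross (hE : IsCompact E) (hh : Continuous h) {g : Set X} (hgE : g ⊆ E)
    (hg : ∀ x ∈ E \ g, ∃ O, IsOpen O ∧ cc E x ⊆ O ∧ ∀ y ∈ E, cc E y ⊆ O → y ∉ g) (B B' : ℝ) :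
    IsCompact (cross E h g B B') := by
  refine isCompact_of_comp hE (fun x hx => hgE hx.1) ?_
  rintro x ⟨hxE, hx⟩
  by_cases hxg : x ∈ g
  · simp only [cross, mem_ofPred_eq, not_and_or, not_exists, not_le] at hx
    rcases hx with h1 | h1 | h1
    · exact absurd hxg h1
    · refine ⟨{y | B < h y}, isOpen_lt continuous_const hh, ?_, ?_⟩
      · intro y hy
        rcases h1 y with h2 | h2
        · exact absurd hy h2
        · exact h2
      · rintro y _ hyO ⟨_, ⟨w, hw, hwB⟩, _⟩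
        have := hyO hw
        simp only [mem_ofPred_eq] at this
        linarith
    · refine ⟨{y | h y < B'}, isOpen_lt hh continuous_const, ?_, ?_⟩
      · intro y hy
        rcases h1 y with h2 | h2
        · exact absurd hy h2
        · exact h2
      · rintro y _ hyO ⟨_, _, w, hw, hwB⟩
        have := hyO hw
        simp only [mem_ofPred_eq] at this
        linarith
  · obtain ⟨O, hO, hxO, H⟩ := hg x ⟨hxE, hxg⟩
    exact ⟨O, hO, hxO, fun y hyE hyO hyc => H y hyE hyO hyc.1⟩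

theorem isCompact_cross_gset (hE : IsCompact E) (hh : Continuous h) (b B B' : ℝ) :
    IsCompact (cross E h (gset V E φ b) B B') := by
  refine isCompact_cross hE hh gset_subset ?_ B B'
  rintro x ⟨hxE, hx⟩
  simp only [gset, mem_ofPred_eq, not_and, not_not] at hx
  obtain ⟨c, hc, hosc⟩ := hx hxE
  obtain ⟨O, hO, hxO, H⟩ := hosc.exists_nhds (show c < (c + b) / 2 by linarith)
  refine ⟨O, hO, hxO, fun y _ hyO hyg => hyg.2 ⟨(c + b) / 2, by linarith, H _ hyO⟩⟩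

/-- finitely many disjoint open neighbourhoods covering a compact part `G` of `E`; every
component of `E` meeting one of them is contained in it. -/
theorem exists_thick {G : Set X} (hE : IsCompact E) (hG : IsCompact G) (hGE : G ⊆ E)
    (U : X → Set X) (hU : ∀ x ∈ G, IsOpen (U x)) (hKU : ∀ x ∈ G, cc E x ⊆ U x) :
    ∃ (n : ℕ) (p : Fin n → X) (N : Fin n → Set X), (∀ i, p i ∈ G) ∧ (∀ i, IsOpen (N i)) ∧
      (∀ i, N i ⊆ U (p i)) ∧ (∀ i j, i ≠ j → Disjoint (N i) (N j)) ∧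
      (∀ i, ∀ x ∈ E, (cc E x ∩ N i).Nonempty → cc E x ⊆ N i) ∧ G ⊆ ⋃ i, N i := by
  classical
  obtain ⟨n, p, F, hp, hF, hFU, -, hdisj, hcov⟩ := exists_pieces hE hG hGE U hU hKU
  have hsep : ∀ i, ∃ A B : Set X, IsOpen A ∧ IsOpen B ∧ F i ⊆ A ∧ E \ F i ⊆ B ∧ Disjoint A B :=
    fun i => SeparatedNhds.of_isCompact_isCompact (hF i).cpt (hF i).cpt' disjoint_sdiff_self_right
  choose A B hA hB hFA hFB hAB using hsep
  refine ⟨n, p, fun i => U (p i) ∩ A i ∩ ⋂ j ∈ {j | j ≠ i}, B j, hp, fun i => ?_, fun i => ?_,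
    fun i j hij => ?_, fun i x hx hne => ?_, ?_⟩
  · exact ((hU _ (hp i)).inter (hA i)).inter ((Set.toFinite _).isOpen_biInter fun j _ => hB j)
  · exact inter_subset_left.trans inter_subset_left
  · rw [Set.disjoint_left]
    rintro x ⟨⟨_, _⟩, h1⟩ ⟨⟨_, h2⟩, _⟩
    have h3 : x ∈ B j := by
      simp only [mem_iInter] at h1
      exact h1 j hij.symm
    exact Set.disjoint_left.1 (hAB j) h2 h3
  · obtain ⟨y, hyx, hyN⟩ := hne
    have hyE : y ∈ E := connectedComponentIn_subset E x hyx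
    have hyF : y ∈ F i := by
      by_contra hcon
      exact Set.disjoint_left.1 (hAB i) hyN.1.2 (hFB i ⟨hyE, hcon⟩)
    have h1 : cc E x ⊆ F i := (hF i).component_subset' ⟨y, hyx, hyF⟩
    refine h1.trans (subset_inter (subset_inter (hFU i) (hFA i)) ?_)
    refine subset_iInter₂ fun j hj => ?_
    refine subset_trans ?_ (hFB j)
    intro w hw
    exact ⟨(hF i).sub hw, fun hwj => Set.disjoint_left.1 (hdisj (show j ≠ i from hj)) hwj hw⟩
  · refine hcov.trans (iUnion_mono fun i => ?_)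
    refine (subset_inter (subset_inter (hFU i) (hFA i)) ?_)
    refine subset_iInter₂ fun j hj => ?_
    refine subset_trans ?_ (hFB j)
    intro w hw
    exact ⟨(hF i).sub hw, fun hwj => Set.disjoint_left.1 (hdisj (show j ≠ i from hj)) hwj hw⟩

/-- a portion of a hair (a component on which `h` is injective) is connected. -/
theorem preconn_portion {K : Set X} (hK : IsCompact K) (hc : IsPreconnected K)
    (hinj : InjOn h K) (hh : Continuous h) {I : Set ℝ} (hI : I.OrdConnected) :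
    IsPreconnected (K ∩ h ⁻¹' I) := by
  have : CompactSpace K := isCompact_iff_compactSpace.1 hK
  let f : K → ℝ := fun x => h x
  have hf : Continuous f := hh.comp continuous_subtype_val
  have hfi : Function.Injective f := fun x y hxy => Subtype.ext (hinj x.2 y.2 hxy)
  have hfc : IsClosedMap f := hf.isClosedMap
  have hs : IsPreconnected (range f ∩ I) := by
    have : range f = h '' K := by
      ext t; simp [f]
    have h1 : (range f).OrdConnected := by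
      rw [this]; exact (hc.image h hh.continuousOn).ordConnected
    exact (h1.inter hI).isPreconnected
  have h2 := (hs.preimage_of_isClosedMap hfi hfc inter_subset_left).image Subtype.val
    continuous_subtype_val.continuousOn
  convert h2 using 1
  ext x
  simp only [mem_inter_iff, mem_preimage, mem_image, mem_range, Subtype.exists]
  constructor
  · rintro ⟨hxK, hxI⟩
    exact ⟨x, hxK, ⟨⟨x, hxK, rfl⟩, hxI⟩, rfl⟩
  · rintro ⟨y, hy, ⟨_, hyI⟩, rfl⟩
    exact ⟨hy, hyI⟩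

/-- splitting a connected portion at a level. -/
theorem osc_split {P : Set X} (hP : Lev V h P) {s c c' : ℝ} (h0 : 0 ≤ c) (h0' : 0 ≤ c') (h1 : OscLe V (P ∩ {y | h y ≤ s}) χ c)
    (h2 : OscLe V (P ∩ {y | s ≤ h y}) χ c') : OscLe V P χ (c + c') := by
  by_cases hlo : (P ∩ {y | h y ≤ s}).Nonempty
  · by_cases hhi : (P ∩ {y | s ≤ h y}).Nonempty
    · obtain ⟨x, hx, hxs⟩ := hlo
      obtain ⟨y, hy, hys⟩ := hhi
      obtain ⟨p, hp, hpV, hps⟩ := hP s ⟨x, hx, hxs⟩ ⟨y, hy, hys⟩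
      have := h1.union h2 (p := p) ⟨hp, hps.le⟩ ⟨hp, hps.ge⟩ hpV
      refine this.mono_set ?_
      intro w hw
      rcases le_total (h w) s with h3 | h3
      · exact Or.inl ⟨hw, h3⟩
      · exact Or.inr ⟨hw, h3⟩
    · refine (h1.mono_set ?_).mono (by linarith)
      intro w hw
      refine ⟨hw, ?_⟩
      by_contra h3
      simp only [mem_ofPred_eq, not_le] at h3
      exact hhi ⟨w, hw, h3.le⟩
  · refine (h2.mono_set ?_).mono (by linarith)
    intro w hw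
    refine ⟨hw, ?_⟩
    by_contra h3
    simp only [mem_ofPred_eq, not_le] at h3
    exact hlo ⟨w, hw, h3.le⟩

theorem oscLe_empty {c : ℝ} : OscLe V ∅ χ c := fun _ _ =>
  ⟨∅, isOpen_empty, Subset.rfl, fun _ hq => absurd hq.1 (notMem_empty _)⟩

/-- a neighbourhood of the component `K` in which `χ` varies by at most `σ + ε` near the level. -/
theorem exists_slice {K : Set X} (hK : IsCompact K) (hh : Continuous h) {B σ ε : ℝ}
    (hs : OscLe V (K ∩ {y | h y = B}) χ σ) (hε : 0 < ε) :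
    ∃ U, IsOpen U ∧ K ⊆ U ∧ ∃ τ > 0, ∀ q ∈ U ∩ V, ∀ q' ∈ U ∩ V, |h q - B| < 2 * τ →
      |h q' - B| < 2 * τ → |χ q - χ q'| ≤ σ + ε := by
  obtain ⟨O, hO, hPO, H⟩ := hs ε hε
  have hc : IsCompact (K \ O) := hK.diff hO
  have hpos : ∃ δ > 0, ∀ y ∈ K \ O, δ ≤ |h y - B| := by
    rcases (K \ O).eq_empty_or_nonempty with h0 | h0
    · exact ⟨1, one_pos, by simp [h0]⟩
    · obtain ⟨y, hy, hmin⟩ := hc.exists_isMinOn h0 (f := fun y => |h y - B|) (by fun_prop)
      refine ⟨|h y - B|, ?_, fun w hw => hmin hw⟩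
      rw [gt_iff_lt, abs_pos, sub_ne_zero]
      intro hyB
      exact hy.2 (hPO ⟨hy.1, hyB⟩)
  obtain ⟨δ, hδ, Hδ⟩ := hpos
  refine ⟨O ∪ {y | δ / 2 < |h y - B|}, hO.union (isOpen_lt continuous_const (by fun_prop)), ?_,
    δ / 4, by positivity, ?_⟩
  · intro y hy
    by_cases hyO : y ∈ O
    · exact Or.inl hyO
    · exact Or.inr (by have := Hδ y ⟨hy, hyO⟩; simp only [mem_ofPred_eq]; linarith)
  · rintro q ⟨hq, hqV⟩ q' ⟨hq', hqV'⟩ h1 h2
    have e1 : q ∈ O := hq.resolve_right (by simp only [mem_ofPred_eq, not_lt]; linarith)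
    have e2 : q' ∈ O := hq'.resolve_right (by simp only [mem_ofPred_eq, not_lt]; linarith)
    exact H q ⟨e1, hqV⟩ q' ⟨e2, hqV'⟩

end top

end Crest.Agent.R105.Stp_722
end

-- ▼ part R105/Stp5_722
section

/-!
Row 105 (Koebe), task 2230 (PP-STEP), part 5: the two-sided operation at one pair of levels.
-/

set_option autoImplicit false
set_option linter.unusedSectionVars false

open Set Filter Topology Metric

namespace Crest.Agent.R105.Stp_722

local notation "cc" => connectedComponentIn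

variable {X : Type*} [TopologicalSpace X] [T2Space X] {V E : Set X} {h : X → ℝ}

/-- a one-sided cut-off: a function on the side `h < B` (extended by anything), zero off a closed
subset of `W`, of oscillation at most `m` on the part `h ≤ B` of every component of `E`. -/
structure Cut (V E : Set X) (h : X → ℝ) (B : ℝ) (W : Set X) (m : ℝ) (z : X → ℝ) : Prop where
  z01 : ∀ x, 0 ≤ z x ∧ z x ≤ 1
  supp : ∃ C, IsClosed C ∧ C ⊆ W ∧ ∀ x ∉ C, z x = 0
  osc : ∀ x ∈ E, OscLe (V ∩ {y | h y < B}) (cc E x ∩ {y | h y ≤ B}) z m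

/-- `z = 1` near the part `h ≤ B` of `K`. -/
def OneOn (V : Set X) (h : X → ℝ) (B : ℝ) (K : Set X) (z : X → ℝ) : Prop :=
  ∃ O, IsOpen O ∧ K ∩ {y | h y ≤ B} ⊆ O ∧ ∀ q ∈ O ∩ V, h q < B → z q = 1

/-- disjoint open sets; a component of `E` is contained in, or misses, each of them. -/
structure Pieces (E : Set X) {n : ℕ} (N : Fin n → Set X) : Prop where
  opn : ∀ i, IsOpen (N i)
  disj : ∀ i j, i ≠ j → Disjoint (N i) (N j)
  sat : ∀ i, ∀ x ∈ E, (cc E x ∩ N i).Nonempty → cc E x ⊆ N i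

open Classical in
/-- the locally constant function with value `k i` on `N i`. -/
noncomputable def cst {n : ℕ} (N : Fin n → Set X) (k : Fin n → ℝ) (x : X) : ℝ :=
  if hx : ∃ i, x ∈ N i then k hx.choose else 0

section cst

variable {n : ℕ} {N : Fin n → Set X} {k k' : Fin n → ℝ}

theorem Pieces.cst_eq (hN : Pieces E N) {i : Fin n} {x : X} (hx : x ∈ N i) (k : Fin n → ℝ) :
    cst N k x = k i := by
  have hex : ∃ i, x ∈ N i := ⟨i, hx⟩
  unfold cst
  rw [dif_pos hex]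
  congr 1
  by_contra hne
  exact Set.disjoint_left.1 (hN.disj _ _ hne) hex.choose_spec hx

theorem cst_abs_le {R : ℝ} (hR : 0 ≤ R) (hk : ∀ i, |k i| ≤ R) (x : X) : |cst N k x| ≤ R := by
  unfold cst
  split_ifs with hx
  · exact hk _
  · simpa using hR

theorem Pieces.cst_loc (hN : Pieces E N) (k : Fin n → ℝ) :
    ∀ x ∈ ⋃ i, N i, ∀ᶠ y in 𝓝 x, cst N k y = cst N k x := by
  intro x hx
  obtain ⟨i, hi⟩ := mem_iUnion.1 hx
  filter_upwards [(hN.opn i).mem_nhds hi] with y hy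
  rw [hN.cst_eq hy, hN.cst_eq hi]

variable {B τ m A η : ℝ} {z χ : X → ℝ}

/-- growth of a portion in a one-sided operation. -/
theorem growth_side (hN : Pieces E N) (hh : Continuous h) (hτ : 0 < τ)
    (hz : Cut V E h B (⋃ i, N i) m z) (hm0 : 0 ≤ m) (hA0 : 0 ≤ A) (hη0 : 0 ≤ η)
    (hA : ∀ i, ∀ q ∈ N i ∩ V, |χ q - k i| ≤ A)
    (hη : ∀ i, ∀ q ∈ N i ∩ V, |h q - B| < 2 * τ → |χ q - k i| ≤ η)
    {x : X} (hx : x ∈ E) {P : Set X} (hP : P ⊆ cc E x) (hPl : Lev V h P) {b : ℝ}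
    (hb : OscLe V P χ b) : OscLe V P (op h B τ z (cst N k) χ) (b + (m * A + 2 * η)) := by
  have hmA : 0 ≤ m * A := mul_nonneg hm0 hA0
  by_cases hne : ∃ i, (cc E x ∩ N i).Nonempty
  · obtain ⟨i, hi⟩ := hne
    have hKN := hN.sat i x hx hi
    have := growth_lev hh hτ hPl (hN.opn i) (hP.trans hKN) (c := cst N k) (k := k i) hη0 hA0 hm0
      (fun q hq => hN.cst_eq hq.1 k) (hA i) (hη i) hz.z01
      ((hz.osc x hx).mono_set (inter_subset_inter_left _ hP)) hb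
    exact this.mono (by linarith)
  · obtain ⟨C, hC, hCW, hC0⟩ := hz.supp
    refine (growth_off hC hC0 ?_ hb).mono (by linarith)
    rw [Set.disjoint_left]
    intro y hyP hyC
    obtain ⟨i, hi⟩ := mem_iUnion.1 (hCW hyC)
    exact hne ⟨i, y, hP hyP, hi⟩

/-- growth of the local jump in a one-sided operation. -/
theorem point_side (hN : Pieces E N) (hh : Continuous h) (hτ : 0 < τ)
    (hz : Cut V E h B (⋃ i, N i) m z) (hm0 : 0 ≤ m) (hA0 : 0 ≤ A)
    (hA : ∀ i, ∀ q ∈ N i ∩ V, |χ q - k i| ≤ A)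
    {p : X} (hp : p ∈ E) {b : ℝ} (hb : OscLe V {p} χ b) :
    OscLe V {p} (op h B τ z (cst N k) χ) (b + m * A) := by
  have hmA : 0 ≤ m * A := mul_nonneg hm0 hA0
  by_cases hne : ∃ i, p ∈ N i
  · obtain ⟨i, hi⟩ := hne
    exact growth_point hh hτ (hN.opn i) hi (c := cst N k) (k := k i) hA0 hm0
      (fun q hq => hN.cst_eq hq.1 k) (hA i) hz.z01 ((hz.osc p hp).mono_set
      (inter_subset_inter_left _ (by
        rw [singleton_subset_iff]; exact mem_connectedComponentIn hp))) hb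
  · obtain ⟨C, hC, hCW, hC0⟩ := hz.supp
    refine (growth_off hC hC0 ?_ hb).mono (by linarith)
    rw [Set.disjoint_left]
    rintro y rfl hyC
    exact hne (mem_iUnion.1 (hCW hyC))

/-- flatness below the level in a one-sided operation. -/
theorem flat_side (hN : Pieces E N) (hh : Continuous h) (hτ : 0 < τ) (hη0 : 0 ≤ η)
    (hη : ∀ i, ∀ q ∈ N i ∩ V, |h q - B| < 2 * τ → |χ q - k i| ≤ η)
    {K : Set X} {i : Fin n} (hK : K ⊆ N i) (h1 : OneOn V h B K z) :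
    OscLe V (K ∩ {y | h y ≤ B}) (op h B τ z (cst N k) χ) (2 * η) := by
  obtain ⟨O, hO, hKO, hO1⟩ := h1
  exact flat hh hτ inter_subset_right (hN.opn i) (inter_subset_left.trans hK) (k := k i) hη0
    (fun q hq => hN.cst_eq hq.1 k) (hη i) hO hKO hO1

end cst

section two

variable {n : ℕ} {N : Fin n → Set X} {k k' lo hi : Fin n → ℝ} {B B' τ m A η : ℝ}
  {z z' χ : X → ℝ}

/-- the two-sided operation. -/
noncomputable def op2 (h : X → ℝ) (B B' τ : ℝ) (z z' c c' χ : X → ℝ) : X → ℝ :=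
  op (fun x => - h x) (-B') τ z' c' (op h B τ z c χ)


theorem op2_upper (hτ : 0 < τ) {c c' : X → ℝ} {q : X} (hq : h q ≤ B') :
    op2 h B B' τ z z' c c' χ q = op h B τ z c χ q := by
  unfold op2
  exact op_eq_of_le hτ (by linarith)

/-- data of a two-sided operation -/
structure Data (V E : Set X) (h : X → ℝ) {n : ℕ} (N : Fin n → Set X) (k k' lo hi : Fin n → ℝ)
    (B B' τ m A η : ℝ) (z z' χ : X → ℝ) : Prop where
  hh : Continuous h
  hN : Pieces E N
  hBB : B < B'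
  hτ : 0 < τ
  hτB : 2 * τ ≤ B' - B
  hm0 : 0 ≤ m
  hA0 : 0 ≤ A
  hη0 : 0 ≤ η
  hz : Cut V E h B (⋃ i, N i) m z
  hz' : Cut V E (fun x => - h x) (-B') (⋃ i, N i) m z'
  hlh : ∀ i, hi i - lo i ≤ A
  hχ : ∀ i, ∀ q ∈ N i ∩ V, χ q ∈ Icc (lo i) (hi i)
  hk : ∀ i, ∀ q ∈ N i ∩ V, k i ∈ Icc (lo i) (hi i)
  hk' : ∀ i, ∀ q ∈ N i ∩ V, k' i ∈ Icc (lo i) (hi i)
  hη : ∀ i, ∀ q ∈ N i ∩ V, |h q - B| < 2 * τ → |χ q - k i| ≤ η
  hη' : ∀ i, ∀ q ∈ N i ∩ V, |h q - B'| < 2 * τ → |χ q - k' i| ≤ η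

theorem abs_sub_le_of_Icc {x y lo hi A : ℝ} (hx : x ∈ Icc lo hi) (hy : y ∈ Icc lo hi)
    (h : hi - lo ≤ A) : |x - y| ≤ A := by
  obtain ⟨a, b⟩ := hx
  obtain ⟨c, d⟩ := hy
  rw [abs_le]; constructor <;> linarith

namespace Data

variable (D : Data V E h N k k' lo hi B B' τ m A η z z' χ)

include D

theorem hull1 (i : Fin n) (q : X) (hq : q ∈ N i ∩ V) :
    op h B τ z (cst N k) χ q ∈ Icc (lo i) (hi i) :=
  op_mem_Icc D.hz.z01 (D.hχ i q hq) (by rw [D.hN.cst_eq hq.1]; exact D.hk i q hq)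

theorem hull2 (i : Fin n) (q : X) (hq : q ∈ N i ∩ V) :
    op2 h B B' τ z z' (cst N k) (cst N k') χ q ∈ Icc (lo i) (hi i) :=
  op_mem_Icc D.hz'.z01 (D.hull1 i q hq) (by rw [D.hN.cst_eq hq.1]; exact D.hk' i q hq)

theorem hA1 (i : Fin n) (q : X) (hq : q ∈ N i ∩ V) : |χ q - k i| ≤ A :=
  abs_sub_le_of_Icc (D.hχ i q hq) (D.hk i q hq) (D.hlh i)

theorem hA2 (i : Fin n) (q : X) (hq : q ∈ N i ∩ V) :
    |op h B τ z (cst N k) χ q - k' i| ≤ A :=
  abs_sub_le_of_Icc (D.hull1 i q hq) (D.hk' i q hq) (D.hlh i)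

theorem hη2 (i : Fin n) (q : X) (hq : q ∈ N i ∩ V) (hqB : |- h q - -B'| < 2 * τ) :
    |op h B τ z (cst N k) χ q - k' i| ≤ η := by
  have h1 : |h q - B'| < 2 * τ := by
    rw [← abs_neg]; convert hqB using 2; ring
  have h2 := abs_lt.1 h1
  have h3 := D.hτB
  rw [op_eq_of_le D.hτ (by linarith)]
  exact D.hη' i q hq h1

theorem bound {R : ℝ} (hχR : ∀ x, |χ x| ≤ R) (hk : ∀ i, |k i| ≤ R) (hk' : ∀ i, |k' i| ≤ R)
    (x : X) : |op2 h B B' τ z z' (cst N k) (cst N k') χ x| ≤ R := by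
  have hR : 0 ≤ R := (abs_nonneg _).trans (hχR x)
  have h1 : op h B τ z (cst N k) χ x ∈ Icc (-R) R :=
    op_mem_Icc D.hz.z01 (abs_le.1 (hχR x)) (abs_le.1 (cst_abs_le hR hk x))
  exact abs_le.2 (op_mem_Icc D.hz'.z01 h1 (abs_le.1 (cst_abs_le hR hk' x)))

theorem off {x : X} (hx : x ∉ ⋃ i, N i) :
    op2 h B B' τ z z' (cst N k) (cst N k') χ x = χ x := by
  obtain ⟨C, _, hCW, hC0⟩ := D.hz.supp
  obtain ⟨C', _, hCW', hC0'⟩ := D.hz'.supp
  unfold op2
  rw [op_eq_of_z (hC0' x fun hxC => hx (hCW' hxC)), op_eq_of_z (hC0 x fun hxC => hx (hCW hxC))]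

theorem growth {x : X} (hx : x ∈ E) {P : Set X} (hP : P ⊆ cc E x) (hPl : Lev V h P) {b : ℝ}
    (hb : OscLe V P χ b) :
    OscLe V P (op2 h B B' τ z z' (cst N k) (cst N k') χ) (b + 2 * (m * A + 2 * η)) := by
  have h1 := growth_side D.hN D.hh D.hτ D.hz D.hm0 D.hA0 D.hη0 D.hA1 D.hη hx hP hPl hb
  have h2 := growth_side (k := k') D.hN D.hh.neg D.hτ D.hz' D.hm0 D.hA0 D.hη0 D.hA2 D.hη2 hx hP
    hPl.neg h1
  exact h2.mono (by linarith)

theorem point {p : X} (hp : p ∈ E) {b : ℝ} (hb : OscLe V {p} χ b) :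
    OscLe V {p} (op2 h B B' τ z z' (cst N k) (cst N k') χ) (b + 2 * (m * A)) := by
  have h1 := point_side D.hN D.hh D.hτ D.hz D.hm0 D.hA0 D.hA1 hp hb
  have h2 := point_side (k := k') D.hN D.hh.neg D.hτ D.hz' D.hm0 D.hA0 D.hA2 hp h1
  exact h2.mono (by linarith)

theorem flat {K : Set X} {i : Fin n} (hK : K ⊆ N i)
    (h1 : OneOn V h B K z ∨ OneOn V (fun x => - h x) (-B') K z') :
    OscLe V (K ∩ {y | h y ≤ B}) (op2 h B B' τ z z' (cst N k) (cst N k') χ) (2 * η) ∨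
      OscLe V (K ∩ {y | B' ≤ h y}) (op2 h B B' τ z z' (cst N k) (cst N k') χ) (2 * η) := by
  rcases h1 with h1 | h1
  · left
    have h2 := flat_side (χ := χ) (k := k) D.hN D.hh D.hτ D.hη0 D.hη hK h1
    refine h2.congr (O := {y | h y < B'}) (isOpen_lt D.hh continuous_const) ?_ ?_
    · intro y hy
      have := hy.2
      have := D.hBB
      simp only [mem_ofPred_eq] at *
      linarith
    · intro q hq
      exact op2_upper (c := cst N k) (c' := cst N k') D.hτ (le_of_lt hq.1)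
  · right
    have h2 := flat_side (χ := op h B τ z (cst N k) χ) (k := k') D.hN D.hh.neg D.hτ D.hη0 D.hη2
      hK h1
    refine h2.mono_set ?_
    intro y hy
    refine ⟨hy.1, ?_⟩
    have h3 : B' ≤ h y := hy.2
    change - h y ≤ -B'
    linarith

end Data

end two

end Crest.Agent.R105.Stp_722
end

-- ▼ part R105/Stp6_722

/-!
Row 105 (Koebe), task 2230 (PP-STEP), part 6: one level of the STEP (5)(b) of #8892, frame free.
-/

set_option autoImplicit false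
set_option linter.unusedSectionVars false

open Set Filter Topology Metric

namespace Crest.Agent.R105.Stp_722

local notation "cc" => connectedComponentIn

variable {X : Type*} [TopologicalSpace X] [T2Space X] {V E : Set X} {h : X → ℝ}

/-- black box: cut-offs for a family `G` of components crossing both levels, with the effect of
the two-sided operation on the class `Cl` and on the energy distance `D`. -/
def LayerOp (V E : Set X) (h : X → ℝ) (Hr : Set X) (Cl : (X → ℝ) → Prop)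
    (D : (X → ℝ) → (X → ℝ) → ℝ → Prop) : Prop :=
  ∀ (B B' : ℝ) (G W : Set X) (χ c c' : X → ℝ) (R τ m ε : ℝ), B < B' → IsCompact G → G ⊆ Hr →
    (∀ x ∈ G, ∀ y ∈ cc E x, y ∈ G) → IsOpen W → G ⊆ W →
    (∀ x ∈ G, (∃ y ∈ cc E x, h y ≤ B) ∧ ∃ y ∈ cc E x, B' ≤ h y) →
    Cl χ → (∀ x, |χ x| ≤ R) → (∀ x, |c x| ≤ R) → (∀ x, |c' x| ≤ R) →
    (∀ x ∈ W, ∀ᶠ y in 𝓝 x, c y = c x) → (∀ x ∈ W, ∀ᶠ y in 𝓝 x, c' y = c' x) →
    0 < τ → 0 < m → 0 < ε →
    ∃ z z' : X → ℝ, Cut V E h B W m z ∧ Cut V E (fun x => - h x) (-B') W m z' ∧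
      (∀ x ∈ G, OneOn V h B (cc E x) z ∨ OneOn V (fun x => - h x) (-B') (cc E x) z') ∧
      Cl (op2 h B B' τ z z' c c' χ) ∧ D χ (op2 h B B' τ z z' c c' χ) ε

theorem choose_const {N V : Set X} {χ : X → ℝ} {B τ η lo hi R : ℝ} (hR0 : 0 ≤ R)
    (hR : ∀ x, |χ x| ≤ R) (hlh : ∀ q ∈ N ∩ V, χ q ∈ Icc lo hi)
    (hp : ∀ q ∈ N ∩ V, ∀ q' ∈ N ∩ V, |h q - B| < 2 * τ → |h q' - B| < 2 * τ → |χ q - χ q'| ≤ η) :
    ∃ k, |k| ≤ R ∧ (∀ q ∈ N ∩ V, k ∈ Icc lo hi) ∧
      ∀ q ∈ N ∩ V, |h q - B| < 2 * τ → |χ q - k| ≤ η := by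
  by_cases h1 : ∃ q ∈ N ∩ V, |h q - B| < 2 * τ
  · obtain ⟨q, hq, hqB⟩ := h1
    exact ⟨χ q, hR q, fun _ _ => hlh q hq, fun q' hq' h' => hp q' hq' q hq h' hqB⟩
  · push Not at h1
    by_cases h2 : (N ∩ V).Nonempty
    · obtain ⟨q, hq⟩ := h2
      exact ⟨χ q, hR q, fun _ _ => hlh q hq, fun q' hq' h' => absurd h' (not_lt.2 (h1 q' hq'))⟩
    · rw [not_nonempty_iff_eq_empty] at h2
      refine ⟨0, by simpa using hR0, ?_, ?_⟩
      · intro q hq; rw [h2] at hq; exact absurd hq (notMem_empty _)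
      · intro q hq; rw [h2] at hq; exact absurd hq (notMem_empty _)

theorem exists_pos_le {n : ℕ} {t : Fin n → ℝ} (ht : ∀ i, 0 < t i) {s : ℝ} (hs : 0 < s) :
    ∃ τ, 0 < τ ∧ τ ≤ s ∧ ∀ i, τ ≤ t i := by
  have h1 : ∀ᶠ τ in 𝓝[>] (0:ℝ), ∀ i, τ < t i := eventually_all.2 fun i => by
    filter_upwards [Ioo_mem_nhdsGT (ht i)] with τ hτ using hτ.2
  have h2 : ∀ᶠ τ in 𝓝[>] (0:ℝ), τ ∈ Ioo 0 s := Ioo_mem_nhdsGT hs
  obtain ⟨τ, h3, h4⟩ := (h1.and h2).exists
  exact ⟨τ, h4.1, h4.2.le, fun i => (h3 i).le⟩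

theorem fine_data (hE : IsCompact E) (hh : Continuous h) {G : Set X} (hG : IsCompact G)
    (hGE : G ⊆ E) {χ : X → ℝ} {B B' σ ε : ℝ} (hε : 0 < ε) (hBB : B < B')
    (hs : ∀ x ∈ G, OscLe V (cc E x ∩ {y | h y = B}) χ σ)
    (hs' : ∀ x ∈ G, OscLe V (cc E x ∩ {y | h y = B'}) χ σ)
    (O : X → Set X) (hO : ∀ x ∈ G, IsOpen (O x)) (hKO : ∀ x ∈ G, cc E x ⊆ O x) :
    ∃ (n : ℕ) (p : Fin n → X) (N : Fin n → Set X) (τ : ℝ), Pieces E N ∧ G ⊆ ⋃ i, N i ∧
      (∀ i, p i ∈ G) ∧ (∀ i, N i ⊆ O (p i)) ∧ 0 < τ ∧ 2 * τ ≤ B' - B ∧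
      (∀ i, ∀ q ∈ N i ∩ V, ∀ q' ∈ N i ∩ V, |h q - B| < 2 * τ → |h q' - B| < 2 * τ →
        |χ q - χ q'| ≤ σ + ε) ∧
      (∀ i, ∀ q ∈ N i ∩ V, ∀ q' ∈ N i ∩ V, |h q - B'| < 2 * τ → |h q' - B'| < 2 * τ →
        |χ q - χ q'| ≤ σ + ε) := by
  classical
  choose! U hU hKU τ hτ H using fun x (hx : x ∈ G) =>
    exists_slice (isCompact_cc hE x) hh (hs x hx) hε
  choose! U' hU' hKU' τ' hτ' H' using fun x (hx : x ∈ G) =>
    exists_slice (isCompact_cc hE x) hh (hs' x hx) hε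
  obtain ⟨n, p, N, hp, hNo, hNU, hd, hsat, hcov⟩ := exists_thick hE hG hGE
    (fun x => O x ∩ (U x ∩ U' x)) (fun x hx => (hO x hx).inter ((hU x hx).inter (hU' x hx)))
    (fun x hx => subset_inter (hKO x hx) (subset_inter (hKU x hx) (hKU' x hx)))
  obtain ⟨t, ht, ht1, ht2⟩ := exists_pos_le (t := fun i => min (τ (p i)) (τ' (p i)))
    (fun i => lt_min (hτ _ (hp i)) (hτ' _ (hp i))) (s := (B' - B) / 2) (by linarith)
  refine ⟨n, p, N, t, ⟨hNo, hd, hsat⟩, hcov, hp, fun i => (hNU i).trans inter_subset_left, ht,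
    by linarith, ?_, ?_⟩
  · intro i q hq q' hq' h1 h2
    have h3 : t ≤ τ (p i) := (ht2 i).trans (min_le_left _ _)
    exact H (p i) (hp i) q ⟨(hNU i hq.1).2.1, hq.2⟩ q' ⟨(hNU i hq'.1).2.1, hq'.2⟩
      (by linarith) (by linarith)
  · intro i q hq q' hq' h1 h2
    have h3 : t ≤ τ' (p i) := (ht2 i).trans (min_le_right _ _)
    exact H' (p i) (hp i) q ⟨(hNU i hq.1).2.2, hq.2⟩ q' ⟨(hNU i hq'.1).2.2, hq'.2⟩
      (by linarith) (by linarith)

/-- the slice of a hair at a level is at most one point. -/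
theorem slice_osc {K : Set X} (hinj : InjOn h K) {χ : X → ℝ} {σ : ℝ}
    (hj : ∀ p ∈ K, OscLe V {p} χ σ) (B : ℝ) : OscLe V (K ∩ {y | h y = B}) χ σ := by
  rcases (K ∩ {y | h y = B}).eq_empty_or_nonempty with h0 | ⟨p, hp⟩
  · rw [h0]; exact oscLe_empty
  · refine (hj p hp.1).mono_set ?_
    intro y hy
    exact hinj hy.1 hp.1 (hy.2.trans hp.2.symm)

/-- standing assumptions of the STEP -/
structure Setup (V E : Set X) (h : X → ℝ) (Hr : Set X) (Cl : (X → ℝ) → Prop)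
    (D : (X → ℝ) → (X → ℝ) → ℝ → Prop) : Prop where
  hE : IsCompact E
  hh : Continuous h
  lev : ∀ x ∈ E, Lev V h (cc E x)
  inj : ∀ x ∈ Hr, InjOn h (cc E x)
  vis : ∀ x ∈ Hr, cc E x ⊆ closure V
  D0 : ∀ χ, Cl χ → D χ χ 0
  Dadd : ∀ χ₁ χ₂ χ₃ s t, D χ₁ χ₂ s → D χ₂ χ₃ t → D χ₁ χ₃ (s + t)
  layer : LayerOp V E h Hr Cl D

theorem Setup.lev_portion {Hr : Set X} {Cl : (X → ℝ) → Prop}
    {D : (X → ℝ) → (X → ℝ) → ℝ → Prop} (S : Setup V E h Hr Cl D) {x : X} (hx : x ∈ Hr)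
    {I : Set ℝ} (hI : I.OrdConnected) : Lev V h (cc E x ∩ h ⁻¹' I) :=
  Lev.of_preconnected S.hh (preconn_portion (isCompact_cc S.hE x)
    isPreconnected_connectedComponentIn (S.inj x hx) S.hh hI)
    (inter_subset_left.trans (S.vis x hx))

/-- constants of the STEP -/
structure Const (V : Set X) (R : ℝ) {l : ℕ} (N0 : Fin l → Set X) (lo hi : Fin l → ℝ)
    (m : ℕ) (μ A σ0 σ1 ε1 : ℝ) : Prop where
  R0 : 0 ≤ R
  μ0 : 0 < μ
  A0 : 0 ≤ A
  ε0 : 0 < ε1
  lh : ∀ i, hi i - lo i ≤ A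
  σ : ∀ i < m, σ0 + i * (2 * (μ * A)) ≤ σ1
  σ10 : 0 ≤ σ1

/-- invariants after the first `i` levels -/
structure Inv (V E : Set X) (h : X → ℝ) (Cl : (X → ℝ) → Prop)
    (D : (X → ℝ) → (X → ℝ) → ℝ → Prop) (φ : X → ℝ) (R : ℝ) {l : ℕ} (N0 : Fin l → Set X)
    (lo hi : Fin l → ℝ) (g : Set X) (μ A σ0 σ1 ε1 e1 : ℝ) (Bs : ℕ → ℝ) (i : ℕ) (χ : X → ℝ) :
    Prop where
  cl : Cl χ
  bd : ∀ x, |χ x| ≤ R
  en : D φ χ (i * e1)
  hull : ∀ l, ∀ q ∈ N0 l ∩ V, χ q ∈ Icc (lo l) (hi l)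
  off : ∀ x ∉ ⋃ l, N0 l, χ x = φ x
  jump : ∀ p ∈ E, OscLe V {p} χ (σ0 + i * (2 * (μ * A)))
  grow : ∀ x ∈ E, ∀ P ⊆ cc E x, Lev V h P → ∀ b, OscLe V P φ b →
    OscLe V P χ (b + i * (2 * (μ * A + 2 * (σ1 + ε1))))
  hist : ∀ j < i, ∀ x ∈ g,
    OscLe V (cc E x ∩ {y | h y ≤ Bs j}) χ
      (2 * (σ1 + ε1) + i * (2 * (μ * A + 2 * (σ1 + ε1)))) ∨
    OscLe V (cc E x ∩ {y | Bs (j + 1) ≤ h y}) χ
      (2 * (σ1 + ε1) + i * (2 * (μ * A + 2 * (σ1 + ε1))))

theorem Inv.step {Hr : Set X} {Cl : (X → ℝ) → Prop}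
    {D : (X → ℝ) → (X → ℝ) → ℝ → Prop} (S : Setup V E h Hr Cl D) {φ ψ : X → ℝ} {R b0 : ℝ} {l : ℕ}
    {N0 : Fin l → Set X} (hN0 : Pieces E N0) {lo hi : Fin l → ℝ}
    {m : ℕ} {μ A σ0 σ1 ε1 e1 : ℝ} (C : Const V R N0 lo hi m μ A σ0 σ1 ε1) (he1 : 0 < e1)
    (hgHr : gset V E ψ b0 ⊆ Hr) (hcov : gset V E ψ b0 ⊆ ⋃ l, N0 l)
    {Bs : ℕ → ℝ} (hBs : ∀ i, Bs i < Bs (i + 1)) {i : ℕ} (him : i < m) {χ : X → ℝ}
    (I : Inv V E h Cl D φ R N0 lo hi (gset V E ψ b0) μ A σ0 σ1 ε1 e1 Bs i χ) :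
    ∃ χ', Inv V E h Cl D φ R N0 lo hi (gset V E ψ b0) μ A σ0 σ1 ε1 e1 Bs (i + 1) χ' ∧
      ∀ x ∉ ⋃ l, N0 l, χ' x = χ x := by
  classical
  set g := gset V E ψ b0 with hg
  have hgE : g ⊆ E := gset_subset
  have hgsat : ∀ x ∈ g, ∀ y ∈ cc E x, y ∈ g := fun x hx y hy => gset_sat hx hy
  set G := cross E h g (Bs i) (Bs (i + 1)) with hG
  have hGc : IsCompact G := isCompact_cross_gset S.hE S.hh b0 _ _
  have hGg : G ⊆ g := fun x hx => hx.1
  have hη0 : 0 ≤ σ1 + ε1 := by have := C.σ10; have := C.ε0; linarith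
  have hμA : 0 ≤ μ * A := mul_nonneg C.μ0.le C.A0
  set gg := 2 * (μ * A + 2 * (σ1 + ε1)) with hgg
  have hgg0 : 0 ≤ gg := by rw [hgg]; linarith
  have hjump : ∀ x ∈ G, ∀ p ∈ cc E x, OscLe V {p} χ σ1 := fun x _ p hp =>
    (I.jump p (connectedComponentIn_subset E x hp)).mono (C.σ i him)
  obtain ⟨n, p, N, τ, hN, hGN, hp, hNO, hτ, hτB, hsl, hsl'⟩ := fine_data (V := V) S.hE S.hh hGc
    (hGg.trans hgE) C.ε0 (hBs i)
    (fun x hx => slice_osc (S.inj x (hgHr (hGg hx))) (hjump x hx) (Bs i))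
    (fun x hx => slice_osc (S.inj x (hgHr (hGg hx))) (hjump x hx) (Bs (i + 1)))
    (fun x => ⋃ j, ⋃ (_ : x ∈ N0 j), N0 j)
    (fun x _ => isOpen_iUnion fun j => isOpen_iUnion fun _ => hN0.opn j)
    (fun x hx => by
      obtain ⟨j, hj⟩ := mem_iUnion.1 (hcov (hGg hx))
      refine subset_trans ?_ (subset_iUnion_of_subset j (subset_iUnion_of_subset hj Subset.rfl))
      exact hN0.sat _ x (hgE (hGg hx)) ⟨x, mem_connectedComponentIn (hgE (hGg hx)), hj⟩)
  have hl : ∀ j : Fin n, ∃ j0, p j ∈ N0 j0 := fun j => mem_iUnion.1 (hcov (hGg (hp j)))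
  choose lx hlx using hl
  have hNN0 : ∀ j, N j ⊆ N0 (lx j) := by
    intro j y hy
    have h1 := hNO j hy
    simp only [mem_iUnion] at h1
    obtain ⟨j0, hj0, hy0⟩ := h1
    have : lx j = j0 := by
      by_contra hne
      exact Set.disjoint_left.1 (hN0.disj _ _ hne) (hlx j) hj0
    rw [this]; exact hy0
  have hhull : ∀ j, ∀ q ∈ N j ∩ V, χ q ∈ Icc (lo (lx j)) (hi (lx j)) := fun j q hq =>
    I.hull _ q ⟨hNN0 j hq.1, hq.2⟩
  choose k hkR hkI hkη using fun j => choose_const (h := h) C.R0 I.bd (hhull j) (hsl j)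
  choose k' hkR' hkI' hkη' using fun j => choose_const (h := h) C.R0 I.bd (hhull j) (hsl' j)
  obtain ⟨z, z', hz, hz', hone, hcl, hen⟩ := S.layer (Bs i) (Bs (i + 1)) G (⋃ j, N j) χ (cst N k)
    (cst N k') R τ μ e1 (hBs i) hGc (hGg.trans hgHr) (fun x hx y hy => cross_sat hgsat hx hy)
    (isOpen_iUnion hN.opn) hGN (fun x hx => hx.2) I.cl I.bd (cst_abs_le C.R0 hkR)
    (cst_abs_le C.R0 hkR') (hN.cst_loc k) (hN.cst_loc k') hτ C.μ0 he1
  have Da : Data V E h N k k' (fun j => lo (lx j)) (fun j => hi (lx j)) (Bs i)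
      (Bs (i + 1)) τ μ A (σ1 + ε1) z z' χ :=
    { hh := S.hh, hN := hN, hBB := hBs i, hτ := hτ, hτB := hτB, hm0 := C.μ0.le, hA0 := C.A0,
      hη0 := hη0, hz := hz, hz' := hz', hlh := fun j => C.lh _, hχ := hhull, hk := hkI,
      hk' := hkI', hη := hkη, hη' := hkη' }
  have hNsub : (⋃ j, N j) ⊆ ⋃ l, N0 l := by
    refine iUnion_subset fun j => (hNN0 j).trans (subset_iUnion N0 _)
  have hoff : ∀ x ∉ ⋃ l, N0 l, op2 h (Bs i) (Bs (i + 1)) τ z z' (cst N k) (cst N k') χ x = χ x :=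
    fun x hx => Da.off fun hx' => hx (hNsub hx')
  have hcast : ((i + 1 : ℕ) : ℝ) = (i : ℝ) + 1 := by push_cast; ring
  refine ⟨op2 h (Bs i) (Bs (i + 1)) τ z z' (cst N k) (cst N k') χ, ?_, hoff⟩
  refine ⟨hcl, fun x => Da.bound I.bd hkR hkR' x, ?_, ?_, ?_, ?_, ?_, ?_⟩
  · have := S.Dadd _ _ _ _ _ I.en hen
    rw [hcast]
    convert this using 1
    ring
  · intro j q hq
    by_cases hqN : q ∈ ⋃ j, N j
    · obtain ⟨j', hj'⟩ := mem_iUnion.1 hqN
      have h1 := Da.hull2 j' q ⟨hj', hq.2⟩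
      have h2 : lx j' = j := by
        by_contra hne
        exact Set.disjoint_left.1 (hN0.disj _ _ hne) (hNN0 j' hj') hq.1
      simpa only [h2] using h1
    · rw [Da.off hqN]
      exact I.hull j q hq
  · intro x hx
    rw [hoff x hx]
    exact I.off x hx
  · intro q hq
    have := Da.point hq (I.jump q hq)
    rw [hcast]
    refine this.mono (le_of_eq ?_)
    ring
  · intro x hx P hP hPl b hb
    have := Da.growth hx hP hPl (I.grow x hx P hP hPl b hb)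
    rw [hcast]
    refine this.mono (le_of_eq ?_)
    ring
  · intro j hj x hx
    have hxE := hgE hx
    have hxHr := hgHr hx
    have hgrow : ∀ I' : Set ℝ, I'.OrdConnected → ∀ b, OscLe V (cc E x ∩ h ⁻¹' I') χ b →
        OscLe V (cc E x ∩ h ⁻¹' I')
          (op2 h (Bs i) (Bs (i + 1)) τ z z' (cst N k) (cst N k') χ) (b + gg) := by
      intro I' hI' b hb
      exact Da.growth hxE inter_subset_left (S.lev_portion hxHr hI') hb
    have e1' : 2 * (σ1 + ε1) + ((i + 1 : ℕ) : ℝ) * gg =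
        (2 * (σ1 + ε1) + (i : ℝ) * gg) + gg := by
      rw [hcast]; ring
    rcases Nat.lt_succ_iff_lt_or_eq.1 hj with hj | rfl
    · rcases I.hist j hj x hx with h1 | h1
      · left
        rw [e1']
        exact hgrow (Iic (Bs j)) ordConnected_Iic _ h1
      · right
        rw [e1']
        exact hgrow (Ici (Bs (j + 1))) ordConnected_Ici _ h1
    · have hbig : 2 * (σ1 + ε1) ≤ 2 * (σ1 + ε1) + ((j + 1 : ℕ) : ℝ) * gg := by
        have : 0 ≤ ((j + 1 : ℕ) : ℝ) * gg := by positivity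
        linarith
      by_cases hxG : x ∈ G
      · obtain ⟨j', hj'⟩ := mem_iUnion.1 (hGN hxG)
        have hKj : cc E x ⊆ N j' := hN.sat _ x hxE ⟨x, mem_connectedComponentIn hxE, hj'⟩
        rcases Da.flat hKj (hone x hxG) with h1 | h1
        · exact Or.inl (h1.mono hbig)
        · exact Or.inr (h1.mono hbig)
      · have hnot : ¬ ((∃ y ∈ cc E x, h y ≤ Bs j) ∧ ∃ y ∈ cc E x, Bs (j + 1) ≤ h y) := fun h' =>
          hxG ⟨hx, h'⟩
        rw [not_and_or] at hnot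
        rcases hnot with h1 | h1
        · left
          have : cc E x ∩ {y | h y ≤ Bs j} = ∅ := by
            rw [eq_empty_iff_forall_notMem]
            exact fun y hy => h1 ⟨y, hy.1, hy.2⟩
          rw [this]; exact oscLe_empty
        · right
          have : cc E x ∩ {y | Bs (j + 1) ≤ h y} = ∅ := by
            rw [eq_empty_iff_forall_notMem]
            exact fun y hy => h1 ⟨y, hy.1, hy.2⟩
          rw [this]; exact oscLe_empty

end Crest.Agent.R105.Stp_722
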