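import Crest.Agent.R105.Stp2_722
import Crest.Agent.R105.CF2_363
import Crest.Agent.R105.Lop1_744
import Crest.Agent.R105.Stp6_722

-- ▼ part R105/Stp3_722
section

/-!
Row 105 (Koebe), task 2230 (PP-STEP), part 3: the class (locally Lipschitz off a closed set),
the energy of the one-sided operation.
-/

set_option autoImplicit false

open Set Filter Topology Metric MeasureTheory
open scoped ENNReal NNReal

namespace Crest.Agent.R105.Stp_722

open Crest.Agent.R105.CF_363

section gen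

variable {X : Type*} [NormedAddCommGroup X] [NormedSpace ℝ X]

/-- local Lipschitz constant at most `L` at every point of `U`. -/
def LL (U : Set X) (L : ℝ) (f : X → ℝ) : Prop := ∀ x ∈ U, ∀ᶠ y in 𝓝 x, |f y - f x| ≤ L * dist y x

variable {U : Set X} {L : ℝ} {f : X → ℝ}

theorem LL.mono_set {U' : Set X} (h : LL U L f) (hU : U' ⊆ U) : LL U' L f :=
  fun x hx => h x (hU hx)

theorem LL.mono {L' : ℝ} (h : LL U L f) (hL : L ≤ L') : LL U L' f := by
  intro x hx
  filter_upwards [h x hx] with y hy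
  exact hy.trans (by gcongr)

theorem _root_.Crest.Agent.R105.CF_363.SL.LL (h : SL U L f) (hU : IsOpen U) : LL U L f := by
  intro x hx
  obtain ⟨r, hr, hrU⟩ := Metric.isOpen_iff.1 hU x hx
  filter_upwards [ball_mem_nhds x hr] with y hy
  exact h y x (((convex_ball x r).segment_subset hy (mem_ball_self hr)).trans hrU)

theorem LL.continuousAt (h : LL U L f) {x : X} (hx : x ∈ U) : ContinuousAt f x := by
  rw [ContinuousAt, tendsto_iff_dist_tendsto_zero]
  have h1 : Tendsto (fun y => L * dist y x) (𝓝 x) (𝓝 0) := by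
    have : Tendsto (fun y => dist y x) (𝓝 x) (𝓝 0) := tendsto_iff_dist_tendsto_zero.1 tendsto_id
    simpa using this.const_mul L
  exact squeeze_zero' (Eventually.of_forall fun y => dist_nonneg) (h x hx) h1

theorem LL.SL (h : LL U L f) (hL : 0 ≤ L) : SL U L f := by
  intro p q hpq
  set D := L * dist p q with hD
  have hD0 : 0 ≤ D := mul_nonneg hL dist_nonneg
  let γ : ℝ → X := fun t => AffineMap.lineMap p q t
  have hγc : Continuous γ := AffineMap.lineMap_continuous
  have hγU : ∀ t ∈ Icc (0:ℝ) 1, γ t ∈ U := by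
    intro t ht
    apply hpq
    rw [segment_eq_image_lineMap]
    exact ⟨t, ht, rfl⟩
  have hdist : ∀ s t, dist (γ s) (γ t) = |s - t| * dist p q := by
    intro s t
    simp only [γ]
    rw [dist_lineMap_lineMap, Real.dist_eq]
  set g : ℝ → ℝ := fun t => f (γ t) with hg
  have hloc : ∀ t ∈ Icc (0:ℝ) 1, ∀ᶠ s in 𝓝 t, |g s - g t| ≤ D * |s - t| := by
    intro t ht
    filter_upwards [hγc.continuousAt.eventually (h (γ t) (hγU t ht))] with s hs
    rw [hdist] at hs
    calc |g s - g t| ≤ _ := hs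
      _ = D * |s - t| := by rw [hD]; ring
  have hcont : ContinuousOn g (Icc 0 1) := fun t ht =>
    ((h.continuousAt (hγU t ht)).comp hγc.continuousAt).continuousWithinAt
  let S : Set ℝ := {t | |g t - g 0| ≤ D * t}
  have hSc : IsClosed (S ∩ Icc 0 1) := by
    have : S ∩ Icc 0 1 = Icc (0:ℝ) 1 ∩ (fun t => D * t - |g t - g 0|) ⁻¹' (Ici 0) := by
      ext t; simp only [S, mem_inter_iff, mem_ofPred_eq, mem_preimage, mem_Ici, sub_nonneg]
      tauto
    rw [this]
    apply ContinuousOn.preimage_isClosed_of_isClosed _ isClosed_Icc isClosed_Ici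
    exact (continuousOn_const.mul continuousOn_id).sub (hcont.sub continuousOn_const).abs
  have h0S : (0:ℝ) ∈ S := by simp [S]
  have key := hSc.Icc_subset_of_forall_mem_nhdsWithin (a := 0) (b := 1) h0S (by
    rintro t ⟨htS, ht⟩
    have h1 : ∀ᶠ s in 𝓝[>] t, |g s - g t| ≤ D * |s - t| :=
      (hloc t ⟨ht.1, ht.2.le⟩).filter_mono nhdsWithin_le_nhds
    filter_upwards [h1, self_mem_nhdsWithin] with s hs hst
    rw [mem_Ioi] at hst
    simp only [S, mem_ofPred_eq] at htS ⊢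
    have h2 : |g s - g 0| ≤ |g s - g t| + |g t - g 0| := abs_sub_le _ _ _
    rw [abs_of_pos (by linarith : (0:ℝ) < s - t)] at hs
    nlinarith)
  have h1 := key (show (1:ℝ) ∈ Icc (0:ℝ) 1 by simp)
  simp only [S, mem_ofPred_eq, mul_one, hg] at h1
  have e1 : γ 1 = q := by simp [γ]
  have e0 : γ 0 = p := by simp [γ]
  rw [e1, e0] at h1
  rw [abs_sub_comm]
  exact h1

/-- the operation preserves the class. -/
theorem LL.op {h : X → ℝ} {B τ Lz A H : ℝ} {z c χ : X → ℝ} {C : Set X} (hτ : 0 < τ)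
    (hH : ∀ x y, |h x - h y| ≤ H * dist x y) (hχ : LL U L χ) (hLz0 : 0 ≤ Lz) (hH0 : 0 ≤ H)
    (hz : LL (U ∩ {x | h x < B}) Lz z) (hz01 : ∀ x, 0 ≤ z x ∧ z x ≤ 1) (hC : IsClosed C)
    (hz0 : ∀ x ∉ C, z x = 0) (hc : ∀ x ∈ C, ∀ᶠ y in 𝓝 x, c y = c x)
    (hA : ∀ x, |c x - χ x| ≤ A) :
    LL U (L + (H / τ + Lz) * A) (op h B τ z c χ) := by
  have hcont : Continuous h := by
    rw [continuous_iff_continuousAt]
    intro x
    rw [ContinuousAt, tendsto_iff_dist_tendsto_zero]
    have h1 : Tendsto (fun y => H * dist y x) (𝓝 x) (𝓝 0) := by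
      have : Tendsto (fun y => dist y x) (𝓝 x) (𝓝 0) := tendsto_iff_dist_tendsto_zero.1 tendsto_id
      simpa using this.const_mul H
    exact squeeze_zero (fun y => dist_nonneg) (fun y => hH y x) h1
  intro x hx
  have hA0 : 0 ≤ A := (abs_nonneg _).trans (hA x)
  have hK0 : 0 ≤ (H / τ + Lz) * A := by positivity
  have hbase : ∀ᶠ y in 𝓝 x, |χ y - χ x| ≤ (L + (H / τ + Lz) * A) * dist y x := by
    filter_upwards [hχ x hx] with y hy
    have := mul_nonneg hK0 (dist_nonneg (x := y) (y := x))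
    rw [add_mul]; linarith
  rcases lt_trichotomy (h x) B with hB | hB | hB
  · -- below the level
    have hB' : ∀ᶠ y in 𝓝 x, h y < B := (isOpen_lt hcont continuous_const).mem_nhds hB
    by_cases hxC : x ∈ C
    · filter_upwards [hχ x hx, hz x ⟨hx, hB⟩, hc x hxC] with y h1 h2 h3
      unfold Stp_722.op
      rw [h3]
      have hAx := hA x
      rw [abs_sub_comm] at hAx
      have hw : |th B τ (h y) * z y - th B τ (h x) * z x| ≤ (H / τ + Lz) * dist y x := by
        have e : th B τ (h y) * z y - th B τ (h x) * z x =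
            (th B τ (h y) - th B τ (h x)) * z y + th B τ (h x) * (z y - z x) := by ring
        rw [e]
        have t1 := abs_th_sub_le (B := B) (s := h y) (t := h x) hτ
        have t2 := hH y x
        have t3 : |h y - h x| / τ ≤ H * dist y x / τ := by gcongr
        calc _ ≤ |(th B τ (h y) - th B τ (h x)) * z y| + |th B τ (h x) * (z y - z x)| :=
              abs_add_le _ _
          _ = |th B τ (h y) - th B τ (h x)| * z y + th B τ (h x) * |z y - z x| := by
              rw [abs_mul, abs_mul, abs_of_nonneg (hz01 y).1, abs_of_nonneg (th_nonneg _ _ _)]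
          _ ≤ (H * dist y x / τ) * 1 + 1 * (Lz * dist y x) :=
              add_le_add (mul_le_mul (t1.trans t3) (hz01 y).2 (hz01 y).1 (by positivity))
                (mul_le_mul (th_le_one _ _ _) h2 (abs_nonneg _) zero_le_one)
          _ = (H / τ + Lz) * dist y x := by ring
      have := abs_combo_le (a := χ y) (b := χ x) (k := c x) (w_nonneg (h := h) (B := B) (τ := τ) hz01 y)
        (w_le_one hz01 y) hw hAx
      refine this.trans ?_
      rw [add_mul]
      have : (H / τ + Lz) * dist y x * A = (H / τ + Lz) * A * dist y x := by ring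
      linarith
    · have h1 : ∀ᶠ y in 𝓝 x, y ∉ C := hC.isOpen_compl.mem_nhds hxC
      filter_upwards [hbase, h1] with y h2 h3
      rw [op_eq_of_z (hz0 y h3), op_eq_of_z (hz0 x hxC)]
      exact h2
  · -- on the level
    filter_upwards [hχ x hx] with y h1
    rw [op_eq_of_le hτ hB.ge]
    have e : Stp_722.op h B τ z c χ y - χ x = (χ y - χ x) + th B τ (h y) * z y * (c y - χ y) := by
      unfold Stp_722.op; ring
    rw [e]
    have h2 : |th B τ (h y) * z y * (c y - χ y)| ≤ H * dist y x / τ * A := by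
      rw [abs_mul, abs_of_nonneg (w_nonneg hz01 y)]
      have t1 := th_le (B := B) (t := h y) hτ
      have t2 := hH y x
      rw [hB, abs_sub_comm] at t2
      have t3 : |B - h y| / τ ≤ H * dist y x / τ := by gcongr
      calc _ ≤ (H * dist y x / τ * 1) * A :=
            mul_le_mul (mul_le_mul (t1.trans t3) (hz01 y).2 (hz01 y).1 (by positivity)) (hA y)
              (abs_nonneg _) (by positivity)
        _ = H * dist y x / τ * A := by ring
    calc _ ≤ |χ y - χ x| + |th B τ (h y) * z y * (c y - χ y)| := abs_add_le _ _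
      _ ≤ L * dist y x + H * dist y x / τ * A := add_le_add h1 h2
      _ ≤ (L + (H / τ + Lz) * A) * dist y x := by
          have := mul_nonneg (mul_nonneg hLz0 hA0) (dist_nonneg (x := y) (y := x))
          have e : (L + (H / τ + Lz) * A) * dist y x = L * dist y x + H * dist y x / τ * A +
            Lz * A * dist y x := by ring
          linarith
  · -- above the level
    have hB' : ∀ᶠ y in 𝓝 x, B < h y := (isOpen_lt continuous_const hcont).mem_nhds hB
    filter_upwards [hbase, hB'] with y h2 h3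
    rw [op_eq_of_le hτ h3.le, op_eq_of_le hτ hB.le]
    exact h2

end gen

end Crest.Agent.R105.Stp_722
end

-- ▼ part R105/Lop2_744
section

/-!
# Row 105: the operation of 722 in the class `CFJ` (regularity and energy), Minkowski, and the
instance of `Stp_722.Setup` for a slit picture, from `LayOut` for all families.
-/

set_option autoImplicit false

noncomputable section

namespace Crest.Agent.R105.Lop2_744

open Set Filter MeasureTheory Topology Metric
open CF_363 Stp_722 Skp2_257 Lop1_744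
open scoped ENNReal NNReal

/-! ### the operation in the class `CFJ` -/

section op

variable {𝓗 : Set Hair} {h z c χ : ℝ × ℝ → ℝ} {B τ R : ℝ} {C : Set (ℝ × ℝ)}

theorem continuous_of_lip (hh : ∀ x y, |h x - h y| ≤ dist x y) : Continuous h := by
  refine (LipschitzWith.of_dist_le_mul (K := 1) fun x y => ?_).continuous
  rw [Real.dist_eq, NNReal.coe_one, one_mul]
  exact hh x y

theorem abs_sub_le_two {R a b : ℝ} (ha : |a| ≤ R) (hb : |b| ≤ R) : |a - b| ≤ 2 * R := by
  have := abs_sub a b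
  linarith

theorem op_abs_le (hz01 : ∀ x, 0 ≤ z x ∧ z x ≤ 1) (hcR : ∀ x, |c x| ≤ R) (hχR : ∀ x, |χ x| ≤ R)
    (x : ℝ × ℝ) : |op h B τ z c χ x| ≤ R :=
  abs_le.2 (op_mem_Icc hz01 (abs_le.1 (hχR x)) (abs_le.1 (hcR x)))

theorem cfj_congr {W : Set (ℝ × ℝ)} {f g : ℝ × ℝ → ℝ} (hf : CFJ 𝓗 W f) (h : EqOn f g W) :
    CFJ 𝓗 W g := by
  obtain ⟨J, hJ, hf⟩ := hf
  exact ⟨J, hJ, hf.congr fun p hp => h hp.1⟩

/-- common finite cut for a function on the plane and one on an open set -/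
theorem two_cut {W : Set (ℝ × ℝ)} {f g : ℝ × ℝ → ℝ} (hf : CFJ 𝓗 univ f) (hg : CFJ 𝓗 W g) :
    ∃ J : Finset Hair, (∀ K ∈ J, K ∈ 𝓗) ∧ ∃ L, 0 ≤ L ∧ SL (univ \ cut J) L f ∧
      ∃ M, 0 ≤ M ∧ SL (W \ cut J) M g := by
  classical
  obtain ⟨J, hJ, L, _, hL, h1, _⟩ := hf
  obtain ⟨J', hJ', M, _, hM, h2, _⟩ := hg
  refine ⟨J ∪ J', fun K hK => ?_, L, hL, h1.mono ?_, M, hM, h2.mono ?_⟩
  · rcases Finset.mem_union.mp hK with h | h
    · exact hJ K h
    · exact hJ' K h
  · exact sdiff_subset_sdiff_right (cut_mono Finset.subset_union_left)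
  · exact sdiff_subset_sdiff_right (cut_mono Finset.subset_union_right)

theorem op_cfj (hh : ∀ x y, |h x - h y| ≤ dist x y) (hτ : 0 < τ) (hχ : CFJ 𝓗 univ χ)
    (hz : CFJ 𝓗 {x | h x < B} z) (hz01 : ∀ x, 0 ≤ z x ∧ z x ≤ 1) (hC : IsClosed C)
    (hz0 : ∀ x ∉ C, z x = 0) (hc : ∀ x ∈ C, ∀ᶠ y in 𝓝 x, c y = c x) (hcR : ∀ x, |c x| ≤ R)
    (hχR : ∀ x, |χ x| ≤ R) : CFJ 𝓗 univ (op h B τ z c χ) := by
  obtain ⟨J, hJ, L, hL, h1, M, hM, h2⟩ := two_cut hχ hz
  have hcont := continuous_of_lip hh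
  have hWo : IsOpen {x : ℝ × ℝ | h x < B} := isOpen_lt hcont continuous_const
  have hU : IsOpen (univ \ cut J) := isOpen_diff_cut isOpen_univ J
  have hR0 : 0 ≤ R := (abs_nonneg _).trans (hχR (0, 0))
  have h3 : LL ((univ \ cut J) ∩ {x | h x < B}) M z := by
    refine (h2.LL (isOpen_diff_cut hWo J)).mono_set ?_
    rintro x ⟨⟨_, hx⟩, hx'⟩
    exact ⟨hx', hx⟩
  have h4 := LL.op (h := h) (B := B) (τ := τ) (Lz := M) (A := 2 * R) (H := 1) (z := z) (c := c)
    (χ := χ) (C := C) (U := univ \ cut J) (L := L) hτ (fun x y => by rw [one_mul]; exact hh x y)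
    (h1.LL hU) hM zero_le_one h3 hz01 hC hz0 hc (fun x => abs_sub_le_two (hcR x) (hχR x))
  refine ⟨J, hJ, L + (1 / τ + M) * (2 * R), R, by positivity, h4.SL (by positivity), ?_⟩
  exact fun p _ => op_abs_le hz01 hcR hχR p

/-- the ramp is Lipschitz -/
theorem th_SL (hh : ∀ x y, |h x - h y| ≤ dist x y) (hτ : 0 < τ) :
    SL univ (1 / τ) (fun q => th B τ (h q)) := by
  intro p q _
  refine (abs_th_sub_le hτ).trans ?_
  rw [div_mul_eq_mul_div, one_mul]
  gcongr
  exact hh p q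

/-- pointwise estimate of the energy density of the change -/
theorem ae_g2_op (hh : ∀ x y, |h x - h y| ≤ dist x y) (hτ : 0 < τ) (hnull : volume {p | h p = B} = 0)
    {J : Finset Hair} {L M : ℝ} (hL : 0 ≤ L) (h1 : SL (univ \ cut J) L χ)
    (h2 : SL ({x | h x < B} \ cut J) M z) (hz01 : ∀ x, 0 ≤ z x ∧ z x ≤ 1)
    (hC : IsClosed C) (hz0 : ∀ x ∉ C, z x = 0) (hc : ∀ x ∈ C, ∀ᶠ y in 𝓝 x, c y = c x)
    (hcR : ∀ x, |c x| ≤ R) (hχR : ∀ x, |χ x| ≤ R) :
    ∀ᵐ p : ℝ × ℝ, g2 (fun q => op h B τ z c χ q - χ q) p ≤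
      (C ∩ {x | h x < B}).indicator
        (fun p => (4 * L ^ 2 + 32 * R ^ 2 / τ ^ 2) + 16 * R ^ 2 * g2 z p) p := by
  have hcont := continuous_of_lip hh
  have hWo : IsOpen {x : ℝ × ℝ | h x < B} := isOpen_lt hcont continuous_const
  have hU : IsOpen (univ \ cut J) := isOpen_diff_cut isOpen_univ J
  have hR0 : 0 ≤ R := (abs_nonneg _).trans (hχR (0, 0))
  have a1 := h1.ae_differentiableAt (μ := volume) hU
  have a2 := h2.ae_differentiableAt (μ := volume) (isOpen_diff_cut hWo J)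
  have a3 := (th_SL (B := B) hh hτ).ae_differentiableAt (μ := volume) isOpen_univ
  have a4 : ∀ᵐ p : ℝ × ℝ, p ∉ cut J := measure_eq_zero_iff_ae_notMem.mp (volume_cut J)
  have a5 : ∀ᵐ p : ℝ × ℝ, p ∉ {p | h p = B} := measure_eq_zero_iff_ae_notMem.mp hnull
  have e0 : (fun q => op h B τ z c χ q - χ q) =
      fun q => th B τ (h q) * z q * (c q - χ q) := by
    funext q; unfold op; ring
  rw [e0]
  filter_upwards [a1, a2, a3, a4, a5] with p b1 b2 b3 b4 b5
  by_cases hp : p ∈ C ∩ {x | h x < B}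
  · rw [indicator_of_mem hp]
    have d1 : DifferentiableAt ℝ χ p := b1 ⟨mem_univ _, b4⟩
    have d2 : DifferentiableAt ℝ z p := b2 ⟨hp.2, b4⟩
    have d3 : DifferentiableAt ℝ (fun q => th B τ (h q)) p := b3 (mem_univ _)
    have e1 : (fun q => th B τ (h q) * z q * (c q - χ q)) =ᶠ[𝓝 p]
        fun q => (th B τ (h q) * z q) * (c p - χ q) := by
      filter_upwards [hc p hp.1] with q hq
      rw [hq]
    have e2 : g2 (fun q => th B τ (h q) * z q * (c q - χ q)) p =
        g2 (fun q => (th B τ (h q) * z q) * (c p - χ q)) p := by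
      simp only [g2, gx_congr e1, gy_congr e1]
    rw [e2]
    have d4 : DifferentiableAt ℝ (fun q => th B τ (h q) * z q) p := d3.mul d2
    have d5 : DifferentiableAt ℝ (fun q => c p - χ q) p := d1.const_sub _
    have g1 := g2_mul_le d4 d5
    have g2' := g2_mul_le d3 d2
    have g3 : g2 (fun q => c p - χ q) p = g2 χ p := by
      simp [g2, gx, gy, fderiv_const_sub]
    have g4 : g2 χ p ≤ 2 * L ^ 2 := h1.g2_le hU hL ⟨mem_univ _, b4⟩
    have g5 : g2 (fun q => th B τ (h q)) p ≤ 2 * (1 / τ) ^ 2 :=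
      (th_SL (B := B) hh hτ).g2_le isOpen_univ (by positivity) (mem_univ _)
    have t0 := th_nonneg B τ (h p)
    have t1 := th_le_one B τ (h p)
    obtain ⟨z0, z1⟩ := hz01 p
    have w1 : (th B τ (h p) * z p) ^ 2 ≤ 1 :=
      pow_le_one₀ (mul_nonneg t0 z0) (mul_le_one₀ t1 z0 z1)
    have w2 : (th B τ (h p)) ^ 2 ≤ 1 := pow_le_one₀ t0 t1
    have w3 : (z p) ^ 2 ≤ 1 := pow_le_one₀ z0 z1
    have w4 : (c p - χ p) ^ 2 ≤ 4 * R ^ 2 := by
      have := abs_sub_le_two (hcR p) (hχR p)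
      have h5 := sq_le_sq' (by linarith [(abs_le.1 this).1]) (abs_le.1 this).2
      calc _ ≤ _ := h5
        _ = 4 * R ^ 2 := by ring
    have n1 := g2_nonneg χ p
    have n2 := g2_nonneg z p
    have n3 := g2_nonneg (fun q => th B τ (h q)) p
    have n4 := g2_nonneg (fun q => th B τ (h q) * z q) p
    rw [g3] at g1
    have k1 : g2 (fun q => th B τ (h q) * z q) p ≤ 2 * g2 z p + 4 * (1 / τ) ^ 2 := by
      nlinarith [mul_le_mul_of_nonneg_right w2 n2, mul_le_mul_of_nonneg_right w3 n3]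
    have k2 : (th B τ (h p) * z p) ^ 2 * g2 χ p ≤ 2 * L ^ 2 :=
      (mul_le_mul_of_nonneg_right w1 n1).trans (by linarith)
    have k3 : (c p - χ p) ^ 2 * g2 (fun q => th B τ (h q) * z q) p ≤
        4 * R ^ 2 * (2 * g2 z p + 4 * (1 / τ) ^ 2) :=
      mul_le_mul w4 k1 n4 (by positivity)
    have k4 : 32 * R ^ 2 / τ ^ 2 = 32 * R ^ 2 * (1 / τ) ^ 2 := by field_simp
    rw [k4]
    calc _ ≤ _ := g1
      _ ≤ 2 * (2 * L ^ 2) + 2 * (4 * R ^ 2 * (2 * g2 z p + 4 * (1 / τ) ^ 2)) := by linarith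
      _ = _ := by ring
  · rw [indicator_of_notMem hp]
    refine (g2_eq_zero ?_).le
    by_cases hpC : p ∈ C
    · have hpB : B < h p := by
        rcases lt_trichotomy (h p) B with h6 | h6 | h6
        · exact absurd ⟨hpC, h6⟩ hp
        · exact absurd h6 b5
        · exact h6
      filter_upwards [(isOpen_lt continuous_const hcont).mem_nhds hpB] with q hq
      rw [th_eq_zero hτ (le_of_lt hq)]; ring
    · filter_upwards [hC.isOpen_compl.mem_nhds hpC] with q hq
      rw [hz0 q hq]; ring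

theorem integrableOn_z {J : Finset Hair} {W : Set (ℝ × ℝ)} {M : ℝ} (hM : 0 ≤ M) (hW : IsOpen W)
    (h2 : SL (W \ cut J) M z) (hC : IsCompact C) (hz0 : ∀ x ∉ C, z x = 0) :
    IntegrableOn (g2 z) W := by
  have a4 : ∀ᵐ p : ℝ × ℝ, p ∉ cut J := measure_eq_zero_iff_ae_notMem.mp (volume_cut J)
  have h3 : IntegrableOn (g2 z) (C ∩ W) := by
    refine Measure.integrableOn_of_bounded (M := 2 * M ^ 2)
      ((measure_mono inter_subset_left).trans_lt hC.measure_lt_top).ne
      (measurable_g2 z).aestronglyMeasurable ?_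
    filter_upwards [ae_restrict_of_ae a4, ae_restrict_mem (hC.measurableSet.inter hW.measurableSet)]
      with p hp hpW
    rw [Real.norm_of_nonneg (g2_nonneg z p)]
    exact h2.g2_le (isOpen_diff_cut hW J) hM ⟨hpW.2, hp⟩
  have h4 : IntegrableOn (g2 z) (Cᶜ ∩ W) := by
    have h6 : EqOn (fun _ => (0 : ℝ)) (g2 z) (Cᶜ ∩ W) := by
      intro p hp
      refine (g2_eq_zero ?_).symm
      filter_upwards [hC.isClosed.isOpen_compl.mem_nhds hp.1] with q hq using hz0 q hq
    exact IntegrableOn.congr_fun (integrableOn_zero) h6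
      (hC.measurableSet.compl.inter hW.measurableSet)
  have h5 := h3.union h4
  rwa [← union_inter_distrib_right, union_compl_self, univ_inter] at h5

/-- **energy of the change** -/
theorem op_En (hh : ∀ x y, |h x - h y| ≤ dist x y) (hτ : 0 < τ) (hnull : volume {p | h p = B} = 0)
    {J : Finset Hair} {L M : ℝ} (hL : 0 ≤ L) (h1 : SL (univ \ cut J) L χ) (hM : 0 ≤ M)
    (h2 : SL ({x | h x < B} \ cut J) M z) (hz01 : ∀ x, 0 ≤ z x ∧ z x ≤ 1)
    (hC : IsCompact C) (hz0 : ∀ x ∉ C, z x = 0) (hc : ∀ x ∈ C, ∀ᶠ y in 𝓝 x, c y = c x)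
    (hcR : ∀ x, |c x| ≤ R) (hχR : ∀ x, |χ x| ≤ R) :
    Integrable (g2 (fun q => op h B τ z c χ q - χ q)) ∧
    ∫ p, g2 (fun q => op h B τ z c χ q - χ q) p ≤
      (4 * L ^ 2 + 32 * R ^ 2 / τ ^ 2) * (volume C).toReal + 16 * R ^ 2 * En {x | h x < B} z := by
  have hcont := continuous_of_lip hh
  have hWo : IsOpen {x : ℝ × ℝ | h x < B} := isOpen_lt hcont continuous_const
  have hCW : MeasurableSet (C ∩ {x | h x < B}) := hC.measurableSet.inter hWo.measurableSet
  have hfin : volume (C ∩ {x | h x < B}) ≠ ∞ :=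
    ((measure_mono inter_subset_left).trans_lt hC.measure_lt_top).ne
  have hz := integrableOn_z hM hWo h2 hC hz0
  have hz' : IntegrableOn (g2 z) (C ∩ {x | h x < B}) := hz.mono_set inter_subset_right
  have hconst : IntegrableOn (fun _ : ℝ × ℝ => 4 * L ^ 2 + 32 * R ^ 2 / τ ^ 2)
      (C ∩ {x | h x < B}) := integrableOn_const hfin
  have hI : IntegrableOn (fun p => (4 * L ^ 2 + 32 * R ^ 2 / τ ^ 2) + 16 * R ^ 2 * g2 z p)
      (C ∩ {x | h x < B}) := hconst.add (hz'.const_mul _)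
  have hI' := hI.integrable_indicator hCW
  have hae := ae_g2_op hh hτ hnull hL h1 h2 hz01 hC.isClosed hz0 hc hcR hχR
  have hint : Integrable (g2 (fun q => op h B τ z c χ q - χ q)) := by
    refine hI'.mono' (measurable_g2 _).aestronglyMeasurable ?_
    filter_upwards [hae] with p hp
    rw [Real.norm_of_nonneg (g2_nonneg _ p)]
    exact hp
  refine ⟨hint, (integral_mono_ae hint hI' hae).trans ?_⟩
  rw [integral_indicator hCW, integral_add hconst (hz'.const_mul _), integral_const_mul,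
    setIntegral_const]
  have hvol : volume.real (C ∩ {x | h x < B}) ≤ (volume C).toReal :=
    ENNReal.toReal_mono hC.measure_lt_top.ne (measure_mono inter_subset_left)
  have hen : ∫ p in C ∩ {x | h x < B}, g2 z p ≤ En {x | h x < B} z :=
    setIntegral_mono_set hz (ae_of_all _ fun p => g2_nonneg z p)
      (Filter.Eventually.of_forall fun p hp => hp.2)
  rw [smul_eq_mul, mul_comm]
  gcongr

end op

end Crest.Agent.R105.Lop2_744
end
end

-- ▼ part R105/Lop3_744
section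

/-!
# Row 105: class and energy distance of the STEP for a slit picture, and the instance of
`Stp_722.Setup` from `LayOut` for all compact families.
-/

set_option autoImplicit false

noncomputable section

namespace Crest.Agent.R105.Lop3_744

open Set Filter MeasureTheory Topology Metric
open CF_363 Stp_722 Skp2_257 Lop1_744 Lop2_744
open scoped ENNReal NNReal

/-! ### the class and the distance -/

/-- the class of the STEP -/
def Cl (E : Set (ℝ × ℝ)) (f : ℝ × ℝ → ℝ) : Prop :=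
  CFJ (hairs E) univ f ∧ HasCompactSupport f ∧ ∃ C : ℝ, ∀ p, |f p| ≤ C

/-- the energy distance -/
def Ds (E : Set (ℝ × ℝ)) (f f' : ℝ × ℝ → ℝ) (ε : ℝ) : Prop :=
  Cl E f ∧ Cl E f' ∧ 0 ≤ ε ∧ Integrable (g2 (fun q => f' q - f q)) ∧
    ∫ p, g2 (fun q => f' q - f q) p ≤ ε ^ 2

variable {E : Set (ℝ × ℝ)} {f f' f'' : ℝ × ℝ → ℝ}

theorem Cl.ae_diff (h : Cl E f) : ∀ᵐ p : ℝ × ℝ, DifferentiableAt ℝ f p := by
  obtain ⟨⟨J, hJ, L, C, hL, h1, -⟩, -⟩ := h
  have h2 := h1.ae_differentiableAt (μ := volume) (isOpen_diff_cut isOpen_univ J)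
  have h3 : ∀ᵐ p : ℝ × ℝ, p ∉ cut J := measure_eq_zero_iff_ae_notMem.mp (volume_cut J)
  filter_upwards [h2, h3] with p hp hp' using hp ⟨mem_univ p, hp'⟩

theorem Ds.refl (h : Cl E f) : Ds E f f 0 := by
  have e : g2 (fun q => f q - f q) = fun _ => 0 := by
    funext p
    simp [g2]
  refine ⟨h, h, le_rfl, ?_, ?_⟩
  · rw [e]; exact integrable_zero _ _ _
  · rw [e]; simp

theorem g2_add_weighted {u v : ℝ × ℝ → ℝ} {p : ℝ × ℝ} (hu : DifferentiableAt ℝ u p)
    (hv : DifferentiableAt ℝ v p) {s t : ℝ} (hs : 0 < s) (ht : 0 < t) :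
    g2 (fun q => u q + v q) p ≤ (1 + t / s) * g2 u p + (1 + s / t) * g2 v p := by
  simp only [g2, gx_add hu hv, gy_add hu hv]
  have key : ∀ a b : ℝ, (a + b) ^ 2 ≤ (1 + t / s) * a ^ 2 + (1 + s / t) * b ^ 2 := by
    intro a b
    have e : (1 + t / s) * a ^ 2 + (1 + s / t) * b ^ 2 - (a + b) ^ 2 = (t * a - s * b) ^ 2 / (s * t) := by
      field_simp
      ring
    have : 0 ≤ (t * a - s * b) ^ 2 / (s * t) := by positivity
    linarith
  have h1 := key (gx u p) (gx v p)
  have h2 := key (gy u p) (gy v p)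
  calc _ ≤ _ := add_le_add h1 h2
    _ = _ := by ring

/-- Minkowski -/
theorem Ds.trans {s t : ℝ} (h1 : Ds E f f' s) (h2 : Ds E f' f'' t) : Ds E f f'' (s + t) := by
  obtain ⟨c1, c2, hs, i1, e1⟩ := h1
  obtain ⟨_, c3, ht, i2, e2⟩ := h2
  have hd : ∀ᵐ p : ℝ × ℝ, DifferentiableAt ℝ (fun q => f' q - f q) p ∧
      DifferentiableAt ℝ (fun q => f'' q - f' q) p := by
    filter_upwards [c1.ae_diff, c2.ae_diff, c3.ae_diff] with p a b c
    exact ⟨b.sub a, c.sub b⟩
  have hsum : (fun q => f'' q - f q) = fun q => (f' q - f q) + (f'' q - f' q) := by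
    funext q; ring
  have hbd : ∀ s' t' : ℝ, 0 < s' → 0 < t' → ∀ᵐ p : ℝ × ℝ, g2 (fun q => f'' q - f q) p ≤
      (1 + t' / s') * g2 (fun q => f' q - f q) p + (1 + s' / t') * g2 (fun q => f'' q - f' q) p := by
    intro s' t' hs' ht'
    rw [hsum]
    filter_upwards [hd] with p hp
    exact g2_add_weighted hp.1 hp.2 hs' ht'
  have hI : Integrable (g2 (fun q => f'' q - f q)) := by
    refine ((i1.const_mul (1 + 1 / 1)).add (i2.const_mul (1 + 1 / 1))).mono'
      (measurable_g2 _).aestronglyMeasurable ?_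
    filter_upwards [hbd 1 1 one_pos one_pos] with p hp
    rw [Real.norm_of_nonneg (g2_nonneg _ p)]
    exact hp
  have hle : ∀ η : ℝ, 0 < η → ∫ p, g2 (fun q => f'' q - f q) p ≤ (s + t + 2 * η) ^ 2 := by
    intro η hη
    have hs' : 0 < s + η := by linarith
    have ht' : 0 < t + η := by linarith
    have h3 := integral_mono_ae hI ((i1.const_mul (1 + (t + η) / (s + η))).add
      (i2.const_mul (1 + (s + η) / (t + η)))) (hbd _ _ hs' ht')
    simp only [Pi.add_apply] at h3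
    rw [integral_add (i1.const_mul _) (i2.const_mul _), integral_const_mul, integral_const_mul] at h3
    refine h3.trans ?_
    have k1 : ∫ p, g2 (fun q => f' q - f q) p ≤ (s + η) ^ 2 := e1.trans (by nlinarith)
    have k2 : ∫ p, g2 (fun q => f'' q - f' q) p ≤ (t + η) ^ 2 := e2.trans (by nlinarith)
    calc _ ≤ (1 + (t + η) / (s + η)) * (s + η) ^ 2 + (1 + (s + η) / (t + η)) * (t + η) ^ 2 := by
          gcongr
      _ = (s + t + 2 * η) ^ 2 := by
          field_simp
          ring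
  refine ⟨c1, c3, add_nonneg hs ht, hI, ?_⟩
  have hI0 : 0 ≤ ∫ p, g2 (fun q => f'' q - f q) p := integral_nonneg fun p => g2_nonneg _ p
  have h4 : √(∫ p, g2 (fun q => f'' q - f q) p) ≤ s + t := by
    refine le_of_forall_pos_le_add fun η hη => ?_
    have h5 := hle (η / 2) (by positivity)
    have h6 : s + t + 2 * (η / 2) = s + t + η := by ring
    rw [h6] at h5
    exact Real.sqrt_le_left (by linarith) |>.2 h5
  calc _ = √(∫ p, g2 (fun q => f'' q - f q) p) ^ 2 := (Real.sq_sqrt hI0).symm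
    _ ≤ (s + t) ^ 2 := by gcongr

/-! ### level lines are null -/

theorem volume_snd_eq (B : ℝ) : volume {p : ℝ × ℝ | p.2 = B} = 0 := by
  have : {p : ℝ × ℝ | p.2 = B} = univ ×ˢ {B} := by
    ext p; simp
  rw [this, Measure.volume_eq_prod, Measure.prod_prod]
  simp

theorem volume_neg_snd_eq (B : ℝ) : volume {p : ℝ × ℝ | -p.2 = B} = 0 := by
  have : {p : ℝ × ℝ | -p.2 = B} = {p : ℝ × ℝ | p.2 = -B} := by
    ext p
    simp only [mem_ofPred_eq]
    constructor <;> intro h <;> linarith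
  rw [this]
  exact volume_snd_eq _

theorem lip_snd (x y : ℝ × ℝ) : |x.2 - y.2| ≤ dist x y := by
  rw [Prod.dist_eq, Real.dist_eq, Real.dist_eq]
  exact le_max_right _ _

theorem lip_neg_snd (x y : ℝ × ℝ) : |(-x.2) - (-y.2)| ≤ dist x y := by
  have : (-x.2) - (-y.2) = -(x.2 - y.2) := by ring
  rw [this, abs_neg]
  exact lip_snd x y

/-! ### a half as a cut-off on the plane -/

/-- data of a one-sided cut-off on the plane, for the height `h` and the level `B` -/
structure One (E : Set (ℝ × ℝ)) (h : ℝ × ℝ → ℝ) (B : ℝ) (N : Set (ℝ × ℝ)) (ε : ℝ)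
    (z : ℝ × ℝ → ℝ) : Prop where
  cf : CFJ (hairs E) {x | h x < B} z
  z01 : ∀ x, 0 ≤ z x ∧ z x ≤ 1
  supp : ∃ C, IsCompact C ∧ C ⊆ N ∧ ∀ x ∉ C, z x = 0
  en : En {x | h x < B} z ≤ ε

theorem En_congr {W : Set (ℝ × ℝ)} (hW : IsOpen W) {u v : ℝ × ℝ → ℝ} (h : EqOn u v W) :
    En W u = En W v := by
  refine setIntegral_congr_fun hW.measurableSet fun p hp => ?_
  have : u =ᶠ[𝓝 p] v := by
    filter_upwards [hW.mem_nhds hp] with q hq using h hq
  simp only [g2, gx_congr this, gy_congr this]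

theorem one_of_half {W N : Set (ℝ × ℝ)} {h : ℝ × ℝ → ℝ} {B ε : ℝ} {z : ℝ × ℝ → ℝ}
    (hz : Half E W N ε z) (hW : W = {x | h x < B}) (hWo : IsOpen W) :
    One E h B N ε (W.indicator z) where
  cf := by
    rw [← hW]
    exact cfj_congr hz.cf fun p hp => (indicator_of_mem hp z).symm
  z01 := fun x => by
    by_cases hx : x ∈ W
    · rw [indicator_of_mem hx]; exact hz.rg x
    · rw [indicator_of_notMem hx]; exact ⟨le_rfl, zero_le_one⟩
  supp := by
    obtain ⟨S, hS, hSN, h0⟩ := hz.sp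
    refine ⟨S, hS, hSN, fun x hx => ?_⟩
    by_cases hxW : x ∈ W
    · rw [indicator_of_mem hxW]; exact h0 x hxW hx
    · rw [indicator_of_notMem hxW]
  en := by
    rw [← hW, En_congr hWo (v := z) fun p hp => indicator_of_mem hp z]
    exact hz.en

/-- one operation: class, support, energy -/
theorem One.op_spec {h : ℝ × ℝ → ℝ} {B τ R ε : ℝ} {N W : Set (ℝ × ℝ)} {z c χ : ℝ × ℝ → ℝ}
    (hz : One E h B N ε z) (hh : ∀ x y, |h x - h y| ≤ dist x y) (hτ : 0 < τ)
    (hNW : N ⊆ W) (hχ : Cl E χ)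
    (hc : ∀ x ∈ W, ∀ᶠ y in 𝓝 x, c y = c x) (hcR : ∀ x, |c x| ≤ R) (hχR : ∀ x, |χ x| ≤ R) :
    Cl E (op h B τ z c χ) := by
  obtain ⟨C, hC, hCN, h0⟩ := hz.supp
  refine ⟨op_cfj hh hτ hχ.1 hz.cf hz.z01 hC.isClosed h0 (fun x hx => hc x (hNW (hCN hx))) hcR hχR,
    ?_, R, op_abs_le hz.z01 hcR hχR⟩
  refine HasCompactSupport.intro (hC.union hχ.2.1) fun x hx => ?_
  rw [mem_union, not_or] at hx
  rw [op_eq_of_z (h0 x hx.1)]
  exact image_eq_zero_of_notMem_tsupport hx.2

theorem One.op_energy {h : ℝ × ℝ → ℝ} {B τ R ε : ℝ} {N W : Set (ℝ × ℝ)} {z c χ : ℝ × ℝ → ℝ}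
    (hz : One E h B N ε z) (hh : ∀ x y, |h x - h y| ≤ dist x y) (hτ : 0 < τ)
    (hnull : volume {p | h p = B} = 0) (hNW : N ⊆ W) (hNv : volume N ≠ ∞)
    {J : Finset Hair} {L : ℝ} (hL : 0 ≤ L) (h1 : SL (univ \ cut J) L χ)
    (hc : ∀ x ∈ W, ∀ᶠ y in 𝓝 x, c y = c x) (hcR : ∀ x, |c x| ≤ R) (hχR : ∀ x, |χ x| ≤ R) :
    Integrable (g2 (fun q => op h B τ z c χ q - χ q)) ∧
    ∫ p, g2 (fun q => op h B τ z c χ q - χ q) p ≤
      (4 * L ^ 2 + 32 * R ^ 2 / τ ^ 2) * (volume N).toReal + 16 * R ^ 2 * ε := by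
  classical
  obtain ⟨C, hC, hCN, h0⟩ := hz.supp
  obtain ⟨J', hJ', M, _, hM, h2, _⟩ := hz.cf
  have h3 := op_En (J := J ∪ J') (L := L) (M := M) (R := R) (c := c) (χ := χ) hh hτ hnull hL
    (h1.mono (sdiff_subset_sdiff_right (cut_mono Finset.subset_union_left))) hM
    (h2.mono (sdiff_subset_sdiff_right (cut_mono Finset.subset_union_right))) hz.z01 hC h0
    (fun x hx => hc x (hNW (hCN hx))) hcR hχR
  refine ⟨h3.1, h3.2.trans ?_⟩
  have h4 : (volume C).toReal ≤ (volume N).toReal := ENNReal.toReal_mono hNv (measure_mono hCN)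
  have h5 := hz.en
  gcongr

end Crest.Agent.R105.Lop3_744
end
end

-- ▼ part R105/Lop4_744

/-!
# Row 105: `Stp_722.LayerOp` and `Stp_722.Setup` for a slit picture, from `LayOut` for all compact
families.
-/

set_option autoImplicit false

noncomputable section

namespace Crest.Agent.R105.Lop4_744

open Set Filter MeasureTheory Topology Metric
open CF_363 Stp_722 Skp2_257 Lop1_744 Lop2_744 Lop3_744
open scoped ENNReal NNReal

/-- the two operations act on disjoint half planes -/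
theorem op2_sub {h z z' c c' χ : ℝ × ℝ → ℝ} {B B' τ : ℝ} (hBB : B < B') (hτ : 0 < τ) :
    (fun q => op2 h B B' τ z z' c c' χ q - χ q) =
      fun q => (op h B τ z c χ q - χ q) + (op (fun x => - h x) (-B') τ z' c' χ q - χ q) := by
  funext q
  rcases le_or_gt (h q) B' with h1 | h1
  · have e1 : op2 h B B' τ z z' c c' χ q = op h B τ z c χ q := op2_upper hτ h1
    have e2 : op (fun x => - h x) (-B') τ z' c' χ q = χ q := op_eq_of_le hτ (by linarith)
    rw [e1, e2]; ring
  · have e1 : op h B τ z c χ q = χ q := op_eq_of_le hτ (by linarith)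
    have e2 : op2 h B B' τ z z' c c' χ q = op (fun x => - h x) (-B') τ z' c' χ q := by
      change op h B τ z c χ q + th (-B') τ (-h q) * z' q * (c' q - op h B τ z c χ q) =
        χ q + th (-B') τ (-h q) * z' q * (c' q - χ q)
      rw [e1]
    rw [e1, e2]; ring

variable {E : Set (ℝ × ℝ)}

theorem hair_cc {x : ℝ × ℝ} (hx : x ∈ un (hairs E)) :
    ∃ K ∈ hairs E, connectedComponentIn E x = K.car ∧ x ∈ K.car := by
  obtain ⟨K, hK, hxK⟩ := mem_un.1 hx
  exact ⟨K, hK, cc_of_mem hK hxK, hxK⟩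

/-- the family of hairs contained in a saturated set -/
def famG (E G : Set (ℝ × ℝ)) : Set Hair := {K | K ∈ hairs E ∧ K.car ⊆ G}

theorem un_famG {G : Set (ℝ × ℝ)} (hGH : G ⊆ un (hairs E))
    (hGs : ∀ x ∈ G, ∀ y ∈ connectedComponentIn E x, y ∈ G) : un (famG E G) = G := by
  ext x
  constructor
  · intro hx
    obtain ⟨K, hK, hxK⟩ := mem_un.1 hx
    exact hK.2 hxK
  · intro hx
    obtain ⟨K, hK, hcc, hxK⟩ := hair_cc (hGH hx)
    exact mem_un.2 ⟨K, ⟨hK, fun y hy => hGs x hx y (hcc ▸ hy)⟩, hxK⟩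

theorem fam_famG {G : Set (ℝ × ℝ)} {B B' : ℝ} (hBB : B < B') (hG : IsCompact G)
    (hGH : G ⊆ un (hairs E)) (hGs : ∀ x ∈ G, ∀ y ∈ connectedComponentIn E x, y ∈ G)
    (hcross : ∀ x ∈ G, (∃ y ∈ connectedComponentIn E x, y.2 ≤ B) ∧
      ∃ y ∈ connectedComponentIn E x, B' ≤ y.2) : Fam E (famG E G) B B' where
  lt := hBB
  sub := fun K hK => hK.1
  cpt := by rw [un_famG hGH hGs]; exact hG
  crs := by
    intro K hK
    have hb := hK.2 (bot_mem_car K)
    obtain ⟨⟨y, hy, hyB⟩, ⟨w, hw, hwB⟩⟩ := hcross _ hb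
    rw [cc_of_mem hK.1 (bot_mem_car K)] at hy hw
    exact ⟨hy.2.1.trans hyB, hwB.trans hw.2.2⟩

/-- **LayerOp** for a slit picture. -/
theorem layerOp (hE : Pic E) (hL : ∀ g Bm Bp, Fam E g Bm Bp → LayOut E g Bm Bp) :
    LayerOp Eᶜ E Prod.snd (un (hairs E)) (Cl E) (Ds E) := by
  classical
  intro B B' G W χ c c' R τ m ε hBB hG hGH hGs hW hGW hcross hχ hχR hcR hc'R hc hc' hτ hm hε
  have hun := un_famG hGH hGs
  have hFam : Fam E (famG E G) B B' := fam_famG hBB hG hGH hGs hcross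
  obtain ⟨J, hJ, L, _, hL0, h1, _⟩ := hχ.1
  have hR0 : 0 ≤ R := (abs_nonneg _).trans (hχR (0, 0))
  set K0 : ℝ := 4 * L ^ 2 + 32 * R ^ 2 / τ ^ 2 with hK0
  have hK00 : 0 ≤ K0 := by positivity
  set η : ℝ := ε ^ 2 / (8 * (K0 + 1)) with hη
  set ε' : ℝ := ε ^ 2 / (8 * (16 * R ^ 2 + 1)) with hε'
  have hη0 : 0 < η := by positivity
  have hε'0 : 0 < ε' := by positivity
  have hKη : K0 * η ≤ ε ^ 2 / 8 := by
    rw [hη, ← mul_div_assoc, div_le_div_iff₀ (by positivity) (by norm_num)]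
    nlinarith [sq_nonneg ε]
  have hRε : 16 * R ^ 2 * ε' ≤ ε ^ 2 / 8 := by
    rw [hε', ← mul_div_assoc, div_le_div_iff₀ (by positivity) (by norm_num)]
    nlinarith [sq_nonneg ε]
  have hGE : G ⊆ E := hGH.trans (un_sub subset_rfl)
  have hG0 : volume G = 0 := measure_mono_null hGE hE.null
  obtain ⟨O₁, hGO, hO₁, hvO⟩ := G.exists_isOpen_lt_of_lt (μ := volume) (ENNReal.ofReal η)
    (by rw [hG0]; exact ENNReal.ofReal_pos.2 hη0)
  have hNo : IsOpen (W ∩ O₁) := hW.inter hO₁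
  have hGN : un (famG E G) ⊆ W ∩ O₁ := by rw [hun]; exact subset_inter hGW hGO
  have hNv : volume (W ∩ O₁) < ENNReal.ofReal η := (measure_mono inter_subset_right).trans_lt hvO
  have hNv' : (volume (W ∩ O₁)).toReal ≤ η := ENNReal.toReal_le_of_le_ofReal hη0.le hNv.le
  have hNfin : volume (W ∩ O₁) ≠ ∞ := (hNv.trans ENNReal.ofReal_lt_top).ne
  obtain ⟨zm, zp, hzm, hzp, hom, hop, hone⟩ := hL _ B B' hFam (W ∩ O₁) hNo hGN (⌈1 / m⌉₊ + 1)
    (by omega) ε' hε'0
  have hMm : (1 : ℝ) / ((⌈1 / m⌉₊ + 1 : ℕ) : ℝ) ≤ m := by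
    rw [div_le_iff₀ (by positivity)]
    have h2 : 1 / m ≤ ((⌈1 / m⌉₊ + 1 : ℕ) : ℝ) := by
      push_cast
      linarith [Nat.le_ceil (1 / m)]
    rw [div_le_iff₀ hm] at h2
    linarith
  have hUp : Up B' = {x : ℝ × ℝ | - x.2 < -B'} := by
    ext x; simp [Up]
  have hz1 : One E Prod.snd B (W ∩ O₁) ε' ((Lo B).indicator zm) :=
    one_of_half hzm rfl (isOpen_Lo B)
  have hz2 : One E (fun x => - x.2) (-B') (W ∩ O₁) ε' ((Up B').indicator zp) :=
    one_of_half hzp hUp (isOpen_Up B')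
  have hcl1 : Cl E (op Prod.snd B τ ((Lo B).indicator zm) c χ) :=
    hz1.op_spec lip_snd hτ inter_subset_left hχ hc hcR hχR
  have hcl2 : Cl E (op (fun x => - x.2) (-B') τ ((Up B').indicator zp) c' χ) :=
    hz2.op_spec lip_neg_snd hτ inter_subset_left hχ hc' hc'R hχR
  have hcl : Cl E (op2 Prod.snd B B' τ ((Lo B).indicator zm) ((Up B').indicator zp) c c' χ) :=
    hz2.op_spec lip_neg_snd hτ inter_subset_left hcl1 hc' hc'R (op_abs_le hz1.z01 hcR hχR)
  obtain ⟨i1, en1⟩ := hz1.op_energy lip_snd hτ (volume_snd_eq B) inter_subset_left hNfin hL0 h1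
    hc hcR hχR
  obtain ⟨i2, en2⟩ := hz2.op_energy lip_neg_snd hτ (volume_neg_snd_eq (-B')) inter_subset_left
    hNfin hL0 h1 hc' hc'R hχR
  refine ⟨(Lo B).indicator zm, (Up B').indicator zp, ⟨hz1.z01, ?_, ?_⟩, ⟨hz2.z01, ?_, ?_⟩, ?_,
    hcl, hχ, hcl, hε.le, ?_, ?_⟩
  · obtain ⟨C, hC, hCN, h0⟩ := hz1.supp
    exact ⟨C, hC.isClosed, hCN.trans inter_subset_left, h0⟩
  · intro x hx
    refine ((hom _ ⟨x, hx, rfl⟩).mono hMm).congr isOpen_univ (subset_univ _) fun q hq => ?_
    exact indicator_of_mem hq.2.2 zm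
  · obtain ⟨C, hC, hCN, h0⟩ := hz2.supp
    exact ⟨C, hC.isClosed, hCN.trans inter_subset_left, h0⟩
  · intro x hx
    have h3 : OscLe (Eᶜ ∩ Up B') (connectedComponentIn E x ∩ {p | B' ≤ p.2})
        ((Up B').indicator zp) m :=
      ((hop _ ⟨x, hx, rfl⟩).mono hMm).congr isOpen_univ (subset_univ _) fun q hq =>
        indicator_of_mem hq.2.2 zp
    have e1 : {y : ℝ × ℝ | (fun x : ℝ × ℝ => - Prod.snd x) y < -B'} = Up B' := hUp.symm
    have e2 : {y : ℝ × ℝ | (fun x : ℝ × ℝ => - Prod.snd x) y ≤ -B'} = {p | B' ≤ p.2} := by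
      ext y; simp
    rw [e1, e2]
    exact h3
  · intro x hx
    have hx' : x ∈ un (famG E G) := by rw [hun]; exact hx
    obtain ⟨K, hK, hxK⟩ := mem_un.1 hx'
    have hcc := cc_of_mem hK.1 hxK
    rcases hone K hK with ⟨O, hO, hKO, hO1⟩ | ⟨O, hO, hKO, hO1⟩
    · left
      refine ⟨O, hO, by rw [hcc]; exact hKO, fun q hq hqB => ?_⟩
      rw [indicator_of_mem (show q ∈ Lo B from hqB)]
      exact hO1 q hq hqB
    · right
      refine ⟨O, hO, ?_, fun q hq hqB => ?_⟩
      · rw [hcc]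
        rintro y ⟨hy, hyB⟩
        refine hKO ⟨hy, ?_⟩
        have h4 : - y.2 ≤ -B' := hyB
        change B' ≤ y.2
        linarith
      · have h4 : - q.2 < -B' := hqB
        have h5 : q ∈ Up B' := by change B' < q.2; linarith
        rw [indicator_of_mem h5]
        exact hO1 q hq h5
  all_goals
    have hd : ∀ᵐ p : ℝ × ℝ,
        g2 (fun q => op2 Prod.snd B B' τ ((Lo B).indicator zm) ((Up B').indicator zp) c c' χ q
          - χ q) p ≤
        2 * g2 (fun q => op Prod.snd B τ ((Lo B).indicator zm) c χ q - χ q) p +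
        2 * g2 (fun q => op (fun x => - x.2) (-B') τ ((Up B').indicator zp) c' χ q - χ q) p := by
      rw [op2_sub hBB hτ]
      filter_upwards [hχ.ae_diff, hcl1.ae_diff, hcl2.ae_diff] with p a b d
      have := g2_add_weighted (b.sub a) (d.sub a) one_pos one_pos
      refine this.trans (le_of_eq ?_)
      have e2 : (1 + 1 / 1 : ℝ) = 2 := by norm_num
      rw [e2]; rfl
    have hI : Integrable (g2 (fun q =>
        op2 Prod.snd B B' τ ((Lo B).indicator zm) ((Up B').indicator zp) c c' χ q - χ q)) := by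
      refine ((i1.const_mul 2).add (i2.const_mul 2)).mono'
        (measurable_g2 _).aestronglyMeasurable ?_
      filter_upwards [hd] with p hp
      rw [Real.norm_of_nonneg (g2_nonneg _ p)]
      exact hp
  · exact hI
  · refine (integral_mono_ae hI ((i1.const_mul 2).add (i2.const_mul 2)) hd).trans ?_
    simp only [Pi.add_apply]
    rw [integral_add (i1.const_mul 2) (i2.const_mul 2), integral_const_mul, integral_const_mul]
    have k1 : K0 * (volume (W ∩ O₁)).toReal ≤ K0 * η := by gcongr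
    nlinarith

theorem closure_compl_eq (hE : Pic E) : closure Eᶜ = univ := by
  rw [closure_compl, Measure.interior_eq_empty_of_null hE.null, compl_empty]

/-- **the standing assumptions of the STEP** hold in a slit picture. -/
theorem setup (hE : Pic E) (hL : ∀ g Bm Bp, Fam E g Bm Bp → LayOut E g Bm Bp) :
    Setup Eᶜ E Prod.snd (un (hairs E)) (Cl E) (Ds E) where
  hE := hE.cpt
  hh := continuous_snd
  lev := fun x _ => Lev.of_preconnected continuous_snd isPreconnected_connectedComponentIn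
    (by rw [closure_compl_eq hE]; exact subset_univ _)
  inj := by
    intro x hx p hp q hq hpq
    obtain ⟨K, hK, hcc, _⟩ := hair_cc hx
    rw [hcc] at hp hq
    exact Prod.ext (hp.1.trans hq.1.symm) hpq
  vis := fun x _ => by rw [closure_compl_eq hE]; exact subset_univ _
  D0 := fun χ hχ => Ds.refl hχ
  Dadd := fun _ _ _ _ _ h1 h2 => h1.trans h2
  layer := layerOp hE hL

end Crest.Agent.R105.Lop4_744
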