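import Crest.Agent.R105.Fnc3_189
import Crest.Agent.R105.Nal0_649
import Crest.Agent.R105.Cq8_463
import Crest.Agent.R105.Lop4_744
import Crest.Agent.R105.Spq0_722

-- ▼ part R105/Fnc4_189
section

/-!
# Row 105 (S0138, PP with solids): LAY-Q in the literal of `Nal0_649`
-/

set_option autoImplicit false

namespace Crest.Agent.R105.Fnc_189

open Set Filter MeasureTheory Topology
open Crest.Agent.R105.CF_363 Crest.Agent.R105.Stp_722 Crest.Agent.R105.Cq_463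
open Crest.Agent.R105.Skp2_257 (Comps Lo Up)
open Crest.Agent.R105.Nal_649 (FamQ NullNQ OneNear)

variable {E : Set (ℝ × ℝ)} {𝒬 : Set Sqr} {𝓗 : Set Hair} {g : Set (Set (ℝ × ℝ))} {Bm Bp : ℝ}

theorem isOpen_Lo (B : ℝ) : IsOpen (Lo B) := isOpen_lt continuous_snd continuous_const

theorem isOpen_Up (B : ℝ) : IsOpen (Up B) := isOpen_lt continuous_const continuous_snd

theorem convex_Lo (B : ℝ) : Convex ℝ (Lo B) := by
  have h : Lo B = (Prod.snd : ℝ × ℝ → ℝ) ⁻¹' Iio B := rfl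
  rw [h]
  exact (convex_Iio B).is_linear_preimage ⟨fun _ _ => rfl, fun _ _ => rfl⟩

theorem convex_Up (B : ℝ) : Convex ℝ (Up B) := by
  have h : Up B = (Prod.snd : ℝ × ℝ → ℝ) ⁻¹' Ioi B := rfl
  rw [h]
  exact (convex_Ioi B).is_linear_preimage ⟨fun _ _ => rfl, fun _ _ => rfl⟩

/-- the output of the layer lemma with squares (Skp2's `LayOut` with `HalfQ`) -/
def LayOutQ (E : Set (ℝ × ℝ)) (𝒬 : Set Sqr) (𝓗 : Set Hair) (g : Set (Set (ℝ × ℝ)))
    (Bm Bp : ℝ) : Prop :=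
  ∀ N, IsOpen N → ⋃₀ g ⊆ N → ∀ M : ℕ, 1 ≤ M → ∀ ε > 0, ∃ zm zp,
    Nal_649.HalfQ E 𝒬 𝓗 (Lo Bm) N ε zm ∧ Nal_649.HalfQ E 𝒬 𝓗 (Up Bp) N ε zp ∧
    (∀ P ∈ Comps E, OscLe (Eᶜ ∩ Lo Bm) (P ∩ {p | p.2 ≤ Bm}) zm (1 / M)) ∧
    (∀ P ∈ Comps E, OscLe (Eᶜ ∩ Up Bp) (P ∩ {p | Bp ≤ p.2}) zp (1 / M)) ∧
    ∀ P ∈ g, OneNear E (Lo Bm) (P ∩ {p | p.2 ≤ Bm}) zm ∨
      OneNear E (Up Bp) (P ∩ {p | Bp ≤ p.2}) zp

/-- bounded conductance -/
def BddNQ (E : Set (ℝ × ℝ)) (𝒬 : Set Sqr) (𝓗 : Set Hair) (g : Set (Set (ℝ × ℝ)))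
    (Bm Bp : ℝ) : Prop :=
  ∃ A : ℝ, ∀ N, IsOpen N → ⋃₀ g ⊆ N → ∃ zm zp, Nal_649.PairQ E 𝒬 𝓗 g Bm Bp N A zm zp

theorem toPair {N : Set (ℝ × ℝ)} {A : ℝ} {zm zp : ℝ × ℝ → ℝ}
    (h : Nal_649.PairQ E 𝒬 𝓗 g Bm Bp N A zm zp) :
    PairQ E (Lo Bm) (Up Bp) 𝒬 𝓗 g N A zm zp :=
  ⟨⟨h.m.cf, h.m.rg, h.m.sp, h.m.en⟩, ⟨h.p.cf, h.p.rg, h.p.sp, h.p.en⟩, h.key⟩

/-- **LAY-Q from bounded conductance**: energy `18 A / M`, hence any `ε` (choose `M` larger). -/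
theorem layOutQ_of_bdd (hE : QPic E 𝒬 𝓗) (hsub : g ⊆ Comps E) (hcpt : IsCompact (⋃₀ g))
    (hb : BddNQ E 𝒬 𝓗 g Bm Bp) : LayOutQ E 𝒬 𝓗 g Bm Bp := by
  obtain ⟨A₀, hA₀⟩ := hb
  intro N hN hgN M hM ε hε
  set A : ℝ := max A₀ 0 with hAdef
  have hA : 0 ≤ A := le_max_right _ _
  obtain ⟨M', hM'⟩ := exists_nat_ge (18 * A / ε)
  have hM1 : 1 ≤ M + M' := le_add_right hM
  have hMM : (0 : ℝ) < ((M + M' : ℕ) : ℝ) := by exact_mod_cast hM1
  have hMpos : (0 : ℝ) < (M : ℝ) := by exact_mod_cast hM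
  have hen : 18 * A / ((M + M' : ℕ) : ℝ) ≤ ε := by
    rw [div_le_iff₀ hMM]
    rw [div_le_iff₀ hε] at hM'
    push_cast
    nlinarith
  have hosc : 1 / ((M + M' : ℕ) : ℝ) ≤ 1 / (M : ℝ) :=
    one_div_le_one_div_of_le hMpos (by push_cast; linarith [Nat.cast_nonneg (α := ℝ) M'])
  obtain ⟨zm, zp, h1, h2, h3, h4, h5⟩ := layQ hE (isOpen_Lo Bm) (convex_Lo Bm) (isOpen_Up Bp)
    (convex_Up Bp) (𝒢 := g) hsub hcpt hA (fun N hN h => by
      obtain ⟨zm, zp, hp⟩ := hA₀ N hN h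
      have hp' := toPair hp
      exact ⟨zm, zp, ⟨hp'.m.cf, hp'.m.rg, hp'.m.sp, hp'.m.en.trans (le_max_left _ _)⟩,
        ⟨hp'.p.cf, hp'.p.rg, hp'.p.sp, hp'.p.en.trans (le_max_left _ _)⟩, hp'.key⟩)
    hM1 hN hgN
  refine ⟨zm, zp, ⟨h1.cf, h1.rg, h1.sp, h1.en.trans hen⟩, ⟨h2.cf, h2.rg, h2.sp,
    h2.en.trans hen⟩, fun P hP => ?_, fun P hP => ?_, fun P hP => ?_⟩
  · exact ((h3 P hP).mono_set inter_subset_left).mono hosc
  · exact ((h4 P hP).mono_set inter_subset_left).mono hosc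
  · rcases h5 P hP with ⟨O, hO, hPO, H⟩ | ⟨O, hO, hPO, H⟩
    · exact Or.inl ⟨O, hO, inter_subset_left.trans hPO, H⟩
    · exact Or.inr ⟨O, hO, inter_subset_left.trans hPO, H⟩

/-- **LAY-Q**: Skp2's `LAY` with squares. -/
theorem layQ_nal (hE : QPic E 𝒬 𝓗) (hg : FamQ E g Bm Bp) (hn : NullNQ E 𝒬 𝓗 g Bm Bp) :
    LayOutQ E 𝒬 𝓗 g Bm Bp :=
  layOutQ_of_bdd hE hg.sub hg.cpt ⟨1, fun N hN h => hn N hN h 1 one_pos⟩

end Crest.Agent.R105.Fnc_189
end

-- ▼ part R105/Laq2_744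
section

/-!
# Row 105 (S0138, picture with solids): charge of one operation of the STEP at a square
-/

set_option autoImplicit false

noncomputable section

namespace Crest.Agent.R105.Laq2_744

open Set Filter MeasureTheory Topology Metric
open CF_363 Stp_722 Cq_463 Lop2_744
open scoped ENNReal NNReal

/-- a function which is locally constant on `N` is constant near a connected subset of `N` -/
theorem const_near {c : ℝ × ℝ → ℝ} {P N : Set (ℝ × ℝ)} (hc : ∀ x ∈ N, ∀ᶠ y in 𝓝 x, c y = c x)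
    (hP : IsPreconnected P) (hPN : P ⊆ N) {x : ℝ × ℝ} (hx : x ∈ P) :
    ∃ O, IsOpen O ∧ P ⊆ O ∧ ∀ y ∈ O, c y = c x := by
  have hsub : ∀ y ∈ interior {y | c y = c x}, c y = c x := fun y hy =>
    (interior_subset (s := {y | c y = c x}) hy : y ∈ {y | c y = c x})
  refine ⟨interior {y | c y = c x}, isOpen_interior, ?_, hsub⟩
  refine hP.subset_left_of_subset_union (v := interior {y | c y ≠ c x}) isOpen_interior
    isOpen_interior ?_ ?_ ⟨x, hx, mem_interior_iff_mem_nhds.2 (hc x (hPN hx))⟩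
  · rw [Set.disjoint_left]
    intro y h1 h2
    exact (interior_subset (s := {y | c y ≠ c x}) h2 : y ∈ {y | c y ≠ c x}) (hsub y h1)
  · intro y hy
    by_cases h : c y = c x
    · refine Or.inl (mem_interior_iff_mem_nhds.2 ?_)
      filter_upwards [hc y (hPN hy)] with w hw
      exact hw.trans h
    · refine Or.inr (mem_interior_iff_mem_nhds.2 ?_)
      filter_upwards [hc y (hPN hy)] with w hw
      rw [hw]; exact h

section charge

variable {E C : Set (ℝ × ℝ)} {h z c χ : ℝ × ℝ → ℝ} {B τ R : ℝ} {Q : Sqr}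

theorem dl_eq (q : ℝ × ℝ) : op h B τ z c χ q - χ q = th B τ (h q) * z q * (c q - χ q) := by
  unfold op; ring

theorem dl_abs_le (hz01 : ∀ x, 0 ≤ z x ∧ z x ≤ 1) (hcR : ∀ x, |c x| ≤ R) (hχR : ∀ x, |χ x| ≤ R)
    (q : ℝ × ℝ) : |op h B τ z c χ q - χ q| ≤ 2 * R * (th B τ (h q) * z q) := by
  rw [dl_eq, abs_mul, abs_of_nonneg (mul_nonneg (th_nonneg _ _ _) (hz01 q).1), mul_comm]
  exact mul_le_mul_of_nonneg_right (abs_sub_le_two (hcR q) (hχR q))
    (mul_nonneg (th_nonneg _ _ _) (hz01 q).1)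

/-- squares off the support have no charge -/
theorem ch_far (hC : IsClosed C) (hz0 : ∀ x ∉ C, z x = 0) (hQ : Disjoint Q.car C) :
    ch E univ (fun q => op h B τ z c χ q - χ q) Q = 0 := by
  refine chg_eq_zero (O := Cᶜ) (a := 0) hC.isOpen_compl ?_ fun q hq => ?_
  · intro p hp hpC
    exact Set.disjoint_left.1 hQ hp.1 hpC
  · rw [dl_eq, hz0 q hq.1]; ring

/-- a square near which the cut-off is at most `κ` -/
theorem ch_small (hτ : 0 < τ) (hz01 : ∀ x, 0 ≤ z x ∧ z x ≤ 1)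
    (hcR : ∀ x, |c x| ≤ R) (hχR : ∀ x, |χ x| ≤ R) {κ : ℝ} (hκ : 0 ≤ κ)
    (hz : (Q.car ∩ closure {x | h x < B}).Nonempty →
      ∃ O, IsOpen O ∧ Q.car ∩ closure {x | h x < B} ⊆ O ∧
        ∀ q ∈ O ∩ (Eᶜ ∩ {x | h x < B}), |z q| ≤ κ) :
    ch E univ (fun q => op h B τ z c χ q - χ q) Q ≤ 4 * R * κ := by
  have hR0 : 0 ≤ R := (abs_nonneg _).trans (hχR (0, 0))
  have key : ∃ O, IsOpen O ∧ Q.car ⊆ O ∧ ∀ q ∈ O ∩ (Eᶜ ∩ univ),
      |op h B τ z c χ q - χ q| ≤ 2 * R * κ := by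
    by_cases hne : (Q.car ∩ closure {x | h x < B}).Nonempty
    · obtain ⟨O, hO, hQO, H⟩ := hz hne
      refine ⟨O ∪ (closure {x | h x < B})ᶜ, hO.union isClosed_closure.isOpen_compl, ?_, ?_⟩
      · intro p hp
        by_cases hpc : p ∈ closure {x | h x < B}
        · exact Or.inl (hQO ⟨hp, hpc⟩)
        · exact Or.inr hpc
      · rintro q ⟨hq, hqE, -⟩
        refine (dl_abs_le hz01 hcR hχR q).trans ?_
        rcases lt_or_ge (h q) B with hB | hB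
        · have hqO : q ∈ O := hq.resolve_right fun h1 => h1 (subset_closure hB)
          have h1 := H q ⟨hqO, hqE, hB⟩
          rw [abs_of_nonneg (hz01 q).1] at h1
          have h2 : th B τ (h q) * z q ≤ κ := by
            calc _ ≤ 1 * z q := mul_le_mul_of_nonneg_right (th_le_one _ _ _) (hz01 q).1
              _ ≤ κ := by rw [one_mul]; exact h1
          gcongr
        · rw [th_eq_zero hτ hB, zero_mul, mul_zero]; positivity
    · rw [not_nonempty_iff_eq_empty] at hne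
      refine ⟨(closure {x | h x < B})ᶜ, isClosed_closure.isOpen_compl, ?_, ?_⟩
      · intro p hp hpc
        have : p ∈ Q.car ∩ closure {x | h x < B} := ⟨hp, hpc⟩
        rw [hne] at this
        exact this
      · rintro q ⟨hq, -⟩
        have hB : B ≤ h q := not_lt.1 fun h1 => hq (subset_closure h1)
        refine (dl_abs_le hz01 hcR hχR q).trans ?_
        rw [th_eq_zero hτ hB, zero_mul, mul_zero]; positivity
  obtain ⟨O, hO, hQO, H⟩ := key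
  refine (chg_le (by positivity) (oscLe_of_bdd hO (inter_subset_left.trans hQO) H)).trans
    (le_of_eq ?_)
  ring

/-- the values of a 1-Lipschitz function near a square -/
theorem near_sq (hh : ∀ x y, |h x - h y| ≤ dist x y) {p q : ℝ × ℝ} (hp : p ∈ Q.car) {δ : ℝ}
    (hq : q ∈ thickening δ Q.car) : |h q - h p| ≤ Q.s + δ := by
  obtain ⟨w, hw, hqw⟩ := mem_thickening_iff.1 hq
  have h1 := hh q p
  have h2 := dist_triangle q w p
  have h3 : dist w p ≤ Q.s :=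
    (dist_le_diam_of_mem Q.isCompact_car.isBounded hw hp).trans Q.diam_le
  linarith

/-- a square which meets `B ≤ h` -/
theorem ch_cross (hh : ∀ x y, |h x - h y| ≤ dist x y) (hτ : 0 < τ)
    (hz01 : ∀ x, 0 ≤ z x ∧ z x ≤ 1) (hcR : ∀ x, |c x| ≤ R) (hχR : ∀ x, |χ x| ≤ R)
    {p : ℝ × ℝ} (hp : p ∈ Q.car) (hpB : B ≤ h p) :
    ch E univ (fun q => op h B τ z c χ q - χ q) Q ≤ 4 * R * (Q.s / τ) := by
  have hR0 : 0 ≤ R := (abs_nonneg _).trans (hχR (0, 0))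
  have hs := Q.hs
  refine chg_le (by positivity) ?_
  intro ε hε
  set δ : ℝ := ε * τ / (4 * (R + 1)) with hδ
  have hδ0 : 0 < δ := by positivity
  have hδ1 : 4 * R * (δ / τ) ≤ ε := by
    rw [hδ, show 4 * R * (ε * τ / (4 * (R + 1)) / τ) = R * ε / (R + 1) by field_simp,
      div_le_iff₀ (by positivity)]
    nlinarith
  refine ⟨thickening δ Q.car, isOpen_thickening, inter_subset_left.trans
    (self_subset_thickening hδ0 _), ?_⟩
  have hb : ∀ q ∈ thickening δ Q.car, |op h B τ z c χ q - χ q| ≤ 2 * R * ((Q.s + δ) / τ) := by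
    intro q hq
    refine (dl_abs_le hz01 hcR hχR q).trans ?_
    have h1 : th B τ (h q) ≤ (Q.s + δ) / τ := by
      rcases le_or_gt B (h q) with hB | hB
      · rw [th_eq_zero hτ hB]; positivity
      · refine (th_le hτ).trans ?_
        gcongr
        have h2 := (abs_le.1 (near_sq hh hp hq)).1
        rw [abs_of_pos (by linarith)]
        linarith
    have h2 : th B τ (h q) * z q ≤ (Q.s + δ) / τ :=
      (mul_le_of_le_one_right (th_nonneg _ _ _) (hz01 q).2).trans h1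
    gcongr
  intro q hq q' hq'
  have h1 := abs_le.1 (hb q hq.1)
  have h2 := abs_le.1 (hb q' hq'.1)
  have h3 : 2 * R * ((Q.s + δ) / τ) = 2 * R * (Q.s / τ) + 2 * R * (δ / τ) := by ring
  rw [abs_le]; constructor <;> linarith

/-- a square below the level, `c` constant near it -/
theorem ch_below (hh : ∀ x y, |h x - h y| ≤ dist x y) (hτ : 0 < τ)
    (hz01 : ∀ x, 0 ≤ z x ∧ z x ≤ 1) (hcR : ∀ x, |c x| ≤ R) (hχR : ∀ x, |χ x| ≤ R)
    (hQ : Q.car ⊆ {x | h x < B}) {k : ℝ} {O : Set (ℝ × ℝ)} (hO : IsOpen O) (hQO : Q.car ⊆ O)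
    (hk : ∀ y ∈ O, c y = k)
    (hfz : Fin (Eᶜ ∩ {x | h x < B}) (Q.car ∩ closure {x | h x < B}) z)
    (hfχ : Fin (Eᶜ ∩ univ) (Q.car ∩ closure univ) χ) :
    ch E univ (fun q => op h B τ z c χ q - χ q) Q ≤
      2 * R * ch E {x | h x < B} z Q + ch E univ χ Q + 2 * R * (Q.s / τ) := by
  have hR0 : 0 ≤ R := (abs_nonneg _).trans (hχR (0, 0))
  have hs := Q.hs
  have n1 := ch_nonneg E {x | h x < B} z Q
  have n2 := ch_nonneg E univ χ Q
  have hcont := continuous_of_lip hh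
  refine chg_le (by positivity) ?_
  intro ε hε
  set e1 : ℝ := ε / (6 * (R + 1)) with he1
  have he10 : 0 < e1 := by positivity
  have he11 : 2 * R * e1 ≤ ε / 3 := by
    rw [he1, show 2 * R * (ε / (6 * (R + 1))) = R * ε / (3 * (R + 1)) by field_simp; ring,
      div_le_div_iff₀ (by positivity) (by positivity)]
    nlinarith
  obtain ⟨O1, hO1, hPO1, H1⟩ := hfz.oscLe e1 he10
  obtain ⟨O2, hO2, hPO2, H2⟩ := hfχ.oscLe (ε / 3) (by positivity)
  set δ : ℝ := ε * τ / (12 * (R + 1)) with hδ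
  have hδ0 : 0 < δ := by positivity
  have hδ1 : 2 * R * (2 * δ / τ) ≤ ε / 3 := by
    rw [hδ, show 2 * R * (2 * (ε * τ / (12 * (R + 1))) / τ) = R * ε / (3 * (R + 1)) by
      field_simp; ring, div_le_div_iff₀ (by positivity) (by positivity)]
    nlinarith
  have hWo : IsOpen {x : ℝ × ℝ | h x < B} := isOpen_lt hcont continuous_const
  have hQ1 : Q.car ⊆ O1 := fun p hp => hPO1 ⟨hp, subset_closure (hQ hp)⟩
  have hQ2 : Q.car ⊆ O2 := fun p hp => hPO2 ⟨hp, subset_closure (mem_univ _)⟩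
  refine ⟨O1 ∩ O2 ∩ (O ∩ {x | h x < B}) ∩ thickening δ Q.car,
    (((hO1.inter hO2).inter (hO.inter hWo)).inter isOpen_thickening), ?_, ?_⟩
  · intro p hp
    exact ⟨⟨⟨hQ1 hp.1, hQ2 hp.1⟩, hQO hp.1, hQ hp.1⟩, self_subset_thickening hδ0 _ hp.1⟩
  rintro q ⟨⟨⟨⟨hq1, hq2⟩, hqO, hqB⟩, hqt⟩, hqV, -⟩ q' ⟨⟨⟨⟨hq1', hq2'⟩, hqO', hqB'⟩, hqt'⟩, hqV', -⟩
  have k1 : |z q - z q'| ≤ ch E {x | h x < B} z Q + e1 :=
    H1 q ⟨hq1, hqV, hqB⟩ q' ⟨hq1', hqV', hqB'⟩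
  have k2 : |χ q - χ q'| ≤ ch E univ χ Q + ε / 3 :=
    H2 q ⟨hq2, hqV, mem_univ _⟩ q' ⟨hq2', hqV', mem_univ _⟩
  have k3 : |th B τ (h q) - th B τ (h q')| ≤ (Q.s + 2 * δ) / τ := by
    refine (abs_th_sub_le hτ).trans ?_
    gcongr
    obtain ⟨w, hw, hqw⟩ := mem_thickening_iff.1 hqt
    have h1 := near_sq hh hw hqt'
    have h2 := hh q w
    have h3 := abs_sub_le (h q) (h w) (h q')
    rw [abs_sub_comm (h w) (h q')] at h3
    linarith
  change |op h B τ z c χ q - χ q - (op h B τ z c χ q' - χ q')| ≤ _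
  rw [dl_eq, dl_eq, hk q hqO, hk q' hqO']
  have hkR : |k| ≤ R := by rw [← hk q hqO]; exact hcR q
  have u1 : |k - χ q| ≤ 2 * R := abs_sub_le_two hkR (hχR q)
  have u2 : |k - χ q'| ≤ 2 * R := abs_sub_le_two hkR (hχR q')
  have e : th B τ (h q) * z q * (k - χ q) - th B τ (h q') * z q' * (k - χ q') =
      (th B τ (h q) - th B τ (h q')) * z q * (k - χ q) +
      th B τ (h q') * (z q - z q') * (k - χ q) -
      th B τ (h q') * z q' * (χ q - χ q') := by ring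
  rw [e]
  have m1 : |(th B τ (h q) - th B τ (h q')) * z q * (k - χ q)| ≤ 2 * R * ((Q.s + 2 * δ) / τ) := by
    rw [abs_mul, abs_mul, abs_of_nonneg (hz01 q).1]
    calc _ ≤ ((Q.s + 2 * δ) / τ) * 1 * (2 * R) :=
          mul_le_mul (mul_le_mul k3 (hz01 q).2 (hz01 q).1 (by positivity)) u1 (abs_nonneg _)
            (by positivity)
      _ = _ := by ring
  have m2 : |th B τ (h q') * (z q - z q') * (k - χ q)| ≤
      2 * R * (ch E {x | h x < B} z Q + e1) := by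
    rw [abs_mul, abs_mul, abs_of_nonneg (th_nonneg _ _ _)]
    calc _ ≤ 1 * (ch E {x | h x < B} z Q + e1) * (2 * R) := by
          gcongr
          exact th_le_one _ _ _
      _ = _ := by ring
  have m3 : |th B τ (h q') * z q' * (χ q - χ q')| ≤ ch E univ χ Q + ε / 3 := by
    rw [abs_mul, abs_of_nonneg (mul_nonneg (th_nonneg _ _ _) (hz01 q').1)]
    calc _ ≤ 1 * (ch E univ χ Q + ε / 3) := by
          gcongr
          exact mul_le_one₀ (th_le_one _ _ _) (hz01 q').1 (hz01 q').2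
      _ = _ := by ring
  have m4 := abs_sub_le_of_abs_le m1 m2 m3
  refine m4.trans ?_
  have m5 : 2 * R * ((Q.s + 2 * δ) / τ) = 2 * R * (Q.s / τ) + 2 * R * (2 * δ / τ) := by ring
  rw [m5, mul_add (2 * R)]
  linarith
where
  abs_sub_le_of_abs_le {a b c A B' C' : ℝ} (h1 : |a| ≤ A) (h2 : |b| ≤ B') (h3 : |c| ≤ C') :
      |a + b - c| ≤ A + B' + C' := by
    have e1 := abs_le.1 h1
    have e2 := abs_le.1 h2
    have e3 := abs_le.1 h3
    rw [abs_le]; constructor <;> linarith [e1.1, e1.2, e2.1, e2.2, e3.1, e3.2]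

/-- general bound -/
theorem ch_all {𝒬 : Set Sqr} {𝓗 : Set Hair} {N : Set (ℝ × ℝ)} (hE : QPic E 𝒬 𝓗)
    (hh : ∀ x y, |h x - h y| ≤ dist x y) (hτ : 0 < τ)
    (hχ : CFJ 𝓗 univ χ) (hz : CFJ 𝓗 {x | h x < B} z)
    (hz01 : ∀ x, 0 ≤ z x ∧ z x ≤ 1) (hC : IsClosed C) (hCN : C ⊆ N) (hz0 : ∀ x ∉ C, z x = 0)
    (hc : ∀ x ∈ N, ∀ᶠ y in 𝓝 x, c y = c x) (hcR : ∀ x, |c x| ≤ R) (hχR : ∀ x, |χ x| ≤ R)
    (hsat : (Q.car ∩ N).Nonempty → Q.car ⊆ N) :
    ch E univ (fun q => op h B τ z c χ q - χ q) Q ≤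
      2 * R * ch E {x | h x < B} z Q + ch E univ χ Q + 4 * R * (Q.s / τ) := by
  have hR0 : 0 ≤ R := (abs_nonneg _).trans (hχR (0, 0))
  have hs := Q.hs
  have n1 := ch_nonneg E {x | h x < B} z Q
  have n2 := ch_nonneg E univ χ Q
  by_cases hd : Disjoint Q.car C
  · rw [ch_far hC hz0 hd]; positivity
  have hQN : Q.car ⊆ N := by
    obtain ⟨p, hp, hpC⟩ := Set.not_disjoint_iff.1 hd
    exact hsat ⟨p, hp, hCN hpC⟩
  by_cases hb : Q.car ⊆ {x | h x < B}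
  · obtain ⟨p, hp⟩ := Q.nonempty
    obtain ⟨O, hO, hQO, hk⟩ := const_near hc Q.convex_car.isPreconnected hQN hp
    refine (ch_below hh hτ hz01 hcR hχR hb hO hQO hk (CFJ.fin hE hz _)
      (CFJ.fin hE hχ _)).trans ?_
    have : 0 ≤ R * (Q.s / τ) := by positivity
    linarith
  · obtain ⟨p, hp, hpB⟩ := Set.not_subset.1 hb
    refine (ch_cross hh hτ hz01 hcR hχR hp (not_lt.1 hpB)).trans ?_
    have : 0 ≤ 2 * R * ch E {x | h x < B} z Q := by positivity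
    linarith

end charge

end Crest.Agent.R105.Laq2_744
end
end

-- ▼ part R105/Laq3_744
section

/-!
# Row 105 (S0138, picture with solids): energy and charges of one operation of the STEP are small

`exists_cost`: for every function `χ` of the class there is `δ > 0` such that every operation with a
cut-off of energy `≤ δ`, supported in a set `N` with `volume (N \ E) ≤ δ`, costs at most `ε`.
No Lipschitz constant of `χ` is needed for the charges.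
-/

set_option autoImplicit false

noncomputable section

namespace Crest.Agent.R105.Laq3_744

open Set Filter MeasureTheory Topology Metric
open CF_363 Stp_722 Cq_463 Lop2_744 Laq2_744
open scoped ENNReal NNReal

/-- data of a one-sided cut-off on the plane, for the height `h` and the level `B` -/
structure OneQ (E : Set (ℝ × ℝ)) (𝒬 : Set Sqr) (𝓗 : Set Hair) (h : ℝ × ℝ → ℝ) (B : ℝ)
    (N : Set (ℝ × ℝ)) (ε : ℝ) (z : ℝ × ℝ → ℝ) : Prop where
  cf : CFJ 𝓗 {x | h x < B} z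
  z01 : ∀ x, 0 ≤ z x ∧ z x ≤ 1
  supp : ∃ C, IsCompact C ∧ C ⊆ N ∧ ∀ x ∉ C, z x = 0
  en : TQ E {x | h x < B} 𝒬 z ≤ ε

variable {E C N : Set (ℝ × ℝ)} {𝒬 : Set Sqr} {𝓗 : Set Hair} {h z c χ : ℝ × ℝ → ℝ} {B τ R : ℝ}

/-- energy of the change off `E` -/
theorem op_EnV (hh : ∀ x y, |h x - h y| ≤ dist x y) (hτ : 0 < τ)
    (hnull : volume {p | h p = B} = 0)
    {J : Finset Hair} {L M : ℝ} (hL : 0 ≤ L) (h1 : SL (univ \ cut J) L χ) (hM : 0 ≤ M)
    (h2 : SL ({x | h x < B} \ cut J) M z) (hz01 : ∀ x, 0 ≤ z x ∧ z x ≤ 1)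
    (hC : IsCompact C) (hz0 : ∀ x ∉ C, z x = 0) (hc : ∀ x ∈ C, ∀ᶠ y in 𝓝 x, c y = c x)
    (hcR : ∀ x, |c x| ≤ R) (hχR : ∀ x, |χ x| ≤ R) (hE : IsClosed E) :
    En (univ \ E) (fun q => op h B τ z c χ q - χ q) ≤
      (4 * L ^ 2 + 32 * R ^ 2 / τ ^ 2) * (volume (C \ E)).toReal +
        16 * R ^ 2 * En ({x | h x < B} \ E) z := by
  have hcont := continuous_of_lip hh
  have hWo : IsOpen {x : ℝ × ℝ | h x < B} := isOpen_lt hcont continuous_const
  set A : Set (ℝ × ℝ) := C ∩ {x | h x < B} with hA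
  have hAm : MeasurableSet A := hC.measurableSet.inter hWo.measurableSet
  have hfin : volume A ≠ ∞ :=
    ((measure_mono inter_subset_left).trans_lt hC.measure_lt_top).ne
  have hz := integrableOn_z hM hWo h2 hC hz0
  have hz' : IntegrableOn (g2 z) A := hz.mono_set inter_subset_right
  have hconst : IntegrableOn (fun _ : ℝ × ℝ => 4 * L ^ 2 + 32 * R ^ 2 / τ ^ 2) A :=
    integrableOn_const hfin
  have hI : IntegrableOn (fun p => (4 * L ^ 2 + 32 * R ^ 2 / τ ^ 2) + 16 * R ^ 2 * g2 z p) A :=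
    hconst.add (hz'.const_mul _)
  have hI' := hI.integrable_indicator hAm
  have hae := ae_g2_op hh hτ hnull hL h1 h2 hz01 hC.isClosed hz0 hc hcR hχR
  have hint : Integrable (g2 (fun q => op h B τ z c χ q - χ q)) := by
    refine hI'.mono' (measurable_g2 _).aestronglyMeasurable ?_
    filter_upwards [hae] with p hp
    rw [Real.norm_of_nonneg (g2_nonneg _ p)]
    exact hp
  unfold En
  refine (integral_mono_ae hint.integrableOn hI'.integrableOn (ae_restrict_of_ae hae)).trans ?_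
  have hEm : MeasurableSet (univ \ E : Set (ℝ × ℝ)) := MeasurableSet.univ.diff hE.measurableSet
  rw [integral_indicator hAm, Measure.restrict_restrict hAm]
  have hAE : A ∩ (univ \ E) ⊆ A := inter_subset_left
  rw [integral_add (hconst.mono_set hAE) ((hz'.mono_set hAE).const_mul _), integral_const_mul,
    setIntegral_const]
  have hvol : volume.real (A ∩ (univ \ E)) ≤ (volume (C \ E)).toReal := by
    refine ENNReal.toReal_mono ?_ (measure_mono ?_)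
    · exact ((measure_mono sdiff_subset).trans_lt hC.measure_lt_top).ne
    · rintro p ⟨⟨h1, -⟩, -, h2⟩
      exact ⟨h1, h2⟩
  have hen : ∫ p in A ∩ (univ \ E), g2 z p ≤ ∫ p in {x | h x < B} \ E, g2 z p :=
    setIntegral_mono_set (hz.mono_set sdiff_subset) (ae_of_all _ fun p => g2_nonneg z p)
      (Filter.Eventually.of_forall fun p hp => ⟨hp.1.2, hp.2.2⟩)
  rw [smul_eq_mul, mul_comm]
  gcongr

/-- changing finitely many terms of a series -/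
theorem tail_trick {ι : Type*} [DecidableEq ι] {a b : ι → ℝ} (hb : Summable b) (F : Finset ι) :
    Summable (fun i => if i ∈ F then a i else b i) ∧
      ∑' i, (if i ∈ F then a i else b i) = ∑' i, b i + (∑ i ∈ F, a i - ∑ i ∈ F, b i) := by
  have e : (fun i => if i ∈ F then a i else b i) =
      fun i => b i + (if i ∈ F then a i - b i else 0) := by
    funext i; split_ifs <;> ring
  have h0 : ∀ i ∉ F, (if i ∈ F then a i - b i else 0) = 0 := fun i hi => if_neg hi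
  have h1 : Summable fun i => if i ∈ F then a i - b i else 0 := summable_of_ne_finset_zero h0
  refine ⟨e ▸ hb.add h1, ?_⟩
  rw [e, hb.tsum_add h1, tsum_eq_sum h0, ← Finset.sum_sub_distrib]
  congr 1
  exact Finset.sum_congr rfl fun i hi => if_pos hi

theorem sq3 {x y w : ℝ} : (x + y + w) ^ 2 ≤ 3 * x ^ 2 + (3 * y ^ 2 + 3 * w ^ 2) := by
  nlinarith [sq_nonneg (x - y), sq_nonneg (x - w), sq_nonneg (y - w)]

/-- bound of the cut-off near a big square -/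
def kap (a b δ s : ℝ) : ℝ := √(2 * (b - a) * δ / s) + √δ + δ

theorem kap_nonneg {a b δ s : ℝ} (hδ : 0 ≤ δ) : 0 ≤ kap a b δ s := by
  unfold kap; positivity

/-- the total charge of the change -/
theorem Ch_op_le (hE : QPic E 𝒬 𝓗) (hh : ∀ x y, |h x - h y| ≤ dist x y) (hτ : 0 < τ)
    (hsl : Slab {x | h x < B}) (hχ : CFJ 𝓗 univ χ) (hχR : ∀ x, |χ x| ≤ R)
    {a b : ℝ} (hab : ∀ p ∈ E, a < p.2 ∧ p.2 < b) (hba : a ≤ b) {F : Finset 𝒬} {δ : ℝ} (hδ : 0 < δ)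
    (hN : ∀ p ∈ N, a < p.2 ∧ p.2 < b) (hz : OneQ E 𝒬 𝓗 h B N δ z) (hcR : ∀ x, |c x| ≤ R)
    (hc : ∀ x ∈ N, ∀ᶠ y in 𝓝 x, c y = c x)
    (hsat : ∀ Q ∈ 𝒬, (Q.car ∩ N).Nonempty → Q.car ⊆ N)
    (hop : CFJ 𝓗 univ (fun q => op h B τ z c χ q - χ q)) :
    Ch E univ 𝒬 (fun q => op h B τ z c χ q - χ q) ≤ 12 * R ^ 2 * δ +
      (∑' Q : 𝒬, (3 * ch E univ χ Q.1 ^ 2 + 48 * R ^ 2 / τ ^ 2 * Q.1.s ^ 2) -
        ∑ Q ∈ F, (3 * ch E univ χ Q.1 ^ 2 + 48 * R ^ 2 / τ ^ 2 * Q.1.s ^ 2)) +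
      ∑ Q ∈ F, (4 * R * kap a b δ Q.1.s) ^ 2 := by
  classical
  have hR0 : 0 ≤ R := (abs_nonneg _).trans (hχR (0, 0))
  obtain ⟨C, hC, hCN, h0⟩ := hz.supp
  have hCc : Cc 𝓗 {x | h x < B} z := ⟨hz.cf, C, hC, fun p _ hp => h0 p hp⟩
  have hvan : Van {x | h x < B} a b z := ⟨fun p _ hp => h0 p fun hpC => by
    have := hN p (hCN hpC)
    rcases hp with h | h <;> linarith [this.1, this.2]⟩
  have hTQ : TQ E {x | h x < B} 𝒬 z ≤ δ := hz.en
  have hTQ0 := TQ_nonneg E {x | h x < B} 𝒬 z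
  have hb : Summable fun Q : 𝒬 => 3 * ch E univ χ Q.1 ^ 2 + 48 * R ^ 2 / τ ^ 2 * Q.1.s ^ 2 :=
    ((summable_ch hE convex_univ hχ).mul_left 3).add (hE.summable_sq.mul_left _)
  obtain ⟨t1, t2⟩ := tail_trick (a := fun Q : 𝒬 => (4 * R * kap a b δ Q.1.s) ^ 2) hb F
  have hz2 := (summable_ch hE hsl.convex hz.cf).mul_left (12 * R ^ 2)
  have hpt : ∀ Q : 𝒬, ch E univ (fun q => op h B τ z c χ q - χ q) Q.1 ^ 2 ≤
      12 * R ^ 2 * ch E {x | h x < B} z Q.1 ^ 2 +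
      (if Q ∈ F then (4 * R * kap a b δ Q.1.s) ^ 2 else
        3 * ch E univ χ Q.1 ^ 2 + 48 * R ^ 2 / τ ^ 2 * Q.1.s ^ 2) := by
    intro Q
    have n0 := ch_nonneg E univ (fun q => op h B τ z c χ q - χ q) Q.1
    have n1 := ch_nonneg E {x | h x < B} z Q.1
    have n2 := ch_nonneg E univ χ Q.1
    have hs := Q.1.hs
    split_ifs with hF
    · have h1 : ch E univ (fun q => op h B τ z c χ q - χ q) Q.1 ≤ 4 * R * kap a b δ Q.1.s := by
        refine ch_small hτ hz.z01 hcR hχR (kap_nonneg hδ.le) fun hne => ?_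
        obtain ⟨O, hO, hPO, H⟩ := face_le hE hsl hCc hab hvan Q.2 hne hδ
        refine ⟨O, hO, hPO, fun q hq => (H q hq).trans ?_⟩
        unfold kap
        have : 0 ≤ b - a := by linarith
        gcongr
      have h2 := pow_le_pow_left₀ n0 h1 2
      have : 0 ≤ 12 * R ^ 2 * ch E {x | h x < B} z Q.1 ^ 2 := by positivity
      linarith
    · have h1 := ch_all hE hh hτ hχ hz.cf hz.z01 hC.isClosed hCN h0 hc hcR hχR (hsat Q.1 Q.2)
      have h2 := pow_le_pow_left₀ n0 h1 2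
      refine h2.trans (sq3.trans (le_of_eq ?_))
      field_simp
      ring
  have hsum := (hz2.add t1)
  have hChz : ∑' Q : 𝒬, ch E {x | h x < B} z Q.1 ^ 2 ≤ δ :=
    (Ch_le_TQ (E := E) (W := {x | h x < B}) (𝒬 := 𝒬) (f := z)).trans hTQ
  unfold Ch
  refine (Summable.tsum_le_tsum hpt (summable_ch hE convex_univ hop) hsum).trans ?_
  rw [hz2.tsum_add t1, t2, tsum_mul_left]
  have : 12 * R ^ 2 * ∑' Q : 𝒬, ch E {x | h x < B} z Q.1 ^ 2 ≤ 12 * R ^ 2 * δ := by gcongr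
  linarith

/-- **the cost of one operation** -/
theorem exists_cost (hE : QPic E 𝒬 𝓗) (hh : ∀ x y, |h x - h y| ≤ dist x y) (hτ : 0 < τ)
    (hnull : volume {p | h p = B} = 0) (hsl : Slab {x | h x < B}) (hχ : CFJ 𝓗 univ χ)
    (hχR : ∀ x, |χ x| ≤ R) {a b : ℝ} (hab : ∀ p ∈ E, a < p.2 ∧ p.2 < b) (hba : a ≤ b) {ε : ℝ}
    (hε : 0 < ε) :
    ∃ δ > 0, ∀ (N : Set (ℝ × ℝ)) (z c : ℝ × ℝ → ℝ), (∀ p ∈ N, a < p.2 ∧ p.2 < b) →
      volume (N \ E) ≤ ENNReal.ofReal δ → OneQ E 𝒬 𝓗 h B N δ z → (∀ x, |c x| ≤ R) →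
      (∀ x ∈ N, ∀ᶠ y in 𝓝 x, c y = c x) →
      (∀ Q ∈ 𝒬, (Q.car ∩ N).Nonempty → Q.car ⊆ N) →
      TQ E univ 𝒬 (fun q => op h B τ z c χ q - χ q) ≤ ε := by
  classical
  have hR0 : 0 ≤ R := (abs_nonneg _).trans (hχR (0, 0))
  obtain ⟨J, hJ, L, _, hL, h1, _⟩ := id hχ
  set K0 : ℝ := 4 * L ^ 2 + 32 * R ^ 2 / τ ^ 2 with hK0
  have hK00 : 0 ≤ K0 := by positivity
  have hb : Summable fun Q : 𝒬 => 3 * ch E univ χ Q.1 ^ 2 + 48 * R ^ 2 / τ ^ 2 * Q.1.s ^ 2 :=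
    ((summable_ch hE convex_univ hχ).mul_left 3).add (hE.summable_sq.mul_left _)
  obtain ⟨F, hF⟩ := (hb.hasSum.eventually (Metric.ball_mem_nhds _ (half_pos hε))).exists
  rw [Real.dist_eq] at hF
  simp only at hF
  set g : ℝ → ℝ := fun δ => K0 * δ + 16 * R ^ 2 * δ + 12 * R ^ 2 * δ +
    ∑ Q ∈ F, (4 * R * kap a b δ Q.1.s) ^ 2 with hg
  have hgc : Continuous g := by
    rw [hg]; unfold kap; fun_prop
  have hg0 : g 0 = 0 := by simp [hg, kap]
  have hev : ∀ᶠ δ in 𝓝[>] (0 : ℝ), g δ < ε / 2 := by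
    have : Tendsto g (𝓝[>] 0) (𝓝 0) := by
      have h3 := hgc.tendsto 0
      rw [hg0] at h3
      exact h3.mono_left nhdsWithin_le_nhds
    exact this.eventually (gt_mem_nhds (half_pos hε))
  obtain ⟨δ, hδg, hδ⟩ := (hev.and self_mem_nhdsWithin).exists
  refine ⟨δ, hδ, fun N z c hN hNv hz hcR hc hsat => ?_⟩
  obtain ⟨C, hC, hCN, h0⟩ := hz.supp
  have hcC : ∀ x ∈ C, ∀ᶠ y in 𝓝 x, c y = c x := fun x hx => hc x (hCN hx)
  have hopC : CFJ 𝓗 univ (op h B τ z c χ) :=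
    op_cfj hh hτ hχ hz.cf hz.z01 hC.isClosed h0 hcC hcR hχR
  have hCh := Ch_op_le hE hh hτ hsl hχ hχR hab hba (F := F) hδ hN hz hcR hc hsat (hopC.sub hχ)
  obtain ⟨J', hJ', M, _, hM, h2, _⟩ := hz.cf
  have hEn := op_EnV (E := E) (J := J ∪ J') (L := L) (M := M) (R := R) (c := c) (χ := χ) hh hτ
    hnull hL (h1.mono (sdiff_subset_sdiff_right (cut_mono Finset.subset_union_left))) hM
    (h2.mono (sdiff_subset_sdiff_right (cut_mono Finset.subset_union_right))) hz.z01 hC h0 hcC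
    hcR hχR hE.cpt.isClosed
  have hvol : (volume (C \ E)).toReal ≤ δ :=
    ENNReal.toReal_le_of_le_ofReal hδ.le
      ((measure_mono (sdiff_subset_sdiff_left hCN)).trans hNv)
  have hEnz : En ({x | h x < B} \ E) z ≤ δ := En_le_TQ.trans hz.en
  have k1 : K0 * (volume (C \ E)).toReal ≤ K0 * δ := by gcongr
  have k2 : 16 * R ^ 2 * En ({x | h x < B} \ E) z ≤ 16 * R ^ 2 * δ := by gcongr
  have k3 := (abs_lt.1 hF).1
  simp only [hg] at hδg
  unfold TQ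
  linarith

end Crest.Agent.R105.Laq3_744
end
end

-- ▼ part R105/Laq4_744

/-!
# Row 105 (S0138, picture with solids): class `ClQ`, distance `DQ`, and `Spq_722.LayerOpR`
-/

set_option autoImplicit false

noncomputable section

namespace Crest.Agent.R105.Laq4_744

open Set Filter MeasureTheory Topology Metric
open CF_363 Stp_722 Cq_463 Lop2_744 Lop3_744 Lop4_744 Laq2_744 Laq3_744
open Skp2_257 (Comps Lo Up)
open Nal_649 (FamQ Win OneNear)
open Fnc_189 (LayOutQ isOpen_Lo isOpen_Up)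
open scoped ENNReal NNReal

/-- the class of the STEP with solids -/
def ClQ (𝓗 : Set Hair) (χ : ℝ × ℝ → ℝ) : Prop :=
  CFJ 𝓗 univ χ ∧ HasCompactSupport χ ∧ ∃ C : ℝ, ∀ p, |χ p| ≤ C

/-- the distance of the STEP with solids: energy off `E` and charges of the squares -/
def DQ (E : Set (ℝ × ℝ)) (𝒬 : Set Sqr) (𝓗 : Set Hair) (χ χ' : ℝ × ℝ → ℝ) (ε : ℝ) : Prop :=
  0 ≤ ε ∧ ClQ 𝓗 χ ∧ ClQ 𝓗 χ' ∧ TQ E univ 𝒬 (fun q => χ' q - χ q) ≤ ε ^ 2

/-- the points whose component contains no square of side `≥ ρ` -/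
def HrQ (E : Set (ℝ × ℝ)) (𝒬 : Set Sqr) (ρ : ℝ) : Set (ℝ × ℝ) :=
  {x ∈ E | ∀ Q ∈ 𝒬, Q.car ⊆ connectedComponentIn E x → Q.s < ρ}

variable {E : Set (ℝ × ℝ)} {𝒬 : Set Sqr} {𝓗 : Set Hair} {f g f' f'' : ℝ × ℝ → ℝ}

theorem ClQ.cc (h : ClQ 𝓗 f) : Cc 𝓗 univ f :=
  ⟨h.1, tsupport f, h.2.1, fun _ _ hp => image_eq_zero_of_notMem_tsupport hp⟩

theorem _root_.Crest.Agent.R105.Cq_463.Cc.ae_diff (h : Cc 𝓗 univ f) : ∀ᵐ p : ℝ × ℝ, DifferentiableAt ℝ f p := by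
  obtain ⟨⟨J, hJ, L, C, hL, h1, -⟩, -⟩ := h
  have h2 := h1.ae_differentiableAt (μ := volume) (isOpen_diff_cut isOpen_univ J)
  have h3 : ∀ᵐ p : ℝ × ℝ, p ∉ cut J := measure_eq_zero_iff_ae_notMem.mp (volume_cut J)
  filter_upwards [h2, h3] with p hp hp' using hp ⟨mem_univ p, hp'⟩

theorem _root_.Crest.Agent.R105.Cq_463.Cc.integrable (h : Cc 𝓗 univ f) : Integrable (g2 f) := by
  obtain ⟨⟨J, hJ, L, C, hL, h1, -⟩, S, hS, h0⟩ := h
  have := integrableOn_z hL isOpen_univ h1 hS fun x hx => h0 x (mem_univ _) hx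
  rwa [integrableOn_univ] at this

/-- weighted subadditivity of the energy with charges -/
theorem TQ_add_weighted (hE : QPic E 𝒬 𝓗) (hf : Cc 𝓗 univ f) (hg : Cc 𝓗 univ g) {s t : ℝ}
    (hs : 0 < s) (ht : 0 < t) :
    TQ E univ 𝒬 (fun q => f q + g q) ≤
      (1 + t / s) * TQ E univ 𝒬 f + (1 + s / t) * TQ E univ 𝒬 g := by
  have e1 : En (univ \ E) (fun q => f q + g q) ≤
      (1 + t / s) * En (univ \ E) f + (1 + s / t) * En (univ \ E) g := by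
    unfold En
    rw [← integral_const_mul, ← integral_const_mul,
      ← integral_add (hf.integrable.integrableOn.const_mul _)
        (hg.integrable.integrableOn.const_mul _)]
    refine integral_mono_ae (hf.add hg).integrable.integrableOn
      ((hf.integrable.integrableOn.const_mul _).add (hg.integrable.integrableOn.const_mul _)) ?_
    filter_upwards [ae_restrict_of_ae hf.ae_diff, ae_restrict_of_ae hg.ae_diff] with p hp hp'
    exact g2_add_weighted hp hp' hs ht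
  have e2 := Ch_le_of_le hE convex_univ (hf.add hg).1 hf.1 hg.1 (a := 1 + t / s) (b := 1 + s / t)
    (fun Q _ => by
      have h1 := chg_add (P := Q.car ∩ closure univ) (CFJ.fin hE hf.1 _) (CFJ.fin hE hg.1 _)
      have h2 := pow_le_pow_left₀ (chg_nonneg _ _ _) h1 2
      refine h2.trans ?_
      unfold ch
      set a := chg (Eᶜ ∩ univ) (Q.car ∩ closure univ) f
      set b := chg (Eᶜ ∩ univ) (Q.car ∩ closure univ) g
      have e : (1 + t / s) * a ^ 2 + (1 + s / t) * b ^ 2 - (a + b) ^ 2 =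
          (t * a - s * b) ^ 2 / (s * t) := by
        field_simp
        ring
      have : 0 ≤ (t * a - s * b) ^ 2 / (s * t) := by positivity
      linarith)
  unfold TQ
  linarith

/-- Minkowski -/
theorem TQ_add_sq (hE : QPic E 𝒬 𝓗) (hf : Cc 𝓗 univ f) (hg : Cc 𝓗 univ g) {s t : ℝ}
    (hs : 0 ≤ s) (ht : 0 ≤ t) (h1 : TQ E univ 𝒬 f ≤ s ^ 2) (h2 : TQ E univ 𝒬 g ≤ t ^ 2) :
    TQ E univ 𝒬 (fun q => f q + g q) ≤ (s + t) ^ 2 := by
  have hle : ∀ η : ℝ, 0 < η → TQ E univ 𝒬 (fun q => f q + g q) ≤ (s + t + 2 * η) ^ 2 := by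
    intro η hη
    have hs' : 0 < s + η := by linarith
    have ht' : 0 < t + η := by linarith
    refine (TQ_add_weighted hE hf hg hs' ht').trans ?_
    have k1 : TQ E univ 𝒬 f ≤ (s + η) ^ 2 := h1.trans (by nlinarith)
    have k2 : TQ E univ 𝒬 g ≤ (t + η) ^ 2 := h2.trans (by nlinarith)
    calc _ ≤ (1 + (t + η) / (s + η)) * (s + η) ^ 2 + (1 + (s + η) / (t + η)) * (t + η) ^ 2 := by
          gcongr
      _ = (s + t + 2 * η) ^ 2 := by
          field_simp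
          ring
  have hI0 := TQ_nonneg E univ 𝒬 (fun q => f q + g q)
  have h4 : √(TQ E univ 𝒬 (fun q => f q + g q)) ≤ s + t := by
    refine le_of_forall_pos_le_add fun η hη => ?_
    have h5 := hle (η / 2) (by positivity)
    have h6 : s + t + 2 * (η / 2) = s + t + η := by ring
    rw [h6] at h5
    exact Real.sqrt_le_left (by linarith) |>.2 h5
  calc _ = √(TQ E univ 𝒬 (fun q => f q + g q)) ^ 2 := (Real.sq_sqrt hI0).symm
    _ ≤ (s + t) ^ 2 := by gcongr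

theorem DQ.refl (h : ClQ 𝓗 f) : DQ E 𝒬 𝓗 f f 0 := by
  refine ⟨le_rfl, h, h, ?_⟩
  have : (fun q => f q - f q) = (0 : ℝ × ℝ → ℝ) := by funext q; simp
  rw [this, TQ_zero]
  simp

theorem DQ.trans (hE : QPic E 𝒬 𝓗) {s t : ℝ} (h1 : DQ E 𝒬 𝓗 f f' s) (h2 : DQ E 𝒬 𝓗 f' f'' t) :
    DQ E 𝒬 𝓗 f f'' (s + t) := by
  obtain ⟨hs, c1, c2, e1⟩ := h1
  obtain ⟨ht, _, c3, e2⟩ := h2
  refine ⟨add_nonneg hs ht, c1, c3, ?_⟩
  have hsum : (fun q => f'' q - f q) = fun q => (f' q - f q) + (f'' q - f' q) := by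
    funext q; ring
  rw [hsum]
  exact TQ_add_sq hE (c2.cc.sub c1.cc) (c3.cc.sub c2.cc) hs ht e1 e2

/-! ### the black box -/

theorem TQ_congr (hE : QPic E 𝒬 𝓗) {W : Set (ℝ × ℝ)} (hW : IsOpen W) {u v : ℝ × ℝ → ℝ}
    (h : EqOn u v W) : TQ E W 𝒬 u = TQ E W 𝒬 v := by
  have e1 : En (W \ E) u = En (W \ E) v :=
    En_congr (hW.sdiff hE.cpt.isClosed) fun p hp => h hp.1
  have e2 : Ch E W 𝒬 u = Ch E W 𝒬 v := by
    unfold Ch ch
    refine tsum_congr fun Q => ?_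
    rw [chg_congr isOpen_univ (subset_univ _) fun q hq => h hq.2.2]
  unfold TQ
  rw [e1, e2]

theorem oneQ_of_half (hE : QPic E 𝒬 𝓗) {W N : Set (ℝ × ℝ)} {h : ℝ × ℝ → ℝ} {B ε : ℝ}
    {z : ℝ × ℝ → ℝ} (hz : Nal_649.HalfQ E 𝒬 𝓗 W N ε z) (hW : W = {x | h x < B})
    (hWo : IsOpen W) : OneQ E 𝒬 𝓗 h B N ε (W.indicator z) where
  cf := by
    rw [← hW]
    exact cfj_congr hz.cf fun p hp => (indicator_of_mem hp z).symm
  z01 := fun x => by
    by_cases hx : x ∈ W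
    · rw [indicator_of_mem hx]; exact hz.rg x
    · rw [indicator_of_notMem hx]; exact ⟨le_rfl, zero_le_one⟩
  supp := by
    obtain ⟨S, hS, hSN, h0⟩ := hz.sp
    refine ⟨S, hS, hSN, fun x hx => ?_⟩
    by_cases hxW : x ∈ W
    · rw [indicator_of_mem hxW]; exact h0 x hxW hx
    · rw [indicator_of_notMem hxW]
  en := by
    rw [← hW, TQ_congr hE hWo (v := z) fun p hp => indicator_of_mem hp z]
    exact hz.en

theorem _root_.Crest.Agent.R105.Laq3_744.OneQ.mono {N : Set (ℝ × ℝ)} {h : ℝ × ℝ → ℝ} {B ε ε' : ℝ}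
    {z : ℝ × ℝ → ℝ} (hz : OneQ E 𝒬 𝓗 h B N ε z) (hε : ε ≤ ε') : OneQ E 𝒬 𝓗 h B N ε' z :=
  ⟨hz.cf, hz.z01, hz.supp, hz.en.trans hε⟩

/-- one operation: class, support -/
theorem _root_.Crest.Agent.R105.Laq3_744.OneQ.op_spec {h : ℝ × ℝ → ℝ} {B τ R ε : ℝ} {N W : Set (ℝ × ℝ)} {z c χ : ℝ × ℝ → ℝ}
    (hz : OneQ E 𝒬 𝓗 h B N ε z) (hh : ∀ x y, |h x - h y| ≤ dist x y) (hτ : 0 < τ)
    (hNW : N ⊆ W) (hχ : ClQ 𝓗 χ)
    (hc : ∀ x ∈ W, ∀ᶠ y in 𝓝 x, c y = c x) (hcR : ∀ x, |c x| ≤ R) (hχR : ∀ x, |χ x| ≤ R) :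
    ClQ 𝓗 (op h B τ z c χ) := by
  obtain ⟨C, hC, hCN, h0⟩ := hz.supp
  refine ⟨op_cfj hh hτ hχ.1 hz.cf hz.z01 hC.isClosed h0 (fun x hx => hc x (hNW (hCN hx))) hcR hχR,
    ?_, R, op_abs_le hz.z01 hcR hχR⟩
  refine HasCompactSupport.intro (hC.union hχ.2.1) fun x hx => ?_
  rw [mem_union, not_or] at hx
  rw [op_eq_of_z (h0 x hx.1)]
  exact image_eq_zero_of_notMem_tsupport hx.2

/-- the family of the components contained in a saturated set -/
def famC (E G : Set (ℝ × ℝ)) : Set (Set (ℝ × ℝ)) := {P | P ∈ Comps E ∧ P ⊆ G}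

theorem sUnion_famC {G : Set (ℝ × ℝ)} (hGE : G ⊆ E)
    (hGs : ∀ x ∈ G, ∀ y ∈ connectedComponentIn E x, y ∈ G) : ⋃₀ famC E G = G := by
  ext x
  constructor
  · rintro ⟨P, hP, hxP⟩
    exact hP.2 hxP
  · intro hx
    exact ⟨connectedComponentIn E x, ⟨⟨x, hGE hx, rfl⟩, hGs x hx⟩,
      mem_connectedComponentIn (hGE hx)⟩

theorem slab_neg (B : ℝ) : Slab {x : ℝ × ℝ | -x.2 < -B} := by
  have : {x : ℝ × ℝ | -x.2 < -B} = {p | B < p.2} := by
    ext x; simp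
  rw [this]
  exact slab_up B

/-- **`LayerOpR`** for a picture with squares. -/
theorem layerOpR (hE : QPic E 𝒬 𝓗) {ρ : ℝ} (hρ : 0 < ρ)
    (hL : ∀ g Bm Bp, FamQ E g Bm Bp → Win 𝒬 g Bm Bp → LayOutQ E 𝒬 𝓗 g Bm Bp) :
    Spq_722.LayerOpR Eᶜ E Prod.snd (HrQ E 𝒬 ρ) (ClQ 𝓗) (DQ E 𝒬 𝓗) ρ := by
  classical
  intro B B' G W χ c c' R τ m ε hBB hG hGH hGs hW hGW hcross hχ hχR hcR hc'R hc hc' hτ hm hε
  have hBB' : B < B' := by linarith
  have hGE : G ⊆ E := fun x hx => (hGH hx).1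
  have hun := sUnion_famC hGE hGs
  have hFam : FamQ E (famC E G) B B' := by
    refine ⟨hBB', fun P hP => hP.1, by rw [hun]; exact hG, ?_⟩
    rintro P ⟨⟨x, hx, rfl⟩, hPG⟩
    exact hcross x (hPG (mem_connectedComponentIn hx))
  have hWin : Win 𝒬 (famC E G) B B' := by
    rintro P ⟨⟨x, hx, rfl⟩, hPG⟩ Q hQ hQP
    have h1 := (hGH (hPG (mem_connectedComponentIn hx))).2 Q hQ hQP
    by_contra hcon
    push Not at hcon
    linarith [hcon.1, hcon.2]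
  obtain ⟨a, b, hab, hEab⟩ := exists_height hE.cpt
  obtain ⟨δ₁, hδ₁, H₁⟩ := exists_cost (h := Prod.snd) (B := B) (τ := τ) (R := R) hE lip_snd hτ
    (volume_snd_eq B) (slab_lo B) hχ.1 hχR hEab hab.le (ε := ε ^ 2 / 4) (by positivity)
  obtain ⟨δ₂, hδ₂, H₂⟩ := exists_cost (h := fun x : ℝ × ℝ => - x.2) (B := -B') (τ := τ) (R := R)
    hE lip_neg_snd hτ (volume_neg_snd_eq (-B')) (slab_neg B') hχ.1 hχR hEab hab.le
    (ε := ε ^ 2 / 4) (by positivity)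
  set δ : ℝ := min δ₁ δ₂ with hδ
  have hδ0 : 0 < δ := lt_min hδ₁ hδ₂
  obtain ⟨O₁, hEO, hO₁, -, hvO⟩ := hE.cpt.measurableSet.exists_isOpen_sdiff_lt
    (μ := (volume : Measure (ℝ × ℝ))) hE.cpt.measure_lt_top.ne (ε := ENNReal.ofReal δ)
    (ENNReal.ofReal_pos.2 hδ0).ne'
  have hbo : IsOpen {p : ℝ × ℝ | a < p.2 ∧ p.2 < b} :=
    (isOpen_lt continuous_const continuous_snd).inter (isOpen_lt continuous_snd continuous_const)
  obtain ⟨n, p, N, hp, hNo, hNU, -, hsat, hcov⟩ := exists_thick hE.cpt hG hGE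
    (fun _ => W ∩ (O₁ ∩ {p : ℝ × ℝ | a < p.2 ∧ p.2 < b}))
    (fun x _ => hW.inter (hO₁.inter hbo))
    (fun x hx => subset_inter (fun y hy => hGW (hGs x hx y hy))
      ((connectedComponentIn_subset E x).trans (subset_inter hEO hEab)))
  set N' : Set (ℝ × ℝ) := ⋃ i, N i with hN'
  have hN'o : IsOpen N' := isOpen_iUnion hNo
  have hN'U : N' ⊆ W ∩ (O₁ ∩ {p : ℝ × ℝ | a < p.2 ∧ p.2 < b}) := iUnion_subset hNU
  have hN'W : N' ⊆ W := hN'U.trans inter_subset_left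
  have hN'ab : ∀ p ∈ N', a < p.2 ∧ p.2 < b := fun p hp => (hN'U hp).2.2
  have hN'v : volume (N' \ E) ≤ ENNReal.ofReal δ :=
    (measure_mono (sdiff_subset_sdiff_left (hN'U.trans (inter_subset_right.trans
      inter_subset_left)))).trans hvO.le
  have hN'sat : ∀ Q ∈ 𝒬, (Q.car ∩ N').Nonempty → Q.car ⊆ N' := by
    rintro Q hQ ⟨y, hyQ, hyN⟩
    obtain ⟨i, hi⟩ := mem_iUnion.1 hyN
    have hyE : y ∈ E := hE.sub Q hQ hyQ
    have h1 := hsat i y hyE ⟨y, mem_connectedComponentIn hyE, hi⟩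
    exact (Q.convex_car.isPreconnected.subset_connectedComponentIn hyQ (hE.sub Q hQ)).trans
      (h1.trans (subset_iUnion N i))
  obtain ⟨zm, zp, hzm, hzp, hom, hop, hone⟩ := hL _ B B' hFam hWin N' hN'o
    (by rw [hun]; exact hcov) (⌈1 / m⌉₊ + 1) (by omega) δ hδ0
  have hMm : (1 : ℝ) / ((⌈1 / m⌉₊ + 1 : ℕ) : ℝ) ≤ m := by
    rw [div_le_iff₀ (by positivity)]
    have h2 : 1 / m ≤ ((⌈1 / m⌉₊ + 1 : ℕ) : ℝ) := by
      push_cast
      linarith [Nat.le_ceil (1 / m)]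
    rw [div_le_iff₀ hm] at h2
    linarith
  have hUp : Up B' = {x : ℝ × ℝ | - x.2 < -B'} := by
    ext x; simp [Up]
  have hz1 : OneQ E 𝒬 𝓗 Prod.snd B N' δ ((Lo B).indicator zm) :=
    oneQ_of_half hE hzm rfl (isOpen_Lo B)
  have hz2 : OneQ E 𝒬 𝓗 (fun x => - x.2) (-B') N' δ ((Up B').indicator zp) :=
    oneQ_of_half hE hzp hUp (isOpen_Up B')
  have hcl1 : ClQ 𝓗 (op Prod.snd B τ ((Lo B).indicator zm) c χ) :=
    hz1.op_spec lip_snd hτ hN'W hχ hc hcR hχR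
  have hcl2 : ClQ 𝓗 (op (fun x => - x.2) (-B') τ ((Up B').indicator zp) c' χ) :=
    hz2.op_spec lip_neg_snd hτ hN'W hχ hc' hc'R hχR
  have hcl : ClQ 𝓗 (op2 Prod.snd B B' τ ((Lo B).indicator zm) ((Up B').indicator zp) c c' χ) :=
    hz2.op_spec lip_neg_snd hτ hN'W hcl1 hc' hc'R (op_abs_le hz1.z01 hcR hχR)
  have en1 := H₁ N' _ c hN'ab (hN'v.trans (ENNReal.ofReal_le_ofReal (min_le_left _ _)))
    (hz1.mono (min_le_left _ _)) hcR (fun x hx => hc x (hN'W hx)) hN'sat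
  have en2 := H₂ N' _ c' hN'ab (hN'v.trans (ENNReal.ofReal_le_ofReal (min_le_right _ _)))
    (hz2.mono (min_le_right _ _)) hc'R (fun x hx => hc' x (hN'W hx)) hN'sat
  refine ⟨(Lo B).indicator zm, (Up B').indicator zp, ⟨hz1.z01, ?_, ?_⟩, ⟨hz2.z01, ?_, ?_⟩, ?_,
    hcl, hε.le, hχ, hcl, ?_⟩
  · obtain ⟨C, hC, hCN, h0⟩ := hz1.supp
    exact ⟨C, hC.isClosed, hCN.trans hN'W, h0⟩
  · intro x hx
    refine ((hom _ ⟨x, hx, rfl⟩).mono hMm).congr isOpen_univ (subset_univ _) fun q hq => ?_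
    exact indicator_of_mem hq.2.2 zm
  · obtain ⟨C, hC, hCN, h0⟩ := hz2.supp
    exact ⟨C, hC.isClosed, hCN.trans hN'W, h0⟩
  · intro x hx
    have h3 : OscLe (Eᶜ ∩ Up B') (connectedComponentIn E x ∩ {p | B' ≤ p.2})
        ((Up B').indicator zp) m :=
      ((hop _ ⟨x, hx, rfl⟩).mono hMm).congr isOpen_univ (subset_univ _) fun q hq =>
        indicator_of_mem hq.2.2 zp
    have e1 : {y : ℝ × ℝ | (fun x : ℝ × ℝ => - Prod.snd x) y < -B'} = Up B' := hUp.symm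
    have e2 : {y : ℝ × ℝ | (fun x : ℝ × ℝ => - Prod.snd x) y ≤ -B'} = {p | B' ≤ p.2} := by
      ext y; simp
    rw [e1, e2]
    exact h3
  · intro x hx
    have hxE := hGE hx
    rcases hone _ ⟨⟨x, hxE, rfl⟩, hGs x hx⟩ with ⟨O, hO, hKO, hO1⟩ | ⟨O, hO, hKO, hO1⟩
    · left
      refine ⟨O, hO, hKO, fun q hq hqB => ?_⟩
      rw [indicator_of_mem (show q ∈ Lo B from hqB)]
      exact hO1 q hq hqB
    · right
      refine ⟨O, hO, ?_, fun q hq hqB => ?_⟩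
      · rintro y ⟨hy, hyB⟩
        refine hKO ⟨hy, ?_⟩
        have h4 : - y.2 ≤ -B' := hyB
        change B' ≤ y.2
        linarith
      · have h4 : - q.2 < -B' := hqB
        have h5 : q ∈ Up B' := by change B' < q.2; linarith
        rw [indicator_of_mem h5]
        exact hO1 q hq h5
  · rw [op2_sub hBB' hτ]
    have := TQ_add_le hE isOpen_univ convex_univ (hcl1.cc.sub hχ.cc) (hcl2.cc.sub hχ.cc)
    linarith

end Crest.Agent.R105.Laq4_744
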