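import Crest.Agent.R105.Exs0_992
import Crest.Agent.R105.Spq3_722
import Crest.Agent.R105.Thin1_891
import Crest.Agent.R105.Lop1_744
import Crest.Agent.R105.Spq0_722
import Crest.Agent.R105.Laq5_744

-- ▼ part R105/Spq4_722
section

/-!
Row 105 (S0138, picture with solids), task 2456 (STEPQ), part 4: plane geometry of a picture with
solids (`PicS` of 992).
-/

set_option autoImplicit false
set_option linter.unusedSectionVars false

open Set Filter Topology Metric MeasureTheory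

namespace Crest.Agent.R105.Spq_722

open Stp_722 CF_363 Cq_463 Exs_992 Thin_891 Lop1_744
open Skp2_257 (Comps)

local notation "cc" => connectedComponentIn

variable {E : Set (ℝ × ℝ)} {𝒬 : Set Sqr} {𝓗 : Set Hair}

/-- an interior point of `E` lies in the interior of one of the squares. -/
theorem interior_sub (hE : QPic E 𝒬 𝓗) {p : ℝ × ℝ} (hp : p ∈ interior E) :
    ∃ Q ∈ 𝒬, p ∈ interior Q.car := by
  obtain ⟨r, hr, hball⟩ := Metric.isOpen_iff.1 isOpen_interior p hp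
  have hbE : ball p r ⊆ E := hball.trans interior_subset
  have hpre : IsPreconnected (ball p r) := (convex_ball p r).isPreconnected
  have hpos : 0 < volume (ball p r) := measure_ball_pos volume p hr
  have hex : ∃ Q ∈ 𝒬, (ball p r ∩ Q.car).Nonempty := by
    by_contra hcon
    have h1 : ball p r ⊆ E \ ⋃ Q ∈ 𝒬, Q.car := fun q hq => ⟨hbE hq, fun hq' => by
      obtain ⟨Q, hQ, hqQ⟩ := mem_iUnion₂.1 hq'
      exact hcon ⟨Q, hQ, q, hq, hqQ⟩⟩
    exact hpos.ne' (measure_mono_null h1 hE.null)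
  obtain ⟨Q, hQ, hne⟩ := hex
  refine ⟨Q, hQ, ?_⟩
  have hnull : volume (ball p r \ Q.car) = 0 := by
    refine measure_mono_null ?_ hE.null
    rintro q ⟨hq, hqQ⟩
    refine ⟨hbE hq, fun hq' => ?_⟩
    obtain ⟨Q', hQ', hqQ'⟩ := mem_iUnion₂.1 hq'
    have h1 : Q' = Q := hE.sep _ hbE hpre Q' hQ' Q hQ ⟨q, hq, hqQ'⟩ hne
    rw [h1] at hqQ'
    exact hqQ hqQ'
  have hopen : IsOpen (ball p r \ Q.car) := isOpen_ball.sdiff Q.isCompact_car.isClosed
  have hemp : ball p r \ Q.car = ∅ := (hopen.measure_eq_zero_iff volume).1 hnull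
  exact mem_interior.2 ⟨ball p r, sdiff_eq_empty.1 hemp, isOpen_ball, mem_ball_self hr⟩

theorem mem_closure_compl (hE : QPic E 𝒬 𝓗) {p : ℝ × ℝ} (hp : ∀ Q ∈ 𝒬, p ∉ interior Q.car) :
    p ∈ closure Eᶜ := by
  rw [closure_compl]
  intro h
  obtain ⟨Q, hQ, h1⟩ := interior_sub hE h
  exact hp Q hQ h1

theorem interior_car (Q : Sqr) :
    interior Q.car = Ioo Q.x (Q.x + Q.s) ×ˢ Ioo Q.y (Q.y + Q.s) := by
  rw [Sqr.car, interior_prod_eq, interior_Icc, interior_Icc]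

/-- a cuttable hair is visible. -/
theorem hair_vis (hP : PicS E 𝒬 𝓗) {K : Hair} (hK : K ∈ 𝓗) : K.car ⊆ closure Eᶜ := by
  intro p hp
  refine mem_closure_compl hP.q fun Q hQ hpQ => ?_
  have h1 := interior_subset hpQ
  rw [interior_car] at hpQ
  obtain ⟨-, h3, h4⟩ := hpQ
  rcases hP.att K hK Q hQ ⟨p, hp, h1⟩ with h2 | h2
  · have := hp.2.1; linarith
  · have := hp.2.2; linarith

/-- **every level of a portion of a component is attained at a visible point.** -/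
theorem levI (hE : IsCompact E) (x : ℝ × ℝ) {I : Set ℝ} (hI : I.OrdConnected) :
    Lev Eᶜ Prod.snd (cc E x ∩ Prod.snd ⁻¹' I) := by
  rintro t ⟨y, ⟨hyK, hyI⟩, hyt⟩ ⟨w, ⟨hwK, hwI⟩, htw⟩
  have htI : t ∈ I := hI.out hyI hwI ⟨hyt, htw⟩
  obtain ⟨p, hp, hpt⟩ := (isPreconnected_connectedComponentIn (F := E) (x := x)).intermediate_value
    hyK hwK continuous_snd.continuousOn ⟨hyt, htw⟩
  have hSc : IsCompact (cc E x ∩ {q : ℝ × ℝ | q.2 = t}) :=
    (isCompact_cc hE x).inter_right (isClosed_eq continuous_snd continuous_const)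
  obtain ⟨q, ⟨hq, hqt⟩, hmin⟩ := hSc.exists_isMinOn ⟨p, hp, hpt⟩ (f := Prod.fst)
    continuous_fst.continuousOn
  have hqt' : q.2 = t := hqt
  refine ⟨q, ⟨hq, by rw [mem_preimage, hqt']; exact htI⟩, ?_, hqt'⟩
  rw [closure_compl]
  intro hint
  obtain ⟨r, hr, hball⟩ := Metric.isOpen_iff.1 isOpen_interior q hint
  have hbE : ball q r ⊆ E := hball.trans interior_subset
  have hqE := connectedComponentIn_subset E x hq
  have h1 : ball q r ⊆ cc E x := by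
    rw [← cc_eq hq]
    exact (convex_ball q r).isPreconnected.subset_connectedComponentIn (mem_ball_self hr) hbE
  have h2 : (q.1 - r / 2, q.2) ∈ ball q r := by
    rw [mem_ball, Prod.dist_eq, Real.dist_eq, dist_self]
    rw [show q.1 - r / 2 - q.1 = -(r / 2) by ring, abs_neg, abs_of_pos (by linarith : 0 < r / 2)]
    rw [max_lt_iff]
    exact ⟨by linarith, hr⟩
  have h3 := isMinOn_iff.1 hmin (q.1 - r / 2, q.2) ⟨h1 h2, hqt'⟩
  simp only at h3
  linarith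

/-! ### components -/

theorem car_preconn (K : Hair) : IsPreconnected K.car := (convex_car K).isPreconnected

theorem hsub (hP : PicS E 𝒬 𝓗) {K : Hair} (hK : K ∈ 𝓗) : K.car ⊆ E := hP.q.hsub K hK

theorem car_sub_cc (hP : PicS E 𝒬 𝓗) {K : Hair} (hK : K ∈ 𝓗) {x : ℝ × ℝ}
    (h : (K.car ∩ cc E x).Nonempty) : K.car ⊆ cc E x := by
  obtain ⟨p, hp, hpx⟩ := h
  rw [← cc_eq hpx]
  exact (car_preconn K).subset_connectedComponentIn hp (hsub hP hK)

theorem sq_sub_cc (hP : PicS E 𝒬 𝓗) {Q : Sqr} (hQ : Q ∈ 𝒬) {x : ℝ × ℝ}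
    (h : (Q.car ∩ cc E x).Nonempty) : Q.car ⊆ cc E x := by
  obtain ⟨p, hp, hpx⟩ := h
  rw [← cc_eq hpx]
  exact Q.convex_car.isPreconnected.subset_connectedComponentIn hp (hP.q.sub Q hQ)

theorem sq_unique (hP : PicS E 𝒬 𝓗) {Q Q' : Sqr} (hQ : Q ∈ 𝒬) (hQ' : Q' ∈ 𝒬) {x : ℝ × ℝ}
    (h : Q.car ⊆ cc E x) (h' : Q'.car ⊆ cc E x) : Q = Q' := by
  obtain ⟨p, hp⟩ := Q.nonempty
  obtain ⟨p', hp'⟩ := Q'.nonempty
  exact hP.q.sep _ (connectedComponentIn_subset E x) isPreconnected_connectedComponentIn Q hQ Q' hQ'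
    ⟨p, h hp, hp⟩ ⟨p', h' hp', hp'⟩

/-- untouched components are disjoint from the cut. -/
theorem disj_cut (hP : PicS E 𝒬 𝓗) {J : Finset Hair} (hJ : ∀ K ∈ J, K ∈ 𝓗) {x : ℝ × ℝ}
    (h : ∀ K ∈ J, ¬ K.car ⊆ cc E x) : Disjoint (cc E x) (cut J) := by
  rw [Set.disjoint_left]
  rintro p hp ⟨K, hK, hpK⟩
  exact h K hK (car_sub_cc hP (hJ K hK) ⟨p, hpK, hp⟩)

/-- the width of a solid -/
theorem width (hP : PicS E 𝒬 𝓗) {x : ℝ × ℝ} (hx : x ∈ E) {Q : Sqr} (hQ : Q ∈ 𝒬)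
    (hQx : Q.car ⊆ cc E x) {p : ℝ × ℝ} (hp : p ∈ cc E x) : Q.x ≤ p.1 ∧ p.1 ≤ Q.x + Q.s := by
  have hs := Q.hs
  have hc1 : (Q.x, Q.y) ∈ cc E x := hQx (Sqr.mem_car.2 ⟨⟨le_rfl, by linarith⟩, le_rfl, by linarith⟩)
  have hc2 : (Q.x + Q.s, Q.y) ∈ cc E x :=
    hQx (Sqr.mem_car.2 ⟨⟨by linarith, le_rfl⟩, le_rfl, by linarith⟩)
  rcases hP.comp _ ⟨x, hx, rfl⟩ with ⟨q, hq⟩ | ⟨K, _, hK⟩ | ⟨Q', hQ', hQ'x, H⟩
  · rw [hq] at hc1 hc2
    have e1 : (Q.x, Q.y) = q := hc1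
    have e2 : (Q.x + Q.s, Q.y) = q := hc2
    have e3 := congrArg Prod.fst (e1.trans e2.symm)
    simp only at e3
    linarith
  · rw [hK] at hc1 hc2
    have e1 : Q.x = K.x := hc1.1
    have e2 : Q.x + Q.s = K.x := hc2.1
    linarith
  · have := sq_unique hP hQ hQ' hQx hQ'x
    subst this
    by_cases hpQ : p ∈ Q.car
    · exact (Sqr.mem_car.1 hpQ).1
    · obtain ⟨K, _, _, hpK, ⟨f, hfK, hfQ⟩⟩ := H p hp hpQ
      have e1 := hpK.1
      have e2 := hfK.1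
      have e3 := (Sqr.mem_car.1 hfQ).1
      rw [e1, ← e2]
      exact e3

/-! ### oscillation -/

/-- all segments between points of `P` avoid the cut -/
def Good (J : Finset Hair) (P : Set (ℝ × ℝ)) : Prop :=
  ∀ p ∈ P, ∀ p' ∈ P, Disjoint (segment ℝ p p') (cut J)

theorem osc_good {V : Set (ℝ × ℝ)} {J : Finset Hair} {L : ℝ} (hL : 0 ≤ L)
    {φ : ℝ × ℝ → ℝ} (hφ : SL (univ \ cut J) L φ) {P R : Set (ℝ × ℝ)} (hPc : IsCompact P)
    (hG : Good J P) (hR : R ⊆ P) {d : ℝ} (hd : ∀ p ∈ R, ∀ p' ∈ R, dist p p' ≤ d) :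
    OscLe V R φ (L * d) := by
  -- the compact union of the segments
  set T : Set (ℝ × ℝ) := (fun z : ((ℝ × ℝ) × (ℝ × ℝ)) × ℝ => z.1.1 + z.2 • (z.1.2 - z.1.1)) ''
    ((P ×ˢ P) ×ˢ Icc (0:ℝ) 1) with hT
  have hTc : IsCompact T := ((hPc.prod hPc).prod isCompact_Icc).image (by fun_prop)
  have hTJ : T ⊆ (cut J)ᶜ := by
    rintro _ ⟨⟨⟨p, p'⟩, t⟩, ⟨⟨hp, hp'⟩, ht⟩, rfl⟩ hJ
    refine Set.disjoint_left.1 (hG p hp p' hp') ?_ hJ
    rw [segment_eq_image']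
    exact ⟨t, ht, rfl⟩
  obtain ⟨δ, hδ, hδJ⟩ := hTc.exists_thickening_subset_open (isClosed_cut J).isOpen_compl hTJ
  intro ε hε
  set r := min δ (ε / (2 * (L + 1))) with hr
  have hr0 : 0 < r := by positivity
  have hrδ : r ≤ δ := min_le_left _ _
  have hrε : r * (2 * (L + 1)) ≤ ε := by
    have : r ≤ ε / (2 * (L + 1)) := min_le_right _ _
    rwa [le_div_iff₀ (by positivity)] at this
  refine ⟨thickening r R, isOpen_thickening, self_subset_thickening hr0 R, ?_⟩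
  rintro q ⟨hq, _⟩ q' ⟨hq', _⟩
  obtain ⟨p, hp, hqp⟩ := mem_thickening_iff.1 hq
  obtain ⟨p', hp', hqp'⟩ := mem_thickening_iff.1 hq'
  have hdist : dist q q' ≤ d + 2 * r := by
    have h1 := dist_triangle4 q p p' q'
    have h2 := hd p hp p' hp'
    rw [dist_comm p' q'] at h1
    linarith
  have hseg : segment ℝ q q' ⊆ univ \ cut J := by
    intro y hy
    refine ⟨mem_univ y, ?_⟩
    rw [segment_eq_image'] at hy
    obtain ⟨t, ht, rfl⟩ := hy
    refine hδJ (mem_thickening_iff.2 ⟨p + t • (p' - p), ⟨⟨⟨p, p'⟩, t⟩, ⟨⟨hR hp, hR hp'⟩, ht⟩, rfl⟩,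
      ?_⟩)
    refine lt_of_lt_of_le ?_ hrδ
    rw [dist_eq_norm] at hqp hqp' ⊢
    have e : q + t • (q' - q) - (p + t • (p' - p)) = (1 - t) • (q - p) + t • (q' - p') := by
      simp only [smul_sub, sub_smul, one_smul]; abel
    rw [e]
    have h1 : 0 ≤ 1 - t := by linarith [ht.2]
    calc ‖(1 - t) • (q - p) + t • (q' - p')‖ ≤ ‖(1 - t) • (q - p)‖ + ‖t • (q' - p')‖ :=
          norm_add_le _ _
      _ = (1 - t) * ‖q - p‖ + t * ‖q' - p'‖ := by
          rw [norm_smul, norm_smul, Real.norm_of_nonneg h1, Real.norm_of_nonneg ht.1]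
      _ < r := by
          rcases eq_or_lt_of_le ht.1 with h0 | h0
          · rw [← h0]; linarith
          · have a1 : (1 - t) * ‖q - p‖ ≤ (1 - t) * r := mul_le_mul_of_nonneg_left hqp.le h1
            have a2 : t * ‖q' - p'‖ < t * r := mul_lt_mul_of_pos_left hqp' h0
            linarith
  have h3 := hφ q q' hseg
  have h4 : L * dist q q' ≤ L * (d + 2 * r) := by gcongr
  nlinarith

theorem good_of_convex {J : Finset Hair} {P : Set (ℝ × ℝ)} (hc : Convex ℝ P)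
    (hd : Disjoint P (cut J)) : Good J P := fun _ hp _ hp' =>
  hd.mono_left (hc.segment_subset hp hp')

/-- a point component does not meet the cut. -/
theorem point_untouched {K : Hair} {p : ℝ × ℝ} (h : K.car ⊆ {p}) : False := by
  have h1 : (K.x, K.b) = p := h (bot_mem_car K)
  have h2 : (K.x, K.t) = p := h ⟨rfl, K.hbt.le, le_rfl⟩
  have h3 := congrArg Prod.snd (h1.trans h2.symm)
  have := K.hbt
  simp only at h3
  linarith

/-- oscillation of a whole component from its pieces. -/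
theorem osc_comp (hP : PicS E 𝒬 𝓗) {r : ℝ × ℝ → ℝ} (hr : CFJ 𝓗 univ r) {x : ℝ × ℝ} (hx : x ∈ E)
    {a b : ℝ} (ha : 0 ≤ a) (hb : 0 ≤ b) (hK : ∀ K ∈ 𝓗, K.car ⊆ cc E x → OscLe Eᶜ K.car r a)
    (hQ : ∀ Q ∈ 𝒬, Q.car ⊆ cc E x → OscLe Eᶜ Q.car r b) :
    OscLe Eᶜ (cc E x) r (2 * a + b) := by
  rcases hP.comp _ ⟨x, hx, rfl⟩ with ⟨p, hp⟩ | ⟨K, hKH, hKe⟩ | ⟨Q, hQ𝒬, hQx, H⟩
  · obtain ⟨J, hJ, L, C, hL, hsl, -⟩ := hr
    have hdis : Disjoint (cc E x) (cut J) := disj_cut hP hJ fun K hK h => by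
      rw [hp] at h; exact point_untouched h
    have h1 := osc_good (V := Eᶜ) hL hsl (isCompact_cc hP.q.cpt x)
      (good_of_convex (by rw [hp]; exact convex_singleton _) hdis) Subset.rfl (d := 0) (by
        rw [hp]; rintro y rfl z rfl; simp)
    rw [mul_zero] at h1
    exact h1.mono (by positivity)
  · have h1 := hK K hKH (by rw [hKe])
    rw [hKe]
    exact h1.mono (by linarith)
  · intro ε hε
    obtain ⟨OQ, hOQ, hQO, HQ⟩ := hQ Q hQ𝒬 hQx (ε / 4) (by linarith)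
    have hKf : ∀ K : Hair, K ∈ 𝓗 ∧ K.car ⊆ cc E x → ∃ O, IsOpen O ∧ K.car ⊆ O ∧
        ∀ q ∈ O ∩ Eᶜ, ∀ q' ∈ O ∩ Eᶜ, |r q - r q'| ≤ a + ε / 4 := fun K h =>
      hK K h.1 h.2 (ε / 4) (by linarith)
    choose! O hO hKO HO using hKf
    have hnear : ∀ q ∈ (OQ ∪ ⋃ K ∈ {K : Hair | (K ∈ 𝓗 ∧ K.car ⊆ cc E x) ∧
        (K.car ∩ Q.car).Nonempty}, O K) ∩ Eᶜ, ∃ v ∈ OQ ∩ Eᶜ, |r q - r v| ≤ a + ε / 4 := by
      rintro q ⟨hq | hq, hqE⟩
      · exact ⟨q, ⟨hq, hqE⟩, by rw [sub_self, abs_zero]; positivity⟩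
      · obtain ⟨K, ⟨hK1, ⟨f, hfK, hfQ⟩⟩, hqK⟩ := mem_iUnion₂.1 hq
        obtain ⟨v, hv, hvE⟩ := mem_closure_iff.1 (hair_vis hP hK1.1 hfK) (O K ∩ OQ)
          ((hO K hK1).inter hOQ) ⟨hKO K hK1 hfK, hQO hfQ⟩
        exact ⟨v, ⟨hv.2, hvE⟩, HO K hK1 q ⟨hqK, hqE⟩ v ⟨hv.1, hvE⟩⟩
    refine ⟨OQ ∪ ⋃ K ∈ {K : Hair | (K ∈ 𝓗 ∧ K.car ⊆ cc E x) ∧ (K.car ∩ Q.car).Nonempty}, O K,
      hOQ.union (isOpen_biUnion fun K hK => hO K hK.1), ?_, ?_⟩
    · intro p hp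
      by_cases hpQ : p ∈ Q.car
      · exact Or.inl (hQO hpQ)
      · obtain ⟨K, hKH, hKx, hpK, hne⟩ := H p hp hpQ
        exact Or.inr (mem_iUnion₂.2 ⟨K, ⟨⟨hKH, hKx⟩, hne⟩, hKO K ⟨hKH, hKx⟩ hpK⟩)
    · intro q hq q' hq'
      obtain ⟨v, hv, h1⟩ := hnear q hq
      obtain ⟨v', hv', h2⟩ := hnear q' hq'
      have h3 := abs_le.1 (HQ v hv v' hv')
      have h1' := abs_le.1 h1
      have h2' := abs_le.1 h2
      rw [abs_le]
      constructor <;> linarith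

/-- **comb lemma**: a small solid which has a point of the cut between two of its points lies in a
given neighbourhood of one of the touched components. -/
theorem comb (hP : PicS E 𝒬 𝓗) {J : Finset Hair} (hJ : ∀ K ∈ J, K ∈ 𝓗) {E' : Set (ℝ × ℝ)}
    (hE' : Piece E E') {O₁ : Hair → Set (ℝ × ℝ)} (hO₁ : ∀ K ∈ J, K.car ⊆ E' → IsOpen (O₁ K))
    (hJO : ∀ K ∈ J, K.car ⊆ E' → cc E (K.x, K.b) ⊆ O₁ K) :
    ∃ ρ > 0, ∀ x ∈ E', ∀ Q ∈ 𝒬, Q.car ⊆ cc E x → Q.s < ρ →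
      (∃ K ∈ J, K.car ⊆ E' ∧ cc E x ⊆ O₁ K) ∨ Good J (cc E x) := by
  classical
  -- one hair
  have hone : ∀ K ∈ J, ∃ ρ > 0, ∀ x ∈ E', ∀ p ∈ cc E x, ∀ w ∈ K.car, dist p w < ρ →
      ∃ K ∈ J, K.car ⊆ E' ∧ cc E x ⊆ O₁ K := by
    intro K hK
    have hKE := hsub hP (hJ K hK)
    by_cases hKE' : K.car ⊆ E'
    · obtain ⟨F, hF, hKF, hFO⟩ := exists_piece hP.q.cpt (x := (K.x, K.b))
        (hKE (bot_mem_car K)) (hO₁ K hK hKE') (hJO K hK hKE')
      obtain ⟨δ, hδ, H⟩ := hF.exists_dist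
      refine ⟨δ, hδ, fun x hx p hp w hw hpw => ?_⟩
      have hpE := connectedComponentIn_subset E x hp
      have hwF : w ∈ F := hKF (car_sub_cc hP (hJ K hK) ⟨(K.x, K.b), bot_mem_car K,
        mem_connectedComponentIn (hKE (bot_mem_car K))⟩ hw)
      have hpF : p ∈ F := by
        by_contra hcon
        have := H w hwF p ⟨hpE, hcon⟩
        rw [dist_comm] at this
        linarith
      exact ⟨K, hK, hKE', (hF.component_subset' ⟨p, hp, hpF⟩).trans hFO⟩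
    · obtain ⟨δ, hδ, H⟩ := hE'.exists_dist
      refine ⟨δ, hδ, fun x hx p hp w hw hpw => ?_⟩
      exfalso
      have hpE' : p ∈ E' := hE'.component_subset hx hp
      have hw' : w ∈ E \ E' := ⟨hKE hw, fun hwE' => hKE'
        (hE'.subset_of_isPreconnected (car_preconn K) hKE ⟨w, hw, hwE'⟩)⟩
      have := H p hpE' w hw'
      linarith
  choose! ρ hρ H using hone
  obtain ⟨ρ0, hρ0, hρJ⟩ : ∃ ρ0 > 0, ∀ K ∈ J, ρ0 ≤ ρ K := by
    rcases J.eq_empty_or_nonempty with rfl | hne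
    · exact ⟨1, one_pos, by simp⟩
    · obtain ⟨K, hK, hmin⟩ := J.exists_min_image ρ hne
      exact ⟨ρ K, hρ K hK, hmin⟩
  refine ⟨ρ0, hρ0, fun x hx Q hQ hQx hs => ?_⟩
  by_cases hg : Good J (cc E x)
  · exact Or.inr hg
  · left
    unfold Good at hg
    push Not at hg
    obtain ⟨p, hp, p', hp', hnd⟩ := hg
    obtain ⟨w, hw, hwJ⟩ := Set.not_disjoint_iff.1 hnd
    obtain ⟨K, hK, hwK⟩ := hwJ
    rw [segment_eq_image'] at hw
    obtain ⟨t, ht, hwt⟩ := hw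
    have hxE := hE'.sub hx
    have hw1 : w.1 = p.1 + t * (p'.1 - p.1) := by rw [← hwt]; simp
    have hw2 : w.2 = p.2 + t * (p'.2 - p.2) := by rw [← hwt]; simp
    obtain ⟨a1, a2⟩ := width hP hxE hQ hQx hp
    obtain ⟨b1, b2⟩ := width hP hxE hQ hQx hp'
    have ht0 := ht.1
    have ht1 := ht.2
    have hw1' : Q.x ≤ w.1 ∧ w.1 ≤ Q.x + Q.s := by
      rw [hw1]; constructor <;> nlinarith
    -- a point of the component at the height of `w`
    have hiv : ∃ p₂ ∈ cc E x, p₂.2 = w.2 := by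
      rcases le_total p.2 p'.2 with h1 | h1
      · obtain ⟨p₂, hp₂, h2⟩ := (isPreconnected_connectedComponentIn (F := E)
          (x := x)).intermediate_value hp hp' continuous_snd.continuousOn
          (show w.2 ∈ Icc p.2 p'.2 by rw [hw2]; constructor <;> nlinarith)
        exact ⟨p₂, hp₂, h2⟩
      · obtain ⟨p₂, hp₂, h2⟩ := (isPreconnected_connectedComponentIn (F := E)
          (x := x)).intermediate_value hp' hp continuous_snd.continuousOn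
          (show w.2 ∈ Icc p'.2 p.2 by rw [hw2]; constructor <;> nlinarith)
        exact ⟨p₂, hp₂, h2⟩
    obtain ⟨p₂, hp₂, h2⟩ := hiv
    obtain ⟨c1, c2⟩ := width hP hxE hQ hQx hp₂
    refine H K hK x hx p₂ hp₂ w hwK (lt_of_lt_of_le ?_ (hρJ K hK))
    rw [Prod.dist_eq, h2, dist_self, Real.dist_eq, max_lt_iff]
    refine ⟨?_, hρ0⟩
    rw [abs_lt]
    constructor <;> linarith [hw1'.1, hw1'.2]

end Crest.Agent.R105.Spq_722
end

-- ▼ part R105/Spq1_722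
section

/-!
Row 105 (S0138, picture with solids), task 2456 (STEPQ), part 1: growth on slices, one level of
the step with solids.
-/

set_option autoImplicit false
set_option linter.unusedSectionVars false

open Set Filter Topology Metric

namespace Crest.Agent.R105.Spq_722

open Stp_722

local notation "cc" => connectedComponentIn

variable {X : Type*} [TopologicalSpace X] [T2Space X] {V E : Set X} {h : X → ℝ}

section slice

variable {B τ : ℝ} {z c χ : X → ℝ}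

/-- growth of a portion contained in one level `{h = t}`: only the oscillation of `z` counts. -/
theorem growth_slice (hh : Continuous h) (hτ : 0 < τ) {P : Set X} {t : ℝ}
    (hPt : ∀ p ∈ P, h p = t) {N : Set X} (hN : IsOpen N)
    (hPN : P ⊆ N) {k A m a : ℝ} (hA0 : 0 ≤ A) (hm0 : 0 ≤ m)
    (hc : ∀ q ∈ N ∩ V, c q = k) (hA : ∀ q ∈ N ∩ V, |χ q - k| ≤ A)
    (hz01 : ∀ x, 0 ≤ z x ∧ z x ≤ 1)
    (hz : OscLe (V ∩ {x | h x < B}) (P ∩ {x | h x ≤ B}) z m) (ha : OscLe V P χ a) :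
    OscLe V P (op h B τ z c χ) (a + m * A) := by
  have hmA : 0 ≤ m * A := mul_nonneg hm0 hA0
  rcases lt_or_ge B t with h1 | h1
  · -- above the level nothing changes
    refine (ha.congr (O := {x | B < h x}) (isOpen_lt continuous_const hh)
      (fun p hp => by simp only [mem_ofPred_eq]; rw [hPt p hp]; exact h1)
      fun q hq => op_eq_of_le hτ (le_of_lt hq.1)).mono (by linarith)
  intro ε hε
  set e' := ε / (4 * (A + 1)) with he'
  have he'0 : 0 < e' := by positivity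
  have hεA : e' * A ≤ ε / 4 := by
    rw [he', div_mul_eq_mul_div, div_le_div_iff₀ (by positivity) (by norm_num)]
    nlinarith
  obtain ⟨O, hO, hPO, H⟩ := ha (ε / 2) (by linarith)
  obtain ⟨Oz, hOz, hPOz, Hz⟩ := hz e' he'0
  have hpz : P ⊆ Oz := fun p hp => hPOz ⟨hp, by simp only [mem_ofPred_eq]; rw [hPt p hp]; exact h1⟩
  -- near `P` the ramp varies by less than `e'`
  have hcont : Continuous fun x => th B τ (h x) := by unfold th; fun_prop
  set Oθ : Set X := {x | |th B τ (h x) - th B τ t| < e' / 2} with hOθ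
  have hOθo : IsOpen Oθ := isOpen_lt (by fun_prop) continuous_const
  have hpθ : P ⊆ Oθ := fun p hp => by
    simp only [hOθ, mem_ofPred_eq]; rw [hPt p hp, sub_self, abs_zero]; linarith
  -- the weight varies by at most `m + 2 e'`
  have hw : ∀ q ∈ (Oz ∩ Oθ) ∩ V, ∀ q' ∈ (Oz ∩ Oθ) ∩ V,
      |th B τ (h q) * z q - th B τ (h q') * z q'| ≤ m + 2 * e' := by
    intro q hq q' hq'
    have t0 : |th B τ (h q) - th B τ t| < e' / 2 := hq.1.2
    have t0' : |th B τ (h q') - th B τ t| < e' / 2 := hq'.1.2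
    have t1 := abs_lt.1 t0
    have t2 := abs_lt.1 t0'
    have hθ : |th B τ (h q) - th B τ (h q')| ≤ e' := by rw [abs_le]; constructor <;> linarith
    obtain ⟨z0, z1⟩ := hz01 q
    obtain ⟨z0', z1'⟩ := hz01 q'
    have s0 := th_nonneg B τ (h q)
    have s1 := th_le_one B τ (h q)
    have s0' := th_nonneg B τ (h q')
    have s1' := th_le_one B τ (h q')
    rcases le_or_gt B (h q) with h2 | h2
    · -- `θ q = 0`
      have z : th B τ (h q) = 0 := th_eq_zero hτ h2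
      rw [z] at hθ ⊢
      rw [zero_mul, zero_sub, abs_neg, abs_of_nonneg (mul_nonneg s0' z0')]
      rw [zero_sub, abs_neg, abs_of_nonneg s0'] at hθ
      have := mul_le_mul hθ z1' z0' (by linarith)
      linarith
    rcases le_or_gt B (h q') with h3 | h3
    · have z : th B τ (h q') = 0 := th_eq_zero hτ h3
      rw [z] at hθ ⊢
      rw [zero_mul, sub_zero, abs_of_nonneg (mul_nonneg s0 z0)]
      rw [sub_zero, abs_of_nonneg s0] at hθ
      have := mul_le_mul hθ z1 z0 (by linarith)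
      linarith
    have hzz := Hz q ⟨hq.1.1, hq.2, h2⟩ q' ⟨hq'.1.1, hq'.2, h3⟩
    have e : th B τ (h q) * z q - th B τ (h q') * z q' =
        (th B τ (h q) - th B τ (h q')) * z q + th B τ (h q') * (z q - z q') := by ring
    rw [e]
    calc _ ≤ |(th B τ (h q) - th B τ (h q')) * z q| + |th B τ (h q') * (z q - z q')| :=
          abs_add_le _ _
      _ = |th B τ (h q) - th B τ (h q')| * z q + th B τ (h q') * |z q - z q'| := by
          rw [abs_mul, abs_mul, abs_of_nonneg z0, abs_of_nonneg s0']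
      _ ≤ e' * 1 + 1 * (m + e') := by gcongr
      _ = m + 2 * e' := by ring
  refine ⟨(O ∩ N) ∩ (Oz ∩ Oθ), (hO.inter hN).inter (hOz.inter hOθo), ?_, ?_⟩
  · exact subset_inter (subset_inter hPO hPN) (subset_inter hpz hpθ)
  · intro q hq q' hq'
    have hqN : q ∈ N ∩ V := ⟨hq.1.1.2, hq.2⟩
    have hqN' : q' ∈ N ∩ V := ⟨hq'.1.1.2, hq'.2⟩
    have h7 := H q ⟨hq.1.1.1, hq.2⟩ q' ⟨hq'.1.1.1, hq'.2⟩
    have h8 := abs_combo_le (a := χ q) (w_nonneg (h := h) (B := B) (τ := τ) hz01 q)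
      (w_le_one hz01 q) (hw q ⟨hq.1.2, hq.2⟩ q' ⟨hq'.1.2, hq'.2⟩) (hA q' hqN')
    unfold op
    rw [hc q hqN, hc q' hqN']
    have h9 : (m + 2 * e') * A = m * A + 2 * (e' * A) := by ring
    linarith

variable {n : ℕ} {N : Fin n → Set X} {k k' : Fin n → ℝ} {m A η : ℝ}

/-- growth of a slice in a one-sided operation. -/
theorem slice_side (hN : Pieces E N) (hh : Continuous h) (hτ : 0 < τ)
    (hz : Cut V E h B (⋃ i, N i) m z) (hm0 : 0 ≤ m) (hA0 : 0 ≤ A)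
    (hA : ∀ i, ∀ q ∈ N i ∩ V, |χ q - k i| ≤ A) {x : X} (hx : x ∈ E) {P : Set X}
    (hP : P ⊆ cc E x) {t : ℝ} (hPt : ∀ p ∈ P, h p = t) {b : ℝ}
    (hb : OscLe V P χ b) : OscLe V P (op h B τ z (cst N k) χ) (b + m * A) := by
  have hmA : 0 ≤ m * A := mul_nonneg hm0 hA0
  by_cases hne : ∃ i, (cc E x ∩ N i).Nonempty
  · obtain ⟨i, hi⟩ := hne
    have hKN := hN.sat i x hx hi
    exact growth_slice hh hτ hPt (hN.opn i) (hP.trans hKN) (c := cst N k) (k := k i) hA0 hm0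
      (fun q hq => hN.cst_eq hq.1 k) (hA i) hz.z01
      ((hz.osc x hx).mono_set (inter_subset_inter_left _ hP)) hb
  · obtain ⟨C, hC, hCW, hC0⟩ := hz.supp
    refine (growth_off hC hC0 ?_ hb).mono (by linarith)
    rw [Set.disjoint_left]
    intro y hyP hyC
    obtain ⟨i, hi⟩ := mem_iUnion.1 (hCW hyC)
    exact hne ⟨i, y, hP hyP, hi⟩

end slice

section two

variable {n : ℕ} {N : Fin n → Set X} {k k' lo hi : Fin n → ℝ} {B B' τ m A η : ℝ}
  {z z' χ : X → ℝ}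

theorem data_slice (D : Data V E h N k k' lo hi B B' τ m A η z z' χ) {x : X} (hx : x ∈ E)
    {P : Set X} (hP : P ⊆ cc E x) {t : ℝ} (hPt : ∀ p ∈ P, h p = t) {b : ℝ}
    (hb : OscLe V P χ b) :
    OscLe V P (op2 h B B' τ z z' (cst N k) (cst N k') χ) (b + 2 * (m * A)) := by
  have h1 := slice_side D.hN D.hh D.hτ D.hz D.hm0 D.hA0 D.hA1 hx hP hPt hb
  have h2 := slice_side (k := k') (t := -t) D.hN D.hh.neg D.hτ D.hz' D.hm0 D.hA0 D.hA2 hx hP
    (fun p hp => by change - h p = - t; rw [hPt p hp]) h1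
  exact h2.mono (by linarith)

end two


/-- constants of the step with solids -/
structure ConstQ (m : ℕ) (R μ A σ0 σ1 ε1 : ℝ) : Prop where
  R0 : 0 ≤ R
  μ0 : 0 < μ
  A0 : 0 ≤ A
  ε0 : 0 < ε1
  σ : ∀ i < m, σ0 + i * (2 * (μ * A)) ≤ σ1
  σ10 : 0 ≤ σ1

/-- invariants after the first `i` levels -/
structure InvQ (V E : Set X) (h : X → ℝ) (Cl : (X → ℝ) → Prop)
    (D : (X → ℝ) → (X → ℝ) → ℝ → Prop) (φ : X → ℝ) (R : ℝ) {l : ℕ} (N0 : Fin l → Set X)
    (lo hi : Fin l → ℝ) (g : Set X) (μ A σ0 σ1 ε1 e1 : ℝ) (Bs : ℕ → ℝ) (i : ℕ)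
    (χ : X → ℝ) : Prop where
  cl : Cl χ
  bd : ∀ x, |χ x| ≤ R
  en : D φ χ (i * e1)
  hull : ∀ l, ∀ q ∈ N0 l, ∀ lo' hi', lo' ≤ lo l → hi l ≤ hi' → φ q ∈ Icc lo' hi' →
    χ q ∈ Icc lo' hi'
  off : ∀ x ∉ ⋃ l, N0 l, χ x = φ x
  slice : ∀ x ∈ g, ∀ t, OscLe V (cc E x ∩ {y | h y = t}) χ (σ0 + i * (2 * (μ * A)))
  grow : ∀ x ∈ E, ∀ P ⊆ cc E x, Lev V h P → ∀ b, OscLe V P φ b →
    OscLe V P χ (b + i * (2 * (μ * A + 2 * (σ1 + ε1))))
  hist : ∀ j < i, ∀ x ∈ g,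
    OscLe V (cc E x ∩ {y | h y ≤ Bs j}) χ
      (2 * (σ1 + ε1) + i * (2 * (μ * A + 2 * (σ1 + ε1)))) ∨
    OscLe V (cc E x ∩ {y | Bs (j + 1) ≤ h y}) χ
      (2 * (σ1 + ε1) + i * (2 * (μ * A + 2 * (σ1 + ε1))))

/-- `choose_const` with a value of the hull which does not depend on the point -/
theorem choose_constQ {N V : Set X} {χ : X → ℝ} {B τ η lo hi R : ℝ} (hlohi : lo ≤ hi)
    (hlo : -R ≤ lo) (hhi : hi ≤ R) (hR : ∀ x, |χ x| ≤ R) (hlh : ∀ q ∈ N ∩ V, χ q ∈ Icc lo hi)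
    (hp : ∀ q ∈ N ∩ V, ∀ q' ∈ N ∩ V, |h q - B| < 2 * τ → |h q' - B| < 2 * τ → |χ q - χ q'| ≤ η) :
    ∃ k, |k| ≤ R ∧ k ∈ Icc lo hi ∧ ∀ q ∈ N ∩ V, |h q - B| < 2 * τ → |χ q - k| ≤ η := by
  by_cases h1 : ∃ q ∈ N ∩ V, |h q - B| < 2 * τ
  · obtain ⟨q, hq, hqB⟩ := h1
    exact ⟨χ q, hR q, hlh q hq, fun q' hq' h' => hp q' hq' q hq h' hqB⟩
  · push Not at h1
    refine ⟨lo, abs_le.2 ⟨hlo, hlohi.trans hhi⟩, ⟨le_rfl, hlohi⟩, ?_⟩
    exact fun q' hq' h' => absurd h' (not_lt.2 (h1 q' hq'))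

theorem InvQ.step {Hr : Set X} {Cl : (X → ℝ) → Prop}
    {D : (X → ℝ) → (X → ℝ) → ℝ → Prop} {ρ : ℝ}
    (S : SetupR V E h Hr Cl D ρ) {φ : X → ℝ} {R : ℝ} {l : ℕ}
    {N0 : Fin l → Set X} (hN0 : Pieces E N0) {lo hi : Fin l → ℝ}
    (hbase : ∀ l, ∀ q ∈ N0 l ∩ V, φ q ∈ Icc (lo l) (hi l))
    (hlo : ∀ l, -R ≤ lo l) (hhi : ∀ l, hi l ≤ R) (hle : ∀ l, lo l ≤ hi l)
    {m : ℕ} {μ A σ0 σ1 ε1 e1 : ℝ} (hlh : ∀ i, hi i - lo i ≤ A)
    (C : ConstQ m R μ A σ0 σ1 ε1) (he1 : 0 < e1) {g : Set X}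
    (hg : FamC E g) (hgHr : g ⊆ Hr) (hcov : g ⊆ ⋃ l, N0 l)
    {Bs : ℕ → ℝ} (hBs : ∀ i, Bs i + ρ ≤ Bs (i + 1)) (hBs' : ∀ i, Bs i < Bs (i + 1))
    {i : ℕ} (him : i < m) {χ : X → ℝ}
    (I : InvQ V E h Cl D φ R N0 lo hi g μ A σ0 σ1 ε1 e1 Bs i χ) :
    ∃ χ', InvQ V E h Cl D φ R N0 lo hi g μ A σ0 σ1 ε1 e1 Bs (i + 1) χ' ∧
      ∀ x ∉ ⋃ l, N0 l, χ' x = χ x := by
  classical
  have hgE : g ⊆ E := hg.sub
  set G := cross E h g (Bs i) (Bs (i + 1)) with hG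
  have hGc : IsCompact G := isCompact_cross S.hE S.hh hgE hg.nb _ _
  have hGg : G ⊆ g := fun x hx => hx.1
  have hη0 : 0 ≤ σ1 + ε1 := by have := C.σ10; have := C.ε0; linarith
  have hμA : 0 ≤ μ * A := mul_nonneg C.μ0.le C.A0
  set gg := 2 * (μ * A + 2 * (σ1 + ε1)) with hgg
  have hgg0 : 0 ≤ gg := by rw [hgg]; linarith
  have hslc : ∀ t, ∀ x ∈ G, OscLe V (cc E x ∩ {y | h y = t}) χ σ1 := fun t x hx =>
    (I.slice x (hGg hx) t).mono (C.σ i him)
  obtain ⟨n, p, N, τ, hN, hGN, hp, hNO, hτ, hτB, hsl, hsl'⟩ := fine_data (V := V) S.hE S.hh hGc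
    (hGg.trans hgE) C.ε0 (hBs' i) (hslc (Bs i)) (hslc (Bs (i + 1)))
    (fun x => ⋃ j, ⋃ (_ : x ∈ N0 j), N0 j)
    (fun x _ => isOpen_iUnion fun j => isOpen_iUnion fun _ => hN0.opn j)
    (fun x hx => by
      obtain ⟨j, hj⟩ := mem_iUnion.1 (hcov (hGg hx))
      refine subset_trans ?_ (subset_iUnion_of_subset j (subset_iUnion_of_subset hj Subset.rfl))
      exact hN0.sat _ x (hgE (hGg hx)) ⟨x, mem_connectedComponentIn (hgE (hGg hx)), hj⟩)
  have hl : ∀ j : Fin n, ∃ j0, p j ∈ N0 j0 := fun j => mem_iUnion.1 (hcov (hGg (hp j)))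
  choose lx hlx using hl
  have hNN0 : ∀ j, N j ⊆ N0 (lx j) := by
    intro j y hy
    have h1 := hNO j hy
    simp only [mem_iUnion] at h1
    obtain ⟨j0, hj0, hy0⟩ := h1
    have : lx j = j0 := by
      by_contra hne
      exact Set.disjoint_left.1 (hN0.disj _ _ hne) (hlx j) hj0
    rw [this]; exact hy0
  have hhull : ∀ j, ∀ q ∈ N j ∩ V, χ q ∈ Icc (lo (lx j)) (hi (lx j)) := fun j q hq =>
    I.hull _ q (hNN0 j hq.1) _ _ le_rfl le_rfl (hbase _ q ⟨hNN0 j hq.1, hq.2⟩)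
  choose k hkR hkI hkη using fun j => choose_constQ (h := h) (hle (lx j)) (hlo _) (hhi _)
    I.bd (hhull j) (hsl j)
  choose k' hkR' hkI' hkη' using fun j => choose_constQ (h := h) (hle (lx j)) (hlo _) (hhi _)
    I.bd (hhull j) (hsl' j)
  obtain ⟨z, z', hz, hz', hone, hcl, hen⟩ := S.layer (Bs i) (Bs (i + 1)) G (⋃ j, N j) χ (cst N k)
    (cst N k') R τ μ e1 (hBs i) hGc (hGg.trans hgHr) (fun x hx y hy => cross_sat hg.sat hx hy)
    (isOpen_iUnion hN.opn) hGN (fun x hx => hx.2) I.cl I.bd (cst_abs_le C.R0 hkR)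
    (cst_abs_le C.R0 hkR') (hN.cst_loc k) (hN.cst_loc k') hτ C.μ0 he1
  have Da : Data V E h N k k' (fun j => lo (lx j)) (fun j => hi (lx j)) (Bs i)
      (Bs (i + 1)) τ μ A (σ1 + ε1) z z' χ :=
    { hh := S.hh, hN := hN, hBB := hBs' i, hτ := hτ, hτB := hτB, hm0 := C.μ0.le, hA0 := C.A0,
      hη0 := hη0, hz := hz, hz' := hz', hlh := fun j => hlh _, hχ := hhull,
      hk := fun j q _ => hkI j, hk' := fun j q _ => hkI' j, hη := hkη, hη' := hkη' }
  have hNsub : (⋃ j, N j) ⊆ ⋃ l, N0 l := by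
    refine iUnion_subset fun j => (hNN0 j).trans (subset_iUnion N0 _)
  have hoff : ∀ x ∉ ⋃ l, N0 l, op2 h (Bs i) (Bs (i + 1)) τ z z' (cst N k) (cst N k') χ x = χ x :=
    fun x hx => Da.off fun hx' => hx (hNsub hx')
  have hcast : ((i + 1 : ℕ) : ℝ) = (i : ℝ) + 1 := by push_cast; ring
  refine ⟨op2 h (Bs i) (Bs (i + 1)) τ z z' (cst N k) (cst N k') χ, ?_, hoff⟩
  refine ⟨hcl, fun x => Da.bound I.bd hkR hkR' x, ?_, ?_, ?_, ?_, ?_, ?_⟩
  · have := S.Dadd _ _ _ _ _ I.en hen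
    rw [hcast]
    convert this using 1
    ring
  · intro j q hq lo' hi' hlo hhi hφ
    by_cases hqN : q ∈ ⋃ j, N j
    · obtain ⟨j', hj'⟩ := mem_iUnion.1 hqN
      have h2 : lx j' = j := by
        by_contra hne
        exact Set.disjoint_left.1 (hN0.disj _ _ hne) (hNN0 j' hj') hq
      have hc : cst N k q ∈ Icc lo' hi' := by
        rw [hN.cst_eq hj']
        have := hkI j'
        rw [h2] at this
        exact ⟨hlo.trans this.1, this.2.trans hhi⟩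
      have hc' : cst N k' q ∈ Icc lo' hi' := by
        rw [hN.cst_eq hj']
        have := hkI' j'
        rw [h2] at this
        exact ⟨hlo.trans this.1, this.2.trans hhi⟩
      exact op_mem_Icc hz'.z01 (op_mem_Icc hz.z01 (I.hull j q hq lo' hi' hlo hhi hφ) hc) hc'
    · rw [Da.off hqN]
      exact I.hull j q hq lo' hi' hlo hhi hφ
  · intro x hx
    rw [hoff x hx]
    exact I.off x hx
  · intro x hx t
    have := data_slice Da (hgE hx) (inter_subset_left (t := {y | h y = t})) (fun p hp => hp.2)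
      (I.slice x hx t)
    rw [hcast]
    refine this.mono (le_of_eq ?_)
    ring
  · intro x hx P hP hPl b hb
    have := Da.growth hx hP hPl (I.grow x hx P hP hPl b hb)
    rw [hcast]
    refine this.mono (le_of_eq ?_)
    ring
  · intro j hj x hx
    have hxE := hgE hx
    have hgrow : ∀ I' : Set ℝ, I'.OrdConnected → ∀ b, OscLe V (cc E x ∩ h ⁻¹' I') χ b →
        OscLe V (cc E x ∩ h ⁻¹' I')
          (op2 h (Bs i) (Bs (i + 1)) τ z z' (cst N k) (cst N k') χ) (b + gg) := by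
      intro I' hI' b hb
      exact Da.growth hxE inter_subset_left (S.levI x hxE I' hI') hb
    have e1' : 2 * (σ1 + ε1) + ((i + 1 : ℕ) : ℝ) * gg =
        (2 * (σ1 + ε1) + (i : ℝ) * gg) + gg := by
      rw [hcast]; ring
    rcases Nat.lt_succ_iff_lt_or_eq.1 hj with hj | rfl
    · rcases I.hist j hj x hx with h1 | h1
      · left
        rw [e1']
        exact hgrow (Iic (Bs j)) ordConnected_Iic _ h1
      · right
        rw [e1']
        exact hgrow (Ici (Bs (j + 1))) ordConnected_Ici _ h1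
    · have hbig : 2 * (σ1 + ε1) ≤ 2 * (σ1 + ε1) + ((j + 1 : ℕ) : ℝ) * gg := by
        have : 0 ≤ ((j + 1 : ℕ) : ℝ) * gg := by positivity
        linarith
      by_cases hxG : x ∈ G
      · obtain ⟨j', hj'⟩ := mem_iUnion.1 (hGN hxG)
        have hKj : cc E x ⊆ N j' := hN.sat _ x hxE ⟨x, mem_connectedComponentIn hxE, hj'⟩
        rcases Da.flat hKj (hone x hxG) with h1 | h1
        · exact Or.inl (h1.mono hbig)
        · exact Or.inr (h1.mono hbig)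
      · have hnot : ¬ ((∃ y ∈ cc E x, h y ≤ Bs j) ∧ ∃ y ∈ cc E x, Bs (j + 1) ≤ h y) := fun h' =>
          hxG ⟨hx, h'⟩
        rw [not_and_or] at hnot
        rcases hnot with h1 | h1
        · left
          have : cc E x ∩ {y | h y ≤ Bs j} = ∅ := by
            rw [eq_empty_iff_forall_notMem]
            exact fun y hy => h1 ⟨y, hy.1, hy.2⟩
          rw [this]; exact oscLe_empty
        · right
          have : cc E x ∩ {y | Bs (j + 1) ≤ h y} = ∅ := by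
            rw [eq_empty_iff_forall_notMem]
            exact fun y hy => h1 ⟨y, hy.1, hy.2⟩
          rw [this]; exact oscLe_empty

end Crest.Agent.R105.Spq_722
end

-- ▼ part R105/Spq2_722
section

/-!
Row 105 (S0138, picture with solids), task 2456 (STEPQ), part 2: **the step with solids, frame
free** (no bound on the oscillation of the components is needed; output = hull + small
oscillation + growth).
-/

set_option autoImplicit false
set_option linter.unusedSectionVars false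

open Set Filter Topology Metric

namespace Crest.Agent.R105.Spq_722

open Stp_722

local notation "cc" => connectedComponentIn

variable {X : Type*} [TopologicalSpace X] [T2Space X] {V E : Set X} {h : X → ℝ}

/-- a compact saturated part of `E` -/
structure Part (E E' : Set X) : Prop where
  cpt : IsCompact E'
  sub : E' ⊆ E
  sat : ∀ x ∈ E', cc E x ⊆ E'

theorem Part.compl {E' : Set X} (hE' : Part E E') {x : X} (hx : x ∈ E \ E') :
    cc E x ⊆ E'ᶜ := by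
  intro y hy hyE'
  have h1 := hE'.sat y hyE'
  rw [cc_eq hy] at h1
  exact hx.2 (h1 (mem_connectedComponentIn hx.1))

theorem famC_gset {E' : Set X} (hE' : Part E E') (φ : X → ℝ) (b : ℝ) :
    FamC E (gset V E φ b ∩ E') where
  sub := fun x hx => hx.1.1
  sat := fun x hx y hy => ⟨gset_sat hx.1 hy, hE'.sat x hx.2 hy⟩
  nb := by
    rintro x ⟨hxE, hx⟩
    by_cases hxE' : x ∈ E'
    · have h1 : ¬ x ∈ gset V E φ b := fun h => hx ⟨h, hxE'⟩
      simp only [gset, mem_ofPred_eq, not_and, not_not] at h1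
      obtain ⟨c, hc, hosc⟩ := h1 hxE
      obtain ⟨O, hO, hxO, H⟩ := hosc.exists_nhds (show c < (c + b) / 2 by linarith)
      exact ⟨O, hO, hxO, fun y _ hyO hyg => hyg.1.2 ⟨(c + b) / 2, by linarith, H _ hyO⟩⟩
    · refine ⟨E'ᶜ, hE'.cpt.isClosed.isOpen_compl, hE'.compl ⟨hxE, hxE'⟩, ?_⟩
      exact fun y hyE hyO hyg => hyO (mem_connectedComponentIn hyE) hyg.2

theorem isCompact_gset' {E' : Set X} (hE : IsCompact E) (hE' : Part E E') (φ : X → ℝ) (b : ℝ) :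
    IsCompact (gset V E φ b ∩ E') := (isCompact_gset hE b).inter hE'.cpt

/-- a neighbourhood of a member of the family meets `V`. -/
theorem meets_of_gset {φ : X → ℝ} {b : ℝ} {x : X} (hx : x ∈ gset V E φ b) {O : Set X}
    (hO : IsOpen O) (hxO : cc E x ⊆ O) : (O ∩ V).Nonempty := by
  by_contra h0
  rw [not_nonempty_iff_eq_empty] at h0
  refine hx.2 ⟨b - 1, by linarith, fun ε _ => ⟨O, hO, hxO, fun q hq => ?_⟩⟩
  rw [h0] at hq
  exact absurd hq (notMem_empty _)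

/-- **the step with solids**, abstract form. -/
theorem step_bQ {Hr : Set X} {Cl : (X → ℝ) → Prop} {D : (X → ℝ) → (X → ℝ) → ℝ → Prop} {ρ : ℝ}
    (S : SetupR V E h Hr Cl D ρ) {E' : Set X} (hE' : Part E E') {φ : X → ℝ} (hφ : Cl φ)
    {R : ℝ} (hR0 : 0 ≤ R) (hR : ∀ x, |φ x| ≤ R) {a : ℝ} (ha : 0 < a)
    (hgHr : gset V E φ (a / 4) ∩ E' ⊆ Hr)
    {d B0 : ℝ} {m : ℕ} (hd : 0 < d) (hρd : ρ ≤ d) (hm : 0 < m)
    (hcov : ∀ x ∈ E', B0 ≤ h x ∧ h x ≤ B0 + m * d)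
    (hport : ∀ x ∈ gset V E φ (a / 4) ∩ E', ∀ s,
      OscLe V (cc E x ∩ {y | s ≤ h y ∧ h y ≤ s + 2 * d}) φ (a / 100))
    (hslice : ∀ x ∈ gset V E φ (a / 4) ∩ E', ∀ s,
      OscLe V (cc E x ∩ {y | h y = s}) φ (a / (1000 * m)))
    {O : X → Set X} (hO : ∀ x ∈ gset V E φ (a / 4) ∩ E', IsOpen (O x) ∧ cc E x ⊆ O x)
    {ε : ℝ} (hε : 0 < ε) :
    ∃ φ' : X → ℝ, Cl φ' ∧ (∀ x, |φ' x| ≤ R) ∧ D φ φ' ε ∧
      (∀ x ∈ E', OscLe V (cc E x) φ' (a / 3)) ∧
      (∀ q, φ' q = φ q ∨ ∃ x ∈ gset V E φ (a / 4) ∩ E', q ∈ O x ∧ ∀ lo hi,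
        (∀ q' ∈ O x ∩ V, φ q' ∈ Icc lo hi) → φ q ∈ Icc lo hi → φ' q ∈ Icc lo hi) ∧
      ∀ x ∈ E, ∀ P ⊆ cc E x, Lev V h P → ∀ b, OscLe V P φ b → OscLe V P φ' (b + a / 50) := by
  classical
  set g := gset V E φ (a / 4) ∩ E' with hg
  have hgF : FamC E g := famC_gset hE' φ _
  have hgE : g ⊆ E := hgF.sub
  have hgc : IsCompact g := isCompact_gset' S.hE hE' φ _
  -- coarse pieces
  obtain ⟨l, p, N0, hp, hN0o, hN0U, hd0, hsat0, hcov0⟩ := exists_thick S.hE hgc hgE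
    O (fun x hx => (hO x hx).1) (fun x hx => (hO x hx).2)
  have hN0 : Pieces E N0 := ⟨hN0o, hd0, hsat0⟩
  set F : Fin l → Set ℝ := fun i => φ '' (O (p i) ∩ V) with hF
  have hFne : ∀ i, (F i).Nonempty := fun i =>
    (meets_of_gset (hp i).1 (hO _ (hp i)).1 (hO _ (hp i)).2).image φ
  have hFb : ∀ i, ∀ y ∈ F i, -R ≤ y ∧ y ≤ R := by
    rintro i y ⟨q, _, rfl⟩
    exact abs_le.1 (hR q)
  have hbb : ∀ i, BddBelow (F i) := fun i => ⟨-R, fun y hy => (hFb i y hy).1⟩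
  have hba : ∀ i, BddAbove (F i) := fun i => ⟨R, fun y hy => (hFb i y hy).2⟩
  set lo : Fin l → ℝ := fun i => sInf (F i) with hlo
  set hi : Fin l → ℝ := fun i => sSup (F i) with hhi
  have hloR : ∀ i, -R ≤ lo i := fun i => le_csInf (hFne i) fun y hy => (hFb i y hy).1
  have hhiR : ∀ i, hi i ≤ R := fun i => csSup_le (hFne i) fun y hy => (hFb i y hy).2
  have hlohi : ∀ i, lo i ≤ hi i := fun i => by
    obtain ⟨y, hy⟩ := hFne i
    exact (csInf_le (hbb i) hy).trans (le_csSup (hba i) hy)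
  have hbase : ∀ i, ∀ q ∈ N0 i ∩ V, φ q ∈ Icc (lo i) (hi i) := fun i q hq =>
    ⟨csInf_le (hbb i) ⟨q, ⟨hN0U i hq.1, hq.2⟩, rfl⟩, le_csSup (hba i) ⟨q, ⟨hN0U i hq.1, hq.2⟩, rfl⟩⟩
  -- constants
  have hM : (0:ℝ) < m := by exact_mod_cast hm
  have hM1 : (1:ℝ) ≤ m := by exact_mod_cast hm
  set M : ℝ := (m : ℝ) with hMdef
  set t : ℝ := a / (1000 * M) with ht
  have ht0 : 0 < t := by positivity
  have htM : M * t = a / 1000 := by rw [ht]; field_simp
  have hta : t ≤ a / 1000 := by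
    rw [← htM]; nlinarith
  set A : ℝ := 2 * R with hA
  have hA0 : 0 ≤ A := by positivity
  set μ : ℝ := t / (2 * M * (A + 1)) with hμ
  have hμ0 : 0 < μ := by positivity
  have hμA : M * (2 * (μ * A)) ≤ t := by
    have e : M * (2 * (μ * A)) = t * (A / (A + 1)) := by
      rw [hμ]; field_simp
    rw [e]
    have h1 : A / (A + 1) ≤ 1 := by rw [div_le_one (by positivity)]; linarith
    nlinarith
  have hμA1 : 2 * (μ * A) ≤ t := by
    have h1 : 0 ≤ 2 * (μ * A) := by positivity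
    nlinarith
  set e1 : ℝ := ε / M with he1
  have he10 : 0 < e1 := by positivity
  have C : ConstQ m R μ A t (2 * t) t :=
    { R0 := hR0, μ0 := hμ0, A0 := hA0, ε0 := ht0
      σ := fun i hi => by
        have h1 : (i:ℝ) ≤ M := by rw [hMdef]; exact_mod_cast hi.le
        have h2 : 0 ≤ 2 * (μ * A) := by positivity
        have := mul_le_mul_of_nonneg_right h1 h2
        linarith
      σ10 := by positivity }
  set Bs : ℕ → ℝ := fun i => B0 + i * d with hBs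
  have hBs1 : ∀ i, Bs i < Bs (i + 1) := by
    intro i; simp only [hBs]; push_cast; nlinarith
  have hBs2 : ∀ i, Bs i + ρ ≤ Bs (i + 1) := by
    intro i; simp only [hBs]; push_cast; nlinarith
  -- induction
  have key : ∀ i ≤ m, ∃ χ, InvQ V E h Cl D φ R N0 lo hi g μ A t (2 * t) t e1 Bs i χ := by
    intro i
    induction i with
    | zero =>
      intro _
      refine ⟨φ, hφ, hR, ?_, ?_, fun _ _ => rfl, ?_, ?_, ?_⟩
      · simpa using S.D0 φ hφ
      · exact fun _ _ _ _ _ _ _ h => h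
      · intro x hx s
        simpa using hslice x hx s
      · intro x _ P _ _ b hb
        simpa using hb
      · intro j hj
        exact absurd hj (Nat.not_lt_zero _)
    | succ i ih =>
      intro hi
      obtain ⟨χ, hχ⟩ := ih (by omega)
      obtain ⟨χ', hχ', _⟩ := hχ.step S hN0 hbase hloR hhiR hlohi (fun i => by
        have := hloR i; have := hhiR i; rw [hA]; linarith) C he10 hgF hgHr hcov0 hBs2 hBs1
        (show i < m by omega)
      exact ⟨χ', hχ'⟩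
  obtain ⟨χ, I⟩ := key m le_rfl
  -- total growth
  have hgg : M * (2 * (μ * A + 2 * (2 * t + t))) ≤ 13 * a / 1000 := by
    have e : M * (2 * (μ * A + 2 * (2 * t + t))) =
      M * (2 * (μ * A)) + 12 * (M * t) := by ring
    rw [e, htM]; linarith
  have hgrow : ∀ x ∈ E, ∀ P ⊆ cc E x, Lev V h P → ∀ b, OscLe V P φ b →
      OscLe V P χ (b + 13 * a / 1000) := by
    intro x hx P hP hPl b hb
    exact (I.grow x hx P hP hPl b hb).mono (by linarith)
  refine ⟨χ, I.cl, I.bd, ?_, ?_, ?_, ?_⟩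
  · have := I.en
    have e : (m:ℝ) * e1 = ε := by rw [he1, ← hMdef]; field_simp
    rwa [e] at this
  · intro x hxE'
    have hx : x ∈ E := hE'.sub hxE'
    have hlev : Lev V h (cc E x) := by
      have := S.levI x hx univ ordConnected_univ
      rwa [preimage_univ, inter_univ] at this
    by_cases hxg : x ∈ g
    · set c1 := 30 * a / 1000 with hc1
      have hpor : ∀ I' : Set ℝ, I'.OrdConnected → ∀ s, I' ∩ Icc B0 (B0 + M * d) ⊆ Icc s (s + 2 * d) →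
          OscLe V (cc E x ∩ h ⁻¹' I') χ (a / 100 + 13 * a / 1000) := by
        intro I' hI' s hs
        refine hgrow x hx _ inter_subset_left (S.levI x hx I' hI') _ ?_
        refine (hport x hxg s).mono_set ?_
        rintro y ⟨hy, hyI⟩
        have := hs ⟨hyI, hcov y (hE'.sat x hxE' hy)⟩
        exact ⟨hy, this.1, this.2⟩
      have h2M : M * d = m * d := rfl
      obtain ⟨i, j, hij, hji, hLo, hUp⟩ := comb_levels (m := m)
        (Lo := fun i => OscLe V (cc E x ∩ {y | h y ≤ Bs i}) χ c1)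
        (Up := fun j => OscLe V (cc E x ∩ {y | Bs j ≤ h y}) χ c1)
        (by
          have := hpor (Iic (Bs 0)) ordConnected_Iic B0 (by
            rintro t' ⟨h1, h2⟩
            simp only [hBs, Nat.cast_zero, zero_mul, add_zero, mem_Iic] at h1
            exact ⟨h2.1, by linarith⟩)
          exact this.mono (by rw [hc1]; linarith))
        (by
          have := hpor (Ici (Bs m)) ordConnected_Ici (B0 + M * d) (by
            rintro t' ⟨h1, h2⟩
            simp only [hBs, mem_Ici] at h1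
            exact ⟨h1, by linarith [h2.2]⟩)
          exact this.mono (by rw [hc1]; linarith))
        (by
          intro i hi
          rcases I.hist i hi x hxg with h1 | h1
          · left
            refine h1.mono ?_
            rw [hc1]; linarith
          · right
            refine h1.mono ?_
            rw [hc1]; linarith)
      have hmid : OscLe V ((cc E x ∩ h ⁻¹' Ici (Bs i)) ∩ {y | h y ≤ Bs j}) χ
          (a / 100 + 13 * a / 1000) := by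
        have := hpor (Icc (Bs i) (Bs j)) ordConnected_Icc (Bs i) (by
          rintro t' ⟨h1, _⟩
          refine ⟨h1.1, h1.2.trans ?_⟩
          simp only [hBs]
          have : (j:ℝ) ≤ i + 2 := by exact_mod_cast hji
          nlinarith)
        refine this.mono_set ?_
        rintro y ⟨⟨hy, hyi⟩, hyj⟩
        exact ⟨hy, hyi, hyj⟩
      have hup2 : OscLe V (cc E x ∩ h ⁻¹' Ici (Bs i)) χ ((a / 100 + 13 * a / 1000) + c1) := by
        refine osc_split (h := h) (S.levI x hx _ ordConnected_Ici) (s := Bs j) (by positivity)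
          (by positivity) hmid ?_
        refine hUp.mono_set ?_
        rintro y ⟨⟨hy, _⟩, hyj⟩
        exact ⟨hy, hyj⟩
      have hall := osc_split (h := h) hlev (s := Bs i) (by positivity)
        (by positivity) hLo hup2
      refine hall.mono ?_
      rw [hc1]; linarith
    · have h1 : ∃ c < a / 4, OscLe V (cc E x) φ c := by
        by_contra h2
        exact hxg ⟨⟨hx, h2⟩, hxE'⟩
      obtain ⟨c, hc, hcosc⟩ := h1
      refine (hgrow x hx _ Subset.rfl hlev c hcosc).mono ?_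
      linarith
  · intro q
    by_cases hqN : q ∈ ⋃ i, N0 i
    · obtain ⟨i, hi'⟩ := mem_iUnion.1 hqN
      refine Or.inr ⟨p i, hp i, hN0U i hi', fun lo' hi'' hb hq => ?_⟩
      refine I.hull i q hi' lo' hi'' ?_ ?_ hq
      · refine le_csInf (hFne i) ?_
        rintro y ⟨q', hq', rfl⟩
        exact (hb q' hq').1
      · refine csSup_le (hFne i) ?_
        rintro y ⟨q', hq', rfl⟩
        exact (hb q' hq').2
    · exact Or.inl (I.off q hqN)
  · intro x hx P hP hPl b hb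
    exact (hgrow x hx P hP hPl b hb).mono (by linarith)

end Crest.Agent.R105.Spq_722
end

-- ▼ part R105/Spq5_722
section

/-!
Row 105 (S0138, picture with solids), task 2456 (STEPQ), part 5: one round of single operations.
-/

set_option autoImplicit false
set_option linter.unusedSectionVars false

open Set Filter Topology Metric MeasureTheory

namespace Crest.Agent.R105.Spq_722

open Stp_722 CF_363 Cq_463 Exs_992 Thin_891 Lop1_744 Lop3_744 Laq4_744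
open Skp2_257 (Comps)

local notation "cc" => connectedComponentIn

/-- finitely many disjoint compact sets have disjoint neighbourhoods. -/
theorem sep_nbhds {X : Type*} [TopologicalSpace X] [T2Space X] {ι : Type*} [Finite ι]
    {P U : ι → Set X} (hc : ∀ i, IsCompact (P i)) (hd : ∀ i j, i ≠ j → Disjoint (P i) (P j))
    (hU : ∀ i, IsOpen (U i)) (hPU : ∀ i, P i ⊆ U i) :
    ∃ N : ι → Set X, (∀ i, IsOpen (N i)) ∧ (∀ i, P i ⊆ N i) ∧ (∀ i, N i ⊆ U i) ∧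
      ∀ i j, i ≠ j → Disjoint (N i) (N j) := by
  classical
  have hs : ∀ i j, ∃ A B : Set X, i ≠ j → IsOpen A ∧ IsOpen B ∧ P i ⊆ A ∧ P j ⊆ B ∧
      Disjoint A B := by
    intro i j
    by_cases hij : i = j
    · exact ⟨∅, ∅, fun h => absurd hij h⟩
    · obtain ⟨A, B, h⟩ := SeparatedNhds.of_isCompact_isCompact (hc i) (hc j) (hd i j hij)
      exact ⟨A, B, fun _ => h⟩
  choose A B H using hs
  refine ⟨fun i => U i ∩ ⋂ j ∈ {j | j ≠ i}, (A i j ∩ B j i), fun i => ?_, fun i => ?_, fun i =>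
    inter_subset_left, fun i j hij => ?_⟩
  · refine (hU i).inter ((Set.toFinite _).isOpen_biInter fun j hj => ?_)
    exact (H i j (Ne.symm hj)).1.inter (H j i hj).2.1
  · refine subset_inter (hPU i) (subset_iInter₂ fun j hj => ?_)
    exact subset_inter (H i j (Ne.symm hj)).2.2.1 (H j i hj).2.2.2.1
  · rw [Set.disjoint_left]
    rintro x ⟨_, h1⟩ ⟨_, h2⟩
    simp only [mem_iInter] at h1 h2
    have h3 : x ∈ A i j := (h1 j (Ne.symm hij)).1
    have h4 : x ∈ B i j := (h2 i hij).2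
    exact Set.disjoint_left.1 (H i j hij).2.2.2.2 h3 h4

variable {E : Set (ℝ × ℝ)} {𝒬 : Set Sqr} {𝓗 : Set Hair}

theorem DQ_mono {χ χ' : ℝ × ℝ → ℝ} {s t : ℝ} (h : DQ E 𝒬 𝓗 χ χ' s) (hst : s ≤ t) :
    DQ E 𝒬 𝓗 χ χ' t := by
  obtain ⟨h0, h1, h2, h3⟩ := h
  refine ⟨h0.trans hst, h1, h2, h3.trans ?_⟩
  gcongr

theorem TQ_congr_V (hE : QPic E 𝒬 𝓗) {u v : ℝ × ℝ → ℝ} (h : ∀ q ∈ Eᶜ, u q = v q) :
    TQ E univ 𝒬 u = TQ E univ 𝒬 v := by
  have e1 : En (univ \ E) u = En (univ \ E) v :=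
    En_congr (isOpen_univ.sdiff hE.cpt.isClosed) fun p hp => h p hp.2
  have e2 : Ch E univ 𝒬 u = Ch E univ 𝒬 v := by
    unfold Ch ch
    congr 1
    funext Q
    rw [chg_congr isOpen_univ (subset_univ _) fun q hq => h q hq.2.1]
  unfold TQ
  rw [e1, e2]

theorem cc_disj {x y : ℝ × ℝ} (h : cc E x ≠ cc E y) : Disjoint (cc E x) (cc E y) := by
  rw [Set.disjoint_left]
  intro z hz hz'
  exact h ((cc_eq hz).symm.trans (cc_eq hz'))

/-- one round of single operations at a finite family of components. -/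
theorem round (hP : PicS E 𝒬 𝓗)
    (hT : ∀ x ∈ E, (∀ p, cc E x ≠ {p}) →
      Treat Eᶜ E Prod.snd (ClQ 𝓗) (DQ E 𝒬 𝓗) (Sqr.car '' 𝒬) (cc E x))
    {E' : Set (ℝ × ℝ)} (hE' : Piece E E') {W₀ : Set (ℝ × ℝ)} (hW₀ : IsOpen W₀) (hEW : E' ⊆ W₀)
    {F : Set (Set (ℝ × ℝ))} (hfin : F.Finite)
    (hF : ∀ P ∈ F, ∃ x ∈ E', P = cc E x ∧ ∀ p, cc E x ≠ {p}) {χ : ℝ × ℝ → ℝ} (hχ : ClQ 𝓗 χ)
    {b c ε η : ℝ} (hb : 0 ≤ b) (hc : 0 ≤ c) (hosc : ∀ x ∈ E', OscLe Eᶜ (cc E x) χ b)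
    (hsq : ∀ P ∈ F, ∀ Q ∈ 𝒬, Q.car ⊆ P → OscLe Eᶜ Q.car χ c) (hε : 0 < ε) (hη : 0 < η) :
    ∃ χ' : ℝ × ℝ → ℝ, DQ E 𝒬 𝓗 χ χ' ε ∧
      (∃ S, IsClosed S ∧ S ⊆ W₀ ∧ ∀ p ∉ S, χ' p = χ p) ∧
      (∀ q ∈ Eᶜ, |χ' q - χ q| ≤ b + η) ∧ (∀ P ∈ F, OscLe Eᶜ P χ' (c + η)) ∧
      ∀ x ∈ E, cc E x ∉ F → ∀ R ⊆ cc E x, Lev Eᶜ Prod.snd R → ∀ β, OscLe Eᶜ R χ β →
        OscLe Eᶜ R χ' (β + η) := by
  classical
  have hFt : Finite F := hfin.to_subtype
  have hft : Fintype F := Fintype.ofFinite F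
  choose x hx hPx hpt using fun P : F => hF P.1 P.2
  -- neighbourhoods with small oscillation
  have hO : ∀ P : F, ∃ O, IsOpen O ∧ P.1 ⊆ O ∧ ∀ q ∈ O ∩ Eᶜ, ∀ q' ∈ O ∩ Eᶜ,
      |χ q - χ q'| ≤ b + η / 2 := fun P => by
    have h1 := hosc (x P) (hx P) (η / 2) (by linarith)
    rw [← hPx P] at h1
    exact h1
  choose O hOo hPO HO using hO
  have hcpt : ∀ P : F, IsCompact P.1 := fun P => by rw [hPx P]; exact isCompact_cc hP.q.cpt _
  have hPE' : ∀ P : F, P.1 ⊆ E' := fun P => by rw [hPx P]; exact hE'.component_subset (hx P)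
  have hdis : ∀ P P' : F, P ≠ P' → Disjoint P.1 P'.1 := by
    intro P P' hne
    rw [hPx P, hPx P']
    refine cc_disj fun h => hne (Subtype.ext ?_)
    rw [hPx P, hPx P']; exact h
  obtain ⟨N, hNo, hPN, hNU, hNd⟩ := sep_nbhds (ι := F) (P := fun P => P.1)
    (U := fun P => O P ∩ W₀) hcpt hdis (fun P => (hOo P).inter hW₀)
    (fun P => subset_inter (hPO P) ((hPE' P).trans hEW))
  set n : ℝ := ((Finset.univ : Finset F).card : ℝ) with hn
  have hn0 : 0 ≤ n := by positivity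
  have hnn : n / (n + 1) ≤ 1 := by rw [div_le_one (by positivity)]; linarith
  obtain ⟨χ', hD, -, ⟨S, hSc, hSN, hoff⟩, hsup, hfl, hgr⟩ := treat_all (V := Eᶜ) (E := E)
    (h := Prod.snd) (Cl := ClQ 𝓗) (D := DQ E 𝒬 𝓗) (sq := Sqr.car '' 𝒬)
    (fun _ h => DQ.refl h) (fun _ _ _ _ _ h1 h2 => h1.trans hP.q h2) (ι := F)
    (P := fun P => P.1) (N := N) (fun P => by
      have := hT (x P) (hE'.sub (hx P)) (hpt P)
      rwa [← hPx P] at this) hNo hPN hNd hχ (c := c) (A := b + η / 2) (ε := ε / (n + 1))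
    (η := η / (2 * (n + 1))) hc
    (fun P Q hQ hQP => by
      obtain ⟨Q', hQ', rfl⟩ := hQ
      exact hsq P.1 P.2 Q' hQ' hQP) (by positivity)
    (fun P q hq q' hq' => HO P q ⟨(hNU P hq.1).1, hq.2⟩ q' ⟨(hNU P hq'.1).1, hq'.2⟩)
    (by positivity) (by positivity) Finset.univ
  have hη1 : η / (2 * (n + 1)) ≤ η / 2 := by
    apply div_le_div_of_nonneg_left hη.le (by norm_num)
    linarith
  have hηn : n * (η / (2 * (n + 1))) ≤ η := by
    have e : n * (η / (2 * (n + 1))) = (η / 2) * (n / (n + 1)) := by field_simp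
    rw [e]
    nlinarith
  have hεn : n * (ε / (n + 1)) ≤ ε := by
    have e : n * (ε / (n + 1)) = ε * (n / (n + 1)) := by field_simp
    rw [e]
    nlinarith
  refine ⟨χ', DQ_mono hD hεn, ⟨S, hSc, ?_, hoff⟩, ?_, ?_, ?_⟩
  · refine hSN.trans (iUnion₂_subset fun P _ => (hNU P).trans inter_subset_right)
  · intro q hq
    exact (hsup q hq).trans (by linarith)
  · intro P hPF
    exact (hfl ⟨P, hPF⟩ (Finset.mem_univ _)).mono (by linarith)
  · intro y hy hyF R hR hRl β hβ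
    refine (hgr y hy (fun P _ hyP => hyF ?_) R hR hRl β hβ).mono (by linarith)
    have h1 : y ∈ cc E (x P) := by rw [← hPx P]; exact hyP
    rw [cc_eq h1, ← hPx P]
    exact P.2

end Crest.Agent.R105.Spq_722
end

-- ▼ part R105/Spq6_722

/-!
Row 105 (S0138, picture with solids), task 2456 (STEPQ), part 6: the assembly `stepQ_of`
(treatment of every component which is not a point + the layer operation ⟹ `Exs_992.StepQ` with
`C0 = 20`, `θ = 1/10`).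
-/

set_option autoImplicit false
set_option linter.unusedSectionVars false

open Set Filter Topology Metric MeasureTheory

namespace Crest.Agent.R105.Spq_722

open Stp_722 CF_363 Cq_463 Exs_992 Thin_891 Lop1_744 Lop3_744 Laq4_744
open Skp2_257 (Comps)

local notation "cc" => connectedComponentIn

variable {E : Set (ℝ × ℝ)} {𝒬 : Set Sqr} {𝓗 : Set Hair}

theorem finite_big (hP : PicS E 𝒬 𝓗) {ρ : ℝ} (hρ : 0 < ρ) : {Q : Sqr | Q ∈ 𝒬 ∧ ρ ≤ Q.s}.Finite := by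
  have h1 := hP.q.summable_sq.tendsto_cofinite_zero
  have h2 := h1.eventually (Iio_mem_nhds (show (0:ℝ) < ρ ^ 2 by positivity))
  rw [Filter.eventually_cofinite] at h2
  refine (h2.image Subtype.val).subset ?_
  rintro Q ⟨hQ, hs⟩
  refine ⟨⟨Q, hQ⟩, ?_, rfl⟩
  simp only [mem_ofPred_eq, not_lt]
  exact pow_le_pow_left₀ hρ.le hs 2

/-- every level of a square is visible -/
theorem lev_car (hP : PicS E 𝒬 𝓗) {Q : Sqr} (hQ : Q ∈ 𝒬) : Lev Eᶜ Prod.snd Q.car := by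
  rintro t ⟨y, hy, hyt⟩ ⟨w, hw, htw⟩
  have hs := Q.hs
  have hy' := (Sqr.mem_car.1 hy).2
  have hw' := (Sqr.mem_car.1 hw).2
  have hc : (Q.x, t) ∈ Q.car := Sqr.mem_car.2 ⟨⟨le_rfl, by linarith⟩, by
    constructor <;> simp only <;> linarith [hy'.1, hw'.2]⟩
  refine ⟨(Q.x, t), hc, mem_closure_compl hP.q fun Q' hQ' hp => ?_, rfl⟩
  have h1 : Q' = Q := by
    have h2 := sq_sub_cc hP hQ' (x := (Q.x, t))
      ⟨(Q.x, t), interior_subset hp, mem_connectedComponentIn (hP.q.sub Q hQ hc)⟩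
    have h3 := sq_sub_cc hP hQ (x := (Q.x, t))
      ⟨(Q.x, t), hc, mem_connectedComponentIn (hP.q.sub Q hQ hc)⟩
    exact sq_unique hP hQ' hQ h2 h3
  rw [h1, interior_car] at hp
  exact lt_irrefl _ hp.1.1

theorem sq_not_pt {Q : Sqr} {p : ℝ × ℝ} (h : Q.car ⊆ {p}) : False := by
  have hs := Q.hs
  have e1 : (Q.x, Q.y) = p := h (Sqr.mem_car.2 ⟨⟨le_rfl, by simp only; linarith⟩, le_rfl, by
    simp only; linarith⟩)
  have e2 : (Q.x + Q.s, Q.y) = p := h (Sqr.mem_car.2 ⟨⟨by simp only; linarith, le_rfl⟩, le_rfl, by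
    simp only; linarith⟩)
  have e3 := congrArg Prod.fst (e1.trans e2.symm)
  simp only at e3
  linarith

theorem clamp_mem (A : ℝ) (hA : 0 ≤ A) (u : ℝ) : |max (-A) (min A u)| ≤ A := by
  rw [abs_le]
  exact ⟨le_max_left _ _, max_le (by linarith) (min_le_left _ _)⟩

theorem clamp_eq {A u : ℝ} (h : |u| ≤ A) : max (-A) (min A u) = u := by
  rw [abs_le] at h
  rw [min_eq_right h.2, max_eq_right h.1]

/-- **the last step**: from a function near `r` off `E` to the increment. -/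
theorem increment (hP : PicS E 𝒬 𝓗) {r φ₃ : ℝ × ℝ → ℝ} {κ A : ℝ} (hA : 0 ≤ A)
    (hD : DQ E 𝒬 𝓗 r φ₃ κ) (hb : ∀ q ∈ Eᶜ, |φ₃ q - r q| ≤ A) {T W : Set (ℝ × ℝ)}
    (hT : IsCompact T) (hTW : T ⊆ W) (hoff : ∀ q ∉ T, φ₃ q = r q) :
    ∃ φ : ℝ × ℝ → ℝ, CFJ 𝓗 univ φ ∧ (∃ S, IsCompact S ∧ S ⊆ W ∧ ∀ p ∉ S, φ p = 0) ∧
      (∀ p, |φ p| ≤ A) ∧ TQ E univ 𝒬 φ ≤ κ ^ 2 ∧ ∀ q ∈ Eᶜ, r q + φ q = φ₃ q := by
  obtain ⟨-, hr, h3, hen⟩ := hD
  refine ⟨fun q => max (-A) (min A (φ₃ q - r q)), ?_, ⟨T, hT, hTW, fun p hp => ?_⟩, fun p =>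
    clamp_mem A hA _, ?_, fun q hq => ?_⟩
  · exact (CFJ_const (-A)).max ((CFJ_const A).min (h3.1.sub hr.1))
  · simp only
    rw [hoff p hp, sub_self, clamp_eq (by rwa [abs_zero])]
  · rw [TQ_congr_V hP.q (v := fun q => φ₃ q - r q) fun q hq => clamp_eq (hb q hq)]
    exact hen
  · simp only
    rw [clamp_eq (hb q hq)]
    ring

/-- **the step with solids, from the treatment of the components and the layer operation** -/
theorem stepQ_of (hP : PicS E 𝒬 𝓗)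
    (hT : ∀ x ∈ E, (∀ p, cc E x ≠ {p}) →
      Treat Eᶜ E Prod.snd (ClQ 𝓗) (DQ E 𝒬 𝓗) (Sqr.car '' 𝒬) (cc E x))
    (hS : ∀ ρ > 0, SetupR Eᶜ E Prod.snd (HrQ E 𝒬 ρ) (ClQ 𝓗) (DQ E 𝒬 𝓗) ρ) :
    StepQ E 𝒬 𝓗 20 (1 / 10) := by
  classical
  intro r hrc hrs hrb E' hE'c hE'E hE'c' d hd hosc0 hsq0 W hW hE'W κ hκ
  have hcl : ClQ 𝓗 r := ⟨hrc, hrs, hrb⟩
  have hE' : Piece E E' := ⟨hE'E, hE'c, hE'c'⟩
  have hsat : ∀ x ∈ E', cc E x ⊆ E' := fun x hx => hE'.component_subset hx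
  have hPart : Part E E' := ⟨hE'c, hE'E, hsat⟩
  -- neighbourhood
  obtain ⟨δ, hδ, hδW⟩ := hE'c.exists_cthickening_subset_open hW hE'W
  set W₀ := thickening δ E' with hW₀
  have hW₀o : IsOpen W₀ := isOpen_thickening
  have hEW₀ : E' ⊆ W₀ := self_subset_thickening hδ E'
  have hTc : IsCompact (cthickening δ E') := hE'c.cthickening
  have hW₀T : W₀ ⊆ cthickening δ E' := thickening_subset_cthickening _ _
  -- constants
  obtain ⟨J, hJ, L, C, hL, hsl, -⟩ := id hrc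
  obtain ⟨B0, R1, hR1, hBR⟩ : ∃ B0 R1 : ℝ, 0 < R1 ∧ ∀ x ∈ E', B0 ≤ x.2 ∧ x.2 ≤ B0 + R1 := by
    obtain ⟨K, hK⟩ := hE'c.isBounded.exists_norm_le
    refine ⟨-|K|, 2 * |K| + 1, by positivity, fun x hx => ?_⟩
    have h1 : |x.2| ≤ K := (norm_snd_le x).trans (hK x hx)
    have h2 := abs_le.1 (h1.trans (le_abs_self K))
    constructor <;> linarith [h2.1, h2.2]
  set dm : ℝ := d / (800 * (L + 1)) with hdm
  have hdm0 : 0 < dm := by positivity
  have hLdm : L * (2 * dm) ≤ d / 400 := by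
    have e : L * (2 * dm) = d / 400 * (L / (L + 1)) := by rw [hdm]; field_simp; ring
    rw [e]
    have h1 : L / (L + 1) ≤ 1 := by rw [div_le_one (by positivity)]; linarith
    have h2 : 0 ≤ d / 400 := by positivity
    nlinarith
  obtain ⟨m, hm⟩ := exists_nat_gt (R1 / dm)
  have hm0 : (0:ℝ) < m := lt_trans (by positivity) hm
  have hmN : 0 < m := by exact_mod_cast hm0
  have hm1 : (1:ℝ) ≤ m := by exact_mod_cast hmN
  have hcov : ∀ x ∈ E', B0 ≤ x.2 ∧ x.2 ≤ B0 + m * dm := by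
    intro x hx
    obtain ⟨h1, h2⟩ := hBR x hx
    rw [div_lt_iff₀ hdm0] at hm
    exact ⟨h1, by linarith⟩
  set t : ℝ := d / (4000 * m) with ht
  have ht0 : 0 < t := by positivity
  have htd : t ≤ d / 4000 := by
    rw [ht]
    apply div_le_div_of_nonneg_left hd.le (by norm_num)
    linarith
  have htm : 4 * t = d / (1000 * m) := by rw [ht]; field_simp; ring
  have hlevI : ∀ x, ∀ I : Set ℝ, I.OrdConnected → Lev Eᶜ Prod.snd (cc E x ∩ Prod.snd ⁻¹' I) :=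
    fun x I hI => levI hP.q.cpt x hI
  have hlev : ∀ x, Lev Eᶜ Prod.snd (cc E x) := by
    intro x
    have := hlevI x univ ordConnected_univ
    rwa [preimage_univ, inter_univ] at this
  -- round one
  set F₁ : Set (Set (ℝ × ℝ)) := {P | ∃ K ∈ J, K.car ⊆ E' ∧ P = cc E (K.x, K.b)} with hF₁
  have hF₁fin : F₁.Finite := by
    refine ((J.finite_toSet).image fun K : Hair => cc E (K.x, K.b)).subset ?_
    rintro P ⟨K, hK, -, rfl⟩
    exact ⟨K, hK, rfl⟩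
  have hKcc : ∀ K ∈ J, K.car ⊆ cc E (K.x, K.b) := fun K hK =>
    car_sub_cc hP (hJ K hK) ⟨(K.x, K.b), bot_mem_car K,
      mem_connectedComponentIn (hsub hP (hJ K hK) (bot_mem_car K))⟩
  have hF₁' : ∀ P ∈ F₁, ∃ x ∈ E', P = cc E x ∧ ∀ p, cc E x ≠ {p} := by
    rintro P ⟨K, hK, hKE', rfl⟩
    refine ⟨(K.x, K.b), hKE' (bot_mem_car K), rfl, fun p hp => ?_⟩
    have h1 := hKcc K hK
    rw [hp] at h1
    exact point_untouched h1
  have hosc1 : ∀ x ∈ E', OscLe Eᶜ (cc E x) r (2 * d) := fun x hx =>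
    hosc0 _ ⟨x, hE'E hx, rfl⟩ (hsat x hx)
  obtain ⟨φ₁, hD₁, ⟨S₁, hS₁c, hS₁W, hoff₁⟩, hd₁, hfl₁, hgr₁⟩ := round hP hT hE' hW₀o hEW₀ hF₁fin
    hF₁' hcl (b := 2 * d) (c := d / 10) (ε := κ / 3) (η := t) (by positivity) (by positivity)
    hosc1 (fun P hPF Q hQ hQP => by
      obtain ⟨x, hx, hPx, -⟩ := hF₁' P hPF
      have := hsq0 Q hQ (hQP.trans (hPx ▸ hsat x hx))
      exact this.mono (by linarith)) (by positivity) ht0
  have hc₁ : ∀ x ∈ E', OscLe Eᶜ (cc E x) φ₁ (2 * d + t) := by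
    intro x hx
    by_cases hF : cc E x ∈ F₁
    · exact (hfl₁ _ hF).mono (by linarith)
    · exact hgr₁ x (hE'E hx) hF _ Subset.rfl (hlev x) _ (hosc1 x hx)
  -- neighbourhoods of the touched components
  have hO₁ : ∀ K : Hair, K ∈ J ∧ K.car ⊆ E' → ∃ O, IsOpen O ∧ cc E (K.x, K.b) ⊆ O ∧
      ∀ P' ⊆ O, OscLe Eᶜ P' φ₁ (d / 10 + 2 * t) := fun K hK =>
    (hfl₁ _ ⟨K, hK.1, hK.2, rfl⟩).exists_nhds (by linarith)
  choose! O₁ hO₁o hO₁c hO₁s using hO₁
  obtain ⟨ρ0, hρ0, hcomb⟩ := comb hP hJ hE' (O₁ := O₁) (fun K hK h => hO₁o K ⟨hK, h⟩)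
    (fun K hK h => hO₁c K ⟨hK, h⟩)
  set ρ : ℝ := min ρ0 (min dm (t / (L + 1))) with hρ
  have hρpos : 0 < ρ := by
    rw [hρ]
    exact lt_min hρ0 (lt_min hdm0 (by positivity))
  have hρρ0 : ρ ≤ ρ0 := min_le_left _ _
  have hρdm : ρ ≤ dm := (min_le_right _ _).trans (min_le_left _ _)
  have hLρ : L * ρ ≤ t := by
    have h1 : ρ ≤ t / (L + 1) := (min_le_right _ _).trans (min_le_right _ _)
    rw [le_div_iff₀ (by positivity)] at h1
    nlinarith
  -- round two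
  set F₂ : Set (Set (ℝ × ℝ)) := {P | (∃ Q ∈ 𝒬, Q.car ⊆ E' ∧ ρ ≤ Q.s ∧ P = cc E (Q.x, Q.y)) ∧
    P ∉ F₁} with hF₂
  have hcor : ∀ Q : Sqr, (Q.x, Q.y) ∈ Q.car := fun Q => by
    have := Q.hs
    exact Sqr.mem_car.2 ⟨⟨le_rfl, by simp only; linarith⟩, le_rfl, by simp only; linarith⟩
  have hF₂fin : F₂.Finite := by
    refine ((finite_big hP hρpos).image fun Q : Sqr => cc E (Q.x, Q.y)).subset ?_
    rintro P ⟨⟨Q, hQ, -, hs, rfl⟩, -⟩
    exact ⟨Q, ⟨hQ, hs⟩, rfl⟩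
  have hQcc : ∀ Q ∈ 𝒬, Q.car ⊆ cc E (Q.x, Q.y) := fun Q hQ =>
    sq_sub_cc hP hQ ⟨(Q.x, Q.y), hcor Q, mem_connectedComponentIn (hP.q.sub Q hQ (hcor Q))⟩
  have hF₂' : ∀ P ∈ F₂, ∃ x ∈ E', P = cc E x ∧ ∀ p, cc E x ≠ {p} := by
    rintro P ⟨⟨Q, hQ, hQE', hs, rfl⟩, -⟩
    refine ⟨(Q.x, Q.y), hQE' (hcor Q), rfl, fun p hp => ?_⟩
    have h1 := hQcc Q hQ
    rw [hp] at h1
    exact sq_not_pt h1
  obtain ⟨φ₂, hD₂, ⟨S₂, hS₂c, hS₂W, hoff₂⟩, hd₂, hfl₂, hgr₂⟩ := round hP hT hE' hW₀o hEW₀ hF₂fin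
    hF₂' hD₁.2.2.1 (b := 2 * d + t) (c := d / 10 + t) (ε := κ / 3) (η := t) (by positivity)
    (by positivity) hc₁ (fun P hPF Q hQ hQP => by
      obtain ⟨x, hx, hPx, -⟩ := hF₂' P hPF
      have h1 : Q.car ⊆ cc E x := hPx ▸ hQP
      refine hgr₁ x (hE'E hx) (hPx ▸ hPF.2) _ h1 (lev_car hP hQ) _ ?_
      exact (hsq0 Q hQ (h1.trans (hsat x hx))).mono (by linarith)) (by positivity) ht0
  have hc₂ : ∀ x ∈ E', OscLe Eᶜ (cc E x) φ₂ (2 * d + 2 * t) := by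
    intro x hx
    by_cases hF : cc E x ∈ F₂
    · exact (hfl₂ _ hF).mono (by linarith)
    · exact (hgr₂ x (hE'E hx) hF _ Subset.rfl (hlev x) _ (hc₁ x hx)).mono (by linarith)
  -- the bad family
  set g : Set (ℝ × ℝ) := gset Eᶜ E φ₂ (d / 4) ∩ E' with hg
  have hgE : ∀ x ∈ g, x ∈ E := fun x hx => hE'E hx.2
  have hbig : ∀ x ∈ g, ∀ c < d / 4, ¬ OscLe Eᶜ (cc E x) φ₂ c := fun x hx c hc h =>
    hx.1.2 ⟨c, hc, h⟩
  have hnF₂ : ∀ x ∈ g, cc E x ∉ F₂ := fun x hx hF =>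
    hbig x hx _ (show d / 10 + t + t < d / 4 by linarith) (hfl₂ _ hF)
  have hnF₁ : ∀ x ∈ g, cc E x ∉ F₁ := fun x hx hF =>
    hbig x hx _ (show d / 10 + t + t < d / 4 by linarith)
      (hgr₂ x (hgE x hx) (hnF₂ x hx) _ Subset.rfl (hlev x) _ (hfl₁ _ hF))
  have hnO : ∀ x ∈ g, ¬ ∃ K ∈ J, K.car ⊆ E' ∧ cc E x ⊆ O₁ K := by
    rintro x hx ⟨K, hK, hKE', hxO⟩
    exact hbig x hx _ (show d / 10 + 2 * t + t < d / 4 by linarith)
      (hgr₂ x (hgE x hx) (hnF₂ x hx) _ Subset.rfl (hlev x) _ (hO₁s K ⟨hK, hKE'⟩ _ hxO))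
  have hunt : ∀ x ∈ g, ∀ K ∈ J, ¬ K.car ⊆ cc E x := by
    intro x hx K hK hKx
    refine hnF₁ x hx ⟨K, hK, hKx.trans (hsat x hx.2), ?_⟩
    exact (cc_eq (hKx (bot_mem_car K))).symm
  have hsmall : ∀ x ∈ g, ∀ Q ∈ 𝒬, Q.car ⊆ cc E x → Q.s < ρ := by
    intro x hx Q hQ hQx
    by_contra hs
    push Not at hs
    refine hnF₂ x hx ⟨⟨Q, hQ, hQx.trans (hsat x hx.2), hs, ?_⟩, hnF₁ x hx⟩
    exact (cc_eq (hQx (hcor Q))).symm
  have hgHr : g ⊆ HrQ E 𝒬 ρ := fun x hx => ⟨hgE x hx, hsmall x hx⟩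
  -- geometry of the members
  have hgeo : ∀ x ∈ g, Good J (cc E x) ∧ ∀ p ∈ cc E x, ∀ p' ∈ cc E x, |p.1 - p'.1| ≤ ρ := by
    intro x hx
    rcases hP.comp _ ⟨x, hgE x hx, rfl⟩ with ⟨p, hp⟩ | ⟨K, _, hK⟩ | ⟨Q, hQ, hQx, -⟩
    · refine ⟨good_of_convex (by rw [hp]; exact convex_singleton _)
        (disj_cut hP hJ (hunt x hx)), ?_⟩
      rw [hp]
      rintro q rfl q' rfl
      rw [sub_self, abs_zero]
      exact hρpos.le
    · refine ⟨good_of_convex (by rw [hK]; exact convex_car K)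
        (disj_cut hP hJ (hunt x hx)), ?_⟩
      rw [hK]
      intro q hq q' hq'
      have e1 : q.1 = K.x := hq.1
      have e2 : q'.1 = K.x := hq'.1
      rw [e1, e2, sub_self, abs_zero]
      exact hρpos.le
    · have hs := hsmall x hx Q hQ hQx
      refine ⟨?_, ?_⟩
      · rcases hcomb x hx.2 Q hQ hQx (hs.trans_le hρρ0) with h1 | h1
        · exact absurd h1 (hnO x hx)
        · exact h1
      · intro q hq q' hq'
        obtain ⟨a1, a2⟩ := width hP (hgE x hx) hQ hQx hq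
        obtain ⟨b1, b2⟩ := width hP (hgE x hx) hQ hQx hq'
        rw [abs_le]
        constructor <;> linarith
  have hgr : ∀ x ∈ g, ∀ R ⊆ cc E x, Lev Eᶜ Prod.snd R → ∀ β, OscLe Eᶜ R r β →
      OscLe Eᶜ R φ₂ (β + 2 * t) := by
    intro x hx R hR hRl β hβ
    exact (hgr₂ x (hgE x hx) (hnF₂ x hx) R hR hRl _
      (hgr₁ x (hgE x hx) (hnF₁ x hx) R hR hRl β hβ)).mono (by linarith)
  have hport : ∀ x ∈ g, ∀ s, OscLe Eᶜ (cc E x ∩ {y | s ≤ y.2 ∧ y.2 ≤ s + 2 * dm}) φ₂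
      (d / 100) := by
    intro x hx s
    obtain ⟨hG, hw⟩ := hgeo x hx
    have h1 := osc_good (V := Eᶜ) hL hsl (isCompact_cc hP.q.cpt x) hG
      (R := cc E x ∩ {y | s ≤ y.2 ∧ y.2 ≤ s + 2 * dm}) inter_subset_left (d := 2 * dm) (by
        rintro p ⟨hp, hp1, hp2⟩ p' ⟨hp', hp1', hp2'⟩
        rw [Prod.dist_eq, Real.dist_eq, Real.dist_eq, max_le_iff]
        refine ⟨(hw p hp p' hp').trans (by linarith), ?_⟩
        rw [abs_le]
        constructor <;> linarith)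
    exact (hgr x hx _ inter_subset_left (hlevI x (Icc s (s + 2 * dm)) ordConnected_Icc) _ h1).mono
      (by linarith)
  have hslice : ∀ x ∈ g, ∀ s, OscLe Eᶜ (cc E x ∩ {y | y.2 = s}) φ₂ (d / (1000 * m)) := by
    intro x hx s
    obtain ⟨hG, hw⟩ := hgeo x hx
    have e0 : (cc E x ∩ {y : ℝ × ℝ | y.2 = s}) = cc E x ∩ Prod.snd ⁻¹' (Icc s s) := by
      ext y
      simp only [mem_inter_iff, mem_ofPred_eq, mem_preimage, Icc_self, mem_singleton_iff]
    rw [e0]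
    have h1 := osc_good (V := Eᶜ) hL hsl (isCompact_cc hP.q.cpt x) hG
      (R := cc E x ∩ Prod.snd ⁻¹' (Icc s s)) inter_subset_left (d := ρ) (by
        rintro p ⟨hp, hp1⟩ p' ⟨hp', hp1'⟩
        have e1 : p.2 = s := le_antisymm hp1.2 hp1.1
        have e2 : p'.2 = s := le_antisymm hp1'.2 hp1'.1
        rw [Prod.dist_eq, Real.dist_eq, Real.dist_eq, max_le_iff]
        refine ⟨hw p hp p' hp', ?_⟩
        rw [e1, e2, sub_self, abs_zero]
        exact hρpos.le)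
    exact (hgr x hx _ inter_subset_left (hlevI x (Icc s s) ordConnected_Icc) _ h1).mono
      (by linarith)
  -- neighbourhoods of the members
  have hO : ∀ x, x ∈ g → ∃ O, (IsOpen O ∧ cc E x ⊆ O) ∧ O ⊆ W₀ ∧ ∀ q ∈ O ∩ Eᶜ, ∀ q' ∈ O ∩ Eᶜ,
      |φ₂ q - φ₂ q'| ≤ 2 * d + 3 * t := by
    intro x hx
    obtain ⟨O, hO, hxO, H⟩ := hc₂ x hx.2 t ht0
    refine ⟨O ∩ W₀, ⟨hO.inter hW₀o, subset_inter hxO ((hsat x hx.2).trans hEW₀)⟩,
      inter_subset_right, fun q hq q' hq' => (H q ⟨hq.1.1, hq.2⟩ q' ⟨hq'.1.1, hq'.2⟩).trans ?_⟩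
    linarith
  choose! O hO hOW hOH using hO
  obtain ⟨R, hR⟩ := hD₂.2.2.1.2.2
  have hR0 : 0 ≤ R := (abs_nonneg _).trans (hR (0, 0))
  obtain ⟨φ₃, -, -, hD₃, hfl₃, hhull, -⟩ := step_bQ (hS ρ hρpos) hPart hD₂.2.2.1 hR0 hR hd hgHr
    hdm0 hρdm hmN hcov hport hslice (O := O) hO (ε := κ / 3) (by positivity)
  -- conclusion
  have hd₃ : ∀ q ∈ Eᶜ, |φ₃ q - φ₂ q| ≤ 2 * d + 3 * t := by
    intro q hq
    rcases hhull q with h1 | ⟨x, hx, hqO, H⟩
    · rw [h1, sub_self, abs_zero]; positivity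
    · have h2 := H (φ₂ q - (2 * d + 3 * t)) (φ₂ q + (2 * d + 3 * t)) (fun q' hq' => by
        have := abs_le.1 (hOH x hx q' hq' q ⟨hqO, hq⟩)
        exact ⟨by linarith [this.1], by linarith [this.2]⟩)
        ⟨by linarith, by linarith⟩
      rw [abs_le]
      exact ⟨by linarith [h2.1], by linarith [h2.2]⟩
  have hoff₃ : ∀ q ∉ cthickening δ E', φ₃ q = r q := by
    intro q hq
    have hqW : q ∉ W₀ := fun h => hq (hW₀T h)
    have h3 : φ₃ q = φ₂ q := by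
      rcases hhull q with h1 | ⟨x, hx, hqO, _⟩
      · exact h1
      · exact absurd (hOW x hx hqO) hqW
    rw [h3, hoff₂ q fun h => hqW (hS₂W h), hoff₁ q fun h => hqW (hS₁W h)]
  have hD : DQ E 𝒬 𝓗 r φ₃ κ := by
    have := (hD₁.trans hP.q hD₂).trans hP.q hD₃
    have e : κ / 3 + κ / 3 + κ / 3 = κ := by ring
    rwa [e] at this
  obtain ⟨φ, h1, h2, h3, h4, h5⟩ := increment hP (A := 20 * d) (by positivity) hD (fun q hq => by
    have a1 := abs_le.1 (hd₁ q hq)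
    have a2 := abs_le.1 (hd₂ q hq)
    have a3 := abs_le.1 (hd₃ q hq)
    rw [abs_le]
    constructor <;> linarith [a1.1, a1.2, a2.1, a2.2, a3.1, a3.2]) hTc hδW hoff₃
  refine ⟨φ, h1, h2, h3, h4, ?_⟩
  rintro P ⟨x, hx, rfl⟩ hPE'
  have hxE' : x ∈ E' := hPE' (mem_connectedComponentIn hx)
  exact ((hfl₃ x hxE').congr isOpen_univ (subset_univ _) fun q hq => h5 q hq.2).mono (by linarith)

end Crest.Agent.R105.Spq_722
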