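import Crest.Agent.R105.Cq3_463
import Crest.Agent.R105.Cln3_891
import Crest.Agent.R105.Stp2_722
import Crest.Agent.R105.Nal0_649
import Crest.Agent.R105.Spq3_722
import Crest.Agent.R105.Exs0_992
import Crest.Agent.R105.Laq4_744
import Crest.Agent.R105.SkT1_137
import Crest.Agent.R105.Stp10_722
import Crest.Agent.R105.Cln1_891
import Crest.Agent.R105.Sin3_925
import Crest.Agent.R105.Laq5_744
import Crest.Agent.R105.Spq6_722
import Crest.Agent.R105.Exs7_992_Mg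
import Crest.Agent.R105.SkJ3_987
import Crest.Agent.R105.Nie4_909

-- ▼ part R105/Clc1_72
section

/-!
# Row 105 (S0138, picture with solids): cost of `u z` on one side of a level line

`cost`: `u` Lipschitz along segments off finitely many hairs, vanishing at the line
`{σ y = B}`, `z` a cut-off on the side `W = {B < σ y}` with small energy; then `u z` (extended by
`0` across the line) lies in the class `CFJ 𝓗 univ` and its energy with charges is controlled.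
-/

set_option autoImplicit false

namespace Crest.Agent.R105.Clc_72

open Set Filter MeasureTheory Topology Metric
open Crest.Agent.R105.CF_363 Crest.Agent.R105.Stp_722 Crest.Agent.R105.Cq_463
open scoped ENNReal

variable {E : Set (ℝ × ℝ)} {𝒬 : Set Sqr} {𝓗 : Set Hair} {σ B : ℝ}

/-- one side of the level line -/
def Sd (σ B : ℝ) : Set (ℝ × ℝ) := {p | B < σ * p.2}

theorem mem_Sd {p : ℝ × ℝ} : p ∈ Sd σ B ↔ B < σ * p.2 := Iff.rfl

theorem isOpen_Sd (σ B : ℝ) : IsOpen (Sd σ B) :=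
  isOpen_lt continuous_const (continuous_const.mul continuous_snd)

theorem isClosed_cl (σ B : ℝ) : IsClosed {p : ℝ × ℝ | B ≤ σ * p.2} :=
  isClosed_le continuous_const (continuous_const.mul continuous_snd)


theorem convex_Sd (σ B : ℝ) : Convex ℝ (Sd σ B) := by
  intro p hp q hq a b ha hb hab
  rw [mem_Sd] at hp hq ⊢
  show B < σ * (a • p + b • q).2
  simp only [Prod.snd_add, Prod.smul_snd, smul_eq_mul]
  have e : σ * (a * p.2 + b * q.2) = a * (σ * p.2) + b * (σ * q.2) := by ring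
  rw [e]
  rcases ha.eq_or_lt with rfl | ha'
  · have : b = 1 := by linarith
    subst this; linarith
  · have h1 : a * B < a * (σ * p.2) := mul_lt_mul_of_pos_left hp ha'
    have h2 : b * B ≤ b * (σ * q.2) := mul_le_mul_of_nonneg_left hq.le hb
    have h3 : B = a * B + b * B := by rw [← add_mul, hab, one_mul]
    linarith

theorem sgn_sq (hσ : σ = 1 ∨ σ = -1) : σ * σ = 1 := by rcases hσ with rfl | rfl <;> norm_num

theorem sgn_dist (hσ : σ = 1 ∨ σ = -1) (p q : ℝ × ℝ) : σ * p.2 - σ * q.2 ≤ dist p q := by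
  have h : |p.2 - q.2| ≤ dist p q := by
    rw [← Real.dist_eq, Prod.dist_eq]; exact le_max_right _ _
  have h' := abs_le.1 h
  rcases hσ with rfl | rfl <;> linarith [h'.1, h'.2]

/-- the level line is a null set -/
theorem volume_line (hσ : σ = 1 ∨ σ = -1) : volume {p : ℝ × ℝ | σ * p.2 = B} = 0 := by
  have h : {p : ℝ × ℝ | σ * p.2 = B} ⊆ univ ×ˢ {σ * B} := by
    rintro p (hp : σ * p.2 = B)
    refine ⟨mem_univ _, ?_⟩
    show p.2 = σ * B
    rw [← hp, ← mul_assoc, sgn_sq hσ, one_mul]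
  refine measure_mono_null h ?_
  rw [Measure.volume_eq_prod, Measure.prod_prod]; simp

/-- the function `u z`, extended by `0` -/
noncomputable def ext (σ B : ℝ) (u z : ℝ × ℝ → ℝ) (p : ℝ × ℝ) : ℝ :=
  if B < σ * p.2 then u p * z p else 0

variable {J : Finset Hair} {u z : ℝ × ℝ → ℝ} {L A C ε : ℝ} {S : Set (ℝ × ℝ)}

theorem ext_of_mem {p : ℝ × ℝ} (hp : p ∈ Sd σ B) : ext σ B u z p = u p * z p := if_pos hp

theorem ext_of_notMem {p : ℝ × ℝ} (hp : p ∉ Sd σ B) : ext σ B u z p = 0 := if_neg hp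

theorem abs_ext_le (hA : 0 ≤ A) (huA : ∀ p, |u p| ≤ A) (hz01 : ∀ p, 0 ≤ z p ∧ z p ≤ 1)
    (p : ℝ × ℝ) : |ext σ B u z p| ≤ A := by
  by_cases hp : p ∈ Sd σ B
  · rw [ext_of_mem hp, abs_mul, abs_of_nonneg (hz01 p).1]
    calc |u p| * z p ≤ A * 1 := mul_le_mul (huA p) (hz01 p).2 (hz01 p).1 hA
      _ = A := mul_one A
  · rw [ext_of_notMem hp, abs_zero]; exact hA

theorem ext_supp (hzS : ∀ p, B < σ * p.2 → p ∉ S → z p = 0) {p : ℝ × ℝ} (hp : p ∉ S) :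
    ext σ B u z p = 0 := by
  by_cases hpW : p ∈ Sd σ B
  · rw [ext_of_mem hpW, hzS p hpW hp, mul_zero]
  · exact ext_of_notMem hpW

/-- near the line `u z` is small -/
theorem abs_ext_le_line (hC : 0 ≤ C) (hu0 : ∀ p, |u p| ≤ C * max 0 (σ * p.2 - B))
    (hz01 : ∀ p, 0 ≤ z p ∧ z p ≤ 1) {p : ℝ × ℝ} (hp : p ∈ Sd σ B) :
    |ext σ B u z p| ≤ C * (σ * p.2 - B) := by
  have h0 : 0 ≤ σ * p.2 - B := by have := mem_Sd.1 hp; linarith
  have h1 : |u p| ≤ C * (σ * p.2 - B) := by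
    have := hu0 p; rwa [max_eq_right h0] at this
  rw [ext_of_mem hp, abs_mul, abs_of_nonneg (hz01 p).1]
  calc |u p| * z p ≤ (C * (σ * p.2 - B)) * 1 :=
        mul_le_mul h1 (hz01 p).2 (hz01 p).1 (mul_nonneg hC h0)
    _ = _ := mul_one _

theorem ext_cfj (hσ : σ = 1 ∨ σ = -1) (hJ : ∀ K ∈ J, K ∈ 𝓗) (hA : 0 ≤ A)
    (hC : 0 ≤ C) (hu : SL (univ \ cut J) L u) (huA : ∀ p, |u p| ≤ A)
    (hu0 : ∀ p, |u p| ≤ C * max 0 (σ * p.2 - B)) (hz : CFJ 𝓗 (Sd σ B) z)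
    (hz01 : ∀ p, 0 ≤ z p ∧ z p ≤ 1) : CFJ 𝓗 univ (ext σ B u z) := by
  classical
  obtain ⟨Jz, hJz, Lz, Cz, hLz, hz1, -⟩ := hz
  refine ⟨J ∪ Jz, fun K hK => ?_, max (A * Lz + 1 * L) C, A, le_max_of_le_right hC, ?_,
    fun p _ => abs_ext_le hA huA hz01 p⟩
  · rcases Finset.mem_union.1 hK with h | h
    · exact hJ K h
    · exact hJz K h
  · have hm : SL (Sd σ B \ cut (J ∪ Jz)) (A * Lz + 1 * L) (fun p => u p * z p) := by
      refine SL.mul (hu.mono ?_) (hz1.mono ?_) (fun p _ => huA p) (fun p _ => ?_)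
      · exact sdiff_subset_sdiff (subset_univ _) (cut_mono Finset.subset_union_left)
      · exact sdiff_subset_sdiff (Subset.refl _) (cut_mono Finset.subset_union_right)
      · rw [abs_of_nonneg (hz01 p).1]; exact (hz01 p).2
    have mixed : ∀ p q : ℝ × ℝ, p ∈ Sd σ B → q ∉ Sd σ B →
        |ext σ B u z p - ext σ B u z q| ≤ max (A * Lz + 1 * L) C * dist p q := by
      intro p q hp hq
      rw [ext_of_notMem hq, sub_zero]
      refine (abs_ext_le_line hC hu0 hz01 hp).trans ?_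
      have h1 : σ * p.2 - B ≤ dist p q := by
        have := sgn_dist hσ p q
        have h2 : σ * q.2 ≤ B := not_lt.1 hq
        linarith
      calc C * (σ * p.2 - B) ≤ C * dist p q := mul_le_mul_of_nonneg_left h1 hC
        _ ≤ _ := mul_le_mul_of_nonneg_right (le_max_right _ _) dist_nonneg
    intro p q hpq
    by_cases hp : p ∈ Sd σ B
    · by_cases hq : q ∈ Sd σ B
      · rw [ext_of_mem hp, ext_of_mem hq]
        have := hm p q (fun r hr => ⟨(convex_Sd σ B).segment_subset hp hq hr, (hpq hr).2⟩)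
        exact this.trans (mul_le_mul_of_nonneg_right (le_max_left _ _) dist_nonneg)
      · exact mixed p q hp hq
    · by_cases hq : q ∈ Sd σ B
      · rw [abs_sub_comm, dist_comm]; exact mixed q p hq hp
      · rw [ext_of_notMem hp, ext_of_notMem hq, sub_zero, abs_zero]
        exact mul_nonneg (le_max_of_le_right hC) dist_nonneg

/-! ### energy -/

theorem En_ext_le (hE : QPic E 𝒬 𝓗) (hσ : σ = 1 ∨ σ = -1) (hJ : ∀ K ∈ J, K ∈ 𝓗) (hL : 0 ≤ L)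
    (hA : 0 ≤ A) (hC : 0 ≤ C) (hu : SL (univ \ cut J) L u) (huA : ∀ p, |u p| ≤ A)
    (hu0 : ∀ p, |u p| ≤ C * max 0 (σ * p.2 - B)) (hz : CFJ 𝓗 (Sd σ B) z)
    (hz01 : ∀ p, 0 ≤ z p ∧ z p ≤ 1) (hS : IsCompact S)
    (hzS : ∀ p, B < σ * p.2 → p ∉ S → z p = 0) :
    En (univ \ E) (ext σ B u z) ≤
      2 * A ^ 2 * En (Sd σ B \ E) z + 4 * L ^ 2 * (volume (S \ E)).toReal := by
  obtain ⟨R0, hR0, hSR, hR0v⟩ := exists_box hS
  have hEc := hE.cpt.isClosed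
  have hWo := isOpen_Sd σ B
  set R := (Sd σ B \ E) ∩ R0 with hRdef
  set R1 := (univ \ E) ∩ R0 with hR1def
  have hRo : IsOpen R := (hWo.sdiff hEc).inter hR0
  have hR1o : IsOpen R1 := (isOpen_univ.sdiff hEc).inter hR0
  have hRR1 : R ⊆ R1 := fun p hp => ⟨⟨mem_univ _, hp.1.2⟩, hp.2⟩
  have hRv : volume R ≠ ∞ := ne_top_of_le_ne_top hR0v (measure_mono inter_subset_right)
  have e1 : En R1 (ext σ B u z) = En (univ \ E) (ext σ B u z) :=
    En_inter_supp (isOpen_univ.sdiff hEc) hS.isClosed (fun p _ hp => ext_supp hzS hp) hSR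
  have e2 : En R z = En (Sd σ B \ E) z :=
    En_inter_supp (hWo.sdiff hEc) hS.isClosed (fun p hp hpS => hzS p hp.1 hpS) hSR
  have e3 : En R1 (ext σ B u z) = En R (ext σ B u z) := by
    unfold En
    refine setIntegral_eq_of_subset_of_ae_sdiff_eq_zero hR1o.measurableSet.nullMeasurableSet
      hRR1 ?_
    filter_upwards [measure_eq_zero_iff_ae_notMem.mp (volume_line (B := B) hσ)] with p hp hpR
    have hlt : σ * p.2 < B := by
      refine lt_of_le_of_ne (not_lt.1 fun h => hpR.2 ⟨⟨h, hpR.1.1.2⟩, hpR.1.2⟩) hp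
    have ho : IsOpen {q : ℝ × ℝ | σ * q.2 < B} :=
      isOpen_lt (continuous_const.mul continuous_snd) continuous_const
    have : ext σ B u z =ᶠ[𝓝 p] fun _ => 0 := by
      filter_upwards [ho.mem_nhds hlt] with q hq
      exact ext_of_notMem (not_lt.2 (le_of_lt hq))
    simp [g2, gx_congr this, gy_congr this]
  rw [← e1, ← e2, e3]
  have hfC : CFJ 𝓗 univ (ext σ B u z) := ext_cfj hσ hJ hA hC hu huA hu0 hz hz01
  have hfR : CFJ 𝓗 R (ext σ B u z) := hfC.mono (Subset.refl _) (subset_univ _)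
  have hzR : CFJ 𝓗 R z := hz.mono (Subset.refl _) (fun p hp => hp.1.1)
  have hif := hfR.integrableOn_g2 hRo hRv
  have hiz := hzR.integrableOn_g2 hRo hRv
  have hud : ∀ᵐ p ∂(volume.restrict R), DifferentiableAt ℝ u p :=
    ae_restrict_of_diff hRo (volume_cut J)
      ((hu.mono (sdiff_subset_sdiff_left (subset_univ R))).ae_differentiableAt (μ := volume)
        (isOpen_diff_cut hRo J))
  have hind : IntegrableOn (S.indicator fun _ => 4 * L ^ 2) R :=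
    (integrableOn_const hRv).indicator hS.isClosed.measurableSet
  have key : En R (ext σ B u z) ≤
      ∫ p in R, (2 * A ^ 2 * g2 z p + S.indicator (fun _ => 4 * L ^ 2) p) := by
    unfold En
    refine integral_mono_ae hif ((hiz.const_mul _).add hind) ?_
    filter_upwards [hud, hzR.ae_differentiableAt hRo, ae_restrict_mem hRo.measurableSet,
      ae_restrict_of_ae (measure_eq_zero_iff_ae_notMem.mp (volume_cut J))] with p h1 h2 hp hpJ
    show g2 (ext σ B u z) p ≤ 2 * A ^ 2 * g2 z p + S.indicator (fun _ => 4 * L ^ 2) p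
    by_cases hpS : p ∈ S
    · rw [indicator_of_mem hpS]
      have hloc : ext σ B u z =ᶠ[𝓝 p] fun q => u q * z q := by
        filter_upwards [hWo.mem_nhds hp.1.1] with q hq
        exact ext_of_mem hq
      have e : g2 (ext σ B u z) p = g2 (fun q => u q * z q) p := by
        simp only [g2, gx_congr hloc, gy_congr hloc]
      rw [e]
      refine (g2_mul_le h1 h2).trans ?_
      have a1 := huA p
      have a2 : u p ^ 2 ≤ A ^ 2 := sq_le_sq' (by linarith [abs_le.mp a1]) (abs_le.mp a1).2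
      have b2 : z p ^ 2 ≤ 1 := by nlinarith [(hz01 p).1, (hz01 p).2]
      have g1 := g2_nonneg u p
      have g3 := g2_nonneg z p
      have g4 : g2 u p ≤ 2 * L ^ 2 :=
        hu.g2_le (isOpen_diff_cut isOpen_univ J) hL ⟨mem_univ _, hpJ⟩
      nlinarith [mul_le_mul_of_nonneg_right a2 g3, mul_le_mul_of_nonneg_right b2 g1]
    · rw [indicator_of_notMem hpS, add_zero]
      have hloc : ext σ B u z =ᶠ[𝓝 p] fun _ => 0 := by
        filter_upwards [hS.isClosed.isOpen_compl.mem_nhds hpS] with q hq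
        exact ext_supp hzS hq
      have e : g2 (ext σ B u z) p = 0 := by simp [g2, gx_congr hloc, gy_congr hloc]
      rw [e]
      have := g2_nonneg z p
      positivity
  refine key.trans ?_
  rw [integral_add (hiz.const_mul _) hind, integral_const_mul,
    setIntegral_indicator hS.isClosed.measurableSet, setIntegral_const, smul_eq_mul]
  refine add_le_add le_rfl ?_
  rw [mul_comm]
  refine mul_le_mul_of_nonneg_left ?_ (by positivity)
  refine ENNReal.toReal_mono (ne_top_of_le_ne_top hS.measure_lt_top.ne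
    (measure_mono sdiff_subset)) (measure_mono fun p hp => ⟨hp.2, hp.1.1.2⟩)

/-! ### charges -/

/-- near a corner `(Q.x, σ B)` of a square crossing the level there are points off `E` above the
level -/
theorem exists_near (hE : QPic E 𝒬 𝓗) (hσ : σ = 1 ∨ σ = -1) {Q : Sqr} (hQ : Q ∈ 𝒬)
    (h1 : Q.y ≤ σ * B) (h2 : σ * B ≤ Q.y + Q.s) {δ : ℝ} (hδ : 0 < δ) :
    ∃ r : ℝ × ℝ, r ∉ E ∧ dist r (Q.x, σ * B) < δ ∧ r ∈ Sd σ B ∧ σ * r.2 - B < δ := by
  set D : Set (ℝ × ℝ) := {p | Q.x - δ < p.1 ∧ p.1 < Q.x ∧ B < σ * p.2 ∧ σ * p.2 < B + δ} with hD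
  have hss := sgn_sq hσ
  by_contra hno
  push Not at hno
  have hDE : D ⊆ E := by
    intro p hp
    by_contra hpE
    obtain ⟨a1, a2, a3, a4⟩ := hp
    have hd : dist p (Q.x, σ * B) < δ := by
      rw [Prod.dist_eq, Real.dist_eq, Real.dist_eq]
      refine max_lt (abs_lt.2 ⟨by linarith, by linarith⟩) ?_
      have e : p.2 - σ * B = σ * (σ * p.2 - B) := by
        rw [mul_sub, ← mul_assoc, hss, one_mul]
      show |p.2 - σ * B| < δ
      rw [e, abs_mul, abs_of_pos (show 0 < σ * p.2 - B by linarith)]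
      have : |σ| = 1 := by rcases hσ with rfl | rfl <;> norm_num
      rw [this]; linarith
    have := hno p hpE hd a3
    linarith
  have hDo : IsOpen D := by
    have c1 : Continuous fun p : ℝ × ℝ => σ * p.2 := continuous_const.mul continuous_snd
    exact (isOpen_lt continuous_const continuous_fst).inter
      ((isOpen_lt continuous_fst continuous_const).inter
        ((isOpen_lt continuous_const c1).inter (isOpen_lt c1 continuous_const)))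
  have hDc : Convex ℝ D := by
    have e : D = Ioo (Q.x - δ) Q.x ×ˢ {t : ℝ | B < σ * t ∧ σ * t < B + δ} := by
      ext p; simp only [hD, mem_ofPred_eq, mem_prod, mem_Ioo, and_assoc]
    rw [e]
    refine (convex_Ioo _ _).prod ?_
    have hlin : IsLinearMap ℝ fun t : ℝ => σ * t := IsLinearMap.isLinearMap_smul σ
    exact (convex_halfSpace_gt hlin B).inter (convex_halfSpace_lt hlin (B + δ))
  have hpt : ∀ t : ℝ, 0 < t → t < δ → (Q.x - t, σ * (B + t)) ∈ D := by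
    intro t ht htδ
    have e : σ * (σ * (B + t)) = B + t := by rw [← mul_assoc, hss, one_mul]
    refine ⟨by dsimp only; linarith, by dsimp only; linarith, ?_, ?_⟩
    · show B < σ * (σ * (B + t)); rw [e]; linarith
    · show σ * (σ * (B + t)) < B + δ; rw [e]; linarith
  have hcl : (Q.x, σ * B) ∈ closure D := by
    have ht : Tendsto (fun t : ℝ => (Q.x - t, σ * (B + t))) (𝓝[>] 0) (𝓝 (Q.x, σ * B)) := by
      have hc : Continuous fun t : ℝ => (Q.x - t, σ * (B + t)) := by fun_prop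
      have := (hc.tendsto 0).mono_left (nhdsWithin_le_nhds (s := Ioi 0))
      simpa using this
    refine mem_closure_of_tendsto ht ?_
    filter_upwards [Ioo_mem_nhdsGT hδ] with t ht
    exact hpt t ht.1 ht.2
  have hQm : (Q.x, σ * B) ∈ Q.car := ⟨⟨le_rfl, by have := Q.hs; dsimp only; linarith⟩, h1, h2⟩
  -- `D` meets a square
  have hpos : 0 < volume D := hDo.measure_pos volume ⟨_, hpt (δ / 2) (by linarith) (by linarith)⟩
  obtain ⟨Q', hQ', hm⟩ : ∃ Q' ∈ 𝒬, (D ∩ Q'.car).Nonempty := by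
    by_contra hc
    push Not at hc
    have : D ⊆ E \ ⋃ Q ∈ 𝒬, Q.car := by
      intro p hp
      refine ⟨hDE hp, fun h => ?_⟩
      obtain ⟨Q', hQ', hpQ'⟩ := mem_iUnion₂.1 h
      have := hc Q' hQ'
      exact (this ▸ (⟨hp, hpQ'⟩ : p ∈ D ∩ Q'.car) : p ∈ (∅ : Set (ℝ × ℝ)))
    exact hpos.ne' (measure_mono_null this hE.null)
  have hP : IsPreconnected (insert (Q.x, σ * B) D) :=
    hDc.isPreconnected.subset_closure (subset_insert _ _)
      (insert_subset hcl subset_closure)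
  have heq : Q = Q' := by
    refine hE.sep (insert (Q.x, σ * B) D) ?_ hP Q hQ Q' hQ' ⟨_, mem_insert _ _, hQm⟩ ?_
    · exact insert_subset (hE.sub Q hQ hQm) hDE
    · obtain ⟨p, hp, hp'⟩ := hm
      exact ⟨p, mem_insert_of_mem _ hp, hp'⟩
  obtain ⟨p, hp, hp'⟩ := hm
  rw [← heq] at hp'
  have := hp'.1.1
  linarith [hp.2.1]

/-- the charge of `u z` at a square which does not meet the cut -/
theorem ch_ext_le (hE : QPic E 𝒬 𝓗) (hσ : σ = 1 ∨ σ = -1) (hL : 0 ≤ L)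
    (hA : 0 ≤ A) (hC : 0 ≤ C) (hu : SL (univ \ cut J) L u) (huA : ∀ p, |u p| ≤ A)
    (hu0 : ∀ p, |u p| ≤ C * max 0 (σ * p.2 - B)) (hz : CFJ 𝓗 (Sd σ B) z)
    (hz01 : ∀ p, 0 ≤ z p ∧ z p ≤ 1) {Q : Sqr} (hQ : Q ∈ 𝒬) (hQJ : Disjoint Q.car (cut J)) :
    ch E univ (ext σ B u z) Q ≤ A * ch E (Sd σ B) z Q + L * Q.s := by
  set c := ch E (Sd σ B) z Q with hc
  have hc0 : 0 ≤ c := ch_nonneg _ _ _ _
  have hWo := isOpen_Sd σ B
  have hosc : OscLe (Eᶜ ∩ Sd σ B) (Q.car ∩ closure (Sd σ B)) z c := (CFJ.fin hE hz _).oscLe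
  have huo : OscLe univ Q.car u (L * diam Q.car) :=
    SL_oscLe hu hL convex_univ (isClosed_cut J) (Subset.refl _) Q.isCompact_car Q.convex_car hQJ
  have huo' : OscLe univ Q.car u (L * Q.s) :=
    huo.mono (mul_le_mul_of_nonneg_left Q.diam_le hL)
  have hsimp : ch E univ (ext σ B u z) Q = chg (Eᶜ ∩ univ) (Q.car ∩ closure univ) (ext σ B u z) :=
    rfl
  rw [hsimp, closure_univ, inter_univ, inter_univ]
  refine chg_le (by have := Q.hs; positivity) ?_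
  intro ε hε
  obtain ⟨O1, hO1, hP1, H1⟩ := hosc (ε / (4 * (A + 1))) (by positivity)
  obtain ⟨O2, hO2, hP2, H2⟩ := huo' (ε / 4) (by positivity)
  have hA1 : A * (ε / (4 * (A + 1))) ≤ ε / 4 := by
    rw [mul_div_assoc', div_le_div_iff₀ (by positivity) (by norm_num)]; nlinarith
  -- both points above the level
  have both : ∀ q, q ∈ O1 → q ∈ O2 → q ∈ Eᶜ → q ∈ Sd σ B → ∀ q', q' ∈ O1 → q' ∈ O2 → q' ∈ Eᶜ →
      q' ∈ Sd σ B → |ext σ B u z q - ext σ B u z q'| ≤ A * c + L * Q.s + ε / 2 := by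
    intro q a1 a2 a3 a4 q' b1 b2 b3 b4
    rw [ext_of_mem a4, ext_of_mem b4]
    have k1 := H1 q ⟨a1, a3, a4⟩ q' ⟨b1, b3, b4⟩
    have k2 := H2 q ⟨a2, mem_univ _⟩ q' ⟨b2, mem_univ _⟩
    have e : u q * z q - u q' * z q' = u q * (z q - z q') + z q' * (u q - u q') := by ring
    rw [e]
    refine (abs_add_le _ _).trans ?_
    rw [abs_mul, abs_mul, abs_of_nonneg (hz01 q').1]
    have k3 : |u q| * |z q - z q'| ≤ A * (c + ε / (4 * (A + 1))) :=
      mul_le_mul (huA q) k1 (abs_nonneg _) hA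
    have k4 : z q' * |u q - u q'| ≤ 1 * (L * Q.s + ε / 4) :=
      mul_le_mul (hz01 q').2 k2 (abs_nonneg _) zero_le_one
    linarith [mul_add A c (ε / (4 * (A + 1)))]
  -- open set, general part
  by_cases hQW : Q.car ⊆ Sd σ B
  · -- `Q` above the level
    refine ⟨O1 ∩ O2 ∩ Sd σ B, (hO1.inter hO2).inter hWo, ?_, ?_⟩
    · exact subset_inter (subset_inter (fun p hp => hP1 ⟨hp, subset_closure (hQW hp)⟩) hP2) hQW
    · rintro q ⟨⟨⟨a1, a2⟩, a4⟩, a3⟩ q' ⟨⟨⟨b1, b2⟩, b4⟩, b3⟩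
      have := both q a1 a2 a3 a4 q' b1 b2 b3 b4
      linarith
  by_cases hQc : Q.car ∩ {p : ℝ × ℝ | B ≤ σ * p.2} = ∅
  · -- `Q` below the level
    refine ⟨{p : ℝ × ℝ | B ≤ σ * p.2}ᶜ, (isClosed_cl σ B).isOpen_compl, ?_, ?_⟩
    · intro p hp hp'
      exact (hQc ▸ (⟨hp, hp'⟩ : p ∈ Q.car ∩ {p : ℝ × ℝ | B ≤ σ * p.2}) :
        p ∈ (∅ : Set (ℝ × ℝ)))
    · rintro q ⟨a1, -⟩ q' ⟨b1, -⟩
      have n1 : q ∉ Sd σ B := fun h => a1 (show B ≤ σ * q.2 from le_of_lt h)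
      have n2 : q' ∉ Sd σ B := fun h => b1 (show B ≤ σ * q'.2 from le_of_lt h)
      rw [ext_of_notMem n1, ext_of_notMem n2, sub_zero, abs_zero]
      have := Q.hs
      positivity
  · -- `Q` crosses the level
    obtain ⟨p1, hp1, hp1W⟩ := nonempty_iff_ne_empty.2 hQc
    obtain ⟨p2, hp2, hp2W⟩ := not_subset.1 hQW
    have hp1W : B ≤ σ * p1.2 := hp1W
    have hp2W : σ * p2.2 ≤ B := not_lt.1 hp2W
    have g1 := hp1.2
    have g2 := hp2.2
    have hlev : Q.y ≤ σ * B ∧ σ * B ≤ Q.y + Q.s := by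
      obtain ⟨g11, g12⟩ := g1
      obtain ⟨g21, g22⟩ := g2
      rcases hσ with rfl | rfl
      · constructor <;> linarith
      · constructor <;> linarith
    obtain ⟨hl1, hl2⟩ := hlev
    have hQm : (Q.x, σ * B) ∈ Q.car := ⟨⟨le_rfl, by have := Q.hs; dsimp only; linarith⟩, hl1, hl2⟩
    -- the corner lies in the closure of the side
    have hcl : (Q.x, σ * B) ∈ closure (Sd σ B) := by
      rw [Metric.mem_closure_iff]
      intro δ hδ
      obtain ⟨r, -, hr, hrW, -⟩ := exists_near hE hσ hQ hl1 hl2 hδ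
      exact ⟨r, hrW, by rw [dist_comm]; exact hr⟩
    have hnb : O1 ∩ O2 ∈ 𝓝 (Q.x, σ * B) :=
      (hO1.inter hO2).mem_nhds ⟨hP1 ⟨hQm, hcl⟩, hP2 hQm⟩
    obtain ⟨δ0, hδ0, hball⟩ := Metric.mem_nhds_iff.1 hnb
    have hCC : C * (ε / (4 * (C + 1))) ≤ ε / 4 := by
      rw [mul_div_assoc', div_le_div_iff₀ (by positivity) (by norm_num)]; nlinarith
    obtain ⟨r, hrE, hr, hrW, hrs⟩ := exists_near hE hσ hQ hl1 hl2
      (lt_min hδ0 (show 0 < ε / (4 * (C + 1)) by positivity))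
    have hrO := hball (show r ∈ ball (Q.x, σ * B) δ0 from lt_of_lt_of_le hr (min_le_left _ _))
    have hfr : |ext σ B u z r| ≤ ε / 4 := by
      refine (abs_ext_le_line hC hu0 hz01 hrW).trans ?_
      refine (mul_le_mul_of_nonneg_left ((le_of_lt hrs).trans (min_le_right _ _)) hC).trans hCC
    refine ⟨(O1 ∪ (closure (Sd σ B))ᶜ) ∩ O2,
      (hO1.union isClosed_closure.isOpen_compl).inter hO2, ?_, ?_⟩
    · refine subset_inter (fun p hp => ?_) hP2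
      by_cases h : p ∈ closure (Sd σ B)
      · exact Or.inl (hP1 ⟨hp, h⟩)
      · exact Or.inr h
    · have hin : ∀ q, q ∈ O1 ∪ (closure (Sd σ B))ᶜ → q ∈ Sd σ B → q ∈ O1 := by
        intro q h1 h2
        rcases h1 with h | h
        · exact h
        · exact absurd (subset_closure h2) h
      have mixed : ∀ q ∈ ((O1 ∪ (closure (Sd σ B))ᶜ) ∩ O2) ∩ Eᶜ, q ∈ Sd σ B →
          |ext σ B u z q| ≤ A * c + L * Q.s + ε := by
        rintro q ⟨⟨a1, a2⟩, a3⟩ a4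
        have k1 := both q (hin q a1 a4) a2 a3 a4 r hrO.1 hrO.2 hrE hrW
        have k2 := abs_le.1 k1
        have k3 := abs_le.1 hfr
        rw [abs_le]; constructor <;> linarith [k2.1, k2.2, k3.1, k3.2]
      intro q hq q' hq'
      by_cases m1 : q ∈ Sd σ B
      · by_cases m2 : q' ∈ Sd σ B
        · have := both q (hin q hq.1.1 m1) hq.1.2 hq.2 m1 q' (hin q' hq'.1.1 m2) hq'.1.2 hq'.2 m2
          linarith
        · rw [ext_of_notMem m2, sub_zero]; exact mixed q hq m1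
      · by_cases m2 : q' ∈ Sd σ B
        · rw [ext_of_notMem m1, zero_sub, abs_neg]; exact mixed q' hq' m2
        · rw [ext_of_notMem m1, ext_of_notMem m2, sub_zero, abs_zero]
          have := Q.hs
          positivity

/-- the charge of `u z` at a square which does not meet the support -/
theorem ch_ext_eq_zero (hS : IsCompact S) (hzS : ∀ p, B < σ * p.2 → p ∉ S → z p = 0) {Q : Sqr}
    (hQ : ¬ (Q.car ∩ S ∩ {p : ℝ × ℝ | B ≤ σ * p.2}).Nonempty) :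
    ch E univ (ext σ B u z) Q = 0 := by
  have ho : IsOpen (S ∩ {p : ℝ × ℝ | B ≤ σ * p.2})ᶜ :=
    (hS.isClosed.inter (isClosed_cl σ B)).isOpen_compl
  refine chg_eq_zero ho (a := 0) ?_ ?_
  · rintro p ⟨hp, -⟩ hp'
    exact hQ ⟨p, ⟨hp, hp'.1⟩, hp'.2⟩
  · rintro p ⟨hp, -⟩
    by_cases h : p ∈ Sd σ B
    · exact ext_supp hzS fun hpS => hp ⟨hpS, (le_of_lt h : B ≤ σ * p.2)⟩
    · exact ext_of_notMem h

theorem Ch_ext_le (hE : QPic E 𝒬 𝓗) (hσ : σ = 1 ∨ σ = -1) (hJ : ∀ K ∈ J, K ∈ 𝓗) (hL : 0 ≤ L)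
    (hA : 0 ≤ A) (hC : 0 ≤ C) (hu : SL (univ \ cut J) L u) (huA : ∀ p, |u p| ≤ A)
    (hu0 : ∀ p, |u p| ≤ C * max 0 (σ * p.2 - B)) (hz : CFJ 𝓗 (Sd σ B) z)
    (hz01 : ∀ p, 0 ≤ z p ∧ z p ≤ 1) (hS : IsCompact S)
    (hzS : ∀ p, B < σ * p.2 → p ∉ S → z p = 0)
    {T : ℝ} (hT0 : 0 ≤ T) (hT : ∀ s : Finset 𝒬,
      (∀ Q ∈ s, (Q.1.car ∩ S ∩ {p | B ≤ σ * p.2}).Nonempty) → ∑ Q ∈ s, Q.1.s ^ 2 ≤ T)
    (hcut : ∀ Q ∈ 𝒬, (Q.car ∩ S ∩ {p | B ≤ σ * p.2}).Nonempty → Disjoint Q.car (cut J)) :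
    Ch E univ 𝒬 (ext σ B u z) ≤ 2 * A ^ 2 * Ch E (Sd σ B) 𝒬 z + 2 * L ^ 2 * T := by
  classical
  have hfC : CFJ 𝓗 univ (ext σ B u z) := ext_cfj hσ hJ hA hC hu huA hu0 hz hz01
  set m : 𝒬 → ℝ := fun Q =>
    if (Q.1.car ∩ S ∩ {p | B ≤ σ * p.2}).Nonempty then Q.1.s ^ 2 else 0 with hm
  have hm0 : ∀ Q, 0 ≤ m Q := fun Q => by rw [hm]; dsimp only; split_ifs <;> positivity
  have hms : Summable m := by
    refine Summable.of_nonneg_of_le hm0 (fun Q => ?_) hE.summable_sq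
    rw [hm]; dsimp only; split_ifs
    · exact le_rfl
    · positivity
  have hmT : ∑' Q, m Q ≤ T := by
    refine hms.tsum_le_of_sum_le fun s => ?_
    rw [hm, ← Finset.sum_filter]
    exact hT _ fun Q hQ => (Finset.mem_filter.1 hQ).2
  have hzs := (summable_ch hE (convex_Sd σ B) hz).mul_left (2 * A ^ 2)
  have h2 := hms.mul_left (2 * L ^ 2)
  have key : ∑' Q : 𝒬, ch E univ (ext σ B u z) Q ^ 2 ≤
      ∑' Q : 𝒬, (2 * A ^ 2 * ch E (Sd σ B) z Q ^ 2 + 2 * L ^ 2 * m Q) := by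
    refine Summable.tsum_le_tsum (fun Q => ?_) (summable_ch hE convex_univ hfC) (hzs.add h2)
    by_cases hQ : (Q.1.car ∩ S ∩ {p | B ≤ σ * p.2}).Nonempty
    · have h1 := ch_ext_le hE hσ hL hA hC hu huA hu0 hz hz01 Q.2 (hcut Q.1 Q.2 hQ)
      have h3 := pow_le_pow_left₀ (ch_nonneg _ _ _ _) h1 2
      have h4 : m Q = Q.1.s ^ 2 := if_pos hQ
      rw [h4]
      refine h3.trans ?_
      nlinarith [sq_nonneg (A * ch E (Sd σ B) z Q - L * Q.1.s)]
    · rw [ch_ext_eq_zero hS hzS hQ, zero_pow two_ne_zero]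
      have := hm0 Q
      positivity
  unfold Ch
  refine key.trans ?_
  rw [hzs.tsum_add h2, tsum_mul_left, tsum_mul_left]
  exact add_le_add le_rfl (mul_le_mul_of_nonneg_left hmT (by positivity))

/-- **COST** -/
theorem cost (hE : QPic E 𝒬 𝓗) {σ : ℝ} (hσ : σ = 1 ∨ σ = -1) {B : ℝ} {J : Finset Hair}
    (hJ : ∀ K ∈ J, K ∈ 𝓗) {u : ℝ × ℝ → ℝ} {L A C ε : ℝ} (hL : 0 ≤ L) (hA : 0 ≤ A) (hC : 0 ≤ C)
    (hu : SL (univ \ cut J) L u) (huA : ∀ p, |u p| ≤ A)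
    (hu0 : ∀ p, |u p| ≤ C * max 0 (σ * p.2 - B)) {z : ℝ × ℝ → ℝ} {S : Set (ℝ × ℝ)}
    (hz : CFJ 𝓗 {p | B < σ * p.2} z) (hz01 : ∀ p, 0 ≤ z p ∧ z p ≤ 1) (hS : IsCompact S)
    (hzS : ∀ p, B < σ * p.2 → p ∉ S → z p = 0)
    (hzE : TQ E {p | B < σ * p.2} 𝒬 z ≤ ε) {T : ℝ} (hT0 : 0 ≤ T)
    (hT : ∀ s : Finset 𝒬, (∀ Q ∈ s, (Q.1.car ∩ S ∩ {p | B ≤ σ * p.2}).Nonempty) →
      ∑ Q ∈ s, Q.1.s ^ 2 ≤ T)
    (hcut : ∀ Q ∈ 𝒬, (Q.car ∩ S ∩ {p | B ≤ σ * p.2}).Nonempty → Disjoint Q.car (cut J)) :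
    let f := fun p : ℝ × ℝ => if B < σ * p.2 then u p * z p else 0
    CFJ 𝓗 univ f ∧ (∀ p ∉ S, f p = 0) ∧ (∀ p, |f p| ≤ A) ∧
      TQ E univ 𝒬 f ≤ 2 * A ^ 2 * ε + 4 * L ^ 2 * (volume (S \ E)).toReal + 2 * L ^ 2 * T := by
  intro f
  have e : f = ext σ B u z := rfl
  rw [e]
  refine ⟨ext_cfj hσ hJ hA hC hu huA hu0 hz hz01, fun p hp => ext_supp hzS hp,
    fun p => abs_ext_le hA huA hz01 p, ?_⟩
  have h1 := En_ext_le hE hσ hJ hL hA hC hu huA hu0 hz hz01 hS hzS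
  have h2 := Ch_ext_le hE hσ hJ hL hA hC hu huA hu0 hz hz01 hS hzS hT0 hT hcut
  have h3 : TQ E (Sd σ B) 𝒬 z ≤ ε := hzE
  unfold TQ at h3 ⊢
  have h4 := mul_le_mul_of_nonneg_left h3 (show 0 ≤ 2 * A ^ 2 by positivity)
  rw [mul_add] at h4
  linarith

end Crest.Agent.R105.Clc_72
end

-- ▼ part R105/Cln4_891
section

/-!
Row 105 (S0138, picture with solids), task 2398, part 4: flattening of the outer parts of ONE solid
on one side (`clean_side`).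
-/

set_option autoImplicit false

open Set Filter MeasureTheory Topology Metric
open scoped ENNReal NNReal

namespace Crest.Agent.R105.Cln_891

open CF_363 Stp_722 Cq_463

local notation "cc" => connectedComponentIn

variable {E : Set (ℝ × ℝ)} {𝒬 : Set Sqr} {𝓗 : Set Hair} {P : Set (ℝ × ℝ)} {Q : Sqr}
  {J : Finset Hair} {L : ℝ} {φ : ℝ × ℝ → ℝ}

theorem lev_sig {V R : Set (ℝ × ℝ)} (h : Lev V Prod.snd R) {σ : ℝ} (hσ : σ = 1 ∨ σ = -1) :
    Lev V (fun p : ℝ × ℝ => -(σ * p.2)) R := by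
  rcases hσ with rfl | rfl
  · have := h.neg
    simpa using this
  · simpa using h

set_option maxHeartbeats 2000000 in
/-- **one-sided cleaning.** -/
theorem clean_side (hE : QPic E 𝒬 𝓗) (hC : Comp E 𝒬 𝓗) {x₀ : ℝ × ℝ} (hx₀ : x₀ ∈ E)
    (h : Solid E 𝒬 𝓗 (cc E x₀) Q) {σ e : ℝ} (he : IsSide Q σ e)
    (hOut : ∀ B > e, OutN E 𝒬 𝓗 (cc E x₀) σ B) (hφ : CFJ 𝓗 univ φ) {R : ℝ} (hR : ∀ p, |φ p| ≤ R)
    {N : Set (ℝ × ℝ)} (hN : IsOpen N) (hPN : cc E x₀ ⊆ N) {ε η : ℝ} (hε : 0 < ε) (hη : 0 < η) :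
    ∃ (φ₁ : ℝ × ℝ → ℝ) (S : Set (ℝ × ℝ)), CFJ 𝓗 univ φ₁ ∧ (∀ p, |φ₁ p| ≤ R) ∧ IsCompact S ∧
      S ⊆ N ∧ (∀ p ∉ S, φ₁ p = φ p) ∧ (∃ B > e, ∀ p, σ * p.2 ≤ B → φ₁ p = φ p) ∧
      TQ E univ 𝒬 (fun p => φ₁ p - φ p) ≤ ε ∧
      (∀ p, ∃ w k : ℝ, 0 ≤ w ∧ w ≤ 1 ∧ φ₁ p = φ p + w * (k - φ p) ∧ k ∈ φ '' Q.car ∧
        ∀ O, IsOpen O → Q.car ⊆ O → ∃ v ∈ O \ E, |φ v - k| ≤ η) ∧
      (∃ O, IsOpen O ∧ cc E x₀ ∩ {p | e ≤ σ * p.2} ⊆ O ∧ ∀ q ∈ O \ E, ∀ O', IsOpen O' →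
        Q.car ⊆ O' → ∃ v ∈ O' \ E, |φ₁ q - φ v| ≤ η) ∧
      ∀ x ∈ E, x ∉ cc E x₀ → ∀ R' ⊆ cc E x, Lev Eᶜ Prod.snd R' → ∀ b, OscLe Eᶜ R' φ b →
        OscLe Eᶜ R' φ₁ (b + η) := by
  have hR0 : 0 ≤ R := (abs_nonneg _).trans (hR (0, 0))
  have hσ := he.sig
  obtain ⟨J, hJ, L, _, hL, hSL, -⟩ := hφ
  have hJE : ∀ K ∈ J, K.car ⊆ E := fun K hK => hE.hsub K (hJ K hK)
  have hφ : CFJ 𝓗 univ φ := ⟨J, hJ, L, R, hL, hSL, fun p _ => hR p⟩
  set δ := min (Q.s / 2) (η / (64 * (L + 1))) with hδ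
  have hδ0 : 0 < δ := lt_min (by have := Q.hs; linarith) (by positivity)
  have hδs : δ < Q.s := (min_le_left _ _).trans_lt (by have := Q.hs; linarith)
  have hLδ : L * δ ≤ η / 64 := by
    have e1 : δ ≤ η / (64 * (L + 1)) := min_le_right _ _
    have e2 : L * δ ≤ L * (η / (64 * (L + 1))) := by gcongr
    have e3 : L * (η / (64 * (L + 1))) ≤ η / 64 := by
      rw [show L * (η / (64 * (L + 1))) = L * η / (64 * (L + 1)) by ring,
        div_le_div_iff₀ (by positivity) (by norm_num)]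
      nlinarith
    linarith
  obtain ⟨l1, l2⟩ := he.level hδ0 hδs
  set y₁ := σ * (e - δ) with hy₁
  set F := FF Q y₁ φ with hF
  set B := e + δ with hB
  -- near `P`
  obtain ⟨O₁, hO₁, hPO₁, hn⟩ := h.near_FF hJ hJE hL hSL l1 l2 (δ := 4 * δ)
    (show 0 < η / 16 by positivity)
  have hn' : ∀ q ∈ O₁ \ E, e - δ ≤ σ * q.2 → σ * q.2 ≤ e + 3 * δ → |φ q - F q| ≤ η / 8 := by
    intro q hq h1 h2
    have := hn q hq (by
      rw [← sig_abs hσ, hy₁, sig_mul hσ, abs_le]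
      constructor <;> linarith)
    linarith
  have hface : ∀ O, IsOpen O → Q.car ⊆ O → ∀ p, ∃ v ∈ O \ E, |φ v - F p| ≤ η / 2 := by
    intro O hO hQO p
    obtain ⟨v, hv, -, -, hv2⟩ := h.exists_face hE hJ hL hSL he hδ0 hδs
      (show 0 < η / 8 by positivity) hO hQO p
    exact ⟨v, hv, hv2.trans (by linarith)⟩
  -- the Lipschitz function
  have hFR : ∀ p, |F p| ≤ R := fun p => hR _
  have hFSL : SL univ L F := by
    intro p q _
    refine (h.FF_lip hJ hL hSL l1 l2 p q).trans ?_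
    gcongr
    rw [Prod.dist_eq, Real.dist_eq]
    exact le_max_left _ _
  set hh : ℝ × ℝ → ℝ := fun p => -(σ * p.2) with hhd
  have hhc : Continuous hh := (continuous_const.mul continuous_snd).neg
  set θ : ℝ × ℝ → ℝ := fun p => th (-B) δ (hh p) with hθ
  have hθ0 : ∀ p, 0 ≤ θ p := fun p => th_nonneg _ _ _
  have hθ1 : ∀ p, θ p ≤ 1 := fun p => th_le_one _ _ _
  have hθSL : SL univ (1 / δ) θ := by
    intro p q _
    refine (abs_th_sub_le hδ0).trans ?_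
    rw [div_mul_eq_mul_div, one_mul]
    gcongr
    simp only [hhd]
    rw [show -(σ * p.2) - -(σ * q.2) = -(σ * p.2 - σ * q.2) by ring, abs_neg, sig_abs hσ,
      Prod.dist_eq, Real.dist_eq, Real.dist_eq]
    exact le_max_right _ _
  set u : ℝ × ℝ → ℝ := fun p => θ p * (F p - φ p) with hu
  have hFφ : ∀ p, |F p - φ p| ≤ 2 * R := fun p => by
    have := abs_sub (F p) (φ p)
    linarith [hFR p, hR p]
  have huSL : SL (univ \ cut J) (1 * (L + L) + 2 * R * (1 / δ)) u :=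
    (hθSL.mono (subset_univ _)).mul ((hFSL.mono (subset_univ _)).sub hSL)
      (fun p _ => by rw [abs_of_nonneg (hθ0 p)]; exact hθ1 p) (fun p _ => hFφ p)
  have huA : ∀ p, |u p| ≤ 2 * R := by
    intro p
    simp only [hu]
    rw [abs_mul, abs_of_nonneg (hθ0 p)]
    calc θ p * |F p - φ p| ≤ 1 * (2 * R) := mul_le_mul (hθ1 p) (hFφ p) (abs_nonneg _) zero_le_one
      _ = 2 * R := one_mul _
  have hu0 : ∀ p, |u p| ≤ (2 * R / δ) * max 0 (σ * p.2 - B) := by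
    intro p
    simp only [hu]
    rw [abs_mul, abs_of_nonneg (hθ0 p)]
    have e1 : θ p ≤ max 0 (σ * p.2 - B) / δ := by
      simp only [hθ, hhd, th]
      rw [← max_div_div_right hδ0.le, zero_div, show -B - -(σ * p.2) = σ * p.2 - B by ring]
      exact max_le_max le_rfl (min_le_right _ _)
    calc θ p * |F p - φ p| ≤ (max 0 (σ * p.2 - B) / δ) * (2 * R) :=
          mul_le_mul e1 (hFφ p) (abs_nonneg _) (by positivity)
      _ = _ := by ring
  set Lu := 1 * (L + L) + 2 * R * (1 / δ) with hLu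
  have hLu0 : 0 ≤ Lu := by positivity
  -- thin neighbourhood
  set T := min (ε / (3 * (4 * Lu ^ 2 + 1))) (η / (32 * (L + 1))) with hT
  have hT0 : 0 < T := lt_min (by positivity) (by positivity)
  have hT1 : T ≤ ε / (3 * (4 * Lu ^ 2 + 1)) := min_le_left _ _
  have hLT : L * (2 * T) ≤ η / 16 := by
    have e1 : T ≤ η / (32 * (L + 1)) := min_le_right _ _
    have e2 : L * (2 * T) ≤ L * (2 * (η / (32 * (L + 1)))) := by gcongr
    have e3 : L * (2 * (η / (32 * (L + 1)))) ≤ η / 16 := by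
      rw [show L * (2 * (η / (32 * (L + 1)))) = (2 * L) * η / (32 * (L + 1)) by ring,
        div_le_div_iff₀ (by positivity) (by norm_num)]
      nlinarith
    linarith
  obtain ⟨N', hN', hPN', hN'N, hvol, hcut, hsum, hwid⟩ :=
    exists_thin hE hC hx₀ h hJ (hN.inter hO₁) (subset_inter hPN hPO₁) hT0
  set ε₁ := ε / (3 * (2 * (2 * R) ^ 2 + 1)) with hε₁
  have hε₁0 : 0 < ε₁ := by positivity
  set m := η / (8 * (2 * R + 1)) with hm
  have hm0 : 0 < m := by positivity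
  have hmR : m * (2 * R) ≤ η / 8 := by
    rw [hm, show η / (8 * (2 * R + 1)) * (2 * R) = η * (2 * R) / (8 * (2 * R + 1)) by ring,
      div_le_div_iff₀ (by positivity) (by norm_num)]
    nlinarith
  obtain ⟨z, S, hz, hz01, hS, hSN, hzS, hzE, ⟨O₂, hO₂, hPO₂, hz1⟩, hzosc⟩ :=
    out_avg hE hx₀ (hOut B (by rw [hB]; linarith)) hm0 hN' hPN' hε₁0
  have hmeet : ∀ Q' ∈ 𝒬, (Q'.car ∩ S ∩ {p | B ≤ σ * p.2}).Nonempty →
      Q' ≠ Q ∧ (Q'.car ∩ N').Nonempty := by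
    rintro Q' hQ' ⟨p, ⟨hp, hpS⟩, hpB⟩
    refine ⟨?_, p, hp, hSN hpS⟩
    rintro rfl
    have := he.le hp
    have hpB' : B ≤ σ * p.2 := hpB
    linarith
  obtain ⟨c1, c2, c3, c4⟩ := Clc_72.cost hE hσ (B := B) hJ hLu0 (show 0 ≤ 2 * R by positivity)
    (show 0 ≤ 2 * R / δ by positivity) huSL huA hu0 hz hz01 hS hzS hzE hT0.le
    (fun s hs => hsum s fun Q' hQ' => hmeet Q'.1 Q'.2 (hs Q' hQ'))
    (fun Q' hQ' hm => hcut Q' hQ' (hmeet Q' hQ' hm).1 (hmeet Q' hQ' hm).2)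
  set f : ℝ × ℝ → ℝ := fun p => if B < σ * p.2 then u p * z p else 0 with hf
  -- the weight
  set w : ℝ × ℝ → ℝ := fun p => θ p * z p with hw
  have hfw : ∀ p, f p = w p * (F p - φ p) := by
    intro p
    simp only [hf, hw, hu]
    split_ifs with hp
    · ring
    · have : θ p = 0 := th_eq_zero hδ0 (by simp only [hhd]; linarith)
      rw [this]; ring
  have hw01 : ∀ p, 0 ≤ w p ∧ w p ≤ 1 := fun p =>
    ⟨mul_nonneg (hθ0 p) (hz01 p).1, mul_le_one₀ (hθ1 p) (hz01 p).1 (hz01 p).2⟩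
  refine ⟨fun p => φ p + f p, S, hφ.add c1, fun p => ?_, hS, fun p hp => (hN'N (hSN hp)).1,
    fun p hp => by beta_reduce; rw [c2 p hp, add_zero], ⟨B, by rw [hB]; linarith, fun p hp => ?_⟩, ?_,
    fun p => ⟨w p, F p, (hw01 p).1, (hw01 p).2, by beta_reduce; rw [hfw],
      ⟨(clp Q p.1, y₁), Sqr.mem_car.2 ⟨clp_mem Q p.1, l1.le, l2.le⟩, rfl⟩, fun O hO hQO => ?_⟩,
    ?_, ?_⟩
  · beta_reduce
    rw [hfw]
    obtain ⟨w0, w1⟩ := hw01 p
    have a1 := abs_le.1 (hR p)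
    have a2 := abs_le.1 (hFR p)
    rw [abs_le]
    constructor
    · nlinarith [mul_nonneg w0 (show 0 ≤ F p + R by linarith),
        mul_nonneg (show 0 ≤ 1 - w p by linarith) (show 0 ≤ φ p + R by linarith)]
    · nlinarith [mul_nonneg w0 (show 0 ≤ R - F p by linarith),
        mul_nonneg (show 0 ≤ 1 - w p by linarith) (show 0 ≤ R - φ p by linarith)]
  · have : f p = 0 := by simp only [hf]; rw [if_neg (not_lt.2 hp)]
    beta_reduce
    rw [this, add_zero]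
  · have e0 : (fun p => φ p + f p - φ p) = f := by funext p; ring
    rw [e0]
    refine c4.trans ?_
    have v1 := hvol S hSN
    have g1 : 2 * (2 * R) ^ 2 * ε₁ ≤ ε / 3 := by
      rw [hε₁, show 2 * (2 * R) ^ 2 * (ε / (3 * (2 * (2 * R) ^ 2 + 1))) =
        (2 * (2 * R) ^ 2) * ε / (3 * (2 * (2 * R) ^ 2 + 1)) by ring,
        div_le_div_iff₀ (by positivity) (by norm_num)]
      nlinarith [sq_nonneg R]
    have g2 : 4 * Lu ^ 2 * T ≤ ε / 3 := by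
      refine (mul_le_mul_of_nonneg_left hT1 (by positivity)).trans ?_
      rw [show 4 * Lu ^ 2 * (ε / (3 * (4 * Lu ^ 2 + 1))) =
        (4 * Lu ^ 2) * ε / (3 * (4 * Lu ^ 2 + 1)) by ring,
        div_le_div_iff₀ (by positivity) (by norm_num)]
      nlinarith [sq_nonneg Lu]
    have g3 : 4 * Lu ^ 2 * (volume (S \ E)).toReal ≤ 4 * Lu ^ 2 * T := by gcongr
    have g4 : 2 * Lu ^ 2 * T ≤ 4 * Lu ^ 2 * T := by
      have := mul_nonneg (sq_nonneg Lu) hT0.le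
      linarith
    linarith
  · obtain ⟨v, hv, hv2⟩ := hface O hO hQO p
    exact ⟨v, hv, hv2.trans (by linarith)⟩
  · have hcont : Continuous fun p : ℝ × ℝ => σ * p.2 := continuous_const.mul continuous_snd
    refine ⟨O₁ ∩ {p | e - δ < σ * p.2} ∩ (O₂ ∪ {p | σ * p.2 < e + 3 * δ}),
      (hO₁.inter (isOpen_lt continuous_const hcont)).inter
        (hO₂.union (isOpen_lt hcont continuous_const)), ?_, ?_⟩
    · rintro p ⟨hpP, hpe⟩
      have hpe' : e ≤ σ * p.2 := hpe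
      refine ⟨⟨hPO₁ hpP, ?_⟩, ?_⟩
      · change e - δ < σ * p.2
        linarith
      · by_cases hc : B ≤ σ * p.2
        · exact Or.inl (hPO₂ ⟨hpP, hc⟩)
        · refine Or.inr ?_
          change σ * p.2 < e + 3 * δ
          rw [not_le, hB] at hc
          linarith
    · rintro q ⟨⟨⟨hq1, hq2⟩, hq3⟩, hqE⟩ O' hO' hQO'
      have hq2' : e - δ < σ * q.2 := hq2
      have key : |φ q + f q - F q| ≤ η / 2 := by
        by_cases hc : σ * q.2 < e + 3 * δ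
        · have h1 : |φ q - F q| ≤ η / 2 := (hn' q ⟨hq1, hqE⟩ hq2'.le hc.le).trans (by linarith)
          rw [hfw, show φ q + w q * (F q - φ q) - F q = (1 - w q) * (φ q - F q) by ring, abs_mul,
            abs_of_nonneg (by linarith [(hw01 q).2])]
          calc (1 - w q) * |φ q - F q| ≤ 1 * (η / 2) :=
                mul_le_mul (by linarith [(hw01 q).1]) h1 (abs_nonneg _) zero_le_one
            _ = η / 2 := one_mul _
        · rcases hq3 with hq3 | hq3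
          · rw [not_lt] at hc
            have hBq : B < σ * q.2 := by rw [hB]; linarith
            have hz := hz1 q ⟨hq3, hqE⟩ hBq
            have hθq : θ q = 1 := th_eq_one hδ0 (by simp only [hhd, hB]; linarith)
            have hwq : w q = 1 := by
              simp only [hw]
              rw [hz, hθq, one_mul]
            rw [hfw, hwq, one_mul, show φ q + (F q - φ q) - F q = 0 by ring, abs_zero]
            positivity
          · exact absurd hq3 hc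
      obtain ⟨v, hv, hv2⟩ := hface O' hO' hQO' q
      refine ⟨v, hv, ?_⟩
      have a1 := abs_le.1 key
      have a2 := abs_le.1 hv2
      beta_reduce
      rw [abs_le]
      constructor <;> linarith [a1.1, a1.2, a2.1, a2.2]
  · -- growth at the other components
    intro x hx hxP R' hR' hLev b hb
    by_cases hd : Disjoint (cc E x) S
    · refine (hb.congr hS.isClosed.isOpen_compl (hR'.trans hd.subset_compl_right)
        fun q hq => ?_).mono (by linarith)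
      rw [c2 q hq.1, add_zero]
    · rw [not_disjoint_iff] at hd
      obtain ⟨y, hy, hyS⟩ := hd
      obtain ⟨hxN, hxw⟩ := hwid x hx hxP ⟨y, hy, hSN hyS⟩
      set k := F x with hk
      set N'' : Set (ℝ × ℝ) := O₁ ∩ {q | |q.1 - x.1| < 2 * T} with hN''
      have hN''o : IsOpen N'' := hO₁.inter
        (isOpen_lt ((continuous_fst.sub continuous_const).abs) continuous_const)
      have hxN'' : cc E x ⊆ N'' := fun p hp => ⟨(hxN hp).2, by
        change |p.1 - x.1| < 2 * T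
        have := hxw p hp
        linarith⟩
      have hFk : ∀ q ∈ N'', |F q - k| ≤ η / 16 := by
        intro q hq
        have h1 := h.FF_lip hJ hL hSL l1 l2 q x
        have h2 : |q.1 - x.1| < 2 * T := hq.2
        have h3 : L * |q.1 - x.1| ≤ L * (2 * T) := by gcongr
        exact h1.trans (h3.trans hLT)
      have hgrow := growth_lev (V := Eᶜ) (h := hh) (B := -B) (τ := δ) (z := z) (c := fun _ => k)
        (χ := φ) hhc hδ0 (lev_sig hLev hσ) hN''o (hR'.trans hxN'') (k := k) (A := 2 * R)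
        (η := 3 * η / 16) (m := m) (a := b) (by positivity) (by positivity) hm0.le
        (fun _ _ => rfl) (fun q _ => by
          have := abs_sub (φ q) k
          have h1 := hR q
          have h2 : |k| ≤ R := hFR x
          linarith)
        (fun q hq hqB => by
          have h1 : |-(σ * q.2) - -B| < 2 * δ := hqB
          rw [show -(σ * q.2) - -B = B - σ * q.2 by ring, hB] at h1
          obtain ⟨h2, h3⟩ := abs_lt.1 h1
          have h4 := hn' q ⟨hq.1.1, hq.2⟩ (by linarith) (by linarith)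
          have h5 := hFk q hq.1
          have := abs_sub_le (φ q) (F q) k
          linarith)
        hz01 (((hzosc x hx hxP).mono_V (fun q hq => ⟨hq.1, by
          have h1 : -(σ * q.2) < -B := hq.2
          change B < σ * q.2
          linarith⟩)).mono_set (fun q hq => ⟨hR' hq.1, by
          have h1 : -(σ * q.2) ≤ -B := hq.2
          change B ≤ σ * q.2
          linarith⟩)) hb
      refine (hgrow.of_near (η := η / 16) hN''o (hR'.trans hxN'') fun q hq => ?_).mono ?_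
      · beta_reduce
        have e1 : φ q + f q - op hh (-B) δ z (fun _ => k) φ q = w q * (F q - k) := by
          rw [hfw]
          unfold op
          simp only [hw, hθ]
          ring
        rw [e1, abs_mul, abs_of_nonneg (hw01 q).1]
        calc w q * |F q - k| ≤ 1 * (η / 16) :=
              mul_le_mul (hw01 q).2 (hFk q hq.1) (abs_nonneg _) zero_le_one
          _ = η / 16 := one_mul _
      · linarith

end Crest.Agent.R105.Cln_891
end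

-- ▼ part R105/Cln5_891
section

/-!
Row 105 (S0138, picture with solids), task 2398, part 5: CLEANQ, the flattening of the outer parts
of ONE solid on both sides.
-/

set_option autoImplicit false

open Set Filter MeasureTheory Topology Metric
open scoped ENNReal NNReal

namespace Crest.Agent.R105.Cln_891

open CF_363 Stp_722 Cq_463

local notation "cc" => connectedComponentIn

variable {E : Set (ℝ × ℝ)} {𝒬 : Set Sqr} {𝓗 : Set Hair} {Q : Sqr} {φ : ℝ × ℝ → ℝ}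

theorem mix_mem {a k w lo hi : ℝ} (hw0 : 0 ≤ w) (hw1 : w ≤ 1) (ha : a ∈ Icc lo hi)
    (hk : k ∈ Icc lo hi) : a + w * (k - a) ∈ Icc lo hi := by
  obtain ⟨a1, a2⟩ := ha
  obtain ⟨b1, b2⟩ := hk
  constructor <;> nlinarith [mul_nonneg hw0 (sub_nonneg.2 b1), mul_nonneg hw0 (sub_nonneg.2 b2),
    mul_nonneg (sub_nonneg.2 hw1) (sub_nonneg.2 a1), mul_nonneg (sub_nonneg.2 hw1) (sub_nonneg.2 a2)]

/-- **CLEANQ** -/
theorem cleanQ (hE : QPic E 𝒬 𝓗) (hC : Comp E 𝒬 𝓗) {x₀ : ℝ × ℝ} (hx₀ : x₀ ∈ E)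
    (h : Solid E 𝒬 𝓗 (cc E x₀) Q)
    (hup : ∀ B > Q.y + Q.s, OutN E 𝒬 𝓗 (cc E x₀) 1 B)
    (hdn : ∀ B > -Q.y, OutN E 𝒬 𝓗 (cc E x₀) (-1) B)
    (hφ : CFJ 𝓗 univ φ) {R : ℝ} (hR : ∀ p, |φ p| ≤ R)
    {N : Set (ℝ × ℝ)} (hN : IsOpen N) (hPN : cc E x₀ ⊆ N) {ε η : ℝ} (hε : 0 < ε) (hη : 0 < η) :
    ∃ (φ' : ℝ × ℝ → ℝ) (S : Set (ℝ × ℝ)), CFJ 𝓗 univ φ' ∧ (∀ p, |φ' p| ≤ R) ∧ IsCompact S ∧
      S ⊆ N ∧ (∀ p ∉ S, φ' p = φ p) ∧ TQ E univ 𝒬 (fun p => φ' p - φ p) ≤ ε ∧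
      (∃ O, IsOpen O ∧ Q.car ⊆ O ∧ ∀ p ∈ O, φ' p = φ p) ∧
      (∀ c, OscLe Eᶜ Q.car φ c → OscLe Eᶜ (cc E x₀) φ' (c + η)) ∧
      (∀ p lo hi, φ p ∈ Icc lo hi → (∀ q ∈ Q.car, φ q ∈ Icc lo hi) → φ' p ∈ Icc lo hi) ∧
      (∀ p lo hi, φ p ∈ Icc lo hi → (∃ O, IsOpen O ∧ Q.car ⊆ O ∧ ∀ v ∈ O \ E, φ v ∈ Icc lo hi) →
        φ' p ∈ Icc (lo - η) (hi + η)) ∧
      ∀ x ∈ E, x ∉ cc E x₀ → ∀ R' ⊆ cc E x, Lev Eᶜ Prod.snd R' → ∀ b, OscLe Eᶜ R' φ b →
        OscLe Eᶜ R' φ' (b + η) := by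
  obtain ⟨φ₁, S₁, h1, hR₁, hS₁, hSN₁, h01, ⟨B₁, hB₁, hB₁'⟩, hT₁, hm₁, ⟨O₁, hO₁, hPO₁, hosc₁⟩, hg₁⟩ :=
    clean_side hE hC hx₀ h (σ := 1) (e := Q.y + Q.s) (Or.inl ⟨rfl, rfl⟩) hup hφ hR hN hPN
      (show 0 < ε / 4 by positivity) (show 0 < η / 2 by positivity)
  obtain ⟨φ₂, S₂, h2, hR₂, hS₂, hSN₂, h02, ⟨B₂, hB₂, hB₂'⟩, hT₂, hm₂, ⟨O₂, hO₂, hPO₂, hosc₂⟩, hg₂⟩ :=
    clean_side hE hC hx₀ h (σ := -1) (e := -Q.y) (Or.inr ⟨rfl, rfl⟩) hdn h1 hR₁ hN hPN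
      (show 0 < ε / 4 by positivity) (show 0 < η / 2 by positivity)
  have hQ1 : ∀ p ∈ Q.car, 1 * p.2 ≤ B₁ := fun p hp => by
    have := (Sqr.mem_car.1 hp).2.2; linarith
  have hQ2 : ∀ p ∈ Q.car, -1 * p.2 ≤ B₂ := fun p hp => by
    have := (Sqr.mem_car.1 hp).2.1; linarith
  -- the open strip where nothing changes
  set A₁ : Set (ℝ × ℝ) := {p | 1 * p.2 < B₁} with hA₁
  set A₂ : Set (ℝ × ℝ) := {p | -1 * p.2 < B₂} with hA₂
  have hA₁o : IsOpen A₁ := isOpen_lt (continuous_const.mul continuous_snd) continuous_const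
  have hA₂o : IsOpen A₂ := isOpen_lt (continuous_const.mul continuous_snd) continuous_const
  have hQA₁ : Q.car ⊆ A₁ := fun p hp => by
    change 1 * p.2 < B₁
    have := (Sqr.mem_car.1 hp).2.2; linarith
  have hQA₂ : Q.car ⊆ A₂ := fun p hp => by
    change -1 * p.2 < B₂
    have := (Sqr.mem_car.1 hp).2.1; linarith
  have e1 : ∀ p ∈ A₁, φ₁ p = φ p := fun p hp => hB₁' p (le_of_lt hp)
  have e2 : ∀ p ∈ A₂, φ₂ p = φ₁ p := fun p hp => hB₂' p (le_of_lt hp)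
  refine ⟨φ₂, S₁ ∪ S₂, h2, hR₂, hS₁.union hS₂, union_subset hSN₁ hSN₂, fun p hp => ?_, ?_,
    ⟨A₁ ∩ A₂, hA₁o.inter hA₂o, subset_inter hQA₁ hQA₂, fun p hp => (e2 p hp.2).trans (e1 p hp.1)⟩,
    fun c hc => ?_, fun p lo hi hp hq => ?_, fun p lo hi hp hq => ?_, fun x hx hxP R' hR' hL b hb => ?_⟩
  · rw [mem_union, not_or] at hp
    rw [h02 p hp.2, h01 p hp.1]
  · have c1 : Cc 𝓗 univ (fun p => φ₂ p - φ₁ p) := ⟨h2.sub h1, S₂, hS₂, fun p _ hp => by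
      beta_reduce; rw [h02 p hp, sub_self]⟩
    have c2 : Cc 𝓗 univ (fun p => φ₁ p - φ p) := ⟨h1.sub hφ, S₁, hS₁, fun p _ hp => by
      beta_reduce; rw [h01 p hp, sub_self]⟩
    have h3 := TQ_add_le hE isOpen_univ convex_univ c1 c2
    have e : (fun q => φ₂ q - φ₁ q + (φ₁ q - φ q)) = fun p => φ₂ p - φ p := by funext q; ring
    rw [e] at h3
    linarith
  · -- oscillation at the solid
    intro ε' hε'
    obtain ⟨O, hO, hQO, H⟩ := hc ε' hε'
    have key : ∀ q ∈ ((O₁ ∩ A₂) ∪ (O₂ ∩ A₁) ∪ (O ∩ A₁ ∩ A₂)) \ E, ∃ v ∈ O \ E,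
        |φ₂ q - φ v| ≤ η / 2 := by
      rintro q ⟨(⟨hq, hqA⟩ | ⟨hq, hqA⟩) | ⟨⟨hq, hqA1⟩, hqA2⟩, hqE⟩
      · obtain ⟨v, hv, hv2⟩ := hosc₁ q ⟨hq, hqE⟩ O hO hQO
        exact ⟨v, hv, by rw [e2 q hqA]; exact hv2⟩
      · obtain ⟨v, hv, hv2⟩ := hosc₂ q ⟨hq, hqE⟩ (O ∩ A₁) (hO.inter hA₁o) (subset_inter hQO hQA₁)
        exact ⟨v, ⟨hv.1.1, hv.2⟩, by rw [← e1 v hv.1.2]; exact hv2⟩
      · exact ⟨q, ⟨hq, hqE⟩, by
          rw [e2 q hqA2, e1 q hqA1, sub_self, abs_zero]; positivity⟩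
    refine ⟨(O₁ ∩ A₂) ∪ (O₂ ∩ A₁) ∪ (O ∩ A₁ ∩ A₂),
      ((hO₁.inter hA₂o).union (hO₂.inter hA₁o)).union ((hO.inter hA₁o).inter hA₂o), ?_, ?_⟩
    · intro p hp
      by_cases c1 : Q.y + Q.s ≤ p.2
      · refine Or.inl (Or.inl ⟨hPO₁ ⟨hp, ?_⟩, ?_⟩)
        · change Q.y + Q.s ≤ 1 * p.2
          linarith
        · change -1 * p.2 < B₂
          have := Q.hs
          linarith
      · by_cases c2 : p.2 ≤ Q.y
        · refine Or.inl (Or.inr ⟨hPO₂ ⟨hp, ?_⟩, ?_⟩)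
          · change -Q.y ≤ -1 * p.2
            linarith
          · change 1 * p.2 < B₁
            have := Q.hs
            linarith
        · rw [not_le] at c1 c2
          have hpQ : p ∈ Q.car := Sqr.mem_car.2 ⟨h.abs p hp, c2.le, c1.le⟩
          exact Or.inr ⟨⟨hQO hpQ, hQA₁ hpQ⟩, hQA₂ hpQ⟩
    · rintro q ⟨hq, hqE⟩ q' ⟨hq', hqE'⟩
      obtain ⟨v, hv, hv2⟩ := key q ⟨hq, hqE⟩
      obtain ⟨v', hv', hv2'⟩ := key q' ⟨hq', hqE'⟩
      have h3 := abs_le.1 (H v ⟨hv.1, hv.2⟩ v' ⟨hv'.1, hv'.2⟩)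
      have h4 := abs_le.1 hv2
      have h5 := abs_le.1 hv2'
      rw [abs_le]
      constructor <;> linarith [h3.1, h3.2, h4.1, h4.2, h5.1, h5.2]
  · obtain ⟨w, k, hw0, hw1, hk, ⟨v, hv, rfl⟩, -⟩ := hm₁ p
    have hp1 : φ₁ p ∈ Icc lo hi := by rw [hk]; exact mix_mem hw0 hw1 hp (hq v hv)
    obtain ⟨w', k', hw0', hw1', hk', ⟨v', hv', rfl⟩, -⟩ := hm₂ p
    rw [hk']
    refine mix_mem hw0' hw1' hp1 ?_
    rw [e1 v' (hQA₁ hv')]
    exact hq v' hv'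
  · obtain ⟨O, hO, hQO, H⟩ := hq
    obtain ⟨w, k, hw0, hw1, hk, -, hk1⟩ := hm₁ p
    obtain ⟨v, hv, hv2⟩ := hk1 O hO hQO
    have hk2 : k ∈ Icc (lo - η) (hi + η) := by
      have h3 := H v hv
      have h4 := abs_le.1 hv2
      constructor <;> linarith [h3.1, h3.2, h4.1, h4.2]
    have hp0 : φ p ∈ Icc (lo - η) (hi + η) := ⟨by linarith [hp.1], by linarith [hp.2]⟩
    have hp1 : φ₁ p ∈ Icc (lo - η) (hi + η) := by rw [hk]; exact mix_mem hw0 hw1 hp0 hk2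
    obtain ⟨w', k', hw0', hw1', hk', -, hk1'⟩ := hm₂ p
    obtain ⟨v', hv', hv2'⟩ := hk1' (O ∩ A₁) (hO.inter hA₁o) (subset_inter hQO hQA₁)
    rw [hk']
    refine mix_mem hw0' hw1' hp1 ?_
    have h3 := H v' ⟨hv'.1.1, hv'.2⟩
    rw [e1 v' hv'.1.2] at hv2'
    have h4 := abs_le.1 hv2'
    constructor <;> linarith [h3.1, h3.2, h4.1, h4.2]
  · have := hg₂ x hx hxP R' hR' hL _ (hg₁ x hx hxP R' hR' hL b hb)
    exact this.mono (by linarith)

end Crest.Agent.R105.Cln_891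
end

-- ▼ part R105/Cln6_891
section

/-!
Row 105 (S0138, picture with solids), task 2398, part 6: CLEANQ from `NullUp` / `NullLo` of 649.
-/

set_option autoImplicit false

open Set Filter MeasureTheory Topology Metric
open scoped ENNReal NNReal

namespace Crest.Agent.R105.Cln_891

open CF_363 Stp_722 Cq_463 Nal_649
open Crest.Agent.R105.Skp2_257 (Comps Lo Up)

local notation "cc" => connectedComponentIn

variable {E : Set (ℝ × ℝ)} {𝒬 : Set Sqr} {𝓗 : Set Hair} {Q : Sqr} {φ : ℝ × ℝ → ℝ}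
  {P : Set (ℝ × ℝ)}

theorem up_eq (B : ℝ) : Up B = {p : ℝ × ℝ | B < 1 * p.2} := by
  ext p
  change B < p.2 ↔ B < 1 * p.2
  rw [one_mul]

theorem lo_eq (B : ℝ) : Lo B = {p : ℝ × ℝ | -B < -1 * p.2} := by
  ext p
  change p.2 < B ↔ -B < -1 * p.2
  constructor <;> intro h <;> linarith

theorem outN_of_nullUp {B : ℝ} (h : NullUp E 𝒬 𝓗 P B) : OutN E 𝒬 𝓗 P 1 B := by
  intro N hN hPN ε hε
  obtain ⟨z, hz, O, hO, hPO, h1⟩ := h N hN hPN ε hε
  obtain ⟨S, hS, hSN, h0⟩ := hz.sp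
  have hcf := hz.cf
  have hen := hz.en
  rw [up_eq] at hcf hen h0
  refine ⟨z, S, hcf, hz.rg, hS, hSN, fun p hp hpS => h0 p hp hpS, hen, O, hO, ?_, ?_⟩
  · rintro p ⟨hp, hpB⟩
    have hpB' : B ≤ 1 * p.2 := hpB
    exact hPO ⟨hp, by change B ≤ p.2; linarith⟩
  · intro p hp hpB
    exact h1 p hp (by change B < p.2; linarith)

theorem outN_of_nullLo {B : ℝ} (h : NullLo E 𝒬 𝓗 P B) : OutN E 𝒬 𝓗 P (-1) (-B) := by
  intro N hN hPN ε hε
  obtain ⟨z, hz, O, hO, hPO, h1⟩ := h N hN hPN ε hε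
  obtain ⟨S, hS, hSN, h0⟩ := hz.sp
  have hcf := hz.cf
  have hen := hz.en
  rw [lo_eq] at hcf hen h0
  refine ⟨z, S, hcf, hz.rg, hS, hSN, fun p hp hpS => h0 p hp hpS, hen, O, hO, ?_, ?_⟩
  · rintro p ⟨hp, hpB⟩
    have hpB' : -B ≤ -1 * p.2 := hpB
    exact hPO ⟨hp, by change p.2 ≤ B; linarith⟩
  · intro p hp hpB
    exact h1 p hp (by change p.2 < B; linarith)


end Crest.Agent.R105.Cln_891
end

-- ▼ part R105/Cln7_891
section

/-!
Row 105 (S0138, picture with solids), task 2398, part 7: `Solid` and `Comp` from `PicS` (992), and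
CLEANQ in the letters of 722 (`Spq_722.Treat`, class `ClQ`, distance `DQ` of 744).
-/

set_option autoImplicit false

open Set Filter MeasureTheory Topology Metric
open scoped ENNReal NNReal

namespace Crest.Agent.R105.Cln_891

open CF_363 Stp_722 Cq_463 Nal_649 Exs_992 Laq4_744
open Crest.Agent.R105.Skp2_257 (Comps Lo Up)

local notation "cc" => connectedComponentIn

variable {E : Set (ℝ × ℝ)} {𝒬 : Set Sqr} {𝓗 : Set Hair} {Q : Sqr} {φ : ℝ × ℝ → ℝ}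
  {P : Set (ℝ × ℝ)}

theorem mem_corner (Q : Sqr) : (Q.x, Q.y) ∈ Q.car :=
  Sqr.mem_car.2 ⟨⟨le_rfl, by linarith [Q.hs]⟩, ⟨le_rfl, by linarith [Q.hs]⟩⟩

theorem corner_mem (hE : QPic E 𝒬 𝓗) (hQ : Q ∈ 𝒬) : (Q.x, Q.y) ∈ E := hE.sub Q hQ (mem_corner Q)

theorem car_sub (hE : QPic E 𝒬 𝓗) (hQ : Q ∈ 𝒬) : Q.car ⊆ comp E Q :=
  Q.convex_car.isPreconnected.subset_connectedComponentIn (mem_corner Q) (hE.sub Q hQ)

theorem isPreconnected_hair (K : Hair) : IsPreconnected K.car := by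
  rw [K.car_eq]
  exact isPreconnected_singleton.prod isPreconnected_Icc


/-- the component which contains a square is a solid -/
theorem solid_of (hS : PicS E 𝒬 𝓗) {x : ℝ × ℝ} (hx : x ∈ E) (hQ : Q ∈ 𝒬) (hQx : Q.car ⊆ cc E x) :
    Solid E 𝒬 𝓗 (cc E x) Q := by
  have hs := Q.hs
  -- the structure of the component
  have hst : ∀ p ∈ cc E x, p ∉ Q.car →
      ∃ K ∈ 𝓗, K.car ⊆ cc E x ∧ p ∈ K.car ∧ (K.car ∩ Q.car).Nonempty := by
    rcases hS.comp (cc E x) ⟨x, hx, rfl⟩ with ⟨p, hp⟩ | ⟨K, hK, hP⟩ | ⟨Q', hQ', hQ'P, h⟩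
    · exfalso
      have h1 : (Q.x, Q.y) = p := by
        have := hQx (mem_corner Q); rw [hp] at this; exact this
      have h2 : (Q.x + Q.s, Q.y) = p := by
        have : (Q.x + Q.s, Q.y) ∈ cc E x := hQx (Sqr.mem_car.2
          ⟨⟨by simp only; linarith, le_rfl⟩, ⟨le_rfl, by simp only; linarith⟩⟩)
        rw [hp] at this; exact this
      have h3 := congrArg Prod.fst (h1.trans h2.symm)
      simp only at h3
      linarith
    · exfalso
      have h1 : (Q.x, Q.y) ∈ K.car := hP ▸ hQx (mem_corner Q)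
      have h2 : (Q.x + Q.s, Q.y) ∈ K.car := hP ▸ hQx (Sqr.mem_car.2
        ⟨⟨by simp only; linarith, le_rfl⟩, ⟨le_rfl, by simp only; linarith⟩⟩)
      have h3 : Q.x = K.x := h1.1
      have h4 : Q.x + Q.s = K.x := h2.1
      linarith
    · have hQQ : Q = Q' := hS.q.sep (cc E x) (connectedComponentIn_subset _ _)
        isPreconnected_connectedComponentIn Q hQ Q' hQ' ⟨_, hQx (mem_corner Q), mem_corner Q⟩
        ⟨_, hQ'P (mem_corner Q'), mem_corner Q'⟩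
      rw [hQQ]
      exact h
  refine ⟨hQ, Thin_12.isCompact_cc hS.q.cpt x, isPreconnected_connectedComponentIn,
    connectedComponentIn_subset _ _, hQx, ?_, ?_⟩
  · intro p hp
    by_cases hpQ : p ∈ Q.car
    · exact (Sqr.mem_car.1 hpQ).1
    · obtain ⟨K, -, -, hpK, q, hqK, hqQ⟩ := hst p hp hpQ
      have h1 : p.1 = q.1 := hpK.1.trans hqK.1.symm
      rw [h1]
      exact (Sqr.mem_car.1 hqQ).1
  · rintro K hK ⟨p, hpK, hpP⟩
    by_cases hKQ : (K.car ∩ Q.car).Nonempty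
    · rcases hS.att K hK Q hQ hKQ with h | h
      · exact Or.inl h.ge
      · exact Or.inr h.le
    · have hKP : K.car ⊆ cc E x := by
        have h1 : K.car ⊆ cc E p := (isPreconnected_hair K).subset_connectedComponentIn hpK
          (hS.q.hsub K hK)
        rwa [← connectedComponentIn_eq hpP] at h1
      have hpt : ∀ p ∈ K.car, Q.y + Q.s ≤ p.2 ∨ p.2 ≤ Q.y := by
        intro p hp
        obtain ⟨K', hK', -, hpK', hKQ'⟩ := hst p (hKP hp) fun h => hKQ ⟨p, hp, h⟩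
        rcases hS.att K' hK' Q hQ hKQ' with h | h
        · left; rw [← h]; exact hpK'.2.1
        · right; rw [← h]; exact hpK'.2.2
      by_contra hcon
      push Not at hcon
      obtain ⟨h1, h2⟩ := hcon
      have hbt := K.hbt
      have hb : (K.x, K.b) ∈ K.car := ⟨rfl, le_rfl, hbt.le⟩
      have ht : (K.x, K.t) ∈ K.car := ⟨rfl, hbt.le, le_rfl⟩
      have h3 : K.b ≤ Q.y := (hpt _ hb).resolve_left (by simp only; linarith)
      have h4 : Q.y + Q.s ≤ K.t := (hpt _ ht).resolve_right (by simp only; linarith)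
      have hm : (K.x, Q.y + Q.s / 2) ∈ K.car :=
        ⟨rfl, by simp only; linarith, by simp only; linarith⟩
      rcases hpt _ hm with h | h
      · simp only at h; linarith
      · simp only at h; linarith

theorem solid_comp (hS : PicS E 𝒬 𝓗) (hQ : Q ∈ 𝒬) : Solid E 𝒬 𝓗 (comp E Q) Q :=
  solid_of hS (corner_mem hS.q hQ) hQ (car_sub hS.q hQ)

theorem comp_of_picS (hS : PicS E 𝒬 𝓗) : Comp E 𝒬 𝓗 := by
  intro x hx
  have hxx : x ∈ cc E x := mem_connectedComponentIn hx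
  rcases hS.comp (cc E x) ⟨x, hx, rfl⟩ with ⟨p, hp⟩ | ⟨K, hK, hP⟩ | ⟨Q', hQ', hQ'P, -⟩
  · left
    intro q hq
    rw [hp] at hq hxx
    rw [mem_singleton_iff.1 hq, mem_singleton_iff.1 hxx]
  · left
    intro q hq
    rw [hP] at hq hxx
    exact hq.1.trans hxx.1.symm
  · exact Or.inr ⟨Q', solid_of hS hx hQ' hQ'P⟩

/-! ### `Treat` at a solid -/

/-- the two plane (or half plane) cut-offs of a solid which CLEANQ needs -/
def Outs (E : Set (ℝ × ℝ)) (𝒬 : Set Sqr) (𝓗 : Set Hair) (Q : Sqr) : Prop :=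
  (∀ B > Q.y + Q.s, OutN E 𝒬 𝓗 (comp E Q) 1 B) ∧ ∀ B > -Q.y, OutN E 𝒬 𝓗 (comp E Q) (-1) B

theorem outs_of_null (hup : ∀ B, Q.y + Q.s < B → NullUp E 𝒬 𝓗 (comp E Q) B)
    (hdn : ∀ B, B < Q.y → NullLo E 𝒬 𝓗 (comp E Q) B) : Outs E 𝒬 𝓗 Q :=
  ⟨fun B hB => outN_of_nullUp (hup B hB), fun B hB => by
    have := outN_of_nullLo (hdn (-B) (by have : B > -Q.y := hB; linarith))
    rwa [neg_neg] at this⟩

/-- **CLEANQ at a solid in the letters of 722.** -/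
theorem treat_solid (hS : PicS E 𝒬 𝓗) (hQ : Q ∈ 𝒬) (hO : Outs E 𝒬 𝓗 Q) :
    Spq_722.Treat Eᶜ E Prod.snd (ClQ 𝓗) (DQ E 𝒬 𝓗) (Sqr.car '' 𝒬) (comp E Q) := by
  intro χ c N ε η hχ hc hsq hN hPN hε hη
  obtain ⟨hχ1, hχ2, R, hR⟩ := hχ
  obtain ⟨χ', S, h1, h2, h3, h4, h5, h6, -, h8, -, h10, h11⟩ := cleanQ hS.q (comp_of_picS hS)
    (corner_mem hS.q hQ) (solid_comp hS hQ) hO.1 hO.2 hχ1 hR hN hPN (ε := ε ^ 2) (by positivity) hη
  have hcl : ClQ 𝓗 χ' := by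
    refine ⟨h1, ?_, R, h2⟩
    refine HasCompactSupport.intro (hχ2.union h3) fun p hp => ?_
    rw [h5 p fun h => hp (Or.inr h)]
    exact image_eq_zero_of_notMem_tsupport fun h => hp (Or.inl h)
  refine ⟨χ', ⟨hε.le, ⟨hχ1, hχ2, R, hR⟩, hcl, h6⟩, hcl, ⟨S, h3.isClosed, h4, h5⟩, ?_, ?_, ?_⟩
  · intro lo hi hl q hq
    exact h10 q lo hi (hl q hq) ⟨N, hN, (car_sub hS.q hQ).trans hPN, fun v hv => hl v hv⟩
  · exact h8 c (hsq Q.car ⟨Q, hQ, rfl⟩ (car_sub hS.q hQ))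
  · exact h11

end Crest.Agent.R105.Cln_891
end

-- ▼ part R105/Cln8_891
section

/-!
Row 105 (S0138, picture with solids), task 2398, part 8: `treat_solid` from the cheap cut-offs
(`SkT1_137.Cheap`) or from `SOLO`.
-/

set_option autoImplicit false

open Set Filter MeasureTheory Topology Metric
open scoped ENNReal NNReal

namespace Crest.Agent.R105.Cln_891

open CF_363 Stp_722 Cq_463 Nal_649 Exs_992 Laq4_744
open Crest.Agent.R105.Skp2_257 (Comps Lo Up)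

local notation "cc" => connectedComponentIn

variable {E W : Set (ℝ × ℝ)} {𝒬 : Set Sqr} {𝓗 : Set Hair} {Q : Sqr} {f : ℝ × ℝ → ℝ}
  {P : Set (ℝ × ℝ)}





/-- **`treat_solid` from `SOLO`** (OUTQ is not needed). -/
theorem treat_solo (hS : PicS E 𝒬 𝓗) (hO : SkT1_137.SOLO E 𝒬 𝓗) (hQ : Q ∈ 𝒬) :
    Spq_722.Treat Eᶜ E Prod.snd (ClQ 𝓗) (DQ E 𝒬 𝓗) (Sqr.car '' 𝒬) (comp E Q) :=
  treat_solid hS hQ (outs_of_null (hO Q hQ).1 (hO Q hQ).2)


end Crest.Agent.R105.Cln_891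
end

-- ▼ part R105/Trh1_483
section

/-!
# Row 105 (S0138, picture with solids): flattening of one hair (722 #10642, (L1))

`treat_hair` : a hair which is a whole component of `E` and has a cheap cut-off (`SinOutQ`, 925) is
treatable in the sense of `Spq_722.Treat`, over the class `ClQ` and the distance `DQ` of 744.
-/

set_option autoImplicit false

noncomputable section

namespace Crest.Agent.R105.Trh_483

open Set Filter MeasureTheory Topology Metric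
open CF_363 Stp_722 Cq_463 Laq2_744 Laq3_744 Laq4_744
open Skp2_257 (Comps)
open Nal_649 (HalfQ)
open scoped ENNReal NNReal

local notation "cc" => connectedComponentIn

/-- cheap cut-off of a piece `P` of `E` (925's output) -/
def SinO (E : Set (ℝ × ℝ)) (𝒬 : Set Sqr) (𝓗 : Set Hair) (P : Set (ℝ × ℝ)) : Prop :=
  ∀ N, IsOpen N → P ⊆ N → ∀ M : ℕ, 1 ≤ M → ∀ ε > 0, ∃ ζ, HalfQ E 𝒬 𝓗 univ N ε ζ ∧
    (∃ O, IsOpen O ∧ P ⊆ O ∧ ∀ p ∈ O, ζ p = 1) ∧ ∀ P' ∈ Comps E, OscLe Eᶜ P' ζ (1 / M)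

variable {E : Set (ℝ × ℝ)} {𝒬 : Set Sqr} {𝓗 : Set Hair} {χ ζ : ℝ × ℝ → ℝ}

/-- a hair which is a component does not meet the squares -/
theorem disj_of_comp (hE : QPic E 𝒬 𝓗) {K : Hair} (hKc : K.car ∈ Comps E) {Q : Sqr}
    (hQ : Q ∈ 𝒬) : Disjoint Q.car K.car := by
  rw [Set.disjoint_left]
  intro p hp hpK
  obtain ⟨x, hx, hKx⟩ := hKc
  have h1 : Q.car ⊆ K.car := by
    have h2 : p ∈ cc E x := hKx ▸ hpK
    have h3 := Q.convex_car.isPreconnected.subset_connectedComponentIn hp (hE.sub Q hQ)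
    rw [← connectedComponentIn_eq h2, ← hKx] at h3
    exact h3
  have h4 : volume Q.car ≤ volume K.car := measure_mono h1
  rw [K.volume_car, Q.volume_car, nonpos_iff_eq_zero, ENNReal.ofReal_eq_zero] at h4
  have := Q.hs
  have : 0 < Q.s ^ 2 := by positivity
  linarith

/-- the charge of `ζ (k - χ)` at one square -/
theorem ch_prod_le (hE : QPic E 𝒬 𝓗) (hχ : CFJ 𝓗 univ χ)
    (h01 : ∀ p, 0 ≤ ζ p ∧ ζ p ≤ 1) {k A : ℝ} (hA0 : 0 ≤ A) (hA : ∀ p, |k - χ p| ≤ A) (Q : Sqr) :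
    ch E univ (fun q => ζ q * (k - χ q)) Q ≤ A * ch E univ ζ Q + ch E univ χ Q := by
  have h1 := chg_mul (V := Eᶜ ∩ univ) (P := Q.car ∩ closure univ) (f := ζ) (g := fun q => k - χ q)
    (A := 1) (B := A) zero_le_one hA0
    (fun p _ => by rw [abs_of_nonneg (h01 p).1]; exact (h01 p).2) (fun p _ => hA p)
  have h2 := chg_sub (V := Eᶜ ∩ univ) (P := Q.car ∩ closure univ) (f := fun _ => k) (g := χ)
    ⟨0, oscLe_const k⟩ (CFJ.fin hE hχ _)
  rw [chg_const, zero_add] at h2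
  unfold ch
  linarith

/-- **cost of flattening**: for every `χ` of the class and every null compact piece `P` of `E` off
the squares there are `δ > 0` and a neighbourhood such that the cut-offs with energy `≤ δ` supported
there cost at most `ε`. -/
theorem exists_cost_flat (hE : QPic E 𝒬 𝓗) (hχ : ClQ 𝓗 χ) {P : Set (ℝ × ℝ)}
    (hP0 : volume P = 0) (hPQ : ∀ Q ∈ 𝒬, Disjoint Q.car P) {k A : ℝ} (hA0 : 0 ≤ A)
    (hA : ∀ p, |k - χ p| ≤ A) {ε : ℝ} (hε : 0 < ε) :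
    ∃ δ > 0, ∃ N1, IsOpen N1 ∧ P ⊆ N1 ∧ ∀ N ⊆ N1, ∀ ζ, HalfQ E 𝒬 𝓗 univ N δ ζ →
      TQ E univ 𝒬 (fun q => ζ q * (k - χ q)) ≤ ε := by
  classical
  obtain ⟨J, hJ, L, C0, hL, hsl, -⟩ := id hχ.1
  -- the head
  have hb : Summable fun Q : 𝒬 => 2 * ch E univ χ Q.1 ^ 2 :=
    (summable_ch hE convex_univ hχ.1).mul_left 2
  obtain ⟨F, hF⟩ := (hb.hasSum.eventually (Metric.ball_mem_nhds _ (show 0 < ε / 4 by positivity))).exists
  rw [Real.dist_eq] at hF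
  simp only at hF
  -- the neighbourhood
  set δ1 : ℝ := ε / (4 * (4 * L ^ 2 + 1)) with hδ1
  have hδ10 : 0 < δ1 := by positivity
  obtain ⟨N0, hN0P, hN0o, hN0v⟩ := P.exists_isOpen_lt_of_lt (μ := volume) (ENNReal.ofReal δ1)
    (by rw [hP0]; exact ENNReal.ofReal_pos.2 hδ10)
  set T : Set (ℝ × ℝ) := ⋃ Q ∈ F, (Q : 𝒬).1.car with hT
  have hTc : IsClosed T := isClosed_biUnion_finset fun Q _ => Q.1.isCompact_car.isClosed
  set δ2 : ℝ := ε / (4 * (2 * A ^ 2 + 1)) with hδ2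
  have hδ20 : 0 < δ2 := by positivity
  refine ⟨δ2, hδ20, N0 ∩ Tᶜ, hN0o.inter hTc.isOpen_compl, subset_inter hN0P ?_, ?_⟩
  · intro p hp hpT
    obtain ⟨Q, hQ, hpQ⟩ := mem_iUnion₂.1 hpT
    exact Set.disjoint_left.1 (hPQ Q.1 Q.2) hpQ hp
  intro N hNN ζ hζ
  obtain ⟨S, hSc, hSN, hS0⟩ := hζ.sp
  have hS0' : ∀ p ∉ S, ζ p = 0 := fun p hp => hS0 p (mem_univ p) hp
  have hcfj : CFJ 𝓗 univ (fun q => ζ q * (k - χ q)) := hζ.cf.mul ((CFJ_const k).sub hχ.1)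
  have hccζ : Cc 𝓗 univ ζ := ⟨hζ.cf, S, hSc, fun p _ hp => hS0' p hp⟩
  have hcc : Cc 𝓗 univ (fun q => ζ q * (k - χ q)) :=
    ⟨hcfj, S, hSc, fun p _ hp => by simp only [hS0' p hp, zero_mul]⟩
  have hEnζ : En (univ \ E) ζ ≤ δ2 := En_le_TQ.trans hζ.en
  have hChζ : Ch E univ 𝒬 ζ ≤ δ2 := Ch_le_TQ.trans hζ.en
  -- the energy off `E`
  have hEn : En (univ \ E) (fun q => ζ q * (k - χ q)) ≤ 4 * L ^ 2 * δ1 +
      2 * A ^ 2 * En (univ \ E) ζ := by
    have hfin : volume N0 ≠ ∞ := (hN0v.trans_le le_top).ne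
    have hind : Integrable (N0.indicator fun _ : ℝ × ℝ => 4 * L ^ 2) :=
      (integrable_indicator_iff hN0o.measurableSet).2 (integrableOn_const hfin)
    have hJE : cut J ⊆ E := fun p hp => by
      obtain ⟨K, hK, hpK⟩ := mem_cut.1 hp
      exact hE.hsub K (hJ K hK) hpK
    have hEo : IsOpen (univ \ E : Set (ℝ × ℝ)) := isOpen_univ.sdiff hE.cpt.isClosed
    have hb : ∀ᵐ p ∂(volume.restrict (univ \ E : Set (ℝ × ℝ))), g2 (fun q => ζ q * (k - χ q)) p ≤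
        N0.indicator (fun _ : ℝ × ℝ => 4 * L ^ 2) p + 2 * A ^ 2 * g2 ζ p := by
      filter_upwards [ae_restrict_of_ae hccζ.ae_diff, ae_restrict_of_ae hχ.cc.ae_diff,
        ae_restrict_mem hEo.measurableSet] with p h1 h2 hpE
      by_cases hpS : p ∈ S
      · have hpN := hNN (hSN hpS)
        rw [indicator_of_mem hpN.1]
        refine g2_prod_le h1 h2 (hζ.rg p) (by rw [abs_sub_comm]; exact hA p)
          (hsl.g2_le (isOpen_diff_cut isOpen_univ J) hL ⟨mem_univ p, fun h => hpE.2 (hJE h)⟩)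
      · have h3 : g2 (fun q => ζ q * (k - χ q)) p = 0 := by
          refine Lop1_744.g2_eq_zero ?_
          filter_upwards [hSc.isClosed.isOpen_compl.mem_nhds hpS] with q hq
          rw [hS0' q hq, zero_mul]
        rw [h3]
        have h4 : 0 ≤ N0.indicator (fun _ : ℝ × ℝ => 4 * L ^ 2) p :=
          indicator_nonneg (fun _ _ => by positivity) p
        have h5 := g2_nonneg ζ p
        positivity
    have i1 : Integrable (g2 fun q => ζ q * (k - χ q)) (volume.restrict (univ \ E)) :=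
      hcc.integrable.integrableOn
    have i2 : Integrable (N0.indicator fun _ : ℝ × ℝ => 4 * L ^ 2) (volume.restrict (univ \ E)) :=
      hind.integrableOn
    have i3 : Integrable (g2 ζ) (volume.restrict (univ \ E)) := hccζ.integrable.integrableOn
    unfold En
    calc ∫ p in univ \ E, g2 (fun q => ζ q * (k - χ q)) p
        ≤ ∫ p in univ \ E, (N0.indicator (fun _ : ℝ × ℝ => 4 * L ^ 2) p + 2 * A ^ 2 * g2 ζ p) :=
          integral_mono_ae i1 (i2.add (i3.const_mul _)) hb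
      _ = (∫ p in univ \ E, N0.indicator (fun _ : ℝ × ℝ => 4 * L ^ 2) p) +
          2 * A ^ 2 * (∫ p in univ \ E, g2 ζ p) := by
          rw [integral_add i2 (i3.const_mul _), integral_const_mul]
      _ ≤ (∫ p, N0.indicator (fun _ : ℝ × ℝ => 4 * L ^ 2) p) +
          2 * A ^ 2 * (∫ p in univ \ E, g2 ζ p) :=
          add_le_add_left (setIntegral_le_integral hind
              (Eventually.of_forall fun p => indicator_nonneg (fun _ _ => by positivity) p)) _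
      _ ≤ 4 * L ^ 2 * δ1 + 2 * A ^ 2 * (∫ p in univ \ E, g2 ζ p) := by
          refine add_le_add_left ?_ _
          rw [integral_indicator hN0o.measurableSet, setIntegral_const, smul_eq_mul, mul_comm]
          refine mul_le_mul_of_nonneg_left ?_ (by positivity)
          rw [measureReal_def]
          exact (ENNReal.toReal_mono ENNReal.ofReal_ne_top hN0v.le).trans
            (ENNReal.toReal_ofReal hδ10.le).le
  -- the charges
  have hCh : Ch E univ 𝒬 (fun q => ζ q * (k - χ q)) ≤ 2 * A ^ 2 * Ch E univ 𝒬 ζ +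
      (∑' Q : 𝒬, 2 * ch E univ χ Q.1 ^ 2 - ∑ Q ∈ F, 2 * ch E univ χ Q.1 ^ 2) := by
    obtain ⟨t1, t2⟩ := tail_trick (a := fun _ : 𝒬 => (0 : ℝ)) hb F
    have hz2 := (summable_ch hE convex_univ hζ.cf).mul_left (2 * A ^ 2)
    have hpt : ∀ Q : 𝒬, ch E univ (fun q => ζ q * (k - χ q)) Q.1 ^ 2 ≤
        2 * A ^ 2 * ch E univ ζ Q.1 ^ 2 + (if Q ∈ F then 0 else 2 * ch E univ χ Q.1 ^ 2) := by
      intro Q
      have n0 := ch_nonneg E univ (fun q => ζ q * (k - χ q)) Q.1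
      split_ifs with hQF
      · have h1 : ch E univ (fun q => ζ q * (k - χ q)) Q.1 = 0 := by
          refine chg_eq_zero (O := Sᶜ) (a := 0) hSc.isClosed.isOpen_compl ?_ fun q hq => ?_
          · intro p hp hpS
            exact (hNN (hSN hpS)).2 (mem_iUnion₂.2 ⟨Q, hQF, hp.1⟩)
          · rw [hS0' q hq.1, zero_mul]
        rw [h1]
        have : 0 ≤ 2 * A ^ 2 * ch E univ ζ Q.1 ^ 2 := by positivity
        linarith
      · have h1 := ch_prod_le hE hχ.1 hζ.rg hA0 hA Q.1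
        have h2 := pow_le_pow_left₀ n0 h1 2
        nlinarith [sq_nonneg (A * ch E univ ζ Q.1 - ch E univ χ Q.1)]
    unfold Ch
    refine (Summable.tsum_le_tsum hpt (summable_ch hE convex_univ hcfj) (hz2.add t1)).trans ?_
    rw [hz2.tsum_add t1, t2, tsum_mul_left]
    simp
  have k1 : 4 * L ^ 2 * δ1 ≤ ε / 4 := by
    have : (4 * (4 * L ^ 2 + 1)) * δ1 = ε := by rw [hδ1]; field_simp
    nlinarith
  have k2 : 2 * A ^ 2 * δ2 ≤ ε / 4 := by
    have : (4 * (2 * A ^ 2 + 1)) * δ2 = ε := by rw [hδ2]; field_simp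
    nlinarith
  have k3 : 2 * A ^ 2 * En (univ \ E) ζ ≤ 2 * A ^ 2 * δ2 := by gcongr
  have k4 : 2 * A ^ 2 * Ch E univ 𝒬 ζ ≤ 2 * A ^ 2 * δ2 := by gcongr
  have k5 := (abs_lt.1 hF).1
  unfold TQ
  linarith

/-- **flattening of one piece** : `χ' = χ + ζ (k - χ)` -/
theorem flattenQ (hE : QPic E 𝒬 𝓗) {P : Set (ℝ × ℝ)} (hP0 : volume P = 0)
    (hPQ : ∀ Q ∈ 𝒬, Disjoint Q.car P) (hS : SinO E 𝒬 𝓗 P) (hχ : ClQ 𝓗 χ) {N : Set (ℝ × ℝ)}
    (hN : IsOpen N) (hPN : P ⊆ N) {k A m ε : ℝ} (hm : 0 < m) (hε : 0 < ε) (hA0 : 0 ≤ A)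
    (hA : ∀ q, |k - χ q| ≤ A) :
    ∃ χ' : ℝ × ℝ → ℝ, DQ E 𝒬 𝓗 χ χ' ε ∧ (∃ S, IsClosed S ∧ S ⊆ N ∧ ∀ p ∉ S, χ' p = χ p) ∧
      (∀ p lo hi, χ p ∈ Icc lo hi → k ∈ Icc lo hi → χ' p ∈ Icc lo hi) ∧
      OscLe Eᶜ P χ' 0 ∧
      ∀ x ∈ E, ∀ R ⊆ cc E x, ∀ b, OscLe Eᶜ R χ b → OscLe Eᶜ R χ' (b + m * A) := by
  classical
  obtain ⟨δ, hδ, N1, hN1o, hPN1, hcost⟩ := exists_cost_flat hE hχ hP0 hPQ hA0 hA
    (show 0 < ε ^ 2 by positivity)
  obtain ⟨M, hM⟩ := exists_nat_gt (1 / m)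
  have hM0 : (0:ℝ) < M := lt_trans (by positivity) hM
  have hM1 : 1 ≤ M := by
    have : 0 < M := by exact_mod_cast hM0
    exact this
  have hMm : (1:ℝ) / M ≤ m := by
    rw [div_le_iff₀ hM0]; rw [div_lt_iff₀ hm] at hM; linarith
  obtain ⟨ζ, hζ, ⟨O1, hO1, hPO1, hO1ζ⟩, hosc⟩ := hS (N ∩ N1) (hN.inter hN1o)
    (subset_inter hPN hPN1) M hM1 δ hδ
  obtain ⟨S, hSc, hSN, hS0⟩ := hζ.sp
  have hS0' : ∀ p ∉ S, ζ p = 0 := fun p hp => hS0 p (mem_univ p) hp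
  have hcfj : CFJ 𝓗 univ (fun q => ζ q * (k - χ q)) := hζ.cf.mul ((CFJ_const k).sub hχ.1)
  set χ' : ℝ × ℝ → ℝ := fun q => χ q + ζ q * (k - χ q) with hχ'
  have hoff : ∀ p ∉ S, χ' p = χ p := fun p hp => by simp [hχ', hS0' p hp]
  have hhull : ∀ p lo hi, χ p ∈ Icc lo hi → k ∈ Icc lo hi → χ' p ∈ Icc lo hi := by
    intro p lo hi h1 h2
    obtain ⟨z0, z1⟩ := hζ.rg p
    have e : χ' p = (1 - ζ p) * χ p + ζ p * k := by simp only [hχ']; ring
    rw [e]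
    constructor <;> nlinarith [h1.1, h1.2, h2.1, h2.2, mul_nonneg z0 (sub_nonneg.2 h2.1),
      mul_nonneg z0 (sub_nonneg.2 h2.2), mul_nonneg (sub_nonneg.2 z1) (sub_nonneg.2 h1.1),
      mul_nonneg (sub_nonneg.2 z1) (sub_nonneg.2 h1.2)]
  obtain ⟨C1, hC1⟩ := hχ.2.2
  have hcl' : ClQ 𝓗 χ' := by
    refine ⟨hχ.1.add hcfj, ?_, max C1 |k|, fun p => ?_⟩
    · refine HasCompactSupport.intro (hχ.2.1.isCompact.union hSc) fun q hq => ?_
      rw [hoff q fun h => hq (Or.inr h)]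
      exact image_eq_zero_of_notMem_tsupport fun h => hq (Or.inl h)
    · have h1 := abs_le.1 (hC1 p)
      have h2 := abs_le.1 (le_refl |k|)
      have h3 := hhull p (- max C1 |k|) (max C1 |k|)
        ⟨by linarith [le_max_left C1 |k|], by linarith [le_max_left C1 |k|]⟩
        ⟨by linarith [le_max_right C1 |k|], by linarith [le_max_right C1 |k|]⟩
      exact abs_le.2 h3
  have e0 : (fun q => χ' q - χ q) = fun q => ζ q * (k - χ q) := by funext q; simp only [hχ']; ring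
  refine ⟨χ', ⟨hε.le, hχ, hcl', ?_⟩, ⟨S, hSc.isClosed, hSN.trans inter_subset_left, hoff⟩, hhull,
    ?_, ?_⟩
  · rw [e0]
    exact hcost (N ∩ N1) inter_subset_right ζ hζ
  · -- flat on the piece
    intro η hη
    refine ⟨O1, hO1, hPO1, fun q hq q' hq' => ?_⟩
    have h1 : χ' q = k := by simp only [hχ']; rw [hO1ζ q hq.1]; ring
    have h2 : χ' q' = k := by simp only [hχ']; rw [hO1ζ q' hq'.1]; ring
    rw [h1, h2, sub_self, abs_zero]; linarith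
  · -- growth
    intro x hx R hR b hb η hη
    obtain ⟨O2, hO2, hRO2, H2⟩ := hb (η / 2) (by linarith)
    obtain ⟨O3, hO3, hRO3, H3⟩ := ((hosc (cc E x) ⟨x, hx, rfl⟩).mono hMm).mono_set hR
      (η / (2 * (A + 1))) (by positivity)
    have hηA : η / (2 * (A + 1)) * A ≤ η / 2 := by
      rw [div_mul_eq_mul_div, div_le_div_iff₀ (by positivity) (by norm_num)]
      nlinarith
    refine ⟨O2 ∩ O3, hO2.inter hO3, subset_inter hRO2 hRO3, fun q hq q' hq' => ?_⟩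
    have h1 := H2 q ⟨hq.1.1, hq.2⟩ q' ⟨hq'.1.1, hq'.2⟩
    have h2 := H3 q ⟨hq.1.2, hq.2⟩ q' ⟨hq'.1.2, hq'.2⟩
    have e : (m + η / (2 * (A + 1))) * A = m * A + η / (2 * (A + 1)) * A := by ring
    have hA' : |χ q' - k| ≤ A := by rw [abs_sub_comm]; exact hA q'
    have h3 := abs_combo_le (a := χ q) (hζ.rg q).1 (hζ.rg q).2 h2 hA'
    simp only [hχ']
    linarith

/-- **(L1) of 722 #10642**: hairs which are components are treatable. -/
theorem treat_piece (hE : QPic E 𝒬 𝓗) {P : Set (ℝ × ℝ)} (hP0 : volume P = 0)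
    (hPQ : ∀ Q ∈ 𝒬, Disjoint Q.car P) (hS : SinO E 𝒬 𝓗 P) (h : ℝ × ℝ → ℝ)
    (sq : Set (Set (ℝ × ℝ))) :
    Spq_722.Treat Eᶜ E h (ClQ 𝓗) (DQ E 𝒬 𝓗) sq P := by
  intro χ c N ε η hχ hc _ hN hPN hε hη
  obtain ⟨C, hC⟩ := id hχ.2.2
  have hC0 : 0 ≤ C := (abs_nonneg _).trans (hC (0, 0))
  obtain ⟨k, hk, hkN⟩ : ∃ k : ℝ, |k| ≤ C ∧
      ∀ lo hi, (∀ q ∈ N ∩ Eᶜ, χ q ∈ Icc lo hi) → (N ∩ Eᶜ).Nonempty → k ∈ Icc lo hi := by
    by_cases hne : (N ∩ Eᶜ).Nonempty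
    · obtain ⟨q0, hq0⟩ := hne
      exact ⟨χ q0, hC q0, fun lo hi H _ => H q0 hq0⟩
    · exact ⟨0, by rwa [abs_zero], fun lo hi _ h => absurd h hne⟩
  have hA : ∀ q, |k - χ q| ≤ 2 * C := fun q => by
    have h1 := abs_sub k (χ q)
    have h2 := hC q
    linarith
  obtain ⟨χ', hD, hsup, hhull, hflat, hgr⟩ := flattenQ hE hP0 hPQ hS hχ hN hPN (k := k) (A := 2 * C)
    (m := η / (2 * C + 1)) (ε := ε) (by positivity) hε (by positivity) hA
  have hmA : η / (2 * C + 1) * (2 * C) ≤ η := by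
    rw [div_mul_eq_mul_div, div_le_iff₀ (by positivity)]
    nlinarith
  refine ⟨χ', hD, hD.2.2.1, hsup, ?_, hflat.mono (by linarith), ?_⟩
  · intro lo hi H q hq
    have h1 := hhull q lo hi (H q hq) (hkN lo hi H ⟨q, hq⟩)
    exact ⟨by linarith [h1.1], by linarith [h1.2]⟩
  · intro x hx _ R hR _ b hb
    exact (hgr x hx R hR b hb).mono (by linarith)

/-- **(L1) of 722 #10642** -/
theorem treat_hair (hE : QPic E 𝒬 𝓗) {K : Hair} (hKc : K.car ∈ Comps E)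
    (hS : SinO E 𝒬 𝓗 K.car) :
    Spq_722.Treat Eᶜ E Prod.snd (ClQ 𝓗) (DQ E 𝒬 𝓗) (Sqr.car '' 𝒬) K.car :=
  treat_piece hE K.volume_car (fun _ hQ => disj_of_comp hE hKc hQ) hS _ _

end Crest.Agent.R105.Trh_483
end
end

-- ▼ part R105/Snq1_925
section

/-!
# Row 105 (S0138, picture with solids), SINGLEQ part 1: the abstract energy, gluing across a level
-/

set_option autoImplicit false

namespace Crest.Agent.R105.Snq_925

open Set Filter MeasureTheory Topology Metric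
open CF_363 Stp_722 Cq_463
open Skp2_257 (Comps Lo Up)
open scoped ENNReal NNReal

/-- open convex union of horizontal lines -/
structure Band (W : Set (ℝ × ℝ)) : Prop where
  isOpen : IsOpen W
  convex : Convex ℝ W
  hor : ∀ x x' y, (x, y) ∈ W → (x', y) ∈ W

theorem band_univ : Band univ := ⟨isOpen_univ, convex_univ, by simp⟩
theorem band_lo (B : ℝ) : Band (Lo B) :=
  ⟨(slab_lo B).isOpen, (slab_lo B).convex, fun _ _ _ h => h⟩
theorem band_up (B : ℝ) : Band (Up B) :=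
  ⟨(slab_up B).isOpen, (slab_up B).convex, fun _ _ _ h => h⟩
theorem Band.inter {W W' : Set (ℝ × ℝ)} (h : Band W) (h' : Band W') : Band (W ∩ W') :=
  ⟨h.isOpen.inter h'.isOpen, h.convex.inter h'.convex,
    fun x x' y hp => ⟨h.hor x x' y hp.1, h'.hor x x' y hp.2⟩⟩

/-- two bands whose union contains `W` and which overlap in the strip `b' < y < b` -/
structure Ov (W W1 W2 : Set (ℝ × ℝ)) (b' b : ℝ) : Prop where
  lt : b' < b
  sub : W ⊆ W1 ∪ W2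
  s1 : W1 ⊆ W
  s2 : W2 ⊆ W
  u1 : ∀ p ∈ W1, p.2 < b
  u2 : ∀ p ∈ W2, b' < p.2
  ov : ∀ p : ℝ × ℝ, b' < p.2 → p.2 < b → p ∈ W1 ∧ p ∈ W2

theorem ov_univ {b' b : ℝ} (h : b' < b) : Ov univ (Lo b) (Up b') b' b where
  lt := h
  sub := fun p _ => by
    by_cases hp : p.2 < b
    · exact Or.inl hp
    · exact Or.inr (show b' < p.2 by linarith)
  s1 := subset_univ _
  s2 := subset_univ _
  u1 := fun _ h => h
  u2 := fun _ h => h
  ov := fun _ h h' => ⟨h', h⟩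

/-- the abstract energy: `T W f`, `W` a band -/
structure EnC (E : Set (ℝ × ℝ)) (𝓗 : Set Hair) (T : Set (ℝ × ℝ) → (ℝ × ℝ → ℝ) → ℝ) : Prop where
  nonneg : ∀ W f, 0 ≤ T W f
  zero : ∀ W, T W (fun _ => 0) = 0
  congr : ∀ W, IsOpen W → ∀ f g, EqOn f g (W \ E) → T W f = T W g
  mono : ∀ W W' f, Band W → Band W' → W' ⊆ W → Cc 𝓗 W f → T W' f ≤ T W f
  max : ∀ W f g, Band W → Cc 𝓗 W f → Cc 𝓗 W g →
    T W (fun p => Max.max (f p) (g p)) ≤ T W f + T W g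
  add : ∀ W f g, Band W → Cc 𝓗 W f → Cc 𝓗 W g →
    T W (fun p => f p + g p) ≤ 2 * T W f + 2 * T W g
  cmul : ∀ W f c, Band W → Cc 𝓗 W f → T W (fun p => c * f p) ≤ c ^ 2 * T W f
  amp : ∀ W f c, Band W → Cc 𝓗 W f → 0 ≤ c → T W (fun p => Min.min (c * f p) 1) ≤ c ^ 2 * T W f
  glue : ∀ W W1 W2 b' b f, Band W → Band W1 → Band W2 → Ov W W1 W2 b' b → Cc 𝓗 W f →
    T W f ≤ 2 * T W1 f + 2 * T W2 f

/-- the energy is small near points -/
def CapAt (T : Set (ℝ × ℝ) → (ℝ × ℝ → ℝ) → ℝ) (q : ℝ × ℝ) : Prop :=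
  ∀ R > 0, ∀ ε > 0, ∃ r, 0 < r ∧ ∃ lam : ℝ × ℝ → ℝ, CF univ lam ∧ (∀ p, 0 ≤ lam p ∧ lam p ≤ 1) ∧
    (∀ p, dist p q ≤ r → lam p = 1) ∧ (∀ p, R ≤ dist p q → lam p = 0) ∧ T univ lam ≤ ε

/-! ### charges glue across a level -/

section glue

variable {E : Set (ℝ × ℝ)} {𝒬 : Set Sqr} {𝓗 : Set Hair} {f g : ℝ × ℝ → ℝ}

/-- near the part of a square in a closed strip there are points of `Eᶜ` in the open strip -/
theorem exists_near (hE : QPic E 𝒬 𝓗) {Q : Sqr} (hQ : Q ∈ 𝒬) {b' b : ℝ} (hb : b' < b)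
    (h1 : Q.y ≤ b) (h2 : b' ≤ Q.y + Q.s) {O : Set (ℝ × ℝ)} (hO : IsOpen O)
    (hQO : ∀ p ∈ Q.car, b' ≤ p.2 → p.2 ≤ b → p ∈ O) :
    ∃ q ∈ O, q ∉ E ∧ b' < q.2 ∧ q.2 < b := by
  classical
  have hs := Q.hs
  set t : ℝ := max Q.y b' with ht
  have htQ : t ≤ Q.y + Q.s := max_le (by linarith) h2
  have hty : Q.y ≤ t := le_max_left _ _
  have htb : b' ≤ t := le_max_right _ _
  have htb2 : t ≤ b := max_le h1 hb.le
  have hpQ : ((Q.x, t) : ℝ × ℝ) ∈ Q.car := Sqr.mem_car.2 ⟨⟨le_rfl, by simp only; linarith⟩, hty, htQ⟩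
  obtain ⟨r, hr, hrO⟩ := Metric.isOpen_iff.1 hO _ (hQO _ hpQ htb htb2)
  -- the convex open set near `(Q.x, t)`, left of `Q`
  set A : Set (ℝ × ℝ) := (Ioo (Q.x - r) Q.x) ×ˢ (Ioo (max b' (t - r)) (min b (t + r))) with hA
  have hne : max b' (t - r) < min b (t + r) := by
    refine max_lt (lt_min hb ?_) (lt_min ?_ ?_) <;> linarith
  have hAo : IsOpen A := isOpen_Ioo.prod isOpen_Ioo
  have hAO : A ⊆ O := by
    intro p hp
    obtain ⟨⟨a1, a2⟩, a3, a4⟩ := hp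
    have a5 := lt_of_le_of_lt (le_max_right _ _) a3
    have a6 := lt_of_lt_of_le a4 (min_le_right _ _)
    refine hrO ?_
    rw [mem_ball, Prod.dist_eq, Real.dist_eq, Real.dist_eq]
    refine max_lt ?_ ?_ <;> simp only <;> rw [abs_lt] <;> constructor <;> linarith
  by_contra hcon
  push Not at hcon
  have hAE : A ⊆ E := by
    intro p hp
    by_contra hpE
    have a3 := lt_of_le_of_lt (le_max_left _ _) hp.2.1
    have a4 := lt_of_lt_of_le hp.2.2 (min_le_left _ _)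
    exact absurd a4 (not_lt.2 (hcon p (hAO hp) hpE a3))
  have hAne : A.Nonempty :=
    (nonempty_Ioo.2 (by linarith : Q.x - r < Q.x)).prod (nonempty_Ioo.2 hne)
  -- a point of another square
  have hvol : volume A ≠ 0 := (hAo.measure_pos volume hAne).ne'
  have hex : ∃ Q' ∈ 𝒬, (A ∩ Q'.car).Nonempty := by
    by_contra hc
    push Not at hc
    have hsub : A ⊆ E \ ⋃ Q ∈ 𝒬, Q.car := by
      intro p hp
      refine ⟨hAE hp, fun hpU => ?_⟩
      obtain ⟨Q', hQ', hpQ'⟩ := mem_iUnion₂.1 hpU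
      exact Set.eq_empty_iff_forall_notMem.1 (hc Q' hQ') p ⟨hp, hpQ'⟩
    exact hvol (measure_mono_null hsub hE.null)
  obtain ⟨Q', hQ', p, hpA, hpQ'⟩ := hex
  have hcl : closure A = (Icc (Q.x - r) Q.x) ×ˢ (Icc (max b' (t - r)) (min b (t + r))) := by
    rw [hA, closure_prod_eq, closure_Ioo (sub_lt_self _ hr).ne, closure_Ioo hne.ne]
  have hconv : Convex ℝ (closure A) := by
    rw [hcl]; exact (convex_Icc _ _).prod (convex_Icc _ _)
  have hmem : ((Q.x, t) : ℝ × ℝ) ∈ closure A := by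
    rw [hcl]
    exact ⟨⟨(sub_lt_self _ hr).le, le_rfl⟩, max_le htb (sub_lt_self t hr).le,
      le_min htb2 (lt_add_of_pos_right t hr).le⟩
  have := hE.sep (closure A) (closure_minimal hAE hE.cpt.isClosed) hconv.isPreconnected Q hQ Q' hQ'
    ⟨_, hmem, hpQ⟩ ⟨p, subset_closure hpA, hpQ'⟩
  subst this
  have a1 : p.1 < Q.x := hpA.1.2
  exact absurd (Sqr.mem_car.1 hpQ').1.1 (not_le.2 a1)

theorem closure_sub_le {W : Set (ℝ × ℝ)} {b : ℝ} (h : ∀ p ∈ W, p.2 < b) :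
    ∀ p ∈ closure W, p.2 ≤ b := by
  have : closure W ⊆ {p : ℝ × ℝ | p.2 ≤ b} :=
    closure_minimal (fun p hp => (h p hp).le) (isClosed_le continuous_snd continuous_const)
  exact this

theorem closure_sub_ge {W : Set (ℝ × ℝ)} {b : ℝ} (h : ∀ p ∈ W, b < p.2) :
    ∀ p ∈ closure W, b ≤ p.2 := by
  have : closure W ⊆ {p : ℝ × ℝ | b ≤ p.2} :=
    closure_minimal (fun p hp => (h p hp).le) (isClosed_le continuous_const continuous_snd)
  exact this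

theorem mem_closure_strip {b' b : ℝ} (hb : b' < b) {p : ℝ × ℝ} (h1 : b' ≤ p.2) (h2 : p.2 ≤ b) :
    p ∈ closure {q : ℝ × ℝ | b' < q.2 ∧ q.2 < b} := by
  have : {q : ℝ × ℝ | b' < q.2 ∧ q.2 < b} = (univ : Set ℝ) ×ˢ Ioo b' b := by
    ext q; simp
  rw [this, closure_prod_eq, closure_Ioo hb.ne]
  exact ⟨by simp, h1, h2⟩

/-- **gluing of charges** -/
theorem ch_glue (hE : QPic E 𝒬 𝓗) {W W1 W2 : Set (ℝ × ℝ)} {b' b : ℝ} (ho : Ov W W1 W2 b' b)
    {Q : Sqr} (hQ : Q ∈ 𝒬) (h1 : Fin (Eᶜ ∩ W1) (Q.car ∩ closure W1) f)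
    (h2 : Fin (Eᶜ ∩ W2) (Q.car ∩ closure W2) f) :
    ch E W f Q ≤ ch E W1 f Q + ch E W2 f Q := by
  refine chg_le (add_nonneg (ch_nonneg _ _ _ _) (ch_nonneg _ _ _ _)) ?_
  intro ε hε
  obtain ⟨O1, hO1, hP1, H1⟩ := h1.oscLe (ε / 2) (by linarith)
  obtain ⟨O2, hO2, hP2, H2⟩ := h2.oscLe (ε / 2) (by linarith)
  have c1 := ch_nonneg E W1 f Q
  have c2 := ch_nonneg E W2 f Q
  change (∀ q ∈ O1 ∩ (Eᶜ ∩ W1), ∀ q' ∈ O1 ∩ (Eᶜ ∩ W1), |f q - f q'| ≤ ch E W1 f Q + ε / 2) at H1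
  change (∀ q ∈ O2 ∩ (Eᶜ ∩ W2), ∀ q' ∈ O2 ∩ (Eᶜ ∩ W2), |f q - f q'| ≤ ch E W2 f Q + ε / 2) at H2
  -- the open set seen from both sides
  set U1 : Set (ℝ × ℝ) := O1 ∪ (closure W1)ᶜ with hU1
  set U2 : Set (ℝ × ℝ) := O2 ∪ (closure W2)ᶜ with hU2
  have hU1o : IsOpen U1 := hO1.union isClosed_closure.isOpen_compl
  have hU2o : IsOpen U2 := hO2.union isClosed_closure.isOpen_compl
  have hQ1 : Q.car ⊆ U1 := fun p hp => by
    by_cases h : p ∈ closure W1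
    · exact Or.inl (hP1 ⟨hp, h⟩)
    · exact Or.inr h
  have hQ2 : Q.car ⊆ U2 := fun p hp => by
    by_cases h : p ∈ closure W2
    · exact Or.inl (hP2 ⟨hp, h⟩)
    · exact Or.inr h
  have m1 : ∀ q ∈ U1, q ∈ W1 → q ∈ O1 := fun q hq hW => by
    rcases hq with h | h
    · exact h
    · exact absurd (subset_closure hW) h
  have m2 : ∀ q ∈ U2, q ∈ W2 → q ∈ O2 := fun q hq hW => by
    rcases hq with h | h
    · exact h
    · exact absurd (subset_closure hW) h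
  by_cases e1 : (Q.car ∩ closure W1).Nonempty
  · by_cases e2 : (Q.car ∩ closure W2).Nonempty
    · -- a common point
      obtain ⟨p1, hp1, hp1'⟩ := e1
      obtain ⟨p2, hp2, hp2'⟩ := e2
      have y1 : Q.y ≤ b := (Sqr.mem_car.1 hp1).2.1.trans (closure_sub_le ho.u1 p1 hp1')
      have y2 : b' ≤ Q.y + Q.s := (closure_sub_ge ho.u2 p2 hp2').trans (Sqr.mem_car.1 hp2).2.2
      have hst1 : {q : ℝ × ℝ | b' < q.2 ∧ q.2 < b} ⊆ W1 := fun q hq => (ho.ov q hq.1 hq.2).1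
      have hst2 : {q : ℝ × ℝ | b' < q.2 ∧ q.2 < b} ⊆ W2 := fun q hq => (ho.ov q hq.1 hq.2).2
      obtain ⟨q0, hq0, hq0E, hq01, hq02⟩ := exists_near hE hQ ho.lt y1 y2 (hO1.inter hO2)
        (fun p hp a1 a2 => ⟨hP1 ⟨hp, closure_mono hst1 (mem_closure_strip ho.lt a1 a2)⟩,
          hP2 ⟨hp, closure_mono hst2 (mem_closure_strip ho.lt a1 a2)⟩⟩)
      have q1 : q0 ∈ O1 ∩ (Eᶜ ∩ W1) := ⟨hq0.1, hq0E, (ho.ov q0 hq01 hq02).1⟩
      have q2 : q0 ∈ O2 ∩ (Eᶜ ∩ W2) := ⟨hq0.2, hq0E, (ho.ov q0 hq01 hq02).2⟩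
      refine ⟨U1 ∩ U2, hU1o.inter hU2o, fun p hp => ⟨hQ1 hp.1, hQ2 hp.1⟩, ?_⟩
      intro q hq q' hq'
      have d1 : ∀ q ∈ (U1 ∩ U2) ∩ (Eᶜ ∩ W), q ∈ W1 → q ∈ O1 ∩ (Eᶜ ∩ W1) :=
        fun q hq hW => ⟨m1 q hq.1.1 hW, hq.2.1, hW⟩
      have d2 : ∀ q ∈ (U1 ∩ U2) ∩ (Eᶜ ∩ W), q ∈ W2 → q ∈ O2 ∩ (Eᶜ ∩ W2) :=
        fun q hq hW => ⟨m2 q hq.1.2 hW, hq.2.1, hW⟩
      rcases ho.sub hq.2.2 with w | w <;> rcases ho.sub hq'.2.2 with w' | w'
      · have := H1 q (d1 q hq w) q' (d1 q' hq' w')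
        linarith
      · have a1 := H1 q (d1 q hq w) q0 q1
        have a2 := H2 q0 q2 q' (d2 q' hq' w')
        have := abs_sub_le (f q) (f q0) (f q')
        linarith
      · have a1 := H2 q (d2 q hq w) q0 q2
        have a2 := H1 q0 q1 q' (d1 q' hq' w')
        have := abs_sub_le (f q) (f q0) (f q')
        linarith
      · have := H2 q (d2 q hq w) q' (d2 q' hq' w')
        linarith
    · -- no portion in `W2`
      have hQ2' : Q.car ⊆ (closure W2)ᶜ := fun p hp hp' => e2 ⟨p, hp, hp'⟩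
      refine ⟨U1 ∩ (closure W2)ᶜ, hU1o.inter isClosed_closure.isOpen_compl,
        fun p hp => ⟨hQ1 hp.1, hQ2' hp.1⟩, fun q hq q' hq' => ?_⟩
      have d1 : ∀ q ∈ (U1 ∩ (closure W2)ᶜ) ∩ (Eᶜ ∩ W), q ∈ O1 ∩ (Eᶜ ∩ W1) := fun q hq => by
        rcases ho.sub hq.2.2 with w | w
        · exact ⟨m1 q hq.1.1 w, hq.2.1, w⟩
        · exact absurd (subset_closure w) hq.1.2
      have := H1 q (d1 q hq) q' (d1 q' hq')
      linarith
  · -- no portion in `W1`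
    have hQ1' : Q.car ⊆ (closure W1)ᶜ := fun p hp hp' => e1 ⟨p, hp, hp'⟩
    refine ⟨U2 ∩ (closure W1)ᶜ, hU2o.inter isClosed_closure.isOpen_compl,
      fun p hp => ⟨hQ2 hp.1, hQ1' hp.1⟩, fun q hq q' hq' => ?_⟩
    have d1 : ∀ q ∈ (U2 ∩ (closure W1)ᶜ) ∩ (Eᶜ ∩ W), q ∈ O2 ∩ (Eᶜ ∩ W2) := fun q hq => by
      rcases ho.sub hq.2.2 with w | w
      · exact absurd (subset_closure w) hq.1.2
      · exact ⟨m2 q hq.1.1 w, hq.2.1, w⟩
    have := H2 q (d1 q hq) q' (d1 q' hq')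
    linarith

/-- congruence of charges -/
theorem ch_congr {W : Set (ℝ × ℝ)} (h : EqOn f g (W \ E)) (Q : Sqr) : ch E W f Q = ch E W g Q := by
  have key : ∀ c, OscLe (Eᶜ ∩ W) (Q.car ∩ closure W) f c ↔
      OscLe (Eᶜ ∩ W) (Q.car ∩ closure W) g c := by
    intro c
    constructor
    · intro H
      exact H.congr isOpen_univ (subset_univ _) fun q hq => (h ⟨hq.2.2, hq.2.1⟩).symm
    · intro H
      exact H.congr isOpen_univ (subset_univ _) fun q hq => h ⟨hq.2.2, hq.2.1⟩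
  unfold ch chg
  simp only [key]

theorem ch_mono {W W' : Set (ℝ × ℝ)} (hW : W' ⊆ W) (hf : Fin (Eᶜ ∩ W) univ f) (Q : Sqr) :
    ch E W' f Q ≤ ch E W f Q := by
  unfold ch
  have h1 : Fin (Eᶜ ∩ W) (Q.car ∩ closure W) f := hf.mono_set (subset_univ _)
  refine (chg_mono_V (h1.mono_set (inter_subset_inter_right _ (closure_mono hW)))
    (inter_subset_inter_right _ hW)).trans ?_
  exact chg_mono_set h1 (inter_subset_inter_right _ (closure_mono hW))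

theorem En_mono_set {W W' : Set (ℝ × ℝ)} (hE : IsCompact E) (hW : Band W) (hW' : W' ⊆ W)
    (hf : Cc 𝓗 W f) : En (W' \ E) f ≤ En (W \ E) f := by
  obtain ⟨h1, S, hS, h2⟩ := hf
  exact Sin_925.En_mono (hW.isOpen.sdiff hE.isClosed)
    (h1.mono subset_rfl sdiff_subset) hS (fun p hp hpS => h2 p hp.1 hpS)
    (sdiff_subset_sdiff_left hW')

/-- **`TQ` is an abstract energy** -/
theorem enC_TQ (hE : QPic E 𝒬 𝓗) : EnC E 𝓗 (fun W f => TQ E W 𝒬 f) where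
  nonneg := fun W f => TQ_nonneg _ _ _ _
  zero := fun W => TQ_zero
  congr := by
    intro W hW f g h
    unfold TQ Ch
    have e : En (W \ E) f = En (W \ E) g := by
      unfold En
      exact setIntegral_congr_fun (hW.sdiff hE.cpt.isClosed).measurableSet fun p hp =>
        Sin_925.g2_congr_of (hW.sdiff hE.cpt.isClosed) h hp
    rw [e]
    simp only [ch_congr h]
  mono := by
    intro W W' f hW hW' hsub hf
    unfold TQ
    refine add_le_add (En_mono_set hE.cpt hW hsub hf) ?_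
    have hf' : CFJ 𝓗 W' f := hf.1.mono subset_rfl hsub
    unfold Ch
    refine Summable.tsum_le_tsum (fun Q => pow_le_pow_left₀ (ch_nonneg _ _ _ _)
      (ch_mono hsub (CFJ.fin hE hf.1 univ) _) 2) (summable_ch hE hW'.convex hf')
      (summable_ch hE hW.convex hf.1)
  max := fun W f g hW hf hg => TQ_max_le hE hW.isOpen hW.convex hf hg
  add := fun W f g hW hf hg => TQ_add_le hE hW.isOpen hW.convex hf hg
  cmul := fun W f c hW hf => TQ_const_mul_le hE hW.isOpen hW.convex hf c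
  amp := by
    intro W f c hW hf hc
    obtain ⟨h1, S, hS, h2⟩ := hf
    obtain ⟨R, hR, hRv, hRW, hRE⟩ := transfer hE hW.isOpen hS
    have h3 := h1.mono (Subset.refl 𝓗) (hRW.trans sdiff_subset)
    have e1 := (h3.const_mul c).En_min_le hR hRv (CFJ_const (𝓗 := 𝓗) (W := R) 1)
    rw [En_const, add_zero, h3.En_const_mul hR] at e1
    have e2 := Ch_comp_le (𝒬 := 𝒬) hE hW.convex h1 (G := fun t => Min.min (c * t) 1)
      (M := c) hc (fun s t => by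
        have := abs_min_sub_min_le_max (c * s) 1 (c * t) 1
        rw [sub_self, abs_zero, ← mul_sub, abs_mul, abs_of_nonneg hc] at this
        exact this.trans (max_le le_rfl (by positivity)))
    unfold TQ
    rw [hRE f h2, hRE (fun q => Min.min (c * f q) 1) fun p hp hpS => by
      rw [h2 p hp hpS, mul_zero]; exact min_eq_left zero_le_one]
    linarith
  glue := by
    intro W W1 W2 b' b f hW hW1 hW2 ho hf
    have f1 : CFJ 𝓗 W1 f := hf.1.mono subset_rfl ho.s1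
    have f2 : CFJ 𝓗 W2 f := hf.1.mono subset_rfl ho.s2
    have eC : Ch E W 𝒬 f ≤ 2 * Ch E W1 𝒬 f + 2 * Ch E W2 𝒬 f := by
      unfold Ch
      rw [← tsum_mul_left, ← tsum_mul_left,
        ← ((summable_ch hE hW1.convex f1).mul_left 2).tsum_add
          ((summable_ch hE hW2.convex f2).mul_left 2)]
      refine Summable.tsum_le_tsum (fun Q => ?_) (summable_ch hE hW.convex hf.1)
        (((summable_ch hE hW1.convex f1).mul_left 2).add
          ((summable_ch hE hW2.convex f2).mul_left 2))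
      have := ch_glue hE ho Q.2 (CFJ.fin hE f1 _) (CFJ.fin hE f2 _) (f := f)
      have h2 := pow_le_pow_left₀ (ch_nonneg _ _ _ _) this 2
      nlinarith [sq_nonneg (ch E W1 f Q.1 - ch E W2 f Q.1)]
    have eE : En (W \ E) f ≤ En (W1 \ E) f + En (W2 \ E) f := by
      have e : W \ E = (W1 \ E) ∪ (W2 \ E) := by
        rw [← union_sdiff_distrib]
        exact congrArg (· \ E) (ho.sub.antisymm (union_subset ho.s1 ho.s2))
      have hint : IntegrableOn (g2 f) (W \ E) := by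
        obtain ⟨h1, S, hS, h2⟩ := hf
        exact Sin_925.integrable_of_cpt (hW.isOpen.sdiff hE.cpt.isClosed)
          (h1.mono subset_rfl sdiff_subset) hS fun p hp hpS => h2 p hp.1 hpS
      rw [e] at hint ⊢
      exact Sin_925.En_union_le (hW1.isOpen.sdiff hE.cpt.isClosed).measurableSet
        (hW2.isOpen.sdiff hE.cpt.isClosed).measurableSet hint
    unfold TQ
    have := En_nonneg (W1 \ E) f
    have := En_nonneg (W2 \ E) f
    linarith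

theorem capAt_TQ (hE : QPic E 𝒬 𝓗) {q : ℝ × ℝ} (hq : ∀ Q ∈ 𝒬, q ∉ Q.car) :
    CapAt (fun W f => TQ E W 𝒬 f) q := by
  intro R hR ε hε
  obtain ⟨l, ρ, hρ, -, hl, hl01, h1, h0, -, -, hT⟩ := Cln_891.exists_point_cut_Q hE hq hR hε
  exact ⟨ρ, hρ, l, hl, hl01, fun p hp => h1 p hp, h0, hT⟩

end glue

end Crest.Agent.R105.Snq_925
end

-- ▼ part R105/Snq2_925
section

/-!
# Row 105 (S0138, picture with solids), SINGLEQ part 2: one free hair over an abstract energy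
-/

set_option autoImplicit false

namespace Crest.Agent.R105.Snq_925

open Set Filter MeasureTheory Topology Metric
open CF_363 Stp_722 Cq_463
open Skp2_257 (Comps Lo Up)
open Sin_925 (isOpen_Lo isOpen_Up near_car)
open scoped ENNReal NNReal

variable {E : Set (ℝ × ℝ)} {𝓗 : Set Hair} {T : Set (ℝ × ℝ) → (ℝ × ℝ → ℝ) → ℝ}

/-- one half of a test pair for the energy `T` -/
structure HalfT (𝓗 : Set Hair) (T : Set (ℝ × ℝ) → (ℝ × ℝ → ℝ) → ℝ) (W N : Set (ℝ × ℝ)) (ε : ℝ)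
    (z : ℝ × ℝ → ℝ) : Prop where
  cf : CFJ 𝓗 W z
  rg : ∀ p, 0 ≤ z p ∧ z p ≤ 1
  sp : ∃ S, IsCompact S ∧ S ⊆ N ∧ ∀ p ∈ W, p ∉ S → z p = 0
  en : T W z ≤ ε

theorem HalfT.cc {W N : Set (ℝ × ℝ)} {ε : ℝ} {z : ℝ × ℝ → ℝ} (h : HalfT 𝓗 T W N ε z) :
    Cc 𝓗 W z := by
  obtain ⟨S, hS, -, h0⟩ := h.sp
  exact ⟨h.cf, S, hS, h0⟩

theorem HalfT.zero (hT : EnC E 𝓗 T) (W N : Set (ℝ × ℝ)) {ε : ℝ} (hε : 0 ≤ ε) :
    HalfT 𝓗 T W N ε (fun _ => 0) where
  cf := CFJ_const 0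
  rg := fun _ => ⟨le_rfl, zero_le_one⟩
  sp := ⟨∅, isCompact_empty, empty_subset _, fun _ _ _ => rfl⟩
  en := by rw [hT.zero]; exact hε

/-- amplification: `min (c z) 1`. -/
theorem HalfT.amp (hT : EnC E 𝓗 T) {W N N' : Set (ℝ × ℝ)} {ε ε' c : ℝ} {z : ℝ × ℝ → ℝ}
    (hW : Band W) (hc : 0 ≤ c) (h : HalfT 𝓗 T W N ε z) (hN : N ⊆ N') (hε : c ^ 2 * ε ≤ ε') :
    HalfT 𝓗 T W N' ε' (fun p => Min.min (c * z p) 1) := by
  obtain ⟨S, hS, hSN, hS0⟩ := h.sp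
  refine ⟨(h.cf.const_mul c).min (CFJ_const 1), fun p => ⟨le_min (mul_nonneg hc (h.rg p).1)
    zero_le_one, min_le_right _ _⟩, ⟨S, hS, hSN.trans hN, fun p hp hpS => ?_⟩, ?_⟩
  · rw [hS0 p hp hpS, mul_zero]; exact min_eq_left zero_le_one
  · exact (hT.amp W z c hW h.cc hc).trans
      ((mul_le_mul_of_nonneg_left h.en (sq_nonneg c)).trans hε)

/-- lower side null at level `B` -/
def LowNT (E : Set (ℝ × ℝ)) (𝓗 : Set Hair) (T : Set (ℝ × ℝ) → (ℝ × ℝ → ℝ) → ℝ) (K : Hair)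
    (B : ℝ) : Prop :=
  ∀ N, IsOpen N → K.car ⊆ N → ∀ ε > 0, ∃ z, HalfT 𝓗 T (Lo B) N ε z ∧
    ∃ O, IsOpen O ∧ K.car ⊆ O ∧ ∀ p ∈ O \ E, p ∈ Lo B → z p = 1

/-- upper side null at level `B` -/
def UpNT (E : Set (ℝ × ℝ)) (𝓗 : Set Hair) (T : Set (ℝ × ℝ) → (ℝ × ℝ → ℝ) → ℝ) (K : Hair)
    (B : ℝ) : Prop :=
  ∀ N, IsOpen N → K.car ⊆ N → ∀ ε > 0, ∃ z, HalfT 𝓗 T (Up B) N ε z ∧
    ∃ O, IsOpen O ∧ K.car ⊆ O ∧ ∀ p ∈ O \ E, p ∈ Up B → z p = 1

/-- conductance zero for one hair -/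
def NullT (E : Set (ℝ × ℝ)) (𝓗 : Set Hair) (T : Set (ℝ × ℝ) → (ℝ × ℝ → ℝ) → ℝ) (K : Hair)
    (Bm Bp : ℝ) : Prop :=
  ∀ N, IsOpen N → K.car ⊆ N → ∀ ε > 0, ∃ zm zp, HalfT 𝓗 T (Lo Bm) N ε zm ∧
    HalfT 𝓗 T (Up Bp) N ε zp ∧ ∃ O, IsOpen O ∧ K.car ⊆ O ∧
    ∀ p ∈ O \ E, p ∈ Lo Bm → ∀ q ∈ O \ E, q ∈ Up Bp → (9 / 10 : ℝ) ≤ zm p + zp q

theorem low_or_up (hT : EnC E 𝓗 T) {K : Hair} {Bm Bp : ℝ} (h : NullT E 𝓗 T K Bm Bp) :
    LowNT E 𝓗 T K Bm ∨ UpNT E 𝓗 T K Bp := by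
  by_contra hcon
  rw [not_or] at hcon
  obtain ⟨h1, h2⟩ := hcon
  unfold LowNT at h1
  unfold UpNT at h2
  push Not at h1 h2
  obtain ⟨N₁, hN₁, hK₁, ε₁, hε₁, H₁⟩ := h1
  obtain ⟨N₂, hN₂, hK₂, ε₂, hε₂, H₂⟩ := h2
  set ε := Min.min ε₁ ε₂ / 5 with hε
  have hmin : 0 < Min.min ε₁ ε₂ := lt_min hε₁ hε₂
  obtain ⟨zm, zp, hPm, hPp, O, hO, hKO, hkey⟩ := h (N₁ ∩ N₂) (hN₁.inter hN₂)
    (subset_inter hK₁ hK₂) ε (by positivity)
  have hc : ∀ {e : ℝ}, Min.min ε₁ ε₂ ≤ e → (20 / 9 : ℝ) ^ 2 * ε ≤ e := by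
    intro e he
    rw [hε]; nlinarith
  by_cases hA : ∀ p ∈ O \ E, p ∈ Lo Bm → 9 / 20 ≤ zm p
  · obtain ⟨p, hp, hpL, hne⟩ := H₁ _ (HalfT.amp hT (c := 20 / 9) (band_lo Bm) (by norm_num) hPm
      inter_subset_left (hc (min_le_left _ _))) O hO hKO
    apply hne
    have := hA p hp hpL
    exact min_eq_right (by linarith)
  · push Not at hA
    obtain ⟨p, hp, hpL, hlt⟩ := hA
    obtain ⟨q, hq, hqU, hne⟩ := H₂ _ (HalfT.amp hT (c := 20 / 9) (band_up Bp) (by norm_num) hPp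
      inter_subset_right (hc (min_le_right _ _))) O hO hKO
    apply hne
    have := hkey p hp hpL q hq hqU
    exact min_eq_right (by linarith)

/-- lower data at `(β, d)` -/
def LowST (E : Set (ℝ × ℝ)) (𝓗 : Set Hair) (T : Set (ℝ × ℝ) → (ℝ × ℝ → ℝ) → ℝ) (K : Hair)
    (β d : ℝ) : Prop :=
  ∀ N, IsOpen N → K.car ⊆ N → ∀ ε > 0, ∃ B, β - d < B ∧ B ≤ β ∧ ∃ z, HalfT 𝓗 T (Lo B) N ε z ∧
    ∃ O, IsOpen O ∧ K.car ⊆ O ∧ ∀ p ∈ O \ E, p.2 ≤ β - d → z p = 1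

/-- upper data at `(β, d)` -/
def UpST (E : Set (ℝ × ℝ)) (𝓗 : Set Hair) (T : Set (ℝ × ℝ) → (ℝ × ℝ → ℝ) → ℝ) (K : Hair)
    (β d : ℝ) : Prop :=
  ∀ N, IsOpen N → K.car ⊆ N → ∀ ε > 0, ∃ B, β ≤ B ∧ B < β + d ∧ ∃ z, HalfT 𝓗 T (Up B) N ε z ∧
    ∃ O, IsOpen O ∧ K.car ⊆ O ∧ ∀ p ∈ O \ E, β + d ≤ p.2 → z p = 1

theorem exists_level (hT : EnC E 𝓗 T) {K : Hair}
    (h : ∀ Bm Bp, Bm < Bp → K.b ≤ Bm → Bp ≤ K.t → NullT E 𝓗 T K Bm Bp) :
    ∃ β, K.b ≤ β ∧ β ≤ K.t ∧ ∀ d > 0, LowST E 𝓗 T K β d ∧ UpST E 𝓗 T K β d := by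
  have hdich : ∀ Bm Bp, Bm < Bp → K.b ≤ Bm → Bp ≤ K.t → LowNT E 𝓗 T K Bm ∨ UpNT E 𝓗 T K Bp :=
    fun Bm Bp h0 h1 h2 => low_or_up hT (h Bm Bp h0 h1 h2)
  set S : Set ℝ := {B | K.b ≤ B ∧ B ≤ K.t ∧ LowNT E 𝓗 T K B} with hS
  have hup : ∀ β, K.b ≤ β → β ≤ K.t → (∀ B, β < B → B ≤ K.t → ¬ LowNT E 𝓗 T K B) → ∀ d > 0,
      UpST E 𝓗 T K β d := by
    intro β hb ht hno d hd N hN hKN ε hε
    rcases ht.eq_or_lt with rfl | hlt
    · refine ⟨K.t, le_rfl, by linarith, fun _ => 0, HalfT.zero hT _ _ hε.le, thickening d K.car,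
        isOpen_thickening, self_subset_thickening hd _, fun p hp hp2 => ?_⟩
      exact absurd (near_car hp.1).2.2 (not_lt.2 hp2)
    · set B := Min.min (β + d / 2) K.t with hB
      have hβB : β < B := lt_min (by linarith) hlt
      have hBt : B ≤ K.t := min_le_right _ _
      have hBd : B ≤ β + d / 2 := min_le_left _ _
      have := hdich ((β + B) / 2) B (by linarith) (by linarith) hBt
      rcases this with h' | h'
      · exact absurd h' (hno _ (by linarith) (by linarith))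
      · obtain ⟨z, hz, O, hO, hKO, h1⟩ := h' N hN hKN ε hε
        exact ⟨B, hβB.le, by linarith, z, hz, O, hO, hKO, fun p hp hp2 => h1 p hp
          (by show B < p.2; linarith)⟩
  by_cases hne : S.Nonempty
  · have hbdd : BddAbove S := ⟨K.t, fun B hB => hB.2.1⟩
    obtain ⟨B₀, hB₀⟩ := hne
    have h1 : K.b ≤ sSup S := hB₀.1.trans (le_csSup hbdd hB₀)
    have h2 : sSup S ≤ K.t := csSup_le ⟨B₀, hB₀⟩ fun B hB => hB.2.1
    refine ⟨sSup S, h1, h2, fun d hd => ⟨?_, hup _ h1 h2 (fun B hB hBt hL => ?_) d hd⟩⟩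
    · intro N hN hKN ε hε
      obtain ⟨B, hBS, hBd⟩ := exists_lt_of_lt_csSup ⟨B₀, hB₀⟩ (by linarith : sSup S - d < sSup S)
      obtain ⟨z, hz, O, hO, hKO, h3⟩ := hBS.2.2 N hN hKN ε hε
      exact ⟨B, hBd, le_csSup hbdd hBS, z, hz, O, hO, hKO, fun p hp hp2 => h3 p hp
        (by show p.2 < B; linarith)⟩
    · exact absurd (le_csSup hbdd ⟨h1.trans hB.le, hBt, hL⟩) (not_le.2 hB)
  · rw [not_nonempty_iff_eq_empty] at hne
    refine ⟨K.b, le_rfl, K.hbt.le, fun d hd => ⟨?_, hup _ le_rfl K.hbt.le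
      (fun B hB hBt hL => ?_) d hd⟩⟩
    · intro N hN hKN ε hε
      refine ⟨K.b, by linarith, le_rfl, fun _ => 0, HalfT.zero hT _ _ hε.le, thickening d K.car,
        isOpen_thickening, self_subset_thickening hd _, fun p hp hp2 => ?_⟩
      exact absurd (near_car hp.1).2.1 (not_lt.2 hp2)
    · have : B ∈ S := ⟨hB.le, hBt, hL⟩
      rw [hne] at this
      exact this

/-- the basic cut-off, off `E` -/
theorem basic0 (hT : EnC E 𝓗 T) {K : Hair} {β : ℝ} (hb : K.b ≤ β) (ht : β ≤ K.t)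
    (hcap : CapAt T (K.x, β))
    (h : ∀ d > 0, LowST E 𝓗 T K β d ∧ UpST E 𝓗 T K β d) {N : Set (ℝ × ℝ)} (hN : IsOpen N)
    (hKN : K.car ⊆ N) {ε : ℝ} (hε : 0 < ε) :
    ∃ ζ, HalfT 𝓗 T univ N ε ζ ∧ ∃ O, IsOpen O ∧ K.car ⊆ O ∧ ∀ p ∈ O \ E, ζ p = 1 := by
  classical
  set q : ℝ × ℝ := (K.x, β) with hq
  have hqK : q ∈ K.car := ⟨rfl, hb, ht⟩
  obtain ⟨R, hR, hRN⟩ := nhds_basis_closedBall.mem_iff.1 (hN.mem_nhds (hKN hqK))
  obtain ⟨r, hr, lam, hl, hl01, hl1, hl0, hle⟩ := hcap R hR (ε / 16) (by positivity)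
  set d := r / 4 with hd
  have hd0 : 0 < d := by positivity
  set N' := N ∩ thickening d K.car with hN'
  have hN'o : IsOpen N' := hN.inter isOpen_thickening
  have hKN' : K.car ⊆ N' := subset_inter hKN (self_subset_thickening hd0 _)
  obtain ⟨Bm, hBm1, hBm2, zm, hzm, Om, hOm, hKOm, hm1⟩ := (h d hd0).1 N' hN'o hKN' (ε / 16)
    (by positivity)
  obtain ⟨Bp, hBp1, hBp2, zp, hzp, Op, hOp, hKOp, hp1⟩ := (h d hd0).2 N' hN'o hKN' (ε / 16)
    (by positivity)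
  obtain ⟨Sm, hSm, hSmN, hSm0⟩ := hzm.sp
  obtain ⟨Sp, hSp, hSpN, hSp0⟩ := hzp.sp
  set ζ : ℝ × ℝ → ℝ := fun p => if p.2 < Bm then Max.max (lam p) (zm p)
    else if Bp < p.2 then Max.max (lam p) (zp p) else lam p with hζ
  have near : ∀ p : ℝ × ℝ, |p.1 - K.x| < 2 * d → |p.2 - β| < 2 * d → lam p = 1 := by
    intro p h1 h2
    refine hl1 p ?_
    rw [hq, Prod.dist_eq, Real.dist_eq, Real.dist_eq]
    refine (max_lt h1 h2).le.trans ?_
    rw [hd]; linarith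
  -- values on the three pieces
  have eqL : EqOn ζ (fun p => Max.max (lam p) (zm p)) (Lo Bm) := fun p hp => by
    simp only [hζ]; exact if_pos hp
  have eqU : EqOn ζ (fun p => Max.max (lam p) (zp p)) (Up Bp) := fun p hp => by
    have hp' : Bp < p.2 := hp
    simp only [hζ]
    rw [if_neg (by linarith), if_pos hp']
  set U2 : Set (ℝ × ℝ) := Lo (β + 2 * d) ∩ Up (β - 2 * d) with hU2
  have hU2b : Band U2 := (band_lo _).inter (band_up _)
  have eqM : EqOn ζ lam U2 := by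
    intro p hp
    have hp1 : p.2 < β + 2 * d := hp.1
    have hp2 : β - 2 * d < p.2 := hp.2
    have hab : |p.2 - β| < 2 * d := by rw [abs_lt]; constructor <;> linarith
    simp only [hζ]
    split_ifs with hc1 hc2
    · by_cases hpS : p ∈ Sm
      · rw [near p ((near_car (hSmN hpS).2).1.trans (by linarith)) hab]
        exact max_eq_left (hzm.rg p).2
      · rw [hSm0 p hc1 hpS]; exact max_eq_left (hl01 p).1
    · by_cases hpS : p ∈ Sp
      · rw [near p ((near_car (hSpN hpS).2).1.trans (by linarith)) hab]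
        exact max_eq_left (hzp.rg p).2
      · rw [hSp0 p hc2 hpS]; exact max_eq_left (hl01 p).1
    · rfl
  have hcov : (univ : Set (ℝ × ℝ)) = (Lo Bm ∪ Up Bp) ∪ U2 := by
    refine (eq_univ_of_forall fun p => ?_).symm
    by_cases h1 : p.2 < Bm
    · exact Or.inl (Or.inl h1)
    · by_cases h2 : Bp < p.2
      · exact Or.inl (Or.inr h2)
      · refine Or.inr ⟨?_, ?_⟩
        · show p.2 < β + 2 * d
          linarith
        · show β - 2 * d < p.2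
          linarith
  -- regularity
  have hlcc : ∀ W, Cc 𝓗 W lam := fun W =>
    ⟨(hl.cfj (𝓗 := 𝓗)).mono subset_rfl (subset_univ W), closedBall q R, isCompact_closedBall q R,
      fun p _ hp => hl0 p (by rw [mem_closedBall, not_le] at hp; exact hp.le)⟩
  have hcf : CFJ 𝓗 univ ζ := by
    obtain ⟨J₁, hJ₁, k₁⟩ := hzm.cf
    obtain ⟨J₂, hJ₂, k₂⟩ := hzp.cf
    refine ⟨J₁ ∪ J₂, fun K' hK' => ?_, ?_⟩
    · rcases Finset.mem_union.mp hK' with h' | h'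
      · exact hJ₁ K' h'
      · exact hJ₂ K' h'
    · have e : (univ : Set (ℝ × ℝ)) \ cut (J₁ ∪ J₂) = ((Lo Bm \ cut (J₁ ∪ J₂)) ∪
          (Up Bp \ cut (J₁ ∪ J₂))) ∪ (U2 \ cut (J₁ ∪ J₂)) := by
        rw [← union_sdiff_distrib, ← union_sdiff_distrib, ← hcov]
      rw [e]
      refine CF.union ((isOpen_diff_cut (isOpen_Lo _) _).union (isOpen_diff_cut (isOpen_Up _) _))
        (isOpen_diff_cut hU2b.isOpen _) (CF.union (isOpen_diff_cut (isOpen_Lo _) _)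
        (isOpen_diff_cut (isOpen_Up _) _) ?_ ?_) ?_
      · have k : CF (Lo Bm \ cut (J₁ ∪ J₂)) zm :=
          k₁.mono (sdiff_subset_sdiff_right (cut_mono Finset.subset_union_left))
        exact ((hl.mono (subset_univ _)).max k).congr (eqL.symm.mono sdiff_subset)
      · have k : CF (Up Bp \ cut (J₁ ∪ J₂)) zp :=
          k₂.mono (sdiff_subset_sdiff_right (cut_mono Finset.subset_union_right))
        exact ((hl.mono (subset_univ _)).max k).congr (eqU.symm.mono sdiff_subset)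
      · exact (hl.mono (subset_univ _)).congr (eqM.symm.mono sdiff_subset)
  -- support
  have hcS : IsCompact ((closedBall q R ∪ Sm) ∪ Sp) :=
    ((isCompact_closedBall q R).union hSm).union hSp
  have hS0 : ∀ p, p ∉ (closedBall q R ∪ Sm) ∪ Sp → ζ p = 0 := by
    intro p hp
    rw [mem_union, mem_union, not_or, not_or] at hp
    obtain ⟨⟨a1, a2⟩, a3⟩ := hp
    have hlp : lam p = 0 := hl0 p (by rw [mem_closedBall, not_le] at a1; exact a1.le)
    simp only [hζ]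
    split_ifs with hc1 hc2
    · rw [hlp, hSm0 p hc1 a2]; exact max_self 0
    · rw [hlp, hSp0 p hc2 a3]; exact max_self 0
    · exact hlp
  have hζcc : ∀ W, Cc 𝓗 W ζ := fun W =>
    ⟨hcf.mono subset_rfl (subset_univ W), _, hcS, fun p _ hp => hS0 p hp⟩
  refine ⟨ζ, ⟨hcf, fun p => ?_, ⟨_, hcS, ?_, fun p _ hp => hS0 p hp⟩, ?_⟩,
    (Om ∩ Op) ∩ thickening d K.car, (hOm.inter hOp).inter isOpen_thickening,
    subset_inter (subset_inter hKOm hKOp) (self_subset_thickening hd0 _), fun p hp => ?_⟩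
  · obtain ⟨b1, b2⟩ := hl01 p
    obtain ⟨c1, c2⟩ := hzm.rg p
    obtain ⟨c3, c4⟩ := hzp.rg p
    simp only [hζ]
    split_ifs
    · exact ⟨b1.trans (le_max_left _ _), max_le b2 c2⟩
    · exact ⟨b1.trans (le_max_left _ _), max_le b2 c4⟩
    · exact ⟨b1, b2⟩
  · exact union_subset (union_subset hRN fun p hp => (hSmN hp).1) fun p hp => (hSpN hp).1
  · -- energy
    have hlW : ∀ W, Band W → T W lam ≤ ε / 16 := fun W hW =>
      (hT.mono univ W lam band_univ hW (subset_univ _) (hlcc univ)).trans hle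
    have o1 : Ov univ (Lo Bm) (Up (β - 2 * d)) (β - 2 * d) Bm := ov_univ (by linarith)
    have o2 : Ov (Up (β - 2 * d)) U2 (Up Bp) Bp (β + 2 * d) :=
      { lt := by linarith
        sub := fun p hp => by
          by_cases h2 : p.2 < β + 2 * d
          · exact Or.inl ⟨h2, hp⟩
          · exact Or.inr (show Bp < p.2 by linarith)
        s1 := fun p hp => hp.2
        s2 := fun p hp => by
          have hp' : Bp < p.2 := hp
          show β - 2 * d < p.2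
          linarith
        u1 := fun p hp => hp.1
        u2 := fun p hp => hp
        ov := fun p h1 h2 => ⟨⟨h2, show β - 2 * d < p.2 by linarith⟩, h1⟩ }
    have g1 := hT.glue _ _ _ _ _ ζ band_univ (band_lo Bm) (band_up _) o1 (hζcc univ)
    have g2 := hT.glue _ _ _ _ _ ζ (band_up _) hU2b (band_up Bp) o2 (hζcc _)
    have h3 : T (Lo Bm) ζ ≤ ε / 16 + ε / 16 := by
      rw [hT.congr _ (isOpen_Lo Bm) ζ _ (eqL.mono sdiff_subset)]
      exact (hT.max _ _ _ (band_lo Bm) (hlcc _) hzm.cc).trans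
        (add_le_add (hlW _ (band_lo Bm)) hzm.en)
    have h4 : T (Up Bp) ζ ≤ ε / 16 + ε / 16 := by
      rw [hT.congr _ (isOpen_Up Bp) ζ _ (eqU.mono sdiff_subset)]
      exact (hT.max _ _ _ (band_up Bp) (hlcc _) hzp.cc).trans
        (add_le_add (hlW _ (band_up Bp)) hzp.en)
    have h5 : T U2 ζ ≤ ε / 16 := by
      rw [hT.congr _ hU2b.isOpen ζ _ (eqM.mono sdiff_subset)]
      exact hlW _ hU2b
    linarith
  · obtain ⟨⟨⟨hpm, hpp⟩, hpt⟩, hpE⟩ := hp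
    rcases le_or_gt p.2 (β - d) with c1 | c1
    · have hlt : p.2 < Bm := by linarith
      have hz := hm1 p ⟨hpm, hpE⟩ c1
      simp only [hζ]
      rw [if_pos hlt, hz]; exact max_eq_right (hl01 p).2
    · rcases le_or_gt (β + d) p.2 with c2 | c2
      · have hlt : Bp < p.2 := by linarith
        have hz := hp1 p ⟨hpp, hpE⟩ c2
        simp only [hζ]
        rw [if_neg (by linarith), if_pos hlt, hz]; exact max_eq_right (hl01 p).2
      · have hlp : lam p = 1 := near p ((near_car hpt).1.trans (by linarith))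
          (by rw [abs_lt]; constructor <;> linarith)
        have hpU : p ∈ U2 := ⟨by show p.2 < β + 2 * d; linarith, by show β - 2 * d < p.2; linarith⟩
        rw [eqM hpU, hlp]

end Crest.Agent.R105.Snq_925
end

-- ▼ part R105/Snq3_925
section

/-!
# Row 105 (S0138, picture with solids), SINGLEQ part 3: nested averaging, `singleQ`
-/

set_option autoImplicit false

namespace Crest.Agent.R105.Snq_925

open Set Filter MeasureTheory Topology Metric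
open CF_363 Stp_722 Cq_463
open Skp2_257 (Comps Lo Up)
open Nal_649 (HalfQ FamQ PairQ NullNQ Win)
open scoped ENNReal NNReal

section abstract

variable {E : Set (ℝ × ℝ)} {𝓗 : Set Hair} {T : Set (ℝ × ℝ) → (ℝ × ℝ → ℝ) → ℝ}

/-- the cut-off can be changed on `E`: a function which is `1` on `O \ E` can be made `1` on a
neighbourhood -/
theorem patch (hT : EnC E 𝓗 T) (hE : IsCompact E) {P : Set (ℝ × ℝ)} (hP : P ∈ Comps E)
    {N : Set (ℝ × ℝ)} (hN : IsOpen N) (hPN : P ⊆ N) {ε : ℝ} {ζ : ℝ × ℝ → ℝ}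
    (h : HalfT 𝓗 T univ N ε ζ) {O : Set (ℝ × ℝ)} (hO : IsOpen O) (hPO : P ⊆ O)
    (h1 : ∀ p ∈ O \ E, ζ p = 1) :
    ∃ ζ', HalfT 𝓗 T univ N ε ζ' ∧ ∃ O', IsOpen O' ∧ P ⊆ O' ∧ ∀ p ∈ O', ζ' p = 1 := by
  classical
  obtain ⟨x, hx, rfl⟩ := hP
  obtain ⟨N₂, hN₂, hKN₂, hcl, hclc, hfr⟩ := Thin_12.thin_nhd hE hx (W := O ∩ N)
    (hO.inter hN) (subset_inter hPO hPN)
  obtain ⟨J, hJ, hc⟩ := h.cf
  set ζ' : ℝ × ℝ → ℝ := fun p => if p ∈ N₂ then 1 else ζ p with hζ'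
  -- the two open sets
  set A : Set (ℝ × ℝ) := N₂ ∪ (O \ E) with hA
  have hAo : IsOpen A := hN₂.union (hO.sdiff hE.isClosed)
  have hBo : IsOpen (closure N₂)ᶜ := isClosed_closure.isOpen_compl
  have eA : EqOn (fun _ => (1 : ℝ)) ζ' A := by
    intro p hp
    simp only [hζ']
    split_ifs with hpN
    · rfl
    · rcases hp with hp | hp
      · exact absurd hp hpN
      · exact (h1 p hp).symm
  have eB : EqOn ζ ζ' (closure N₂)ᶜ := by
    intro p hp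
    simp only [hζ']
    rw [if_neg fun hpN => hp (subset_closure hpN)]
  have hcov : (univ : Set (ℝ × ℝ)) = A ∪ (closure N₂)ᶜ := by
    refine (eq_univ_of_forall fun p => ?_).symm
    by_cases hp : p ∈ closure N₂
    · by_cases hpN : p ∈ N₂
      · exact Or.inl (Or.inl hpN)
      · refine Or.inl (Or.inr ⟨(hcl hp).1, fun hpE => Set.disjoint_left.1 hfr ?_ hpE⟩)
        rw [hN₂.frontier_eq]; exact ⟨hp, hpN⟩
    · exact Or.inr hp
  have hcf : CFJ 𝓗 univ ζ' := by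
    refine ⟨J, hJ, ?_⟩
    have e : (univ : Set (ℝ × ℝ)) \ cut J = (A \ cut J) ∪ ((closure N₂)ᶜ \ cut J) := by
      rw [← union_sdiff_distrib, ← hcov]
    rw [e]
    refine CF.union (isOpen_diff_cut hAo _) (isOpen_diff_cut hBo _) ?_ ?_
    · exact (CF_const 1).congr (eA.mono sdiff_subset)
    · exact (hc.mono (sdiff_subset_sdiff_left (subset_univ _))).congr (eB.mono sdiff_subset)
  obtain ⟨S, hS, hSN, hS0⟩ := h.sp
  refine ⟨ζ', ⟨hcf, fun p => ?_, ⟨S ∪ closure N₂, hS.union hclc,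
    union_subset hSN fun p hp => (hcl hp).2, fun p _ hp => ?_⟩, ?_⟩, N₂, hN₂, hKN₂,
    fun p hp => if_pos hp⟩
  · simp only [hζ']
    split_ifs
    · exact ⟨zero_le_one, le_rfl⟩
    · exact h.rg p
  · rw [mem_union, not_or] at hp
    simp only [hζ']
    rw [if_neg fun hpN => hp.2 (subset_closure hpN)]
    exact hS0 p (mem_univ _) hp.1
  · have e : EqOn ζ' ζ (univ \ E) := by
      intro p hp
      simp only [hζ']
      split_ifs with hpN
      · exact (h1 p ⟨(hcl (subset_closure hpN)).1, hp.2⟩).symm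
      · rfl
    rw [hT.congr _ isOpen_univ ζ' ζ e]
    exact h.en

/-- basic cut-offs in every neighbourhood of a component -/
def Basic (𝓗 : Set Hair) (T : Set (ℝ × ℝ) → (ℝ × ℝ → ℝ) → ℝ) (P : Set (ℝ × ℝ)) : Prop :=
  ∀ N, IsOpen N → P ⊆ N → ∀ ε > 0, ∃ ζ, HalfT 𝓗 T univ N ε ζ ∧
    ∃ O, IsOpen O ∧ P ⊆ O ∧ ∀ p ∈ O, ζ p = 1

/-- the cut-off with small oscillations -/
def SinOutT (E : Set (ℝ × ℝ)) (𝓗 : Set Hair) (T : Set (ℝ × ℝ) → (ℝ × ℝ → ℝ) → ℝ)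
    (P : Set (ℝ × ℝ)) : Prop :=
  ∀ N, IsOpen N → P ⊆ N → ∀ M : ℕ, 1 ≤ M → ∀ ε > 0, ∃ ζ, HalfT 𝓗 T univ N ε ζ ∧
    (∃ O, IsOpen O ∧ P ⊆ O ∧ ∀ p ∈ O, ζ p = 1) ∧
    ∀ P' ∈ Comps E, OscLe Eᶜ P' ζ (1 / M)

/-- nested averaging -/
theorem nested (hT : EnC E 𝓗 T) (hE : IsCompact E) {P : Set (ℝ × ℝ)} (hP : P ∈ Comps E)
    (h : Basic 𝓗 T P) (M : ℕ) :
    ∀ N, IsOpen N → P ⊆ N → ∀ ε > 0, ∃ σ : ℝ × ℝ → ℝ, CFJ 𝓗 univ σ ∧
      (∀ p, 0 ≤ σ p ∧ σ p ≤ M) ∧ (∃ S, IsCompact S ∧ S ⊆ N ∧ ∀ p, p ∉ S → σ p = 0) ∧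
      T univ σ ≤ ε ∧ (∃ O, IsOpen O ∧ P ⊆ O ∧ ∀ p ∈ O, σ p = M) ∧
      ∀ P' ∈ Comps E, OscLe Eᶜ P' σ 1 := by
  induction M with
  | zero =>
    intro N hN hKN ε hε
    refine ⟨fun _ => 0, CFJ_const 0, fun p => by simp, ⟨∅, isCompact_empty, empty_subset _,
      fun _ _ => rfl⟩, by rw [hT.zero]; exact hε.le, ⟨univ, isOpen_univ, subset_univ _,
      fun p _ => by simp⟩, fun P _ δ hδ => ⟨univ, isOpen_univ, subset_univ _, fun q _ q' _ => ?_⟩⟩
    simp only [sub_self, abs_zero]; linarith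
  | succ M ih =>
    intro N hN hKN ε hε
    obtain ⟨ζ, hζ, O₁, hO₁, hKO₁, h1⟩ := h N hN hKN (ε / 4) (by positivity)
    obtain ⟨x, hx, rfl⟩ := hP
    obtain ⟨N₂, hN₂, hKN₂, hcl, hclc, hfr⟩ := Thin_12.thin_nhd hE hx (W := O₁ ∩ N)
      (hO₁.inter hN) (subset_inter hKO₁ hKN)
    obtain ⟨σ, hσ, hσM, ⟨S', hS', hSN', hS0'⟩, hσe, ⟨O₂, hO₂, hKO₂, h2⟩, hosc⟩ :=
      ih N₂ hN₂ hKN₂ (ε / 4) (by positivity)
    obtain ⟨S, hS, hSN, hS0⟩ := hζ.sp
    have hN₂N : N₂ ⊆ N := fun p hp => (hcl (subset_closure hp)).2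
    have hN₂O : N₂ ⊆ O₁ := fun p hp => (hcl (subset_closure hp)).1
    have hsum : CFJ 𝓗 univ (fun p => ζ p + σ p) := hζ.cf.add hσ
    have h0 : ∀ p, p ∉ S ∪ S' → ζ p + σ p = 0 := fun p hp => by
      rw [mem_union, not_or] at hp
      rw [hS0 p (mem_univ _) hp.1, hS0' p hp.2, add_zero]
    refine ⟨fun p => ζ p + σ p, hsum, fun p => ?_, ⟨S ∪ S', hS.union hS',
      union_subset hSN (hSN'.trans hN₂N), h0⟩, ?_, ⟨O₁ ∩ O₂, hO₁.inter hO₂,
      subset_inter hKO₁ hKO₂, fun p hp => ?_⟩, ?_⟩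
    · have a1 := hζ.rg p
      have a2 := hσM p
      push_cast
      exact ⟨by linarith, by linarith⟩
    · have e1 := hT.add univ ζ σ band_univ hζ.cc ⟨hσ, S', hS', fun p _ hp => hS0' p hp⟩
      have := hζ.en
      linarith
    · beta_reduce
      rw [h1 p hp.1, h2 p hp.2]; push_cast; ring
    · intro P hP
      obtain ⟨y, hy, rfl⟩ := hP
      have hcases : connectedComponentIn E y ⊆ N₂ ∨
          connectedComponentIn E y ⊆ (closure N₂)ᶜ := by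
        refine (isPreconnected_connectedComponentIn).subset_or_subset hN₂
          isClosed_closure.isOpen_compl ?_ ?_
        · rw [Set.disjoint_left]
          exact fun p hp hp' => hp' (subset_closure hp)
        · intro p hp
          by_cases hpN : p ∈ N₂
          · exact Or.inl hpN
          · refine Or.inr fun hpc => Set.disjoint_left.1 hfr ?_ (connectedComponentIn_subset _ _ hp)
            rw [hN₂.frontier_eq]
            exact ⟨hpc, hpN⟩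
      rcases hcases with hc | hc
      · intro δ hδ
        obtain ⟨O, hO, hPO, H⟩ := hosc _ ⟨y, hy, rfl⟩ δ hδ
        refine ⟨O ∩ N₂, hO.inter hN₂, subset_inter hPO hc, fun q hq q' hq' => ?_⟩
        beta_reduce
        rw [h1 q (hN₂O hq.1.2), h1 q' (hN₂O hq'.1.2), add_sub_add_left_eq_sub]
        exact H q ⟨hq.1.1, hq.2⟩ q' ⟨hq'.1.1, hq'.2⟩
      · intro δ hδ
        refine ⟨(closure N₂)ᶜ, isClosed_closure.isOpen_compl, hc, fun q hq q' hq' => ?_⟩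
        beta_reduce
        rw [hS0' q fun hqS => hq.1 (subset_closure (hSN' hqS)),
          hS0' q' fun hqS => hq'.1 (subset_closure (hSN' hqS)), add_zero, add_zero]
        have a1 := hζ.rg q
        have a2 := hζ.rg q'
        rw [abs_le]
        constructor <;> linarith

theorem sinOut_of_basic (hT : EnC E 𝓗 T) (hE : IsCompact E) {P : Set (ℝ × ℝ)} (hP : P ∈ Comps E)
    (h : Basic 𝓗 T P) : SinOutT E 𝓗 T P := by
  intro N hN hKN M hM ε hε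
  have hM0 : (0 : ℝ) < M := by exact_mod_cast hM
  obtain ⟨σ, hσ, hσM, ⟨S, hS, hSN, hS0⟩, hσe, ⟨O, hO, hKO, h1⟩, hosc⟩ :=
    nested hT hE hP h M N hN hKN (M ^ 2 * ε) (by positivity)
  refine ⟨fun p => (M : ℝ)⁻¹ * σ p, ⟨hσ.const_mul _, fun p => ⟨?_, ?_⟩, ⟨S, hS, hSN,
    fun p _ hp => ?_⟩, ?_⟩, ⟨O, hO, hKO, fun p hp => ?_⟩, fun P hP => ?_⟩
  · have := (hσM p).1; positivity
  · rw [inv_mul_le_iff₀ hM0, mul_one]; exact (hσM p).2
  · rw [hS0 p hp, mul_zero]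
  · refine (hT.cmul univ σ _ band_univ ⟨hσ, S, hS, fun p _ hp => hS0 p hp⟩).trans ?_
    calc ((M : ℝ)⁻¹) ^ 2 * T univ σ ≤ ((M : ℝ)⁻¹) ^ 2 * (M ^ 2 * ε) :=
          mul_le_mul_of_nonneg_left hσe (by positivity)
      _ = ε := by field_simp
  · beta_reduce
    rw [h1 p hp]; exact inv_mul_cancel₀ hM0.ne'
  · intro δ hδ
    obtain ⟨O', hO', hPO', H⟩ := hosc P hP (M * δ) (by positivity)
    refine ⟨O', hO', hPO', fun q hq q' hq' => ?_⟩
    beta_reduce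
    rw [← mul_sub, abs_mul, abs_of_pos (by positivity : (0 : ℝ) < (M : ℝ)⁻¹),
      inv_mul_le_iff₀ hM0]
    refine (H q hq q' hq').trans (le_of_eq ?_)
    field_simp

/-- one free hair, abstract energy -/
theorem single_T (hT : EnC E 𝓗 T) (hE : IsCompact E) {K : Hair} (hK : K.car ∈ Comps E)
    (hcap : ∀ q ∈ K.car, CapAt T q)
    (h : ∀ Bm Bp, Bm < Bp → K.b ≤ Bm → Bp ≤ K.t → NullT E 𝓗 T K Bm Bp) :
    SinOutT E 𝓗 T K.car := by
  refine sinOut_of_basic hT hE hK fun N hN hKN ε hε => ?_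
  obtain ⟨β, hb, ht, hβ⟩ := exists_level hT h
  obtain ⟨ζ, hζ, O, hO, hKO, h1⟩ := basic0 hT hb ht (hcap _ ⟨rfl, hb, ht⟩) hβ hN hKN hε
  exact patch hT hE hK hN hKN hζ hO hKO h1

end abstract

section TQ

variable {E : Set (ℝ × ℝ)} {𝒬 : Set Sqr} {𝓗 : Set Hair}

/-- the cut-off of a single component with charges (`Skp2_257.SinOut` with `TQ`) -/
def SinOutQ (E : Set (ℝ × ℝ)) (𝒬 : Set Sqr) (𝓗 : Set Hair) (P : Set (ℝ × ℝ)) : Prop :=
  ∀ N, IsOpen N → P ⊆ N → ∀ M : ℕ, 1 ≤ M → ∀ ε > 0, ∃ ζ, HalfQ E 𝒬 𝓗 univ N ε ζ ∧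
    (∃ O, IsOpen O ∧ P ⊆ O ∧ ∀ p ∈ O, ζ p = 1) ∧
    ∀ P' ∈ Comps E, OscLe Eᶜ P' ζ (1 / M)

theorem half_of {W N : Set (ℝ × ℝ)} {ε : ℝ} {z : ℝ × ℝ → ℝ}
    (h : HalfQ E 𝒬 𝓗 W N ε z) : HalfT 𝓗 (fun W f => TQ E W 𝒬 f) W N ε z :=
  ⟨h.cf, h.rg, h.sp, h.en⟩

theorem of_half {W N : Set (ℝ × ℝ)} {ε : ℝ} {z : ℝ × ℝ → ℝ}
    (h : HalfT 𝓗 (fun W f => TQ E W 𝒬 f) W N ε z) : HalfQ E 𝒬 𝓗 W N ε z :=
  ⟨h.cf, h.rg, h.sp, h.en⟩

/-- a free hair is disjoint from the squares -/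
theorem disjoint_free (hE : QPic E 𝒬 𝓗) {K : Hair} (hK : K.car ∈ Comps E) {Q : Sqr}
    (hQ : Q ∈ 𝒬) : Disjoint K.car Q.car := by
  rw [Set.disjoint_left]
  intro p hp hpQ
  obtain ⟨x, hx, hKx⟩ := hK
  have h1 : Q.car ⊆ connectedComponentIn E x := by
    have h2 : connectedComponentIn E x = connectedComponentIn E p := by
      rw [hKx] at hp
      exact connectedComponentIn_eq hp
    rw [h2]
    exact Q.convex_car.isPreconnected.subset_connectedComponentIn hpQ (hE.sub Q hQ)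
  rw [← hKx] at h1
  have hs := Q.hs
  have a1 : ((Q.x, Q.y) : ℝ × ℝ) ∈ K.car := h1 ⟨⟨le_rfl, by simp only; linarith⟩, ⟨le_rfl,
    by simp only; linarith⟩⟩
  have a2 : ((Q.x + Q.s, Q.y) : ℝ × ℝ) ∈ K.car := h1 ⟨⟨by simp only; linarith, le_rfl⟩, ⟨le_rfl,
    by simp only; linarith⟩⟩
  have b1 : Q.x = K.x := a1.1
  have b2 : Q.x + Q.s = K.x := a2.1
  linarith

theorem famQ_single {K : Hair} (hK : K.car ∈ Comps E) {Bm Bp : ℝ} (h : Bm < Bp)
    (h1 : K.b ≤ Bm) (h2 : Bp ≤ K.t) : FamQ E {K.car} Bm Bp where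
  lt := h
  sub := by simpa using hK
  cpt := by rw [sUnion_singleton]; exact K.isCompact_car
  crs := by
    intro P hP
    rw [mem_singleton_iff.1 hP]
    exact ⟨⟨(K.x, K.b), ⟨rfl, le_rfl, K.hbt.le⟩, h1⟩, ⟨(K.x, K.t), ⟨rfl, K.hbt.le, le_rfl⟩, h2⟩⟩

theorem win_single (hE : QPic E 𝒬 𝓗) {K : Hair} (hK : K.car ∈ Comps E) (Bm Bp : ℝ) :
    Win 𝒬 {K.car} Bm Bp := by
  intro P hP Q hQ hQP
  rw [mem_singleton_iff.1 hP] at hQP
  exact absurd (disjoint_free hE hK hQ) (not_disjoint_iff.2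
    ⟨_, hQP Q.nonempty.some_mem, Q.nonempty.some_mem⟩)

/-- **SINGLEQ**: one free hair with charges. -/
theorem singleQ (hE : QPic E 𝒬 𝓗) {K : Hair} (hK : K.car ∈ Comps E)
    (h : ∀ Bm Bp, FamQ E {K.car} Bm Bp → NullNQ E 𝒬 𝓗 {K.car} Bm Bp) :
    SinOutQ E 𝒬 𝓗 K.car := by
  have hT := single_T (enC_TQ hE) hE.cpt hK
    (fun q hq => capAt_TQ hE fun Q hQ hqQ => Set.disjoint_left.1 (disjoint_free hE hK hQ) hq hqQ)
    (fun Bm Bp h0 h1 h2 N hN hKN ε hε => by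
      obtain ⟨zm, zp, hP⟩ := h Bm Bp (famQ_single hK h0 h1 h2) N hN
        (by rw [sUnion_singleton]; exact hKN) ε hε
      obtain ⟨O, hO, hKO, hkey⟩ := hP.key K.car rfl
      exact ⟨zm, zp, half_of hP.m, half_of hP.p, O, hO, hKO, hkey⟩)
  intro N hN hKN M hM ε hε
  obtain ⟨ζ, hζ, h1, h2⟩ := hT N hN hKN M hM ε hε
  exact ⟨ζ, of_half hζ, h1, h2⟩

/-- the same from the family theorem with windows -/
theorem singleQ' (hE : QPic E 𝒬 𝓗)
    (h : ∀ g Bm Bp, FamQ E g Bm Bp → Win 𝒬 g Bm Bp → NullNQ E 𝒬 𝓗 g Bm Bp)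
    {K : Hair} (hK : K.car ∈ Comps E) : SinOutQ E 𝒬 𝓗 K.car :=
  singleQ hE hK fun Bm Bp hF => h _ Bm Bp hF (win_single hE hK Bm Bp)

end TQ

end Crest.Agent.R105.Snq_925
end

-- ▼ part R105/Adp2_891
section

/-!
Row 105 (S0138, picture with solids): inputs of the STEP from `PicS`, `SOLO`, `FAMQ` (137).
-/

set_option autoImplicit false

open Set Filter MeasureTheory Topology Metric

namespace Crest.Agent.R105.Adp_891

open CF_363 Stp_722 Cq_463 Nal_649 Exs_992 Laq4_744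
open Crest.Agent.R105.Skp2_257 (Comps Lo Up)

variable {E : Set (ℝ × ℝ)} {𝒬 : Set Sqr} {𝓗 : Set Hair}

/-- the setup of 722's STEP -/
theorem setup_any (hP : PicS E 𝒬 𝓗) (hF : SkT1_137.FAMQ E 𝒬 𝓗) {ρ : ℝ} (hρ : 0 < ρ) :
    Spq_722.SetupR Eᶜ E Prod.snd (HrQ E 𝒬 ρ) (ClQ 𝓗) (DQ E 𝒬 𝓗) ρ :=
  Laq5_744.setupR hP.q hρ fun _ _ _ hg hw => Fnc_189.layQ_nal hP.q hg (hF _ _ _ hg hw)

/-- free hairs -/
theorem treat_free (hP : PicS E 𝒬 𝓗) (hF : SkT1_137.FAMQ E 𝒬 𝓗) {K : Hair}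
    (hK : K.car ∈ Comps E) :
    Spq_722.Treat Eᶜ E Prod.snd (ClQ 𝓗) (DQ E 𝒬 𝓗) (Sqr.car '' 𝒬) K.car :=
  Trh_483.treat_hair hP.q hK (Snq_925.singleQ' hP.q hF hK)

/-- **every component of a picture with solids which is not a point can be treated** -/
theorem treat_any (hP : PicS E 𝒬 𝓗) (hS : SkT1_137.SOLO E 𝒬 𝓗) (hF : SkT1_137.FAMQ E 𝒬 𝓗)
    {P : Set (ℝ × ℝ)} (hPC : P ∈ Comps E) (hpt : ∀ p, P ≠ {p}) :
    Spq_722.Treat Eᶜ E Prod.snd (ClQ 𝓗) (DQ E 𝒬 𝓗) (Sqr.car '' 𝒬) P := by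
  rcases hP.comp P hPC with ⟨p, hp⟩ | ⟨K, -, hK⟩ | ⟨Q, hQ, hQP, -⟩
  · exact absurd hp (hpt p)
  · rw [hK] at hPC ⊢
    exact treat_free hP hF hPC
  · rw [SkT1_137.eq_comp hP.q hQ hPC hQP]
    exact Cln_891.treat_solo hP hS hQ

end Crest.Agent.R105.Adp_891
end

-- ▼ part R105/Spq7_722
section

/-!
Row 105 (S0138, picture with solids), task 2456: **STEPQ** (`SkT1_137.STEPQ 20 (1/10)`).
-/

set_option autoImplicit false

open Set Filter Topology Metric MeasureTheory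

namespace Crest.Agent.R105.Spq_722

/-- **STEPQ** : the halving step of a picture with solids. -/
theorem stepQ : SkT1_137.STEPQ 20 (1 / 10) := fun _ _ _ hP hS hF =>
  stepQ_of hP (fun x hx hpt => Adp_891.treat_any hP hS hF ⟨x, hx, rfl⟩ hpt)
    (fun _ hρ => Adp_891.setup_any hP hF hρ)

end Crest.Agent.R105.Spq_722
end

-- ▼ part R105/Jcs2_895
section

/-!
# Row 105, S0138: the join with compactly supported anchors (helper895)

`LIMPc`, `STRPc`, `PLAPc` = 987's `LIMP`, `STRP`, `PLAP` with the additional hypothesis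
`∀ i, HasCompactSupport (a i)` (338's Lemma Y needs it, `attainp_cs` gives it);
`limpc_of`, `strpc_of`, `plapc_of` : the old leaves give the new ones;
`strpc_of_plapc : PLAPc → STRPc StrQ` (987's `strq_adm`);
`s0138_of_cs : LEMAQ StrQ → PLAPc → LIMPc → S0138`.
-/

set_option autoImplicit false

open MeasureTheory Set Filter Topology Metric
open scoped NNReal ENNReal ContDiff

namespace Crest.Agent.R105.Jcs_895

open Crest.AnalysisR Tc_808 Ni_459 Ends_897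
open IfB_641 (X0)
open Cq_463 (Sqr)
open Skp2_257 (Comps)
open Tra_937 (setR toC)
open Pct_185 (PicT)
open Exs_992 (LimOf)
open Ta_937 (sqs hrs)
open SkT1_137 (TFin Carr StrT LEMAQ STEPQ)
open Nal_649 (FamQ)
open SkA_8 (Pk)
open Psq_425 (LimAt PlaLim StrQ StrQs)
open Cdf_377 (NPon)
open SkJ_987

noncomputable section

/-- `STRP` with compactly supported anchors -/
def STRPc (Str : StrT) : Prop :=
  ∀ (U : Set ℂ) (x0 : ℂ → ℝ) (a : ℕ → ℂ → ℝ) (φ : ℂ → ℝ) (F : ℂ → ℂ), Pk Uᶜ x0 a φ F →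
    (∀ i, HasCompactSupport (a i)) →
    InjOn F U → PicT (F '' U)ᶜ → ∀ g Bm Bp, FamQ (PE U F) g Bm Bp → ∀ ψ,
    Str (PE U F) (sqs (F '' U)ᶜ) (hrs (F '' U)ᶜ) g Bm Bp ψ → AdmP U a F ψ

/-- `LIMP` with compactly supported anchors -/
def LIMPc : Prop :=
  ∀ (U : Set ℂ) (x0 : ℂ → ℝ) (a : ℕ → ℂ → ℝ) (φ : ℂ → ℝ) (F : ℂ → ℂ), Pk Uᶜ x0 a φ F →
    (∀ i, HasCompactSupport (a i)) →
    InjOn F U → PicT (F '' U)ᶜ →
    ∀ (S : ℕ → ℝ × ℝ → ℝ) (ψ : ℝ × ℝ → ℝ) (c : Sqr → ℝ) (o : Set (ℝ × ℝ) → ℝ),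
    LimOf (PE U F) (hrs (F '' U)ᶜ) S ψ → (∀ Q, 0 ≤ c Q) →
    (Summable fun Q : sqs (F '' U)ᶜ => c Q.1 ^ 2) →
    (∀ m, ∀ Q ∈ sqs (F '' U)ᶜ, Cq_463.ch (PE U F) univ (S m) Q ≤ c Q) → TFin (PE U F) ψ o →
    (∀ P ∈ Comps (PE U F), (∀ Q ∈ sqs (F '' U)ᶜ, ¬ Q.car ⊆ P) → o P = 0) → AdmP U a F ψ

/-- `PLAP` with compactly supported anchors -/
def PLAPc : Prop :=
  ∀ (U : Set ℂ) (x0 : ℂ → ℝ) (a : ℕ → ℂ → ℝ) (φ : ℂ → ℝ) (F : ℂ → ℂ), Pk Uᶜ x0 a φ F →
    (∀ i, HasCompactSupport (a i)) →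
    InjOn F U → PicT (F '' U)ᶜ → ∀ (f : ℝ × ℝ → ℝ) (o : Set (ℝ × ℝ) → ℝ),
    PlaLim (PE U F) (sqs (F '' U)ᶜ) f → TCont (PE U F) f o → AdmP U a F f




variable {U : Set ℂ} {F : ℂ → ℂ} {x0 φ : ℂ → ℝ} {a : ℕ → ℂ → ℝ} {ψ : ℝ × ℝ → ℝ}
  {g : Set (Set (ℝ × ℝ))}

/-- **stream functions are admissible** (987's `strq_adm`, one picture) -/
theorem strq_adm_c (hU : IsExteriorDomain U) (h : Pk Uᶜ x0 a φ F) (hi : InjOn F U)
    (hPL : ∀ (f : ℝ × ℝ → ℝ) (o : Set (ℝ × ℝ) → ℝ),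
      PlaLim (PE U F) (sqs (F '' U)ᶜ) f → TCont (PE U F) f o → AdmP U a F f)
    {Bm Bp : ℝ} (hg : FamQ (PE U F) g Bm Bp) {o : Set (ℝ × ℝ) → ℝ}
    (hT : TFin (PE U F) ψ o) (hS : StrQs (PE U F) (sqs (F '' U)ᶜ) g ψ) : AdmP U a F ψ := by
  intro i
  have hE := endMap h hU hi
  have hY : IsExteriorDomain ((F '' U)ᶜ)ᶜ := by rw [compl_compl]; exact hE.hV
  have hup : LB (Ta_937.push hE (a i)) := by
    obtain ⟨M, hM⟩ := (h.tta i).q.bdd
    exact LB.of_bdd ⟨M, fun z => hM _⟩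
  have hψb : LB (toC ψ) := by
    obtain ⟨M, hM⟩ := hT.reg.bdd
    exact LB.of_bdd ⟨M, fun z => hM _⟩
  obtain ⟨f, hfc, -, hlim, hpla⟩ := hS.off
  have h1 := strip_null hY hup hψb hg hS.strip
  have h2 := off_null hY hψb hT.nn hT.osc hT.sum hg.sub hg.cpt hfc hlim hpla
    (u := Ta_937.push hE (a i)) fun f o hf ho =>
      (Ta_937.ni_mixed hE (a i) (toC f)).2 (hPL f o hf ho i)
  have h3 : NI (F '' U)ᶜ (Ta_937.push hE (a i)) (toC ψ) := by
    refine measure_mono_null ?_ (measure_union_null h1 h2)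
    rintro p ⟨z, hz, h'⟩
    by_cases hzg : pc (F '' U)ᶜ z ∈ g
    · exact Or.inl ⟨z, ⟨hz, hzg⟩, h'⟩
    · exact Or.inr ⟨z, ⟨hz, hzg⟩, h'⟩
  exact (Ta_937.ni_mixed hE (a i) (toC ψ)).1 h3


/-- the interface of the second half -/
theorem carr_cs {Str : StrT} (h1 : STRPc Str) (h2 : LIMPc) (hU : IsExteriorDomain U)
    (h : Pk Uᶜ x0 a φ F) (hcs : ∀ i, HasCompactSupport (a i)) (hi : InjOn F U)
    (hP : PicT (F '' U)ᶜ) :
    Carr Str (PE U F) (sqs (F '' U)ᶜ) (hrs (F '' U)ᶜ) (AdmP U a F) where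
  el := fun _ _ hT had => el_adm hU h hi hP hT had
  str := fun g Bm Bp hg ψ hψ => h1 U x0 a φ F h hcs hi hP g Bm Bp hg ψ hψ
  lim := fun S ψ c o a1 a2 a3 a4 a5 a6 => h2 U x0 a φ F h hcs hi hP S ψ c o a1 a2 a3 a4 a5 a6

/-- **SQPIC from the leaves, compactly supported anchors** -/
theorem sqPic_of_gen {Str : StrT} {C0 θ : ℝ} (hC0 : 0 ≤ C0) (hθ : 0 < θ) (hA : LEMAQ Str)
    (hST : STEPQ C0 θ) (hL : Exs_992.LIMQ) (h1 : STRPc Str) (h2 : LIMPc) : Top1_8.SqPic := by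
  intro U hU
  have hUc : IsCompact Uᶜ := Ends_897.isCompact_compl hU
  obtain ⟨x0, hx0⟩ := X0.exists hUc
  obtain ⟨a, φ, F, h, hcs⟩ := attainp_cs Uᶜ x0 (by rw [compl_compl]; exact hU) hx0
  have hiP := Uw6_913.picT h
  rw [compl_compl] at hiP
  obtain ⟨hi, hP⟩ := hiP
  have hd := h.hol
  rw [compl_compl] at hd
  obtain ⟨c, hc⟩ := h.inf
  have hC := carr_cs h1 h2 hU h hcs hi hP
  have h0 : hrs (F '' U)ᶜ = ∅ :=
    SkT1_137.hairless hC0 hθ hA hST hL (Ta_937.picS hP) hC.els (hC.elq (Ta_937.picS hP).q)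
  refine ⟨fun z => F z - c, ⟨hd.sub_const c, fun z hz w hw hzw => hi hz hw (by simpa using hzw), ?_⟩,
    fun z hz => ?_⟩
  · have := hc.sub_const c
    rw [sub_self] at this
    refine this.congr fun z => ?_
    ring
  · have e1 : (fun z => F z - c) '' U = (fun w => w - c) '' (F '' U) := by
      rw [image_image]
    have e2 : ((fun z => F z - c) '' U)ᶜ = (fun w => w - c) '' (F '' U)ᶜ := by
      rw [e1]
      exact (image_compl_eq (Homeomorph.subRight c).bijective).symm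
    rw [e2] at hz ⊢
    obtain ⟨w, hw, rfl⟩ := hz
    obtain ⟨d, s, hs, hd⟩ := Ta_937.sq_of_no_hairs hP h0 hw
    refine ⟨d - c, s, hs, ?_⟩
    rw [cc_translate _ _ ⟨w, hw, rfl⟩]
    have e : (fun w => w - c) w + c = w := by simp
    rw [e, hd, sq_translate]



end

end Crest.Agent.R105.Jcs_895
end

-- ▼ part R105/Nie5_909
section

/-!
# Row 105, S0138 (NI frame), node NIEP, part 5 (helper909): the sequence theorem `adm_seq`

For ONE anchor `a i` of the package with `LYi`, `HCi`, `ATNi`: pointwise limits of functions which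
are Lipschitz off finitely many hairs, with bounded energies and bounded charges (`l²`), are
admissible.
-/

set_option autoImplicit false

open MeasureTheory Set Filter Topology Metric
open scoped NNReal ENNReal

namespace Crest.Agent.R105.Nie_909

open Crest.AnalysisR Tc_808 Ni_459 Sqr_185 Ends_897 Plv_626
open Bd_775 (Q en)
open IfB_641 (X0)
open Cq_463 (Sqr QPic)
open CF_363 (Hair g2 SL CFJ CF cut mem_cut isClosed_cut isCompact_cut volume_cut)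
open Skp2_257 (Comps Reg)
open Tra_937 (setR setC toC Uni)
open Pct_185 (PicT Sol)
open Stp_722 (OscLe)
open Ta_937 (sqs hrs corE)
open SkA_8 (Pk)
open SkJ_987 (PE AdmP endMap TCont)

noncomputable section

variable {U : Set ℂ} {F : ℂ → ℂ} {x0 φ : ℂ → ℝ} {a : ℕ → ℂ → ℝ} {ψ : ℝ × ℝ → ℝ}

open Classical in
/-- charges of the squares as charges of the components -/
def cZ (hE : EndMap U (F '' U) F) (hP : PicT (F '' U)ᶜ) (c : Sqr → ℝ) (K : Cmp Uᶜ) : ℝ :=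
  if hw : 0 < wd (corE hE K).1 then c ((Ta_937.solE hP).symm ⟨corE hE K, hw⟩).1 else 0

theorem cZ_nonneg (hE : EndMap U (F '' U) F) (hP : PicT (F '' U)ᶜ) {c : Sqr → ℝ}
    (hc : ∀ Q, 0 ≤ c Q) (K : Cmp Uᶜ) : 0 ≤ cZ hE hP c K := by
  unfold cZ
  split_ifs
  · exact hc _
  · exact le_rfl

theorem wd_nonneg {E : Set ℂ} (hE : IsCompact E) (L : Cmp E) : 0 ≤ wd L.1 := by
  have := lo_le_hi (L.isCompact hE) L.nonempty
  unfold wd; linarith

theorem cZ_sum (hE : EndMap U (F '' U) F) (hP : PicT (F '' U)ᶜ) {c : Sqr → ℝ} {P : Set (Cmp Uᶜ)}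
    (hPw : ∀ K ∈ P, 0 < wd (corE hE K).1) :
    ∑' K : P, ENNReal.ofReal (cZ hE hP c K.1 ^ 2) ≤
      ∑' Q : sqs (F '' U)ᶜ, ENNReal.ofReal (c Q.1 ^ 2) := by
  have h1 : ∀ K : P, ENNReal.ofReal (cZ hE hP c K.1 ^ 2) =
      (fun Q : sqs (F '' U)ᶜ => ENNReal.ofReal (c Q.1 ^ 2))
        ((Ta_937.solE hP).symm ⟨corE hE K.1, hPw K.1 K.2⟩) := by
    intro K
    unfold cZ
    rw [dif_pos (hPw K.1 K.2)]
  rw [tsum_congr h1]
  refine ENNReal.tsum_comp_le_tsum_of_injective (f := fun K : P =>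
    (Ta_937.solE hP).symm ⟨corE hE K.1, hPw K.1 K.2⟩) ?_ _
  intro K K' h
  have h2 := (Ta_937.solE hP).symm.injective h
  have h3 : corE hE K.1 = corE hE K'.1 := congrArg Subtype.val h2
  exact Subtype.ext ((corE hE).injective h3)

/-- components whose picture meets one of the hairs -/
def Dn (hE : EndMap U (F '' U) F) (J : Finset Hair) : Set (Cmp Uᶜ) :=
  {K | ¬ Disjoint (setR (corE hE K).1) (cut J)}

theorem Dn_countable (hE : EndMap U (F '' U) F) {J : Finset Hair} (hJ : cut J ⊆ PE U F) :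
    (Dn hE J).Countable := by
  have h1 : Dn hE J ⊆ ⋃ H ∈ J, {K | (H.car ∩ setR (corE hE K).1).Nonempty} := by
    intro K hK
    obtain ⟨p, hp, hpc⟩ := not_disjoint_iff.1 hK
    obtain ⟨H, hH, hpH⟩ := mem_cut.1 hpc
    exact mem_iUnion₂.2 ⟨H, hH, p, hpH, hp⟩
  refine Countable.mono h1 (J.countable_toSet.biUnion fun H hH => ?_)
  refine Set.Subsingleton.countable fun K hK K' hK' => ?_
  have hs : H.car ⊆ setR (F '' U)ᶜ := fun p hp => hJ (mem_cut.2 ⟨H, hH, hp⟩)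
  have hc : IsPreconnected H.car := (car_convex H).isPreconnected
  have h2 := Ta_937.sub_cmp hs hc hK
  have h3 := Ta_937.sub_cmp hs hc hK'
  obtain ⟨p, hp, -⟩ := hK
  exact (corE hE).injective (Ta_937.cmp_unique (h2 hp) (h3 hp))

/-- points of `L_t` off `Y` are at level `t` -/
theorem eq_of_Lv (h : Pk Uᶜ x0 a φ F) (i : ℕ) {t : ℝ} {z : ℂ} (hz : z ∈ U)
    (hL : z ∈ Lv Uᶜ (fun z => x0 z + a i z) t) : x0 z + a i z = t := by
  have hzY : z ∉ Uᶜ := fun h => h hz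
  have hAl := Nip_31.ll_x0 h.hx (h.tta i)
  have hAb := Nip_31.lb_x0 h.hx (h.tta i)
  have h6 := hL.1
  have h7 := hL.2
  rw [Nip_31.lo_eq h.hY hAl hAb hzY] at h6
  rw [Nip_31.up_eq h.hY hAl hAb hzY] at h7
  exact le_antisymm h6 h7

/-- **sequence theorem** for the anchor `a i` -/
theorem adm_seq (hU : IsExteriorDomain U) (h : Pk Uᶜ x0 a φ F) (hi : InjOn F U)
    (hP : PicT (F '' U)ᶜ) (i : ℕ) (hLY : LYi U x0 φ (a i) F) (hHC : HCi U φ (a i))
    (hAT : ATNi U x0 (a i) F)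
    {g : ℕ → ℝ × ℝ → ℝ} {J : ℕ → Finset Hair} {M : ℕ → ℝ} (hJ : ∀ n, cut (J n) ⊆ PE U F)
    (hSL : ∀ n, SL (univ \ cut (J n)) (M n) (g n)) (hg : ∀ n, Reg (PE U F) (g n))
    (hlim : ∀ p ∉ PE U F, Tendsto (fun n => g n p) atTop (𝓝 (ψ p)))
    {c : ℕ → Sqr → ℝ} (hc0 : ∀ n Q, 0 ≤ c n Q) {C : ℝ≥0∞} (hC : C ≠ ∞)
    (hcs : ∀ n, ∑' Q : sqs (F '' U)ᶜ, ENNReal.ofReal (c n Q.1 ^ 2) ≤ C)
    (hch : ∀ n, ∀ Q ∈ sqs (F '' U)ᶜ, Cq_463.ch (PE U F) univ (g n) Q ≤ c n Q)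
    {M' : ℝ} (hen : ∀ n, ∫ p in (PE U F)ᶜ, g2 (g n) p ≤ M')
    (hfb : LB (fun z => toC ψ (F z))) (hfc : ∀ z ∉ Uᶜ, ContinuousAt (fun z => toC ψ (F z)) z)
    (hfs : Summable fun K : Cmp Uᶜ => osc Uᶜ (fun z => toC ψ (F z)) K.1 ^ 2) :
    NI Uᶜ (a i) (fun z => toC ψ (F z)) := by
  have hE := endMap h hU hi
  have hF := uni_of hU h hi hP
  have hwd : ∀ K : Cmp Uᶜ, osc Uᶜ φ K.1 = wd (corE hE K).1 := osc_wd hU h hi hP
  have hPw : ∀ K ∈ JP Uᶜ φ, 0 < wd (corE hE K).1 := fun K hK =>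
    lt_of_le_of_ne (wd_nonneg hP.cpt _) fun h0 => hK ((hwd K).trans h0.symm)
  have hFc : ContinuousOn F (Uᶜ)ᶜ := h.hol.continuousOn
  refine nieG h.hY h.hx (h.tta i) (h.swd i) hfb hfc hfs (P := JP Uᶜ φ) h.tt.countable
    (X := fun z => (F z).re) (y := fun z => (F z).im)
    (Complex.continuous_re.comp_continuousOn hFc) (Complex.continuous_im.comp_continuousOn hFc)
    (smv_re hU h hi hP i) hLY (c := fun n => cZ hE hP (c n))
    (fun n K => cZ_nonneg hE hP (hc0 n) K) hC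
    (fun n => (cZ_sum hE hP hPw).trans (hcs n)) (b := fun n z => toC (g n) (F z)) ?_ ?_
    (M := ENNReal.ofReal M') ENNReal.ofReal_ne_top ?_ ?_ ?_
  · intro n
    exact (Ta_937.q_comp hE hF (reg_q (hg n))).loc
  · intro z hz
    rw [notMem_compl_iff] at hz
    have h1 : ((F z).re, (F z).im) ∉ PE U F := fun hc => hc (mem_image_of_mem F hz)
    exact hlim _ h1
  · intro n
    rw [en_pull hE hF (hg n)]
    exact ENNReal.ofReal_le_ofReal (hen n)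
  · intro n
    have hcnt := Dn_countable hE (hJ n)
    have h1 : ∀ᵐ t : ℝ, t ∉ (fun K : Cmp Uᶜ => Ni_459.up Uᶜ (fun z => x0 z + a i z) (Nip_31.pt K)) '' Dn hE (J n) :=
      (hcnt.image _).ae_notMem volume
    filter_upwards [h1] with t ht z hz
    obtain ⟨⟨hzL, hzY⟩, hzS⟩ := hz
    set K : Cmp Uᶜ := Cmp.of hzY with hK
    have hzK : z ∈ K.1 := mem_connectedComponentIn hzY
    have h0 : osc Uᶜ φ K.1 = 0 := by
      by_contra hne
      exact hzS ⟨K.1, ⟨K, hne, rfl⟩, hzK⟩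
    refine lipAt_flat hE (K := K) ((hwd K).symm.trans h0) (hSL n) ?_ _ hzK
    by_contra hd
    refine ht ⟨K, hd, ?_⟩
    have h2 := hHC K h0
    rw [← Nip_31.osp_eq h.hY (h.tta i), ← Nip_31.osp_x0 h.hx, Nip_31.osp] at h2
    have hpt : Nip_31.pt K ∈ connectedComponentIn Uᶜ z := Nip_31.pt_mem K
    have h3 := up_congr_cc (u := fun z => x0 z + a i z) hzY hpt
    have h4 := lo_congr_cc (u := fun z => x0 z + a i z) hzY hpt
    have h5 := hzL.1
    have h6 := hzL.2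
    show Ni_459.up Uᶜ (fun z => x0 z + a i z) (Nip_31.pt K) = t
    linarith
  · intro n
    filter_upwards [hAT] with t ht K hK hKL
    have hw := hPw K hK
    set Q := (Ta_937.solE hP).symm ⟨corE hE K, hw⟩ with hQ
    have h1 : cZ hE hP (c n) K = c n Q.1 := by
      unfold cZ; rw [dif_pos hw]
    rw [h1]
    have h2 : Q.1.car ⊆ setR (corE hE K).1 := by
      have := Ta_937.car_solE hP Q
      rwa [hQ, Equiv.apply_symm_apply] at this
    refine chLe_sol hE (hg n).bdd (hch n Q.1 Q.2) fun δ hδ => ?_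
    obtain ⟨O, hO, hPO, hH⟩ := ht Q.1 Q.2 (setR (corE hE K).1) (Ta_937.mem_comps.2 ⟨_, rfl⟩) h2 δ hδ
    exact ⟨O, hO, hPO, fun z hz hzL hzO => hH z hz hzO (eq_of_Lv h i hz hzL)⟩

end

end Crest.Agent.R105.Nie_909
end

-- ▼ part R105/Nie6_909

/-!
# Row 105, S0138 (NI frame), node NIEP, part 6 (helper909): `LIMP` anchor by anchor
-/

set_option autoImplicit false

open MeasureTheory Set Filter Topology Metric
open scoped NNReal ENNReal

namespace Crest.Agent.R105.Nie_909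

open Crest.AnalysisR Tc_808 Ni_459 Sqr_185 Ends_897 Plv_626
open Bd_775 (Q en)
open IfB_641 (X0)
open Cq_463 (Sqr QPic)
open CF_363 (Hair g2 SL CFJ CF cut mem_cut isClosed_cut isCompact_cut volume_cut)
open Skp2_257 (Comps Reg)
open Tra_937 (setR setC toC Uni)
open Pct_185 (PicT Sol)
open Stp_722 (OscLe)
open Ta_937 (sqs hrs corE)
open SkA_8 (Pk)
open SkJ_987 (PE AdmP endMap TCont)
open Exs_992 (LimOf)
open SkT1_137 (TFin)

noncomputable section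

variable {U : Set ℂ} {F : ℂ → ℂ} {x0 φ : ℂ → ℝ} {a : ℕ → ℂ → ℝ} {ψ : ℝ × ℝ → ℝ}

theorem int_g2 {E : Set ℂ} (f : ℝ × ℝ → ℝ) :
    ∫ w in Eᶜ, en (toC f) w = ∫ p in (setR E)ᶜ, g2 f p := by
  rw [← Tra_937.integral_toC, ← Tra_937.setR_compl, Tra_937.setC_setR]
  congr 1
  funext w
  exact Ta_937.en_toC'' f w

/-- energies stay bounded -/
theorem en_bdd {E : Set ℂ} (hE : IsClosed E) {S : ℕ → ℝ × ℝ → ℝ} (hS : ∀ m, Reg (setR E) (S m))
    (hψ : Reg (setR E) ψ)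
    (hen : Tendsto (fun m => ∫ p in (setR E)ᶜ, g2 (fun q => S m q - ψ q) p) atTop (𝓝 0)) :
    ∃ M' : ℝ, ∀ m, ∫ p in (setR E)ᶜ, g2 (S m) p ≤ M' := by
  obtain ⟨B, hB⟩ := hen.bddAbove_range
  refine ⟨2 * B + 2 * ∫ p in (setR E)ᶜ, g2 ψ p, fun m => ?_⟩
  have h1 : ∫ p in (setR E)ᶜ, g2 (fun q => S m q - ψ q) p ≤ B := hB ⟨m, rfl⟩
  rw [← int_g2] at h1 ⊢
  rw [← int_g2]
  have q1 : Q E (toC (S m)) := Ta_937.q_toC (hS m)
  have q2 : Q E (toC ψ) := Ta_937.q_toC hψ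
  have q3 : Q E (toC (fun q => S m q - ψ q)) := q1.sub hE q2
  have h2 : ∫ w in Eᶜ, en (toC (S m)) w ≤
      ∫ w in Eᶜ, (2 * en (toC (fun q => S m q - ψ q)) w + 2 * en (toC ψ) w) := by
    refine integral_mono_ae q1.fin ((q3.fin.const_mul 2).add (q2.fin.const_mul 2)) ?_
    filter_upwards [q3.ae_diff hE, q2.ae_diff hE] with w h3 h4
    have h5 := Bd_775.en_add_le h3 h4
    have h6 : (fun z => toC (fun q => S m q - ψ q) z + toC ψ z) = toC (S m) := by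
      funext z
      show (S m (z.re, z.im) - ψ (z.re, z.im)) + ψ (z.re, z.im) = S m (z.re, z.im)
      ring
    rw [h6] at h5
    exact h5
  refine h2.trans ?_
  rw [integral_add (q3.fin.const_mul 2) (q2.fin.const_mul 2), integral_const_mul,
    integral_const_mul]
  linarith

/-- **`LIMP` for one anchor** -/
theorem limp_i (hU : IsExteriorDomain U) (h : Pk Uᶜ x0 a φ F) (hi : InjOn F U)
    (hP : PicT (F '' U)ᶜ) (i : ℕ) (hLY : LYi U x0 φ (a i) F) (hHC : HCi U φ (a i))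
    (hAT : ATNi U x0 (a i) F)
    {S : ℕ → ℝ × ℝ → ℝ} {c : Sqr → ℝ} {o : Set (ℝ × ℝ) → ℝ}
    (hL : LimOf (PE U F) (hrs (F '' U)ᶜ) S ψ) (hc0 : ∀ Q, 0 ≤ c Q)
    (hcs : Summable fun Q : sqs (F '' U)ᶜ => c Q.1 ^ 2)
    (hch : ∀ m, ∀ Q ∈ sqs (F '' U)ᶜ, Cq_463.ch (PE U F) univ (S m) Q ≤ c Q)
    (hT : TFin (PE U F) ψ o) : NI Uᶜ (a i) (fun z => toC ψ (F z)) := by
  have hE := endMap h hU hi
  have hF := uni_of hU h hi hP
  have hsub : ∀ K ∈ hrs (F '' U)ᶜ, K.car ⊆ PE U F := fun K hK => hK.1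
  have hS : ∀ m, Reg (PE U F) (S m) := by
    obtain ⟨A, hA, hAS⟩ := hL.supp
    obtain ⟨C, hC⟩ := hL.bdd
    exact fun m => reg_cfj hsub (hL.cfj m) (HasCompactSupport.intro hA (hAS m)) ⟨C, hC m⟩
  choose J hJ M C' hM hSL hb using hL.cfj
  obtain ⟨M', hM'⟩ := en_bdd hP.cpt.isClosed hS hL.reg hL.en
  have hf : TT Uᶜ (fun z => toC ψ (F z)) := Ta_937.tt_comp hE hF (SkJ_987.tt_of_TFin hT)
  refine adm_seq hU h hi hP i hLY hHC hAT (g := S) (J := J) (M := M) ?_ hSL hS ?_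
    (c := fun _ => c) (fun _ => hc0) hcs.tsum_ofReal_ne_top (fun _ => le_rfl) hch hM'
    (Nip_31.tt_lb hf) (fun z hz => Nip_31.contAt h.hY hf.q.loc hz) hf.sum
  · intro n p hp
    obtain ⟨K, hK, hpK⟩ := mem_cut.1 hp
    exact hsub K (hJ n K hK) hpK
  · intro p hp
    have h1 := hL.eq {p} isCompact_singleton (singleton_subset_iff.2 hp)
    exact tendsto_const_nhds.congr' (h1.mono fun m hm => (hm p rfl).symm)

end

end Crest.Agent.R105.Nie_909
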