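import Mathlib
import Crest.Agent.R105.Sep1_590
import Crest.Agent.R105.LmY0_338
import Crest.Agent.R105.Nip5_31
import Crest.Agent.R105.Uw4_913
import Crest.Agent.R105.Uni3_659
import Crest.Agent.R105.Nit1_39
import Crest.Agent.R202.Miranda
import Crest.Agent.R105.Thin1_891
import Crest.Agent.R096.Jn1_890
import Crest.Agent.R193.P_Comp
import Crest.Agent.R105.Thin1_12
import Crest.Agent.R105.Elf4_600
import Crest.Agent.R105.Ni2_459
import Crest.Agent.R105.LmS2_392
import Crest.Agent.R105.Coa4_392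
import Crest.Agent.R105.Nip8_31
import Crest.Agent.R105.Sk3a_157
import Crest.Agent.R105.Pct5_185
import Crest.Agent.R105.Nip9_31
import Crest.Agent.R105.SkA2_8
import Crest.Agent.R105.Nie4_909
import Crest.Agent.R105.Jex1_987
import Crest.Agent.R105.Nie6_909_Mg

-- ▼ part R105/LmY1_338
section

/-!
# Row 105, S0138, Lemma Y (helper338), part 1: cut functions along a level set

`L` = level set `L_t` (closed, saturated for the compact `Y`, inside the strip `|re| + 1 ≤ X`).
* `Good L X p` : `p ∈ H`, `H` compact connected, `H ∩ L ⊆ {p}`, `H` joins `re ≤ -X` to `X ≤ re`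
* `cut` : for a good `p` there is a smooth `χ`, locally constant near `Y`, near `L \ ball p r` and
  near a given compact `Z`, `= 1` near the upper end of `L`, `= 0` near the lower end
* `const_on`, `bump_in` : elementary topology
-/

set_option autoImplicit false

namespace Crest.Agent.R105.LmY_338

open Set Topology Metric Filter
open scoped ContDiff Manifold



theorem cut {Y L H Z : Set ℂ} {p : ℂ} {r R X : ℝ} (hL : Lev Y L X) (hR : 0 < R)
    (hpY : Disjoint (ball p r) Y) (hZ : IsCompact Z) (hZY : Disjoint Z Y) (hHc : IsCompact H)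
    (hHp : IsPreconnected H) (hHL : H ∩ L ⊆ ball p r) (hHZ : Disjoint H Z)
    (hHim : ∀ q ∈ H, |q.im| ≤ R) (hYim : ∀ q ∈ Y, |q.im| < R) (_hZim : ∀ q ∈ Z, |q.im| < R)
    (hpim : ∀ q ∈ ball p r, |q.im| < R)
    (hZre : ∀ q ∈ Z, |q.re| ≤ X) (hH1 : ∃ q ∈ H, q.re ≤ -X) (hH2 : ∃ q ∈ H, X ≤ q.re) :
    ∃ f : ℂ → ℝ, Cut Y L R p r f ∧ ∀ z ∈ Z, ∀ᶠ w in 𝓝 z, f w = f z := by
  set K₀ : Set ℂ := (L \ ball p r) ∩ {q | |q.im| ≤ R} with hK₀
  have hcim : IsClosed {q : ℂ | |q.im| ≤ R} :=
    isClosed_le (continuous_abs.comp Complex.continuous_im) continuous_const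
  have hK₀cl : IsClosed K₀ := (hL.cL.sdiff isOpen_ball).inter hcim
  have hK₀c : IsCompact K₀ := by
    refine Metric.isCompact_of_isClosed_isBounded hK₀cl ?_
    refine (isBounded_iff_forall_norm_le.2 ⟨X + R, fun q hq => ?_⟩)
    have h1 := hL.bdd q hq.1.1
    have h2 : |q.im| ≤ R := hq.2
    have := Complex.norm_le_abs_re_add_abs_im q
    linarith
  set K : Set ℂ := K₀ ∪ Z with hK
  have hKc : IsCompact K := hK₀c.union hZ
  have hHK : Disjoint H K := by
    rw [hK, disjoint_union_right]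
    refine ⟨disjoint_left.2 fun x hx hx' => hx'.1.2 (hHL ⟨hx, hx'.1.1⟩), hHZ⟩
  have hKre : ∀ q ∈ K, |q.re| ≤ X := by
    rintro q (hq | hq)
    · linarith [hL.bdd q hq.1.1]
    · exact hZre q hq
  obtain ⟨K₁, h1, h2, h3, h4, h5⟩ := Sep_590.exists_split hKc (M := K ∩ {q | R ≤ q.im})
    (N := {q | q.im ≤ -R})
    (hKc.inter_right (isClosed_le continuous_const Complex.continuous_im)) inter_subset_left
    (isClosed_le Complex.continuous_im continuous_const) (by
      intro z hz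
      rw [disjoint_left]
      intro y hy hyB
      obtain ⟨x, hx1, hx2⟩ := Sep_590.cross (L := X) (M := R) hHc (Thin_12.isCompact_cc hKc z) hHp
        isPreconnected_connectedComponentIn hHim
        (fun q hq => hKre q (connectedComponentIn_subset _ _ hq)) hH1 hH2
        ⟨y, hy, hyB⟩ ⟨z, mem_connectedComponentIn hz.1, hz.2⟩
      exact disjoint_left.1 hHK hx1 (connectedComponentIn_subset _ _ hx2))
  -- the two closed sets
  set T₀ : Set ℂ := K₁ ∪ L ∩ {q | R ≤ q.im} with hT₀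
  set B₀ : Set ℂ := K \ K₁ ∪ L ∩ {q | q.im ≤ -R} with hB₀
  have hT₀c : IsClosed T₀ := h1.isClosed.union
    (hL.cL.inter (isClosed_le continuous_const Complex.continuous_im))
  have hB₀c : IsClosed B₀ := h2.isClosed.union
    (hL.cL.inter (isClosed_le Complex.continuous_im continuous_const))
  have hballim : ∀ q ∈ L, R ≤ |q.im| → q ∉ ball p r := fun q _ h' hb => absurd h' (not_le.2 (hpim q hb))
  have hdTB : Disjoint T₀ B₀ := by
    rw [disjoint_left]
    rintro x (hx | hx) (hx' | hx')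
    · exact hx'.2 hx
    · exact disjoint_left.1 h5 hx hx'.2
    · -- `x ∈ K`, `R ≤ im x`
      exact hx'.2 (h4 ⟨hx'.1, hx.2⟩)
    · have e1 : R ≤ x.im := hx.2
      have e2 : x.im ≤ -R := hx'.2
      linarith
  -- splitting `Y`
  have hYno : ∀ z ∈ Y ∩ T₀, Disjoint (connectedComponentIn Y z) B₀ := by
    rintro z ⟨hzY, hzT⟩
    rw [disjoint_left]
    intro y hy hyB
    have hyY : y ∈ Y := connectedComponentIn_subset _ _ hy
    have hzK : z ∈ K₁ := by
      rcases hzT with h | h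
      · exact h
      · have h' : R ≤ z.im := h.2
        have := hYim z hzY
        rw [abs_lt] at this
        linarith [this.2]
    have hzL : z ∈ L := by
      rcases h3 hzK with h | h
      · exact h.1.1
      · exact absurd hzY (disjoint_left.1 hZY h)
    have hccL : connectedComponentIn Y z ⊆ L := hL.sat z hzL
    have hccK : connectedComponentIn Y z ⊆ K := fun x hx => by
      have hxY := connectedComponentIn_subset _ _ hx
      exact Or.inl ⟨⟨hccL hx, fun hb => disjoint_left.1 hpY hb hxY⟩, (hYim x hxY).le⟩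
    have hyK : y ∈ K \ K₁ := by
      rcases hyB with h | h
      · exact h
      · have h' : y.im ≤ -R := h.2
        have := hYim y hyY
        rw [abs_lt] at this
        linarith [this.1]
    rcases (isPreconnected_iff_subset_of_disjoint_closed.1
      (isPreconnected_connectedComponentIn (F := Y) (x := z))) K₁ (K \ K₁) h1.isClosed h2.isClosed
      (fun x hx => by
        by_cases hxK : x ∈ K₁
        · exact Or.inl hxK
        · exact Or.inr ⟨hccK hx, hxK⟩) (by
        ext x; simp only [mem_inter_iff, Set.mem_sdiff, mem_empty_iff_false, iff_false]; tauto) with h | h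
    · exact hyK.2 (h hy)
    · exact (h (mem_connectedComponentIn hzY)).2 hzK
  obtain ⟨Y₁, g1, g2, g3, g4, g5⟩ := Sep_590.exists_split hL.cY (M := Y ∩ T₀) (N := B₀)
    (hL.cY.inter_right hT₀c) inter_subset_left hB₀c hYno
  obtain ⟨θ, hθ, hθ01, hθ1, hθ0⟩ := Sep_590.exists_smooth (T := T₀ ∪ Y₁) (B := B₀ ∪ (Y \ Y₁))
    (hT₀c.union g1.isClosed) (hB₀c.union g2.isClosed) (by
      refine disjoint_union_left.2 ⟨disjoint_union_right.2 ⟨hdTB, ?_⟩,
        disjoint_union_right.2 ⟨g5, disjoint_sdiff_right⟩⟩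
      rw [disjoint_left]
      exact fun x hx hx' => hx'.2 (g4 ⟨hx'.1, hx⟩))
  have key1 : ∀ z ∈ T₀ ∪ Y₁, ∀ᶠ w in 𝓝 z, θ w = θ z := fun z hz => by
    filter_upwards [hθ1 z hz] with w hw
    rw [hw, (hθ1 z hz).self_of_nhds]
  have key0 : ∀ z ∈ B₀ ∪ (Y \ Y₁), ∀ᶠ w in 𝓝 z, θ w = θ z := fun z hz => by
    filter_upwards [hθ0 z hz] with w hw
    rw [hw, (hθ0 z hz).self_of_nhds]
  have hKTB : ∀ z ∈ K, z ∈ T₀ ∨ z ∈ B₀ := fun z hz => by
    by_cases hz1 : z ∈ K₁
    · exact Or.inl (Or.inl hz1)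
    · exact Or.inr (Or.inl ⟨hz, hz1⟩)
  refine ⟨θ, ⟨⟨hθ, ?_, ?_, ?_⟩, hθ01, ?_⟩, ?_⟩
  · intro z hz
    by_cases hz1 : z ∈ Y₁
    · exact key1 z (Or.inr hz1)
    · exact key0 z (Or.inr ⟨hz, hz1⟩)
  · intro z hz hzR
    exact hθ1 z (Or.inl (Or.inr ⟨hz, hzR⟩))
  · intro z hz hzR
    exact hθ0 z (Or.inl (Or.inr ⟨hz, hzR⟩))
  · intro z hz hzb
    by_cases h6 : |z.im| ≤ R
    · rcases hKTB z (Or.inl ⟨⟨hz, hzb⟩, h6⟩) with h | h
      · exact key1 z (Or.inl h)
      · exact key0 z (Or.inl h)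
    · rcases lt_abs.1 (not_le.1 h6) with h | h
      · exact key1 z (Or.inl (Or.inr ⟨hz, h.le⟩))
      · exact key0 z (Or.inl (Or.inr ⟨hz, by simp only [mem_ofPred_eq]; linarith⟩))
  · intro z hz
    rcases hKTB z (Or.inr hz) with h | h
    · exact key1 z (Or.inl h)
    · exact key0 z (Or.inl h)

end Crest.Agent.R105.LmY_338
end

-- ▼ part R105/LmY2_338
section

/-!
# Row 105, S0138, Lemma Y (helper338), part 2: end values, antisymmetry of the order
-/

set_option autoImplicit false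

namespace Crest.Agent.R105.LmY_338

open Set Topology Metric Filter MeasureTheory
open scoped ContDiff Manifold

lemma fd_zero {f : ℂ → ℝ} {z : ℂ} (h : ∀ᶠ w in 𝓝 z, f w = f z) : fderiv ℝ f z = 0 := by
  have : f =ᶠ[𝓝 z] fun _ => f z := h
  rw [this.fderiv_eq, fderiv_fun_const]; rfl

lemma En.mono {Y L : Set ℂ} {R R' : ℝ} {f : ℂ → ℝ} (h : En Y L R f) (hR : R ≤ R') : En Y L R' f :=
  ⟨h.sm, h.lc, fun z hz h' => h.top z hz (hR.trans h'), fun z hz h' => h.bot z hz (by linarith)⟩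

lemma Cut.mono {Y L : Set ℂ} {R R' : ℝ} {p : ℂ} {r : ℝ} {f : ℂ → ℝ} (h : Cut Y L R p r f)
    (hR : R ≤ R') : Cut Y L R' p r f := ⟨h.toEn.mono hR, h.c01, h.cst⟩

lemma En.cst_out {Y L : Set ℂ} {R : ℝ} {f : ℂ → ℝ} (h : En Y L R f) {z : ℂ} (hz : z ∈ L)
    (hR : R ≤ |z.im|) : ∀ᶠ w in 𝓝 z, f w = f z := by
  rcases le_abs.1 hR with h' | h'
  · have := h.top z hz h'
    filter_upwards [this] with w hw
    rw [hw, this.self_of_nhds]
  · have := h.bot z hz (by linarith)
    filter_upwards [this] with w hw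
    rw [hw, this.self_of_nhds]

/-- outside a ball the level set is above or below `R` -/
lemma Lev.im_of_norm {Y L : Set ℂ} {X R S : ℝ} (hL : Lev Y L X) (hS : X + R ≤ S) {z : ℂ}
    (hz : z ∈ L) (h : S < ‖z‖) : R ≤ |z.im| := by
  have h1 := hL.bdd z hz
  have h2 := Complex.norm_le_abs_re_add_abs_im z
  linarith

/-- cut-off functions -/
lemma exists_cutoff (S : ℝ) : ∃ κ : ℂ → ℝ, ContDiff ℝ ∞ κ ∧ HasCompactSupport κ ∧
    (∀ z, 0 ≤ κ z ∧ κ z ≤ 1) ∧ (∀ z, ‖z‖ ≤ S → ∀ᶠ w in 𝓝 z, κ w = 1) := by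
  obtain ⟨κ, h1, h2, h3, h4⟩ := Sep_590.exists_smooth (T := closedBall (0 : ℂ) S)
    (B := (ball (0 : ℂ) (S + 1))ᶜ) isClosed_closedBall isOpen_ball.isClosed_compl (by
      rw [disjoint_compl_right_iff_subset]
      exact closedBall_subset_ball (by linarith))
  refine ⟨κ, h1, HasCompactSupport.intro (isCompact_closedBall (0 : ℂ) (S + 1)) fun z hz => ?_, h2,
    fun z hz => h3 z (by simpa using hz)⟩
  exact (h4 z fun hb => hz (ball_subset_closedBall hb)).self_of_nhds

section Int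

variable {Y L : Set ℂ} {X : ℝ} {m σ : Measure ℂ} {e : ℂ → ℂ} {y : ℂ → ℝ}

lemma Slc.ae_mem (hS : Slc Y L X m σ e y) : ∀ᵐ z ∂m, z ∈ L \ Y := by
  rw [ae_iff]; exact hS.mL

lemma tau_eq (g : ℂ → ℝ) (e : ℂ → ℂ) (z : ℂ) :
    fderiv ℝ g z (e z) = fderiv ℝ g z 1 * (e z).re + fderiv ℝ g z Complex.I * (e z).im := by
  have h : e z = (e z).re • (1 : ℂ) + (e z).im • Complex.I := by
    simp
  conv_lhs => rw [h]
  rw [map_add, map_smul, map_smul, smul_eq_mul, smul_eq_mul]; ring

lemma Slc.tau_le (hS : Slc Y L X m σ e y) (g : ℂ → ℝ) (z : ℂ) :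
    |fderiv ℝ g z (e z)| ≤ ‖fderiv ℝ g z‖ := by
  have h1 := (fderiv ℝ g z).le_opNorm (e z)
  rw [Real.norm_eq_abs] at h1
  calc _ ≤ ‖fderiv ℝ g z‖ * ‖e z‖ := h1
    _ ≤ ‖fderiv ℝ g z‖ * 1 := mul_le_mul_of_nonneg_left (hS.e1 z) (norm_nonneg _)
    _ = _ := mul_one _

lemma Slc.tau_meas (hS : Slc Y L X m σ e y) {g : ℂ → ℝ} (hg : ContDiff ℝ ∞ g) :
    Measurable fun z => fderiv ℝ g z (e z) := by
  have h1 : Continuous (fderiv ℝ g) := hg.continuous_fderiv (by simp)
  have h2 : Measurable fun z => fderiv ℝ g z 1 :=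
    ((ContinuousLinearMap.apply ℝ ℝ (1 : ℂ)).continuous.comp h1).measurable
  have h3 : Measurable fun z => fderiv ℝ g z Complex.I :=
    ((ContinuousLinearMap.apply ℝ ℝ Complex.I).continuous.comp h1).measurable
  simp_rw [tau_eq]
  exact (h2.mul (Complex.measurable_re.comp hS.em)).add (h3.mul (Complex.measurable_im.comp hS.em))

lemma Slc.finball (hS : Slc Y L X m σ e y) (R : ℝ) : IsFiniteMeasure (m.restrict (closedBall 0 R)) :=
  ⟨by rw [Measure.restrict_apply_univ]; exact hS.mfin R⟩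

/-- bounded functions, supported (on `L \ Y`) in a ball, are integrable -/
lemma Slc.int_of_bdd (hS : Slc Y L X m σ e y) {F : ℂ → ℝ} (hF : AEStronglyMeasurable F m) {B R : ℝ}
    (hB : ∀ᵐ z ∂m, ‖z‖ ≤ R → |F z| ≤ B) (h0 : ∀ᵐ z ∂m, R < ‖z‖ → F z = 0) : Integrable F m := by
  have := hS.finball R
  have h1 : IntegrableOn (fun _ => B) (closedBall (0 : ℂ) R) m := integrable_const B
  have h2 : Integrable ((closedBall (0 : ℂ) R).indicator fun _ => B) m :=
    h1.integrable_indicator isClosed_closedBall.measurableSet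
  refine h2.mono' hF ?_
  filter_upwards [hB, h0] with z h3 h4
  by_cases hz : ‖z‖ ≤ R
  · rw [indicator_of_mem (by simpa using hz)]
    exact h3 hz
  · rw [indicator_of_notMem (by simpa using hz), h4 (not_le.1 hz)]
    simp

lemma Slc.int_tau (hS : Slc Y L X m σ e y) {g : ℂ → ℝ} (hg : ContDiff ℝ ∞ g) {R : ℝ}
    (h0 : ∀ z ∈ L \ Y, R < ‖z‖ → fderiv ℝ g z = 0) :
    Integrable (fun z => fderiv ℝ g z (e z)) m := by
  have h1 : Continuous (fderiv ℝ g) := hg.continuous_fderiv (by simp)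
  obtain ⟨B, hB⟩ := (isCompact_closedBall (0 : ℂ) R).exists_bound_of_continuousOn h1.continuousOn
  refine hS.int_of_bdd (hS.tau_meas hg).aestronglyMeasurable (B := B) (R := R)
    (ae_of_all _ fun z hz => (hS.tau_le g z).trans (hB z (by simpa using hz))) ?_
  filter_upwards [hS.ae_mem] with z hz hR
  rw [h0 z hz hR]; rfl

lemma Slc.int_en (hL : Lev Y L X) (hS : Slc Y L X m σ e y) {f : ℂ → ℝ} {R : ℝ} (hf : En Y L R f) :
    Integrable (fun z => fderiv ℝ f z (e z)) m :=
  hS.int_tau hf.sm (R := X + R) fun _ hz hzR => fd_zero (hf.cst_out hz.1 (hL.im_of_norm le_rfl hz.1 hzR))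

/-- **end values**: the total variation of an end function along `L` is one -/
theorem Slc.en_int (hL : Lev Y L X) (hS : Slc Y L X m σ e y) {f : ℂ → ℝ} {R : ℝ}
    (hf : En Y L R f) : ∫ z, fderiv ℝ f z (e z) ∂m = 1 := by
  obtain ⟨R₀, f₀, h1, h2⟩ := hS.s2
  set R' := max R R₀ with hR'
  have hf' : En Y L R' f := hf.mono (le_max_left _ _)
  have hf₀ : En Y L R' f₀ := h1 R' (le_max_right _ _)
  obtain ⟨B, hB⟩ := hL.cY.isBounded.exists_norm_le
  set S := max (X + R') B with hSd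
  obtain ⟨κ, g1, g2, g3, g4⟩ := exists_cutoff S
  set g : ℂ → ℝ := fun z => κ z * (f z - f₀ z) with hg
  have hgs : ContDiff ℝ ∞ g := g1.mul (hf'.sm.sub hf₀.sm)
  have hgL : LCc Y g := by
    refine ⟨hgs, g2.mul_right, fun z hz => ?_⟩
    filter_upwards [g4 z ((hB z hz).trans (le_max_right _ _)), hf'.lc z hz, hf₀.lc z hz] with w w1 w2 w3
    simp only [hg]
    rw [w1, w2, w3, (g4 z ((hB z hz).trans (le_max_right _ _))).self_of_nhds]
  have key : ∀ z ∈ L \ Y, fderiv ℝ g z = fderiv ℝ f z - fderiv ℝ f₀ z := by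
    rintro z ⟨hzL, hzY⟩
    have hd1 : DifferentiableAt ℝ f z := hf'.sm.differentiable (by simp) z
    have hd2 : DifferentiableAt ℝ f₀ z := hf₀.sm.differentiable (by simp) z
    by_cases hz : ‖z‖ ≤ S
    · have : g =ᶠ[𝓝 z] fun w => f w - f₀ w := by
        filter_upwards [g4 z hz] with w hw
        simp only [hg]; rw [hw, one_mul]
      rw [this.fderiv_eq, fderiv_fun_sub hd1 hd2]
    · have him : R' ≤ |z.im| := hL.im_of_norm (le_max_left _ _) hzL (not_le.1 hz)
      have e1 : ∀ᶠ w in 𝓝 z, f w = f₀ w := by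
        rcases le_abs.1 him with h' | h'
        · filter_upwards [hf'.top z hzL h', hf₀.top z hzL h'] with w w1 w2
          rw [w1, w2]
        · filter_upwards [hf'.bot z hzL (by linarith), hf₀.bot z hzL (by linarith)] with w w1 w2
          rw [w1, w2]
      have : g =ᶠ[𝓝 z] fun _ => 0 := by
        filter_upwards [e1] with w hw
        simp only [hg]; rw [hw, sub_self, mul_zero]
      rw [this.fderiv_eq, fd_zero (hf'.cst_out hzL him), fd_zero (hf₀.cst_out hzL him), sub_zero,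
        fderiv_fun_const]; rfl
  have h3 := hS.s1 g hgL
  have h4 : ∫ z, fderiv ℝ g z (e z) ∂m = ∫ z, (fderiv ℝ f z (e z) - fderiv ℝ f₀ z (e z)) ∂m := by
    refine integral_congr_ae ?_
    filter_upwards [hS.ae_mem] with z hz
    rw [key z hz]; rfl
  rw [h4, integral_sub (hS.int_en hL hf') (hS.int_en hL hf₀), h2] at h3
  linarith

lemma En.mul {R : ℝ} {f g : ℂ → ℝ} (hf : En Y L R f) (hg : En Y L R g) :
    En Y L R (fun z => f z * g z) := by
  refine ⟨hf.sm.mul hg.sm, fun z hz => ?_, fun z hz h => ?_, fun z hz h => ?_⟩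
  · filter_upwards [hf.lc z hz, hg.lc z hz] with w w1 w2
    rw [w1, w2]
  · filter_upwards [hf.top z hz h, hg.top z hz h] with w w1 w2
    rw [w1, w2, one_mul]
  · filter_upwards [hf.bot z hz h, hg.bot z hz h] with w w1 w2
    rw [w1, w2, zero_mul]


end Int

end Crest.Agent.R105.LmY_338
end

-- ▼ part R105/LmY4_338
section

/-!
# Row 105, S0138, Lemma Y (helper338), part 4: the value of `y` at a cut
-/

set_option autoImplicit false

namespace Crest.Agent.R105.LmY_338

open Set Topology Metric Filter MeasureTheory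
open scoped ContDiff Manifold

section

variable {Y L : Set ℂ} {X : ℝ} {m σ : Measure ℂ} {e : ℂ → ℂ} {y : ℂ → ℝ}

/-- a fixed bump function and its gradient bound -/
lemma exists_eta : ∃ (η : ℂ → ℝ) (A : ℝ), ContDiff ℝ ∞ η ∧ (∀ z, 0 ≤ η z ∧ η z ≤ 1) ∧
    (∀ z, ‖z‖ ≤ 1 → ∀ᶠ w in 𝓝 z, η w = 1) ∧ (∀ z, 2 ≤ ‖z‖ → ∀ᶠ w in 𝓝 z, η w = 0) ∧ 0 ≤ A ∧
    ∀ z, ‖fderiv ℝ η z‖ ≤ A := by
  obtain ⟨η, h1, h2, h3, h4⟩ := Sep_590.exists_smooth (T := closedBall (0 : ℂ) 1)
    (B := (ball (0 : ℂ) 2)ᶜ) isClosed_closedBall isOpen_ball.isClosed_compl (by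
      rw [disjoint_compl_right_iff_subset]
      exact closedBall_subset_ball (by norm_num))
  obtain ⟨A, hA⟩ := (isCompact_closedBall (0 : ℂ) 2).exists_bound_of_continuousOn
    (h1.continuous_fderiv (by simp)).continuousOn
  refine ⟨η, max A 0, h1, h2, fun z hz => h3 z (by simpa using hz),
    fun z hz => h4 z (by simpa using hz), le_max_right _ _, fun z => ?_⟩
  by_cases hz : z ∈ closedBall (0 : ℂ) 2
  · exact (hA z hz).trans (le_max_left _ _)
  · have : η =ᶠ[𝓝 z] fun _ => 0 := h4 z fun h => hz (ball_subset_closedBall h)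
    rw [this.fderiv_eq, fderiv_fun_const]
    simp

/-- **the value of `y` at a cut** -/
theorem Slc.val (hL : Lev Y L X) (hS : Slc Y L X m σ e y) {p : ℂ} {δ : ℝ} (hδ : 0 < δ)
    (hb : closedBall p (3 * δ) ⊆ Yᶜ) : ∃ B, 0 ≤ B ∧ ∀ r, 0 < r → r ≤ δ → ∀ R f, Cut Y L R p r f →
      Integrable (fun z => y z * fderiv ℝ f z (e z)) m ∧
      |∫ z, y z * fderiv ℝ f z (e z) ∂m - y p| ≤ B * (m (closedBall p (2 * r))).toReal := by
  obtain ⟨η, A, h1, h2, h3, h4, hA, h5⟩ := exists_eta
  have hYo : IsOpen Yᶜ := hL.cY.isClosed.isOpen_compl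
  have hfy : ContinuousOn (fderiv ℝ y) (closedBall p (3 * δ)) :=
    (hS.ys.continuousOn_fderiv_of_isOpen hYo (by simp)).mono hb
  obtain ⟨K, hK⟩ := (isCompact_closedBall p (3 * δ)).exists_bound_of_continuousOn hfy
  have hK0 : 0 ≤ K := (norm_nonneg _).trans (hK p (mem_closedBall_self (by positivity)))
  have hlip : ∀ z ∈ closedBall p (3 * δ), |y z - y p| ≤ K * ‖z - p‖ := fun z hz => by
    have := (convex_closedBall p (3 * δ)).norm_image_sub_le_of_norm_fderiv_le (𝕜 := ℝ) (f := y)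
      (fun x hx => ((hS.ys x (hb hx)).contDiffAt (hYo.mem_nhds (hb hx))).differentiableAt (by simp))
      hK (mem_closedBall_self (by positivity)) hz
    rwa [Real.norm_eq_abs] at this
  refine ⟨K * (2 * A + 1), by positivity, fun r hr hrδ R f hf => ?_⟩
  set F : ℂ → ℝ := fun z => (y z - y p) * η (r⁻¹ • (z - p)) with hF
  have hn : ∀ z : ℂ, ‖r⁻¹ • (z - p)‖ = dist z p / r := fun z => by
    rw [norm_smul, Real.norm_eq_abs, abs_of_pos (inv_pos.2 hr), dist_eq_norm, inv_mul_eq_div]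
  have hsc : Continuous fun w : ℂ => r⁻¹ • (w - p) := by fun_prop
  have hηs : ContDiff ℝ ∞ fun z : ℂ => η (r⁻¹ • (z - p)) := h1.comp (by fun_prop)
  -- `F` vanishes off the ball of radius `2r`
  have hF0 : ∀ z, 2 * r ≤ dist z p → ∀ᶠ w in 𝓝 z, F w = 0 := fun z hz => by
    have := hsc.continuousAt.eventually (h4 (r⁻¹ • (z - p)) (by
      rw [hn, le_div_iff₀ hr]; exact hz))
    filter_upwards [this] with w hw
    simp only [hF]; rw [hw, mul_zero]
  have hysm : ∀ z, z ∉ Y → ContDiffAt ℝ ∞ y z := fun z hz =>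
    (hS.ys z hz).contDiffAt (hYo.mem_nhds hz)
  have hFs : ContDiff ℝ ∞ F := by
    rw [contDiff_iff_contDiffAt]
    intro z
    by_cases hz : dist z p < 2 * r
    · have hzY : z ∉ Y := hb (by rw [mem_closedBall]; linarith)
      exact ((hysm z hzY).sub contDiffAt_const).mul hηs.contDiffAt
    · exact contDiffAt_const.congr_of_eventuallyEq (hF0 z (not_lt.1 hz))
  have hFb : ∀ z, ‖fderiv ℝ F z‖ ≤ K * (2 * A + 1) := by
    intro z
    by_cases hz : dist z p < 2 * r
    · have hz3 : z ∈ closedBall p (3 * δ) := by rw [mem_closedBall]; linarith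
      have hzY : z ∉ Y := hb hz3
      have d1 : DifferentiableAt ℝ (fun w => y w - y p) z :=
        ((hysm z hzY).differentiableAt (by simp)).sub_const _
      have d2 : DifferentiableAt ℝ (fun w : ℂ => η (r⁻¹ • (w - p))) z := hηs.differentiable (by simp) z
      have e2 : ‖fderiv ℝ (fun w : ℂ => η (r⁻¹ • (w - p))) z‖ ≤ A * r⁻¹ := by
        have hd : HasFDerivAt (fun w : ℂ => r⁻¹ • (w - p)) (r⁻¹ • ContinuousLinearMap.id ℝ ℂ) z :=
          ((hasFDerivAt_id z).sub_const p).const_smul r⁻¹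
        have hη : HasFDerivAt η (fderiv ℝ η (r⁻¹ • (z - p))) (r⁻¹ • (z - p)) :=
          (h1.differentiable (by simp) _).hasFDerivAt
        have hc : HasFDerivAt (fun w : ℂ => η (r⁻¹ • (w - p)))
          ((fderiv ℝ η (r⁻¹ • (z - p))).comp (r⁻¹ • ContinuousLinearMap.id ℝ ℂ)) z := hη.comp z hd
        rw [hc.fderiv]
        refine (ContinuousLinearMap.opNorm_comp_le _ _).trans ?_
        refine mul_le_mul (h5 _) ?_ (norm_nonneg _) hA
        rw [norm_smul, Real.norm_eq_abs, abs_of_pos (inv_pos.2 hr)]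
        exact mul_le_of_le_one_right (inv_pos.2 hr).le ContinuousLinearMap.norm_id_le
      have e1 : |y z - y p| ≤ K * (2 * r) := by
        refine (hlip z hz3).trans (mul_le_mul_of_nonneg_left ?_ hK0)
        rw [← dist_eq_norm]; exact hz.le
      have e3 : ‖fderiv ℝ (fun w => y w - y p) z‖ ≤ K := by
        rw [fderiv_sub_const]; exact hK z hz3
      rw [hF, fderiv_fun_mul d1 d2]
      refine (norm_add_le _ _).trans ?_
      rw [norm_smul, norm_smul, Real.norm_eq_abs, Real.norm_eq_abs, abs_of_nonneg (h2 _).1]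
      have e4 : |y z - y p| * ‖fderiv ℝ (fun w : ℂ => η (r⁻¹ • (w - p))) z‖ ≤ K * (2 * r) * (A * r⁻¹) :=
        mul_le_mul e1 e2 (norm_nonneg _) (by positivity)
      have e5 : K * (2 * r) * (A * r⁻¹) = K * (2 * A) := by field_simp
      have e6 : η (r⁻¹ • (z - p)) * ‖fderiv ℝ (fun w => y w - y p) z‖ ≤ 1 * K :=
        mul_le_mul (h2 _).2 e3 (norm_nonneg _) zero_le_one
      nlinarith [e4, e5, e6]
    · have : F =ᶠ[𝓝 z] fun _ => 0 := hF0 z (not_lt.1 hz)
      rw [this.fderiv_eq, fderiv_fun_const]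
      simp only [Pi.zero_apply, norm_zero]
      positivity
  -- `F f` is admissible in `s1`
  have hFc : HasCompactSupport F := HasCompactSupport.intro (isCompact_closedBall p (2 * r))
    fun z hz => (hF0 z (by rw [mem_closedBall] at hz; linarith)).self_of_nhds
  have hFY : ∀ z ∈ Y, ∀ᶠ w in 𝓝 z, F w = 0 := fun z hz => hF0 z (by
    by_contra hcon
    exact hb (show z ∈ closedBall p (3 * δ) by rw [mem_closedBall]; linarith) hz)
  have hs1 := hS.s1 (fun z => F z * f z) ⟨hFs.mul hf.sm, hFc.mul_right, fun z hz => by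
    filter_upwards [hFY z hz] with w hw
    rw [hw, (hFY z hz).self_of_nhds, zero_mul, zero_mul]⟩
  have hfi := hS.int_en hL hf.toEn
  have hfm := hS.tau_meas hf.sm
  -- integrability
  have i1 : Integrable (fun z => F z * fderiv ℝ f z (e z)) m := by
    obtain ⟨M, hM⟩ := hFc.exists_bound_of_continuous hFs.continuous
    exact hfi.bdd_mul hFs.continuous.aestronglyMeasurable (ae_of_all _ hM)
  have i2 : Integrable (fun z => f z * fderiv ℝ F z (e z)) m := by
    have hFi : Integrable (fun z => fderiv ℝ F z (e z)) m := by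
      obtain ⟨B, hB⟩ := hFc.isBounded.exists_norm_le
      refine hS.int_tau hFs (R := B) fun z _ hz => ?_
      have : z ∉ tsupport F := fun h => absurd (hB z h) (not_le.2 hz)
      have h0 : F =ᶠ[𝓝 z] fun _ => 0 := notMem_tsupport_iff_eventuallyEq.1 this
      rw [h0.fderiv_eq, fderiv_fun_const]; rfl
    exact hFi.bdd_mul hf.sm.continuous.aestronglyMeasurable (c := 1)
      (ae_of_all _ fun z => by rw [Real.norm_eq_abs, abs_of_nonneg (hf.c01 z).1]; exact (hf.c01 z).2)
  have hsum : ∫ z, F z * fderiv ℝ f z (e z) ∂m = - ∫ z, f z * fderiv ℝ F z (e z) ∂m := by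
    have : ∫ z, fderiv ℝ (fun z => F z * f z) z (e z) ∂m =
        ∫ z, (F z * fderiv ℝ f z (e z) + f z * fderiv ℝ F z (e z)) ∂m := by
      refine integral_congr_ae (ae_of_all _ fun z => ?_)
      simp only
      rw [fderiv_fun_mul (hFs.differentiable (by simp) z) (hf.sm.differentiable (by simp) z)]
      simp only [_root_.add_apply, _root_.smul_apply, smul_eq_mul]
    rw [this, integral_add i1 i2] at hs1
    linarith
  -- `y` replaced by `F + y p`
  have hyF : ∀ᵐ z ∂m, y z * fderiv ℝ f z (e z) = F z * fderiv ℝ f z (e z) + y p * fderiv ℝ f z (e z) := by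
    filter_upwards [hS.ae_mem] with z hz
    by_cases hzb : z ∈ ball p r
    · have : η (r⁻¹ • (z - p)) = 1 := (h3 _ (by
        rw [hn, div_le_one hr]; exact (mem_ball.1 hzb).le)).self_of_nhds
      simp only [hF]; rw [this]; ring
    · rw [fd_zero (hf.cst z hz.1 hzb)]; simp
  have i3 : Integrable (fun z => y z * fderiv ℝ f z (e z)) m :=
    (i1.add (hfi.const_mul (y p))).congr (hyF.mono fun z hz => hz.symm)
  refine ⟨i3, ?_⟩
  rw [integral_congr_ae hyF, integral_add i1 (hfi.const_mul (y p)), integral_const_mul,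
    hS.en_int hL hf.toEn, mul_one, add_sub_cancel_right, hsum, abs_neg]
  -- the error
  have i4 : IntegrableOn (fun _ : ℂ => K * (2 * A + 1)) (closedBall p (2 * r)) m := by
    refine integrableOn_const ?_
    refine ne_of_lt (lt_of_le_of_lt (measure_mono ?_) (hS.mfin (‖p‖ + 2 * r)))
    intro z hz
    rw [mem_closedBall, dist_zero_right]
    rw [mem_closedBall, dist_eq_norm] at hz
    calc ‖z‖ = ‖p + (z - p)‖ := by rw [add_sub_cancel]
      _ ≤ ‖p‖ + ‖z - p‖ := norm_add_le _ _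
      _ ≤ _ := by linarith
  calc |∫ z, f z * fderiv ℝ F z (e z) ∂m| ≤ ∫ z, |f z * fderiv ℝ F z (e z)| ∂m :=
        abs_integral_le_integral_abs
    _ ≤ ∫ z, (closedBall p (2 * r)).indicator (fun _ => K * (2 * A + 1)) z ∂m := by
        refine integral_mono_of_nonneg (ae_of_all _ fun z => abs_nonneg _)
          (i4.integrable_indicator isClosed_closedBall.measurableSet) (ae_of_all _ fun z => ?_)
        simp only
        by_cases hz : z ∈ closedBall p (2 * r)
        · rw [indicator_of_mem hz, abs_mul, abs_of_nonneg (hf.c01 z).1]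
          calc _ ≤ 1 * ‖fderiv ℝ F z‖ := mul_le_mul (hf.c01 z).2 (hS.tau_le F z) (abs_nonneg _) zero_le_one
            _ ≤ _ := by rw [one_mul]; exact hFb z
        · rw [indicator_of_notMem hz]
          have : F =ᶠ[𝓝 z] fun _ => 0 := hF0 z (by rw [mem_closedBall] at hz; linarith)
          rw [this.fderiv_eq, fderiv_fun_const]
          simp
    _ = K * (2 * A + 1) * (m (closedBall p (2 * r))).toReal := by
        rw [integral_indicator isClosed_closedBall.measurableSet, setIntegral_const, smul_eq_mul,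
          mul_comm]
        rfl

end

end Crest.Agent.R105.LmY_338
end

-- ▼ part R105/Sd1_938
section

/-!
Row 105, S0138 (helper938), LEMMA Y, part (0) of 701's plan (#10366): one-dimensional Sard for
locally Lipschitz functions; crossings of rational lines; rational points are dense in continua.
No reference to the carrier.
-/

set_option autoImplicit false

open MeasureTheory Set Filter Topology Metric
open scoped NNReal ENNReal

namespace Crest.Agent.R105.Sd_938



/-- crossing of the horizontal line at `p` with a non zero slope -/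
def CrH (a : ℂ → ℝ) (p : ℂ) : Prop := ∃ d : ℝ, d ≠ 0 ∧ HasDerivAt (fun s : ℝ => a (p + s)) d 0

/-- crossing of the vertical line at `p` with a non zero slope -/
def CrV (a : ℂ → ℝ) (p : ℂ) : Prop :=
  ∃ d : ℝ, d ≠ 0 ∧ HasDerivAt (fun s : ℝ => a (p + s * Complex.I)) d 0

/-- sign change at a point of non zero slope -/
theorem sign_of_hasDerivAt {g : ℝ → ℝ} {d : ℝ} (hd : d ≠ 0) (h : HasDerivAt g d 0) :
    ∃ e : ℝ, (e = 1 ∨ e = -1) ∧ ∃ ρ > 0, ∀ s ∈ Ioc (0 : ℝ) ρ, g 0 < g (e * s) ∧ g (-(e * s)) < g 0 := by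
  have key : ∀ {g : ℝ → ℝ} {d : ℝ}, 0 < d → HasDerivAt g d 0 →
      ∃ ρ > 0, ∀ s ∈ Ioc (0 : ℝ) ρ, g 0 < g s ∧ g (-s) < g 0 := by
    intro g d hd h
    have h1 := h.tendsto_slope
    have h2 : ∀ᶠ y in 𝓝[≠] (0 : ℝ), 0 < slope g 0 y := h1.eventually (lt_mem_nhds hd)
    obtain ⟨ρ, hρ, h3⟩ := Metric.mem_nhdsWithin_iff.1 h2
    refine ⟨ρ / 2, by positivity, fun s hs => ⟨?_, ?_⟩⟩
    · have h4 : s ∈ {y | 0 < slope g 0 y} := h3 ⟨by
        rw [mem_ball, Real.dist_eq, sub_zero, abs_of_pos hs.1]; linarith [hs.2], hs.1.ne'⟩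
      have h5 : 0 < slope g 0 s := h4
      rw [slope_def_field, sub_zero] at h5
      have h6 := (div_pos_iff_of_pos_right hs.1).1 h5
      linarith
    · have h4 : -s ∈ {y | 0 < slope g 0 y} := h3 ⟨by
        rw [mem_ball, Real.dist_eq, sub_zero, abs_neg, abs_of_pos hs.1]; linarith [hs.2],
        by simpa using hs.1.ne'⟩
      have h5 : 0 < slope g 0 (-s) := h4
      rw [slope_def_field, sub_zero] at h5
      rw [div_neg, neg_pos] at h5
      have h6 : g (-s) - g 0 < 0 := by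
        by_contra hcon
        push Not at hcon
        exact absurd (div_nonneg hcon hs.1.le) (not_le.2 h5)
      linarith
  rcases lt_or_gt_of_ne hd with hd' | hd'
  · refine ⟨-1, Or.inr rfl, ?_⟩
    have h1 : HasDerivAt (fun s => g (-s)) (-d) 0 := by
      have h2 : HasDerivAt (fun s : ℝ => -s) (-1) 0 := hasDerivAt_neg 0
      have h3 : HasDerivAt g d (-(0 : ℝ)) := by simpa using h
      have := HasDerivAt.scomp (0 : ℝ) h3 h2
      simpa [Function.comp_def] using this
    obtain ⟨ρ, hρ, h4⟩ := key (by linarith) h1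
    refine ⟨ρ, hρ, fun s hs => ?_⟩
    have := h4 s hs
    simpa using this
  · refine ⟨1, Or.inl rfl, ?_⟩
    obtain ⟨ρ, hρ, h4⟩ := key hd' h
    exact ⟨ρ, hρ, fun s hs => by simpa using h4 s hs⟩

theorem CrH.sign {a : ℂ → ℝ} {p : ℂ} (h : CrH a p) :
    ∃ e : ℝ, (e = 1 ∨ e = -1) ∧ ∃ ρ > 0, ∀ s ∈ Ioc (0 : ℝ) ρ,
      a p < a (p + ((e * s : ℝ) : ℂ)) ∧ a (p - ((e * s : ℝ) : ℂ)) < a p := by
  obtain ⟨d, hd, h⟩ := h
  obtain ⟨e, he, ρ, hρ, h1⟩ := sign_of_hasDerivAt hd h
  refine ⟨e, he, ρ, hρ, fun s hs => ?_⟩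
  have := h1 s hs
  simpa [sub_eq_add_neg] using this

theorem CrV.sign {a : ℂ → ℝ} {p : ℂ} (h : CrV a p) :
    ∃ e : ℝ, (e = 1 ∨ e = -1) ∧ ∃ ρ > 0, ∀ s ∈ Ioc (0 : ℝ) ρ,
      a p < a (p + ((e * s : ℝ) : ℂ) * Complex.I) ∧ a (p - ((e * s : ℝ) : ℂ) * Complex.I) < a p := by
  obtain ⟨d, hd, h⟩ := h
  obtain ⟨e, he, ρ, hρ, h1⟩ := sign_of_hasDerivAt hd h
  refine ⟨e, he, ρ, hρ, fun s hs => ?_⟩
  have := h1 s hs
  simpa [sub_eq_add_neg] using this

section
variable {U : Set ℂ} {a : ℂ → ℝ}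





end



end Crest.Agent.R105.Sd_938
end

-- ▼ part R105/Sd2_938
section

/-!
Row 105, S0138 (helper938), LEMMA Y, part (0) of 701's plan (#10366): superlevel sets of a switched
function are open and connected, in the plane and in `U`; rational points are dense in continua
(also near a component of `Y`).
-/

set_option autoImplicit false

open MeasureTheory Set Filter Topology Metric
open scoped NNReal ENNReal

namespace Crest.Agent.R105.Sd_938

open Crest.AnalysisR (IsExteriorDomain)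

variable {Y : Set ℂ} {u : ℂ → ℝ}

/-- the far part of a superlevel set of `σ * re` -/
def Far (σ t S : ℝ) : Set ℂ := {z | t < σ * z.re ∧ (S < σ * z.re ∨ S < z.im ∨ z.im < -S)}

lemma preconn_Far {σ t S : ℝ} (hσ : σ = 1 ∨ σ = -1) (hS : |t| < S) : IsPreconnected (Far σ t S) := by
  have hS' := abs_lt.1 hS
  have h1 : IsPreconnected {z : ℂ | S < σ * z.re} := by
    have : Convex ℝ {z : ℂ | S < σ * z.re} := by
      rintro x hx y hy a b ha hb hab
      simp only [mem_ofPred_eq, Complex.add_re, Complex.real_smul, Complex.mul_re,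
        Complex.ofReal_re, Complex.ofReal_im, zero_mul, sub_zero] at hx hy ⊢
      rcases ha.eq_or_lt with rfl | ha'
      · have : b = 1 := by linarith
        subst this; linarith
      · have e1 := mul_lt_mul_of_pos_left hx ha'
        have e2 := mul_le_mul_of_nonneg_left hy.le hb
        have : S = a * S + b * S := by rw [← add_mul, hab, one_mul]
        nlinarith
    exact this.isPreconnected
  have h2 : IsPreconnected {z : ℂ | t < σ * z.re ∧ S < z.im} := by
    have : Convex ℝ {z : ℂ | t < σ * z.re ∧ S < z.im} := by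
      rintro x ⟨hx, hx'⟩ y ⟨hy, hy'⟩ a b ha hb hab
      simp only [mem_ofPred_eq, Complex.add_re, Complex.add_im, Complex.real_smul, Complex.mul_re,
        Complex.mul_im, Complex.ofReal_re, Complex.ofReal_im, zero_mul, sub_zero, add_zero]
      rcases ha.eq_or_lt with rfl | ha'
      · have : b = 1 := by linarith
        subst this; constructor <;> linarith
      · have e1 := mul_lt_mul_of_pos_left hx ha'
        have e2 := mul_le_mul_of_nonneg_left hy.le hb
        have e3 := mul_lt_mul_of_pos_left hx' ha'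
        have e4 := mul_le_mul_of_nonneg_left hy'.le hb
        have e5 : S = a * S + b * S := by rw [← add_mul, hab, one_mul]
        have e6 : t = a * t + b * t := by rw [← add_mul, hab, one_mul]
        constructor <;> nlinarith
    exact this.isPreconnected
  have h3 : IsPreconnected {z : ℂ | t < σ * z.re ∧ z.im < -S} := by
    have : Convex ℝ {z : ℂ | t < σ * z.re ∧ z.im < -S} := by
      rintro x ⟨hx, hx'⟩ y ⟨hy, hy'⟩ a b ha hb hab
      simp only [mem_ofPred_eq, Complex.add_re, Complex.add_im, Complex.real_smul, Complex.mul_re,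
        Complex.mul_im, Complex.ofReal_re, Complex.ofReal_im, zero_mul, sub_zero, add_zero]
      rcases ha.eq_or_lt with rfl | ha'
      · have : b = 1 := by linarith
        subst this; constructor <;> linarith
      · have e1 := mul_lt_mul_of_pos_left hx ha'
        have e2 := mul_le_mul_of_nonneg_left hy.le hb
        have e3 := mul_lt_mul_of_pos_left hx' ha'
        have e4 := mul_le_mul_of_nonneg_left hy'.le hb
        have e5 : -S = a * -S + b * -S := by rw [← add_mul, hab, one_mul]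
        have e6 : t = a * t + b * t := by rw [← add_mul, hab, one_mul]
        constructor <;> nlinarith
    exact this.isPreconnected
  have hss : σ * σ = 1 := by rcases hσ with rfl | rfl <;> norm_num
  have e : Far σ t S = ({z : ℂ | S < σ * z.re} ∪ {z : ℂ | t < σ * z.re ∧ S < z.im}) ∪
      {z : ℂ | t < σ * z.re ∧ z.im < -S} := by
    ext z
    simp only [Far, mem_ofPred_eq, mem_union]
    constructor
    · rintro ⟨h, h' | h' | h'⟩
      · exact Or.inl (Or.inl h')
      · exact Or.inl (Or.inr ⟨h, h'⟩)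
      · exact Or.inr ⟨h, h'⟩
    · rintro ((h | ⟨h, h'⟩) | ⟨h, h'⟩)
      · exact ⟨by linarith, Or.inl h⟩
      · exact ⟨h, Or.inr (Or.inl h')⟩
      · exact ⟨h, Or.inr (Or.inr h')⟩
  rw [e]
  refine IsPreconnected.union (x := (⟨σ * (S + 1), -(S + 1)⟩ : ℂ)) (Or.inl ?_) ?_
    (IsPreconnected.union (x := (⟨σ * (S + 1), S + 1⟩ : ℂ)) ?_ ?_ h1 h2) h3
  · show S < σ * (σ * (S + 1)); rw [← mul_assoc, hss]; linarith
  · refine ⟨?_, ?_⟩
    · show t < σ * (σ * (S + 1)); rw [← mul_assoc, hss]; linarith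
    · show -(S + 1) < -S; linarith
  · show S < σ * (σ * (S + 1)); rw [← mul_assoc, hss]; linarith
  · refine ⟨?_, ?_⟩
    · show t < σ * (σ * (S + 1)); rw [← mul_assoc, hss]; linarith
    · show S < S + 1; linarith

lemma locLip_neg {U : Set ℂ} {u : ℂ → ℝ} (h : LocallyLipschitzOn U u) :
    LocallyLipschitzOn U fun z => - u z := by
  intro z hz
  obtain ⟨K, V, hV, hK⟩ := h hz
  refine ⟨K, V, hV, LipschitzOnWith.of_dist_le_mul fun x hx y hy => ?_⟩
  rw [dist_neg_neg]
  exact hK.dist_le_mul x hx y hy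

section
variable (hY : IsExteriorDomain Yᶜ) (hu : Ni_459.LB u) (hl : LocallyLipschitzOn Yᶜ u)
include hY hu hl

lemma lo_eq {z : ℂ} (hz : z ∉ Y) : Ni_459.lo Y u z = u z :=
  Ni_459.lo_of_notMem hY hu hz (Uni_659.continuousAt_of_lip hY hl hz)

lemma up_eq {z : ℂ} (hz : z ∉ Y) : Ni_459.up Y u z = u z :=
  Ni_459.up_of_notMem hY hu hz (Uni_659.continuousAt_of_lip hY hl hz)

/-- **superlevel sets of a switched function are connected** (`σ = ±1`, `u = σ re` far away) -/
theorem conn_lo (hs : Ni_459.Swd Y u) {σ : ℝ} (hσ : σ = 1 ∨ σ = -1)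
    (hfar : ∃ R : ℝ, ∀ z : ℂ, R ≤ ‖z‖ → u z = σ * z.re) (t : ℝ) :
    IsPreconnected {z | t < Ni_459.lo Y u z} := by
  obtain ⟨R, hR⟩ := hfar
  obtain ⟨RY, hRY⟩ := (Ni_459.cpt_of hY).isBounded.exists_norm_le
  set S : ℝ := max (max R RY) |t| + 1 with hSdef
  have hSR : R < S := by rw [hSdef]; linarith [le_max_left (max R RY) |t|, le_max_left R RY]
  have hSRY : RY < S := by rw [hSdef]; linarith [le_max_left (max R RY) |t|, le_max_right R RY]
  have hSt : |t| < S := by rw [hSdef]; linarith [le_max_right (max R RY) |t|]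
  have hσa : ∀ z : ℂ, |σ * z.re| = |z.re| := by
    intro z; rcases hσ with rfl | rfl <;> simp [abs_neg]
  -- points outside of the square
  have hout : ∀ z : ℂ, (S < σ * z.re ∨ S < z.im ∨ z.im < -S ∨ σ * z.re < -S) → S < ‖z‖ := by
    intro z hz
    have h1 := Complex.abs_re_le_norm z
    have h2 := Complex.abs_im_le_norm z
    rw [← hσa] at h1
    rcases hz with h | h | h | h
    · exact h.trans_le ((le_abs_self _).trans h1)
    · exact h.trans_le ((le_abs_self _).trans h2)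
    · have := neg_le_abs z.im; linarith
    · have := neg_le_abs (σ * z.re); linarith
  have hoff : ∀ z : ℂ, S < ‖z‖ → Ni_459.lo Y u z = σ * z.re := by
    intro z hz
    have hzY : z ∉ Y := fun h => absurd (hRY z h) (not_le.2 (hSRY.trans hz))
    rw [lo_eq hY hu hl hzY, hR z (hSR.trans hz).le]
  have hsub : Far σ t S ⊆ {z | t < Ni_459.lo Y u z} := by
    rintro z ⟨h1, h2⟩
    have h3 : S < ‖z‖ := hout z (by tauto)
    show t < Ni_459.lo Y u z
    rw [hoff z h3]; exact h1
  have hpc := preconn_Far hσ hSt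
  -- every component contains the far part
  have key : ∀ z ∈ {z | t < Ni_459.lo Y u z},
      Far σ t S ⊆ connectedComponentIn {z | t < Ni_459.lo Y u z} z := by
    intro z hz
    have h1 := hs.gt t z hz
    have h2 : ∃ w ∈ connectedComponentIn {z | t < Ni_459.lo Y u z} z, 2 * S < ‖w‖ := by
      by_contra hcon
      push Not at hcon
      exact h1 (isBounded_iff_forall_norm_le.2 ⟨2 * S, hcon⟩)
    obtain ⟨w, hw, hwn⟩ := h2
    have hwt : t < Ni_459.lo Y u w :=
      connectedComponentIn_subset {z | t < Ni_459.lo Y u z} z hw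
    have hS0 : 0 < S := (abs_nonneg t).trans_lt hSt
    have hwF : w ∈ Far σ t S := by
      have h3 : S < ‖w‖ := by linarith
      rw [hoff w h3] at hwt
      refine ⟨hwt, ?_⟩
      by_contra hcon
      rw [not_or, not_or] at hcon
      push Not at hcon
      have h4 : |w.re| ≤ S := by
        rw [← hσa, abs_le]
        refine ⟨?_, hcon.1⟩
        have := (abs_lt.1 hSt).1
        linarith
      have h5 : |w.im| ≤ S := abs_le.2 ⟨hcon.2.2, hcon.2.1⟩
      have h6 := Complex.norm_le_abs_re_add_abs_im w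
      linarith
    rw [connectedComponentIn_eq hw]
    exact hpc.subset_connectedComponentIn hwF hsub
  rcases eq_empty_or_nonempty {z | t < Ni_459.lo Y u z} with he | ⟨z0, hz0⟩
  · rw [he]; exact isPreconnected_empty
  -- a point of the far part
  have hFne : (⟨σ * (S + 1), 0⟩ : ℂ) ∈ Far σ t S := by
    have hss : σ * σ = 1 := by rcases hσ with rfl | rfl <;> norm_num
    have := (abs_lt.1 hSt)
    refine ⟨?_, Or.inl ?_⟩
    · show t < σ * (σ * (S + 1)); rw [← mul_assoc, hss]; linarith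
    · show S < σ * (σ * (S + 1)); rw [← mul_assoc, hss]; linarith
  have h7 : {z | t < Ni_459.lo Y u z} ⊆
      connectedComponentIn {z | t < Ni_459.lo Y u z} (⟨σ * (S + 1), 0⟩ : ℂ) := by
    intro z hz
    have h8 := key z hz hFne
    rw [← connectedComponentIn_eq h8]
    exact mem_connectedComponentIn hz
  have h9 : {z | t < Ni_459.lo Y u z} =
      connectedComponentIn {z | t < Ni_459.lo Y u z} (⟨σ * (S + 1), 0⟩ : ℂ) :=
    Subset.antisymm h7 (connectedComponentIn_subset _ _)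
  rw [h9]
  exact isPreconnected_connectedComponentIn






/-- `{t < lo u}` is connected -/
theorem conn_P (hs : Ni_459.Swd Y u) (hfar : ∃ R : ℝ, ∀ z : ℂ, R ≤ ‖z‖ → u z = z.re) (t : ℝ) :
    IsPreconnected {z | t < Ni_459.lo Y u z} :=
  conn_lo hY hu hl hs (Or.inl rfl) (by simpa using hfar) t

/-- `{up u < t}` is connected -/
theorem conn_M (hs : Ni_459.Swd Y u) (hfar : ∃ R : ℝ, ∀ z : ℂ, R ≤ ‖z‖ → u z = z.re) (t : ℝ) :
    IsPreconnected {z | Ni_459.up Y u z < t} := by
  have h := conn_lo (u := fun z => - u z) hY hu.neg (locLip_neg hl) (Uni_659.Swd_neg hs)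
    (Or.inr rfl) (by
      obtain ⟨R, hR⟩ := hfar
      exact ⟨R, fun z hz => by simp [hR z hz]⟩) (-t)
  convert h using 1
  ext z
  simp only [mem_ofPred_eq, Uni_659.lo_neg, neg_lt_neg_iff]



/-- level set off `Y` -/
lemma mem_Lv {z : ℂ} (hz : z ∉ Y) {t : ℝ} : z ∈ Ni_459.Lv Y u t ↔ u z = t := by
  show Ni_459.lo Y u z ≤ t ∧ t ≤ Ni_459.up Y u z ↔ u z = t
  rw [lo_eq hY hu hl hz, up_eq hY hu hl hz]
  exact ⟨fun h => le_antisymm h.1 h.2, fun h => ⟨h.le, h.ge⟩⟩


end



end Crest.Agent.R105.Sd_938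
end

-- ▼ part R105/Cpt0_948
section

/-!
# Row 105, S0138: the level sets of a switched function (`= re` far away) are preconnected

(helper948; the proof is helper31's, file Nip7_31, repeated here over fewer imports)
-/

set_option autoImplicit false

open MeasureTheory Set Filter Topology Metric

namespace Crest.Agent.R105.Cpt_948

open Crest.AnalysisR (IsExteriorDomain)
open Crest.Agent.R105.Ni_459

/-- a closed set without islands whose part outside a compact set is preconnected (and nonempty)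
is preconnected -/
lemma preconn_of_noIsland {S B : Set ℂ} (hS : IsClosed S) (hN : Uni_659.NoIsland S)
    (hB : IsCompact B) (hSB : IsPreconnected (S \ B)) : IsPreconnected S := by
  rw [isPreconnected_iff_subset_of_fully_disjoint_closed hS]
  intro u v hu hv huv hd
  -- the part outside `B` lies in one of them
  have key : ∀ u v : Set ℂ, IsClosed u → IsClosed v → S ⊆ u ∪ v → Disjoint u v → S \ B ⊆ u →
      S ⊆ u := by
    intro u v hu hv huv hd hsub
    by_contra hcon
    obtain ⟨z, hz, hzu⟩ := Set.not_subset.1 hcon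
    have hzv : z ∈ v := (huv hz).resolve_left hzu
    have h1 : S ∩ v ⊆ B := by
      intro x hx
      by_contra hxB
      exact disjoint_left.1 hd (hsub ⟨hx.1, hxB⟩) hx.2
    refine hN (S ∩ v) inter_subset_left ⟨z, hz, hzv⟩ (hB.of_isClosed_subset (hS.inter hv) h1)
      ⟨uᶜ, hu.isOpen_compl, ?_⟩
    ext x
    constructor
    · rintro ⟨hx, hxS⟩
      exact ⟨hxS, (huv hxS).resolve_left hx⟩
    · rintro ⟨hxS, hxv⟩
      exact ⟨fun hxu => disjoint_left.1 hd hxu hxv, hxS⟩
  have h2 : S \ B ⊆ u ∨ S \ B ⊆ v := by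
    refine isPreconnected_iff_subset_of_disjoint_closed.1 hSB u v hu hv
      (sdiff_subset.trans huv) ?_
    rw [hd.inter_eq, inter_empty]
  rcases h2 with h2 | h2
  · exact Or.inl (key u v hu hv huv hd h2)
  · exact Or.inr (key v u hv hu (by rwa [union_comm]) hd.symm h2)

/-- the closed box -/
def bx (ρ : ℝ) : Set ℂ := {z | |z.re| ≤ ρ ∧ |z.im| ≤ ρ}

lemma bx_compact (ρ : ℝ) : IsCompact (bx ρ) := by
  refine (isCompact_closedBall (0 : ℂ) (2 * ρ)).of_isClosed_subset ?_ fun z hz => ?_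
  · exact (isClosed_le Complex.continuous_re.abs continuous_const).inter
      (isClosed_le Complex.continuous_im.abs continuous_const)
  · rw [mem_closedBall_zero_iff]
    have := Complex.norm_le_abs_re_add_abs_im z
    linarith [hz.1, hz.2]

lemma norm_of_notMem_bx {ρ : ℝ} {z : ℂ} (h : z ∉ bx ρ) : ρ < ‖z‖ := by
  by_contra hcon
  push Not at hcon
  exact h ⟨(Complex.abs_re_le_norm z).trans hcon, (Complex.abs_im_le_norm z).trans hcon⟩

lemma preconn_ge {t ρ : ℝ} (h1 : -ρ < t) (hρ : 0 < ρ) :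
    IsPreconnected {z : ℂ | z ∉ bx ρ ∧ t ≤ z.re} := by
  have c1 : Convex ℝ {z : ℂ | t ≤ z.re ∧ ρ < z.im} :=
    (convex_halfSpace_re_ge t).inter (convex_halfSpace_im_gt ρ)
  have c2 : Convex ℝ {z : ℂ | ρ < z.re ∧ t ≤ z.re} :=
    (convex_halfSpace_re_gt ρ).inter (convex_halfSpace_re_ge t)
  have c3 : Convex ℝ {z : ℂ | t ≤ z.re ∧ z.im < -ρ} :=
    (convex_halfSpace_re_ge t).inter (convex_halfSpace_im_lt (-ρ))
  set x : ℝ := max t ρ + 1 with hx
  have hxt : t < x := by rw [hx]; linarith [le_max_left t ρ]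
  have hxρ : ρ < x := by rw [hx]; linarith [le_max_right t ρ]
  have h12 := IsPreconnected.union (⟨x, ρ + 1⟩ : ℂ)
    (show (⟨x, ρ + 1⟩ : ℂ) ∈ {z : ℂ | t ≤ z.re ∧ ρ < z.im} from ⟨hxt.le, by simp⟩)
    (show (⟨x, ρ + 1⟩ : ℂ) ∈ {z : ℂ | ρ < z.re ∧ t ≤ z.re} from ⟨hxρ, hxt.le⟩)
    c1.isPreconnected c2.isPreconnected
  have h123 := IsPreconnected.union (⟨x, -ρ - 1⟩ : ℂ) (Or.inr ⟨hxρ, hxt.le⟩)
    (show (⟨x, -ρ - 1⟩ : ℂ) ∈ {z : ℂ | t ≤ z.re ∧ z.im < -ρ} from ⟨hxt.le, by simp⟩)
    h12 c3.isPreconnected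
  convert h123 using 1
  ext z
  constructor
  · rintro ⟨hz, hzt⟩
    simp only [bx, mem_ofPred_eq, not_and_or, not_le, lt_abs] at hz
    rcases hz with (hz | hz) | (hz | hz)
    · exact Or.inl (Or.inr ⟨hz, hzt⟩)
    · exfalso; linarith
    · exact Or.inl (Or.inl ⟨hzt, hz⟩)
    · exact Or.inr ⟨hzt, show z.im < -ρ by linarith⟩
  · rintro ((⟨h, h'⟩ | ⟨h, h'⟩) | ⟨h, h'⟩)
    · exact ⟨fun hb => by have := (abs_le.1 hb.2).2; linarith, h⟩
    · exact ⟨fun hb => by have := (abs_le.1 hb.1).2; linarith, h'⟩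
    · exact ⟨fun hb => by have := (abs_le.1 hb.2).1; linarith, h⟩

lemma preconn_le {t ρ : ℝ} (h1 : t < ρ) (hρ : 0 < ρ) :
    IsPreconnected {z : ℂ | z ∉ bx ρ ∧ z.re ≤ t} := by
  have h := (preconn_ge (t := -t) (ρ := ρ) (by linarith) hρ).image (fun z : ℂ => -z)
    continuous_neg.continuousOn
  convert h using 1
  ext z
  constructor
  · rintro ⟨hz, hzt⟩
    refine ⟨-z, ⟨fun hb => hz ?_, by simp only [Complex.neg_re]; linarith⟩, by simp⟩
    simpa [bx] using hb
  · rintro ⟨w, ⟨hw, hwt⟩, rfl⟩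
    refine ⟨fun hb => hw (by simpa [bx] using hb), ?_⟩
    simp only [Complex.neg_re]; linarith

variable {Y : Set ℂ} {A f : ℂ → ℝ} {R t : ℝ}

lemma contAt (hY : IsExteriorDomain Yᶜ) (hf : LocallyLipschitzOn Yᶜ f) {z : ℂ} (hz : z ∉ Y) :
    ContinuousAt f z :=
  hf.continuousOn.continuousAt ((cpt_of hY).isClosed.isOpen_compl.mem_nhds hz)

/-- **level sets of a switched function are preconnected** -/
theorem lv_preconn (hY : IsExteriorDomain Yᶜ) (hA : LocallyLipschitzOn Yᶜ A) (hAb : LB A)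
    (hR : Y ⊆ ball 0 R) (hfar : ∀ z : ℂ, R ≤ ‖z‖ → A z = z.re) (hs : Swd Y A) (t : ℝ) :
    IsPreconnected (Lv Y A t) := by
  set ρ : ℝ := max R (|t| + 1) with hρ
  have hρR : R ≤ ρ := le_max_left _ _
  have hρt : |t| < ρ := by rw [hρ]; linarith [le_max_right R (|t| + 1)]
  have hρ0 : 0 < ρ := (abs_nonneg t).trans_lt hρt
  have hout : ∀ z, z ∉ bx ρ → z ∉ Y ∧ A z = z.re := by
    intro z hz
    have h1 := norm_of_notMem_bx hz
    refine ⟨fun h => ?_, hfar z (hρR.trans h1.le)⟩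
    have h2 := mem_ball_zero_iff.1 (hR h)
    linarith
  have hge : IsPreconnected {z | t ≤ up Y A z} := by
    refine preconn_of_noIsland ((usc_up hY hAb).isClosed_preimage t)
      (Uni_659.noIsland_up hY hAb (fun z hz => contAt hY hA hz) hs t) (bx_compact ρ) ?_
    convert preconn_ge (t := t) (ρ := ρ) (by linarith [(abs_lt.1 hρt).1]) hρ0 using 1
    ext z
    constructor
    · rintro ⟨h1, h2⟩
      refine ⟨h2, ?_⟩
      obtain ⟨h3, h4⟩ := hout z h2
      rw [← h4, ← Sd_938.up_eq hY hAb hA h3]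
      exact h1
    · rintro ⟨h2, h1⟩
      obtain ⟨h3, h4⟩ := hout z h2
      refine ⟨?_, h2⟩
      show t ≤ up Y A z
      rw [Sd_938.up_eq hY hAb hA h3, h4]
      exact h1
  have hle : IsPreconnected {z | lo Y A z ≤ t} := by
    refine preconn_of_noIsland ((lsc_lo hY hAb).isClosed_preimage t)
      (Uni_659.noIsland_lo hY hAb (fun z hz => contAt hY hA hz) hs t) (bx_compact ρ) ?_
    convert preconn_le (t := t) (ρ := ρ) (abs_lt.1 hρt).2 hρ0 using 1
    ext z
    constructor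
    · rintro ⟨h1, h2⟩
      refine ⟨h2, ?_⟩
      obtain ⟨h3, h4⟩ := hout z h2
      rw [← h4, ← Sd_938.lo_eq hY hAb hA h3]
      exact h1
    · rintro ⟨h2, h1⟩
      obtain ⟨h3, h4⟩ := hout z h2
      refine ⟨?_, h2⟩
      show lo Y A z ≤ t
      rw [Sd_938.lo_eq hY hAb hA h3, h4]
      exact h1
  exact Nit_39.isPreconnected_level (lsc_lo hY hAb) (usc_up hY hAb) (lo_le_up hY hAb) hle hge

end Crest.Agent.R105.Cpt_948
end

-- ▼ part R105/Bar1_764
section

/-!
# Row 105, BARRIER LEMMA, part 1 (helper764): separation by a cut-off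

* `cross` : two paths of a box cross (Poincaré-Miranda)
* `meets` : a compact connected set joining bottom to top meets an open connected set joining
  left to right
* `exists_kappa` (SEP): for an open barrier there is a smooth cut-off `κ`, `1` above, `0` below,
  locally constant near `E` and near the points of the box outside the barrier
-/

set_option autoImplicit false

open Set Filter Topology Metric
open scoped ContDiff

namespace Crest.Agent.R105.Bar_764

/-- two paths cross -/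
theorem cross {α β : ℝ → ℂ} (hα : ContinuousOn α (Icc 0 1)) (hβ : ContinuousOn β (Icc 0 1))
    {A H : ℝ} (hα0 : (α 0).re ≤ -A) (hα1 : A ≤ (α 1).re)
    (hαH : ∀ t ∈ Icc (0 : ℝ) 1, |(α t).im| ≤ H) (hβ0 : (β 0).im ≤ -H) (hβ1 : H ≤ (β 1).im)
    (hβA : ∀ t ∈ Icc (0 : ℝ) 1, |(β t).re| ≤ A) :
    ∃ s ∈ Icc (0 : ℝ) 1, ∃ t ∈ Icc (0 : ℝ) 1, α s = β t := by
  set q : ℝ → ℝ := fun x => (x + 1) / 2 with hq
  have hqm : ∀ x ∈ Icc (-1 : ℝ) 1, q x ∈ Icc (0 : ℝ) 1 := by
    intro x hx
    simp only [hq]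
    exact ⟨by linarith [hx.1], by linarith [hx.2]⟩
  have hqc : Continuous q := by rw [hq]; fun_prop
  obtain ⟨x, hx, h⟩ := Crest.Agent.R202.poincare_miranda (ι := Fin 2)
    (fun x => ![(α (q (x 0))).re - (β (q (x 1))).re, (β (q (x 1))).im - (α (q (x 0))).im])
    (by
      rw [continuousOn_pi]
      have h1 : ContinuousOn (fun x : Fin 2 → ℝ => α (q (x 0)))
          (Set.pi Set.univ fun _ => Set.Icc (-1 : ℝ) 1) :=
        hα.comp (hqc.comp (continuous_apply 0)).continuousOn fun x hx => hqm _ (hx 0 (mem_univ _))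
      have h2 : ContinuousOn (fun x : Fin 2 → ℝ => β (q (x 1)))
          (Set.pi Set.univ fun _ => Set.Icc (-1 : ℝ) 1) :=
        hβ.comp (hqc.comp (continuous_apply 1)).continuousOn fun x hx => hqm _ (hx 1 (mem_univ _))
      intro i
      fin_cases i
      · exact (Complex.continuous_re.comp_continuousOn h1).sub
          (Complex.continuous_re.comp_continuousOn h2)
      · exact (Complex.continuous_im.comp_continuousOn h2).sub
          (Complex.continuous_im.comp_continuousOn h1))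
    (by
      intro x hx i hi
      have m0 := hqm _ (hx 0 (mem_univ _))
      have m1 := hqm _ (hx 1 (mem_univ _))
      fin_cases i
      · change x 0 = 1 at hi
        change 0 ≤ (α (q (x 0))).re - (β (q (x 1))).re
        have e : q (x 0) = 1 := by rw [hi]; simp [hq]
        rw [e]
        have := (abs_le.1 (hβA _ m1)).2
        linarith
      · change x 1 = 1 at hi
        change 0 ≤ (β (q (x 1))).im - (α (q (x 0))).im
        have e : q (x 1) = 1 := by rw [hi]; simp [hq]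
        rw [e]
        have := (abs_le.1 (hαH _ m0)).2
        linarith)
    (by
      intro x hx i hi
      have m0 := hqm _ (hx 0 (mem_univ _))
      have m1 := hqm _ (hx 1 (mem_univ _))
      fin_cases i
      · change x 0 = -1 at hi
        change (α (q (x 0))).re - (β (q (x 1))).re ≤ 0
        have e : q (x 0) = 0 := by rw [hi]; simp [hq]
        rw [e]
        have := (abs_le.1 (hβA _ m1)).1
        linarith
      · change x 1 = -1 at hi
        change (β (q (x 1))).im - (α (q (x 0))).im ≤ 0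
        have e : q (x 1) = 0 := by rw [hi]; simp [hq]
        rw [e]
        have := (abs_le.1 (hαH _ m0)).1
        linarith)
  refine ⟨q (x 0), hqm _ (hx 0 (mem_univ _)), q (x 1), hqm _ (hx 1 (mem_univ _)), ?_⟩
  have h0 : (α (q (x 0))).re - (β (q (x 1))).re = 0 := h 0
  have h1 : (β (q (x 1))).im - (α (q (x 0))).im = 0 := h 1
  exact Complex.ext (by linarith) (by linarith)



/-- the closed box -/
def Bx (A H : ℝ) : Set ℂ := {z | |z.re| ≤ A ∧ |z.im| ≤ H}







end Crest.Agent.R105.Bar_764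
end

-- ▼ part R105/Lt1_275
section

/-!
# Row 105, S0138 (T-frame), NI-3a (helper275): level sets are continua

`E ⊆ ℂ` compact, `u` continuous on `Eᶜ`, `up / um` its upper / lower boundary values, constant on
the components of `E` (structure `Pr`). If `{u > s}` and `{u < s}` are preconnected for all `s` and
`u = re` near infinity then `L_t = {um ≤ t ≤ up}` is a continuum in every big box, closed and
connected in the plane.
-/

set_option autoImplicit false

open Set Filter Topology Metric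

namespace Crest.Agent.R105.Lt_275

/-! ### saturation -/

section Sat
variable {X : Type*} [TopologicalSpace X] [T2Space X] {E F : Set X}

omit [T2Space X] in
theorem sub_left {C K L : Set X} (hC : IsPreconnected C) (hK : IsClosed K) (hL : IsClosed L)
    (hsub : C ⊆ K ∪ L) (hd : Disjoint K L) (hne : (C ∩ K).Nonempty) : C ⊆ K := by
  rcases isPreconnected_iff_subset_of_disjoint_closed.1 hC K L hK hL hsub
    (by rw [hd.inter_eq, inter_empty]) with h | h
  · exact h
  · obtain ⟨x, hx, hxK⟩ := hne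
    exact (disjoint_left.1 hd hxK (h hx)).elim

/-- `F` together with all components of `E` which meet `F` -/
def sat (E F : Set X) : Set X := F ∪ {z | z ∈ E ∧ (connectedComponentIn E z ∩ F).Nonempty}





end Sat

/-! ### boundary bumping in a closed connected set -/


/-! ### boundary values -/

/-- `up`, `um` are the upper / lower boundary values of `u` at the components of `E` -/
structure Pr (E : Set ℂ) (u up um : ℂ → ℝ) : Prop where
  hE : IsCompact E
  cont : ContinuousOn u Eᶜ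
  eqp : ∀ z ∉ E, up z = u z
  eqm : ∀ z ∉ E, um z = u z
  le : ∀ z, um z ≤ up z
  limp : ∀ z ∈ E, ∀ s, up z < s → ∃ O, IsOpen O ∧ connectedComponentIn E z ⊆ O ∧
    ∀ w ∈ O, w ∉ E → u w < s
  limm : ∀ z ∈ E, ∀ s, s < um z → ∃ O, IsOpen O ∧ connectedComponentIn E z ⊆ O ∧
    ∀ w ∈ O, w ∉ E → s < u w
  attp : ∀ z ∈ E, ∀ s, s < up z → ∀ O, IsOpen O → connectedComponentIn E z ⊆ O →
    ∃ w ∈ O, w ∉ E ∧ s < u w
  attm : ∀ z ∈ E, ∀ s, um z < s → ∀ O, IsOpen O → connectedComponentIn E z ⊆ O →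
    ∃ w ∈ O, w ∉ E ∧ u w < s

section Lev
variable {E : Set ℂ} {u up um : ℂ → ℝ}

theorem Pr.neg (h : Pr E u up um) :
    Pr E (fun z => - u z) (fun z => - um z) (fun z => - up z) where
  hE := h.hE
  cont := h.cont.neg
  eqp z hz := by rw [h.eqm z hz]
  eqm z hz := by rw [h.eqp z hz]
  le z := neg_le_neg (h.le z)
  limp z hz s hs := by
    obtain ⟨O, h1, h2, h3⟩ := h.limm z hz (-s) (by linarith)
    exact ⟨O, h1, h2, fun w hw hwE => by linarith [h3 w hw hwE]⟩
  limm z hz s hs := by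
    obtain ⟨O, h1, h2, h3⟩ := h.limp z hz (-s) (by linarith)
    exact ⟨O, h1, h2, fun w hw hwE => by linarith [h3 w hw hwE]⟩
  attp z hz s hs O hO hKO := by
    obtain ⟨w, h1, h2, h3⟩ := h.attm z hz (-s) (by linarith) O hO hKO
    exact ⟨w, h1, h2, by linarith⟩
  attm z hz s hs O hO hKO := by
    obtain ⟨w, h1, h2, h3⟩ := h.attp z hz (-s) (by linarith) O hO hKO
    exact ⟨w, h1, h2, by linarith⟩

/-- `up` is upper semicontinuous -/
theorem Pr.isClosed_ge (h : Pr E u up um) (t : ℝ) : IsClosed {z | t ≤ up z} := by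
  rw [← isOpen_compl_iff, isOpen_iff_mem_nhds]
  intro z hz
  have hz' : up z < t := not_le.1 hz
  by_cases hzE : z ∈ E
  · obtain ⟨s, h1, h2⟩ := exists_between hz'
    obtain ⟨O, hO, hKO, hlt⟩ := h.limp z hzE s h1
    obtain ⟨K, h1', h2', hKE, hCK, hKF⟩ := Thin_12.exists_clopen h.hE hzE hO hKO
    have hzK : z ∈ K := hCK (mem_connectedComponentIn hzE)
    filter_upwards [hO.mem_nhds (hKO (mem_connectedComponentIn hzE)),
      h2'.isClosed.isOpen_compl.mem_nhds fun h => h.2 hzK] with w hw hw' hcon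
    have hcon' : t ≤ up w := hcon
    by_cases hwE : w ∈ E
    · have hwK : w ∈ K := by
        by_contra h
        exact hw' ⟨hwE, h⟩
      have hsub : connectedComponentIn E w ⊆ K := by
        refine sub_left isPreconnected_connectedComponentIn h1'.isClosed h2'.isClosed ?_ ?_
          ⟨w, mem_connectedComponentIn hwE, hwK⟩
        · intro y hy
          have hyE := connectedComponentIn_subset _ _ hy
          by_cases h : y ∈ K
          · exact Or.inl h
          · exact Or.inr ⟨hyE, h⟩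
        · exact disjoint_sdiff_right
      obtain ⟨w', h3, h4, h5⟩ := h.attp w hwE s (h2.trans_le hcon') O hO (hsub.trans hKF)
      linarith [hlt w' h3 h4]
    · have := hlt w hw hwE
      rw [h.eqp w hwE] at hcon'
      linarith
  · have hc : ContinuousAt u z := h.cont.continuousAt (h.hE.isClosed.isOpen_compl.mem_nhds hzE)
    rw [h.eqp z hzE] at hz'
    filter_upwards [hc.eventually_lt continuousAt_const hz',
      h.hE.isClosed.isOpen_compl.mem_nhds hzE] with w hw hwE hcon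
    have hcon' : t ≤ up w := hcon
    rw [h.eqp w hwE] at hcon'
    exact absurd hcon' (not_le.2 hw)

theorem Pr.isClosed_le (h : Pr E u up um) (t : ℝ) : IsClosed {z | um z ≤ t} := by
  have := h.neg.isClosed_ge (-t)
  simpa using this




/-! ### retraction onto a box -/








/-- `u` is the real part near infinity -/
structure Nrm (E : Set ℂ) (u : ℂ → ℝ) (R : ℝ) : Prop where
  pos : 0 < R
  sub : ∀ z ∈ E, ‖z‖ < R
  eq : ∀ z, R ≤ ‖z‖ → u z = z.re








end Lev

end Crest.Agent.R105.Lt_275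
namespace Crest.Agent.R105.Lt_275.Nrm
end Crest.Agent.R105.Lt_275.Nrm
end

-- ▼ part R105/Cpt1_948
section

/-!
# Row 105, S0138, node E13 HC, piece (1) CUT POINT (helper948; plan 250 #10537)

`u` switched (`Swd`), `u = re` near infinity. `Crs Y u t z e` : `z` is a crossing point of the level
`t` (a good point), i.e. a segment `[z - e, z + e]` off `Y` passes from `{u < t}` to `{u > t}`.

* `exists_gam` : a closed set `Γ` through `z` joining far left to far right with `Γ ∩ L_t = {z}`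
* **`cut`** : for every preconnected `K ⊆ L_t` with `z ∉ K` there is a closed, preconnected,
  saturated, unbounded `C ⊆ L_t` with `z ∈ C`, disjoint from `K`
* **`cut_in`** : the same inside a bounded open `N` with `frontier N ∩ Y = ∅` : `C` is a continuum
  from `z` to `frontier N`
* `crs_of_fderiv` : points off `Y` where `u` is differentiable with derivative `≠ 0` are crossings
-/

set_option autoImplicit false

open MeasureTheory Set Filter Topology Metric

namespace Crest.Agent.R105.Cpt_948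

open Crest.AnalysisR (IsExteriorDomain)
open Crest.Agent.R105.Ni_459

/-- crossing point of the level `t` in the direction `e` -/
structure Crs (Y : Set ℂ) (u : ℂ → ℝ) (t : ℝ) (z e : ℂ) : Prop where
  off : z ∉ Y
  eq : u z = t
  pos : ∀ s : ℝ, 0 < s → s ≤ 1 → z + s • e ∉ Y ∧ t < u (z + s • e)
  neg : ∀ s : ℝ, 0 < s → s ≤ 1 → z - s • e ∉ Y ∧ u (z - s • e) < t

/-- one side of a cut point is connected -/
theorem preconn_of_cut {X : Type*} [TopologicalSpace X] {L F₁ F₂ : Set X} {z : X}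
    (hL : IsPreconnected L) (h1 : IsClosed F₁) (h2 : IsClosed F₂) (h12 : L = F₁ ∪ F₂)
    (hi : F₁ ∩ F₂ ⊆ {z}) (hz : z ∈ F₁) (hz2 : z ∈ F₂) : IsPreconnected F₂ := by
  rw [isPreconnected_closed_iff] at hL ⊢
  have key : ∀ A B : Set X, IsClosed A → IsClosed B → F₂ ⊆ A ∪ B → z ∈ A → (F₂ ∩ B).Nonempty →
      (F₂ ∩ (A ∩ B)).Nonempty := by
    intro A B hA hB hAB hzA hne
    obtain ⟨x, hxL, hx1, hx2⟩ := hL (F₁ ∪ (F₂ ∩ A)) (F₂ ∩ B) (h1.union (h2.inter hA))
      (h2.inter hB) (by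
        rw [h12]
        rintro x (hx | hx)
        · exact Or.inl (Or.inl hx)
        · rcases hAB hx with h | h
          · exact Or.inl (Or.inr ⟨hx, h⟩)
          · exact Or.inr ⟨hx, h⟩)
      ⟨z, by rw [h12]; exact Or.inl hz, Or.inl hz⟩
      (by
        obtain ⟨y, hy, hyB⟩ := hne
        exact ⟨y, by rw [h12]; exact Or.inr hy, hy, hyB⟩)
    rcases hx1 with h | h
    · have : x = z := hi ⟨h, hx2.1⟩
      subst this
      exact ⟨x, hx2.1, hzA, hx2.2⟩
    · exact ⟨x, h.1, h.2, hx2.2⟩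
  intro A B hA hB hAB hnA hnB
  rcases hAB hz2 with h | h
  · exact key A B hA hB hAB h hnB
  · obtain ⟨x, h1, h2, h3⟩ := key B A hB hA (by rwa [union_comm]) h hnA
    exact ⟨x, h1, h3, h2⟩

/-- an open connected set off `Γ` is not both above and below a left-right curve `Γ` -/
theorem not_both {Γ W : Set ℂ} {H : ℝ} (hH : ∀ w ∈ Γ, |w.im| ≤ H)
    (hj : ∀ A : ℝ, ∃ a b : ℂ, a.re ≤ -A ∧ A ≤ b.re ∧ JoinedIn Γ a b)
    (hWo : IsOpen W) (hWc : IsPreconnected W) (hd : Disjoint W Γ) {a b : ℂ} (ha : a ∈ W)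
    (hb : b ∈ W) (ha' : H ≤ a.im) (hb' : b.im ≤ -H) : False := by
  have hWp : IsPathConnected W := (hWo.isConnected_iff_isPathConnected).1 ⟨⟨a, ha⟩, hWc⟩
  obtain ⟨β, hβ⟩ := hWp.joinedIn b hb a ha
  obtain ⟨A, hA⟩ := (isCompact_range β.continuous).isBounded.exists_norm_le
  obtain ⟨c, d, hc, hd', hcd⟩ := hj A
  obtain ⟨α, hα⟩ := hcd
  obtain ⟨s, hs, t, ht, hst⟩ := Bar_764.cross (α := α.extend) (β := β.extend) (A := A) (H := H)
    α.continuous_extend.continuousOn β.continuous_extend.continuousOn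
    (by rw [α.extend_zero]; exact hc) (by rw [α.extend_one]; exact hd')
    (fun t ht => by rw [α.extend_apply ht]; exact hH _ (hα _))
    (by rw [β.extend_zero]; exact hb') (by rw [β.extend_one]; exact ha')
    (fun t ht => by
      rw [β.extend_apply ht]
      exact (Complex.abs_re_le_norm _).trans (hA _ (mem_range_self _)))
  rw [α.extend_apply hs, β.extend_apply ht] at hst
  exact disjoint_left.1 hd (hβ _) (hst ▸ hα _)

section
variable {Y : Set ℂ} {u : ℂ → ℝ} {t : ℝ} {z e : ℂ}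

lemma Crs.mem_Lv (hY : IsExteriorDomain Yᶜ) (hu : LB u) (hl : LocallyLipschitzOn Yᶜ u)
    (h : Crs Y u t z e) : z ∈ Lv Y u t :=
  (Sd_938.mem_Lv hY hu hl h.off).2 h.eq

/-- **a curve through `z` which meets the level `L_t` only in `z`** -/
theorem exists_gam (hY : IsExteriorDomain Yᶜ) (hu : LB u) (hl : LocallyLipschitzOn Yᶜ u)
    (hs : Swd Y u) (hfar : ∃ R : ℝ, ∀ z : ℂ, R ≤ ‖z‖ → u z = z.re) (hz : Crs Y u t z e) :
    ∃ (Γ : Set ℂ) (H : ℝ), IsClosed Γ ∧ z ∈ Γ ∧ (∀ w ∈ Γ, w ∈ Lv Y u t → w = z) ∧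
      (∀ w ∈ Γ, |w.im| ≤ H) ∧
      ∀ A : ℝ, ∃ a b : ℂ, a.re ≤ -A ∧ A ≤ b.re ∧ JoinedIn Γ a b := by
  obtain ⟨R, hR⟩ := hfar
  obtain ⟨RY, hRY⟩ := (cpt_of hY).isBounded.exists_norm_le
  set S : ℝ := max (max R RY) |t| + 1 with hSdef
  have hSR : R < S := by rw [hSdef]; linarith [le_max_left (max R RY) |t|, le_max_left R RY]
  have hSRY : RY < S := by rw [hSdef]; linarith [le_max_left (max R RY) |t|, le_max_right R RY]
  have hSt : |t| < S := by rw [hSdef]; linarith [le_max_right (max R RY) |t|]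
  have hS0 : 0 < S := (abs_nonneg t).trans_lt hSt
  have hfarp : ∀ w : ℂ, S ≤ |w.re| → w ∉ Y ∧ u w = w.re := by
    intro w hw
    have h1 := hw.trans (Complex.abs_re_le_norm w)
    exact ⟨fun h => by linarith [hRY w h], hR w (by linarith)⟩
  -- the two rays
  set Rp : Set ℂ := {w | S ≤ w.re ∧ w.im = 0} with hRp
  set Rm : Set ℂ := {w | w.re ≤ -S ∧ w.im = 0} with hRm
  have hRpc : Convex ℝ Rp := by
    have h1 : Convex ℝ {w : ℂ | S ≤ w.re} := convex_halfSpace_re_ge S
    have h2 : Convex ℝ {w : ℂ | w.im = 0} := by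
      intro x hx y hy a b _ _ _
      simp only [mem_ofPred_eq] at hx hy ⊢
      simp [hx, hy]
    exact h1.inter h2
  have hRmc : Convex ℝ Rm := by
    have h1 : Convex ℝ {w : ℂ | w.re ≤ -S} := convex_halfSpace_re_le (-S)
    have h2 : Convex ℝ {w : ℂ | w.im = 0} := by
      intro x hx y hy a b _ _ _
      simp only [mem_ofPred_eq] at hx hy ⊢
      simp [hx, hy]
    exact h1.inter h2
  have hRpcl : IsClosed Rp := (isClosed_le continuous_const Complex.continuous_re).inter
    (isClosed_eq Complex.continuous_im continuous_const)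
  have hRmcl : IsClosed Rm := (isClosed_le Complex.continuous_re continuous_const).inter
    (isClosed_eq Complex.continuous_im continuous_const)
  have hSp : ((S : ℝ) : ℂ) ∈ Rp := ⟨by simp, by simp⟩
  have hSm : ((-S : ℝ) : ℂ) ∈ Rm := ⟨by simp, by simp⟩
  have hRpP : ∀ w ∈ Rp, t < lo Y u w := by
    rintro w ⟨h1, -⟩
    obtain ⟨h2, h3⟩ := hfarp w (h1.trans (le_abs_self _))
    rw [Sd_938.lo_eq hY hu hl h2, h3]
    linarith [(abs_lt.1 hSt).2]
  have hRmM : ∀ w ∈ Rm, up Y u w < t := by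
    rintro w ⟨h1, -⟩
    obtain ⟨h2, h3⟩ := hfarp w (by linarith [neg_le_abs w.re])
    rw [Sd_938.up_eq hY hu hl h2, h3]
    linarith [(abs_lt.1 hSt).1]
  -- `P`, `M` are path connected
  have hPc := Sd_938.conn_P hY hu hl hs ⟨R, hR⟩ t
  have hMc := Sd_938.conn_M hY hu hl hs ⟨R, hR⟩ t
  have hPp : IsPathConnected {w | t < lo Y u w} :=
    ((isOpen_lt_lo hY hu t).isConnected_iff_isPathConnected).1 ⟨⟨_, hRpP _ hSp⟩, hPc⟩
  have hMp : IsPathConnected {w | up Y u w < t} :=
    ((isOpen_up_lt hY hu t).isConnected_iff_isPathConnected).1 ⟨⟨_, hRmM _ hSm⟩, hMc⟩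
  have hzp : t < lo Y u (z + e) := by
    have := hz.pos 1 one_pos le_rfl
    rw [one_smul] at this
    rw [Sd_938.lo_eq hY hu hl this.1]; exact this.2
  have hzm : up Y u (z - e) < t := by
    have := hz.neg 1 one_pos le_rfl
    rw [one_smul] at this
    rw [Sd_938.up_eq hY hu hl this.1]; exact this.2
  obtain ⟨γp, hγp⟩ := hPp.joinedIn (z + e) hzp _ (hRpP _ hSp)
  obtain ⟨γm, hγm⟩ := hMp.joinedIn _ (hRmM _ hSm) (z - e) hzm
  set Q : Set ℂ := (range γm ∪ segment ℝ (z - e) (z + e)) ∪ range γp with hQ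
  have hsegc : IsCompact (segment ℝ (z - e) (z + e)) := by
    rw [segment_eq_image]
    exact isCompact_Icc.image (by fun_prop)
  have hQc : IsCompact Q :=
    ((isCompact_range γm.continuous).union hsegc).union (isCompact_range γp.continuous)
  obtain ⟨H, hH⟩ := hQc.isBounded.exists_norm_le
  have hseg : ∀ w ∈ segment ℝ (z - e) (z + e), w ∈ Lv Y u t → w = z := by
    intro w hw hwL
    rw [segment_eq_image] at hw
    obtain ⟨θ, hθ, rfl⟩ := hw
    have e1 : (1 - θ) • (z - e) + θ • (z + e) = z + (2 * θ - 1) • e := by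
      simp only [Complex.real_smul]
      push_cast
      ring
    have e2 : (1 - θ) • (z - e) + θ • (z + e) = z - (1 - 2 * θ) • e := by
      simp only [Complex.real_smul]
      push_cast
      ring
    rcases lt_trichotomy (2 * θ - 1) 0 with h | h | h
    · obtain ⟨h1, h2⟩ := hz.neg (1 - 2 * θ) (by linarith) (by linarith [hθ.1])
      change (1 - θ) • (z - e) + θ • (z + e) ∈ _ at hwL
      rw [e2] at hwL
      rw [(Sd_938.mem_Lv hY hu hl h1).1 hwL] at h2
      exact absurd h2 (lt_irrefl _)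
    · change (1 - θ) • (z - e) + θ • (z + e) = z
      rw [e1, h, zero_smul, add_zero]
    · obtain ⟨h1, h2⟩ := hz.pos (2 * θ - 1) h (by linarith [hθ.2])
      change (1 - θ) • (z - e) + θ • (z + e) ∈ _ at hwL
      rw [e1] at hwL
      rw [(Sd_938.mem_Lv hY hu hl h1).1 hwL] at h2
      exact absurd h2 (lt_irrefl _)
  refine ⟨(Rm ∪ Q) ∪ Rp, max H 0, (hRmcl.union hQc.isClosed).union hRpcl, ?_, ?_, ?_, ?_⟩
  · refine Or.inl (Or.inr (Or.inl (Or.inr ?_)))
    rw [segment_eq_image]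
    refine ⟨1 / 2, ⟨by norm_num, by norm_num⟩, ?_⟩
    simp only [Complex.real_smul]
    push_cast
    ring
  · rintro w ((hw | ((hw | hw) | hw)) | hw) hwL
    · exact absurd (hRmM w hw) (not_lt.2 hwL.2)
    · obtain ⟨s, rfl⟩ := hw
      exact absurd (hγm s) (not_lt.2 hwL.2)
    · exact hseg w hw hwL
    · obtain ⟨s, rfl⟩ := hw
      exact absurd (hγp s) (not_lt.2 hwL.1)
    · exact absurd (hRpP w hw) (not_lt.2 hwL.1)
  · rintro w ((hw | hw) | hw)
    · rw [hw.2, abs_zero]; exact le_max_right _ _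
    · exact ((Complex.abs_im_le_norm w).trans (hH w hw)).trans (le_max_left _ _)
    · rw [hw.2, abs_zero]; exact le_max_right _ _
  · intro A
    set B : ℝ := max A S with hB
    have hBp : ((B : ℝ) : ℂ) ∈ Rp := ⟨by simp [hB], by simp⟩
    have hBm : ((-B : ℝ) : ℂ) ∈ Rm := ⟨by simp [hB], by simp⟩
    refine ⟨((-B : ℝ) : ℂ), ((B : ℝ) : ℂ), by simp [hB], by simp [hB], ?_⟩
    have j1 : JoinedIn Rm ((-B : ℝ) : ℂ) ((-S : ℝ) : ℂ) :=
      (hRmc.isPathConnected ⟨_, hSm⟩).joinedIn _ hBm _ hSm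
    have j5 : JoinedIn Rp ((S : ℝ) : ℂ) ((B : ℝ) : ℂ) :=
      (hRpc.isPathConnected ⟨_, hSp⟩).joinedIn _ hSp _ hBp
    have j2 : JoinedIn (range γm) ((-S : ℝ) : ℂ) (z - e) := ⟨γm, fun s => mem_range_self s⟩
    have j4 : JoinedIn (range γp) (z + e) ((S : ℝ) : ℂ) := ⟨γp, fun s => mem_range_self s⟩
    have j3 : JoinedIn (segment ℝ (z - e) (z + e)) (z - e) (z + e) :=
      ((convex_segment _ _).isPathConnected ⟨_, left_mem_segment ℝ _ _⟩).joinedIn _
        (left_mem_segment ℝ _ _) _ (right_mem_segment ℝ _ _)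
    have s1 : Rm ⊆ (Rm ∪ Q) ∪ Rp := fun w hw => Or.inl (Or.inl hw)
    have s5 : Rp ⊆ (Rm ∪ Q) ∪ Rp := fun w hw => Or.inr hw
    have s2 : range γm ⊆ (Rm ∪ Q) ∪ Rp := fun w hw => Or.inl (Or.inr (Or.inl (Or.inl hw)))
    have s3 : segment ℝ (z - e) (z + e) ⊆ (Rm ∪ Q) ∪ Rp :=
      fun w hw => Or.inl (Or.inr (Or.inl (Or.inr hw)))
    have s4 : range γp ⊆ (Rm ∪ Q) ∪ Rp := fun w hw => Or.inl (Or.inr (Or.inr hw))
    exact ((((j1.mono s1).trans (j2.mono s2)).trans (j3.mono s3)).trans (j4.mono s4)).trans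
      (j5.mono s5)

/-- the part of the level outside of an open set `W` bounded by `Γ` -/
theorem cut_aux (hY : IsExteriorDomain Yᶜ) (hu : LB u) (hl : LocallyLipschitzOn Yᶜ u)
    (hs : Swd Y u) (hfar : ∃ R : ℝ, ∀ z : ℂ, R ≤ ‖z‖ → u z = z.re) (hzY : z ∉ Y)
    (hzL : z ∈ Lv Y u t) {Γ W : Set ℂ} {H : ℝ} (hzΓ : z ∈ Γ)
    (hΓL : ∀ w ∈ Γ, w ∈ Lv Y u t → w = z) (hH : ∀ w ∈ Γ, |w.im| ≤ H)
    (hj : ∀ A : ℝ, ∃ a b : ℂ, a.re ≤ -A ∧ A ≤ b.re ∧ JoinedIn Γ a b)
    (hWo : IsOpen W) (hWc : IsPreconnected W) (hd : Disjoint W Γ) (hcl : closure W ⊆ W ∪ Γ) :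
    IsClosed (Lv Y u t \ W) ∧ IsPreconnected (Lv Y u t \ W) ∧ z ∈ Lv Y u t \ W ∧
      (∀ w ∈ Lv Y u t \ W, connectedComponentIn Y w ⊆ Lv Y u t \ W) ∧
      ¬ Bornology.IsBounded (Lv Y u t \ W) := by
  have hLcl := Uni_659.isClosed_nLv hY hu t
  have hzW : z ∉ W := fun h => disjoint_left.1 hd h hzΓ
  obtain ⟨R, hR⟩ := hfar
  obtain ⟨RY, hRY⟩ := (cpt_of hY).isBounded.exists_norm_le
  have hYR : Y ⊆ ball 0 (max R (RY + 1)) := fun w hw => by
    rw [mem_ball_zero_iff]
    exact (hRY w hw).trans_lt ((lt_add_one _).trans_le (le_max_right _ _))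
  have hLp : IsPreconnected (Lv Y u t) := lv_preconn hY hl hu hYR
    (fun w hw => hR w ((le_max_left _ _).trans hw)) hs t
  refine ⟨hLcl.sdiff hWo, ?_, ⟨hzL, hzW⟩, ?_, ?_⟩
  · refine preconn_of_cut (F₁ := (Lv Y u t ∩ closure W) ∪ {z}) hLp
      ((hLcl.inter isClosed_closure).union isClosed_singleton) (hLcl.sdiff hWo) ?_ ?_
      (Or.inr rfl) ⟨hzL, hzW⟩
    · apply Subset.antisymm
      · intro w hw
        by_cases h : w ∈ W
        · exact Or.inl (Or.inl ⟨hw, subset_closure h⟩)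
        · exact Or.inr ⟨hw, h⟩
      · rintro w ((hw | hw) | hw)
        · exact hw.1
        · rw [mem_singleton_iff.1 hw]; exact hzL
        · exact hw.1
    · rintro w ⟨hw | hw, hw2⟩
      · rcases hcl hw.2 with h | h
        · exact absurd h hw2.2
        · exact hΓL w h hw.1
      · exact hw
  · intro w hw v hv
    by_cases hwY : w ∈ Y
    · have hccL : connectedComponentIn Y w ⊆ Lv Y u t := by
        intro v hv
        refine ⟨?_, ?_⟩
        · rw [lo_congr_cc hwY hv]; exact hw.1.1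
        · rw [up_congr_cc hwY hv]; exact hw.1.2
      have hccΓ : ∀ v ∈ connectedComponentIn Y w, v ∉ Γ := by
        intro v hv hvΓ
        have := hΓL v hvΓ (hccL hv)
        exact hzY (this ▸ connectedComponentIn_subset _ _ hv)
      refine ⟨hccL hv, fun hvW => ?_⟩
      have hsub : connectedComponentIn Y w ⊆ W := by
        refine isPreconnected_connectedComponentIn.subset_left_of_subset_union hWo
          (isClosed_closure (s := W)).isOpen_compl
          (disjoint_left.2 fun x hx hx' => hx' (subset_closure hx)) (fun x hx => ?_) ⟨v, hv, hvW⟩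
        by_cases h : x ∈ closure W
        · exact Or.inl ((hcl h).resolve_right (hccΓ x hx))
        · exact Or.inr h
      exact hw.2 (hsub (mem_connectedComponentIn hwY))
    · rw [connectedComponentIn_eq_empty hwY] at hv
      exact hv.elim
  · intro hb
    obtain ⟨B, hB⟩ := hb.exists_norm_le
    set T : ℝ := max (max (max R RY) B) (max H 0) + 1 with hT
    have hTR : R < T := by
      rw [hT]; linarith [le_max_left (max (max R RY) B) (max H 0), le_max_left (max R RY) B,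
        le_max_left R RY]
    have hTRY : RY < T := by
      rw [hT]; linarith [le_max_left (max (max R RY) B) (max H 0), le_max_left (max R RY) B,
        le_max_right R RY]
    have hTB : B < T := by
      rw [hT]; linarith [le_max_left (max (max R RY) B) (max H 0), le_max_right (max R RY) B]
    have hTH : H < T := by
      rw [hT]; linarith [le_max_right (max (max R RY) B) (max H 0), le_max_left H 0]
    have hT0 : 0 < T := by
      rw [hT]; linarith [le_max_right (max (max R RY) B) (max H 0), le_max_right H 0]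
    have key : ∀ w : ℂ, w.re = t → |w.im| = T → w ∈ W := by
      intro w h1 h2
      have h3 : T ≤ ‖w‖ := h2 ▸ Complex.abs_im_le_norm w
      have h4 : w ∉ Y := fun h => by linarith [hRY w h]
      have h5 : w ∈ Lv Y u t := by
        rw [Sd_938.mem_Lv hY hu hl h4, hR w (by linarith), h1]
      by_contra h6
      linarith [hB w ⟨h5, h6⟩]
    refine not_both hH hj hWo hWc hd (key ⟨t, T⟩ rfl (abs_of_pos hT0))
      (key ⟨t, -T⟩ rfl (by rw [abs_neg, abs_of_pos hT0])) hTH.le ?_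
    show -T ≤ -H
    linarith

/-- **CUT POINT** -/
theorem cut (hY : IsExteriorDomain Yᶜ) (hu : LB u) (hl : LocallyLipschitzOn Yᶜ u)
    (hs : Swd Y u) (hfar : ∃ R : ℝ, ∀ z : ℂ, R ≤ ‖z‖ → u z = z.re) (hz : Crs Y u t z e)
    {K : Set ℂ} (hK : IsPreconnected K) (hKL : K ⊆ Lv Y u t) (hzK : z ∉ K) :
    ∃ C ⊆ Lv Y u t, IsClosed C ∧ IsPreconnected C ∧ z ∈ C ∧ Disjoint C K ∧
      (∀ w ∈ C, connectedComponentIn Y w ⊆ C) ∧ ¬ Bornology.IsBounded C := by
  obtain ⟨Γ, H, hΓ, hzΓ, hΓL, hH, hj⟩ := exists_gam hY hu hl hs hfar hz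
  have hzL := hz.mem_Lv hY hu hl
  rcases K.eq_empty_or_nonempty with rfl | ⟨k, hk⟩
  · obtain ⟨h1, h2, h3, h4, h5⟩ := cut_aux (W := ∅) hY hu hl hs hfar hz.off hzL hzΓ hΓL hH hj
      isOpen_empty isPreconnected_empty (empty_disjoint _) (by simp)
    exact ⟨_, sdiff_subset, h1, h2, h3, disjoint_empty _, h4, h5⟩
  · have hKΓ : K ⊆ Γᶜ := fun w hw hwΓ => hzK (hΓL w hwΓ (hKL hw) ▸ hw)
    have hWcl : closure (connectedComponentIn Γᶜ k) ⊆ connectedComponentIn Γᶜ k ∪ Γ := by
      intro x hx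
      by_cases hxΓ : x ∈ Γ
      · exact Or.inr hxΓ
      · left
        have ho : connectedComponentIn Γᶜ x ∈ 𝓝 x :=
          hΓ.isOpen_compl.connectedComponentIn.mem_nhds (mem_connectedComponentIn hxΓ)
        obtain ⟨y, hy1, hy2⟩ := mem_closure_iff_nhds.1 hx _ ho
        rw [connectedComponentIn_eq hy2, ← connectedComponentIn_eq hy1]
        exact mem_connectedComponentIn hxΓ
    obtain ⟨h1, h2, h3, h4, h5⟩ := cut_aux (W := connectedComponentIn Γᶜ k) hY hu hl hs hfar
      hz.off hzL hzΓ hΓL hH hj hΓ.isOpen_compl.connectedComponentIn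
      isPreconnected_connectedComponentIn
      (disjoint_left.2 fun x hx hx' => connectedComponentIn_subset _ _ hx hx') hWcl
    refine ⟨_, sdiff_subset, h1, h2, h3, ?_, h4, h5⟩
    exact disjoint_left.2 fun x hx hxK => hx.2 (hK.subset_connectedComponentIn hk hKΓ hxK)




/-- regular points are crossings -/
theorem crs_of_fderiv (hY : IsExteriorDomain Yᶜ) (hzY : z ∉ Y) (hzt : u z = t)
    (hd : DifferentiableAt ℝ u z) (h0 : fderiv ℝ u z ≠ 0) : ∃ e, Crs Y u t z e := by
  obtain ⟨v, hv⟩ : ∃ v, 0 < fderiv ℝ u z v := by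
    by_contra hcon
    push Not at hcon
    apply h0
    ext v
    have h1 := hcon v
    have h2 := hcon (-v)
    rw [map_neg] at h2
    simpa using le_antisymm h1 (by linarith)
  have hg : HasDerivAt (fun s : ℝ => u (z + s • v)) (fderiv ℝ u z v) 0 := by
    have h1 : HasFDerivAt u (fderiv ℝ u z) (z + (0 : ℝ) • v) := by
      rw [zero_smul, add_zero]; exact hd.hasFDerivAt
    have h2 : HasDerivAt (fun s : ℝ => z + s • v) v 0 := by
      simpa using ((hasDerivAt_id (0 : ℝ)).smul_const v).const_add z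
    exact h1.comp_hasDerivAt 0 h2
  rw [hasDerivAt_iff_tendsto_slope] at hg
  have hev := hg.eventually (lt_mem_nhds hv)
  have hY' : ∀ᶠ s : ℝ in 𝓝 0, z + s • v ∉ Y := by
    have hc : Continuous fun s : ℝ => z + s • v := by fun_prop
    have h1 : (fun s : ℝ => z + s • v) ⁻¹' Yᶜ ∈ 𝓝 (0 : ℝ) := by
      refine (hY.1.preimage hc).mem_nhds ?_
      show z + (0 : ℝ) • v ∈ Yᶜ
      rw [zero_smul, add_zero]; exact hzY
    exact h1
  rw [eventually_nhdsWithin_iff] at hev
  obtain ⟨δ, hδ, hb⟩ := Metric.eventually_nhds_iff.1 (hev.and hY')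
  refine ⟨(δ / 2) • v, hzY, hzt, fun s hs hs1 => ?_, fun s hs hs1 => ?_⟩
  · have hp : 0 < s * (δ / 2) := by positivity
    have hlt : s * (δ / 2) < δ := by nlinarith
    obtain ⟨h1, h2⟩ := hb (y := s * (δ / 2)) (by
      rw [Real.dist_eq, sub_zero, abs_of_pos hp]; exact hlt)
    have h3 := h1 hp.ne'
    rw [smul_smul]
    refine ⟨h2, ?_⟩
    rw [slope_def_field] at h3
    simp only [zero_smul, add_zero, sub_zero, hzt] at h3
    have := (div_pos_iff_of_pos_right hp).1 h3
    linarith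
  · have hp : 0 < s * (δ / 2) := by positivity
    have hlt : s * (δ / 2) < δ := by nlinarith
    obtain ⟨h1, h2⟩ := hb (y := -(s * (δ / 2))) (by
      rw [Real.dist_eq, sub_zero, abs_neg, abs_of_pos hp]; exact hlt)
    have h3 := h1 (neg_ne_zero.2 hp.ne')
    rw [smul_smul]
    have e1 : z - (s * (δ / 2)) • v = z + (-(s * (δ / 2))) • v := by
      rw [neg_smul]; ring
    rw [e1]
    refine ⟨h2, ?_⟩
    rw [slope_def_field] at h3
    simp only [zero_smul, add_zero, sub_zero, hzt] at h3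
    have h4 : (u (z + -(s * (δ / 2)) • v) - t) / -(s * (δ / 2)) =
        -((u (z + -(s * (δ / 2)) • v) - t) / (s * (δ / 2))) := by rw [div_neg]
    rw [h4] at h3
    have h5 : (u (z + -(s * (δ / 2)) • v) - t) / (s * (δ / 2)) < 0 := by linarith
    by_contra hcon
    push Not at hcon
    exact absurd (div_nonneg (by linarith) hp.le) (not_le.2 h5)

end

end Crest.Agent.R105.Cpt_948
end

-- ▼ part R105/LmY7_338
section

/-!
# Row 105, S0138, Lemma Y (helper338), part 7: the level sets of a switched function (`= re` far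
away): `Lev`, `BumpL`, `Good`
-/

set_option autoImplicit false

namespace Crest.Agent.R105.LmY_338

open Set Topology Metric Filter MeasureTheory Ni_459 Bd_775 Tc_808
open Crest.AnalysisR (IsExteriorDomain)
open scoped ContDiff ENNReal

variable {Y : Set ℂ} {u : ℂ → ℝ}




/-- regular points are good -/
theorem good (hY : IsExteriorDomain Yᶜ) (hl : LocallyLipschitzOn Yᶜ u) (hu : LB u)
    (hs : Swd Y u) (hfar : ∃ R : ℝ, ∀ z : ℂ, R ≤ ‖z‖ → u z = z.re) {t : ℝ} (X : ℝ) {p : ℂ}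
    (hp : p ∉ Y) (hpt : u p = t) (hd : DifferentiableAt ℝ u p) (h0 : fderiv ℝ u p ≠ 0) :
    Good (Lv Y u t) X p := by
  obtain ⟨e, he⟩ := Cpt_948.crs_of_fderiv hY hp hpt hd h0
  obtain ⟨Γ, H, hΓ, hpΓ, h1, h2, h3⟩ := Cpt_948.exists_gam hY hu hl hs hfar he
  obtain ⟨a, b, ha, hb, hab⟩ := h3 X
  refine ⟨range hab.somePath, isCompact_range hab.somePath.continuous,
    isPreconnected_range hab.somePath.continuous, ?_, ⟨a, ?_, ha⟩, ⟨b, ?_, hb⟩⟩
  · rintro z ⟨⟨s, rfl⟩, hz⟩
    exact h1 _ (hab.somePath_mem s) hz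
  · exact ⟨0, hab.somePath.source⟩
  · exact ⟨1, hab.somePath.target⟩

end Crest.Agent.R105.LmY_338
end

-- ▼ part R105/Gt1_57
section

/-!
# Row 105, S0138, LEMMA Y, leaf (G) of 392 #10557 (helper57)

`Gt T s = |T ∩ (0, s]|` (signed) : the primitive of the indicator of `T`.
* `lip`, `mono` : (G1)
* `osc_le_vol` : (G2) `osc_K (Gt T ∘ a) ≤ |T ∩ [lo_K a, up_K a]|`
* `lint` : (G3) Tonelli for `∑_K c_K 1_[lo_K, up_K]`
* `ae_summable`, `integrable_sl`, `sum_le` : the consumers' forms on `{K ⊆ Lv Y a t}`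
-/

set_option autoImplicit false

open MeasureTheory Set Filter Topology Metric
open scoped NNReal ENNReal

namespace Crest.Agent.R105.Gt_57

open Bd_775 Tc_808 Ends_897 Crest.AnalysisR
open Ni_459 (up lo LB Lv)
open Elf_600 (pt pt_mem pt_mem' cc_pt)

noncomputable section

/-- the primitive of the indicator of `T` -/
def Gt (T : Set ℝ) (s : ℝ) : ℝ := ∫ r in (0 : ℝ)..s, T.indicator (1 : ℝ → ℝ) r

section One
variable {T : Set ℝ} (hT : MeasurableSet T)
include hT

lemma ii (s t : ℝ) : IntervalIntegrable (T.indicator (1 : ℝ → ℝ)) volume s t := by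
  rw [intervalIntegrable_iff]
  refine Integrable.indicator ?_ hT
  exact integrableOn_const (by rw [uIoc]; exact measure_Ioc_lt_top.ne) (by simp)

lemma sub_eq {s t : ℝ} (h : s ≤ t) : Gt T t - Gt T s = (volume (T ∩ Ioc s t)).toReal := by
  unfold Gt
  rw [intervalIntegral.integral_interval_sub_left (ii hT _ _) (ii hT _ _),
    intervalIntegral.integral_of_le h, integral_indicator_one hT]
  rw [measureReal_restrict_apply hT]
  rfl

lemma mono : Monotone (Gt T) := fun s t h => by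
  have := sub_eq hT h
  have h2 : 0 ≤ (volume (T ∩ Ioc s t)).toReal := ENNReal.toReal_nonneg
  linarith





end One

section Sum
variable {Y : Set ℂ} {a : ℂ → ℝ} {T : Set ℝ} {c : Cmp Y → ℝ}

/-- the sum over the components meeting the level `t` -/
def W (Y : Set ℂ) (a : ℂ → ℝ) (c : Cmp Y → ℝ) (t : ℝ) : ℝ≥0∞ :=
  ∑' K : Cmp Y, ENNReal.ofReal (c K) * (Icc (lo Y a (pt K)) (up Y a (pt K))).indicator 1 t








variable (hY : IsExteriorDomain Yᶜ) (ha : LB a) (h0 : ∀ K, 0 ≤ c K)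
  (hc : (Function.support c).Countable) (hs : Summable fun K : Cmp Y => c K * osc Y a K.1)
include hY ha


include h0 hs



include hc






end Sum


end

end Crest.Agent.R105.Gt_57
end

-- ▼ part R105/LmS3_392
section

/-!
# Row 105, S0138, LEMMA Y (338 #10444), slices, part 3 (helper392): good levels, one test function
of (S3), a countable dense family of test functions
-/

set_option autoImplicit false

open MeasureTheory Set Filter Topology Metric
open scoped ENNReal NNReal ContDiff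

namespace Crest.Agent.R105.LmS_392

open Bd_775 Coa_392 Tc_808 Ni_459 Crest.AnalysisR
open Elf_600 (pt)

noncomputable section

variable {Y : Set ℂ} {a y g χ : ℂ → ℝ} {m : ℝ → Measure ℂ} {s : Cmp Y → ℝ} {t : ℝ}
  {μ : Measure ℂ}



/-! ### good levels -/

/-- the analytic part of a good level -/
structure Sl0 (Y : Set ℂ) (a y : ℂ → ℝ) (t : ℝ) (μ : Measure ℂ) : Prop where
  conc : μ {z | ¬ (z ∉ Y ∧ a z = t)} = 0
  fin : ∀ R : ℝ, μ (closedBall 0 R) < ⊤
  finy : ∀ R : ℝ, ∫⁻ z in closedBall 0 R, ‖fderiv ℝ y z‖ₑ ∂μ < ⊤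
  diff : ∀ᵐ z ∂μ, DifferentiableAt ℝ a z ∧ DifferentiableAt ℝ y z ∧ fderiv ℝ a z ≠ 0





/-! ### a countable dense family -/











end

end Crest.Agent.R105.LmS_392
end

-- ▼ part R105/LmY8_338
section

/-!
# Row 105, S0138, Lemma Y (helper338), part 8: from the slices of 392 to the slice data `Slc`
-/

set_option autoImplicit false

namespace Crest.Agent.R105.LmY_338

open Set Topology Metric Filter MeasureTheory Ni_459 Bd_775 Tc_808 LmS_392 Elf_600
open Crest.AnalysisR (IsExteriorDomain)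
open scoped ContDiff ENNReal

variable {Y : Set ℂ} {a y : ℂ → ℝ} {s : Cmp Y → ℝ} {t : ℝ}

/-- unit tangent of the levels of `a` -/
noncomputable def ee (a : ℂ → ℝ) (z : ℂ) : ℂ :=
  ⟨-(gy a z) / ‖fderiv ℝ a z‖, gx a z / ‖fderiv ℝ a z‖⟩




/-- the jump measure of a level -/
noncomputable def sg (Y : Set ℂ) (a : ℂ → ℝ) (s : Cmp Y → ℝ) (t : ℝ) : Measure ℂ :=
  Measure.sum fun K : {K : Cmp Y // K.1 ⊆ Lv Y a t} =>
    ENNReal.ofReal (s K.1) • Measure.dirac (pt K.1)

lemma sg_apply {A : Set ℂ} (hA : MeasurableSet A) : sg Y a s t A =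
    ∑' K : {K : Cmp Y // K.1 ⊆ Lv Y a t}, ENNReal.ofReal (s K.1) * A.indicator 1 (pt K.1) := by
  unfold sg
  rw [Measure.sum_apply _ hA]
  refine tsum_congr fun K => ?_
  rw [Measure.smul_apply, smul_eq_mul, Measure.dirac_apply' _ hA]


lemma sg_zero {A : Set ℂ} (hA : MeasurableSet A)
    (h : ∀ K : Cmp Y, K.1 ⊆ Lv Y a t → 0 < s K → pt K ∉ A) : sg Y a s t A = 0 := by
  rw [sg_apply hA, ENNReal.tsum_eq_zero]
  intro K
  rcases le_or_gt (s K.1) 0 with h0 | h0
  · rw [ENNReal.ofReal_of_nonpos h0, zero_mul]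
  · rw [indicator_of_notMem (h K.1 K.2 h0), mul_zero]



lemma Cmp.eq_of_mem {Y : Set ℂ} {K L : Cmp Y} {z : ℂ} (hK : z ∈ K.1) (hL : z ∈ L.1) : K = L := by
  obtain ⟨K', k, hk, rfl⟩ := K
  obtain ⟨L', l, hl, rfl⟩ := L
  refine Subtype.ext ?_
  show connectedComponentIn Y k = connectedComponentIn Y l
  rw [connectedComponentIn_eq hK, connectedComponentIn_eq hL]








end Crest.Agent.R105.LmY_338
end

-- ▼ part R105/LmS4_392
section

/-!
# Row 105, S0138, LEMMA Y (338 #10444), slices, part 4 (helper392): (S1) and (S3) for all test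
functions at once
-/

set_option autoImplicit false

open MeasureTheory Set Filter Topology Metric
open scoped ENNReal NNReal ContDiff

namespace Crest.Agent.R105.LmS_392

open Bd_775 Coa_392 Tc_808 Ni_459 Crest.AnalysisR
open Elf_600 (pt)

noncomputable section

variable {Y : Set ℂ} {a y g χ : ℂ → ℝ} {m : ℝ → Measure ℂ} {s : Cmp Y → ℝ} {t : ℝ}
  {μ : Measure ℂ}






lemma Lc1.sub {d : ℂ → ℝ} (hχ : Lc1 Y χ) (hd : Lc1 Y d) : Lc1 Y fun z => χ z - d z := by
  refine ⟨hχ.sm.sub hd.sm, fun z hz => ?_⟩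
  filter_upwards [hχ.lc z hz, hd.lc z hz] with w h1 h2
  rw [h1, h2]







end

end Crest.Agent.R105.LmS_392
end

-- ▼ part R105/Hgp1_608
section

/-!
# Row 105, S0138, LmY2, leaf (H) (helper608): good points on continua in the levels

For `a` locally Lipschitz on the open set `U` and a disintegration `m` of `|∇a| dA` over the levels
of `a` (`Coa_392.Disint`): for almost every `t` every nondegenerate connected subset `C` of
`U ∩ {a = t}` contains a point `p` which is no atom of `m t`, with `a` differentiable at `p` and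
`∇a(p) ≠ 0`.
-/

set_option autoImplicit false

open MeasureTheory Set Filter Topology Metric
open scoped ENNReal NNReal

namespace Crest.Agent.R105.Hgp_608

open Coa_392

/-- a `μ`-null set has null projection if open sets satisfy the slice inequality -/
theorem null_of_open {μ : Measure ℂ} (hf : ∀ R : ℝ, μ (ball 0 R) < ⊤) {L : Set ℂ} {b : ℂ → ℝ}
    (ho : ∀ W : Set ℂ, IsOpen W → volume (b '' (W ∩ L)) ≤ μ W) {N : Set ℂ} (hN : μ N = 0) :
    volume (b '' (N ∩ L)) = 0 := by
  have key : ∀ n : ℕ, volume (b '' ((N ∩ ball 0 (n : ℝ)) ∩ L)) = 0 := by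
    intro n
    set ν : Measure ℂ := μ.restrict (ball 0 (n : ℝ)) with hν
    have : IsFiniteMeasure ν := ⟨by rw [hν, Measure.restrict_apply_univ]; exact hf _⟩
    have hνN : ν N = 0 := nonpos_iff_eq_zero.1 ((Measure.restrict_apply_le _ _).trans hN.le)
    refine le_antisymm (ENNReal.le_of_forall_pos_le_add fun ε hε _ => ?_) bot_le
    have hε' : (ε : ℝ≥0∞) ≠ 0 := by
      simpa using hε.ne'
    obtain ⟨W, hNW, hWo, hW⟩ := N.exists_isOpen_lt_add (μ := ν) (by rw [hνN]; simp) hε'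
    rw [hνN, zero_add] at hW
    rw [zero_add]
    calc volume (b '' ((N ∩ ball 0 (n : ℝ)) ∩ L))
        ≤ volume (b '' ((W ∩ ball 0 (n : ℝ)) ∩ L)) :=
          measure_mono (image_mono (inter_subset_inter_left _ (inter_subset_inter_left _ hNW)))
      _ ≤ μ (W ∩ ball 0 (n : ℝ)) := ho _ (hWo.inter isOpen_ball)
      _ = ν W := by rw [hν, Measure.restrict_apply hWo.measurableSet]
      _ ≤ ε := hW.le
  have hU : b '' (N ∩ L) = ⋃ n : ℕ, b '' ((N ∩ ball 0 (n : ℝ)) ∩ L) := by
    rw [← image_iUnion, ← iUnion_inter, ← inter_iUnion]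
    congr 2
    refine (inter_eq_self_of_subset_left ?_).symm
    intro z _
    obtain ⟨n, hn⟩ := exists_nat_gt (dist z 0)
    exact mem_iUnion.2 ⟨n, hn⟩
  rw [hU]
  exact measure_iUnion_null key

/-- a preconnected null set of reals is a subsingleton -/
theorem subsingleton_of_null {S : Set ℝ} (hS : IsPreconnected S) (h0 : volume S = 0) :
    S.Subsingleton := by
  intro x hx y hy
  by_contra hne
  rcases lt_or_gt_of_ne hne with h | h
  · have h1 : Icc x y ⊆ S := hS.ordConnected.out hx hy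
    have h2 : volume (Icc x y) = 0 := measure_mono_null h1 h0
    rw [Real.volume_Icc, ENNReal.ofReal_eq_zero] at h2
    linarith
  · have h1 : Icc y x ⊆ S := hS.ordConnected.out hy hx
    have h2 : volume (Icc y x) = 0 := measure_mono_null h1 h0
    rw [Real.volume_Icc, ENNReal.ofReal_eq_zero] at h2
    linarith

/-- the atoms of a σ-finite measure are countable -/
theorem countable_atoms (μ : Measure ℂ) [SigmaFinite μ] : {p : ℂ | μ {p} ≠ 0}.Countable := by
  have h := Measure.countable_meas_pos_of_disjoint_iUnion (μ := μ) (As := fun p : ℂ => {p})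
    (fun p => measurableSet_singleton p)
    (fun p q hpq => by simpa [Function.onFun] using hpq)
  refine h.mono fun p hp => ?_
  exact pos_iff_ne_zero.2 hp

theorem locLip_of {U : Set ℂ} (b : ℂ →L[ℝ] ℝ) : LocallyLipschitzOn U (b : ℂ → ℝ) :=
  b.lipschitz.locallyLipschitz.locallyLipschitzOn

/-- slice inequality for a linear function `b` with `‖b‖ ≤ 1` -/
theorem slice_lin {U : Set ℂ} (hU : IsOpen U) {a : ℂ → ℝ} {m : ℝ → Measure ℂ}
    (ha : LocallyLipschitzOn U a) (h : Disint U a m)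
    (hfin : ∀ R : ℝ, ∫⁻ z in U ∩ ball 0 R, ‖fderiv ℝ a z‖ₑ < ⊤) (b : ℂ →L[ℝ] ℝ) (hb : ‖b‖ = 1) :
    ∀ᵐ t, (∀ R : ℝ, m t (ball 0 R) < ⊤) ∧
      ∀ W, IsOpen W → volume (b '' (W ∩ (U ∩ a ⁻¹' {t}))) ≤ m t W := by
  have he : ∀ z, ‖fderiv ℝ (b : ℂ → ℝ) z‖ₑ = 1 := by
    intro z
    rw [b.fderiv, ← ofReal_norm, hb, ENNReal.ofReal_one]
  have h1 := slice_all hU ha h (locLip_of b) (by
    intro R
    simp only [he, mul_one]
    exact hfin R)
  filter_upwards [h1] with t ht
  refine ⟨fun R => ?_, fun W hW => ?_⟩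
  · have := ht.1 R
    simp only [he, lintegral_one, Measure.restrict_apply_univ] at this
    exact this
  · have := ht.2 W (Or.inl hW)
    simp only [he, lintegral_one, Measure.restrict_apply_univ] at this
    exact this

/-- the critical points are null for almost every slice -/
theorem ae_crit {U : Set ℂ} {a : ℂ → ℝ} {m : ℝ → Measure ℂ} (h : Disint U a m) :
    ∀ᵐ t, m t {z | fderiv ℝ a z = 0} = 0 := by
  have hB : MeasurableSet {z : ℂ | fderiv ℝ a z = 0} :=
    (measurable_fderiv ℝ a) (measurableSet_singleton 0)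
  have h3 := h.coarea ({z : ℂ | fderiv ℝ a z = 0}.indicator 1) (measurable_one.indicator hB)
  have h4 : ∫⁻ z in U, {z : ℂ | fderiv ℝ a z = 0}.indicator (1 : ℂ → ℝ≥0∞) z *
      ‖fderiv ℝ a z‖ₑ = 0 := by
    refine lintegral_eq_zero_of_ae_eq_zero (Eventually.of_forall fun z => ?_)
    by_cases hz : fderiv ℝ a z = 0
    · have h5 : ‖fderiv ℝ a z‖ₑ = 0 := by
        rw [← ofReal_norm, hz, norm_zero, ENNReal.ofReal_zero]
      simp only [h5, mul_zero, Pi.zero_apply]
    · have : z ∉ {z : ℂ | fderiv ℝ a z = 0} := hz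
      simp [indicator_of_notMem this]
  rw [h4] at h3
  have h6 : Measurable fun t => ∫⁻ z, {z : ℂ | fderiv ℝ a z = 0}.indicator (1 : ℂ → ℝ≥0∞) z ∂(m t) :=
    h.measf _ (measurable_one.indicator hB)
  have h7 := (lintegral_eq_zero_iff h6).1 h3
  filter_upwards [h7] with t ht
  simpa [lintegral_indicator_one hB] using ht

/-- **(H) of LmY2**: for almost every `t` every nondegenerate connected subset of
`U ∩ {a = t}` contains a point which is no atom of `m t`, where `a` is differentiable with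
non-vanishing derivative -/
theorem s5 {U : Set ℂ} (hU : IsOpen U) {a : ℂ → ℝ} {m : ℝ → Measure ℂ}
    (ha : LocallyLipschitzOn U a) (h : Disint U a m)
    (hfin : ∀ R : ℝ, ∫⁻ z in U ∩ ball 0 R, ‖fderiv ℝ a z‖ₑ < ⊤) :
    ∀ᵐ t, ∀ C ⊆ U ∩ a ⁻¹' {t}, IsPreconnected C → C.Nontrivial →
      ∃ p ∈ C, m t {p} = 0 ∧ DifferentiableAt ℝ a p ∧ fderiv ℝ a p ≠ 0 := by
  have hre := slice_lin hU ha h hfin Complex.reCLM Complex.reCLM_norm
  have him := slice_lin hU ha h hfin Complex.imCLM Complex.imCLM_norm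
  filter_upwards [hre, him, ae_crit h] with t hr hi hc
  intro C hCL hC hnt
  have := h.sfin t
  by_contra hcon
  have hcov : ∀ p ∈ C, p ∈ {z | fderiv ℝ a z = 0} ∪ {p | m t {p} ≠ 0} := by
    intro p hp
    by_cases h1 : m t {p} = 0
    · left
      by_contra h2
      have h2' : fderiv ℝ a p ≠ 0 := h2
      exact hcon ⟨p, hp, h1, by_contra fun h3 => h2' (fderiv_zero_of_not_differentiableAt h3), h2'⟩
    · exact Or.inr h1
  have hnull : ∀ b : ℂ → ℝ, (∀ W, IsOpen W → volume (b '' (W ∩ (U ∩ a ⁻¹' {t}))) ≤ m t W) →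
      volume (b '' C) = 0 := by
    intro b hb
    have h1 := null_of_open (μ := m t) hr.1 hb hc
    have h2 : volume (b '' {p | m t {p} ≠ 0}) = 0 := ((countable_atoms (m t)).image b).measure_zero _
    refine measure_mono_null ?_ (measure_union_null h1 h2)
    rintro _ ⟨p, hp, rfl⟩
    rcases hcov p hp with h3 | h3
    · exact Or.inl ⟨p, ⟨h3, hCL hp⟩, rfl⟩
    · exact Or.inr ⟨p, h3, rfl⟩
  have e1 := subsingleton_of_null (hC.image _ Complex.continuous_re.continuousOn)
    (hnull (fun z => z.re) hr.2)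
  have e2 := subsingleton_of_null (hC.image _ Complex.continuous_im.continuousOn)
    (hnull (fun z => z.im) hi.2)
  obtain ⟨p, hp, q, hq, hpq⟩ := hnt
  exact hpq (Complex.ext (e1 ⟨p, hp, rfl⟩ ⟨q, hq, rfl⟩) (e2 ⟨p, hp, rfl⟩ ⟨q, hq, rfl⟩))

end Crest.Agent.R105.Hgp_608
end

-- ▼ part R105/LmS2b_57
section

/-!
# Row 105, S0138, LEMMA Y, slices: (S2) for 392's LmS (helper57)

* `s2_star` : a.e. level of `a` (`= Re` far away) has total variation `1` of the smooth height
* `s2_of` : deterministic transfer to every test function with the end values `1`, `0`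
-/

set_option autoImplicit false

open MeasureTheory Set Filter Topology Metric
open scoped ENNReal NNReal ContDiff

namespace Crest.Agent.R105.S2_57

open Bd_775 Coa_392 LmS_392 Crest.AnalysisR
open Ni_459 (up lo LB Lv)

noncomputable section

/-- the smooth height -/
abbrev st (c : ℝ) (w : ℂ) : ℝ := Real.smoothTransition (w.im - c)












end

end Crest.Agent.R105.S2_57
end

-- ▼ part R105/LmS5_392
section

/-!
# Row 105, S0138, LEMMA Y (338 #10444), slices, part 5 (helper392): `Sl`, literal of #10557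
-/

set_option autoImplicit false

open MeasureTheory Set Filter Topology Metric
open scoped ENNReal NNReal ContDiff

namespace Crest.Agent.R105.LmS_392

open Bd_775 Coa_392 Tc_808 Ni_459 Crest.AnalysisR
open Elf_600 (pt)

noncomputable section

variable {Y : Set ℂ} {a y : ℂ → ℝ} {m : ℝ → Measure ℂ} {s : Cmp Y → ℝ}

/-- the good level `t` of `a` with slice measure `m` -/
structure Sl (Y : Set ℂ) (a y : ℂ → ℝ) (s : Cmp Y → ℝ) (t : ℝ) (m : Measure ℂ) : Prop where
  conc : m {z | ¬ (z ∉ Y ∧ a z = t)} = 0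
  fin : ∀ R : ℝ, m (closedBall 0 R) < ⊤
  finy : ∀ R : ℝ, ∫⁻ z in closedBall 0 R, ‖fderiv ℝ y z‖ₑ ∂m < ⊤
  diff : ∀ᵐ z ∂m, DifferentiableAt ℝ a z ∧ DifferentiableAt ℝ y z ∧ fderiv ℝ a z ≠ 0
  sums : Summable fun K : {K : Cmp Y // K.1 ⊆ Lv Y a t} => s K.1
  S1 : ∀ g, Lc1 Y g → HasCompactSupport g → ∫ z, tau a g z ∂m = 0
  S2 : ∀ (χ : ℂ → ℝ) (R : ℝ), Lc1 Y χ → (∀ z ∈ Lv Y a t, R ≤ z.im → ∀ᶠ w in 𝓝 z, χ w = 1) →
    (∀ z ∈ Lv Y a t, z.im ≤ -R → ∀ᶠ w in 𝓝 z, χ w = 0) → ∫ z, tau a χ z ∂m = 1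
  S3 : ∀ χ, Lc1 Y χ → HasCompactSupport χ → |∫ z, tau a (fun w => χ w * y w) z ∂m| ≤
    ∑' K : {K : Cmp Y // K.1 ⊆ Lv Y a t}, |χ (pt K.1)| * s K.1
  S5 : ∀ C ⊆ Yᶜ ∩ a ⁻¹' {t}, IsPreconnected C → C.Nontrivial →
    ∃ p ∈ C, m {p} = 0 ∧ DifferentiableAt ℝ a p ∧ fderiv ℝ a p ≠ 0

/-- all but (S2) -/
structure Sl1 (Y : Set ℂ) (a y : ℂ → ℝ) (s : Cmp Y → ℝ) (t : ℝ) (m : Measure ℂ) : Prop where
  conc : m {z | ¬ (z ∉ Y ∧ a z = t)} = 0
  fin : ∀ R : ℝ, m (closedBall 0 R) < ⊤
  finy : ∀ R : ℝ, ∫⁻ z in closedBall 0 R, ‖fderiv ℝ y z‖ₑ ∂m < ⊤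
  diff : ∀ᵐ z ∂m, DifferentiableAt ℝ a z ∧ DifferentiableAt ℝ y z ∧ fderiv ℝ a z ≠ 0
  sums : Summable fun K : {K : Cmp Y // K.1 ⊆ Lv Y a t} => s K.1
  S1 : ∀ g, Lc1 Y g → HasCompactSupport g → ∫ z, tau a g z ∂m = 0
  S3 : ∀ χ, Lc1 Y χ → HasCompactSupport χ → |∫ z, tau a (fun w => χ w * y w) z ∂m| ≤
    ∑' K : {K : Cmp Y // K.1 ⊆ Lv Y a t}, |χ (pt K.1)| * s K.1
  S5 : ∀ C ⊆ Yᶜ ∩ a ⁻¹' {t}, IsPreconnected C → C.Nontrivial →
    ∃ p ∈ C, m {p} = 0 ∧ DifferentiableAt ℝ a p ∧ fderiv ℝ a p ≠ 0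




end

end Crest.Agent.R105.LmS_392
end

-- ▼ part R105/Nie7_909
section

/-!
# Row 105, S0138 (NI frame), node NIEP, part 7 (helper909): Lemma Y in the form `LYi`

338's Lemma Y with the exceptional components = the jump components of `φ`.
-/

set_option autoImplicit false

open Set Topology Metric Filter MeasureTheory
open scoped NNReal ENNReal ContDiff

namespace Crest.Agent.R105.Nie_909

open Ni_459 Bd_775 Tc_808 LmS_392 Plv_626 Sl_732 LmY_338
open Crest.AnalysisR (IsExteriorDomain)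
open IfB_641 (X0)
open SelT_871 (JT)
open SkA_8 (Pk)

noncomputable section

/-- small variation from a finite measure -/
theorem smv_of_meas {Y : Set ℂ} {A f : ℂ → ℝ} {R t : ℝ} (hR : Y ⊆ ball 0 R) {P : Set (Cmp Y)}
    {ν : Measure ℂ} [IsFiniteMeasure ν] (h0 : ν ((Lv Y A t ∩ Y) \ ⋃₀ Sv P) = 0)
    (hC : ∀ C ⊆ Lv Y A t ∩ ball 0 R, IsCompact C → IsPreconnected C →
      (∀ z ∈ C, connectedComponentIn Y z ⊆ C) →
      ∀ p ∈ C \ Y, ∀ q ∈ C \ Y, |f p - f q| ≤ (ν C).toReal) : SmV Y (Lv Y A t) (Sv P) f := by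
  classical
  intro η hη
  have hη' : ENNReal.ofReal η ≠ 0 := by
    rw [Ne, ENNReal.ofReal_eq_zero]; linarith
  obtain ⟨W, hYW, hW, hνW⟩ := ((Lv Y A t ∩ Y) \ ⋃₀ Sv P).exists_isOpen_lt_add (μ := ν)
    (by rw [h0]; simp) hη'
  rw [h0, zero_add] at hνW
  refine ⟨W ∩ ball 0 R, hW.inter isOpen_ball, fun z hz => ⟨hYW hz, hR hz.1.2⟩, ?_⟩
  intro F p q hF hd
  have h1 : ∀ C ∈ F, |f (p C) - f (q C)| ≤ (ν C).toReal := by
    intro C hCF
    obtain ⟨hcpt, hconn, hsat, hsub, hp, hq⟩ := hF C hCF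
    refine hC C (fun z hz => ⟨(hsub hz).1, (hsub hz).2.2⟩) hcpt hconn (fun z hz => ?_) _ hp _ hq
    by_cases hzY : z ∈ Y
    · exact hsat z hz hzY
    · rw [connectedComponentIn_eq_empty hzY]; exact empty_subset _
  have hfin : ∀ B : Set ℂ, ν B ≠ ⊤ := fun B => measure_ne_top ν B
  calc ∑ C ∈ F, |f (p C) - f (q C)| ≤ ∑ C ∈ F, (ν C).toReal := Finset.sum_le_sum h1
    _ = (∑ C ∈ F, ν C).toReal := (ENNReal.toReal_sum fun C _ => hfin C).symm
    _ = (ν (⋃ C ∈ F, C)).toReal := by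
        have e := measure_biUnion_finset (μ := ν) (f := id) hd
          fun C hCF => (hF C hCF).cpt.measurableSet
        simp only [id] at e
        rw [e]
    _ ≤ (ENNReal.ofReal η).toReal := by
        refine ENNReal.toReal_mono ENNReal.ofReal_ne_top (le_trans (measure_mono ?_) hνW.le)
        exact iUnion₂_subset fun C hCF z hz => ((hF C hCF).sub hz).2.1
    _ = η := ENNReal.toReal_ofReal hη.le

variable {Y : Set ℂ} {a y x0 u v φ : ℂ → ℝ} {b : ℕ → ℂ → ℝ} {p F : ℂ → ℂ} {X t : ℝ}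
  {m σ : Measure ℂ} {e : ℂ → ℂ}






end

end Crest.Agent.R105.Nie_909
end

-- ▼ part R105/Jex2_987
section

/-!
# Row 105, S0138: Lemma Y for extremal anchors in the form `LYi` (helper987)

818's `slb_of_line`, `slb_pull` with the exceptional components EXPLICIT (`SlX`), then 909's
`smv_of_meas`: `lyi_ext : Pk + ExtA → LYi`, `lyo_ext : LYo Ext`.
-/

set_option autoImplicit false

open MeasureTheory Set Filter Topology Metric
open scoped NNReal ENNReal

namespace Crest.Agent.R105.Jex_987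

open Ends_897 Tc_808 Ni_459 Ta_937 Nip_31 Crest.AnalysisR Vb_818
open Plv_626 (SmV)
open Nie_909 (LYi JP Sv smv_of_meas)
open Yv_319 (ExtA)
open SkA_8 (Pk)

noncomputable section

/-- slice bound with explicit exceptional components `P` -/
def SlX (Y : Set ℂ) (a f : ℂ → ℝ) (P : Set (Cmp Y)) (R t : ℝ) : Prop :=
  ∃ ν : Measure ℂ, IsFiniteMeasure ν ∧ ν (Y \ ⋃ K ∈ P, K.1) = 0 ∧
    ∀ C ⊆ Lv Y a t ∩ ball 0 R, IsCompact C → IsPreconnected C →
      (∀ z ∈ C, connectedComponentIn Y z ⊆ C) →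
      ∀ p ∈ C \ Y, ∀ q ∈ C \ Y, |f p - f q| ≤ (ν C).toReal

theorem SlX.mono {Y : Set ℂ} {a f : ℂ → ℝ} {P Q : Set (Cmp Y)} {R t : ℝ} (hPQ : P ⊆ Q)
    (h : SlX Y a f P R t) : SlX Y a f Q R t := by
  obtain ⟨ν, h1, h2, h3⟩ := h
  exact ⟨ν, h1, measure_mono_null (sdiff_subset_sdiff_right (biUnion_subset_biUnion_left hPQ)) h2, h3⟩

theorem SlX.smv {Y : Set ℂ} (hY : IsCompact Y) {a f : ℂ → ℝ} {P : Set (Cmp Y)} {t : ℝ}
    (h : ∀ R, SlX Y a f P R t) : SmV Y (Lv Y a t) (Sv P) f := by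
  obtain ⟨R, hR⟩ : ∃ R, Y ⊆ ball 0 R := by
    obtain ⟨R, h⟩ := hY.isBounded.exists_norm_le
    exact ⟨R + 1, fun z hz => by rw [mem_ball_zero_iff]; linarith [h z hz]⟩
  obtain ⟨ν, h1, h2, h3⟩ := h R
  refine smv_of_meas hR (ν := ν) (measure_mono_null ?_ h2) h3
  rintro z ⟨⟨-, hz⟩, hzP⟩
  refine ⟨hz, fun hc => hzP ?_⟩
  obtain ⟨K, hK⟩ := mem_iUnion.1 hc
  obtain ⟨hKP, hzK⟩ := mem_iUnion.1 hK
  exact ⟨K.1, ⟨K, hKP, rfl⟩, hzK⟩

/-- slice bounds from the line inequality, picture plane, exceptional components explicit -/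
theorem slx_of_line {Y : Set ℂ} (hY : IsExteriorDomain Yᶜ) (sec : Sec Y) {g : ℂ → ℝ} {t : ℝ}
    {m : ℝ → ℝ≥0∞} {w : Cmp Y → ℝ≥0∞} (h : LineBd Y g t m w) (R : ℝ) :
    SlX Y (fun z => z.re) g {K | w K ≠ 0} R t := by
  classical
  have hYc := cpt_of hY
  have hYm : MeasurableSet Y := hYc.isClosed.measurableSet
  have hw0 : {K : Cmp Y | w K ≠ 0}.Countable := by
    have := Summable.countable_support_ennreal h.sum
    exact this
  set S : Set ℂ := ⋃ K ∈ {K : Cmp Y | w K ≠ 0}, K.1 with hS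
  have hSm : MeasurableSet S := MeasurableSet.biUnion hw0 fun K _ =>
    (K.isCompact hYc).isClosed.measurableSet
  have hsat : ∀ K : Cmp Y, (K.1 ∩ S).Nonempty → w K ≠ 0 := by
    rintro K ⟨z, hz, hzS⟩
    rw [hS] at hzS
    simp only [mem_iUnion] at hzS
    obtain ⟨K', hK', hzK'⟩ := hzS
    have : K = K' := (K.eq_of_mem hz).trans (K'.eq_of_mem hzK').symm
    rw [this]; exact hK'
  refine ⟨nuL Y t R m + nuA Y w, ?_, ?_, ?_⟩
  · refine ⟨?_⟩
    rw [Measure.add_apply, nuL_apply MeasurableSet.univ, nuA_apply MeasurableSet.univ]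
    refine ENNReal.add_lt_top.2 ⟨?_, ?_⟩
    · refine lt_of_le_of_lt (lintegral_mono_set inter_subset_right) (lt_top_iff_ne_top.2 (h.fin R))
    · simp only [indicator_univ, Pi.one_apply, mul_one]
      exact lt_top_iff_ne_top.2 h.sum
  · show (nuL Y t R m + nuA Y w) (Y \ S) = 0
    rw [Measure.add_apply, nuL_apply (hYm.diff hSm), nuA_apply (hYm.diff hSm)]
    have e1 : {y : ℝ | (⟨t, y⟩ : ℂ) ∈ Y \ S} ∩ (Ioo (-R) R ∩ {y : ℝ | (⟨t, y⟩ : ℂ) ∉ Y}) = ∅ := by
      rw [eq_empty_iff_forall_notMem]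
      rintro y ⟨h1, -, h2⟩
      exact h2 h1.1
    rw [e1]
    simp only [Measure.restrict_empty, lintegral_zero_measure, zero_add]
    rw [ENNReal.tsum_eq_zero]
    intro K
    by_cases hK : w K = 0
    · rw [hK, zero_mul]
    · have : pt K ∉ Y \ S := fun hm => hm.2 (by
        rw [hS]; exact mem_biUnion (show K ∈ {K : Cmp Y | w K ≠ 0} from hK) (pt_mem K))
      rw [indicator_of_notMem this, mul_zero]
  · intro C hC hCc hCp hCs
    have hCm : MeasurableSet C := hCc.isClosed.measurableSet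
    have hL : C ⊆ St Y (Ln t) := fun z hz => Lv_re hY t (hC hz).1
    have line : ∀ z ∈ C, z ∉ Y → z.re = t := by
      intro z hz hzY
      rcases hL hz with h | ⟨x, hx, -⟩
      · exact h
      · rw [connectedComponentIn_eq_empty hzY] at hx; exact hx.elim
    have hfin : (nuL Y t R m + nuA Y w) C ≠ ∞ := by
      rw [Measure.add_apply, nuL_apply hCm, nuA_apply hCm]
      refine ENNReal.add_ne_top.2 ⟨?_, ?_⟩
      · exact ne_top_of_le_ne_top (h.fin R) (lintegral_mono_set inter_subset_right)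
      · refine ne_top_of_le_ne_top h.sum (ENNReal.tsum_le_tsum fun K => ?_)
        refine (mul_le_mul_right (indicator_le_self' (s := C) (f := (1 : ℂ → ℝ≥0∞))
          (fun _ _ => zero_le) (pt K)) (w K)).trans ?_
        simp
    -- ordered version
    have key : ∀ p ∈ C \ Y, ∀ q ∈ C \ Y, p.im < q.im →
        |g q - g p| ≤ ((nuL Y t R m + nuA Y w) C).toReal := by
      rintro p ⟨hp, hpY⟩ q ⟨hq, hqY⟩ hpq
      have ep : (⟨t, p.im⟩ : ℂ) = p := Complex.ext (line p hp hpY).symm rfl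
      have eq : (⟨t, q.im⟩ : ℂ) = q := Complex.ext (line q hq hqY).symm rfl
      have h1 := h.bd p.im q.im hpq (by rw [ep]; exact hpY) (by rw [eq]; exact hqY)
      rw [ep, eq] at h1
      have hseg : ∀ y ∈ Ioo p.im q.im, (⟨t, y⟩ : ℂ) ∈ C := fun y hy =>
        seg hYc sec hCp hCs hL hp hq hpY hqY (w := ⟨t, y⟩) hy.1.le hy.2.le rfl
      rw [← ENNReal.toReal_ofReal (abs_nonneg (g q - g p))]
      refine ENNReal.toReal_mono hfin (h1.trans ?_)
      rw [Measure.add_apply, nuL_apply hCm, nuA_apply hCm]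
      refine add_le_add ?_ ?_
      · refine lintegral_mono_set fun y hy => ⟨hseg y hy.1, ?_, hy.2⟩
        have h2 := (hC (hseg y hy.1)).2
        rw [mem_ball_zero_iff] at h2
        have h3 : |y| ≤ ‖(⟨t, y⟩ : ℂ)‖ := Complex.abs_im_le_norm ⟨t, y⟩
        exact abs_lt.1 (lt_of_le_of_lt h3 h2)
      · have h2 : ∀ K : {K : Cmp Y // ∃ y ∈ Ioo p.im q.im, (⟨t, y⟩ : ℂ) ∈ K.1},
            w K.1 = w K.1 * C.indicator 1 (pt K.1) := by
          rintro ⟨K, y, hy, hyK⟩
          have h3 : K.1 ⊆ C := by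
            rw [← cc_of_mem K hyK]
            exact hCs _ (hseg y hy)
          simp only
          rw [indicator_of_mem (h3 (pt_mem K)), Pi.one_apply, mul_one]
        rw [tsum_congr h2]
        exact ENNReal.tsum_comp_le_tsum_of_injective Subtype.val_injective
          (fun K => w K * C.indicator 1 (pt K))
    intro p hp q hq
    rcases lt_trichotomy p.im q.im with h1 | h1 | h1
    · rw [abs_sub_comm]; exact key p hp q hq h1
    · have : p = q := Complex.ext ((line p hp.1 hp.2).trans (line q hq.1 hq.2).symm) h1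
      rw [this, sub_self, abs_zero]; exact ENNReal.toReal_nonneg
    · exact key q hq p hp h1

variable {U V : Set ℂ} {F : ℂ → ℂ} {φ g u f : ℂ → ℝ}

/-- transport of slice bounds -/
theorem slx_pull (h : EndMap U V F) (he : ∀ z ∈ U, u z = φ (F z)) (hf : ∀ z ∈ U, f z = g (F z))
    {t : ℝ} {P : Set (Cmp Vᶜ)} (hPc : P.Countable) (hs : ∀ R, SlX Vᶜ φ g P R t) (R : ℝ) :
    SlX Uᶜ u f {K | corE h K ∈ P} R t := by
  classical
  have hUo : IsOpen U := h.hU.1
  have hVo : IsOpen V := h.hV.1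
  -- the radius
  obtain ⟨R', hR'⟩ : ∃ R', sat h (ball 0 R) ⊆ ball 0 R' := by
    have hb := isBounded_sat h (C := ball (0:ℂ) R) isBounded_ball
    obtain ⟨R', hR'⟩ := hb.subset_ball 0
    exact ⟨R', hR'⟩
  obtain ⟨ν, hν, hν0, hC⟩ := hs R'
  set S : Set ℂ := ⋃ K ∈ P, K.1 with hS
  have hPS : ∀ L : Cmp Vᶜ, (L.1 ∩ S).Nonempty → L ∈ P := by
    rintro L ⟨z, hz, hzS⟩
    rw [hS] at hzS
    simp only [mem_iUnion] at hzS
    obtain ⟨K', hK', hzK'⟩ := hzS
    have : L = K' := (L.eq_of_mem hz).trans (K'.eq_of_mem hzK').symm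
    rw [this]; exact hK'
  have hVm : MeasurableSet V := hVo.measurableSet
  have hUm : MeasurableSet U := hUo.measurableSet
  have hVc : IsCompact Vᶜ := Ends_897.isCompact_compl h.hV
  have hcl : ∀ L : Cmp Vᶜ, IsClosed L.1 := fun L => (L.isCompact hVc).isClosed
  have hinv : AEMeasurable h.inv (ν.restrict V) := h.symm.cont.aemeasurable hVm
  set 𝒮 : Set (Cmp Uᶜ) := {K | corE h K ∈ P} with h𝒮
  have h𝒮c : 𝒮.Countable := by
    have : 𝒮 = (corE h) ⁻¹' P := rfl
    rw [this]
    exact hPc.preimage_of_injOn (corE h).injective.injOn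
  have : Countable 𝒮 := h𝒮c.to_subtype
  set μ : Measure ℂ := (ν.restrict V).map h.inv +
    Measure.sum fun K : 𝒮 => ν (corE h K.1).1 • Measure.dirac (pt K.1) with hμ
  set T : Set ℂ := ⋃ K ∈ 𝒮, K.1 with hT
  have hUc : IsCompact Uᶜ := Ends_897.isCompact_compl h.hU
  have hTm : MeasurableSet T := MeasurableSet.biUnion h𝒮c fun K _ =>
    (K.isCompact hUc).isClosed.measurableSet
  have hTS : ∀ K : Cmp Uᶜ, (K.1 ∩ T).Nonempty → K ∈ 𝒮 := by
    rintro K ⟨z, hz, hzT⟩
    rw [hT] at hzT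
    simp only [mem_iUnion] at hzT
    obtain ⟨K', hK', hzK'⟩ := hzT
    have : K = K' := (K.eq_of_mem hz).trans (K'.eq_of_mem hzK').symm
    rw [this]; exact hK'
  have hdisj : Pairwise (Function.onFun Disjoint fun K : 𝒮 => (corE h K.1).1) := by
    intro K K' hne
    refine Cmp.disjoint fun he => hne ?_
    exact Subtype.ext ((corE h).injective he)
  have hsumfin : ∑' K : 𝒮, ν (corE h K.1).1 ≠ ∞ := by
    rw [← measure_iUnion hdisj fun K => (hcl _).measurableSet]
    exact measure_ne_top _ _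
  have hμapp : ∀ A : Set ℂ, MeasurableSet A → μ A =
      ν.restrict V (h.inv ⁻¹' A) + ∑' K : 𝒮, ν (corE h K.1).1 * A.indicator 1 (pt K.1) := by
    intro A hA
    rw [hμ, Measure.add_apply, Measure.map_apply_of_aemeasurable hinv hA, Measure.sum_apply _ hA]
    congr 1
    refine tsum_congr fun K => ?_
    rw [Measure.smul_apply, smul_eq_mul, Measure.dirac_apply' _ hA]
  have hμfin : IsFiniteMeasure μ := by
    refine ⟨?_⟩
    rw [hμapp _ MeasurableSet.univ]
    refine ENNReal.add_lt_top.2 ⟨measure_lt_top _ _, ?_⟩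
    simp only [indicator_univ, Pi.one_apply, mul_one]
    exact lt_top_iff_ne_top.2 hsumfin
  refine ⟨μ, hμfin, ?_, ?_⟩
  · show μ (Uᶜ \ T) = 0
    have hm : MeasurableSet (Uᶜ \ T) := hUm.compl.diff hTm
    rw [hμapp _ hm]
    have e1 : ν.restrict V (h.inv ⁻¹' (Uᶜ \ T)) = 0 := by
      rw [Measure.restrict_apply₀' hVm.nullMeasurableSet]
      have : h.inv ⁻¹' (Uᶜ \ T) ∩ V = ∅ := by
        rw [eq_empty_iff_forall_notMem]
        rintro w ⟨h1, h2⟩
        exact h1.1 (h.inv_mem h2)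
      rw [this, measure_empty]
    rw [e1, zero_add, ENNReal.tsum_eq_zero]
    intro K
    have : pt K.1 ∉ Uᶜ \ T := fun hm => hm.2 (by rw [hT]; exact mem_biUnion K.2 (pt_mem K.1))
    rw [indicator_of_notMem this, mul_zero]
  · intro C hCL hCc hCp hCs p hp q hq
    have hCS : Sa Uᶜ C := hCs
    obtain ⟨k1, k2, k3, k4⟩ := sat_continuum h hCS hCc hCp
    have hp' : F p ∈ sat h C \ Vᶜ := by rw [k4]; exact ⟨p, hp, rfl⟩
    have hq' : F q ∈ sat h C \ Vᶜ := by rw [k4]; exact ⟨q, hq, rfl⟩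
    have hpU : p ∈ U := not_not.1 hp.2
    have hqU : q ∈ U := not_not.1 hq.2
    have hsub : sat h C ⊆ Lv Vᶜ φ t ∩ ball 0 R' := by
      refine subset_inter ?_ ?_
      · rw [← sat_Lv h he t]
        exact sat_mono h fun z hz => (hCL hz).1
      · exact (sat_mono h fun z hz => (hCL hz).2).trans hR'
    have h1 := hC (sat h C) hsub k1 k2 k3 (F p) hp' (F q) hq'
    rw [← hf p hpU, ← hf q hqU] at h1
    refine h1.trans (ENNReal.toReal_mono (measure_ne_top μ C) ?_)
    have hCm : MeasurableSet C := hCc.isClosed.measurableSet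
    rw [hμapp C hCm]
    have hDm : MeasurableSet (sat h C) := k1.isClosed.measurableSet
    -- decomposition of `sat h C`
    have hcov : sat h C ⊆ (sat h C ∩ V) ∪ (Vᶜ \ S) ∪
        ⋃ K : 𝒮, (if K.1.1 ⊆ C then (corE h K.1).1 else ∅) := by
      intro ζ hζ
      by_cases hζV : ζ ∈ V
      · exact Or.inl (Or.inl ⟨hζ, hζV⟩)
      by_cases hζS : ζ ∈ S
      · right
        obtain ⟨K, hK⟩ := exists_K h hζV
        have hKS : K ∈ 𝒮 := hPS _ ⟨ζ, hK, hζS⟩
        have hKC : K.1 ⊆ C := (mem_sat_of_mem h K hK).1 hζ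
        refine mem_iUnion.2 ⟨⟨K, hKS⟩, ?_⟩
        simp only
        rw [if_pos hKC]; exact hK
      · exact Or.inl (Or.inr ⟨hζV, hζS⟩)
    have h2 : ν (sat h C ∩ V) ≤ ν.restrict V (h.inv ⁻¹' C) := by
      rw [Measure.restrict_apply₀' hVm.nullMeasurableSet]
      refine measure_mono fun ζ hζ => ⟨?_, hζ.2⟩
      have h3 : F (h.inv ζ) = ζ := h.inv_right hζ.2
      have h4 : F (h.inv ζ) ∈ sat h C := by rw [h3]; exact hζ.1
      exact (F_mem_sat h (h.inv_mem hζ.2)).1 h4
    have h3 : ν (⋃ K : 𝒮, (if K.1.1 ⊆ C then (corE h K.1).1 else ∅)) ≤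
        ∑' K : 𝒮, ν (corE h K.1).1 * C.indicator 1 (pt K.1) := by
      refine (measure_iUnion_le _).trans (ENNReal.tsum_le_tsum fun K => ?_)
      by_cases hK : K.1.1 ⊆ C
      · rw [if_pos hK, indicator_of_mem (hK (pt_mem K.1)), Pi.one_apply, mul_one]
      · rw [if_neg hK, measure_empty]; exact zero_le
    calc ν (sat h C) ≤ ν ((sat h C ∩ V) ∪ (Vᶜ \ S) ∪
          ⋃ K : 𝒮, (if K.1.1 ⊆ C then (corE h K.1).1 else ∅)) := measure_mono hcov
      _ ≤ (ν (sat h C ∩ V) + ν (Vᶜ \ S)) +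
          ν (⋃ K : 𝒮, (if K.1.1 ⊆ C then (corE h K.1).1 else ∅)) :=
        (measure_union_le _ _).trans (add_le_add_left (measure_union_le _ _) _)
      _ ≤ ν.restrict V (h.inv ⁻¹' C) + ∑' K : 𝒮, ν (corE h K.1).1 * C.indicator 1 (pt K.1) := by
        rw [hν0, add_zero]; exact add_le_add h2 h3

/-- slice bounds along the levels of an anchor with a picture, exceptional components explicit -/
theorem slx_anchor {U V : Set ℂ} {F : ℂ → ℂ} {X f g : ℂ → ℝ} {s : Cmp Vᶜ → ℝ}
    (h : EndMap U V F) (hX : ∀ z ∈ U, X z = (F z).re) (hf : ∀ z ∈ U, f z = g (F z))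
    (hord : ∀ L : Cmp Vᶜ, ∀ t, OrdConnected (Sqr_185.sec L.1 t)) (hs0 : ∀ L, 0 ≤ s L)
    {t : ℝ} (hL : LY Vᶜ g s t) (R : ℝ) : SlX Uᶜ X f {K | s (corE h K) ≠ 0} R t := by
  have hV : IsExteriorDomain (Vᶜ)ᶜ := by rw [compl_compl]; exact h.hV
  have hVc : IsCompact Vᶜ := Ends_897.isCompact_compl h.hV
  have sec : Sec Vᶜ := fun z hz t => hord (Cmp.of hz) t
  have hlb := lineBd_of_ly hVc hs0 hL
  have hc : {K : Cmp Vᶜ | wl Vᶜ s t K ≠ 0}.Countable := Summable.countable_support_ennreal hlb.sum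
  refine (slx_pull h (φ := fun w => w.re) hX hf hc
    (fun R => slx_of_line hV sec hlb R) R).mono ?_
  intro K hK h0
  refine hK ?_
  show wl Vᶜ s t (corE h K) = 0
  unfold wl
  rw [h0, ENNReal.ofReal_zero, ite_self]

/-- **Lemma Y for an extremal anchor, in the form `LYi`** -/
theorem lyi_ext {U : Set ℂ} {x0 φ : ℂ → ℝ} {a : ℕ → ℂ → ℝ} {F : ℂ → ℂ} (h : Pk Uᶜ x0 a φ F)
    (i : ℕ) (hi : ExtA Uᶜ x0 (a i)) : LYi U x0 φ (a i) F := by
  have hYc : IsCompact Uᶜ := cpt_of h.hY
  obtain ⟨b, P, hb⟩ := hi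
  have hE := Uw6_913.endMap hb
  have hPic := (Uw6_913.picT hb).2
  have e : Uᶜᶜᶜ = Uᶜ := compl_compl _
  filter_upwards [Yv_319.line_im h hb] with t ht
  have h1 : ∀ R, SlX Uᶜᶜᶜ (fun z => x0 z + a i z) (fun z => (F z).im)
      {K | Yv_319.sP hE φ (corE hE K) ≠ 0} R t := fun R =>
    slx_anchor (X := fun z => x0 z + a i z) (f := fun z => (F z).im) hE
      (fun z hz => (hb.re z hz).symm) (fun z hz => (Yv_319.yP_apply hE hz).symm) hPic.ord
      (Yv_319.sP_nonneg hE) ht R
  have h2 : ∀ K : Cmp Uᶜᶜᶜ, Yv_319.sP hE φ (corE hE K) = Tc_808.osc Uᶜᶜᶜ φ K.1 := by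
    intro K
    unfold Yv_319.sP
    rw [Equiv.symm_apply_apply]
  simp only [h2] at h1
  rw [e] at h1
  exact SlX.smv hYc h1

/-- **`LYo Ext`** -/
theorem lyo_ext : LYo Ext := fun _ _ _ _ _ h hO _ _ i => lyi_ext h i (hO i)

end

end Crest.Agent.R105.Jex_987
end

-- ▼ part R105/Nie8_909
section

/-!
# Row 105, S0138 (NI frame), node NIEP, part 8 (helper909): `PLAP` anchor by anchor
-/

set_option autoImplicit false

open MeasureTheory Set Filter Topology Metric
open scoped NNReal ENNReal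

namespace Crest.Agent.R105.Nie_909

open Crest.AnalysisR Tc_808 Ni_459 Sqr_185 Ends_897 Plv_626
open Bd_775 (Q en)
open IfB_641 (X0)
open Cq_463 (Sqr QPic Ch TQ)
open CF_363 (Hair g2 SL CFJ CF cut mem_cut isClosed_cut isCompact_cut volume_cut)
open Skp2_257 (Comps Reg)
open Tra_937 (setR setC toC Uni)
open Pct_185 (PicT Sol)
open Stp_722 (OscLe)
open Ta_937 (sqs hrs corE)
open SkA_8 (Pk)
open SkJ_987 (PE AdmP endMap TCont toComps toComps_inj)
open Psq_425 (PlaLim)

noncomputable section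

variable {U : Set ℂ} {F : ℂ → ℂ} {x0 φ : ℂ → ℝ} {a : ℕ → ℂ → ℝ} {f : ℝ × ℝ → ℝ}

theorem bdd_toC {f : ℝ × ℝ → ℝ} (h : ∃ C : ℝ, ∀ p, |f p| ≤ C) : ∃ C : ℝ, ∀ z, |toC f z| ≤ C := by
  obtain ⟨C, hC⟩ := h
  exact ⟨C, fun z => hC _⟩

theorem osc_tcont {E : Set ℂ} {o : Set (ℝ × ℝ) → ℝ} (hT : TCont (setR E) f o) (L : Cmp E) :
    osc E (toC f) L.1 ≤ o (setR L.1) := by
  have hm : setR L.1 ∈ Comps (setR E) := Ta_937.mem_comps.2 ⟨L, rfl⟩
  have h2 := hT.osc _ hm
  rw [← Tra_937.setR_compl, Ta_937.oscLe_toC] at h2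
  have h3 := (Ta_937.osc_le_iff (U := Eᶜ) (bdd_toC hT.bdd) (hT.nn _ hm)).2 h2
  rwa [compl_compl] at h3

theorem sum_tcont {E : Set ℂ} {o : Set (ℝ × ℝ) → ℝ} (hT : TCont (setR E) f o) :
    Summable fun L : Cmp E => osc E (toC f) L.1 ^ 2 := by
  have h1 : Summable fun L : Cmp E => o (setR L.1) ^ 2 := by
    have h2 := hT.sum.comp_injective (toComps_inj E)
    exact h2.congr fun L => rfl
  exact Summable.of_nonneg_of_le (fun _ => sq_nonneg _)
    (fun L => pow_le_pow_left₀ (osc_nonneg _ _ _) (osc_tcont hT L) 2) h1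

/-- **`PLAP` for one anchor** (no `HCi` needed) -/
theorem plap_i (hU : IsExteriorDomain U) (h : Pk Uᶜ x0 a φ F) (hi : InjOn F U)
    (hP : PicT (F '' U)ᶜ) (i : ℕ) (hLY : LYi U x0 φ (a i) F) (hHC : HCi U φ (a i))
    (hAT : ATNi U x0 (a i) F) {o : Set (ℝ × ℝ) → ℝ}
    (hL : PlaLim (PE U F) (sqs (F '' U)ᶜ) f) (hT : TCont (PE U F) f o) :
    NI Uᶜ (a i) (fun z => toC f (F z)) := by
  have hE := endMap h hU hi
  have hF := uni_of hU h hi hP
  have hQ := Ta_937.qPic hP
  obtain ⟨g, hLip, ⟨A, hA, hgA⟩, ⟨C, hC⟩, hlim, ⟨T, hTQ⟩⟩ := hL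
  have hsub : ∀ K ∈ hrs (F '' U)ᶜ, K.car ⊆ PE U F := fun K hK => hK.1
  have hcfj : ∀ n, CFJ (hrs (F '' U)ᶜ) univ (g n) := by
    intro n
    obtain ⟨L, hL⟩ := hLip n
    exact ⟨∅, fun K hK => absurd hK (Finset.notMem_empty K),
      CF_363.CF_of_lipschitz hL fun p _ => hC n p⟩
  have hS : ∀ m, Reg (PE U F) (g m) :=
    fun m => reg_cfj hsub (hcfj m) (HasCompactSupport.intro hA (hgA m)) ⟨C, hC m⟩
  choose M hM using hLip
  have hcut : cut (∅ : Finset Hair) ⊆ PE U F := by
    intro p hp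
    obtain ⟨K, hK, -⟩ := mem_cut.1 hp
    exact absurd hK (Finset.notMem_empty K)
  refine adm_seq hU h hi hP i hLY hHC hAT (g := g) (J := fun _ => ∅) (M := fun n => (M n : ℝ))
    (fun _ => hcut) (fun n => CF_363.SL_of_lipschitz (hM n)) hS hlim
    (c := fun n Q => Cq_463.ch (PE U F) univ (g n) Q) (fun n Q => Cq_463.ch_nonneg _ _ _ _)
    (C := ENNReal.ofReal T) ENNReal.ofReal_ne_top ?_ (fun n Q _ => le_rfl) (M' := T) ?_
    (LB.of_bdd ?_) ?_ ?_
  · intro n
    rw [← ENNReal.ofReal_tsum_of_nonneg (fun _ => sq_nonneg _)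
      (Cq_463.summable_ch hQ convex_univ (hcfj n))]
    exact ENNReal.ofReal_le_ofReal (le_trans Cq_463.Ch_le_TQ (hTQ n))
  · intro n
    have h1 := (Cq_463.En_le_TQ (E := PE U F) (W := univ) (𝒬 := sqs (F '' U)ᶜ) (f := g n)).trans
      (hTQ n)
    rw [← compl_eq_univ_sdiff] at h1
    exact h1
  · obtain ⟨C', hC'⟩ := hT.bdd
    exact ⟨C', fun z => hC' _⟩
  · intro z hz
    rw [notMem_compl_iff] at hz
    have hFc : ContinuousAt F z := by
      have := h.hol.continuousOn
      rw [compl_compl] at this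
      exact this.continuousAt (hU.1.mem_nhds hz)
    have hfc : ContinuousOn (toC f) (F '' U) := by
      have h1 : Continuous fun w : ℂ => (w.re, w.im) :=
        Complex.continuous_re.prodMk Complex.continuous_im
      have h2 := hT.cont.comp h1.continuousOn (s := F '' U) fun w hw hc => hc hw
      exact h2
    exact ContinuousAt.comp (g := toC f)
      (hfc.continuousAt (hE.hV.1.mem_nhds (mem_image_of_mem F hz))) hFc
  · have h1 : (fun K : Cmp Uᶜ => osc Uᶜ (toC f ∘ F) K.1 ^ 2)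
        = (fun L : Cmp (F '' U)ᶜ => osc (F '' U)ᶜ (toC f) L.1 ^ 2) ∘ corE hE := by
      funext K
      rw [Function.comp_apply, ← Ta_937.osc_comp hE]
    have h2 := (corE hE).summable_iff.2 (sum_tcont hT)
    rw [← h1] at h2
    exact h2

end

end Crest.Agent.R105.Nie_909
end

-- ▼ part R105/Nie9_909
section

/-!
# Row 105, S0138 (NI frame), node NIEP, part 9 (helper909): the top

* `Good U x0 a φ F` : all anchors have `LYi`, `HCi`, `ATNi`;
* `adm_lim`, `adm_pla`, `adm_str`, `carr_good` : the join for ONE good package;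
* leaves `HCP`, `ATNP` (compactly supported anchors) give `LIMPc`, `PLAPc` (895) and S0138;
* leaf `PKG` (there is a good package) gives S0138.
-/

set_option autoImplicit false

open MeasureTheory Set Filter Topology Metric
open scoped NNReal ENNReal

namespace Crest.Agent.R105.Nie_909

open Crest.AnalysisR Tc_808 Ni_459 Sqr_185 Ends_897 Plv_626
open Bd_775 (Q en)
open IfB_641 (X0)
open Cq_463 (Sqr QPic Ch TQ)
open CF_363 (Hair g2 SL CFJ CF cut)
open Skp2_257 (Comps Reg)
open Tra_937 (setR setC toC Uni)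
open Pct_185 (PicT Sol)
open Stp_722 (OscLe)
open Ta_937 (sqs hrs corE)
open SkA_8 (Pk)
open SkJ_987 (PE AdmP endMap TCont)
open Psq_425 (PlaLim StrQ StrQs)
open Exs_992 (LimOf)
open SkT1_137 (TFin Carr LEMAQ)
open Nal_649 (FamQ)
open Jcs_895 (LIMPc PLAPc)

noncomputable section

variable {U : Set ℂ} {F : ℂ → ℂ} {x0 φ : ℂ → ℝ} {a : ℕ → ℂ → ℝ} {ψ f : ℝ × ℝ → ℝ}
  {g : Set (Set (ℝ × ℝ))}

/-- the three properties of the anchors -/
def Good (U : Set ℂ) (x0 : ℂ → ℝ) (a : ℕ → ℂ → ℝ) (φ : ℂ → ℝ) (F : ℂ → ℂ) : Prop :=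
  ∀ i, LYi U x0 φ (a i) F ∧ HCi U φ (a i) ∧ ATNi U x0 (a i) F





/-- LEAF: there is a good package -/
def PKG : Prop :=
  ∀ (U : Set ℂ) (x0 : ℂ → ℝ), IsExteriorDomain U → X0 Uᶜ x0 →
    ∃ (a : ℕ → ℂ → ℝ) (φ : ℂ → ℝ) (F : ℂ → ℂ), Pk Uᶜ x0 a φ F ∧ Good U x0 a φ F



/-! ### compactly supported anchors -/








end

end Crest.Agent.R105.Nie_909
end

-- ▼ part R105/Jex3_987

/-!
# Row 105, S0138: the top over extremal anchors (helper987)

Open: `LEMAQ StrQ` (425) and node E13 for extremal anchors = `HCo Ext`, `ATNo Ext`.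
-/

set_option autoImplicit false

open MeasureTheory Set Filter Topology Metric
open scoped NNReal ENNReal

namespace Crest.Agent.R105.Jex_987

open Crest.AnalysisR
open SkT1_137 (LEMAQ)
open SkA_8 (Pk)
open Psq_425 (StrQ)
open Nie_909 (HCi ATNi Good PKG)

noncomputable section

/-- `PLAP` from the facts about one anchor (909's `plap_i`) -/
theorem plapo_of {Om : Kind} (hL : LYo Om) (hH : HCo Om) (hA : ATNo Om) : PLAPo Om := by
  intro U x0 a φ F h hO hi hP f o hf hT i
  have hU : IsExteriorDomain U := by have := h.hY; rwa [compl_compl] at this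
  exact Nie_909.plap_i hU h hi hP i (hL U x0 a φ F h hO hi hP i) (hH U x0 a φ F h hO hi hP i)
    (hA U x0 a φ F h hO hi hP i) hf hT

theorem limpe (hH : HCo Ext) (hA : ATNo Ext) : LIMPo Ext := limpo_of lyo_ext hH hA

theorem plape (hH : HCo Ext) (hA : ATNo Ext) : PLAPo Ext := plapo_of lyo_ext hH hA

/-- **S0138 from `LEMAQ StrQ` and node E13 for extremal anchors** -/
theorem s0138_e13 (hA : LEMAQ StrQ) (hH : HCo Ext) (hN : ATNo Ext)
    (U : Set ℂ) (hU : IsExteriorDomain U) :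
    ∃ f : ℂ → ℂ, DifferentiableOn ℂ f U ∧ Set.InjOn f U ∧
      Filter.Tendsto f (Filter.cocompact ℂ) (Filter.cocompact ℂ) ∧
      IsCircleDomainFinitePart (f '' U) :=
  s0138_of_ext hA (plape hH hN) (limpe hH hN) U hU


end

end Crest.Agent.R105.Jex_987
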