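import Crest.Agent.R105.CF3_363
import Mathlib.Topology.MetricSpace.Lipschitz
import Mathlib.Topology.MetricSpace.Kuratowski
import Mathlib.MeasureTheory.Function.L2Space
import Mathlib.Analysis.InnerProductSpace.PiL2
import Crest.Agent.R105.Kkt2_238
import Mathlib.Topology.MetricSpace.Thickening
import Mathlib.MeasureTheory.Measure.HasOuterApproxClosed

-- ▼ part R105/Kin1_238
section

open Set Filter MeasureTheory Topology
open scoped ENNReal NNReal

namespace Crest.Agent.R105.Kin_238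

open CF_363

/-- lower half of the rectangle, closed at the level `B` -/
def Wl (a b c B : ℝ) : Set (ℝ × ℝ) := {p | (a < p.1 ∧ p.1 < b) ∧ c < p.2 ∧ p.2 ≤ B}

/-- interior of `Wl` -/
def Wo (a b c B : ℝ) : Set (ℝ × ℝ) := {p | (a < p.1 ∧ p.1 < b) ∧ c < p.2 ∧ p.2 < B}

theorem Wl_eq (a b c B : ℝ) : Wl a b c B = Ioo a b ×ˢ Ioc c B := by
  ext p; simp [Wl]

theorem Wo_eq (a b c B : ℝ) : Wo a b c B = Ioo a b ×ˢ Ioo c B := by
  ext p; simp [Wo]

theorem Wo_subset {a b c B : ℝ} : Wo a b c B ⊆ Wl a b c B := fun _ hp => ⟨hp.1, hp.2.1, hp.2.2.le⟩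

theorem isOpen_Wo {a b c B : ℝ} : IsOpen (Wo a b c B) := by
  rw [Wo_eq]; exact isOpen_Ioo.prod isOpen_Ioo

theorem convex_Wl {a b c B : ℝ} : Convex ℝ (Wl a b c B) := by
  rw [Wl_eq]; exact (convex_Ioo a b).prod (convex_Ioc c B)

theorem measurableSet_Wl {a b c B : ℝ} : MeasurableSet (Wl a b c B) := by
  rw [Wl_eq]; exact measurableSet_Ioo.prod measurableSet_Ioc

theorem measurableSet_Wo {a b c B : ℝ} : MeasurableSet (Wo a b c B) :=
  isOpen_Wo.measurableSet

theorem volume_Wo_lt {a b c B : ℝ} : volume (Wo a b c B) < ∞ := by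
  rw [Wo_eq, Measure.volume_eq_prod, Measure.prod_prod]
  exact ENNReal.mul_lt_top (by simp) (by simp)

/-- one sided neighbourhoods: right for `true`, left for `false` -/
def side (σ : Bool) (x : ℝ) : Filter ℝ := if σ then 𝓝[>] x else 𝓝[<] x

instance (σ : Bool) (x : ℝ) : (side σ x).NeBot := by
  unfold side
  split_ifs <;> infer_instance

theorem side_le (σ : Bool) (x : ℝ) : side σ x ≤ 𝓝 x := by
  unfold side
  split_ifs <;> exact nhdsWithin_le_nhds

/-- the open interval of length `r` on the side `σ` -/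
def sInt (σ : Bool) (x r : ℝ) : Set ℝ := if σ then Ioo x (x + r) else Ioo (x - r) x

theorem sInt_mem {σ : Bool} {x r : ℝ} (hr : 0 < r) : sInt σ x r ∈ side σ x := by
  unfold sInt side
  split_ifs
  · exact Ioo_mem_nhdsGT (by linarith)
  · exact Ioo_mem_nhdsLT (by linarith)

theorem convex_sInt {σ : Bool} {x r : ℝ} : Convex ℝ (sInt σ x r) := by
  unfold sInt
  split_ifs
  · exact convex_Ioo _ _
  · exact convex_Ioo _ _

theorem sInt_subset {σ : Bool} {x r : ℝ} {s : ℝ} (h : s ∈ sInt σ x r) : |s - x| < r ∧ s ≠ x := by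
  unfold sInt at h
  split_ifs at h
  · exact ⟨abs_lt.2 ⟨by linarith [h.1, h.2], by linarith [h.2]⟩, h.1.ne'⟩
  · exact ⟨abs_lt.2 ⟨by linarith [h.1], by linarith [h.1, h.2]⟩, h.2.ne⟩


/-- the side trace -/
noncomputable def tr (e : ℝ × ℝ → ℝ) (σ : Bool) (x y : ℝ) : ℝ := limUnder (side σ x) fun s => e (s, y)

theorem tr_eq_of_tendsto {e : ℝ × ℝ → ℝ} {σ : Bool} {x y l : ℝ}
    (h : Tendsto (fun s => e (s, y)) (side σ x) (𝓝 l)) : tr e σ x y = l :=
  h.limUnder_eq

/-- no abscissa of `J` near `x` except `x` itself -/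
theorem exists_gap (J : Finset Hair) (x : ℝ) : ∃ r > 0, ∀ K ∈ J, |K.x - x| < r → K.x = x := by
  classical
  have hfin : ({ξ : ℝ | (∃ K ∈ J, K.x = ξ) ∧ ξ ≠ x}).Finite := by
    refine (J.finite_toSet.image Hair.x).subset ?_
    rintro ξ ⟨⟨K, hK, rfl⟩, -⟩
    exact ⟨K, hK, rfl⟩
  have hx : ({ξ : ℝ | (∃ K ∈ J, K.x = ξ) ∧ ξ ≠ x})ᶜ ∈ 𝓝 x :=
    hfin.isClosed.isOpen_compl.mem_nhds fun h => h.2 rfl
  obtain ⟨r, hr, hr'⟩ := Metric.mem_nhds_iff.1 hx
  refine ⟨r, hr, fun K hK hKr => ?_⟩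
  by_contra hne
  exact hr' (by rw [Metric.mem_ball, Real.dist_eq]; exact hKr) ⟨⟨K, hK, rfl⟩, hne⟩

variable {a b c B : ℝ} {J : Finset Hair} {e : ℝ × ℝ → ℝ} {L : ℝ}

/-- on one side of `x` the function `e` is the restriction of a Lipschitz function -/
theorem exists_side (h : SL (Wl a b c B \ cut J) L e) (σ : Bool) {x : ℝ} (hx : a < x ∧ x < b) :
    ∃ r > 0, ∃ g : ℝ × ℝ → ℝ, LipschitzWith L.toNNReal g ∧
      ∀ s ∈ sInt σ x r, (a < s ∧ s < b) ∧ ∀ y, c < y → y ≤ B → (s, y) ∉ cut J ∧ e (s, y) = g (s, y) := by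
  obtain ⟨r0, hr0, h0⟩ := exists_gap J x
  set r := min r0 (min (x - a) (b - x)) with hr
  have hrpos : 0 < r := lt_min hr0 (lt_min (by linarith [hx.1]) (by linarith [hx.2]))
  have hsub : sInt σ x r ×ˢ Ioc c B ⊆ Wl a b c B \ cut J := by
    rintro ⟨s, y⟩ ⟨hs, hy⟩
    obtain ⟨h1, h2⟩ := sInt_subset hs
    have h3 : r ≤ r0 := min_le_left _ _
    have h4 : r ≤ x - a := (min_le_right _ _).trans (min_le_left _ _)
    have h5 : r ≤ b - x := (min_le_right _ _).trans (min_le_right _ _)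
    rw [abs_lt] at h1
    refine ⟨⟨⟨by show a < s; linarith, by show s < b; linarith⟩, hy.1, hy.2⟩, ?_⟩
    rintro ⟨K, hK, hKp⟩
    have h6 : s = K.x := hKp.1
    have h7 := h0 K hK (by rw [← h6, abs_lt]; constructor <;> linarith)
    exact h2 (h6.trans h7)
  have hlip := h.lipschitzOnWith (convex_sInt (σ := σ).prod (convex_Ioc c B)) hsub
  obtain ⟨g, hg, hge⟩ := hlip.extend_real
  refine ⟨r, hrpos, g, hg, fun s hs => ⟨?_, fun y hy hy' => ⟨?_, hge ⟨hs, hy, hy'⟩⟩⟩⟩
  · obtain ⟨h1, h2⟩ := sInt_subset hs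
    have h4 : r ≤ x - a := (min_le_right _ _).trans (min_le_left _ _)
    have h5 : r ≤ b - x := (min_le_right _ _).trans (min_le_right _ _)
    rw [abs_lt] at h1
    exact ⟨by linarith, by linarith⟩
  · exact (hsub ⟨hs, hy, hy'⟩).2

theorem tendsto_tr_aux {g : ℝ × ℝ → ℝ} {M : ℝ≥0} (hg : LipschitzWith M g) {σ : Bool} {x y r : ℝ}
    (hr : 0 < r) (he : ∀ s ∈ sInt σ x r, e (s, y) = g (s, y)) :
    Tendsto (fun s => e (s, y)) (side σ x) (𝓝 (g (x, y))) := by
  have h1 : Tendsto (fun s => g (s, y)) (side σ x) (𝓝 (g (x, y))) := by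
    have : Continuous fun s => g (s, y) := hg.continuous.comp (by fun_prop)
    exact (this.tendsto x).mono_left (side_le σ x)
  refine h1.congr' ?_
  filter_upwards [sInt_mem hr] with s hs using (he s hs).symm

/-- one Lipschitz function for all traces on the vertical line through `x` -/
theorem exists_tr (h : SL (Wl a b c B \ cut J) L e) (σ : Bool) {x : ℝ} (hx : a < x ∧ x < b) :
    ∃ g : ℝ × ℝ → ℝ, LipschitzWith L.toNNReal g ∧ ∀ y, c < y → y ≤ B →
      tr e σ x y = g (x, y) ∧ Tendsto (fun s => e (s, y)) (side σ x) (𝓝 (g (x, y))) := by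
  obtain ⟨r, hr, g, hg, hge⟩ := exists_side h σ hx
  refine ⟨g, hg, fun y hy hy' => ?_⟩
  have := tendsto_tr_aux (e := e) hg (σ := σ) (x := x) (y := y) hr
    (fun s hs => ((hge s hs).2 y hy hy').2)
  exact ⟨tr_eq_of_tendsto this, this⟩

theorem tendsto_tr {𝓗 : Set Hair} (h : CFJ 𝓗 (Wl a b c B) e) (σ : Bool) {x y : ℝ} (hx : a < x ∧ x < b)
    (hy : c < y) (hy' : y ≤ B) : Tendsto (fun s => e (s, y)) (side σ x) (𝓝 (tr e σ x y)) := by
  obtain ⟨J, -, L, C, hL, hSL, hC⟩ := h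
  obtain ⟨g, hg, hge⟩ := exists_tr hSL σ hx
  rw [(hge y hy hy').1]
  exact (hge y hy hy').2


theorem abs_tr_le (h : SL (Wl a b c B \ cut J) L e) {C : ℝ} (hC : ∀ p ∈ Wl a b c B \ cut J, |e p| ≤ C)
    (σ : Bool) {x y : ℝ} (hx : a < x ∧ x < b) (hy : c < y) (hyB : y ≤ B) :
    |tr e σ x y| ≤ C := by
  obtain ⟨r, hr, g, hg, hge⟩ := exists_side h σ hx
  have h1 := tendsto_tr_aux (e := e) hg (σ := σ) (x := x) (y := y) hr
    (fun s hs => ((hge s hs).2 y hy hyB).2)
  rw [tr_eq_of_tendsto h1]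
  refine le_of_tendsto h1.abs ?_
  filter_upwards [sInt_mem hr] with s hs
  exact hC _ ⟨⟨(hge s hs).1, hy, hyB⟩, ((hge s hs).2 y hy hyB).1⟩

/-- off the cut the traces are the values -/
theorem continuousWithinAt_of (h : SL (Wl a b c B \ cut J) L e) {p : ℝ × ℝ} (hp : p ∈ Wl a b c B)
    (hpJ : p ∉ cut J) : ContinuousWithinAt e (Wl a b c B) p := by
  obtain ⟨r, hr, hrJ⟩ := Metric.isOpen_iff.1 (isCompact_cut J).isClosed.isOpen_compl p hpJ
  have hlip := h.lipschitzOnWith (convex_Wl.inter (convex_ball p r))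
    (fun q hq => ⟨hq.1, hrJ hq.2⟩)
  have := hlip.continuousOn p ⟨hp, Metric.mem_ball_self hr⟩
  exact this.mono_of_mem_nhdsWithin
    (inter_mem self_mem_nhdsWithin (nhdsWithin_le_nhds (Metric.ball_mem_nhds p hr)))

theorem continuousOn_of (h : SL (Wl a b c B \ cut J) L e) :
    ContinuousOn e (Wl a b c B \ cut J) :=
  fun _ hp => (continuousWithinAt_of h hp.1 hp.2).mono sdiff_subset

theorem tr_eq_self (h : SL (Wl a b c B \ cut J) L e) (σ : Bool) {x y : ℝ} (hx : a < x ∧ x < b)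
    (hy : c < y) (hyB : y ≤ B) (hJ : (x, y) ∉ cut J) : tr e σ x y = e (x, y) := by
  apply tr_eq_of_tendsto
  have h1 := continuousWithinAt_of h (p := (x, y)) ⟨hx, hy, hyB⟩ hJ
  have h2 : Tendsto (fun s : ℝ => (s, y)) (side σ x) (𝓝[Wl a b c B] (x, y)) := by
    refine tendsto_nhdsWithin_iff.2 ⟨?_, ?_⟩
    · have : Continuous fun s : ℝ => (s, y) := by fun_prop
      exact (this.tendsto x).mono_left (side_le σ x)
    · have h3 : ∀ᶠ s in side σ x, a < s ∧ s < b :=
        side_le σ x (Ioo_mem_nhds hx.1 hx.2)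
      filter_upwards [h3] with s hs using ⟨hs, hy, hyB⟩
  exact h1.tendsto.comp h2

/-! ### the class `Vl` -/

/-- functions of class `CFJ 𝓗` on the lower half rectangle, zero near the bottom -/
def Vl (𝓗 : Set Hair) (a b c B : ℝ) : Submodule ℝ (ℝ × ℝ → ℝ) where
  carrier := {e | CFJ 𝓗 (Wl a b c B) e ∧ ∃ δ > 0, ∀ p ∈ Wl a b c B, p.2 < c + δ → e p = 0}
  add_mem' := by
    rintro e e' ⟨h, δ, hδ, h0⟩ ⟨h', δ', hδ', h0'⟩
    refine ⟨h.add h', min δ δ', lt_min hδ hδ', fun p hp hpc => ?_⟩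
    have h1 := h0 p hp (by linarith [min_le_left δ δ'])
    have h2 := h0' p hp (by linarith [min_le_right δ δ'])
    show e p + e' p = 0
    rw [h1, h2, add_zero]
  zero_mem' := ⟨CFJ_const 0, 1, one_pos, fun _ _ _ => rfl⟩
  smul_mem' := by
    rintro t e ⟨h, δ, hδ, h0⟩
    refine ⟨h.const_mul t, δ, hδ, fun p hp hpc => ?_⟩
    show t * e p = 0
    rw [h0 p hp hpc, mul_zero]


theorem tr_add {𝓗 : Set Hair} {e e' : ℝ × ℝ → ℝ} (h : CFJ 𝓗 (Wl a b c B) e)
    (h' : CFJ 𝓗 (Wl a b c B) e') (σ : Bool)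
    {x y : ℝ} (hx : a < x ∧ x < b) (hy : c < y) (hyB : y ≤ B) :
    tr (e + e') σ x y = tr e σ x y + tr e' σ x y :=
  tr_eq_of_tendsto ((tendsto_tr h σ hx hy hyB).add (tendsto_tr h' σ hx hy hyB))

theorem tr_smul {𝓗 : Set Hair} {e : ℝ × ℝ → ℝ} (h : CFJ 𝓗 (Wl a b c B) e) (t : ℝ) (σ : Bool)
    {x y : ℝ} (hx : a < x ∧ x < b) (hy : c < y) (hyB : y ≤ B) :
    tr (t • e) σ x y = t * tr e σ x y :=
  tr_eq_of_tendsto ((tendsto_tr h σ hx hy hyB).const_mul t)


/-- post-composition with a continuous function -/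
theorem tr_comp {𝓗 : Set Hair} {e : ℝ × ℝ → ℝ} (h : CFJ 𝓗 (Wl a b c B) e) {G : ℝ → ℝ}
    (hG : Continuous G) (σ : Bool) {x y : ℝ} (hx : a < x ∧ x < b) (hy : c < y) (hyB : y ≤ B) :
    tr (fun p => G (e p)) σ x y = G (tr e σ x y) :=
  tr_eq_of_tendsto ((hG.tendsto _).comp (tendsto_tr h σ hx hy hyB))

end Crest.Agent.R105.Kin_238
end

-- ▼ part R105/Kin2_238
section

open Set Filter MeasureTheory Topology
open scoped ENNReal NNReal InnerProductSpace

namespace Crest.Agent.R105.Kin_238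

open CF_363

variable {a b c B : ℝ} {𝓗 : Set Hair} {e e' : ℝ × ℝ → ℝ}

/-- first component of the gradient, cut off -/
noncomputable def G1 (a b c B : ℝ) (e : ℝ × ℝ → ℝ) : ℝ × ℝ → ℝ := (Wo a b c B).indicator (gx e)

/-- second component of the gradient, cut off -/
noncomputable def G2 (a b c B : ℝ) (e : ℝ × ℝ → ℝ) : ℝ × ℝ → ℝ := (Wo a b c B).indicator (gy e)



theorem isFiniteMeasure_Wo : IsFiniteMeasure ((volume : Measure (ℝ × ℝ)).restrict (Wo a b c B)) :=
  ⟨by rw [Measure.restrict_apply_univ]; exact volume_Wo_lt⟩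

theorem ae_bound (h : CFJ 𝓗 (Wl a b c B) e) : ∃ L : ℝ, 0 ≤ L ∧
    ∀ᵐ p ∂((volume : Measure (ℝ × ℝ)).restrict (Wo a b c B)),
      DifferentiableAt ℝ e p ∧ |gx e p| ≤ L ∧ |gy e p| ≤ L := by
  obtain ⟨J, -, L, C, hL, hSL, hC⟩ := h
  refine ⟨L, hL, ae_restrict_of_diff isOpen_Wo (volume_cut J) ?_⟩
  have h1 : SL (Wo a b c B \ cut J) L e := hSL.mono (sdiff_subset_sdiff_left Wo_subset)
  have hopen := isOpen_diff_cut (isOpen_Wo (a := a) (b := b) (c := c) (B := B)) J
  filter_upwards [h1.ae_differentiableAt (μ := volume) hopen] with p hp hpW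
  exact ⟨hp hpW, h1.abs_gx_le hopen hL hpW, h1.abs_gy_le hopen hL hpW⟩

theorem memLp_G1 (h : CFJ 𝓗 (Wl a b c B) e) : MemLp (G1 a b c B e) 2 volume := by
  obtain ⟨L, hL, hae⟩ := ae_bound h
  rw [G1, memLp_indicator_iff_restrict measurableSet_Wo]
  have := isFiniteMeasure_Wo (a := a) (b := b) (c := c) (B := B)
  refine MemLp.of_bound (measurable_gx e).aestronglyMeasurable L ?_
  filter_upwards [hae] with p hp using by simpa using hp.2.1

theorem memLp_G2 (h : CFJ 𝓗 (Wl a b c B) e) : MemLp (G2 a b c B e) 2 volume := by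
  obtain ⟨L, hL, hae⟩ := ae_bound h
  rw [G2, memLp_indicator_iff_restrict measurableSet_Wo]
  have := isFiniteMeasure_Wo (a := a) (b := b) (c := c) (B := B)
  refine MemLp.of_bound (measurable_gy e).aestronglyMeasurable L ?_
  filter_upwards [hae] with p hp using by simpa using hp.2.2

theorem ae_of_restrict {P : ℝ × ℝ → Prop}
    (h : ∀ᵐ p ∂((volume : Measure (ℝ × ℝ)).restrict (Wo a b c B)), P p) :
    ∀ᵐ p : ℝ × ℝ, p ∈ Wo a b c B → P p :=
  (ae_restrict_iff' measurableSet_Wo).1 h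

theorem G_add (h : CFJ 𝓗 (Wl a b c B) e) (h' : CFJ 𝓗 (Wl a b c B) e') :
    (∀ᵐ p : ℝ × ℝ, G1 a b c B (e + e') p = G1 a b c B e p + G1 a b c B e' p) ∧
    ∀ᵐ p : ℝ × ℝ, G2 a b c B (e + e') p = G2 a b c B e p + G2 a b c B e' p := by
  obtain ⟨L, hL, hae⟩ := ae_bound h
  obtain ⟨L', hL', hae'⟩ := ae_bound h'
  have key : ∀ᵐ p : ℝ × ℝ, G1 a b c B (e + e') p = G1 a b c B e p + G1 a b c B e' p ∧
      G2 a b c B (e + e') p = G2 a b c B e p + G2 a b c B e' p := by
    filter_upwards [ae_of_restrict hae, ae_of_restrict hae'] with p hp hp'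
    unfold G1 G2
    by_cases hW : p ∈ Wo a b c B
    · simp only [indicator_of_mem hW]
      exact ⟨gx_add (hp hW).1 (hp' hW).1, gy_add (hp hW).1 (hp' hW).1⟩
    · simp [indicator_of_notMem hW]
  exact ⟨key.mono fun p hp => hp.1, key.mono fun p hp => hp.2⟩

theorem G_smul (h : CFJ 𝓗 (Wl a b c B) e) (t : ℝ) :
    (∀ᵐ p : ℝ × ℝ, G1 a b c B (t • e) p = t * G1 a b c B e p) ∧
    ∀ᵐ p : ℝ × ℝ, G2 a b c B (t • e) p = t * G2 a b c B e p := by
  obtain ⟨L, hL, hae⟩ := ae_bound h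
  have key : ∀ᵐ p : ℝ × ℝ, G1 a b c B (t • e) p = t * G1 a b c B e p ∧
      G2 a b c B (t • e) p = t * G2 a b c B e p := by
    filter_upwards [ae_of_restrict hae] with p hp
    unfold G1 G2
    by_cases hW : p ∈ Wo a b c B
    · simp only [indicator_of_mem hW]
      exact ⟨gx_const_mul t (hp hW).1, gy_const_mul t (hp hW).1⟩
    · simp [indicator_of_notMem hW]
  exact ⟨key.mono fun p hp => hp.1, key.mono fun p hp => hp.2⟩

/-- the Hilbert space of pairs of vector fields -/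
abbrev HH : Type := PiLp 2 (fun _ : Fin 2 => PiLp 2 (fun _ : Fin 2 => Lp ℝ 2 (volume : Measure (ℝ × ℝ))))

/-- one vector field -/
abbrev HF : Type := PiLp 2 (fun _ : Fin 2 => Lp ℝ 2 (volume : Measure (ℝ × ℝ)))

/-- gradient as an element of `L² × L²` -/
noncomputable def grad (𝓗 : Set Hair) (a b c B : ℝ) : Vl 𝓗 a b c B →ₗ[ℝ] HF where
  toFun e := WithLp.toLp 2 ![(memLp_G1 e.2.1).toLp _, (memLp_G2 e.2.1).toLp _]
  map_add' := by
    intro e e'
    have h := G_add e.2.1 e'.2.1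
    ext i : 1
    fin_cases i
    · show (memLp_G1 (e + e').2.1).toLp _ = (memLp_G1 e.2.1).toLp _ + (memLp_G1 e'.2.1).toLp _
      rw [← MemLp.toLp_add, MemLp.toLp_eq_toLp_iff]
      exact h.1
    · show (memLp_G2 (e + e').2.1).toLp _ = (memLp_G2 e.2.1).toLp _ + (memLp_G2 e'.2.1).toLp _
      rw [← MemLp.toLp_add, MemLp.toLp_eq_toLp_iff]
      exact h.2
  map_smul' := by
    intro t e
    have h := G_smul e.2.1 t
    ext i : 1
    fin_cases i
    · show (memLp_G1 (t • e).2.1).toLp _ = t • (memLp_G1 e.2.1).toLp _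
      rw [← MemLp.toLp_const_smul, MemLp.toLp_eq_toLp_iff]
      exact h.1
    · show (memLp_G2 (t • e).2.1).toLp _ = t • (memLp_G2 e.2.1).toLp _
      rw [← MemLp.toLp_const_smul, MemLp.toLp_eq_toLp_iff]
      exact h.2

theorem inner_L2_eq (f g : Lp ℝ 2 (volume : Measure (ℝ × ℝ))) :
    ⟪f, g⟫_ℝ = ∫ p, f p * g p := by
  rw [L2.inner_def]
  refine integral_congr_ae (Eventually.of_forall fun p => ?_)
  simp [mul_comm]

theorem inner_grad (X : HF) (e : Vl 𝓗 a b c B) :
    ⟪X, grad 𝓗 a b c B e⟫_ℝ =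
      (∫ p, X 0 p * G1 a b c B e p) + ∫ p, X 1 p * G2 a b c B e p := by
  rw [PiLp.inner_apply, Fin.sum_univ_two, inner_L2_eq, inner_L2_eq]
  congr 1
  · refine integral_congr_ae ?_
    filter_upwards [(memLp_G1 e.2.1).coeFn_toLp] with p hp
    show X 0 p * ((memLp_G1 e.2.1).toLp _ : Lp ℝ 2 volume) p = _
    rw [hp]
  · refine integral_congr_ae ?_
    filter_upwards [(memLp_G2 e.2.1).coeFn_toLp] with p hp
    show X 1 p * ((memLp_G2 e.2.1).toLp _ : Lp ℝ 2 volume) p = _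
    rw [hp]

theorem norm_grad_sq (e : Vl 𝓗 a b c B) : ‖grad 𝓗 a b c B e‖ ^ 2 = En (Wo a b c B) e := by
  rw [← real_inner_self_eq_norm_sq, inner_grad, ← integral_add]
  · have h0 : ∀ᵐ p : ℝ × ℝ, (grad 𝓗 a b c B e) 0 p = G1 a b c B e p :=
      (memLp_G1 e.2.1).coeFn_toLp
    have h1 : ∀ᵐ p : ℝ × ℝ, (grad 𝓗 a b c B e) 1 p = G2 a b c B e p :=
      (memLp_G2 e.2.1).coeFn_toLp
    rw [En, ← integral_indicator measurableSet_Wo]
    refine integral_congr_ae ?_
    filter_upwards [h0, h1] with p hp0 hp1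
    rw [hp0, hp1]
    unfold G1 G2 g2
    by_cases hW : p ∈ Wo a b c B
    · simp only [indicator_of_mem hW]; ring
    · simp [indicator_of_notMem hW]
  · exact (Lp.memLp _).integrable_mul (memLp_G1 e.2.1)
  · exact (Lp.memLp _).integrable_mul (memLp_G2 e.2.1)

end Crest.Agent.R105.Kin_238
end

-- ▼ part R105/Kin3_238

open Set Filter MeasureTheory Topology
open scoped ENNReal NNReal InnerProductSpace

namespace Crest.Agent.R105.Kin_238

open CF_363 Kkt_238

variable {a b c B : ℝ} {𝓗 g : Set Hair} {e e' : ℝ × ℝ → ℝ}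

/-- the part of the hairs of `g` below `B` -/
def lowSet (g : Set Hair) (B : ℝ) : Set (ℝ × ℝ) := {q | ∃ K ∈ g, q ∈ K.car ∧ q.2 ≤ B}

/-- geometry of a half problem: the hairs of `g` end above the bottom `c` and reach `B` -/
structure GG (a b c B : ℝ) (g : Set Hair) : Prop where
  hx : ∀ K ∈ g, a < K.x ∧ K.x < b
  low : ∃ δ > 0, ∀ K ∈ g, c + δ ≤ K.b
  lowB : ∀ K ∈ g, K.b ≤ B
  topB : ∀ K ∈ g, B ≤ K.t
  closed : IsClosed {q : ℝ × ℝ | ∃ K ∈ g, q ∈ K.car}

theorem GG.lowSet_subset (G : GG a b c B g) : lowSet g B ⊆ Wl a b c B := by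
  rintro q ⟨K, hK, hq, hqB⟩
  obtain ⟨δ, hδ, h⟩ := G.low
  have h1 := h K hK
  have h2 := hq.2.1
  have h3 : q.1 = K.x := hq.1
  exact ⟨by rw [h3]; exact G.hx K hK, by linarith, hqB⟩

theorem GG.isCompact_lowSet (G : GG a b c B g) : IsCompact (lowSet g B) := by
  have h1 : lowSet g B = {q : ℝ × ℝ | ∃ K ∈ g, q ∈ K.car} ∩ {q | q.2 ≤ B} := by
    ext q
    constructor
    · rintro ⟨K, hK, hq, hqB⟩; exact ⟨⟨K, hK, hq⟩, hqB⟩
    · rintro ⟨⟨K, hK, hq⟩, hqB⟩; exact ⟨K, hK, hq, hqB⟩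
  have h2 : IsClosed (lowSet g B) := by
    rw [h1]; exact G.closed.inter (isClosed_le continuous_snd continuous_const)
  refine (isCompact_Icc.prod isCompact_Icc).of_isClosed_subset h2
    (s := Icc a b ×ˢ Icc c B) ?_
  intro q hq
  obtain ⟨h3, h4, h5⟩ := G.lowSet_subset hq
  exact ⟨⟨h3.1.le, h3.2.le⟩, h4.le, h5⟩

/-- the flow on one half -/
structure Half (𝓗 : Set Hair) (a b c B : ℝ) (g : Set Hair) (X1 X2 : ℝ × ℝ → ℝ)
    (μ : Measure (ℝ × ℝ)) : Prop where
  m1 : Measurable X1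
  m2 : Measurable X2
  L1 : MemLp X1 2 (volume : Measure (ℝ × ℝ))
  L2 : MemLp X2 2 (volume : Measure (ℝ × ℝ))
  z1 : ∀ p, p ∉ Wo a b c B → X1 p = 0
  z2 : ∀ p, p ∉ Wo a b c B → X2 p = 0
  fin : IsFiniteMeasure μ
  carried : μ (lowSet g B)ᶜ = 0
  /-- flow identity -/
  F : ∀ (e : ℝ × ℝ → ℝ) (J : Finset Hair), e ∈ Vl 𝓗 a b c B → CF (Wl a b c B \ cut J) e →
    μ (cut J) = 0 → ∫ p in Wo a b c B, (X1 p * gx e p + X2 p * gy e p) = ∫ p, e p ∂μ
  /-- `X` is a limit of gradients -/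
  cl : ∃ E : ℕ → ℝ × ℝ → ℝ, (∀ n, E n ∈ Vl 𝓗 a b c B) ∧
    Tendsto (fun n => ∫ p in Wo a b c B, ((gx (E n) p - X1 p) ^ 2 + (gy (E n) p - X2 p) ^ 2))
      atTop (𝓝 0)

/-! ### cut-offs near a closed null set -/

theorem exists_cutoff (μ : Measure (ℝ × ℝ)) [IsFiniteMeasure μ] {S : Set (ℝ × ℝ)} (hS : IsCompact S)
    (hμ : μ S = 0) {ε : ℝ} (hε : 0 < ε) :
    ∃ (u : ℝ × ℝ → ℝ) (O F : Set (ℝ × ℝ)), Continuous u ∧ (∀ p, 0 ≤ u p ∧ u p ≤ 1) ∧ IsOpen O ∧
      S ⊆ O ∧ (∀ p ∈ O, u p = 0) ∧ IsClosed F ∧ μ.real F < ε ∧ O ⊆ F ∧ ∀ p, p ∉ F → u p = 1 := by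
  have h1 : Tendsto (fun r => μ (Metric.cthickening r S)) (𝓝 0) (𝓝 (μ S)) :=
    tendsto_measure_cthickening_of_isClosed ⟨1, one_pos, measure_ne_top _ _⟩ hS.isClosed
  rw [hμ] at h1
  have h2 : ∀ᶠ r in 𝓝[>] (0 : ℝ), μ (Metric.cthickening r S) < ENNReal.ofReal ε :=
    (h1.mono_left nhdsWithin_le_nhds).eventually (gt_mem_nhds (by simpa using hε))
  obtain ⟨δ, hδ, hδpos⟩ := (h2.and self_mem_nhdsWithin).exists
  have hδ0 : 0 < δ := hδpos
  obtain ⟨u, hu0, hu1, hu2⟩ := exists_continuous_zero_one_of_isClosed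
    (s := Metric.cthickening (δ / 2) S) (t := (Metric.thickening δ S)ᶜ)
    Metric.isClosed_cthickening Metric.isOpen_thickening.isClosed_compl
    (by
      rw [Set.disjoint_compl_right_iff_subset]
      exact Metric.cthickening_subset_thickening' hδ0 (by linarith) S)
  refine ⟨u, Metric.thickening (δ / 2) S, Metric.cthickening δ S, u.continuous, fun p => hu2 p,
    Metric.isOpen_thickening, Metric.self_subset_thickening (by linarith) S,
    fun p hp => hu0 (Metric.thickening_subset_cthickening _ _ hp), Metric.isClosed_cthickening, ?_,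
    ?_, fun p hp => hu1 fun h => hp (Metric.thickening_subset_cthickening _ _ h)⟩
  · rw [measureReal_def]
    calc (μ (Metric.cthickening δ S)).toReal < (ENNReal.ofReal ε).toReal :=
          (ENNReal.toReal_lt_toReal (measure_ne_top _ _) ENNReal.ofReal_ne_top).2 hδ
      _ = ε := ENNReal.toReal_ofReal hε.le
  · exact (Metric.thickening_subset_cthickening _ _).trans
      (Metric.cthickening_mono (by linarith) S)

/-! ### the norm of `HF` -/

theorem norm_HF_sq (Y : HF) : ‖Y‖ ^ 2 = (∫ p, Y 0 p ^ 2) + ∫ p, Y 1 p ^ 2 := by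
  rw [← real_inner_self_eq_norm_sq, PiLp.inner_apply, Fin.sum_univ_two, inner_L2_eq, inner_L2_eq]
  simp only [sq]

/-! ### the flow -/

variable {P : Type*} {lam : (P → ℝ) →ₗ[ℝ] ℝ}

open Classical in
/-- identity (F) on the compact set `lowSet g B` -/
theorem flow_identity (hp : Pos lam) (G : GG a b c B g) (κ : P → Hair) (s : P → Bool) (y : P → ℝ)
    (hκ : ∀ q, κ q ∈ g) (hy : ∀ q, (κ q).b ≤ y q ∧ y q ≤ B)
    {μ : Measure (ℝ × ℝ)} [IsFiniteMeasure μ] (hcar : μ (lowSet g B)ᶜ = 0)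
    (hint : ∀ f : ℝ × ℝ → ℝ, ContinuousOn f (Wl a b c B) →
      ∫ p, f p ∂μ = lam (fun q => f ((κ q).x, y q)))
    (hcl : ∀ F : Set (ℝ × ℝ), IsClosed F →
      lam (fun q => if ((κ q).x, y q) ∈ F then 1 else 0) ≤ μ.real F)
    {J : Finset Hair} (he : CF (Wl a b c B \ cut J) e) (hJ : μ (cut J) = 0) :
    lam (fun q => tr e (s q) (κ q).x (y q)) = ∫ p, e p ∂μ := by
  obtain ⟨L, C, hL, hSL, hC⟩ := he
  -- `C` may be taken nonnegative
  wlog hC0 : 0 ≤ C generalizing C
  · exact this |C| (fun p hp => (hC p hp).trans (le_abs_self C)) (abs_nonneg C)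
  have hpos : ∀ q, ((κ q).x, y q) ∈ Wl a b c B := fun q =>
    G.lowSet_subset ⟨κ q, hκ q, ⟨rfl, (hy q).1, (hy q).2.trans (G.topB _ (hκ q))⟩, (hy q).2⟩
  have htr : ∀ q, |tr e (s q) (κ q).x (y q)| ≤ C := fun q =>
    abs_tr_le hSL hC (s q) (hpos q).1 (hpos q).2.1 (hpos q).2.2
  have hbd : ∀ᵐ p ∂μ, p ∈ Wl a b c B ∧ p ∉ cut J := by
    have h1 : ∀ᵐ p ∂μ, p ∈ lowSet g B := by
      rw [ae_iff]; exact hcar
    have h2 : ∀ᵐ p ∂μ, p ∉ cut J := measure_eq_zero_iff_ae_notMem.1 hJ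
    filter_upwards [h1, h2] with p hp1 hp2 using ⟨G.lowSet_subset hp1, hp2⟩
  have hmeas : AEStronglyMeasurable e μ := by
    have h1 : MeasurableSet (Wl a b c B \ cut J) :=
      measurableSet_Wl.diff (isClosed_cut J).measurableSet
    have h2 : μ.restrict (Wl a b c B \ cut J) = μ := by
      apply Measure.restrict_eq_self_of_ae_mem
      filter_upwards [hbd] with p hp using hp
    rw [← h2]
    exact (continuousOn_of hSL).aestronglyMeasurable h1
  have hie : Integrable e μ := by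
    refine Integrable.of_bound hmeas C ?_
    filter_upwards [hbd] with p hp using by simpa using hC p hp
  have key : ∀ ε : ℝ, 0 < ε →
      |lam (fun q => tr e (s q) (κ q).x (y q)) - ∫ p, e p ∂μ| ≤ 4 * C * ε := by
    intro ε hε
    obtain ⟨u, O, F, hu, hu01, hO, hSO, huO, hF, hμF, hOF, hu1⟩ :=
      exists_cutoff μ (isCompact_cut J) hJ hε
    set f : ℝ × ℝ → ℝ := fun p => u p * e p with hf
    have hfc : ContinuousOn f (Wl a b c B) := by
      intro p hp
      by_cases hpO : p ∈ O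
      · have : f =ᶠ[𝓝[Wl a b c B] p] fun _ => 0 := by
          filter_upwards [nhdsWithin_le_nhds (hO.mem_nhds hpO)] with q hq
          simp [hf, huO q hq]
        refine continuousWithinAt_const.congr_of_eventuallyEq this ?_
        simp [hf, huO p hpO]
      · exact hu.continuousWithinAt.mul (continuousWithinAt_of hSL hp fun h => hpO (hSO h))
    have hfe : ∀ p ∈ Wl a b c B, p ∉ cut J → |e p - f p| ≤ C * (if p ∈ F then 1 else 0) := by
      intro p hp hpJ
      by_cases hpF : p ∈ F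
      · rw [if_pos hpF, mul_one]
        have h1 := hC p ⟨hp, hpJ⟩
        have h2 := hu01 p
        have h3 : e p - f p = (1 - u p) * e p := by simp only [hf]; ring
        rw [h3, abs_mul, abs_of_nonneg (by linarith)]
        nlinarith [abs_nonneg (e p)]
      · rw [if_neg hpF, mul_zero]
        simp [hf, hu1 p hpF]
    -- comparison of the functionals
    have hA : |lam (fun q => tr e (s q) (κ q).x (y q)) - lam (fun q => f ((κ q).x, y q))|
        ≤ 2 * C * ε := by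
      rw [← map_sub]
      have h1 : ∀ q, |((fun q => tr e (s q) (κ q).x (y q)) - fun q => f ((κ q).x, y q)) q| ≤
          2 * C * (if ((κ q).x, y q) ∈ F then 1 else 0) := by
        intro q
        simp only [Pi.sub_apply]
        by_cases hqJ : ((κ q).x, y q) ∈ cut J
        · have h2 := hSO hqJ
          rw [if_pos (hOF h2), mul_one]
          have h3 : f ((κ q).x, y q) = 0 := by simp [hf, huO _ h2]
          rw [h3, sub_zero]
          have := htr q
          linarith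
        · rw [tr_eq_self hSL (s q) (hpos q).1 (hpos q).2.1 (hpos q).2.2 hqJ]
          refine (hfe _ (hpos q) hqJ).trans ?_
          have : (0:ℝ) ≤ if ((κ q).x, y q) ∈ F then 1 else 0 := by split_ifs <;> norm_num
          nlinarith
      have hb1 : Bd (fun q => (if ((κ q).x, y q) ∈ F then (1:ℝ) else 0)) :=
        ⟨1, fun q => by beta_reduce; split_ifs <;> simp⟩
      have hb2 : Bd ((fun q => tr e (s q) (κ q).x (y q)) - fun q => f ((κ q).x, y q)) := by
        refine ⟨2 * C, fun q => (h1 q).trans ?_⟩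
        split_ifs <;> linarith
      have h2 : lam ((2 * C) • fun q => (if ((κ q).x, y q) ∈ F then (1:ℝ) else 0)) ≤ 2 * C * ε := by
        rw [map_smul, smul_eq_mul]
        exact mul_le_mul_of_nonneg_left ((hcl F hF).trans hμF.le) (by linarith)
      rw [abs_le]
      constructor
      · have h3 := hp.mono ((hb1.smul (2 * C)).neg) hb2 (fun q => by
          have := (abs_le.1 (h1 q)).1
          simpa using this)
        rw [map_neg] at h3
        linarith
      · have h3 := hp.mono hb2 (hb1.smul (2 * C)) (fun q => by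
          have := (abs_le.1 (h1 q)).2
          simpa using this)
        linarith
    -- comparison of the integrals
    have hBb : |(∫ p, e p ∂μ) - ∫ p, f p ∂μ| ≤ C * ε := by
      have hif : Integrable f μ := by
        refine Integrable.of_bound ?_ C ?_
        · have h2 : μ.restrict (Wl a b c B) = μ := by
            apply Measure.restrict_eq_self_of_ae_mem
            filter_upwards [hbd] with p hp using hp.1
          rw [← h2]
          exact hfc.aestronglyMeasurable measurableSet_Wl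
        · filter_upwards [hbd] with p hp
          have h1 := hC p hp
          have h2 := hu01 p
          rw [hf]
          simp only [Real.norm_eq_abs, abs_mul, abs_of_nonneg h2.1]
          nlinarith [abs_nonneg (e p)]
      rw [← integral_sub hie hif]
      have h6 := norm_integral_le_integral_norm (μ := μ) (fun p => e p - f p)
      rw [Real.norm_eq_abs] at h6
      refine h6.trans ?_
      calc ∫ p, ‖e p - f p‖ ∂μ ≤ ∫ p, F.indicator (fun _ => C) p ∂μ := by
            refine integral_mono_ae (hie.sub hif).norm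
              ((integrable_const C).indicator hF.measurableSet) ?_
            filter_upwards [hbd] with p hp
            have := hfe p hp.1 hp.2
            by_cases hpF : p ∈ F
            · simp only [Real.norm_eq_abs, indicator_of_mem hpF]
              simpa [hpF] using this
            · simp only [Real.norm_eq_abs, indicator_of_notMem hpF]
              simpa [hpF] using this
        _ = C * μ.real F := by
            rw [integral_indicator hF.measurableSet, setIntegral_const, smul_eq_mul, mul_comm]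
        _ ≤ C * ε := mul_le_mul_of_nonneg_left hμF.le hC0
    rw [hint f hfc] at hBb
    have h5 := abs_sub_le (lam (fun q => tr e (s q) (κ q).x (y q)))
      (lam (fun q => f ((κ q).x, y q))) (∫ p, e p ∂μ)
    rw [abs_sub_comm (lam (fun q => f ((κ q).x, y q)))] at h5
    nlinarith
  have h0 : |lam (fun q => tr e (s q) (κ q).x (y q)) - ∫ p, e p ∂μ| ≤ 0 := by
    refine le_of_forall_pos_le_add fun ε hε => ?_
    have := key (ε / (4 * C + 1)) (by positivity)
    refine this.trans ?_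
    rw [zero_add, mul_div_assoc', div_le_iff₀ (by positivity)]
    nlinarith
  exact sub_eq_zero.1 (abs_nonpos_iff.1 h0)

end Crest.Agent.R105.Kin_238
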