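import Crest.Agent.R105.Kin3_238
import Crest.Agent.R105.CFr_363
import Mathlib.MeasureTheory.Measure.FiniteMeasure

-- ▼ part R105/Kin4_238
section

open Set Filter MeasureTheory Topology
open scoped ENNReal NNReal InnerProductSpace

namespace Crest.Agent.R105.Kin_238

open CF_363 Kkt_238

variable {a b c B : ℝ} {𝓗 g : Set Hair} {e e' : ℝ × ℝ → ℝ}

/-! ### limits of gradients vanish off `Wo` -/

theorem grad0_eq (e : Vl 𝓗 a b c B) : ∀ᵐ p : ℝ × ℝ, (grad 𝓗 a b c B e) 0 p = G1 a b c B e p :=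
  (memLp_G1 e.2.1).coeFn_toLp

theorem grad1_eq (e : Vl 𝓗 a b c B) : ∀ᵐ p : ℝ × ℝ, (grad 𝓗 a b c B e) 1 p = G2 a b c B e p :=
  (memLp_G2 e.2.1).coeFn_toLp

/-- the vector fields which vanish a.e. off `Wo` -/
def suppSet (a b c B : ℝ) : Set HF :=
  {Y | (∀ᵐ p : ℝ × ℝ, p ∉ Wo a b c B → Y 0 p = 0) ∧ ∀ᵐ p : ℝ × ℝ, p ∉ Wo a b c B → Y 1 p = 0}

theorem isClosed_zero_off (W : Set (ℝ × ℝ)) (hW : MeasurableSet W) :
    IsClosed {f : Lp ℝ 2 (volume : Measure (ℝ × ℝ)) | ∀ᵐ p : ℝ × ℝ, p ∉ W → f p = 0} := by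
  have h1 : {f : Lp ℝ 2 (volume : Measure (ℝ × ℝ)) | ∀ᵐ p : ℝ × ℝ, p ∉ W → f p = 0} =
      ⋂ φ : Lp ℝ 2 (volume : Measure (ℝ × ℝ)), {f | ⟪((Lp.memLp φ).indicator hW.compl).toLp _, f⟫_ℝ = 0} := by
    ext f
    simp only [mem_ofPred_eq, mem_iInter]
    constructor
    · intro h φ
      rw [inner_L2_eq]
      rw [← integral_zero (ℝ × ℝ) ℝ (μ := volume)]
      refine integral_congr_ae ?_
      filter_upwards [h, ((Lp.memLp φ).indicator hW.compl).coeFn_toLp] with p hp hp2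
      rw [hp2]
      by_cases hpW : p ∈ W
      · simp [hpW]
      · simp [hp hpW]
    · intro h
      have h2 := h f
      rw [inner_L2_eq] at h2
      have h3 : ∫ p, (Wᶜ).indicator (fun p => f p ^ 2) p = 0 := by
        rw [← h2]
        refine integral_congr_ae ?_
        filter_upwards [((Lp.memLp f).indicator hW.compl).coeFn_toLp] with p hp2
        rw [hp2]
        by_cases hpW : p ∈ W
        · simp [hpW]
        · simp [hpW, sq]
      rw [integral_eq_zero_iff_of_nonneg] at h3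
      · filter_upwards [h3] with p hp hpW
        have h4 : p ∈ Wᶜ := hpW
        rw [indicator_of_mem h4] at hp
        simpa using hp
      · intro p
        exact indicator_nonneg (fun q _ => sq_nonneg _) p
      · exact ((Lp.memLp f).integrable_sq).indicator hW.compl
  rw [h1]
  refine isClosed_iInter fun φ => ?_
  exact isClosed_eq (by fun_prop) continuous_const

theorem isClosed_suppSet : IsClosed (suppSet a b c B) := by
  have h0 := isClosed_zero_off (Wo a b c B) measurableSet_Wo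
  have c0 : Continuous fun Y : HF => Y 0 := PiLp.continuous_apply 2 _ 0
  have c1 : Continuous fun Y : HF => Y 1 := PiLp.continuous_apply 2 _ 1
  exact (h0.preimage c0).inter (h0.preimage c1)

theorem mem_suppSet_of_closure {X : HF} (hX : X ∈ closure (range (grad 𝓗 a b c B))) :
    X ∈ suppSet a b c B := by
  refine closure_minimal ?_ isClosed_suppSet hX
  rintro _ ⟨e, rfl⟩
  constructor
  · filter_upwards [grad0_eq e] with p hp hpW
    rw [hp, G1, indicator_of_notMem hpW]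
  · filter_upwards [grad1_eq e] with p hp hpW
    rw [hp, G2, indicator_of_notMem hpW]

/-- measurable representatives -/
noncomputable def rep (a b c B : ℝ) (X : HF) (i : Fin 2) : ℝ × ℝ → ℝ := (Wo a b c B).indicator (X i)

theorem measurable_rep (X : HF) (i : Fin 2) : Measurable (rep a b c B X i) :=
  (Lp.stronglyMeasurable (X i)).measurable.indicator measurableSet_Wo

theorem memLp_rep (X : HF) (i : Fin 2) : MemLp (rep a b c B X i) 2 (volume : Measure (ℝ × ℝ)) :=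
  (Lp.memLp (X i)).indicator measurableSet_Wo

theorem rep_ae {X : HF} (hX : X ∈ suppSet a b c B) (i : Fin 2) :
    ∀ᵐ p : ℝ × ℝ, rep a b c B X i p = X i p := by
  have h : ∀ᵐ p : ℝ × ℝ, p ∉ Wo a b c B → X i p = 0 := by
    fin_cases i
    · exact hX.1
    · exact hX.2
  filter_upwards [h] with p hp
  by_cases hpW : p ∈ Wo a b c B
  · exact indicator_of_mem hpW _
  · rw [rep, indicator_of_notMem hpW, hp hpW]

theorem inner_grad_rep (X : HF) (e : Vl 𝓗 a b c B) :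
    ⟪X, grad 𝓗 a b c B e⟫_ℝ =
      ∫ p in Wo a b c B, (rep a b c B X 0 p * gx e p + rep a b c B X 1 p * gy e p) := by
  rw [inner_grad, ← integral_indicator measurableSet_Wo, ← integral_add]
  · refine integral_congr_ae (Eventually.of_forall fun p => ?_)
    unfold G1 G2 rep
    by_cases hpW : p ∈ Wo a b c B
    · simp [hpW]
    · simp [hpW]
  · exact (Lp.memLp _).integrable_mul (memLp_G1 e.2.1)
  · exact (Lp.memLp _).integrable_mul (memLp_G2 e.2.1)

theorem norm_rep {X : HF} (hX : X ∈ suppSet a b c B) :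
    (∫ p, rep a b c B X 0 p ^ 2) + ∫ p, rep a b c B X 1 p ^ 2 = ‖X‖ ^ 2 := by
  rw [norm_HF_sq]
  congr 1
  · refine integral_congr_ae ?_
    filter_upwards [rep_ae hX 0] with p hp
    rw [hp]
  · refine integral_congr_ae ?_
    filter_upwards [rep_ae hX 1] with p hp
    rw [hp]

theorem norm_sub_rep (X : HF) (e : Vl 𝓗 a b c B) :
    ∫ p in Wo a b c B, ((gx e p - rep a b c B X 0 p) ^ 2 + (gy e p - rep a b c B X 1 p) ^ 2) ≤
      ‖grad 𝓗 a b c B e - X‖ ^ 2 := by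
  rw [norm_HF_sq]
  have h0 : ∀ᵐ p : ℝ × ℝ, (grad 𝓗 a b c B e - X) 0 p = G1 a b c B e p - X 0 p := by
    have := Lp.coeFn_sub ((grad 𝓗 a b c B e) 0) (X 0)
    filter_upwards [this, grad0_eq e] with p hp hp'
    rw [← hp']; exact hp
  have h1 : ∀ᵐ p : ℝ × ℝ, (grad 𝓗 a b c B e - X) 1 p = G2 a b c B e p - X 1 p := by
    have := Lp.coeFn_sub ((grad 𝓗 a b c B e) 1) (X 1)
    filter_upwards [this, grad1_eq e] with p hp hp'
    rw [← hp']; exact hp
  have i0 : Integrable (fun p => (grad 𝓗 a b c B e - X) 0 p ^ 2) volume :=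
    (Lp.memLp _).integrable_sq
  have i1 : Integrable (fun p => (grad 𝓗 a b c B e - X) 1 p ^ 2) volume :=
    (Lp.memLp _).integrable_sq
  rw [← integral_add i0 i1, ← integral_indicator measurableSet_Wo]
  refine integral_mono_of_nonneg ?_ (i0.add i1) ?_
  · refine Eventually.of_forall fun p => indicator_nonneg (fun q _ => ?_) p
    positivity
  · filter_upwards [h0, h1] with p hp0 hp1
    simp only [hp0, hp1]
    by_cases hpW : p ∈ Wo a b c B
    · simp [G1, G2, rep, hpW]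
    · rw [indicator_of_notMem hpW]; positivity

/-! ### existence -/

variable {P : Type*} {lam : (P → ℝ) →ₗ[ℝ] ℝ}

open Classical in
/-- From the Kantorovich functional to the measure on one half. -/
theorem exists_half (hp : Pos lam) (G : GG a b c B g) (κ : P → Hair) (s : P → Bool) (y : P → ℝ)
    (hκ : ∀ q, κ q ∈ g) (hy : ∀ q, (κ q).b ≤ y q ∧ y q ≤ B) {X : HF}
    (hX : ∀ e : Vl 𝓗 a b c B,
      lam (fun q => tr e (s q) (κ q).x (y q)) = ⟪X, grad 𝓗 a b c B e⟫_ℝ)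
    (hcl : X ∈ closure (range (grad 𝓗 a b c B))) :
    ∃ μ : Measure (ℝ × ℝ), Half 𝓗 a b c B g (rep a b c B X 0) (rep a b c B X 1) μ ∧
      μ.real univ = lam 1 ∧
      (∀ f : ℝ × ℝ → ℝ, ContinuousOn f (Wl a b c B) →
        ∫ p, f p ∂μ = lam (fun q => f ((κ q).x, y q))) ∧
      (∀ F : Set (ℝ × ℝ), IsClosed F →
        lam (fun q => if ((κ q).x, y q) ∈ F then 1 else 0) ≤ μ.real F) ∧
      (∀ U : Set (ℝ × ℝ), IsOpen U →
        μ.real U ≤ lam (fun q => if ((κ q).x, y q) ∈ U then 1 else 0)) := by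
  have hcomp := G.isCompact_lowSet
  have : CompactSpace (lowSet g B) := isCompact_iff_compactSpace.1 hcomp
  have hmem : ∀ q, ((κ q).x, y q) ∈ lowSet g B := fun q =>
    ⟨κ q, hκ q, ⟨rfl, (hy q).1, (hy q).2.trans (G.topB _ (hκ q))⟩, (hy q).2⟩
  obtain ⟨μ', hreg, hfin, hint, hone, hF, hU⟩ :=
    exists_push hp (Y := lowSet g B) (fun q => ⟨((κ q).x, y q), hmem q⟩)
  have hme : MeasurableEmbedding (Subtype.val : lowSet g B → ℝ × ℝ) :=
    MeasurableEmbedding.subtype_coe hcomp.isClosed.measurableSet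
  set μ : Measure (ℝ × ℝ) := μ'.map Subtype.val with hμ
  have : IsFiniteMeasure μ := by rw [hμ]; infer_instance
  have hcar : μ (lowSet g B)ᶜ = 0 := by
    rw [hμ, hme.map_apply]
    simp
  have hint' : ∀ f : ℝ × ℝ → ℝ, ContinuousOn f (Wl a b c B) →
      ∫ p, f p ∂μ = lam (fun q => f ((κ q).x, y q)) := by
    intro f hf
    rw [hμ, hme.integral_map]
    have hc : Continuous fun p : lowSet g B => f p :=
      (hf.mono G.lowSet_subset).domRestrict
    exact hint ⟨_, hc⟩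
  have hF' : ∀ F : Set (ℝ × ℝ), IsClosed F →
      lam (fun q => if ((κ q).x, y q) ∈ F then 1 else 0) ≤ μ.real F := by
    intro F hFc
    have h1 := hF (Subtype.val ⁻¹' F) (hFc.preimage continuous_subtype_val)
    have h2 : μ.real F = μ'.real (Subtype.val ⁻¹' F) := by
      rw [measureReal_def, measureReal_def, hμ, hme.map_apply]
    rw [h2]
    exact h1
  have hU' : ∀ U : Set (ℝ × ℝ), IsOpen U →
      μ.real U ≤ lam (fun q => if ((κ q).x, y q) ∈ U then 1 else 0) := by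
    intro U hUo
    have h1 := hU (Subtype.val ⁻¹' U) (hUo.preimage continuous_subtype_val)
    have h2 : μ.real U = μ'.real (Subtype.val ⁻¹' U) := by
      rw [measureReal_def, measureReal_def, hμ, hme.map_apply]
    rw [h2]
    exact h1
  have hsupp := mem_suppSet_of_closure hcl
  refine ⟨μ, ?_, ?_, hint', hF', hU'⟩
  · refine ⟨measurable_rep X 0, measurable_rep X 1, memLp_rep X 0, memLp_rep X 1,
      fun p hp => indicator_of_notMem hp _, fun p hp => indicator_of_notMem hp _, ‹_›, hcar,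
      fun e J he hCF hJ => ?_, ?_⟩
    · rw [← inner_grad_rep X ⟨e, he⟩, ← hX ⟨e, he⟩]
      exact flow_identity hp G κ s y hκ hy hcar hint' hF' hCF hJ
    · obtain ⟨Y, hY, hlim⟩ := mem_closure_iff_seq_limit.1 hcl
      choose E hE using hY
      refine ⟨fun n => E n, fun n => (E n).2, ?_⟩
      have h1 : Tendsto (fun n => ‖grad 𝓗 a b c B (E n) - X‖ ^ 2) atTop (𝓝 0) := by
        have h2 : Tendsto (fun n => ‖Y n - X‖) atTop (𝓝 0) :=
          tendsto_iff_norm_sub_tendsto_zero.1 hlim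
        have h3 := h2.pow 2
        simp only [ne_eq, OfNat.ofNat_ne_zero, not_false_eq_true, zero_pow] at h3
        refine h3.congr fun n => ?_
        rw [hE]
      refine squeeze_zero (fun n => ?_) (fun n => norm_sub_rep X (E n)) h1
      exact integral_nonneg fun p => by positivity
  · rw [← hone, measureReal_def, measureReal_def, hμ, hme.map_apply]
    simp

end Crest.Agent.R105.Kin_238
end

-- ▼ part R105/Kin5_238
section

open Set Filter MeasureTheory Topology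
open scoped ENNReal NNReal InnerProductSpace

namespace Crest.Agent.R105.Kin_238

open CF_363 Kkt_238

variable {a b c B c' B' : ℝ} {𝓗 g : Set Hair} {e e' : ℝ × ℝ → ℝ}

/-- pairs of points (with sides) of one hair, below `B` and above `-B'` -/
structure Pt (g : Set Hair) (B B' : ℝ) where
  K : Hair
  hK : K ∈ g
  σ : Bool
  p : ℝ
  hp : K.b ≤ p ∧ p ≤ B
  σ' : Bool
  q : ℝ
  hq : -K.t ≤ q ∧ q ≤ B'

/-- `m(g) = 0` -/
def Null (𝓗 : Set Hair) (a b c B c' B' : ℝ) (g : Set Hair) : Prop :=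
  ∀ ε > 0, ∃ e ∈ Vl 𝓗 a b c B, ∃ e' ∈ Vl (reflH 𝓗) a b c' B',
    En (Wo a b c B) e + En (Wo a b c' B') e' < ε ∧
    ∀ K ∈ g, ∀ (σ σ' : Bool) (p q : ℝ), K.b ≤ p → p ≤ B → -K.t ≤ q → q ≤ B' →
      1 ≤ tr e σ K.x p + tr e' σ' K.x q

theorem GG.mem (G : GG a b c B g) {K : Hair} (hK : K ∈ g) {p : ℝ} (hp : K.b ≤ p ∧ p ≤ B) :
    (K.x, p) ∈ Wl a b c B :=
  G.lowSet_subset ⟨K, hK, ⟨rfl, hp.1, hp.2.trans (G.topB _ hK)⟩, hp.2⟩

theorem refl_mem {K : Hair} (hK : K ∈ g) : K.refl ∈ reflH g := by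
  show K.refl.refl ∈ g
  rwa [Hair.refl_refl]

/-- the traces -/
noncomputable def Am (𝓗 : Set Hair) (G : GG a b c B g) (G' : GG a b c' B' (reflH g)) :
    (Vl 𝓗 a b c B × Vl (reflH 𝓗) a b c' B') →ₗ[ℝ] (Pt g B B' → ℝ) where
  toFun z := fun P => tr z.1 P.σ P.K.x P.p + tr z.2 P.σ' P.K.x P.q
  map_add' := by
    intro z w
    ext P
    have h1 := G.mem P.hK P.hp
    have h2 := G'.mem (refl_mem P.hK) P.hq
    have e1 := tr_add z.1.2.1 w.1.2.1 P.σ h1.1 h1.2.1 h1.2.2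
    have e2 := tr_add z.2.2.1 w.2.2.1 P.σ' h2.1 h2.2.1 h2.2.2
    simp only [Hair.refl_x] at e1 e2
    show tr (↑z.1 + ↑w.1) P.σ P.K.x P.p + tr (↑z.2 + ↑w.2) P.σ' P.K.x P.q = _
    rw [e1, e2]
    simp only [Pi.add_apply]
    ring
  map_smul' := by
    intro t z
    ext P
    have h1 := G.mem P.hK P.hp
    have h2 := G'.mem (refl_mem P.hK) P.hq
    have e1 := tr_smul z.1.2.1 t P.σ h1.1 h1.2.1 h1.2.2
    have e2 := tr_smul z.2.2.1 t P.σ' h2.1 h2.2.1 h2.2.2
    simp only [Hair.refl_x] at e1 e2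
    show tr (t • ↑z.1) P.σ P.K.x P.p + tr (t • ↑z.2) P.σ' P.K.x P.q = _
    rw [e1, e2]
    simp only [RingHom.id_apply, Pi.smul_apply, smul_eq_mul]
    ring

/-- the gradients -/
noncomputable def Dm (𝓗 : Set Hair) (a b c B c' B' : ℝ) :
    (Vl 𝓗 a b c B × Vl (reflH 𝓗) a b c' B') →ₗ[ℝ] HH where
  toFun z := WithLp.toLp 2 ![grad 𝓗 a b c B z.1, grad (reflH 𝓗) a b c' B' z.2]
  map_add' := by
    intro z w
    ext i : 1
    fin_cases i
    · exact map_add (grad 𝓗 a b c B) z.1 w.1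
    · exact map_add (grad (reflH 𝓗) a b c' B') z.2 w.2
  map_smul' := by
    intro t z
    ext i : 1
    fin_cases i
    · exact map_smul (grad 𝓗 a b c B) t z.1
    · exact map_smul (grad (reflH 𝓗) a b c' B') t z.2

theorem inner_Dm (X : HH) (z : Vl 𝓗 a b c B × Vl (reflH 𝓗) a b c' B') :
    ⟪X, Dm 𝓗 a b c B c' B' z⟫_ℝ =
      ⟪X 0, grad 𝓗 a b c B z.1⟫_ℝ + ⟪X 1, grad (reflH 𝓗) a b c' B' z.2⟫_ℝ := by
  rw [PiLp.inner_apply, Fin.sum_univ_two]
  rfl

theorem norm_HH_sq (X : HH) : ‖X‖ ^ 2 = ‖X 0‖ ^ 2 + ‖X 1‖ ^ 2 := by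
  rw [← real_inner_self_eq_norm_sq, PiLp.inner_apply, Fin.sum_univ_two,
    real_inner_self_eq_norm_sq, real_inner_self_eq_norm_sq]

theorem norm_Dm_sq (z : Vl 𝓗 a b c B × Vl (reflH 𝓗) a b c' B') :
    ‖Dm 𝓗 a b c B c' B' z‖ ^ 2 = En (Wo a b c B) z.1 + En (Wo a b c' B') z.2 := by
  rw [norm_HH_sq, ← norm_grad_sq, ← norm_grad_sq]
  rfl

/-- the function `min 1 (max 0 ((y - c - δ) / δ))` -/
theorem exists_bottom (𝓗 : Set Hair) (a b c B : ℝ) {δ : ℝ} (hδ : 0 < δ) :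
    ∃ e ∈ Vl 𝓗 a b c B, ∀ (σ : Bool) (x y : ℝ), (a < x ∧ x < b) → c + 2 * δ ≤ y → y ≤ B →
      tr e σ x y = 1 := by
  set G : ℝ → ℝ := fun t => min 1 (max 0 ((t - c - δ) / δ)) with hG
  have hGlip : ∀ s t, |G s - G t| ≤ δ⁻¹ * |s - t| := by
    intro s t
    have h1 : |max 0 ((s - c - δ) / δ) - max 0 ((t - c - δ) / δ)| ≤ δ⁻¹ * |s - t| := by
      refine (abs_max_sub_max_le_max _ _ _ _).trans (max_le (by simp; positivity) ?_)
      rw [← sub_div]
      rw [abs_div, abs_of_pos hδ, div_eq_inv_mul]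
      apply le_of_eq
      congr 2
      ring
    refine (abs_min_sub_min_le_max _ _ _ _).trans (max_le (by simp; positivity) h1)
  have hsnd : SL (univ : Set (ℝ × ℝ)) 1 (fun p : ℝ × ℝ => p.2) := by
    intro p q _
    rw [one_mul, ← Real.dist_eq, Prod.dist_eq]
    exact le_max_right _ _
  have hSL := hsnd.comp (inv_nonneg.2 hδ.le) hGlip
  have hb : ∀ t, |G t| ≤ 1 := by
    intro t
    have h1 : 0 ≤ G t := le_min zero_le_one (le_max_left _ _)
    rw [abs_of_nonneg h1]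
    exact min_le_left _ _
  have hCF : CF (Wl a b c B \ cut ∅) (fun p : ℝ × ℝ => G p.2) :=
    ⟨δ⁻¹ * 1, 1, by positivity, hSL.mono (subset_univ _), fun p _ => hb _⟩
  refine ⟨fun p => G p.2, ⟨⟨∅, by simp, hCF⟩, δ, hδ, fun p hp hpc => ?_⟩, fun σ x y hx hy hyB => ?_⟩
  · have h1 : (p.2 - c - δ) / δ ≤ 0 := div_nonpos_of_nonpos_of_nonneg (by linarith) hδ.le
    simp only [hG]
    rw [max_eq_left h1]
    simp
  · obtain ⟨L, C, hL, hS, hC⟩ := hCF
    rw [tr_eq_self hS σ hx (by linarith) hyB (by simp)]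
    have h1 : 1 ≤ (y - c - δ) / δ := by rw [le_div_iff₀ hδ]; linarith
    simp only [hG]
    rw [min_eq_left (h1.trans (le_max_right _ _))]

theorem feas_nonempty (G : GG a b c B g) (G' : GG a b c' B' (reflH g)) :
    (Feas (Am 𝓗 G G')).Nonempty := by
  obtain ⟨δ, hδ, hlow⟩ := G.low
  obtain ⟨e, he, h1⟩ := exists_bottom 𝓗 a b c B (δ := δ / 2) (by linarith)
  refine ⟨(⟨e, he⟩, 0), fun P => ?_⟩
  show 1 ≤ tr e P.σ P.K.x P.p + tr (((0 : Vl (reflH 𝓗) a b c' B') : ℝ × ℝ → ℝ)) P.σ' P.K.x P.q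
  have h2 := hlow P.K P.hK
  rw [h1 P.σ P.K.x P.p (G.hx _ P.hK) (by linarith [P.hp.1]) P.hp.2]
  have h3 : tr ((0 : Vl (reflH 𝓗) a b c' B') : ℝ × ℝ → ℝ) P.σ' P.K.x P.q = 0 :=
    tr_eq_of_tendsto tendsto_const_nhds
  rw [h3]
  norm_num

theorem bd_Am (G : GG a b c B g) (G' : GG a b c' B' (reflH g))
    (z : Vl 𝓗 a b c B × Vl (reflH 𝓗) a b c' B') : Bd (Am 𝓗 G G' z) := by
  obtain ⟨J, -, L, C, hL, hS, hC⟩ := z.1.2.1
  obtain ⟨J', -, L', C', hL', hS', hC'⟩ := z.2.2.1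
  refine ⟨C + C', fun P => ?_⟩
  have h1 := G.mem P.hK P.hp
  have h2 := G'.mem (refl_mem P.hK) P.hq
  have e1 := abs_tr_le hS hC P.σ h1.1 h1.2.1 h1.2.2
  have e2 := abs_tr_le hS' hC' P.σ' h2.1 h2.2.1 h2.2.2
  exact (abs_add_le _ _).trans (add_le_add e1 e2)

/-- the output of lemma A's duality -/
structure Flow (𝓗 : Set Hair) (a b c B c' B' : ℝ) (g : Set Hair) (m : ℝ)
    (X1 X2 : ℝ × ℝ → ℝ) (μ : Measure (ℝ × ℝ)) (Y1 Y2 : ℝ × ℝ → ℝ) (ν : Measure (ℝ × ℝ)) :
    Prop where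
  lo : Half 𝓗 a b c B g X1 X2 μ
  up : Half (reflH 𝓗) a b c' B' (reflH g) Y1 Y2 ν
  marg : ∀ S : Set ℝ, MeasurableSet S → μ {q | q.1 ∈ S} = ν {q | q.1 ∈ S}
  mass : μ.real univ = m
  mass' : ν.real univ = m
  energy : ((∫ p, X1 p ^ 2) + ∫ p, X2 p ^ 2) + ((∫ p, Y1 p ^ 2) + ∫ p, Y2 p ^ 2) = m
  /-- no atoms at the null hairs -/
  noatom : (∀ K ∈ g, ∀ K' ∈ g, K.x = K'.x → K = K') → ∀ K ∈ g, Null 𝓗 a b c B c' B' {K} →
    μ {q | q.1 = K.x} = 0

/-- `z ↦ max z 0` stays in the class -/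
theorem max_mem (he : e ∈ Vl 𝓗 a b c B) : (fun p => max (e p) 0) ∈ Vl 𝓗 a b c B := by
  obtain ⟨h1, δ, hδ, h2⟩ := he
  exact ⟨h1.max (CFJ_const 0), δ, hδ, fun p hp hpc => by simp [h2 p hp hpc]⟩

theorem En_max_zero_le (he : CFJ 𝓗 (Wl a b c B) e) :
    En (Wo a b c B) (fun p => max (e p) 0) ≤ En (Wo a b c B) e := by
  obtain ⟨J, -, L, C, hL, hS, hC⟩ := he
  exact En_max_const_le (hS.mono (sdiff_subset_sdiff_left Wo_subset)) 0 isOpen_Wo
    (isClosed_cut J) (volume_cut J) volume_Wo_lt.ne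

/-- hairs of `g` near `K₀` do not go far below `K₀` -/
theorem GG.usc (G : GG a b c B g) (hinj : ∀ K ∈ g, ∀ K' ∈ g, K.x = K'.x → K = K') {K₀ : Hair}
    (hK₀ : K₀ ∈ g) {η : ℝ} (hη : 0 < η) :
    ∃ r > 0, ∀ K ∈ g, |K.x - K₀.x| < r → K₀.b - η ≤ K.b := by
  have hnot : (K₀.x, K₀.b - η) ∉ {q : ℝ × ℝ | ∃ K ∈ g, q ∈ K.car} := by
    rintro ⟨K, hK, hq⟩
    have h1 : K₀.x = K.x := hq.1
    have h2 := hinj K₀ hK₀ K hK h1
    have h3 : K.b ≤ K₀.b - η := hq.2.1
    rw [← h2] at h3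
    linarith
  obtain ⟨r, hr, hball⟩ := Metric.isOpen_iff.1 G.closed.isOpen_compl _ hnot
  refine ⟨r, hr, fun K hK hKr => ?_⟩
  by_contra hlt
  push Not at hlt
  refine hball (a := (K.x, K₀.b - η)) ?_ ⟨K, hK, rfl, hlt.le, ?_⟩
  · rw [Metric.mem_ball, Prod.dist_eq]
    simpa [Real.dist_eq] using hKr
  · have h1 := G.lowB K₀ hK₀
    have h2 := G.topB K hK
    show K₀.b - η ≤ K.t
    linarith

/-- traces on hairs near `K₀` are above those of `K₀`, up to `η` -/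
theorem GG.tr_near (G : GG a b c B g) (hinj : ∀ K ∈ g, ∀ K' ∈ g, K.x = K'.x → K = K') {K₀ : Hair}
    (hK₀ : K₀ ∈ g) (he : CFJ 𝓗 (Wl a b c B) e) {η : ℝ} (hη : 0 < η) :
    ∃ r > 0, ∀ K ∈ g, |K.x - K₀.x| < r → ∀ (σ : Bool) (p : ℝ), K.b ≤ p → p ≤ B →
      ∃ (σ₀ : Bool) (p₀ : ℝ), K₀.b ≤ p₀ ∧ p₀ ≤ B ∧ tr e σ₀ K₀.x p₀ ≤ tr e σ K.x p + η := by
  obtain ⟨J, -, L, C, hL, hS, hC⟩ := he
  have hη' : 0 < η / (2 * (L + 1)) := by positivity
  obtain ⟨r0, hr0, h0⟩ := G.usc hinj hK₀ hη'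
  obtain ⟨r1, hr1, g1, hg1, h1⟩ := exists_side hS true (G.hx K₀ hK₀)
  obtain ⟨r2, hr2, g2, hg2, h2⟩ := exists_side hS false (G.hx K₀ hK₀)
  have hK₀c : c < K₀.b := (G.mem hK₀ ⟨le_rfl, G.lowB _ hK₀⟩).2.1
  have main : ∀ (σ₀ : Bool) (r' : ℝ) (g' : ℝ × ℝ → ℝ), 0 < r' → LipschitzWith L.toNNReal g' →
      (∀ s ∈ sInt σ₀ K₀.x r', (a < s ∧ s < b) ∧ ∀ y, c < y → y ≤ B →
        (s, y) ∉ cut J ∧ e (s, y) = g' (s, y)) →
      ∀ K ∈ g, K.x ∈ sInt σ₀ K₀.x r' → |K.x - K₀.x| < min r0 (η / (2 * (L + 1))) →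
      ∀ (σ : Bool) (p : ℝ), K.b ≤ p → p ≤ B →
      ∃ (σ₀ : Bool) (p₀ : ℝ), K₀.b ≤ p₀ ∧ p₀ ≤ B ∧ tr e σ₀ K₀.x p₀ ≤ tr e σ K.x p + η := by
    intro σ₀ r' g' hr' hg' hside K hK hKs hKr σ p hp hpB
    refine ⟨σ₀, max p K₀.b, le_max_right _ _, max_le hpB (G.lowB _ hK₀), ?_⟩
    have hcp : c < p := (G.mem hK ⟨hp, hpB⟩).2.1
    have e1 : tr e σ K.x p = g' (K.x, p) := by
      rw [tr_eq_self hS σ (hside _ hKs).1 hcp hpB ((hside _ hKs).2 p hcp hpB).1,
        ((hside _ hKs).2 p hcp hpB).2]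
    have e2 : tr e σ₀ K₀.x (max p K₀.b) = g' (K₀.x, max p K₀.b) :=
      tr_eq_of_tendsto (tendsto_tr_aux hg' hr' fun s hs =>
        ((hside s hs).2 _ (lt_max_of_lt_left hcp) (max_le hpB (G.lowB _ hK₀))).2)
    rw [e1, e2]
    have e3 := hg'.dist_le_mul (K₀.x, max p K₀.b) (K.x, p)
    rw [Real.coe_toNNReal _ hL, Real.dist_eq] at e3
    have e4 : dist ((K₀.x, max p K₀.b) : ℝ × ℝ) (K.x, p) ≤ η / (2 * (L + 1)) := by
      rw [Prod.dist_eq]
      refine max_le ?_ ?_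
      · show dist K₀.x K.x ≤ _
        rw [dist_comm, Real.dist_eq]
        exact hKr.le.trans (min_le_right _ _)
      · show dist (max p K₀.b) p ≤ _
        have e5 := h0 K hK (hKr.trans_le (min_le_left _ _))
        rw [Real.dist_eq, abs_of_nonneg (by linarith [le_max_left p K₀.b])]
        rcases le_total p K₀.b with h | h
        · rw [max_eq_right h]; linarith
        · rw [max_eq_left h]; linarith
    have e6 : L * (η / (2 * (L + 1))) ≤ η := by
      rw [mul_div_assoc', div_le_iff₀ (by positivity)]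
      nlinarith
    have e7 := mul_le_mul_of_nonneg_left e4 hL
    have e8 := (abs_le.1 e3).2
    linarith
  refine ⟨min (min r0 (η / (2 * (L + 1)))) (min r1 r2),
    lt_min (lt_min hr0 hη') (lt_min hr1 hr2), fun K hK hKr σ p hp hpB => ?_⟩
  have hr : |K.x - K₀.x| < min r0 (η / (2 * (L + 1))) := hKr.trans_le (min_le_left _ _)
  have hr1' : |K.x - K₀.x| < r1 := hKr.trans_le ((min_le_right _ _).trans (min_le_left _ _))
  have hr2' : |K.x - K₀.x| < r2 := hKr.trans_le ((min_le_right _ _).trans (min_le_right _ _))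
  rcases lt_trichotomy K.x K₀.x with h | h | h
  · refine main false r2 g2 hr2 hg2 h2 K hK ?_ hr σ p hp hpB
    rw [abs_lt] at hr2'
    simp only [sInt, Bool.false_eq_true, if_false]
    exact ⟨by linarith [hr2'.1], h⟩
  · have := hinj K hK K₀ hK₀ h
    subst this
    exact ⟨σ, p, hp, hpB, by linarith⟩
  · refine main true r1 g1 hr1 hg1 h1 K hK ?_ hr σ p hp hpB
    rw [abs_lt] at hr1'
    simp only [sInt, if_true]
    exact ⟨h, by linarith [hr1'.2]⟩

end Crest.Agent.R105.Kin_238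
end

-- ▼ part R105/Kin6_238

open Set Filter MeasureTheory Topology
open scoped ENNReal NNReal InnerProductSpace

namespace Crest.Agent.R105.Kin_238

open CF_363 Kkt_238

variable {a b c B c' B' : ℝ} {𝓗 g : Set Hair} {e e' : ℝ × ℝ → ℝ}

theorem null_of_cond_eq_zero (G : GG a b c B g) (G' : GG a b c' B' (reflH g))
    (h0 : cond (Dm 𝓗 a b c B c' B') (Am 𝓗 G G') = 0) : Null 𝓗 a b c B c' B' g := by
  intro ε hε
  obtain ⟨z, hz, hlt⟩ := exists_small_of_cond_eq_zero (feas_nonempty G G') h0 hε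
  rw [norm_Dm_sq] at hlt
  exact ⟨z.1, z.1.2, z.2, z.2.2, hlt, fun K hK σ σ' p q h1 h2 h3 h4 =>
    hz ⟨K, hK, σ, p, ⟨h1, h2⟩, σ', q, ⟨h3, h4⟩⟩⟩


/-- **Lemma A, duality part**: if `m(g) > 0` there is a flow. -/
theorem exists_flow (𝓗 : Set Hair) (G : GG a b c B g) (G' : GG a b c' B' (reflH g))
    (hnot : ¬ Null 𝓗 a b c B c' B' g) :
    ∃ (m : ℝ) (X1 X2 : ℝ × ℝ → ℝ) (μ : Measure (ℝ × ℝ)) (Y1 Y2 : ℝ × ℝ → ℝ)
      (ν : Measure (ℝ × ℝ)), 0 < m ∧ Flow 𝓗 a b c B c' B' g m X1 X2 μ Y1 Y2 ν := by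
  classical
  set A := Am 𝓗 G G' with hA
  set D := Dm 𝓗 a b c B c' B' with hD
  have hne : (Feas A).Nonempty := feas_nonempty G G'
  obtain ⟨X, hX⟩ := exists_min D A hne
  have hbd : ∀ z, Bd (A z) := bd_Am G G'
  obtain ⟨lam, hp, hone, hlam⟩ := hX.exists_pos hbd
  have hm : 0 < cond D A := lt_of_le_of_ne cond_nonneg fun h =>
    hnot (null_of_cond_eq_zero G G' h.symm)
  -- the two halves
  have hcl : X ∈ closure (range D) := by
    obtain ⟨z, -, hz⟩ := hX.lim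
    exact mem_closure_of_tendsto hz (Eventually.of_forall fun n => ⟨z n, rfl⟩)
  have hcl0 : X 0 ∈ closure (range (grad 𝓗 a b c B)) := by
    have hc : Continuous fun Y : HH => Y 0 := PiLp.continuous_apply 2 _ 0
    refine closure_mono ?_ (image_closure_subset_closure_image hc ⟨X, hcl, rfl⟩)
    rintro _ ⟨_, ⟨z, rfl⟩, rfl⟩
    exact ⟨z.1, rfl⟩
  have hcl1 : X 1 ∈ closure (range (grad (reflH 𝓗) a b c' B')) := by
    have hc : Continuous fun Y : HH => Y 1 := PiLp.continuous_apply 2 _ 1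
    refine closure_mono ?_ (image_closure_subset_closure_image hc ⟨X, hcl, rfl⟩)
    rintro _ ⟨_, ⟨z, rfl⟩, rfl⟩
    exact ⟨z.2, rfl⟩
  have tr0 : ∀ (σ : Bool) (x y : ℝ), tr (0 : ℝ × ℝ → ℝ) σ x y = 0 := fun σ x y =>
    tr_eq_of_tendsto tendsto_const_nhds
  obtain ⟨μ, hμH, hμ1, hμint, hμF, hμU⟩ := exists_half (𝓗 := 𝓗) (P := Pt g B B') hp G
    (fun P => P.K) (fun P => P.σ) (fun P => P.p) (fun P => P.hK) (fun P => P.hp) (X := X 0)
    (fun e => by
      have h1 := hlam (e, 0)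
      rw [hD, inner_Dm, map_zero, inner_zero_right, add_zero] at h1
      rw [← h1]
      congr 1
      ext P
      show _ = tr e P.σ P.K.x P.p + tr (0 : ℝ × ℝ → ℝ) P.σ' P.K.x P.q
      rw [tr0, add_zero]) hcl0
  obtain ⟨ν, hνH, hν1, hνint, hνF, hνU⟩ := exists_half (𝓗 := reflH 𝓗) (P := Pt g B B') hp G'
    (fun P => P.K.refl) (fun P => P.σ') (fun P => P.q) (fun P => refl_mem P.hK) (fun P => P.hq)
    (X := X 1)
    (fun e => by
      have h1 := hlam (0, e)
      rw [hD, inner_Dm, map_zero, inner_zero_right, zero_add] at h1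
      rw [← h1]
      congr 1
      ext P
      show _ = tr (0 : ℝ × ℝ → ℝ) P.σ P.K.x P.p + tr e P.σ' P.K.x P.q
      rw [tr0, zero_add]
      rfl) hcl1
  have hμfin := hμH.fin
  have hνfin := hνH.fin
  refine ⟨cond D A, _, _, μ, _, _, ν, hm, hμH, hνH, ?_, ?_, ?_, ?_, ?_⟩
  · -- marginals
    have h1 : μ.map Prod.fst = ν.map Prod.fst := by
      refine ext_of_forall_integral_eq_of_IsFiniteMeasure fun f => ?_
      rw [integral_map measurable_fst.aemeasurable f.continuous.aestronglyMeasurable,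
        integral_map measurable_fst.aemeasurable f.continuous.aestronglyMeasurable]
      rw [hμint (fun p => f p.1) (by fun_prop), hνint (fun p => f p.1) (by fun_prop)]
      rfl
    intro S hS
    have h2 : μ.map Prod.fst S = ν.map Prod.fst S := by rw [h1]
    rw [Measure.map_apply measurable_fst hS, Measure.map_apply measurable_fst hS] at h2
    exact h2
  · rw [hμ1, hone, hX.norm_sq]
  · rw [hν1, hone, hX.norm_sq]
  · rw [norm_rep (mem_suppSet_of_closure hcl0), norm_rep (mem_suppSet_of_closure hcl1),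
      ← norm_HH_sq, hX.norm_sq]
  · -- no atoms
    intro hinj K₀ hK₀ hnull
    have hinj' : ∀ K ∈ reflH g, ∀ K' ∈ reflH g, K.x = K'.x → K = K' := by
      intro K hK K' hK' hx
      exact Hair.refl_injective (hinj _ hK _ hK' hx)
    have key : ∀ ε > 0, μ.real {q | q.1 = K₀.x} ≤ ε := by
      intro ε hε
      set N := ‖X‖ with hN
      set δ := (ε / (2 * (N + 1))) ^ 2 with hδ
      have hNn : 0 ≤ N := norm_nonneg X
      have hεN : 0 < ε / (2 * (N + 1)) := by positivity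
      have hδpos : 0 < δ := by positivity
      obtain ⟨e, he, e', he', hlt, hf⟩ := hnull δ hδpos
      have hem := max_mem he
      have hem' := max_mem he'
      obtain ⟨r, hr, hnear⟩ := G.tr_near hinj hK₀ hem.1 (η := 1 / 4) (by norm_num)
      obtain ⟨r', hr', hnear'⟩ := G'.tr_near hinj' (refl_mem hK₀) hem'.1 (η := 1 / 4) (by norm_num)
      set z : Vl 𝓗 a b c B × Vl (reflH 𝓗) a b c' B' := (⟨_, hem⟩, ⟨_, hem'⟩) with hz
      set U : Set (ℝ × ℝ) := {q | |q.1 - K₀.x| < min r r'} with hU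
      have hUo : IsOpen U := isOpen_lt (by fun_prop) continuous_const
      have hsub : {q : ℝ × ℝ | q.1 = K₀.x} ⊆ U := by
        intro q hq
        have hq' : q.1 = K₀.x := hq
        show |q.1 - K₀.x| < min r r'
        rw [hq', sub_self, abs_zero]
        exact lt_min hr hr'
      have h1 : μ.real {q | q.1 = K₀.x} ≤ μ.real U := measureReal_mono hsub
      have h2 := hμU U hUo
      -- comparison with `2 * A z`
      have h3 : lam (fun P : Pt g B B' => if ((P.K).x, P.p) ∈ U then 1 else 0) ≤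
          lam ((2:ℝ) • A z) := by
        have hb1 : Bd (fun P : Pt g B B' => if ((P.K).x, P.p) ∈ U then (1:ℝ) else 0) :=
          ⟨1, fun q => by beta_reduce; split_ifs <;> simp⟩
        refine hp.mono hb1 ((hbd z).smul 2) fun P => ?_
        have hP1 := G.mem P.hK P.hp
        have hP2 := G'.mem (refl_mem P.hK) P.hq
        have t1 : 0 ≤ tr (fun p => max (e p) 0) P.σ P.K.x P.p :=
          ge_of_tendsto' (tendsto_tr hem.1 P.σ hP1.1 hP1.2.1 hP1.2.2) fun s => le_max_right _ _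
        have t2 : 0 ≤ tr (fun p => max (e' p) 0) P.σ' P.K.x P.q :=
          ge_of_tendsto' (tendsto_tr hem'.1 P.σ' hP2.1 hP2.2.1 hP2.2.2) fun s => le_max_right _ _
        show (if ((P.K).x, P.p) ∈ U then (1:ℝ) else 0) ≤ 2 * (tr (fun p => max (e p) 0) P.σ P.K.x P.p
          + tr (fun p => max (e' p) 0) P.σ' P.K.x P.q)
        by_cases hPU : ((P.K).x, P.p) ∈ U
        · rw [if_pos hPU]
          have hd : |P.K.x - K₀.x| < min r r' := hPU
          obtain ⟨σ₀, p₀, hp₀, hp₀', hle⟩ :=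
            hnear P.K P.hK (hd.trans_le (min_le_left _ _)) P.σ P.p P.hp.1 P.hp.2
          obtain ⟨σ₁, q₀, hq₀, hq₀', hle'⟩ :=
            hnear' P.K.refl (refl_mem P.hK) (hd.trans_le (min_le_right _ _)) P.σ' P.q P.hq.1 P.hq.2
          have h4 := hf K₀ rfl σ₀ σ₁ p₀ q₀ hp₀ hp₀' hq₀ hq₀'
          have h5 : tr (fun p => max (e p) 0) σ₀ K₀.x p₀ = max (tr e σ₀ K₀.x p₀) 0 := by
            have hm := G.mem hK₀ ⟨hp₀, hp₀'⟩
            exact tr_comp he.1 (G := fun t => max t 0) (by fun_prop) σ₀ hm.1 hm.2.1 hm.2.2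
          have h6 : tr (fun p => max (e' p) 0) σ₁ K₀.x q₀ = max (tr e' σ₁ K₀.x q₀) 0 := by
            have hm := G'.mem (refl_mem hK₀) ⟨hq₀, hq₀'⟩
            exact tr_comp he'.1 (G := fun t => max t 0) (by fun_prop) σ₁ hm.1 hm.2.1 hm.2.2
          rw [h5] at hle
          simp only [Hair.refl_x] at hle'
          rw [h6] at hle'
          have h7 := le_max_left (tr e σ₀ K₀.x p₀) 0
          have h8 := le_max_left (tr e' σ₁ K₀.x q₀) 0
          linarith
        · rw [if_neg hPU]; positivity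
      have h4 : lam ((2:ℝ) • A z) ≤ ε := by
        rw [map_smul, smul_eq_mul, hlam]
        have h5 : ⟪X, D z⟫_ℝ ≤ N * (ε / (2 * (N + 1))) := by
          refine (real_inner_le_norm _ _).trans (mul_le_mul_of_nonneg_left ?_ hNn)
          have h6 : ‖D z‖ ^ 2 ≤ (ε / (2 * (N + 1))) ^ 2 := by
            rw [hD, norm_Dm_sq]
            have e1 := En_max_zero_le he.1
            have e2 := En_max_zero_le he'.1
            calc _ ≤ _ := add_le_add e1 e2
              _ ≤ δ := hlt.le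
          exact (pow_le_pow_iff_left₀ (norm_nonneg _) hεN.le two_ne_zero).1 h6
        have h7 : N * (ε / (2 * (N + 1))) ≤ ε / 2 := by
          rw [mul_div_assoc', div_le_div_iff₀ (by positivity) (by norm_num)]
          nlinarith
        linarith
      exact h1.trans (h2.trans (h3.trans h4))
    have h0 : μ.real {q | q.1 = K₀.x} = 0 :=
      le_antisymm (le_of_forall_pos_le_add fun ε hε => by simpa using key ε hε) measureReal_nonneg
    exact (measureReal_eq_zero_iff (measure_ne_top _ _)).1 h0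

end Crest.Agent.R105.Kin_238
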