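import Crest.Agent.R105.Knq5_247
import Crest.Agent.R105.Cq9_463
import Crest.Agent.R105.Nal0_649
import Crest.Agent.R105.NulN1_421
import Crest.Agent.R105.Famq2_306
import Crest.Agent.R105.Kbx1_247
import Crest.Agent.R105.Famq4_306
import Crest.Agent.R105.Kbx3_247
import Crest.Agent.R105.Hmx_361
import Crest.Agent.R105.SkT1_137
import Crest.Agent.R105.Psq0_425

-- ▼ part R105/Kna1_421
section

/-!
Row 105, S0138, lemma A with squares (helper421): adapter from the box problem of `Knq_247` to the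
test functions of `Nal_649`. Part 1: one half (geometry, composition, lateral cut-off, energy).
-/

set_option autoImplicit false

open Set Filter MeasureTheory Topology
open scoped ENNReal NNReal

namespace Crest.Agent.R105.Kna_421

open CF_363 Kin_238 Stp_722 Cq_463
open Knq_247 (osc QQ Vq EQ Bo le_osc osc_nonneg osc_le osc_comp_le)
open Skp2_257 (Lo Up)

variable {E : Set (ℝ × ℝ)} {𝒬 𝒬' : Set Sqr} {𝓗 : Set Hair} {a b c d B : ℝ} {e : ℝ × ℝ → ℝ}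

/-- the charged squares as sets -/
def Qc (𝒬 : Set Sqr) : 𝒬 → Set (ℝ × ℝ) := fun i => i.1.car

/-- the geometry of `Knq_247` -/
theorem qq (hE : QPic E 𝒬 𝓗) (hs : 𝒬' ⊆ 𝒬) (hbox : E ⊆ Ioo a b ×ˢ Ioi c) :
    QQ 𝓗 a b c B (Qc 𝒬') where
  cpt i := by
    have h1 : Qc 𝒬' i ∩ Wl a b c B = i.1.car ∩ {p | p.2 ≤ B} := by
      ext p
      constructor
      · rintro ⟨h1, h2⟩; exact ⟨h1, h2.2.2⟩
      · rintro ⟨h1, h2⟩
        have h3 := hbox (hE.sub _ (hs i.2) h1)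
        exact ⟨h1, h3.1, h3.2, h2⟩
    rw [h1]
    exact i.1.isCompact_car.inter_right (isClosed_le continuous_snd continuous_const)
  conv i := i.1.convex_car
  sum := by
    have h1 : Summable ((fun Q : 𝒬 => Q.1.s ^ 2) ∘ Set.inclusion hs) :=
      Summable.comp_injective hE.summable_sq (inclusion_injective hs)
    refine Summable.of_nonneg_of_le (fun _ => sq_nonneg _) (fun i => ?_) h1
    refine pow_le_pow_left₀ Metric.diam_nonneg ?_ 2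
    exact (Metric.diam_mono inter_subset_left i.1.isCompact_car.isBounded).trans i.1.diam_le
  fin K hK := by
    have hKc : IsPreconnected K.car := by
      rw [Hair.car_eq]
      exact isPreconnected_singleton.prod isPreconnected_Icc
    refine Set.Subsingleton.finite fun i hi j hj => Subtype.ext ?_
    exact hE.sep K.car (hE.hsub K hK) hKc _ (hs i.2) _ (hs j.2)
      (by rw [inter_comm]; exact hi) (by rw [inter_comm]; exact hj)

section comp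

variable {ι : Type*} {Q : ι → Set (ℝ × ℝ)} {S : Set (ℝ × ℝ)}

/-- clamping at `0` and `1` -/
theorem Vq_clamp (H : QQ 𝓗 a b c B Q) (hS : IsClosed S) (he : e ∈ Vq 𝓗 a b c B Q) :
    (fun p => max (min (e p) 1) 0) ∈ Vq 𝓗 a b c B Q ∧
      EQ a b c B S Q (fun p => max (min (e p) 1) 0) ≤ EQ a b c B S Q e := by
  have hm : (fun p => max (min (e p) 1) 0) ∈ Vq 𝓗 a b c B Q := by
    refine ⟨?_, fun i => ((he.2 i).inf continuousOn_const).sup continuousOn_const⟩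
    obtain ⟨⟨heJ, δ, hδ, he0⟩, -⟩ := he
    refine ⟨(heJ.min (CFJ_const 1)).max (CFJ_const 0), δ, hδ, fun p hp hpc => ?_⟩
    show max (min (e p) 1) 0 = 0
    rw [he0 p hp hpc]; simp
  refine ⟨hm, add_le_add ?_ ?_⟩
  · obtain ⟨J, -, L, C, hL, hSL, hC⟩ := he.1.1
    have hopen : IsOpen (Wo a b c B \ S) := isOpen_Wo.sdiff hS
    have h1 : SL ((Wo a b c B \ S) \ cut J) L e := hSL.mono (by
      rintro p ⟨⟨h1, -⟩, h2⟩
      exact ⟨Wo_subset h1, h2⟩)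
    have hfin : volume (Wo a b c B \ S) ≠ ∞ :=
      ((measure_mono sdiff_subset).trans_lt volume_Wo_lt).ne
    have h2 := h1.min (SL_const (1 : ℝ))
    exact (En_max_const_le h2 0 hopen (isClosed_cut J) (volume_cut J) hfin).trans
      (En_min_const_le h1 1 hopen (isClosed_cut J) (volume_cut J) hfin)
  · refine (H.summable hm).tsum_le_tsum (fun i => ?_) (H.summable he)
    refine pow_le_pow_left₀ (osc_nonneg _ _) ?_ 2
    refine osc_comp_le (G := fun t => max (min t 1) 0) (fun s t => ?_) (H.bo he i)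
    have h1 := abs_max_sub_max_le_abs (min s 1) (min t 1) 0
    have h2 := abs_min_sub_min_le_max s 1 t 1
    simp only [sub_self, abs_zero] at h2
    exact h1.trans (h2.trans (max_le le_rfl (abs_nonneg _)))

theorem EQ_two (hS : IsClosed S) (he : e ∈ Vq 𝓗 a b c B Q) :
    EQ a b c B S Q (fun p => 2 * e p) = 4 * EQ a b c B S Q e := by
  unfold EQ
  obtain ⟨J, -, L, C, hL, hSL, hC⟩ := he.1.1
  have hopen : IsOpen (Wo a b c B \ S) := isOpen_Wo.sdiff hS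
  have h1 : SL ((Wo a b c B \ S) \ cut J) L e := hSL.mono (by
    rintro p ⟨⟨h1, -⟩, h2⟩
    exact ⟨Wo_subset h1, h2⟩)
  have h2 := En_const_mul h1 2 hopen (isClosed_cut J) (volume_cut J)
  have h3 : ∀ i, osc (Q i ∩ Wl a b c B) (fun p => 2 * e p) ^ 2 =
      4 * osc (Q i ∩ Wl a b c B) e ^ 2 := fun i => by
    have h4 : osc (Q i ∩ Wl a b c B) ((2 : ℝ) • e) = |2| * osc (Q i ∩ Wl a b c B) e :=
      Knq_247.osc_smul 2
    have h5 : ((2 : ℝ) • e) = fun p => 2 * e p := rfl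
    rw [h5] at h4
    rw [h4, abs_two]; ring
  rw [h2]
  simp only [h3]
  rw [tsum_mul_left]; ring

end comp

/-! ### the lateral cut-off -/

/-- `1` on `[a1, b1]`, `0` off `[a1 - r, b1 + r]` -/
noncomputable def kx (a1 b1 r : ℝ) (x : ℝ) : ℝ := max 0 (1 - max (max (a1 - x) (x - b1)) 0 / r)

theorem kx_rg (a1 b1 : ℝ) {r : ℝ} (hr : 0 < r) (x : ℝ) : 0 ≤ kx a1 b1 r x ∧ kx a1 b1 r x ≤ 1 := by
  refine ⟨le_max_left _ _, max_le zero_le_one ?_⟩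
  have : 0 ≤ max (max (a1 - x) (x - b1)) 0 / r := div_nonneg (le_max_right _ _) hr.le
  linarith

theorem kx_one {a1 b1 r x : ℝ} (h1 : a1 ≤ x) (h2 : x ≤ b1) : kx a1 b1 r x = 1 := by
  unfold kx
  have : max (max (a1 - x) (x - b1)) 0 = 0 :=
    max_eq_right (max_le (by linarith) (by linarith))
  rw [this]; simp

theorem kx_zero {a1 b1 r x : ℝ} (hr : 0 < r) (h : x ≤ a1 - r ∨ b1 + r ≤ x) : kx a1 b1 r x = 0 := by
  unfold kx
  refine max_eq_left ?_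
  have h1 : r ≤ max (max (a1 - x) (x - b1)) 0 := by
    rcases h with h | h
    · exact (show r ≤ a1 - x by linarith).trans ((le_max_left _ _).trans (le_max_left _ _))
    · exact (show r ≤ x - b1 by linarith).trans ((le_max_right _ _).trans (le_max_left _ _))
  have h2 : 1 ≤ max (max (a1 - x) (x - b1)) 0 / r := (one_le_div hr).2 h1
  linarith

theorem kx_lip (a1 b1 : ℝ) {r : ℝ} (hr : 0 < r) (x x' : ℝ) :
    |kx a1 b1 r x - kx a1 b1 r x'| ≤ r⁻¹ * |x - x'| := by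
  unfold kx
  have h1 := abs_max_sub_max_le_max 0 (1 - max (max (a1 - x) (x - b1)) 0 / r) 0
    (1 - max (max (a1 - x') (x' - b1)) 0 / r)
  have h2 := abs_max_sub_max_le_abs (max (a1 - x) (x - b1)) (max (a1 - x') (x' - b1)) 0
  have h3 := abs_max_sub_max_le_max (a1 - x) (x - b1) (a1 - x') (x' - b1)
  have h4 : |a1 - x - (a1 - x')| = |x - x'| := by
    rw [show a1 - x - (a1 - x') = -(x - x') by ring, abs_neg]
  have h5 : |x - b1 - (x' - b1)| = |x - x'| := by congr 1; ring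
  rw [h4, h5, max_self] at h3
  have h6 : |1 - max (max (a1 - x) (x - b1)) 0 / r - (1 - max (max (a1 - x') (x' - b1)) 0 / r)| =
      r⁻¹ * |max (max (a1 - x) (x - b1)) 0 - max (max (a1 - x') (x' - b1)) 0| := by
    rw [show 1 - max (max (a1 - x) (x - b1)) 0 / r - (1 - max (max (a1 - x') (x' - b1)) 0 / r) =
      -(r⁻¹ * (max (max (a1 - x) (x - b1)) 0 - max (max (a1 - x') (x' - b1)) 0)) by
        field_simp; ring, abs_neg, abs_mul, abs_of_pos (inv_pos.2 hr)]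
  rw [h6, sub_self, abs_zero] at h1
  refine h1.trans (max_le (by positivity) ?_)
  exact mul_le_mul_of_nonneg_left (h2.trans h3) (inv_pos.2 hr).le

/-- the cut-off in the plane -/
noncomputable def kk (a1 b1 r : ℝ) (p : ℝ × ℝ) : ℝ := kx a1 b1 r p.1

theorem kk_lip (a1 b1 : ℝ) {r : ℝ} (hr : 0 < r) : LipschitzWith (r⁻¹).toNNReal (kk a1 b1 r) := by
  refine LipschitzWith.of_dist_le_mul fun p q => ?_
  rw [Real.coe_toNNReal _ (inv_pos.2 hr).le, Real.dist_eq]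
  refine (kx_lip a1 b1 hr p.1 q.1).trans ?_
  refine mul_le_mul_of_nonneg_left ?_ (inv_pos.2 hr).le
  rw [Prod.dist_eq, ← Real.dist_eq]
  exact le_max_left _ _

/-- gradient of the cut-off -/
theorem g2_kk_le (a1 b1 : ℝ) {r : ℝ} (hr : 0 < r) (p : ℝ × ℝ) :
    g2 (kk a1 b1 r) p ≤ 2 * r⁻¹ ^ 2 := by
  have h := SL_of_lipschitz (kk_lip a1 b1 hr) (U := univ)
  have := h.g2_le isOpen_univ (NNReal.coe_nonneg _) (mem_univ p)
  rwa [Real.coe_toNNReal _ (inv_pos.2 hr).le] at this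

theorem g2_kk_zero {a1 b1 r : ℝ} {p : ℝ × ℝ} (h1 : a1 < p.1) (h2 : p.1 < b1) :
    g2 (kk a1 b1 r) p = 0 := by
  have h : kk a1 b1 r =ᶠ[𝓝 p] fun _ => 1 := by
    have ho : {q : ℝ × ℝ | a1 < q.1 ∧ q.1 < b1} ∈ 𝓝 p :=
      ((isOpen_lt continuous_const continuous_fst).inter
        (isOpen_lt continuous_fst continuous_const)).mem_nhds ⟨h1, h2⟩
    filter_upwards [ho] with q hq using kx_one hq.1.le hq.2.le
  unfold g2
  rw [gx_congr h, gy_congr h]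
  simp [gx, gy]

end Crest.Agent.R105.Kna_421
end

-- ▼ part R105/Kna2_421
section

/-!
Row 105, S0138, lemma A with squares (helper421): adapter from the box problem of `Knq_247` to the
test functions of `Nal_649`. Part 2: one half.
-/

set_option autoImplicit false

open Set Filter MeasureTheory Topology
open scoped ENNReal NNReal

namespace Crest.Agent.R105.Kna_421

open CF_363 Kin_238 Stp_722 Cq_463
open Knq_247 (osc QQ Vq EQ Bo le_osc osc_nonneg osc_le osc_comp_le)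
open Skp2_257 (Lo Up)
open Nal_649 (HalfQ OneNear)

variable {E : Set (ℝ × ℝ)} {𝒬 𝒬' : Set Sqr} {𝓗 𝓗₀ : Set Hair} {a b c d B a1 b1 r : ℝ}
  {e : ℝ × ℝ → ℝ}

/-- energy of the laterally cut-off function -/
theorem en_lat {J : Finset Hair} {L C δ : ℝ} (h : SL (Wl a b c B \ cut J) L e)
    (hC : ∀ p ∈ Wl a b c B \ cut J, |e p| ≤ C) (hcB : c < B) (hδ : 0 < δ)
    (h0 : ∀ p ∈ Wl a b c B, p.2 < c + δ → e p = 0) (ha : a < a1) (hab : a1 < b1) (hb : b1 < b)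
    (hEc : IsClosed E) (hE : ∀ p ∈ E, a1 < p.1 ∧ p.1 < b1) (hr : 0 < r) :
    En (Wo a b c B \ E) (fun p => kk a1 b1 r p * e p) ≤
      (2 + 8 * r⁻¹ ^ 2 * (B - c) ^ 2) * En (Wo a b c B \ E) e := by
  set T1 := Wo a a1 c B with hT1
  set T2 := Wo b1 b c B with hT2
  have hT1W : T1 ⊆ Wo a b c B := fun p hp => ⟨⟨hp.1.1, by linarith [hp.1.2]⟩, hp.2⟩
  have hT2W : T2 ⊆ Wo a b c B := fun p hp => ⟨⟨by linarith [hp.1.1], hp.1.2⟩, hp.2⟩
  have hT1E : T1 ⊆ Wo a b c B \ E := fun p hp => ⟨hT1W hp, fun hpE => by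
    have := (hE p hpE).1; linarith [hp.1.2]⟩
  have hT2E : T2 ⊆ Wo a b c B \ E := fun p hp => ⟨hT2W hp, fun hpE => by
    have := (hE p hpE).2; linarith [hp.1.1]⟩
  have hopen : IsOpen (Wo a b c B \ E) := isOpen_Wo.sdiff hEc
  have hSLW : SL (Wo a b c B \ cut J) L e := h.mono (sdiff_subset_sdiff_left Wo_subset)
  have i1 : IntegrableOn (g2 e) (Wo a b c B \ E) := (NulN_421.int_g2 h).mono_set sdiff_subset
  have i2 : IntegrableOn (fun p => e p ^ 2) (Wo a b c B \ E) :=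
    (NulN_421.int_sq h hC).mono_set sdiff_subset
  set F : ℝ × ℝ → ℝ := fun p => 2 * g2 e p + (T1.indicator (fun q => 4 * r⁻¹ ^ 2 * e q ^ 2) p +
    T2.indicator (fun q => 4 * r⁻¹ ^ 2 * e q ^ 2) p) with hF
  have hline : ∀ ξ : ℝ, ∀ᵐ p : ℝ × ℝ, p.1 ≠ ξ := by
    intro ξ
    have hx : ∀ᵐ x : ℝ, x ≠ ξ := by rw [ae_iff]; simp
    have := Measure.quasiMeasurePreserving_fst (μ := (volume : Measure ℝ))
      (ν := (volume : Measure ℝ))
    rw [← Measure.volume_eq_prod] at this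
    exact this.ae hx
  have hkS := SL_of_lipschitz (kk_lip a1 b1 hr) (U := univ)
  have hpt : ∀ᵐ p ∂((volume : Measure (ℝ × ℝ)).restrict (Wo a b c B \ E)),
      g2 (fun p => kk a1 b1 r p * e p) p ≤ F p := by
    have q1 := hSLW.ae_differentiableAt (μ := volume) (isOpen_diff_cut isOpen_Wo J)
    have q2 := hkS.ae_differentiableAt (μ := volume) isOpen_univ
    have q3 : ∀ᵐ p : ℝ × ℝ, p ∉ cut J := by
      rw [ae_iff]; simpa using volume_cut J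
    refine (ae_restrict_iff' hopen.measurableSet).2 ?_
    filter_upwards [q1, q2, q3, hline a1, hline b1] with p h1 h2 h3 h4 h5 hp
    have hp1 := h1 ⟨hp.1, h3⟩
    have hp2 := h2 (mem_univ p)
    have k1 := g2_mul_le hp2 hp1
    have k3 : kk a1 b1 r p ^ 2 ≤ 1 := by
      have := kx_rg a1 b1 hr p.1
      exact pow_le_one₀ this.1 this.2
    have k4 : kk a1 b1 r p ^ 2 * g2 e p ≤ g2 e p := mul_le_of_le_one_left (g2_nonneg _ _) k3
    have n1 : 0 ≤ T1.indicator (fun q => 4 * r⁻¹ ^ 2 * e q ^ 2) p :=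
      indicator_nonneg (fun q _ => by positivity) p
    have n2 : 0 ≤ T2.indicator (fun q => 4 * r⁻¹ ^ 2 * e q ^ 2) p :=
      indicator_nonneg (fun q _ => by positivity) p
    have k5 : e p ^ 2 * g2 (kk a1 b1 r) p ≤ e p ^ 2 * (2 * r⁻¹ ^ 2) :=
      mul_le_mul_of_nonneg_left (g2_kk_le a1 b1 hr p) (sq_nonneg _)
    show _ ≤ 2 * g2 e p + (T1.indicator (fun q => 4 * r⁻¹ ^ 2 * e q ^ 2) p +
      T2.indicator (fun q => 4 * r⁻¹ ^ 2 * e q ^ 2) p)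
    rcases lt_or_gt_of_ne h4 with g1 | g1
    · have hpT : p ∈ T1 := ⟨⟨hp.1.1.1, g1⟩, hp.1.2⟩
      rw [indicator_of_mem hpT] at n1 ⊢
      linarith
    rcases lt_or_gt_of_ne h5 with g2' | g2'
    · rw [g2_kk_zero g1 g2', mul_zero, mul_zero, add_zero] at k1
      linarith
    · have hpT : p ∈ T2 := ⟨⟨g2', hp.1.1.2⟩, hp.1.2⟩
      rw [indicator_of_mem hpT] at n2 ⊢
      linarith
  have hm1 : MeasurableSet T1 := measurableSet_Wo
  have hm2 : MeasurableSet T2 := measurableSet_Wo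
  have j1 : IntegrableOn (T1.indicator (fun q => 4 * r⁻¹ ^ 2 * e q ^ 2)) (Wo a b c B \ E) :=
    (i2.const_mul _).indicator hm1
  have j2 : IntegrableOn (T2.indicator (fun q => 4 * r⁻¹ ^ 2 * e q ^ 2)) (Wo a b c B \ E) :=
    (i2.const_mul _).indicator hm2
  have hI : IntegrableOn F (Wo a b c B \ E) := (i1.const_mul 2).add (j1.add j2)
  have i3 : IntegrableOn (g2 (fun p => kk a1 b1 r p * e p)) (Wo a b c B \ E) := by
    refine Integrable.mono' hI (measurable_g2 _).aestronglyMeasurable ?_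
    filter_upwards [hpt] with p hp
    rw [Real.norm_of_nonneg (g2_nonneg _ _)]; exact hp
  have strip : ∀ α β : ℝ, a ≤ α → β ≤ b → Wo α β c B ⊆ Wo a b c B \ E →
      ∫ p in Wo α β c B, e p ^ 2 ≤ (B - c) ^ 2 * En (Wo a b c B \ E) e := by
    intro α β hα hβ hsub
    have hsl : Wl α β c B ⊆ Wl a b c B := fun p hp =>
      ⟨⟨by linarith [hp.1.1], by linarith [hp.1.2]⟩, hp.2⟩
    have hsl2 : Wl α β c B \ cut J ⊆ Wl a b c B \ cut J := sdiff_subset_sdiff_left hsl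
    refine (NulN_421.poinc (h.mono hsl2) (fun p hp => hC p (hsl2 hp)) hcB hδ
      (fun p hp => h0 p (hsl hp))).trans ?_
    refine mul_le_mul_of_nonneg_left ?_ (sq_nonneg _)
    exact setIntegral_mono_set i1 (Eventually.of_forall fun p => g2_nonneg _ _)
      (Eventually.of_forall hsub)
  have k1 : ∫ p in Wo a b c B \ E, T1.indicator (fun q => 4 * r⁻¹ ^ 2 * e q ^ 2) p ≤
      4 * r⁻¹ ^ 2 * ((B - c) ^ 2 * En (Wo a b c B \ E) e) := by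
    rw [setIntegral_indicator hm1, inter_eq_self_of_subset_right hT1E, integral_const_mul]
    exact mul_le_mul_of_nonneg_left (strip a a1 le_rfl (by linarith) hT1E) (by positivity)
  have k2 : ∫ p in Wo a b c B \ E, T2.indicator (fun q => 4 * r⁻¹ ^ 2 * e q ^ 2) p ≤
      4 * r⁻¹ ^ 2 * ((B - c) ^ 2 * En (Wo a b c B \ E) e) := by
    rw [setIntegral_indicator hm2, inter_eq_self_of_subset_right hT2E, integral_const_mul]
    exact mul_le_mul_of_nonneg_left (strip b1 b (by linarith) le_rfl hT2E) (by positivity)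
  calc En (Wo a b c B \ E) (fun p => kk a1 b1 r p * e p)
      ≤ ∫ p in Wo a b c B \ E, F p := integral_mono_ae i3 hI hpt
    _ = 2 * En (Wo a b c B \ E) e +
        ((∫ p in Wo a b c B \ E, T1.indicator (fun q => 4 * r⁻¹ ^ 2 * e q ^ 2) p) +
        ∫ p in Wo a b c B \ E, T2.indicator (fun q => 4 * r⁻¹ ^ 2 * e q ^ 2) p) := by
        have hj : IntegrableOn (fun p => T1.indicator (fun q => 4 * r⁻¹ ^ 2 * e q ^ 2) p +
          T2.indicator (fun q => 4 * r⁻¹ ^ 2 * e q ^ 2) p) (Wo a b c B \ E) := j1.add j2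
        have hi : IntegrableOn (fun p => 2 * g2 e p) (Wo a b c B \ E) := i1.const_mul 2
        show ∫ p in Wo a b c B \ E, (2 * g2 e p +
          (T1.indicator (fun q => 4 * r⁻¹ ^ 2 * e q ^ 2) p +
            T2.indicator (fun q => 4 * r⁻¹ ^ 2 * e q ^ 2) p)) = _
        rw [integral_add hi hj, integral_add j1 j2, integral_const_mul]
        rfl
    _ ≤ _ := by linarith

/-- **one half**: a function of the box problem gives a test function of `Nal_649` -/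
theorem half_of (hE : QPic E 𝒬 𝓗) (hatt : Att 𝒬 𝓗) (hs : 𝒬' ⊆ 𝒬) (h𝓗 : 𝓗₀ ⊆ 𝓗)
    (hbox : E ⊆ Ioo a1 b1 ×ˢ Ioo c d) (ha : a < a1) (hab : a1 < b1) (hb : b1 < b) (hcB : c < B)
    (hBd : B < d) (gen : ∀ Q ∈ 𝒬', Q.y ≠ B) (he : e ∈ Vq 𝓗₀ a b c B (Qc 𝒬'))
    (he01 : ∀ p, 0 ≤ e p ∧ e p ≤ 1) {r : ℝ} (hr : 0 < r) (hra : a < a1 - r) (hrb : b1 + r < b) :
    ∃ z, HalfQ E 𝒬' 𝓗 (Lo B) (Ioo a b ×ˢ Ioo c d)
        ((2 + 8 * r⁻¹ ^ 2 * (B - c) ^ 2) * EQ a b c B E (Qc 𝒬') e) z ∧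
      ∀ p ∈ Wo a b c B, a1 < p.1 → p.1 < b1 → z p = e p := by
  have hE0 : QPic E 𝒬 𝓗₀ :=
    ⟨hE.cpt, hE.sub, fun K hK => hE.hsub K (h𝓗 hK), hE.sep, hE.null⟩
  have hboxc : E ⊆ Ioo a b ×ˢ Ioi c := fun p hp =>
    ⟨⟨ha.trans (hbox hp).1.1, (hbox hp).1.2.trans hb⟩, (hbox hp).2.1⟩
  have H := qq (B := B) hE0 hs hboxc
  set N0 : Set (ℝ × ℝ) := Ioo a b ×ˢ Ioi c with hN0
  have hN0o : IsOpen N0 := isOpen_Ioo.prod isOpen_Ioi
  obtain ⟨heJ, δ, hδ, he0⟩ := he.1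
  set A : Set (ℝ × ℝ) := ({p | p.1 < a1 - r} ∪ {p | b1 + r < p.1}) ∪ {p | p.2 < c + δ} with hA
  have hAo : IsOpen A := ((isOpen_lt continuous_fst continuous_const).union
    (isOpen_lt continuous_const continuous_fst)).union (isOpen_lt continuous_snd continuous_const)
  set z : ℝ × ℝ → ℝ := N0.indicator (fun p => kk a1 b1 r p * e p) with hz
  have hLoo : IsOpen (Lo B) := isOpen_lt continuous_snd continuous_const
  have hWl : ∀ p ∈ Lo B, p ∈ N0 → p ∈ Wl a b c B := fun p hpB hpN =>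
    ⟨hpN.1, hpN.2, (show p.2 < B from hpB).le⟩
  have hzA : ∀ p ∈ Lo B, p ∈ A → z p = 0 := by
    intro p hpB hpA
    by_cases hpN : p ∈ N0
    · rw [hz, indicator_of_mem hpN]
      rcases hpA with (h1 | h1) | h1
      · have : kk a1 b1 r p = 0 := kx_zero hr (Or.inl (le_of_lt h1))
        rw [this, zero_mul]
      · have : kk a1 b1 r p = 0 := kx_zero hr (Or.inr (le_of_lt h1))
        rw [this, zero_mul]
      · rw [he0 p (hWl p hpB hpN) h1, mul_zero]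
    · exact indicator_of_notMem hpN _
  have hcov : ∀ p, p ∉ N0 → p ∈ A := by
    intro p hp
    by_contra hpA
    apply hp
    simp only [hA, mem_union, mem_ofPred_eq, not_or, not_lt] at hpA
    obtain ⟨⟨h1, h2⟩, h3⟩ := hpA
    exact ⟨⟨by linarith, by linarith⟩, by show c < p.2; linarith⟩
  have hkrg : ∀ p, 0 ≤ kk a1 b1 r p ∧ kk a1 b1 r p ≤ 1 := fun p => kx_rg a1 b1 hr p.1
  have hkCF : CF (Wl a b c B) (kk a1 b1 r) :=
    CF_of_lipschitz (kk_lip a1 b1 hr) (C := 1) fun p _ => by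
      rw [abs_of_nonneg (hkrg p).1]; exact (hkrg p).2
  have hprod : CFJ 𝓗₀ (Wl a b c B) (fun p => kk a1 b1 r p * e p) := hkCF.cfj.mul heJ
  have hcf0 : CFJ 𝓗₀ (Lo B) z := by
    refine hprod.indicator hN0o hAo ?_ ?_ ?_
    · intro p _
      by_cases hpN : p ∈ N0
      · exact Or.inl hpN
      · exact Or.inr (hcov p hpN)
    · rintro p ⟨hpB, hpN⟩
      exact hWl p hpB hpN
    · rintro p ⟨⟨hpB, hpN⟩, hpA⟩
      have := hzA p hpB hpA
      rwa [hz, indicator_of_mem hpN] at this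
  have hcf : CFJ 𝓗 (Lo B) z := hcf0.mono h𝓗 Subset.rfl
  have hzval : ∀ p ∈ Wo a b c B, a1 < p.1 → p.1 < b1 → z p = e p := by
    intro p hp h1 h2
    have hpN : p ∈ N0 := ⟨hp.1, hp.2.1⟩
    rw [hz, indicator_of_mem hpN]
    have : kk a1 b1 r p = 1 := kx_one h1.le h2.le
    rw [this, one_mul]
  refine ⟨z, ⟨hcf, ?_, ?_, ?_⟩, hzval⟩
  · intro p
    by_cases hpN : p ∈ N0
    · rw [hz, indicator_of_mem hpN]
      exact ⟨mul_nonneg (hkrg p).1 (he01 p).1, mul_le_one₀ (hkrg p).2 (he01 p).1 (he01 p).2⟩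
    · rw [hz, indicator_of_notMem hpN]; exact ⟨le_rfl, zero_le_one⟩
  · refine ⟨Icc (a1 - r) (b1 + r) ×ˢ Icc (c + δ) B, isCompact_Icc.prod isCompact_Icc, ?_, ?_⟩
    · rintro p ⟨h1, h2⟩
      exact ⟨⟨by linarith [h1.1], by linarith [h1.2]⟩, by linarith [h2.1], by linarith [h2.2]⟩
    · intro p hpB hpS
      refine hzA p hpB ?_
      by_contra hpA
      apply hpS
      simp only [hA, mem_union, mem_ofPred_eq, not_or, not_lt] at hpA
      exact ⟨⟨hpA.1.1, hpA.1.2⟩, hpA.2, (show p.2 < B from hpB).le⟩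
  · -- energy
    have e1 : En (Lo B \ E) z ≤ (2 + 8 * r⁻¹ ^ 2 * (B - c) ^ 2) * En (Wo a b c B \ E) e := by
      obtain ⟨J, -, L, C, hL, hSL, hC⟩ := heJ
      refine le_trans (le_of_eq ?_) (en_lat hSL hC hcB hδ he0 ha hab hb hE.cpt.isClosed
        (fun p hp => (hbox hp).1) hr)
      unfold En
      have hmeas : MeasurableSet (Lo B \ E) :=
        hLoo.measurableSet.diff hE.cpt.isClosed.measurableSet
      have hsub : Wo a b c B \ E ⊆ Lo B \ E := fun p hp => ⟨hp.1.2.2, hp.2⟩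
      have k1 : ∫ p in Lo B \ E, g2 z p = ∫ p in Wo a b c B \ E, g2 z p := by
        refine setIntegral_eq_of_subset_of_forall_sdiff_eq_zero hmeas hsub ?_
        rintro p ⟨⟨hpB, hpE⟩, hpW⟩
        have hpN : p ∉ N0 := fun hpN => hpW ⟨⟨hpN.1, hpN.2, hpB⟩, hpE⟩
        have hpA := hcov p hpN
        have : z =ᶠ[𝓝 p] fun _ => 0 := by
          filter_upwards [(hLoo.inter hAo).mem_nhds ⟨hpB, hpA⟩] with q hq using hzA q hq.1 hq.2
        unfold g2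
        rw [gx_congr this, gy_congr this]
        simp
      rw [k1]
      refine setIntegral_congr_fun (measurableSet_Wo.diff hE.cpt.isClosed.measurableSet)
        fun p hp => ?_
      have : z =ᶠ[𝓝 p] fun p => kk a1 b1 r p * e p := by
        filter_upwards [isOpen_Wo.mem_nhds hp.1] with q hq
        rw [hz]
        exact indicator_of_mem (show q ∈ N0 from ⟨hq.1, hq.2.1⟩) _
      simp only [g2]
      rw [gx_congr this, gy_congr this]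
    have e2 : ∀ i : 𝒬', ch E (Lo B) z i.1 ≤ osc (Qc 𝒬' i ∩ Wl a b c B) e := by
      intro i
      rcases lt_or_gt_of_ne (gen i.1 i.2) with h1 | h1
      · obtain ⟨J, hJ, L, C, hL, hSL, hC⟩ := hcf
        have hs' := i.1.hs
        refine ch_le_osc (f := z) (W := Lo B) (slab_lo B) hE hatt hJ (hs i.2)
          (t0 := (i.1.y + min B (i.1.y + i.1.s)) / 2) ?_ ?_ hL hSL (osc_nonneg _ _) ?_
        · have g1 : i.1.y < min B (i.1.y + i.1.s) := lt_min h1 (by linarith)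
          have g2 := min_le_right B (i.1.y + i.1.s)
          exact ⟨by linarith, by linarith⟩
        · show (i.1.y + min B (i.1.y + i.1.s)) / 2 < B
          have g2 := min_le_left B (i.1.y + i.1.s)
          linarith
        · rintro p ⟨⟨hpQ, hpB⟩, -⟩ p' ⟨⟨hpQ', hpB'⟩, -⟩
          have q1 := hbox (hE.sub _ (hs i.2) hpQ)
          have q2 := hbox (hE.sub _ (hs i.2) hpQ')
          have w1 : p ∈ Wo a b c B := ⟨⟨by linarith [q1.1.1], by linarith [q1.1.2]⟩, q1.2.1, hpB⟩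
          have w2 : p' ∈ Wo a b c B := ⟨⟨by linarith [q2.1.1], by linarith [q2.1.2]⟩, q2.2.1, hpB'⟩
          rw [hzval p w1 q1.1.1 q1.1.2, hzval p' w2 q2.1.1 q2.1.2]
          exact le_osc (H.bo he i) ⟨hpQ, Wo_subset w1⟩ ⟨hpQ', Wo_subset w2⟩
      · have hemp : i.1.car ∩ closure (Lo B) = ∅ := by
          rw [eq_empty_iff_forall_notMem]
          rintro p ⟨h2, h3⟩
          have h4 : closure (Lo B) ⊆ {p : ℝ × ℝ | p.2 ≤ B} :=
            closure_minimal (fun q (hq : q.2 < B) => (show q.2 ≤ B from hq.le))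
              (isClosed_le continuous_snd continuous_const)
          have h5 : p.2 ≤ B := h4 h3
          have h6 := h2.2.1
          linarith
        unfold ch
        rw [hemp, chg_empty]
        exact osc_nonneg _ _
    have s2 : Summable fun i : 𝒬' => osc (Qc 𝒬' i ∩ Wl a b c B) e ^ 2 := H.summable he
    have e3 : Ch E (Lo B) 𝒬' z ≤ ∑' i : 𝒬', osc (Qc 𝒬' i ∩ Wl a b c B) e ^ 2 := by
      unfold Ch
      have h1 : ∀ i : 𝒬', ch E (Lo B) z i.1 ^ 2 ≤ osc (Qc 𝒬' i ∩ Wl a b c B) e ^ 2 := fun i =>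
        pow_le_pow_left₀ (ch_nonneg _ _ _ _) (e2 i) 2
      exact (Summable.of_nonneg_of_le (fun _ => sq_nonneg _) h1 s2).tsum_le_tsum h1 s2
    have s0 : 0 ≤ ∑' i : 𝒬', osc (Qc 𝒬' i ∩ Wl a b c B) e ^ 2 := tsum_nonneg fun _ => sq_nonneg _
    have c1 : 0 ≤ 8 * r⁻¹ ^ 2 * (B - c) ^ 2 := by positivity
    unfold TQ EQ
    nlinarith

end Crest.Agent.R105.Kna_421
end

-- ▼ part R105/Kna3_421
section

/-!
Row 105, S0138, lemma A with squares (helper421): adapter from the box problem of `Knq_247` to the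
test functions of `Nal_649`. Part 3: values near the obstacle, the lower half.
-/

set_option autoImplicit false

open Set Filter MeasureTheory Topology
open scoped ENNReal NNReal

namespace Crest.Agent.R105.Kna_421

open CF_363 Kin_238 Stp_722 Cq_463
open Knq_247 (osc QQ Vq EQ Bo Null1 EQ_nonneg)
open Skp2_257 (Lo Up Comps)
open Nal_649 (HalfQ OneNear PairQ FamQ)
open Famq_306 (BoxLo BoxUp)

variable {E P C : Set (ℝ × ℝ)} {𝒬 𝒬' : Set Sqr} {𝓗 𝓗₀ : Set Hair} {a b c d B a1 b1 r : ℝ}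
  {e : ℝ × ℝ → ℝ}

/-! ### values near the obstacle -/

/-- traces `≥ 1` on `C` give values `≥ 1 - η` near `C` (off the hairs) -/
theorem near_val (h𝓗 : ∀ K ∈ 𝓗₀, K.car ⊆ E) (he : CFJ 𝓗₀ (Wl a b c B) e) (hCW : C ⊆ Wl a b c B)
    (h1 : ∀ p ∈ C, ∀ σ : Bool, 1 ≤ tr e σ p.1 p.2) {η : ℝ} (hη : 0 < η) :
    ∃ O, IsOpen O ∧ C ⊆ O ∧ ∀ p ∈ O, p ∈ Wl a b c B → p ∉ E → 1 - η ≤ e p := by
  have key : ∀ p₀ : C, ∃ r > 0, ∀ p ∈ Wl a b c B, dist p (p₀ : ℝ × ℝ) < r → ∀ σ : Bool,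
      1 - η ≤ tr e σ p.1 p.2 := by
    intro p₀
    obtain ⟨r, hr, h2⟩ := Knq_247.tr_near he (hCW p₀.2) hη
    refine ⟨r, hr, fun p hp hd σ => ?_⟩
    obtain ⟨σ₀, h3⟩ := h2 p hp hd σ
    have h4 := h1 _ p₀.2 σ₀
    have h5 := (abs_le.1 h3).1
    linarith
  choose r hr hball using key
  obtain ⟨J, hJ, L, K, hL, hSL, hC⟩ := he
  refine ⟨⋃ p₀ : C, Metric.ball (p₀ : ℝ × ℝ) (r p₀), isOpen_iUnion fun _ => Metric.isOpen_ball,
    fun p hp => mem_iUnion.2 ⟨⟨p, hp⟩, Metric.mem_ball_self (hr _)⟩, fun p hpO hpW hpE => ?_⟩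
  obtain ⟨p₀, hp₀⟩ := mem_iUnion.1 hpO
  have h2 := hball p₀ p hpW (Metric.mem_ball.1 hp₀) true
  have h3 : ((p.1, p.2) : ℝ × ℝ) ∉ cut J := by
    intro hc
    obtain ⟨K, hK, hpK⟩ := mem_cut.1 hc
    exact hpE (h𝓗 K (hJ K hK) hpK)
  rwa [tr_eq_self hSL true hpW.1 hpW.2.1 hpW.2.2 h3] at h2

/-- the same for two functions on a relation -/
theorem near_val2 {E' : Set (ℝ × ℝ)} {𝓗₀' : Set Hair} {a' b' c' B' : ℝ} {e' : ℝ × ℝ → ℝ}
    {R0 : Set ((ℝ × ℝ) × (ℝ × ℝ))} (h𝓗 : ∀ K ∈ 𝓗₀, K.car ⊆ E) (h𝓗' : ∀ K ∈ 𝓗₀', K.car ⊆ E')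
    (hRW : ∀ q ∈ R0, q.1 ∈ Wl a b c B ∧ q.2 ∈ Wl a' b' c' B')
    (he : CFJ 𝓗₀ (Wl a b c B) e) (he' : CFJ 𝓗₀' (Wl a' b' c' B') e')
    (h1 : ∀ q ∈ R0, ∀ σ σ' : Bool, 1 ≤ tr e σ q.1.1 q.1.2 + tr e' σ' q.2.1 q.2.2) {η : ℝ}
    (hη : 0 < η) :
    ∃ U : Set ((ℝ × ℝ) × (ℝ × ℝ)), IsOpen U ∧ R0 ⊆ U ∧
      ∀ q ∈ U, q.1 ∈ Wl a b c B → q.2 ∈ Wl a' b' c' B' → q.1 ∉ E → q.2 ∉ E' →
        1 - η ≤ e q.1 + e' q.2 := by
  have key : ∀ q₀ : R0, ∃ r > 0, ∀ q ∈ Metric.ball (q₀ : (ℝ × ℝ) × (ℝ × ℝ)) r,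
      q.1 ∈ Wl a b c B → q.2 ∈ Wl a' b' c' B' → ∀ σ σ' : Bool,
        1 - η ≤ tr e σ q.1.1 q.1.2 + tr e' σ' q.2.1 q.2.2 := by
    intro q₀
    obtain ⟨r, hr, h2⟩ := Knq_247.tr_near he (hRW _ q₀.2).1 (half_pos hη)
    obtain ⟨r', hr', h3⟩ := Knq_247.tr_near he' (hRW _ q₀.2).2 (half_pos hη)
    refine ⟨min r r', lt_min hr hr', fun q hq hq1 hq2 σ σ' => ?_⟩
    rw [Metric.mem_ball, Prod.dist_eq] at hq
    have hd1 : dist q.1 (q₀ : (ℝ × ℝ) × (ℝ × ℝ)).1 < r :=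
      (le_max_left _ _).trans_lt (hq.trans_le (min_le_left _ _))
    have hd2 : dist q.2 (q₀ : (ℝ × ℝ) × (ℝ × ℝ)).2 < r' :=
      (le_max_right _ _).trans_lt (hq.trans_le (min_le_right _ _))
    obtain ⟨σ₀, h4⟩ := h2 _ hq1 hd1 σ
    obtain ⟨σ₁, h5⟩ := h3 _ hq2 hd2 σ'
    have h6 := h1 _ q₀.2 σ₀ σ₁
    have h7 := (abs_le.1 h4).1
    have h8 := (abs_le.1 h5).1
    linarith
  choose r hr hball using key
  obtain ⟨J, hJ, L, K, hL, hSL, hC⟩ := he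
  obtain ⟨J', hJ', L', K', hL', hSL', hC'⟩ := he'
  refine ⟨⋃ q₀ : R0, Metric.ball (q₀ : (ℝ × ℝ) × (ℝ × ℝ)) (r q₀),
    isOpen_iUnion fun q₀ => Metric.isOpen_ball, fun q hq => ?_, fun q hq hq1 hq2 hE hE' => ?_⟩
  · exact mem_iUnion.2 ⟨⟨q, hq⟩, Metric.mem_ball_self (hr _)⟩
  · obtain ⟨q₀, hq₀⟩ := mem_iUnion.1 hq
    have h2 := hball q₀ q hq₀ hq1 hq2 true true
    have h3 : ((q.1.1, q.1.2) : ℝ × ℝ) ∉ cut J := by
      intro hc
      obtain ⟨K, hK, hpK⟩ := mem_cut.1 hc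
      exact hE (h𝓗 K (hJ K hK) hpK)
    have h4 : ((q.2.1, q.2.2) : ℝ × ℝ) ∉ cut J' := by
      intro hc
      obtain ⟨K, hK, hpK⟩ := mem_cut.1 hc
      exact hE' (h𝓗' K (hJ' K hK) hpK)
    rwa [tr_eq_self hSL true hq1.1 hq1.2.1 hq1.2.2 h3,
      tr_eq_self hSL' true hq2.1 hq2.2.1 hq2.2.2 h4] at h2

/-! ### uncharged squares above the level -/

/-- squares above `B` carry no charge of the lower half -/
theorem ch_lo_zero {Q : Sqr} (h : B < Q.y) (z : ℝ × ℝ → ℝ) : ch E (Lo B) z Q = 0 := by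
  have hemp : Q.car ∩ closure (Lo B) = ∅ := by
    rw [eq_empty_iff_forall_notMem]
    rintro p ⟨h2, h3⟩
    have h4 : closure (Lo B) ⊆ {p : ℝ × ℝ | p.2 ≤ B} :=
      closure_minimal (fun q (hq : q.2 < B) => (show q.2 ≤ B from hq.le))
        (isClosed_le continuous_snd continuous_const)
    have h5 : p.2 ≤ B := h4 h3
    have h6 := h2.2.1
    linarith
  unfold ch
  rw [hemp, chg_empty]

theorem Ch_sdiff {W : Set (ℝ × ℝ)} {z : ℝ × ℝ → ℝ} (hs : 𝒬' ⊆ 𝒬)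
    (h : ∀ Q ∈ 𝒬, Q ∉ 𝒬' → ch E W z Q = 0) : Ch E W 𝒬 z = Ch E W 𝒬' z := by
  unfold Ch
  rw [tsum_subtype 𝒬 fun Q => ch E W z Q ^ 2, tsum_subtype 𝒬' fun Q => ch E W z Q ^ 2]
  refine tsum_congr fun Q => ?_
  by_cases h1 : Q ∈ 𝒬'
  · rw [indicator_of_mem h1, indicator_of_mem (hs h1)]
  · rw [indicator_of_notMem h1]
    by_cases h2 : Q ∈ 𝒬
    · rw [indicator_of_mem h2, h Q h2 h1]; norm_num
    · rw [indicator_of_notMem h2]

theorem half_lo_full {N : Set (ℝ × ℝ)} {ε : ℝ} {z : ℝ × ℝ → ℝ} (hs : 𝒬' ⊆ 𝒬)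
    (h : ∀ Q ∈ 𝒬, Q ∉ 𝒬' → B < Q.y) (hz : HalfQ E 𝒬' 𝓗 (Lo B) N ε z) :
    HalfQ E 𝒬 𝓗 (Lo B) N ε z where
  cf := hz.cf
  rg := hz.rg
  sp := hz.sp
  en := by
    have h1 := hz.en
    unfold TQ at h1 ⊢
    rwa [Ch_sdiff hs fun Q hQ hQ' => ch_lo_zero (h Q hQ hQ') z]

/-! ### the lower half -/

/-- the energy constant -/
noncomputable def C0 (r c B : ℝ) : ℝ := 2 + 8 * r⁻¹ ^ 2 * (B - c) ^ 2

theorem C0_pos (r c B : ℝ) : 0 < C0 r c B := by unfold C0; positivity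

theorem C0_mono {r c B B' : ℝ} (h1 : c ≤ B) (h2 : B ≤ B') : C0 r c B ≤ C0 r c B' := by
  unfold C0
  have : (B - c) ^ 2 ≤ (B' - c) ^ 2 := pow_le_pow_left₀ (by linarith) (by linarith) 2
  gcongr

/-- a box with lateral room around the compact set `E` -/
theorem exists_room (hE : IsCompact E) (hbox : E ⊆ Ioo a b ×ˢ Ioo c d) (hab : a < b) :
    ∃ a1 b1 r, 0 < r ∧ a < a1 - r ∧ a1 < b1 ∧ b1 + r < b ∧ E ⊆ Ioo a1 b1 ×ˢ Ioo c d := by
  rcases E.eq_empty_or_nonempty with h | h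
  · refine ⟨a + (b - a) / 3, b - (b - a) / 3, (b - a) / 6, by linarith, by linarith, by linarith,
      by linarith, by rw [h]; exact empty_subset _⟩
  · obtain ⟨p, hp, hpm⟩ := hE.exists_isMinOn h (continuous_fst.continuousOn (s := E))
    obtain ⟨q, hq, hqm⟩ := hE.exists_isMaxOn h (continuous_fst.continuousOn (s := E))
    have h1 := (hbox hp).1.1
    have h2 := (hbox hq).1.2
    have h3 : p.1 ≤ q.1 := hpm hq
    have hr : 0 < min (p.1 - a) (b - q.1) := lt_min (by linarith) (by linarith)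
    have hr1 := min_le_left (p.1 - a) (b - q.1)
    have hr2 := min_le_right (p.1 - a) (b - q.1)
    refine ⟨p.1 - min (p.1 - a) (b - q.1) / 3, q.1 + min (p.1 - a) (b - q.1) / 3,
      min (p.1 - a) (b - q.1) / 3, by linarith, by linarith, by linarith, by linarith,
      fun z hz => ⟨⟨?_, ?_⟩, (hbox hz).2⟩⟩
    · have : p.1 ≤ z.1 := hpm hz
      linarith
    · have : z.1 ≤ q.1 := hqm hz
      linarith

/-- **the lower half of a null obstacle** -/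
theorem boxLo_of_null1 (hE : QPic E 𝒬 𝓗) (hatt : Att 𝒬 𝓗) (hs : 𝒬' ⊆ 𝒬) (h𝓗 : 𝓗₀ ⊆ 𝓗)
    (hbox : E ⊆ Ioo a b ×ˢ Ioo c d) (hab : a < b) (hBd : B < d) (gen : ∀ Q ∈ 𝒬', Q.y ≠ B)
    (hPE : P ⊆ E) (h : Null1 𝓗₀ a b c B E (Qc 𝒬') (P ∩ {p | p.2 ≤ B})) :
    BoxLo E 𝒬' 𝓗 (Ioo a b ×ˢ Ioo c d) P B := by
  intro ε hε
  have hEc : IsClosed E := hE.cpt.isClosed
  rcases le_or_gt B c with hcB | hcB
  · -- nothing below
    have hemp : P ∩ {p | p.2 ≤ B} = ∅ := by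
      rw [eq_empty_iff_forall_notMem]
      rintro p ⟨h1, h2⟩
      have := (hbox (hPE h1)).2.1
      have h3 : p.2 ≤ B := h2
      linarith
    refine ⟨0, ⟨CFJ_const 0, fun p => ⟨le_rfl, zero_le_one⟩, ⟨∅, isCompact_empty,
      empty_subset _, fun p _ _ => rfl⟩, ?_⟩, ∅, isOpen_empty, by rw [hemp], by simp⟩
    unfold TQ Ch
    have h1 : En (Lo B \ E) (0 : ℝ × ℝ → ℝ) = 0 := En_const _ 0
    have h2 : ∀ Q : 𝒬', ch E (Lo B) (0 : ℝ × ℝ → ℝ) Q.1 ^ 2 = 0 := fun Q => by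
      have : ch E (Lo B) (0 : ℝ × ℝ → ℝ) Q.1 = 0 := chg_const 0
      rw [this]; norm_num
    rw [h1]
    simp only [h2, tsum_zero, add_zero]
    exact hε.le
  obtain ⟨a1, b1, r, hr, har, hab1, hbr, hbox1⟩ := exists_room hE.cpt hbox hab
  have hbox0 : E ⊆ Ioo a b ×ˢ Ioi c := fun p hp => ⟨(hbox hp).1, (hbox hp).2.1⟩
  have hE0 : QPic E 𝒬 𝓗₀ :=
    ⟨hE.cpt, hE.sub, fun K hK => hE.hsub K (h𝓗 hK), hE.sep, hE.null⟩
  have H := qq (B := B) hE0 hs hbox0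
  have hC0 := C0_pos r c B
  obtain ⟨e, he, hen, htr⟩ := h (ε / (4 * C0 r c B)) (by positivity)
  have he2 : (fun p => 2 * e p) ∈ Vq 𝓗₀ a b c B (Qc 𝒬') := by
    have := (Vq 𝓗₀ a b c B (Qc 𝒬')).smul_mem (2 : ℝ) he
    exact this
  obtain ⟨hm, hle⟩ := Vq_clamp H hEc he2
  rw [EQ_two hEc he] at hle
  obtain ⟨z, hz, hzv⟩ := half_of hE hatt hs h𝓗 hbox1 (by linarith) hab1 (by linarith) hcB hBd gen
    hm (fun p => ⟨le_max_right _ _, max_le (min_le_right _ _) zero_le_one⟩) hr har hbr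
  have hCW : P ∩ {p | p.2 ≤ B} ⊆ Wl a b c B := fun p hp =>
    ⟨(hbox (hPE hp.1)).1, (hbox (hPE hp.1)).2.1, hp.2⟩
  obtain ⟨O, hO, hCO, hO1⟩ := near_val (fun K hK => hE0.hsub K hK) he.1.1 hCW htr
    (η := 1 / 4) (by norm_num)
  refine ⟨z, ⟨hz.cf, hz.rg, hz.sp, hz.en.trans ?_⟩, O ∩ (Ioo a1 b1 ×ˢ Ioo c d),
    hO.inter (isOpen_Ioo.prod isOpen_Ioo), fun p hp => ⟨hCO hp, hbox1 (hPE hp.1)⟩, ?_⟩
  · have h1 : C0 r c B * EQ a b c B E (Qc 𝒬') (fun p => max (min (2 * e p) 1) 0) ≤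
        C0 r c B * (4 * (ε / (4 * C0 r c B))) := by
      refine mul_le_mul_of_nonneg_left ?_ hC0.le
      linarith
    have h2 : C0 r c B * (4 * (ε / (4 * C0 r c B))) = ε := by field_simp
    rw [h2] at h1
    exact h1
  · rintro p ⟨⟨hpO, hpx, hpy⟩, hpE⟩ hpB
    have hpB' : p.2 < B := hpB
    have hpW : p ∈ Wo a b c B := ⟨⟨by linarith [hpx.1], by linarith [hpx.2]⟩, hpy.1, hpB'⟩
    rw [hzv p hpW hpx.1 hpx.2]
    have h1 := hO1 p hpO (Wo_subset hpW) hpE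
    show max (min (2 * e p) 1) 0 = 1
    rw [min_eq_right (by linarith), max_eq_left zero_le_one]

end Crest.Agent.R105.Kna_421
end

-- ▼ part R105/Kna4_421
section

/-!
Row 105, S0138, lemma A with squares (helper421): adapter from the box problem of `Knq_247` to the
test functions of `Nal_649`. Part 4: reflection, the upper half, pairs, `BoxOut` of `Famq_306` from
the box problem (`SoloK`, `BndK`).
-/

set_option autoImplicit false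

open Set Filter MeasureTheory Topology
open scoped ENNReal NNReal

namespace Crest.Agent.R105.Kna_421

open CF_363 Kin_238 Stp_722 Cq_463
open Knq_247 (osc QQ Vq EQ Bo Null1 EQ_nonneg)
open Skp2_257 (Lo Up Comps)
open Nal_649 (HalfQ OneNear PairQ FamQ Win comp)
open Famq_306 (BoxLo BoxUp BoxN Gen SoloG BndG BoxOut SqSub isCompact_comp)
open Kbx_247 (rfS rfS_injective car_rfS mem_rfS refl_pic refl_qpic comp_rfS QA)
open Exs_992 (PicS)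

variable {E P C W N : Set (ℝ × ℝ)} {𝒬 𝒬' : Set Sqr} {𝓗 𝓗₀ : Set Hair}
  {a b c d B a1 b1 r ε Bm Bp m : ℝ} {e e' z : ℝ × ℝ → ℝ} {g : Set (Set (ℝ × ℝ))}

/-! ### reflection of charges -/

theorem oscLe_rf {V : Set (ℝ × ℝ)} {f : ℝ × ℝ → ℝ} {k : ℝ} (h : OscLe V P f k) :
    OscLe (rf ⁻¹' V) (rf ⁻¹' P) (fun p => f (rf p)) k := by
  intro ε hε
  obtain ⟨O, hO, hPO, h1⟩ := h ε hε
  exact ⟨rf ⁻¹' O, hO.preimage continuous_rf, preimage_mono hPO,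
    fun q hq q' hq' => h1 _ hq _ hq'⟩

theorem oscLe_rf_iff {V : Set (ℝ × ℝ)} {f : ℝ × ℝ → ℝ} {k : ℝ} :
    OscLe (rf ⁻¹' V) (rf ⁻¹' P) (fun p => f (rf p)) k ↔ OscLe V P f k := by
  refine ⟨fun h => ?_, oscLe_rf⟩
  have := oscLe_rf h
  simpa [← preimage_comp, Function.comp_def] using this

theorem chg_rf (V P : Set (ℝ × ℝ)) (f : ℝ × ℝ → ℝ) :
    chg (rf ⁻¹' V) (rf ⁻¹' P) (fun p => f (rf p)) = chg V P f := by
  unfold chg
  simp only [oscLe_rf_iff]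

theorem closure_rf (W : Set (ℝ × ℝ)) : closure (rf ⁻¹' W) = rf ⁻¹' closure W :=
  ((rfL.toHomeomorph).preimage_closure W).symm

theorem ch_rf (E W : Set (ℝ × ℝ)) (f : ℝ × ℝ → ℝ) (Q : Sqr) :
    ch (rf ⁻¹' E) (rf ⁻¹' W) (fun p => f (rf p)) (rfS Q) = ch E W f Q := by
  unfold ch
  rw [closure_rf, car_rfS]
  exact chg_rf (Eᶜ ∩ W) (Q.car ∩ closure W) f

theorem Ch_rf (E W : Set (ℝ × ℝ)) (𝒬 : Set Sqr) (f : ℝ × ℝ → ℝ) :
    Ch (rf ⁻¹' E) (rf ⁻¹' W) (rfS '' 𝒬) (fun p => f (rf p)) = Ch E W 𝒬 f := by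
  unfold Ch
  rw [← (Equiv.Set.image rfS 𝒬 rfS_injective).tsum_eq]
  refine tsum_congr fun Q => ?_
  show ch (rf ⁻¹' E) (rf ⁻¹' W) (fun p => f (rf p)) (rfS Q.1) ^ 2 = _
  rw [ch_rf]

theorem TQ_rf (E W : Set (ℝ × ℝ)) (𝒬 : Set Sqr) (f : ℝ × ℝ → ℝ) :
    TQ (rf ⁻¹' E) (rf ⁻¹' W) (rfS '' 𝒬) (fun p => f (rf p)) = TQ E W 𝒬 f := by
  unfold TQ
  rw [Ch_rf, ← preimage_sdiff, En_rf]

theorem rf_Up (B : ℝ) : rf ⁻¹' Up B = Lo (-B) := by
  ext p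
  show B < -p.2 ↔ p.2 < -B
  constructor <;> intro h <;> linarith


theorem rf_box (a b c d : ℝ) :
    rf ⁻¹' (Ioo a b ×ˢ Ioo c d) = Ioo a b ×ˢ Ioo (-d) (-c) := by
  ext p
  simp only [mem_preimage, mem_prod, rf_fst, rf_snd, mem_Ioo]
  constructor
  · rintro ⟨h1, h2, h3⟩; exact ⟨h1, by linarith, by linarith⟩
  · rintro ⟨h1, h2, h3⟩; exact ⟨h1, by linarith, by linarith⟩

/-- a lower half of the reflected picture is an upper half -/
theorem half_rf (h : HalfQ (rf ⁻¹' E) (rfS '' 𝒬) (reflH 𝓗) (Lo (-B)) (rf ⁻¹' N) ε z) :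
    HalfQ E 𝒬 𝓗 (Up B) N ε (fun p => z (rf p)) where
  cf := by
    rw [← CFJ_refl_iff, rf_Up]
    simpa using h.cf
  rg := fun p => h.rg _
  sp := by
    obtain ⟨S, hS, hSN, h0⟩ := h.sp
    refine ⟨rf ⁻¹' S, ?_, ?_, fun p hp hpS => h0 (rf p) ?_ hpS⟩
    · rw [← rf_image_eq_preimage]; exact hS.image continuous_rf
    · intro p hp
      have := hSN hp
      simpa using this
    · have : p ∈ rf ⁻¹' (rf ⁻¹' Up B) := by simpa using hp
      rw [rf_Up] at this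
      exact this
  en := by
    have h1 := TQ_rf E (Up B) 𝒬 (fun p => z (rf p))
    rw [← h1, rf_Up]
    simpa using h.en

theorem oneNear_rf (h : OneNear (rf ⁻¹' E) (Lo (-B)) (rf ⁻¹' P) z) :
    OneNear E (Up B) P (fun p => z (rf p)) := by
  obtain ⟨O, hO, hPO, h1⟩ := h
  refine ⟨rf ⁻¹' O, hO.preimage continuous_rf, fun p hp => hPO (by simpa using hp),
    fun p hp hpB => h1 (rf p) ⟨hp.1, by simpa using hp.2⟩ ?_⟩
  show -p.2 < -B
  have : B < p.2 := hpB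
  linarith

/-- squares below `B` carry no charge of the upper half -/
theorem ch_up_zero {Q : Sqr} (h : Q.y + Q.s < B) (z : ℝ × ℝ → ℝ) : ch E (Up B) z Q = 0 := by
  have h1 := ch_rf E (Up B) z Q
  rw [← h1, rf_Up]
  exact ch_lo_zero (by simp only [Kbx_247.rfS_y]; linarith) _

theorem half_up_full {z : ℝ × ℝ → ℝ} (hs : 𝒬' ⊆ 𝒬)
    (h : ∀ Q ∈ 𝒬, Q ∉ 𝒬' → Q.y + Q.s < B) (hz : HalfQ E 𝒬' 𝓗 (Up B) N ε z) :
    HalfQ E 𝒬 𝓗 (Up B) N ε z where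
  cf := hz.cf
  rg := hz.rg
  sp := hz.sp
  en := by
    have h1 := hz.en
    unfold TQ at h1 ⊢
    rwa [Ch_sdiff hs fun Q hQ hQ' => ch_up_zero (h Q hQ hQ') z]

theorem reflH_mono (h : 𝓗₀ ⊆ 𝓗) : reflH 𝓗₀ ⊆ reflH 𝓗 := fun _ hK => h hK

/-- the reflected part above `B` -/
theorem rf_part (P : Set (ℝ × ℝ)) (B : ℝ) :
    rf ⁻¹' P ∩ {p | p.2 ≤ -B} = rf ⁻¹' (P ∩ {p | B ≤ p.2}) := by
  ext p
  simp only [mem_inter_iff, mem_preimage, mem_ofPred_eq, rf_snd]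
  constructor
  · rintro ⟨h1, h2⟩; exact ⟨h1, by linarith⟩
  · rintro ⟨h1, h2⟩; exact ⟨h1, by linarith⟩

/-- **the upper half of a null obstacle** -/
theorem boxUp_of_null1 (hP : PicS E 𝒬 𝓗) (hs : 𝒬' ⊆ 𝒬) (h𝓗 : 𝓗₀ ⊆ 𝓗)
    (hbox : E ⊆ Ioo a b ×ˢ Ioo c d) (hab : a < b) (hcB : c < B) (gen : ∀ Q ∈ 𝒬', Q.y + Q.s ≠ B)
    (hPE : P ⊆ E) (h : Null1 (reflH 𝓗₀) a b (-d) (-B) (rf ⁻¹' E) (Qc (rfS '' 𝒬'))
      (rf ⁻¹' P ∩ {p | p.2 ≤ -B})) :
    BoxUp E 𝒬' 𝓗 (Ioo a b ×ˢ Ioo c d) P B := by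
  have hP' := refl_pic hP
  have h1 : BoxLo (rf ⁻¹' E) (rfS '' 𝒬') (reflH 𝓗) (Ioo a b ×ˢ Ioo (-d) (-c)) (rf ⁻¹' P) (-B) := by
    refine boxLo_of_null1 hP'.q hP'.att (image_mono hs) (reflH_mono h𝓗) ?_ hab (by linarith) ?_
      (preimage_mono hPE) h
    · rw [← rf_box]; exact preimage_mono hbox
    · rintro _ ⟨Q, hQ, rfl⟩
      simp only [Kbx_247.rfS_y]
      have := gen Q hQ
      intro hc
      exact this (by linarith)
  intro ε hε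
  obtain ⟨z, hz, hz1⟩ := h1 ε hε
  rw [rf_part] at hz1
  rw [← rf_box] at hz
  exact ⟨_, half_rf hz, oneNear_rf hz1⟩

/-! ### single solids -/

/-- **SOLO in the form of the box problem** (lower half; the upper half is the lower half of the
reflected picture): the part of a solid below its square is null, the own charge of its square is
not used. -/
def SoloK (E : Set (ℝ × ℝ)) (𝒬 : Set Sqr) (𝓗₀ : Set Hair) (a b c : ℝ) : Prop :=
  ∀ Q ∈ 𝒬, ∀ B, Gen 𝒬 B → c < B → B < Q.y →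
    Null1 𝓗₀ a b c B E (QA (𝒬 \ {Q})) (comp E Q ∩ {p | p.2 ≤ B})

theorem comp_sub (E : Set (ℝ × ℝ)) (Q : Sqr) : comp E Q ⊆ E := connectedComponentIn_subset _ _

theorem gen_rf (h : Gen 𝒬 B) : Gen (rfS '' 𝒬) (-B) := by
  rintro _ ⟨Q, hQ, rfl⟩
  simp only [Kbx_247.rfS_y, Kbx_247.rfS_s]
  exact ⟨fun hc => (h Q hQ).2 (by linarith), fun hc => (h Q hQ).1 (by linarith)⟩

/-- nothing of the obstacle above `B` -/
theorem boxUp_triv (hPB : ∀ p ∈ P, p.2 < B) : BoxUp E 𝒬 𝓗 N P B := by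
  intro ε hε
  have hemp : P ∩ {p | B ≤ p.2} = ∅ := by
    rw [eq_empty_iff_forall_notMem]
    rintro p ⟨h1, h2⟩
    have := hPB p h1
    have h3 : B ≤ p.2 := h2
    linarith
  refine ⟨0, ⟨CFJ_const 0, fun p => ⟨le_rfl, zero_le_one⟩, ⟨∅, isCompact_empty,
    empty_subset _, fun p _ _ => rfl⟩, ?_⟩, ∅, isOpen_empty, by rw [hemp], by simp⟩
  unfold TQ Ch
  have h1 : En (Up B \ E) (0 : ℝ × ℝ → ℝ) = 0 := En_const _ 0
  have h2 : ∀ Q : 𝒬, ch E (Up B) (0 : ℝ × ℝ → ℝ) Q.1 ^ 2 = 0 := fun Q => by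
    have : ch E (Up B) (0 : ℝ × ℝ → ℝ) Q.1 = 0 := chg_const 0
    rw [this]; norm_num
  rw [h1]
  simp only [h2, tsum_zero, add_zero]
  exact hε.le

/-- nothing of the obstacle below `B` -/
theorem boxLo_triv (hPB : ∀ p ∈ P, B < p.2) : BoxLo E 𝒬 𝓗 N P B := by
  intro ε hε
  have hemp : P ∩ {p | p.2 ≤ B} = ∅ := by
    rw [eq_empty_iff_forall_notMem]
    rintro p ⟨h1, h2⟩
    have := hPB p h1
    have h3 : p.2 ≤ B := h2
    linarith
  refine ⟨0, ⟨CFJ_const 0, fun p => ⟨le_rfl, zero_le_one⟩, ⟨∅, isCompact_empty,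
    empty_subset _, fun p _ _ => rfl⟩, ?_⟩, ∅, isOpen_empty, by rw [hemp], by simp⟩
  unfold TQ Ch
  have h1 : En (Lo B \ E) (0 : ℝ × ℝ → ℝ) = 0 := En_const _ 0
  have h2 : ∀ Q : 𝒬, ch E (Lo B) (0 : ℝ × ℝ → ℝ) Q.1 ^ 2 = 0 := fun Q => by
    have : ch E (Lo B) (0 : ℝ × ℝ → ℝ) Q.1 = 0 := chg_const 0
    rw [this]; norm_num
  rw [h1]
  simp only [h2, tsum_zero, add_zero]
  exact hε.le

/-- **SOLO in the box problem gives `SoloG`** -/
theorem soloG_of (hP : PicS E 𝒬 𝓗) (h𝓗 : 𝓗₀ ⊆ 𝓗) (hbox : E ⊆ Ioo a b ×ˢ Ioo c d) (hab : a < b)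
    (lo : SoloK E 𝒬 𝓗₀ a b c) (up : SoloK (rf ⁻¹' E) (rfS '' 𝒬) (reflH 𝓗₀) a b (-d)) :
    SoloG E 𝒬 𝓗 (Ioo a b ×ˢ Ioo c d) := by
  intro Q hQ
  have hs := Q.hs
  have hQE : ∀ p ∈ Q.car, p ∈ Ioo a b ×ˢ Ioo c d := fun p hp => hbox (hP.q.sub Q hQ hp)
  refine ⟨fun B hB hBQ => ?_, fun B hB hBQ => ?_⟩
  · rcases le_or_gt d B with hd | hd
    · exact boxUp_triv fun p hp => ((hbox (comp_sub E Q hp)).2.2).trans_le hd
    · have h1 := up (rfS Q) ⟨Q, hQ, rfl⟩ (-B) (gen_rf hB) (by linarith)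
        (by simp only [Kbx_247.rfS_y]; linarith)
      rw [comp_rfS hP.q hQ] at h1
      have h2 : rfS '' 𝒬 \ {rfS Q} = rfS '' (𝒬 \ {Q}) := by
        rw [image_sdiff rfS_injective, image_singleton]
      rw [h2] at h1
      have h3 : c < B := by
        have h4 := hQE (Q.x, Q.y) ⟨⟨le_rfl, by simp only; linarith⟩, ⟨le_rfl, by simp only; linarith⟩⟩
        have : c < Q.y := h4.2.1
        linarith
      have h5 : BoxUp E (𝒬 \ {Q}) 𝓗 (Ioo a b ×ˢ Ioo c d) (comp E Q) B :=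
        boxUp_of_null1 hP sdiff_subset h𝓗 hbox hab h3 (fun Q' hQ' => (hB Q' hQ'.1).2)
          (comp_sub E Q) h1
      intro ε hε
      obtain ⟨z, hz, hz1⟩ := h5 ε hε
      refine ⟨z, half_up_full sdiff_subset (fun Q' hQ' hn => ?_) hz, hz1⟩
      have : Q' = Q := by
        by_contra hne
        exact hn ⟨hQ', hne⟩
      rw [this]; exact hBQ
  · rcases le_or_gt B c with hd | hd
    · exact boxLo_triv fun p hp => hd.trans_lt (hbox (comp_sub E Q hp)).2.1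
    · have h1 := lo Q hQ B hB hd hBQ
      have h3 : B < d := by
        have h4 := hQE (Q.x, Q.y) ⟨⟨le_rfl, by simp only; linarith⟩, ⟨le_rfl, by simp only; linarith⟩⟩
        have : Q.y < d := h4.2.2
        linarith
      have h5 : BoxLo E (𝒬 \ {Q}) 𝓗 (Ioo a b ×ˢ Ioo c d) (comp E Q) B :=
        boxLo_of_null1 hP.q hP.att sdiff_subset h𝓗 hbox hab h3 (fun Q' hQ' => (hB Q' hQ'.1).1)
          (comp_sub E Q) h1
      intro ε hε
      obtain ⟨z, hz, hz1⟩ := h5 ε hε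
      refine ⟨z, half_lo_full sdiff_subset (fun Q' hQ' hn => ?_) hz, hz1⟩
      have : Q' = Q := by
        by_contra hne
        exact hn ⟨hQ', hne⟩
      rw [this]; exact hBQ

/-! ### pairs -/

/-- the relation of the pair problem: points of the lower part and (reflected) points of the upper
part of the same member of the family -/
def Rg (E : Set (ℝ × ℝ)) (g : Set (Set (ℝ × ℝ))) (Bm Bp : ℝ) : Set ((ℝ × ℝ) × (ℝ × ℝ)) :=
  {q | q.1 ∈ ⋃₀ g ∧ rf q.2 ∈ ⋃₀ g ∧ q.1.2 ≤ Bm ∧ Bp ≤ (rf q.2).2 ∧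
    connectedComponentIn E q.1 = connectedComponentIn E (rf q.2)}

theorem mem_Rg (hg : g ⊆ Comps E) (hPg : P ∈ g) {p q : ℝ × ℝ} (hp : p ∈ P) (hpB : p.2 ≤ Bm)
    (hq : q ∈ P) (hqB : Bp ≤ q.2) : (p, rf q) ∈ Rg E g Bm Bp := by
  obtain ⟨x, hx, hxP⟩ := hg hPg
  refine ⟨⟨P, hPg, hp⟩, ⟨P, hPg, by simpa using hq⟩, hpB, by simpa using hqB, ?_⟩
  simp only [rf_rf]
  rw [hxP] at hp hq
  rw [← connectedComponentIn_eq hp, ← connectedComponentIn_eq hq]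

theorem clamp_ge {s t k : ℝ} (hk : k ≤ 1) (h : k ≤ s + t) :
    k ≤ max (min s 1) 0 + max (min t 1) 0 := by
  have h1 : 0 ≤ max (min s 1) 0 := le_max_right _ _
  have h2 : 0 ≤ max (min t 1) 0 := le_max_right _ _
  rcases le_or_gt 1 s with hs | hs
  · have : 1 ≤ max (min s 1) 0 := by rw [min_eq_right hs]; exact le_max_left _ _
    linarith
  · rcases le_or_gt 1 t with ht | ht
    · have : 1 ≤ max (min t 1) 0 := by rw [min_eq_right ht]; exact le_max_left _ _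
      linarith
    · have h3 : s ≤ max (min s 1) 0 := by rw [min_eq_left hs.le]; exact le_max_left _ _
      have h4 : t ≤ max (min t 1) 0 := by rw [min_eq_left ht.le]; exact le_max_left _ _
      linarith

/-- **pairs**: feasible pairs of the box problem give test pairs; one constant for the picture and
the box -/
theorem exists_pair (hP : PicS E 𝒬 𝓗) (h𝓗 : 𝓗₀ ⊆ 𝓗) (hbox : E ⊆ Ioo a b ×ˢ Ioo c d)
    (hab : a < b) : ∃ K, 0 < K ∧ ∀ g Bm Bp, FamQ E g Bm Bp → c < Bm → Bp < d → ∀ 𝒬' ⊆ 𝒬,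
      (∀ Q ∈ 𝒬', Q.y ≠ Bm) → (∀ Q ∈ 𝒬', Q.y + Q.s ≠ Bp) →
      ∀ m, ∀ e ∈ Vq 𝓗₀ a b c Bm (QA 𝒬'),
      ∀ e' ∈ Vq (reflH 𝓗₀) a b (-d) (-Bp) (QA (rfS '' 𝒬')),
      EQ a b c Bm E (QA 𝒬') e + EQ a b (-d) (-Bp) (rf ⁻¹' E) (QA (rfS '' 𝒬')) e' ≤ m →
      (∀ q ∈ Rg E g Bm Bp, ∀ σ σ' : Bool, 1 ≤ tr e σ q.1.1 q.1.2 + tr e' σ' q.2.1 q.2.2) →
      ∃ zm zp, PairQ E 𝒬' 𝓗 g Bm Bp (Ioo a b ×ˢ Ioo c d) (K * m) zm zp := by
  obtain ⟨a1, b1, r, hr, har, hab1, hbr, hbox1⟩ := exists_room hP.q.cpt hbox hab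
  refine ⟨C0 r c (max c d), C0_pos _ _ _, ?_⟩
  intro g Bm Bp hg hcm hpd 𝒬' hs gen gen' m e he e' he' hen h1
  have hlt := hg.lt
  have hcd : c < d := by linarith
  rw [max_eq_right hcd.le]
  have hP' := refl_pic hP
  have hEc : IsClosed E := hP.q.cpt.isClosed
  have hEc' : IsClosed (rf ⁻¹' E) := hP'.q.cpt.isClosed
  have hbox' : rf ⁻¹' E ⊆ Ioo a b ×ˢ Ioo (-d) (-c) := by
    rw [← rf_box]; exact preimage_mono hbox
  have hbox1' : rf ⁻¹' E ⊆ Ioo a1 b1 ×ˢ Ioo (-d) (-c) := by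
    rw [← rf_box]; exact preimage_mono hbox1
  have hE0 : QPic E 𝒬 𝓗₀ :=
    ⟨hP.q.cpt, hP.q.sub, fun K hK => hP.q.hsub K (h𝓗 hK), hP.q.sep, hP.q.null⟩
  have hE0' : QPic (rf ⁻¹' E) (rfS '' 𝒬) (reflH 𝓗₀) :=
    ⟨hP'.q.cpt, hP'.q.sub, fun K hK => hP'.q.hsub K (reflH_mono h𝓗 hK), hP'.q.sep, hP'.q.null⟩
  have H := qq (B := Bm) (a := a) (b := b) (c := c) hE0 hs
    (fun p hp => ⟨(hbox hp).1, (hbox hp).2.1⟩)
  have H' := qq (B := -Bp) (a := a) (b := b) (c := -d) hE0' (image_mono hs)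
    (fun p hp => ⟨(hbox' hp).1, (hbox' hp).2.1⟩)
  obtain ⟨hm, hle⟩ := Vq_clamp H hEc he
  obtain ⟨hm', hle'⟩ := Vq_clamp H' hEc' he'
  have hen0 : 0 ≤ EQ a b c Bm E (QA 𝒬') e := EQ_nonneg
  have hen0' : 0 ≤ EQ a b (-d) (-Bp) (rf ⁻¹' E) (QA (rfS '' 𝒬')) e' := EQ_nonneg
  obtain ⟨zm, hzm, hzmv⟩ := half_of hP.q hP.att hs h𝓗 hbox1 (by linarith) hab1 (by linarith) hcm
    (by linarith) gen hm (fun p => ⟨le_max_right _ _, max_le (min_le_right _ _) zero_le_one⟩)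
    hr har hbr
  obtain ⟨zp, hzp, hzpv⟩ := half_of hP'.q hP'.att (image_mono hs) (reflH_mono h𝓗) hbox1'
    (by linarith) hab1 (by linarith) (by linarith : -d < -Bp) (by linarith)
    (by
      rintro _ ⟨Q, hQ, rfl⟩
      simp only [Kbx_247.rfS_y]
      exact fun hc => gen' Q hQ (by linarith))
    hm' (fun p => ⟨le_max_right _ _, max_le (min_le_right _ _) zero_le_one⟩) hr har hbr
  -- the constant
  have c1 : C0 r c Bm ≤ C0 r c d := C0_mono hcm.le (by linarith)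
  have c2 : C0 r (-d) (-Bp) ≤ C0 r c d := by
    have := C0_mono (r := r) (c := -d) (B := -Bp) (B' := -c) (by linarith) (by linarith)
    refine this.trans (le_of_eq ?_)
    unfold C0; ring
  have em : C0 r c Bm * EQ a b c Bm E (Qc 𝒬') (fun p => max (min (e p) 1) 0) ≤ C0 r c d * m :=
    mul_le_mul c1 (hle.trans (by have : EQ a b c Bm E (Qc 𝒬') e = EQ a b c Bm E (QA 𝒬') e := rfl
                                 linarith)) EQ_nonneg (C0_pos _ _ _).le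
  have ep : C0 r (-d) (-Bp) * EQ a b (-d) (-Bp) (rf ⁻¹' E) (Qc (rfS '' 𝒬'))
      (fun p => max (min (e' p) 1) 0) ≤ C0 r c d * m :=
    mul_le_mul c2 (hle'.trans (by
      have : EQ a b (-d) (-Bp) (rf ⁻¹' E) (Qc (rfS '' 𝒬')) e' =
        EQ a b (-d) (-Bp) (rf ⁻¹' E) (QA (rfS '' 𝒬')) e' := rfl
      linarith)) EQ_nonneg (C0_pos _ _ _).le
  have hzm' : HalfQ E 𝒬' 𝓗 (Lo Bm) (Ioo a b ×ˢ Ioo c d) (C0 r c d * m) zm :=
    ⟨hzm.cf, hzm.rg, hzm.sp, hzm.en.trans em⟩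
  have hzp' : HalfQ (rf ⁻¹' E) (rfS '' 𝒬') (reflH 𝓗) (Lo (-Bp)) (rf ⁻¹' (Ioo a b ×ˢ Ioo c d))
      (C0 r c d * m) zp := by
    rw [rf_box]
    exact ⟨hzp.cf, hzp.rg, hzp.sp, hzp.en.trans ep⟩
  refine ⟨zm, _, hzm', half_rf hzp', fun P hPg => ?_⟩
  -- the key inequality near `P`
  have hPc : IsCompact P := isCompact_comp hP.q (hg.sub hPg)
  have hPE : P ⊆ E := by
    obtain ⟨x, -, rfl⟩ := hg.sub hPg
    exact connectedComponentIn_subset _ _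
  have hPm : IsCompact (P ∩ {p | p.2 ≤ Bm}) :=
    hPc.inter_right (isClosed_le continuous_snd continuous_const)
  have hPp : IsCompact (rf '' (P ∩ {p | Bp ≤ p.2})) :=
    (hPc.inter_right (isClosed_le continuous_const continuous_snd)).image continuous_rf
  have hR0 : (P ∩ {p | p.2 ≤ Bm}) ×ˢ (rf '' (P ∩ {p | Bp ≤ p.2})) ⊆ Rg E g Bm Bp := by
    rintro ⟨p, _⟩ ⟨⟨hp, hpB⟩, q, ⟨hq, hqB⟩, rfl⟩
    exact mem_Rg hg.sub hPg hp hpB hq hqB
  have hRW : ∀ q ∈ (P ∩ {p | p.2 ≤ Bm}) ×ˢ (rf '' (P ∩ {p | Bp ≤ p.2})),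
      q.1 ∈ Wl a b c Bm ∧ q.2 ∈ Wl a b (-d) (-Bp) := by
    rintro ⟨p, _⟩ ⟨⟨hp, hpB⟩, q, ⟨hq, hqB⟩, rfl⟩
    refine ⟨⟨(hbox (hPE hp)).1, (hbox (hPE hp)).2.1, hpB⟩, ?_⟩
    have h3 : Bp ≤ q.2 := hqB
    refine ⟨(hbox (hPE hq)).1, ?_, ?_⟩
    · have := (hbox (hPE hq)).2.2
      show -d < -q.2
      linarith
    · show -q.2 ≤ -Bp
      linarith
  obtain ⟨U, hU, hRU, hU1⟩ := near_val2 (η := 1 / 10) (fun K hK => hE0.hsub K hK)
    (fun K hK => hE0'.hsub K hK) hRW he.1.1 he'.1.1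
    (fun q hq => h1 q (hR0 hq)) (by norm_num)
  obtain ⟨u, v, hu, hv, hmu, hpv, huv⟩ := generalized_tube_lemma hPm hPp hU hRU
  refine ⟨(((u ∪ {p | Bm < p.2}) ∩ (rf ⁻¹' v ∪ {p | p.2 < Bp})) ∩ (Ioo a1 b1 ×ˢ Ioo c d)), ?_, ?_,
    ?_⟩
  · exact (((hu.union (isOpen_lt continuous_const continuous_snd))).inter
      ((hv.preimage continuous_rf).union (isOpen_lt continuous_snd continuous_const))).inter
      (isOpen_Ioo.prod isOpen_Ioo)
  · intro p hp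
    refine ⟨⟨?_, ?_⟩, hbox1 (hPE hp)⟩
    · rcases le_or_gt p.2 Bm with h | h
      · exact Or.inl (hmu ⟨hp, h⟩)
      · exact Or.inr h
    · rcases le_or_gt Bp p.2 with h | h
      · exact Or.inl (hpv ⟨p, ⟨hp, h⟩, rfl⟩)
      · exact Or.inr h
  · rintro p ⟨⟨⟨hp1, -⟩, hpb⟩, hpE⟩ hpB q ⟨⟨⟨-, hq1⟩, hqb⟩, hqE⟩ hqB
    have hpB' : p.2 < Bm := hpB
    have hqB' : Bp < q.2 := hqB
    have hpu : p ∈ u := by
      rcases hp1 with h | h
      · exact h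
      · have : Bm < p.2 := h
        linarith
    have hqv : rf q ∈ v := by
      rcases hq1 with h | h
      · exact h
      · have : q.2 < Bp := h
        linarith
    have hpW : p ∈ Wo a b c Bm :=
      ⟨⟨by linarith [hpb.1.1], by linarith [hpb.1.2]⟩, hpb.2.1, hpB'⟩
    have hqW : rf q ∈ Wo a b (-d) (-Bp) := by
      refine ⟨⟨by simp only [rf_fst]; linarith [hqb.1.1], by simp only [rf_fst]; linarith [hqb.1.2]⟩,
        ?_, ?_⟩
      · simp only [rf_snd]; linarith [hqb.2.2]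
      · simp only [rf_snd]; linarith
    have h3 := hU1 (p, rf q) (huv ⟨hpu, hqv⟩) (Wo_subset hpW) (Wo_subset hqW) hpE
      (by simpa using hqE)
    show 9 / 10 ≤ zm p + zp (rf q)
    rw [hzmv p hpW hpb.1.1 hpb.1.2, hzpv (rf q) hqW hqb.1.1 hqb.1.2]
    exact clamp_ge (by norm_num) (by simp only at h3; linarith)

/-! ### the conductance bound -/

/-- **the bound of the conductance in the form of the box problem** -/
def BndK (E : Set (ℝ × ℝ)) (𝒬 : Set Sqr) (𝓗₀ : Set Hair) (a b c d : ℝ) : Prop :=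
  ∃ K, 0 ≤ K ∧ ∀ g Bm Bp, g.Nonempty → Gen 𝒬 Bm → Gen 𝒬 Bp → FamQ E g Bm Bp → Win 𝒬 g Bm Bp →
    c < Bm → Bp < d → ∀ s, SqSub 𝒬 (⋃₀ g) s → ∀ η > 0,
      ∃ e ∈ Vq 𝓗₀ a b c Bm (QA 𝒬), ∃ e' ∈ Vq (reflH 𝓗₀) a b (-d) (-Bp) (QA (rfS '' 𝒬)),
        EQ a b c Bm E (QA 𝒬) e + EQ a b (-d) (-Bp) (rf ⁻¹' E) (QA (rfS '' 𝒬)) e' ≤
          K / (Bp - Bm) ^ 2 * s + η ∧
        ∀ q ∈ Rg E g Bm Bp, ∀ σ σ' : Bool, 1 ≤ tr e σ q.1.1 q.1.2 + tr e' σ' q.2.1 q.2.2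

theorem bndG_of (hP : PicS E 𝒬 𝓗) (h𝓗 : 𝓗₀ ⊆ 𝓗) (hbox : E ⊆ Ioo a b ×ˢ Ioo c d)
    (hab : a < b) (h : BndK E 𝒬 𝓗₀ a b c d) : BndG E 𝒬 𝓗 (Ioo a b ×ˢ Ioo c d) := by
  obtain ⟨K, hK, h⟩ := h
  obtain ⟨M, hM, hpair⟩ := exists_pair hP h𝓗 hbox hab
  refine ⟨M * K, by positivity, fun g Bm Bp gm gp hg hw s hsq η hη => ?_⟩
  rcases g.eq_empty_or_nonempty with hge | hgn
  · subst hge
    have h0 : 0 < M * K / (Bp - Bm) ^ 2 * s + η := by
      have h1 : 0 ≤ s := by simpa using hsq ∅ (by simp)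
      positivity
    have t1 := boxLo_triv (E := E) (𝒬 := 𝒬) (𝓗 := 𝓗) (N := Ioo a b ×ˢ Ioo c d) (P := ∅) (B := Bm)
      (by simp)
    have t2 := boxUp_triv (E := E) (𝒬 := 𝒬) (𝓗 := 𝓗) (N := Ioo a b ×ˢ Ioo c d) (P := ∅) (B := Bp)
      (by simp)
    obtain ⟨z1, hz1, -⟩ := t1 _ h0
    obtain ⟨z2, hz2, -⟩ := t2 _ h0
    exact ⟨z1, z2, hz1, hz2, fun P hP => absurd hP (notMem_empty P)⟩
  · obtain ⟨P, hPg⟩ := hgn
    have hPE : P ⊆ E := by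
      obtain ⟨x, -, rfl⟩ := hg.sub hPg
      exact connectedComponentIn_subset _ _
    obtain ⟨⟨p, hp, hpB⟩, q, hq, hqB⟩ := hg.crs P hPg
    have h1 := (hbox (hPE hp)).2.1
    have h2 := (hbox (hPE hq)).2.2
    have hcm : c < Bm := by linarith
    have hpd : Bp < d := by linarith
    obtain ⟨e, he, e', he', hen, htr⟩ := h g Bm Bp ⟨P, hPg⟩ gm gp hg hw hcm hpd s hsq (η / M)
      (by positivity)
    have h3 := hpair g Bm Bp hg hcm hpd 𝒬 Subset.rfl (fun Q hQ => (gm Q hQ).1)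
      (fun Q hQ => (gp Q hQ).2) _ e he e' he' hen htr
    have h4 : M * (K / (Bp - Bm) ^ 2 * s + η / M) = M * K / (Bp - Bm) ^ 2 * s + η := by
      rw [mul_add, mul_div_cancel₀ _ hM.ne']; ring
    rwa [h4] at h3

/-- **(L2)**: the box problem gives `BoxOut` -/
theorem boxOut_of (hP : PicS E 𝒬 𝓗) (h𝓗 : 𝓗₀ ⊆ 𝓗) (hbox : E ⊆ Ioo a b ×ˢ Ioo c d)
    (hab : a < b) (hcd : c < d) (lo : SoloK E 𝒬 𝓗₀ a b c)
    (up : SoloK (rf ⁻¹' E) (rfS '' 𝒬) (reflH 𝓗₀) a b (-d)) (h : BndK E 𝒬 𝓗₀ a b c d) :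
    BoxOut E 𝒬 𝓗 :=
  ⟨Ioo a b ×ˢ Ioo c d, c, d, ⟨hcd.le, fun _ hp => (hbox hp).2, fun _ hp => hp.2⟩,
    isOpen_Ioo.prod isOpen_Ioo, hbox, soloG_of hP h𝓗 hbox hab lo up, bndG_of hP h𝓗 hbox hab h⟩

end Crest.Agent.R105.Kna_421
end

-- ▼ part R105/Kna5_421
section

/-!
Row 105, S0138, lemma A with squares (helper421). Part 5: joins in the letters of `Kbx_247`.
`not_null1_face` : the lower part of a square is not null (463's capacity of the faces);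
`BndF` = bound of the mass of the flow of a family, `SolUp` = no pair of unit flows of a single
solid; `lemaq_of_steps` : `LEMAQ StrQ` from these two and the reflection of E-L.
-/

set_option autoImplicit false

open Set Filter MeasureTheory Topology
open scoped ENNReal NNReal

namespace Crest.Agent.R105.Kna_421

open CF_363 Kin_238 Stp_722 Cq_463
open Knq_247 (osc QQ Vq EQ Bo Null1 Null2 EQ_nonneg)
open Skp2_257 (Lo Up Comps)
open Nal_649 (HalfQ OneNear PairQ FamQ Win comp)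
open Famq_306 (BoxLo BoxUp BoxN Gen SoloG BndG BoxOut SqSub isCompact_comp exists_gen solo_bndq_of)
open Kbx_247 (rfS rfS_injective car_rfS mem_rfS refl_pic refl_qpic comp_rfS QA SolK SolF FamF
  exists_solF exists_famF solN_of)
open Exs_992 (PicS)
open SkT1_137 (ELS SOLO BNDQ LEMAQ)

variable {E P C W N : Set (ℝ × ℝ)} {𝒬 𝒬' : Set Sqr} {𝓗 𝓗₀ : Set Hair}
  {a b c d B a1 b1 r ε Bm Bp m : ℝ} {e e' z : ℝ × ℝ → ℝ} {g : Set (Set (ℝ × ℝ))}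

/-- the adapter with a general obstacle -/
theorem half_of_null1 (hE : QPic E 𝒬 𝓗) (hatt : Att 𝒬 𝓗) (hs : 𝒬' ⊆ 𝒬) (h𝓗 : 𝓗₀ ⊆ 𝓗)
    (hbox : E ⊆ Ioo a b ×ˢ Ioo c d) (hab : a < b) (hBd : B < d) (gen : ∀ Q ∈ 𝒬', Q.y ≠ B)
    (hCE : C ⊆ E) (hCB : ∀ p ∈ C, p.2 ≤ B) (h : Null1 𝓗₀ a b c B E (QA 𝒬') C) :
    ∀ ε > 0, ∃ z, HalfQ E 𝒬' 𝓗 (Lo B) (Ioo a b ×ˢ Ioo c d) ε z ∧ OneNear E (Lo B) C z := by
  have h1 : C ∩ {p | p.2 ≤ B} = C := inter_eq_left.2 hCB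
  have h2 := boxLo_of_null1 hE hatt hs h𝓗 hbox hab hBd gen hCE (by rw [h1]; exact h)
  intro ε hε
  obtain ⟨z, hz, hz1⟩ := h2 ε hε
  rw [h1] at hz1
  exact ⟨z, hz, hz1⟩

/-- **(F)**: the lower part of a square is not null in the box, its own charge is not used -/
theorem not_null1_face (hE : QPic E 𝒬 𝓗) (hatt : Att 𝒬 𝓗) (h𝓗 : 𝓗₀ ⊆ 𝓗)
    (hbox : E ⊆ Ioo a b ×ˢ Ioo c d) (hab : a < b) {Q0 : Sqr} (hQ : Q0 ∈ 𝒬) (hQB : Q0.y < B)
    (hBd : B < d) (gen : ∀ Q ∈ 𝒬, Q.y ≠ B) :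
    ¬ Null1 𝓗₀ a b c B E (QA (𝒬 \ {Q0})) (Q0.car ∩ {p | p.2 ≤ B}) := by
  intro h
  have h1 := half_of_null1 hE hatt (sdiff_subset : 𝒬 \ {Q0} ⊆ 𝒬) h𝓗 hbox hab hBd
    (fun Q hQ => gen Q hQ.1) (inter_subset_left.trans (hE.sub Q0 hQ)) (fun p hp => hp.2) h
  obtain ⟨K, hK⟩ := face hE Q0 hQ (Icc a b ×ˢ Icc c d) (isCompact_Icc.prod isCompact_Icc)
  have hK1 : ∀ ε > 0, Q0.s ≤ K * √ε := by
    intro ε hε
    obtain ⟨z, hz, hz1⟩ := h1 ε hε
    obtain ⟨S, hS, hSN, h0⟩ := hz.sp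
    have h2 := (hK z hz.rg).1 B hQB hz.cf (fun p hpB hp => h0 p hpB fun hpS => hp
      ⟨Ioo_subset_Icc_self (hSN hpS).1, Ioo_subset_Icc_self (hSN hpS).2⟩) hz1
    rcases le_or_gt 0 K with hk | hk
    · exact h2.trans (mul_le_mul_of_nonneg_left (Real.sqrt_le_sqrt hz.en) hk)
    · have := mul_nonpos_of_nonpos_of_nonneg hk.le (Real.sqrt_nonneg (TQ E (Lo B) (𝒬 \ {Q0}) z))
      have := Q0.hs
      linarith
  have hs := Q0.hs
  have hK0 : 0 < K := by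
    have := hK1 1 one_pos
    rw [Real.sqrt_one, mul_one] at this
    linarith
  have h3 := hK1 ((Q0.s / (2 * K)) ^ 2) (by positivity)
  rw [Real.sqrt_sq (by positivity)] at h3
  have h4 : K * (Q0.s / (2 * K)) = Q0.s / 2 := by field_simp
  rw [h4] at h3
  linarith

theorem soloK_of_solK (h : SolK E 𝒬 𝓗₀ a b c) : SoloK E 𝒬 𝓗₀ a b c :=
  fun Q hQ B hB _ hBQ => h Q hQ B hB hBQ

/-! ### the bound -/

/-- the relation of `Kbx_247` is the relation `Rg` -/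
theorem Rg_eq (hg : g ⊆ Comps E) : Rg E g Bm Bp = Kbx_247.Rg g Bm Bp := by
  ext q
  constructor
  · rintro ⟨⟨P, hP, hqP⟩, ⟨P', hP', hqP'⟩, h1, h2, h3⟩
    refine ⟨P, hP, hqP, ?_, h1, ?_⟩
    · obtain ⟨x, hx, hxP⟩ := hg hP
      obtain ⟨x', hx', hxP'⟩ := hg hP'
      have e1 : connectedComponentIn E q.1 = P := by
        rw [hxP] at hqP
        rw [hxP, connectedComponentIn_eq hqP]
      have e2 : connectedComponentIn E (rf q.2) = P' := by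
        rw [hxP'] at hqP'
        rw [hxP', connectedComponentIn_eq hqP']
      rw [← e1, h3, e2]
      exact hqP'
    · rw [rf_snd] at h2; linarith
  · rintro ⟨P, hP, h1, h2, h3, h4⟩
    have := mem_Rg (q := rf q.2) (Bm := Bm) (Bp := Bp) hg hP h1 h3 h2
      (by rw [rf_snd]; linarith)
    simpa using this

/-- **the bound of the mass of the flow of a family** (from E-L) -/
def BndF (E : Set (ℝ × ℝ)) (𝒬 : Set Sqr) (𝓗 : Set Hair) (a b c d : ℝ) : Prop :=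
  ∃ K, 0 ≤ K ∧ ∀ g Bm Bp, Gen 𝒬 Bm → Gen 𝒬 Bp → FamQ E g Bm Bp → Win 𝒬 g Bm Bp →
    c < Bm → Bp < d → ∀ s, SqSub 𝒬 (⋃₀ g) s → ∀ m X1 X2 f νp νm μ Y1 Y2 f' νp' νm' ν,
      FamF E 𝒬 𝓗 g Bm Bp a b c d m X1 X2 f νp νm μ Y1 Y2 f' νp' νm' ν →
        m ≤ K / (Bp - Bm) ^ 2 * s

theorem bndK_of_bndF (hP : PicS E 𝒬 𝓗) (hbox : E ⊆ Ioo a b ×ˢ Ioo c d)
    (lo : SolK E 𝒬 𝓗 a b c) (up : SolK (rf ⁻¹' E) (rfS '' 𝒬) (reflH 𝓗) a b (-d))
    (h : BndF E 𝒬 𝓗 a b c d) : BndK E 𝒬 𝓗 a b c d := by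
  obtain ⟨K, hK, h⟩ := h
  refine ⟨K, hK, fun g Bm Bp _ gm gp hg hw hcm hpd s hs η hη => ?_⟩
  have hs0 : 0 ≤ s := by simpa using hs ∅ (by simp)
  rw [Rg_eq hg.sub]
  by_cases hn : Null2 𝓗 a b c Bm E (QA 𝒬) (reflH 𝓗) a b (-d) (-Bp) (rf ⁻¹' E) (QA (rfS '' 𝒬))
      (Kbx_247.Rg g Bm Bp)
  · obtain ⟨e, he, e', he', h1, h2⟩ := hn η hη
    refine ⟨e, he, e', he', ?_, h2⟩
    have : 0 ≤ K / (Bp - Bm) ^ 2 * s := by positivity
    linarith
  · obtain ⟨m, X1, X2, f, νp, νm, μ, Y1, Y2, f', νp', νm', ν, hF⟩ := exists_famF hP hg hbox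
      (solN_of hP.q hg gm gp hw lo up) hn
    obtain ⟨e, he, e', he', h1, h2⟩ := hF.opt η hη
    have h3 := h g Bm Bp gm gp hg hw hcm hpd s hs _ _ _ _ _ _ _ _ _ _ _ _ _ hF
    exact ⟨e, he, e', he', by linarith, h2⟩

/-! ### the single solid -/


theorem null1_empty {ι : Type*} {Q : ι → Set (ℝ × ℝ)} {S : Set (ℝ × ℝ)} :
    Null1 𝓗 a b c B S Q ∅ := fun ε hε =>
  ⟨0, (Vq 𝓗 a b c B Q).zero_mem, by rw [Knq_247.EQ_zero]; exact hε, fun p hp => absurd hp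
    (notMem_empty p)⟩

theorem gen_rf' (h : Gen (rfS '' 𝒬) B) : Gen 𝒬 (-B) := by
  have := gen_rf h
  rwa [Kbx_247.rfS_image_image] at this



/-- a box of a compact set -/
theorem exists_box (hE : IsCompact E) :
    ∃ a b c d : ℝ, a < b ∧ c < d ∧ E ⊆ Ioo a b ×ˢ Ioo c d := by
  obtain ⟨R, hR⟩ := hE.isBounded.subset_ball (0 : ℝ × ℝ)
  refine ⟨-(|R| + 1), |R| + 1, -(|R| + 1), |R| + 1, by linarith [abs_nonneg R],
    by linarith [abs_nonneg R], fun p hp => ?_⟩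
  have h1 := hR hp
  rw [Metric.mem_ball, dist_zero_right, Prod.norm_def] at h1
  have h2 : |p.1| < R := (le_max_left _ _).trans_lt h1
  have h3 : |p.2| < R := (le_max_right _ _).trans_lt h1
  have h4 := le_abs_self R
  have h5 := abs_lt.1 h2
  have h6 := abs_lt.1 h3
  exact ⟨⟨by linarith [h5.1], by linarith [h5.2]⟩, by linarith [h6.1], by linarith [h6.2]⟩

/-- pairwise disjoint hairs -/
def DisjH (𝓗 : Set Hair) : Prop := ∀ K ∈ 𝓗, ∀ K' ∈ 𝓗, K ≠ K' → Disjoint K.car K'.car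

theorem disjH_refl (h : DisjH 𝓗) : DisjH (reflH 𝓗) := by
  intro K hK K' hK' hne
  have h1 := h _ hK _ hK' fun h => hne (Hair.refl_injective h)
  rw [Hair.car_refl, Hair.car_refl] at h1
  rw [Set.disjoint_left] at h1 ⊢
  intro p hp hp'
  exact h1 (a := rf p) (by simpa using hp) (by simpa using hp')


end Crest.Agent.R105.Kna_421
end

-- ▼ part R105/Kbx4_247
section

set_option autoImplicit false

open Set Filter MeasureTheory Topology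
open scoped ENNReal NNReal

namespace Crest.Agent.R105.Kbx_247

open Crest.Agent.R105.CF_363 Crest.Agent.R105.Stp_722 Crest.Agent.R105.Cq_463
open Crest.Agent.R105.Nal_649 Crest.Agent.R105.Exs_992 Crest.Agent.R105.Famq_306
open Crest.Agent.R105.Skp2_257 (Comps Lo Up Reg)
open Crest.Agent.R105.Kin_238 (Wl Wo tr)
open Crest.Agent.R105.SkT1_137 (TFin ELf ELS)
open Crest.Agent.R105.Psq_425 (LimAt PlaLim StrQs StrQ)
open Crest.Agent.R105.Kna_421 (oscLe_rf TQ_rf)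

variable {E P : Set (ℝ × ℝ)} {𝒬 𝒬' : Set Sqr} {𝓗 : Set Hair} {a b c d B Bm Bp : ℝ}
  {g : Set (Set (ℝ × ℝ))} {f ψ : ℝ × ℝ → ℝ} {o : Set (ℝ × ℝ) → ℝ}

/-- the reflected family -/
def rfG (g : Set (Set (ℝ × ℝ))) : Set (Set (ℝ × ℝ)) := (fun P => rf ⁻¹' P) '' g

theorem mem_rfG : P ∈ rfG g ↔ rf ⁻¹' P ∈ g := by
  constructor
  · rintro ⟨P', hP', rfl⟩
    simpa using hP'
  · intro h
    exact ⟨_, h, rf_pre_pre P⟩


theorem sUnion_rfG (g : Set (Set (ℝ × ℝ))) : ⋃₀ rfG g = rf ⁻¹' ⋃₀ g := by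
  ext p
  constructor
  · rintro ⟨P, hP, hp⟩
    exact ⟨_, mem_rfG.1 hP, by simpa using hp⟩
  · rintro ⟨P, hP, hp⟩
    exact ⟨rf ⁻¹' P, ⟨P, hP, rfl⟩, hp⟩

theorem famQ_refl (h : FamQ E g Bm Bp) : FamQ (rf ⁻¹' E) (rfG g) (-Bp) (-Bm) where
  lt := neg_lt_neg h.lt
  sub := by
    rintro _ ⟨P, hP, rfl⟩
    exact comps_rf' (h.sub hP)
  cpt := by
    rw [sUnion_rfG, ← rf_image_eq_preimage]
    exact h.cpt.image continuous_rf
  crs := by
    rintro _ ⟨P, hP, rfl⟩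
    obtain ⟨⟨p, hp, hp2⟩, ⟨q, hq, hq2⟩⟩ := h.crs P hP
    exact ⟨⟨rf q, by simpa using hq, by simpa using hq2⟩,
      ⟨rf p, by simpa using hp, by simpa using hp2⟩⟩

theorem limAt_refl {k : ℝ} (h : LimAt E P ψ k) :
    LimAt (rf ⁻¹' E) (rf ⁻¹' P) (fun p => ψ (rf p)) k := by
  intro ε hε
  obtain ⟨O, hO, hPO, h1⟩ := h ε hε
  exact ⟨rf ⁻¹' O, hO.preimage continuous_rf, preimage_mono hPO, fun p hp => h1 _ hp⟩

theorem lip_rf {L : ℝ≥0} (h : LipschitzWith L f) : LipschitzWith L fun p => f (rf p) := by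
  have h1 := h.comp isometry_rf.lipschitz
  rw [mul_one] at h1
  exact h1

theorem plaLim_refl (h : PlaLim E 𝒬 f) :
    PlaLim (rf ⁻¹' E) (rfS '' 𝒬) (fun p => f (rf p)) := by
  obtain ⟨fn, h1, ⟨A, hA, h2⟩, ⟨C, h3⟩, h4, ⟨C', h5⟩⟩ := h
  refine ⟨fun n p => fn n (rf p), fun n => ?_, ⟨rf ⁻¹' A, ?_, fun n p hp => h2 n _ hp⟩,
    ⟨C, fun n p => h3 n _⟩, fun p hp => h4 _ hp, ⟨C', fun n => ?_⟩⟩
  · obtain ⟨L, hL⟩ := h1 n
    exact ⟨L, lip_rf hL⟩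
  · rw [← rf_image_eq_preimage]; exact hA.image continuous_rf
  · have := TQ_rf E univ 𝒬 (fn n)
    rw [preimage_univ] at this
    rw [this]
    exact h5 n

theorem hasCompactSupport_rf (h : HasCompactSupport f) :
    HasCompactSupport fun p => f (rf p) :=
  h.comp_homeomorph rfL.toHomeomorph

theorem reg_refl (h : Reg E f) : Reg (rf ⁻¹' E) (fun p => f (rf p)) where
  lip := by
    intro p hp
    obtain ⟨K, t, ht, hK⟩ := h.lip (x := rf p) hp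
    refine ⟨K, rf ⁻¹' t, ?_, ?_⟩
    · have h1 : Tendsto rf (𝓝[(rf ⁻¹' E)ᶜ] p) (𝓝[Eᶜ] (rf p)) :=
        tendsto_nhdsWithin_of_tendsto_nhds_of_eventually_within _
          (continuous_rf.continuousAt.mono_left nhdsWithin_le_nhds)
          (by filter_upwards [self_mem_nhdsWithin] with q hq using hq)
      exact h1 ht
    · intro x hx y hy
      have h1 := hK hx hy
      rwa [isometry_rf.edist_eq] at h1
  cpt := hasCompactSupport_rf h.cpt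
  bdd := by
    obtain ⟨C, hC⟩ := h.bdd
    exact ⟨C, fun p => hC _⟩
  fin := by
    have h1 : (rf ⁻¹' E)ᶜ = rf ⁻¹' Eᶜ := rfl
    have h2 : g2 (fun p => f (rf p)) = fun p => g2 f (rf p) := by
      funext p; exact g2_rf f p
    rw [h1, h2]
    exact integrableOn_rf.2 h.fin

/-- the components of the reflected set -/
def cpE (E : Set (ℝ × ℝ)) : Comps (rf ⁻¹' E) ≃ Comps E where
  toFun P := ⟨rf ⁻¹' P.1, comps_rf.1 P.2⟩
  invFun P := ⟨rf ⁻¹' P.1, comps_rf' P.2⟩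
  left_inv P := by ext1; simp
  right_inv P := by ext1; simp

theorem tFin_refl (h : TFin E ψ o) :
    TFin (rf ⁻¹' E) (fun p => ψ (rf p)) (fun P => o (rf ⁻¹' P)) where
  reg := reg_refl h.reg
  nn := fun P hP => h.nn _ (comps_rf.1 hP)
  osc := by
    intro P hP
    have h1 := oscLe_rf (h.osc _ (comps_rf.1 hP))
    rw [rf_pre_pre] at h1
    exact h1
  sum := by
    have h1 : Summable ((fun P : Comps E => o P.1 ^ 2) ∘ cpE E) :=
      h.sum.comp_injective (cpE E).injective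
    exact h1

theorem strQs_refl (h : StrQs E 𝒬 g ψ) :
    StrQs (rf ⁻¹' E) (rfS '' 𝒬) (rfG g) (fun p => ψ (rf p)) where
  strip := by
    obtain ⟨C, hC, F, hF, h1⟩ := h.strip
    refine ⟨(fun P => rf ⁻¹' P) '' C, hC.image _, F, hF, ?_⟩
    intro P hP hPC
    have h2 : rf ⁻¹' P ∉ C := fun h3 => hPC ⟨_, h3, rf_pre_pre P⟩
    obtain ⟨K, hK, hlim⟩ := h1 _ (mem_rfG.1 hP) h2
    refine ⟨K.refl, ?_, ?_⟩
    · rw [Hair.car_refl, ← hK, rf_pre_pre]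
    · have := limAt_refl hlim
      rwa [rf_pre_pre] at this
  off := by
    obtain ⟨f, hf, ⟨C, hC⟩, h1, h2⟩ := h.off
    refine ⟨fun p => f (rf p), ?_, ⟨C, fun p => hC _⟩, ?_, ?_⟩
    · exact hf.comp continuous_rf.continuousOn fun p hp => hp
    · intro P hP
      have := limAt_refl (h1 _ (comps_rf.1 hP))
      rwa [rf_pre_pre] at this
    · intro κ L hκ hκc hO
      obtain ⟨O, hO, hgO, h3⟩ := hO
      have h4 := h2 (fun p => κ (rf p)) L (lip_rf hκ) (hasCompactSupport_rf hκc)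
        ⟨rf ⁻¹' O, hO.preimage continuous_rf, ?_, fun p hp => h3 _ hp⟩
      · have h5 := plaLim_refl h4
        simpa using h5
      · intro p hp
        refine hgO ?_
        rw [sUnion_rfG]
        simpa using hp
  fin := by
    obtain ⟨o, ho⟩ := h.fin
    exact ⟨_, tFin_refl ho⟩

theorem elf_refl (hE : QPic E 𝒬 𝓗) (h : ELf E 𝒬 ψ) :
    ELf (rf ⁻¹' E) (rfS '' 𝒬) (fun p => ψ (rf p)) := by
  intro o ho
  have h1 := tFin_refl ho
  rw [rf_pre_pre] at h1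
  simp only [rf_rf] at h1
  have h2 := h _ h1
  have h3 : ∫ p in (rf ⁻¹' E)ᶜ, gx (fun p => ψ (rf p)) p = ∫ p in Eᶜ, gx ψ p := by
    have h4 : (fun p => gx (fun p => ψ (rf p)) p) = fun p => gx ψ (rf p) := by
      funext p; exact CF_363.gx_rf ψ p
    rw [h4]
    exact integral_rf (gx ψ) Eᶜ
  rw [h3]
  refine h2.trans (le_of_eq ?_)
  rw [← (Equiv.Set.image rfS 𝒬 rfS_injective).tsum_eq]
  refine tsum_congr fun Q => ?_
  show Q.1.s * o (rf ⁻¹' comp E Q.1) = (rfS Q.1).s * o (comp (rf ⁻¹' E) (rfS Q.1))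
  rw [comp_rfS hE Q.2, rfS_s]

/-- **E-L for the reflected picture** -/
theorem els_refl (hE : QPic E 𝒬 𝓗) (h : ELS StrQ E 𝒬 𝓗) :
    ELS StrQ (rf ⁻¹' E) (rfS '' 𝒬) (reflH 𝓗) := by
  intro g Bm Bp hg ψ hψ
  have h1 := famQ_refl hg
  rw [rf_pre_pre] at h1
  have h2 : StrQs E 𝒬 (rfG g) (fun p => ψ (rf p)) := by
    have := strQs_refl (show StrQs (rf ⁻¹' E) (rfS '' 𝒬) g ψ from hψ)
    rwa [rf_pre_pre, rfS_image_image] at this
  have h3 := elf_refl hE (h _ _ _ h1 _ h2)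
  simpa using h3

end Crest.Agent.R105.Kbx_247
end

-- ▼ part R105/Kna6_421

/-!
Row 105, S0138, lemma A with squares (helper421). Part 6: `LEMAQ StrQ` from the three statements
(A) single solid, (B) single free hair, (C) family without atoms (247's letters, #11367).
-/

set_option autoImplicit false

open Set Filter MeasureTheory Topology
open scoped ENNReal NNReal

namespace Crest.Agent.R105.Kna_421

open CF_363 Kin_238 Stp_722 Cq_463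
open Knq_247 (osc QQ Vq EQ Bo Null1 Null2 EQ_nonneg)
open Skp2_257 (Lo Up Comps)
open Nal_649 (HalfQ OneNear PairQ FamQ Win comp)
open Famq_306 (BoxLo BoxUp BoxN Gen SoloG BndG BoxOut SqSub isCompact_comp exists_gen solo_bndq_of)
open Kbx_247 (rfS rfS_injective car_rfS mem_rfS refl_pic refl_qpic comp_rfS QA SolK SolF FamF
  exists_solF exists_famF exists_famF_hair solN_of)
open Exs_992 (PicS)
open SkT1_137 (ELS SOLO BNDQ LEMAQ)

variable {E P C W N : Set (ℝ × ℝ)} {𝒬 𝒬' : Set Sqr} {𝓗 𝓗₀ : Set Hair}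
  {a b c d B a1 b1 r ε Bm Bp m : ℝ} {e e' z : ℝ × ℝ → ℝ} {g : Set (Set (ℝ × ℝ))}

/-- **(A)** single solid: for every level above the square there is a level of the square without a
pair of unit flows -/
def StepA (E : Set (ℝ × ℝ)) (𝒬 : Set Sqr) (𝓗 : Set Hair) (a b c d : ℝ) : Prop :=
  ∀ Q0 ∈ 𝒬, ∀ Bp, Gen 𝒬 Bp → Q0.y + Q0.s < Bp → Bp < d →
    ∃ B, Gen 𝒬 B ∧ Q0.y < B ∧ B < Q0.y + Q0.s ∧ ∀ X1 X2 f νp νm μ Y1 Y2 f' νp' νm' ν,
      SolF E 𝒬 𝓗 Q0 B Bp a b c d X1 X2 f νp νm μ Y1 Y2 f' νp' νm' ν → False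

/-- **(B)** single free hair -/
def StepB (E : Set (ℝ × ℝ)) (𝒬 : Set Sqr) (𝓗 : Set Hair) (a b c d : ℝ) : Prop :=
  ∀ K ∈ 𝓗, ∀ Bm Bp, Gen 𝒬 Bm → Gen 𝒬 Bp → FamQ E {K.car} Bm Bp → c < Bm → Bp < d →
    ∀ m X1 X2 f νp νm μ Y1 Y2 f' νp' νm' ν,
      FamF E 𝒬 𝓗 {K.car} Bm Bp a b c d m X1 X2 f νp νm μ Y1 Y2 f' νp' νm' ν → False

/-- **(C)** family without atoms -/
def StepC (E : Set (ℝ × ℝ)) (𝒬 : Set Sqr) (𝓗 : Set Hair) (a b c d : ℝ) : Prop :=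
  ∃ K, 0 ≤ K ∧ ∀ g Bm Bp, Gen 𝒬 Bm → Gen 𝒬 Bp → FamQ E g Bm Bp → Win 𝒬 g Bm Bp →
    c < Bm → Bp < d → ∀ m X1 X2 f νp νm μ Y1 Y2 f' νp' νm' ν,
      FamF E 𝒬 𝓗 g Bm Bp a b c d m X1 X2 f νp νm μ Y1 Y2 f' νp' νm' ν →
        (∀ x, μ {q | q.1 = x} = 0) → (∀ x, ν {q | q.1 = x} = 0) →
          ∀ s, SqSub 𝒬 (⋃₀ g) s → (Bp - Bm) ^ 2 * m ≤ K * s

theorem solK_of_stepA (hP : PicS E 𝒬 𝓗) (hbox : E ⊆ Ioo a b ×ˢ Ioo c d) (hab : a < b)
    (h : StepA E 𝒬 𝓗 a b c d) : SolK (rf ⁻¹' E) (rfS '' 𝒬) (reflH 𝓗) a b (-d) := by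
  rintro _ ⟨Q0, hQ, rfl⟩ B' hB' hBQ
  have hs := Q0.hs
  simp only [Kbx_247.rfS_y] at hBQ
  have hE := hP.q
  have hQE : ∀ p ∈ Q0.car, p ∈ Ioo a b ×ˢ Ioo c d := fun p hp => hbox (hE.sub Q0 hQ hp)
  rw [comp_rfS hE hQ]
  have e1 : rfS '' 𝒬 \ {rfS Q0} = rfS '' (𝒬 \ {Q0}) := by
    rw [image_sdiff rfS_injective, image_singleton]
  rw [e1]
  obtain ⟨Bp, rfl⟩ : ∃ Bp, B' = -Bp := ⟨-B', by ring⟩
  have gp : Gen 𝒬 Bp := by simpa using gen_rf' hB'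
  rcases le_or_gt d Bp with hd | hd
  · have hemp : rf ⁻¹' comp E Q0 ∩ {p | p.2 ≤ -Bp} = ∅ := by
      rw [eq_empty_iff_forall_notMem]
      rintro p ⟨h1, h2⟩
      have h3 := (hbox (comp_sub E Q0 h1)).2.2
      rw [rf_snd] at h3
      have h4 : p.2 ≤ -Bp := h2
      linarith
    rw [hemp]
    exact null1_empty
  · by_contra hup
    obtain ⟨B, gB, h1, h2, hno⟩ := h Q0 hQ Bp gp (by linarith) hd
    have hlo := not_null1_face (𝓗₀ := 𝓗) hE hP.att Subset.rfl hbox hab hQ h1 (by linarith)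
      (fun Q hQ => (gB Q hQ).1)
    obtain ⟨X1, X2, f, νp, νm, μ, Y1, Y2, f', νp', νm', ν, hF⟩ := exists_solF hP hQ hbox
      (by linarith : Q0.y + Q0.s < Bp) hlo hup
    exact hno _ _ _ _ _ _ _ _ _ _ _ _ hF

/-- **no atoms**: by (B) every hair of the family is null -/
theorem atoms_zero (hP : PicS E 𝒬 𝓗) (hbox : E ⊆ Ioo a b ×ˢ Ioo c d) (hB : StepB E 𝒬 𝓗 a b c d)
    (gm : Gen 𝒬 Bm) (gp : Gen 𝒬 Bp) (hg : FamQ E g Bm Bp) (hcm : c < Bm) (hpd : Bp < d)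
    {X1 X2 : ℝ × ℝ → ℝ} {f : {Q : Sqr // Q ∈ 𝒬} → ℝ}
    {νp νm : {Q : Sqr // Q ∈ 𝒬} → Measure (ℝ × ℝ)} {μ : Measure (ℝ × ℝ)}
    {Y1 Y2 : ℝ × ℝ → ℝ} {f' : {Q : Sqr // Q ∈ rfS '' 𝒬} → ℝ}
    {νp' νm' : {Q : Sqr // Q ∈ rfS '' 𝒬} → Measure (ℝ × ℝ)} {ν : Measure (ℝ × ℝ)}
    (F : FamF E 𝒬 𝓗 g Bm Bp a b c d m X1 X2 f νp νm μ Y1 Y2 f' νp' νm' ν) (x : ℝ) :
    μ {q | q.1 = x} = 0 ∧ ν {q | q.1 = x} = 0 := by
  by_cases hx : ∃ K ∈ 𝓗, K.car ∈ g ∧ K.x = x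
  · obtain ⟨K, hK, hKg, rfl⟩ := hx
    refine F.noat K hK hKg ?_
    by_contra hn
    obtain ⟨m', X1', X2', f1, ν1, ν2, μ', Y1', Y2', f2, ν3, ν4, ν', hF⟩ :=
      exists_famF_hair hP hg hbox hKg hn
    exact hB K hK Bm Bp gm gp (Kbx_247.famQ_single hP.q hg hKg) hcm hpd _ _ _ _ _ _ _ _ _ _ _ _ _
      hF
  · push Not at hx
    constructor
    · have h1 := F.c1
      rw [ae_iff] at h1
      refine measure_mono_null (fun q hq => ?_) h1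
      rintro ⟨K, hK, hKg, hqK, -⟩
      exact hx K hK hKg (hqK.1.symm.trans hq)
    · have h1 := F.c2
      rw [ae_iff] at h1
      refine measure_mono_null (fun q hq => ?_) h1
      rintro ⟨K, hK, hKg, hqK, -⟩
      exact hx K hK hKg (hqK.1.symm.trans hq)

theorem bndF_of_stepBC (hP : PicS E 𝒬 𝓗) (hbox : E ⊆ Ioo a b ×ˢ Ioo c d)
    (hB : StepB E 𝒬 𝓗 a b c d) (hC : StepC E 𝒬 𝓗 a b c d) : BndF E 𝒬 𝓗 a b c d := by
  obtain ⟨K, hK, h⟩ := hC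
  refine ⟨K, hK, fun g Bm Bp gm gp hg hw hcm hpd s hs m X1 X2 f νp νm μ Y1 Y2 f' νp' νm' ν hF => ?_⟩
  have hat := atoms_zero hP hbox hB gm gp hg hcm hpd hF
  have h1 := h g Bm Bp gm gp hg hw hcm hpd _ _ _ _ _ _ _ _ _ _ _ _ _ hF (fun x => (hat x).1)
    (fun x => (hat x).2) s hs
  have hd : 0 < (Bp - Bm) ^ 2 := by
    have := hg.lt
    have : 0 < Bp - Bm := by linarith
    positivity
  rw [div_mul_eq_mul_div, le_div_iff₀ hd]
  linarith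

/-- **`LEMAQ StrQ` from (A), (B), (C)** -/
theorem lemaq_of_abc
    (hA : ∀ E 𝒬 𝓗, PicS E 𝒬 𝓗 → DisjH 𝓗 → ELS Psq_425.StrQ E 𝒬 𝓗 →
      ∀ a b c d, a < b → c < d → E ⊆ Ioo a b ×ˢ Ioo c d → StepA E 𝒬 𝓗 a b c d)
    (hB : ∀ E 𝒬 𝓗, PicS E 𝒬 𝓗 → DisjH 𝓗 → ELS Psq_425.StrQ E 𝒬 𝓗 →
      ∀ a b c d, a < b → c < d → E ⊆ Ioo a b ×ˢ Ioo c d → StepB E 𝒬 𝓗 a b c d)
    (hC : ∀ E 𝒬 𝓗, PicS E 𝒬 𝓗 → DisjH 𝓗 → ELS Psq_425.StrQ E 𝒬 𝓗 →
      ∀ a b c d, a < b → c < d → E ⊆ Ioo a b ×ˢ Ioo c d → StepC E 𝒬 𝓗 a b c d) :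
    LEMAQ Psq_425.StrQ := by
  refine Hmx_361.lemaq_of_disj fun E 𝒬 𝓗 hP hd hel => ?_
  obtain ⟨a, b, c, d, hab, hcd, hbox⟩ := exists_box hP.q.cpt
  have hbox' := Kbx_247.refl_box hbox
  have hP' := refl_pic hP
  have up := solK_of_stepA hP hbox hab (hA E 𝒬 𝓗 hP hd hel a b c d hab hcd hbox)
  have lo : SolK E 𝒬 𝓗 a b c := by
    have h4 := solK_of_stepA hP' hbox' hab
      (hA _ _ _ hP' (disjH_refl hd) (Kbx_247.els_refl hP.q hel) a b (-d) (-c) hab (by linarith)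
        hbox')
    rwa [Kbx_247.rf_pre_pre, Kbx_247.rfS_image_image, reflH_reflH, neg_neg] at h4
  exact solo_bndq_of hP.q (boxOut_of hP Subset.rfl hbox hab hcd (soloK_of_solK lo)
    (soloK_of_solK up) (bndK_of_bndF hP hbox lo up (bndF_of_stepBC hP hbox
      (hB E 𝒬 𝓗 hP hd hel a b c d hab hcd hbox) (hC E 𝒬 𝓗 hP hd hel a b c d hab hcd hbox))))

end Crest.Agent.R105.Kna_421
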