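import Crest.Agent.R105.Mq1_347

-- ▼ part R105/Mq2_347
section

/-! Row 105, S0138, NI-10: MOLLQ, part B: the box mean of a function with line formulas. -/

open MeasureTheory Set Metric Filter Topology
open scoped ENNReal Function

namespace Crest.Agent.R105.Mq_347

noncomputable section

/-- box mean -/
def bm (ε : ℝ) (ψ : ℝ × ℝ → ℝ) (p : ℝ × ℝ) : ℝ := (4 * ε ^ 2)⁻¹ * ∫ u in closedBall p ε, ψ u

/-- line formulas off the complement of `W`: `ψ` on vertical, `Ψ` on horizontal lines -/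
structure LineB (W : Set (ℝ × ℝ)) (ψ Ψ : ℝ × ℝ → ℝ) (G : ℝ × ℝ → ℝ≥0∞) : Prop where
  H : ∀ᵐ y : ℝ, ∀ x x', x ≤ x' → (∀ s ∈ Icc x x', (s, y) ∈ W) →
    ‖Ψ (x', y) - Ψ (x, y)‖ₑ ≤ ∫⁻ s in Icc x x', G (s, y)
  V : ∀ᵐ x : ℝ, ∀ y y', y ≤ y' → (∀ t ∈ Icc y y', (x, t) ∈ W) →
    ‖ψ (x, y') - ψ (x, y)‖ₑ ≤ ∫⁻ t in Icc y y', G (x, t)
  E : ∀ᵐ p : ℝ × ℝ, p ∈ W → Ψ p = ψ p

theorem ae_fst' {Q : ℝ → Prop} (h : ∀ᵐ x : ℝ, Q x) : ∀ᵐ p : ℝ × ℝ, Q p.1 := by
  rw [Measure.volume_eq_prod]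
  exact Measure.quasiMeasurePreserving_fst.ae h

theorem ae_snd' {Q : ℝ → Prop} (h : ∀ᵐ x : ℝ, Q x) : ∀ᵐ p : ℝ × ℝ, Q p.2 := by
  rw [Measure.volume_eq_prod]
  exact Measure.quasiMeasurePreserving_snd.ae h

theorem lint_shift (G : ℝ × ℝ → ℝ≥0∞) (p v : ℝ × ℝ) (ε : ℝ) :
    ∫⁻ u in closedBall p ε, G (u + v) = ∫⁻ u in closedBall (p + v) ε, G u := by
  rw [← lintegral_indicator isClosed_closedBall.measurableSet,
    ← lintegral_indicator isClosed_closedBall.measurableSet,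
    ← lintegral_add_right_eq_self ((closedBall (p + v) ε).indicator fun u => G u) v]
  congr 1; ext u
  simp only [indicator, mem_closedBall, dist_add_right]

theorem int_shift (ψ : ℝ × ℝ → ℝ) (p v : ℝ × ℝ) (ε : ℝ) :
    ∫ u in closedBall p ε, ψ (u + v) = ∫ u in closedBall (p + v) ε, ψ u := by
  rw [← integral_indicator isClosed_closedBall.measurableSet,
    ← integral_indicator isClosed_closedBall.measurableSet,
    ← integral_add_right_eq_self ((closedBall (p + v) ε).indicator fun u => ψ u) v]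
  congr 1; ext u
  simp only [indicator, mem_closedBall, dist_add_right]

theorem intOn_shift {ψ : ℝ × ℝ → ℝ} {p v : ℝ × ℝ} {ε : ℝ}
    (h : IntegrableOn ψ (closedBall (p + v) ε)) :
    IntegrableOn (fun u => ψ (u + v)) (closedBall p ε) := by
  rw [← integrable_indicator_iff isClosed_closedBall.measurableSet] at h ⊢
  have := h.comp_add_right v
  refine this.congr (Eventually.of_forall fun u => ?_)
  simp only [indicator, mem_closedBall, dist_add_right]

/-- shift of the mean in a direction -/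
theorem shift_le {G : ℝ × ℝ → ℝ≥0∞} (hG : Measurable G) {φ : ℝ × ℝ → ℝ} {e p z : ℝ × ℝ}
    {t ε : ℝ} (h : ∀ᵐ u : ℝ × ℝ, u ∈ closedBall p ε →
      ‖φ (u + t • e) - φ u‖ₑ ≤ ∫⁻ r in Icc 0 t, G (u + r • e))
    (hr : ∀ r ∈ Icc 0 t, closedBall (p + r • e) ε ⊆ closedBall z (3 * ε)) :
    ∫⁻ u in closedBall p ε, ‖φ (u + t • e) - φ u‖ₑ ≤
      ENNReal.ofReal t * ∫⁻ u in closedBall z (3 * ε), G u := by
  have hm : Measurable fun x : (ℝ × ℝ) × ℝ => G (x.1 + x.2 • e) :=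
    hG.comp (measurable_fst.add (measurable_snd.smul_const e))
  calc ∫⁻ u in closedBall p ε, ‖φ (u + t • e) - φ u‖ₑ
      ≤ ∫⁻ u in closedBall p ε, ∫⁻ r in Icc 0 t, G (u + r • e) := by
        refine lintegral_mono_ae ?_
        rw [ae_restrict_iff' isClosed_closedBall.measurableSet]
        exact h
    _ = ∫⁻ r in Icc 0 t, ∫⁻ u in closedBall p ε, G (u + r • e) :=
        lintegral_lintegral_swap hm.aemeasurable
    _ ≤ ∫⁻ r in Icc 0 t, ∫⁻ u in closedBall z (3 * ε), G u := by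
        refine setLIntegral_mono' measurableSet_Icc fun r hrI => ?_
        rw [lint_shift]
        exact lintegral_mono_set (hr r hrI)
    _ = _ := by
        rw [lintegral_const, Measure.restrict_apply_univ, Real.volume_Icc, sub_zero, mul_comm]

theorem bm_sub {ψ : ℝ × ℝ → ℝ} {p v : ℝ × ℝ} {ε : ℝ} (h1 : IntegrableOn ψ (closedBall p ε))
    (h2 : IntegrableOn ψ (closedBall (p + v) ε)) :
    bm ε ψ (p + v) - bm ε ψ p = (4 * ε ^ 2)⁻¹ * ∫ u in closedBall p ε, (ψ (u + v) - ψ u) := by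
  unfold bm
  rw [integral_sub (intOn_shift h2) h1, int_shift]; ring

theorem bm_sub_le {ψ : ℝ × ℝ → ℝ} {p v : ℝ × ℝ} {ε : ℝ}
    (h1 : IntegrableOn ψ (closedBall p ε)) (h2 : IntegrableOn ψ (closedBall (p + v) ε))
    {M : ℝ≥0∞} (hM : ∫⁻ u in closedBall p ε, ‖ψ (u + v) - ψ u‖ₑ ≤ M) :
    ‖bm ε ψ (p + v) - bm ε ψ p‖ₑ ≤ ENNReal.ofReal ((4 * ε ^ 2)⁻¹) * M := by
  rw [bm_sub h1 h2, enorm_mul]
  have e1 : ‖(4 * ε ^ 2)⁻¹‖ₑ = ENNReal.ofReal ((4 * ε ^ 2)⁻¹) :=
    Real.enorm_of_nonneg (by positivity)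
  rw [e1]
  gcongr
  exact (enorm_integral_le_lintegral_enorm _).trans hM

theorem bm_congr {ψ Ψ : ℝ × ℝ → ℝ} {p : ℝ × ℝ} {ε : ℝ} {W : Set (ℝ × ℝ)}
    (hE : ∀ᵐ p : ℝ × ℝ, p ∈ W → Ψ p = ψ p) (hp : closedBall p ε ⊆ W) :
    bm ε Ψ p = bm ε ψ p := by
  unfold bm
  congr 1
  refine setIntegral_congr_ae isClosed_closedBall.measurableSet ?_
  filter_upwards [hE] with u hu hup using hu (hp hup)

variable {W : Set (ℝ × ℝ)} {ψ Ψ : ℝ × ℝ → ℝ} {G : ℝ × ℝ → ℝ≥0∞} {ε : ℝ}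

theorem lint_Icc_shift (g : ℝ → ℝ≥0∞) (x t : ℝ) :
    ∫⁻ s in Icc x (x + t), g s = ∫⁻ r in Icc 0 t, g (x + r) := by
  rw [← lintegral_indicator measurableSet_Icc, ← lintegral_indicator measurableSet_Icc,
    ← lintegral_add_left_eq_self _ x]
  congr 1; ext u
  by_cases hu : u ∈ Icc 0 t
  · rw [indicator_of_mem hu, indicator_of_mem]
    exact ⟨by linarith [hu.1], by linarith [hu.2]⟩
  · rw [indicator_of_notMem hu, indicator_of_notMem]
    exact fun hc => hu ⟨by linarith [hc.1], by linarith [hc.2]⟩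

/-- horizontal shift -/
theorem bm_h (L : LineB W ψ Ψ G) (hG : Measurable G) {p z : ℝ × ℝ} {t : ℝ} (ht : 0 ≤ t)
    (hz : closedBall z (3 * ε) ⊆ W) (hi : IntegrableOn ψ (closedBall z (3 * ε)))
    (hr : ∀ r ∈ Icc 0 t, closedBall (p + r • ((1, 0) : ℝ × ℝ)) ε ⊆ closedBall z (3 * ε)) :
    ‖bm ε ψ (p + t • ((1, 0) : ℝ × ℝ)) - bm ε ψ p‖ₑ ≤
      ENNReal.ofReal ((4 * ε ^ 2)⁻¹) * (ENNReal.ofReal t * ∫⁻ u in closedBall z (3 * ε), G u) := by
  have hp0 : closedBall p ε ⊆ closedBall z (3 * ε) := by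
    have := hr 0 ⟨le_rfl, ht⟩
    rwa [zero_smul, add_zero] at this
  have hpt := hr t ⟨ht, le_rfl⟩
  have e0 : bm ε Ψ p = bm ε ψ p := bm_congr L.E (hp0.trans hz)
  have e1 : bm ε Ψ (p + t • ((1, 0) : ℝ × ℝ)) = bm ε ψ (p + t • ((1, 0) : ℝ × ℝ)) :=
    bm_congr L.E (hpt.trans hz)
  have hi' : IntegrableOn Ψ (closedBall z (3 * ε)) := by
    refine hi.congr ?_
    rw [EventuallyEq, ae_restrict_iff' isClosed_closedBall.measurableSet]
    filter_upwards [L.E] with u hu huz using (hu (hz huz)).symm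
  rw [← e0, ← e1]
  refine bm_sub_le (hi'.mono_set hp0) (hi'.mono_set hpt) (shift_le hG ?_ hr)
  filter_upwards [ae_snd' L.H] with u hu hup
  have h1 : u + t • ((1, 0) : ℝ × ℝ) = (u.1 + t, u.2) := by ext <;> simp
  have h2 : ∀ r : ℝ, u + r • ((1, 0) : ℝ × ℝ) = (u.1 + r, u.2) := fun r => by ext <;> simp
  have h3 := hu u.1 (u.1 + t) (by linarith) (by
    intro s hs
    have hm : u + (s - u.1) • ((1, 0) : ℝ × ℝ) ∈ closedBall (p + (s - u.1) • ((1, 0) : ℝ × ℝ)) ε := by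
      rw [mem_closedBall, dist_add_right]; exact hup
    have := hz (hr (s - u.1) ⟨by linarith [hs.1], by linarith [hs.2]⟩ hm)
    rwa [h2, add_sub_cancel] at this)
  rw [h1]
  refine h3.trans (le_of_eq ?_)
  rw [lint_Icc_shift]
  simp only [h2]

/-- vertical shift -/
theorem bm_v (L : LineB W ψ Ψ G) (hG : Measurable G) {p z : ℝ × ℝ} {t : ℝ} (ht : 0 ≤ t)
    (hz : closedBall z (3 * ε) ⊆ W) (hi : IntegrableOn ψ (closedBall z (3 * ε)))
    (hr : ∀ r ∈ Icc 0 t, closedBall (p + r • ((0, 1) : ℝ × ℝ)) ε ⊆ closedBall z (3 * ε)) :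
    ‖bm ε ψ (p + t • ((0, 1) : ℝ × ℝ)) - bm ε ψ p‖ₑ ≤
      ENNReal.ofReal ((4 * ε ^ 2)⁻¹) * (ENNReal.ofReal t * ∫⁻ u in closedBall z (3 * ε), G u) := by
  have hp0 : closedBall p ε ⊆ closedBall z (3 * ε) := by
    have := hr 0 ⟨le_rfl, ht⟩
    rwa [zero_smul, add_zero] at this
  have hpt := hr t ⟨ht, le_rfl⟩
  refine bm_sub_le (hi.mono_set hp0) (hi.mono_set hpt) (shift_le hG ?_ hr)
  filter_upwards [ae_fst' L.V] with u hu hup
  have h1 : u + t • ((0, 1) : ℝ × ℝ) = (u.1, u.2 + t) := by ext <;> simp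
  have h2 : ∀ r : ℝ, u + r • ((0, 1) : ℝ × ℝ) = (u.1, u.2 + r) := fun r => by ext <;> simp
  have h3 := hu u.2 (u.2 + t) (by linarith) (by
    intro s hs
    have hm : u + (s - u.2) • ((0, 1) : ℝ × ℝ) ∈ closedBall (p + (s - u.2) • ((0, 1) : ℝ × ℝ)) ε := by
      rw [mem_closedBall, dist_add_right]; exact hup
    have := hz (hr (s - u.2) ⟨by linarith [hs.1], by linarith [hs.2]⟩ hm)
    rwa [h2, add_sub_cancel] at this)
  rw [h1]
  refine h3.trans (le_of_eq ?_)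
  rw [lint_Icc_shift]
  simp only [h2]

theorem cb_cb {p z : ℝ × ℝ} {ε : ℝ} (hp : p ∈ closedBall z (2 * ε)) :
    closedBall p ε ⊆ closedBall z (3 * ε) :=
  closedBall_subset_closedBall' (by rw [mem_closedBall] at hp; linarith)

theorem mem_cb_iff {p z : ℝ × ℝ} {r : ℝ} :
    p ∈ closedBall z r ↔ |p.1 - z.1| ≤ r ∧ |p.2 - z.2| ≤ r := by
  rw [mem_closedBall, Prod.dist_eq, max_le_iff, Real.dist_eq, Real.dist_eq]

/-- (O1), horizontal -/
theorem O1h (L : LineB W ψ Ψ G) (hG : Measurable G) {z : ℝ × ℝ} {x x' y : ℝ}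
    (hz : closedBall z (3 * ε) ⊆ W) (hi : IntegrableOn ψ (closedBall z (3 * ε)))
    (hp : ((x, y) : ℝ × ℝ) ∈ closedBall z (2 * ε)) (hp' : ((x', y) : ℝ × ℝ) ∈ closedBall z (2 * ε)) :
    ‖bm ε ψ (x', y) - bm ε ψ (x, y)‖ₑ ≤
      ENNReal.ofReal ((4 * ε ^ 2)⁻¹) *
        (ENNReal.ofReal |x' - x| * ∫⁻ u in closedBall z (3 * ε), G u) := by
  wlog hxx : x ≤ x' generalizing x x'
  · have := this hp' hp (le_of_not_ge hxx)
    rwa [← enorm_neg, neg_sub, abs_sub_comm] at this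
  have e1 : ((x, y) : ℝ × ℝ) + (x' - x) • ((1, 0) : ℝ × ℝ) = (x', y) := by ext <;> simp
  rw [← e1, abs_of_nonneg (by linarith)]
  refine bm_h L hG (by linarith) hz hi fun r hr => cb_cb ?_
  have e2 : ((x, y) : ℝ × ℝ) + r • ((1, 0) : ℝ × ℝ) = (x + r, y) := by ext <;> simp
  rw [e2]
  rw [mem_cb_iff] at hp hp' ⊢
  refine ⟨?_, hp.2⟩
  have h1 := abs_le.mp hp.1
  have h2 := abs_le.mp hp'.1
  simp only at h1 h2 ⊢
  rw [abs_le]
  constructor <;> linarith [hr.1, hr.2]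

/-- (O1), vertical -/
theorem O1v (L : LineB W ψ Ψ G) (hG : Measurable G) {z : ℝ × ℝ} {x y y' : ℝ}
    (hz : closedBall z (3 * ε) ⊆ W) (hi : IntegrableOn ψ (closedBall z (3 * ε)))
    (hp : ((x, y) : ℝ × ℝ) ∈ closedBall z (2 * ε)) (hp' : ((x, y') : ℝ × ℝ) ∈ closedBall z (2 * ε)) :
    ‖bm ε ψ (x, y') - bm ε ψ (x, y)‖ₑ ≤
      ENNReal.ofReal ((4 * ε ^ 2)⁻¹) *
        (ENNReal.ofReal |y' - y| * ∫⁻ u in closedBall z (3 * ε), G u) := by
  wlog hxx : y ≤ y' generalizing y y'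
  · have := this hp' hp (le_of_not_ge hxx)
    rwa [← enorm_neg, neg_sub, abs_sub_comm] at this
  have e1 : ((x, y) : ℝ × ℝ) + (y' - y) • ((0, 1) : ℝ × ℝ) = (x, y') := by ext <;> simp
  rw [← e1, abs_of_nonneg (by linarith)]
  refine bm_v L hG (by linarith) hz hi fun r hr => cb_cb ?_
  have e2 : ((x, y) : ℝ × ℝ) + r • ((0, 1) : ℝ × ℝ) = (x, y + r) := by ext <;> simp
  rw [e2]
  rw [mem_cb_iff] at hp hp' ⊢
  refine ⟨hp.1, ?_⟩
  have h1 := abs_le.mp hp.2
  have h2 := abs_le.mp hp'.2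
  simp only at h1 h2 ⊢
  rw [abs_le]
  constructor <;> linarith [hr.1, hr.2]

/-- **(O1)** -/
theorem O1 (L : LineB W ψ Ψ G) (hG : Measurable G) (hε : 0 < ε) {z p p' : ℝ × ℝ}
    (hz : closedBall z (3 * ε) ⊆ W) (hi : IntegrableOn ψ (closedBall z (3 * ε)))
    (hp : p ∈ closedBall z (2 * ε)) (hp' : p' ∈ closedBall z (2 * ε)) :
    ‖bm ε ψ p' - bm ε ψ p‖ₑ ≤ ENNReal.ofReal (dist p' p / 2) * H ε G z := by
  obtain ⟨x, y⟩ := p
  obtain ⟨x', y'⟩ := p'
  have hm : ((x', y) : ℝ × ℝ) ∈ closedBall z (2 * ε) := by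
    rw [mem_cb_iff] at hp hp' ⊢
    exact ⟨hp'.1, hp.2⟩
  have h1 := O1h L hG hz hi hp hm
  have h2 := O1v L hG hz hi hm hp'
  have e1 : bm ε ψ (x', y') - bm ε ψ (x, y) =
      (bm ε ψ (x', y') - bm ε ψ (x', y)) + (bm ε ψ (x', y) - bm ε ψ (x, y)) := by ring
  rw [e1]
  refine (enorm_add_le _ _).trans ((add_le_add h2 h1).trans ?_)
  set I := ∫⁻ u in closedBall z (3 * ε), G u with hI
  have hd1 : |x' - x| ≤ dist ((x', y') : ℝ × ℝ) (x, y) := by
    rw [← Real.dist_eq, Prod.dist_eq]; exact le_max_left _ _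
  have hd2 : |y' - y| ≤ dist ((x', y') : ℝ × ℝ) (x, y) := by
    rw [← Real.dist_eq, Prod.dist_eq]; exact le_max_right _ _
  set d := dist ((x', y') : ℝ × ℝ) (x, y) with hd
  have hd0 : 0 ≤ d := dist_nonneg
  calc ENNReal.ofReal ((4 * ε ^ 2)⁻¹) * (ENNReal.ofReal |y' - y| * I) +
        ENNReal.ofReal ((4 * ε ^ 2)⁻¹) * (ENNReal.ofReal |x' - x| * I)
      ≤ ENNReal.ofReal ((4 * ε ^ 2)⁻¹) * (ENNReal.ofReal d * I) +
        ENNReal.ofReal ((4 * ε ^ 2)⁻¹) * (ENNReal.ofReal d * I) := by gcongr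
    _ = ENNReal.ofReal (d / 2) * H ε G z := by
        unfold H
        rw [← hI, ← ENNReal.ofReal_inv_of_pos (by positivity), ← mul_assoc, ← mul_assoc, ← add_mul,
          ← ENNReal.ofReal_mul (by positivity), ← ENNReal.ofReal_mul (by positivity),
          ← ENNReal.ofReal_add (by positivity) (by positivity)]
        congr 2
        field_simp; ring

end

end Crest.Agent.R105.Mq_347
end

-- ▼ part R105/Mq5_347

/-! Row 105, S0138, NI-10: MOLLQ, part C: oscillation of the box mean on the squares. -/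

open MeasureTheory Set Metric Filter Topology
open scoped ENNReal Function

namespace Crest.Agent.R105.Mq_347

noncomputable section

variable {ι : Type*} {c : ι → ℝ × ℝ} {h : ι → ℝ} {μ : ι → Measure (ℝ × ℝ)}
variable {W : Set (ℝ × ℝ)} {ψ Ψ : ℝ × ℝ → ℝ} {G : ℝ × ℝ → ℝ≥0∞} {ε : ℝ}

theorem sq2 (a b : ℝ≥0∞) : (a + b) ^ 2 ≤ 2 * (a ^ 2 + b ^ 2) := by
  have h := cs_tsum (ι := Fin 2) (f := fun _ => 1) (g := ![a, b])
  simp only [tsum_fintype, Fin.sum_univ_two] at h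
  simpa [mul_add, show (1 : ℝ≥0∞) + 1 = 2 by norm_num] using h

theorem measurable_H2 (hG : Measurable G) (ε : ℝ) : Measurable fun z => H ε G z ^ 2 :=
  (measurable_H hG ε).pow_const 2

/-- constant bounded by a multiple of `H` on a set -/
theorem const_le_lint {a : ℝ≥0∞} {S : Set (ℝ × ℝ)} (hSm : MeasurableSet S) {r k : ℝ}
    (hk : 0 ≤ k) (h : ∀ z ∈ S, a ≤ ENNReal.ofReal k * H ε G z) (hG : Measurable G)
    (hS : volume S = ENNReal.ofReal (4 * r ^ 2)) :
    ENNReal.ofReal (4 * r ^ 2) * a ^ 2 ≤ ENNReal.ofReal (k ^ 2) * ∫⁻ z in S, H ε G z ^ 2 := by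
  rw [← hS, mul_comm, ← Measure.restrict_apply_univ S, ← lintegral_const,
    ← lintegral_const_mul _ (measurable_H2 hG ε)]
  refine setLIntegral_mono' hSm fun z hz => ?_
  calc a ^ 2 ≤ (ENNReal.ofReal k * H ε G z) ^ 2 := by gcongr; exact h z hz
    _ = ENNReal.ofReal (k ^ 2) * H ε G z ^ 2 := by
      rw [mul_pow, ENNReal.ofReal_pow hk]

/-- small squares are in `NQ` -/
theorem small_sub_NQ (hd : Pairwise (Disjoint on fun i => closedBall (c i) (h i)))
    {i : ι} (hi : h i ≤ ε) (hε : 0 < ε) : closedBall (c i) (h i) ⊆ NQ c h ε := by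
  intro z hz j hj
  have hne : i ≠ j := by rintro rfl; linarith
  have h1 := Set.disjoint_left.mp (hd hne) hz
  simp only [mem_closedBall, not_le] at h1
  linarith

/-- **(O3), small squares** -/
theorem small_osc (L : LineB W ψ Ψ G) (hG : Measurable G) (hε : 0 < ε)
    (hi : ∀ z r, closedBall z r ⊆ W → IntegrableOn ψ (closedBall z r)) {a : ℝ × ℝ} {η : ℝ}
    (hη : 0 < η) (hηε : η ≤ ε) {p q : ℝ × ℝ} (hp : p ∈ closedBall a η) (hq : q ∈ closedBall a η)
    (hpW : closedBall p (6 * ε) ⊆ W) :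
    4 * ‖bm ε ψ q - bm ε ψ p‖ₑ ^ 2 ≤ ∫⁻ z in closedBall a η, H ε G z ^ 2 := by
  have h1 : ∀ z ∈ closedBall a η, ‖bm ε ψ q - bm ε ψ p‖ₑ ≤ ENNReal.ofReal η * H ε G z := by
    intro z hz
    have hpq : dist q p ≤ 2 * η := by
      rw [mem_closedBall] at hp hq
      linarith [dist_triangle_right q p a]
    have hpz : dist p z ≤ 2 * η := by
      rw [mem_closedBall] at hp hz
      linarith [dist_triangle_right p z a]
    have hqz : dist q z ≤ 2 * η := by
      rw [mem_closedBall] at hq hz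
      linarith [dist_triangle_right q z a]
    have hzW : closedBall z (3 * ε) ⊆ W := by
      refine (closedBall_subset_closedBall' ?_).trans hpW
      rw [dist_comm]; linarith
    refine (O1 L hG hε hzW (hi _ _ hzW) (p := p) (p' := q)
      (by rw [mem_closedBall]; linarith) (by rw [mem_closedBall]; linarith)).trans ?_
    gcongr
    linarith
  have h2 := const_le_lint (r := η) isClosed_closedBall.measurableSet hη.le h1 hG
    (vol_cb a hη.le)
  have h3 : ENNReal.ofReal (4 * η ^ 2) = ENNReal.ofReal (η ^ 2) * 4 := by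
    rw [mul_comm, ENNReal.ofReal_mul (by positivity)]; norm_num
  rw [h3, mul_assoc] at h2
  exact (ENNReal.mul_le_mul_iff_right (by simp; positivity) ENNReal.ofReal_ne_top).mp h2

/-- the part of `∫ H²` near the square `i` -/
def TT (c : ι → ℝ × ℝ) (h : ι → ℝ) (ε : ℝ) (G : ℝ × ℝ → ℝ≥0∞) (i : ι) : ℝ≥0∞ :=
  ∫⁻ z in NQ c h ε ∩ closedBall (c i) (h i + ε), H ε G z ^ 2

theorem bm_const_le {m o : ℝ} {w : ℝ × ℝ} (hε : 0 < ε)
    (hi : IntegrableOn ψ (closedBall w ε))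
    (hm : ∀ᵐ p : ℝ × ℝ, p ∈ closedBall w ε → |ψ p - m| ≤ o) : |bm ε ψ w - m| ≤ o := by
  have hvol : (volume : Measure (ℝ × ℝ)).real (closedBall w ε) = 4 * ε ^ 2 := by
    rw [Measure.real, vol_cb w hε.le, ENNReal.toReal_ofReal (by positivity)]
  have hfin : volume (closedBall w ε) ≠ ∞ := by rw [vol_cb w hε.le]; exact ENNReal.ofReal_ne_top
  have hpos : 0 < 4 * ε ^ 2 := by positivity
  have e1 : bm ε ψ w - m = (4 * ε ^ 2)⁻¹ * ∫ u in closedBall w ε, (ψ u - m) := by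
    rw [integral_sub hi (integrableOn_const hfin), setIntegral_const, hvol, smul_eq_mul]
    unfold bm
    field_simp
  have e2 : |∫ u in closedBall w ε, (ψ u - m)| ≤ o * (4 * ε ^ 2) := by
    rw [← Real.norm_eq_abs, ← hvol]
    refine norm_setIntegral_le_of_norm_le_const_ae' hfin.lt_top ?_
    filter_upwards [hm] with p hp hpw
    rw [Real.norm_eq_abs]; exact hp hpw
  rw [e1, abs_mul, abs_of_pos (inv_pos.mpr hpos), inv_mul_le_iff₀ hpos]
  linarith

/-- **(O3), big squares** -/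
theorem big_osc (L : LineB W ψ Ψ G) (hG : Measurable G) (hε : 0 < ε)
    (hd : Pairwise (Disjoint on fun i => closedBall (c i) (h i)))
    (hi : ∀ z r, closedBall z r ⊆ W → IntegrableOn ψ (closedBall z r)) {i : ι}
    (hbig : ε < h i) {m o : ℝ} (ho : 0 ≤ o)
    (hm : ∀ᵐ p : ℝ × ℝ, p ∈ closedBall (c i) (h i) → |ψ p - m| ≤ o)
    {p : ℝ × ℝ} (hp : p ∈ closedBall (c i) (h i)) (hpW : closedBall p (6 * ε) ⊆ W) :
    8 * ‖bm ε ψ p - m‖ₑ ^ 2 ≤ 16 * ENNReal.ofReal (o ^ 2) + TT c h ε G i := by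
  by_cases hdeep : dist p (c i) ≤ h i - ε
  · have hsub : closedBall p ε ⊆ closedBall (c i) (h i) :=
      closedBall_subset_closedBall' (by linarith)
    have h1 : |bm ε ψ p - m| ≤ o := by
      refine bm_const_le hε (hi _ _ ((closedBall_subset_closedBall (by linarith)).trans hpW)) ?_
      filter_upwards [hm] with u hu hup using hu (hsub hup)
    have h2 : ‖bm ε ψ p - m‖ₑ ^ 2 ≤ ENNReal.ofReal (o ^ 2) := by
      rw [ENNReal.ofReal_pow ho, Real.enorm_eq_ofReal_abs]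
      gcongr
    calc 8 * ‖bm ε ψ p - m‖ₑ ^ 2 ≤ 16 * ENNReal.ofReal (o ^ 2) := by
          gcongr
          norm_num
      _ ≤ _ := le_self_add
  · push Not at hdeep
    obtain ⟨w, hw1, hw2, hw3⟩ := sub_box hε hbig hp
    have hwW : closedBall w ε ⊆ W := by
      refine (closedBall_subset_closedBall' ?_).trans hpW
      linarith
    have h1 : |bm ε ψ w - m| ≤ o := by
      refine bm_const_le hε (hi _ _ hwW) ?_
      filter_upwards [hm] with u hu hup using hu (hw1 hup)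
    have hsub : closedBall p ε ⊆ NQ c h ε ∩ closedBall (c i) (h i + ε) := by
      intro z hz
      refine ⟨fun j hj => ?_, closedBall_subset_closedBall' (by
        rw [mem_closedBall] at hp; linarith) hz⟩
      rw [mem_closedBall] at hz
      have h3 := dist_triangle p z (c j)
      rw [dist_comm p z] at h3
      by_cases hij : i = j
      · subst hij; linarith
      · have h4 := Set.disjoint_left.mp (hd hij) hp
        simp only [mem_closedBall, not_le] at h4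
        linarith
    have h2 : ∀ z ∈ closedBall p ε, ‖bm ε ψ p - bm ε ψ w‖ₑ ≤ ENNReal.ofReal (ε / 2) * H ε G z := by
      intro z hz
      rw [mem_closedBall] at hz
      have hzW : closedBall z (3 * ε) ⊆ W := by
        refine (closedBall_subset_closedBall' ?_).trans hpW
        linarith
      have hwz : dist w z ≤ 2 * ε := by
        have := dist_triangle w p z
        rw [dist_comm p z] at this
        linarith
      refine (O1 L hG hε hzW (hi _ _ hzW) (p := w) (p' := p)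
        (by rw [mem_closedBall]; exact hwz) (by rw [mem_closedBall, dist_comm]; linarith)).trans ?_
      gcongr
      rw [dist_comm]; exact hw2
    have h3 := const_le_lint (r := ε) isClosed_closedBall.measurableSet (by positivity) h2 hG
      (vol_cb p hε.le)
    have e3 : ENNReal.ofReal (4 * ε ^ 2) = ENNReal.ofReal ((ε / 2) ^ 2) * 16 := by
      rw [show 4 * ε ^ 2 = (ε / 2) ^ 2 * 16 by ring, ENNReal.ofReal_mul (by positivity)]; norm_num
    rw [e3, mul_assoc] at h3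
    have h4 : 16 * ‖bm ε ψ p - bm ε ψ w‖ₑ ^ 2 ≤ TT c h ε G i := by
      refine ((ENNReal.mul_le_mul_iff_right (by simp; positivity)
        ENNReal.ofReal_ne_top).mp h3).trans ?_
      exact lintegral_mono_set hsub
    have h5 : ‖bm ε ψ w - m‖ₑ ^ 2 ≤ ENNReal.ofReal (o ^ 2) := by
      rw [ENNReal.ofReal_pow ho, Real.enorm_eq_ofReal_abs]
      gcongr
    have h6 : ‖bm ε ψ p - m‖ₑ ≤ ‖bm ε ψ p - bm ε ψ w‖ₑ + ‖bm ε ψ w - m‖ₑ := by
      have : bm ε ψ p - m = (bm ε ψ p - bm ε ψ w) + (bm ε ψ w - m) := by ring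
      rw [this]; exact enorm_add_le _ _
    have h7 : ‖bm ε ψ p - m‖ₑ ^ 2 ≤ 2 * (‖bm ε ψ p - bm ε ψ w‖ₑ ^ 2 + ‖bm ε ψ w - m‖ₑ ^ 2) :=
      le_trans (by gcongr) (sq2 _ _)
    calc 8 * ‖bm ε ψ p - m‖ₑ ^ 2 ≤
          8 * (2 * (‖bm ε ψ p - bm ε ψ w‖ₑ ^ 2 + ‖bm ε ψ w - m‖ₑ ^ 2)) := by gcongr
      _ = 16 * ‖bm ε ψ w - m‖ₑ ^ 2 + 16 * ‖bm ε ψ p - bm ε ψ w‖ₑ ^ 2 := by ring
      _ ≤ _ := by gcongr

/-- bound of the oscillation of the mean on the square `i` -/
def BB (c : ι → ℝ × ℝ) (h : ι → ℝ) (o : ι → ℝ) (ε : ℝ) (G : ℝ × ℝ → ℝ≥0∞) (i : ι) : ℝ≥0∞ :=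
  32 * ENNReal.ofReal (o i ^ 2) + 2 * (if ε < h i then TT c h ε G i else 0) +
    (if h i ≤ ε then ∫⁻ z in closedBall (c i) (h i), H ε G z ^ 2 else 0)

/-- **(O3)** -/
theorem osc_le (L : LineB W ψ Ψ G) (hG : Measurable G) (hε : 0 < ε) (hh : ∀ i, 0 < h i)
    (hd : Pairwise (Disjoint on fun i => closedBall (c i) (h i)))
    (hi : ∀ z r, closedBall z r ⊆ W → IntegrableOn ψ (closedBall z r)) {o : ι → ℝ}
    (ho : ∀ i, 0 ≤ o i)
    (hm : ∀ i, ∃ m, ∀ᵐ p : ℝ × ℝ, p ∈ closedBall (c i) (h i) → |ψ p - m| ≤ o i) (i : ι)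
    {p q : ℝ × ℝ} (hp : p ∈ closedBall (c i) (h i)) (hq : q ∈ closedBall (c i) (h i))
    (hpW : closedBall p (6 * ε) ⊆ W) (hqW : closedBall q (6 * ε) ⊆ W) :
    4 * ‖bm ε ψ q - bm ε ψ p‖ₑ ^ 2 ≤ BB c h o ε G i := by
  unfold BB
  rcases le_or_gt (h i) ε with hs | hb
  · have h1 := small_osc L hG hε hi (hh i) hs hp hq hpW
    rw [if_pos hs]
    exact h1.trans le_add_self
  · rw [if_pos hb]
    obtain ⟨m, hm⟩ := hm i
    have h1 := big_osc L hG hε hd hi hb (ho i) hm hp hpW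
    have h2 := big_osc L hG hε hd hi hb (ho i) hm hq hqW
    have e : bm ε ψ q - bm ε ψ p = (bm ε ψ q - m) + (m - bm ε ψ p) := by ring
    have h3 : ‖bm ε ψ q - bm ε ψ p‖ₑ ≤ ‖bm ε ψ q - m‖ₑ + ‖bm ε ψ p - m‖ₑ := by
      rw [e]
      refine (enorm_add_le _ _).trans ?_
      rw [← enorm_neg (m - bm ε ψ p), neg_sub]
    have h4 : ‖bm ε ψ q - bm ε ψ p‖ₑ ^ 2 ≤
        2 * (‖bm ε ψ q - m‖ₑ ^ 2 + ‖bm ε ψ p - m‖ₑ ^ 2) := le_trans (by gcongr) (sq2 _ _)
    refine le_trans ?_ le_self_add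
    calc 4 * ‖bm ε ψ q - bm ε ψ p‖ₑ ^ 2 ≤
          4 * (2 * (‖bm ε ψ q - m‖ₑ ^ 2 + ‖bm ε ψ p - m‖ₑ ^ 2)) := by gcongr
      _ = 8 * ‖bm ε ψ q - m‖ₑ ^ 2 + 8 * ‖bm ε ψ p - m‖ₑ ^ 2 := by ring
      _ ≤ (16 * ENNReal.ofReal (o i ^ 2) + TT c h ε G i) +
          (16 * ENNReal.ofReal (o i ^ 2) + TT c h ε G i) := by gcongr
      _ = _ := by ring

/-- the sum over the squares -/
theorem sum_BB [Countable ι] (hG : Measurable G) (hε : 0 < ε)
    (hd : Pairwise (Disjoint on fun i => closedBall (c i) (h i))) (o : ι → ℝ) :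
    ∑' i, BB c h o ε G i ≤
      32 * (∑' i, ENNReal.ofReal (o i ^ 2)) + 51 * ∫⁻ z in NQ c h ε, H ε G z ^ 2 := by
  set A := ∫⁻ z in NQ c h ε, H ε G z ^ 2 with hA
  have hNQ := measurableSet_NQ c h ε
  have hHm := measurable_H2 hG ε
  have k1 : ∑' i, (if h i ≤ ε then ∫⁻ z in closedBall (c i) (h i), H ε G z ^ 2 else 0) ≤ A := by
    have e1 : ∀ i, (if h i ≤ ε then ∫⁻ z in closedBall (c i) (h i), H ε G z ^ 2 else 0) =
        ∫⁻ z in (if h i ≤ ε then closedBall (c i) (h i) else ∅), H ε G z ^ 2 := by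
      intro i; split_ifs <;> simp
    simp_rw [e1]
    rw [← lintegral_iUnion]
    · refine lintegral_mono_set (iUnion_subset fun i => ?_)
      split_ifs with hs
      · exact small_sub_NQ hd hs hε
      · exact empty_subset _
    · intro i
      split_ifs
      · exact isClosed_closedBall.measurableSet
      · exact MeasurableSet.empty
    · intro i j hij
      simp only [Function.onFun]
      split_ifs
      · exact hd hij
      · exact disjoint_bot_right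
      · exact disjoint_bot_left
      · exact disjoint_bot_left
  have k2 : ∑' i, (if ε < h i then TT c h ε G i else 0) ≤ 25 * A := by
    set g : ι → ℝ × ℝ → ℝ≥0∞ := fun i =>
      (if ε < h i then closedBall (c i) (h i + ε) else ∅ : Set (ℝ × ℝ)).indicator
        fun z => H ε G z ^ 2 with hg
    have hgm : ∀ i, Measurable (g i) := by
      intro i
      refine hHm.indicator ?_
      split_ifs
      · exact isClosed_closedBall.measurableSet
      · exact MeasurableSet.empty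
    have e1 : ∀ i, (if ε < h i then TT c h ε G i else 0) = ∫⁻ z in NQ c h ε, g i z := by
      intro i
      simp only [hg]
      split_ifs with hb
      · rw [setLIntegral_indicator isClosed_closedBall.measurableSet, inter_comm]; rfl
      · simp
    simp_rw [e1]
    rw [← lintegral_tsum fun i => (hgm i).aemeasurable, hA, ← lintegral_const_mul _ hHm]
    refine lintegral_mono fun z => ?_
    have e2 : ∀ i, g i z ≤ {i | ε < h i ∧
        (closedBall z (3 * ε) ∩ closedBall (c i) (h i)).Nonempty}.indicator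
          (fun _ => (1 : ℝ≥0∞)) i * H ε G z ^ 2 := by
      intro i
      simp only [hg]
      by_cases hb : ε < h i
      · rw [if_pos hb]
        by_cases hz : z ∈ closedBall (c i) (h i + ε)
        · obtain ⟨w, -, hw2, hw3⟩ := sub_box hε (show ε < h i + ε by linarith) hz
          have hmem : i ∈ {i | ε < h i ∧
              (closedBall z (3 * ε) ∩ closedBall (c i) (h i)).Nonempty} :=
            ⟨hb, w, by rw [mem_closedBall]; linarith, by rw [mem_closedBall]; linarith⟩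
          rw [indicator_of_mem hz, indicator_of_mem hmem, one_mul]
        · rw [indicator_of_notMem hz]; exact zero_le
      · rw [if_neg hb]; simp
    calc ∑' i, g i z ≤ ∑' i, {i | ε < h i ∧
        (closedBall z (3 * ε) ∩ closedBall (c i) (h i)).Nonempty}.indicator
          (fun _ => (1 : ℝ≥0∞)) i * H ε G z ^ 2 := ENNReal.tsum_le_tsum e2
      _ = (∑' i, {i | ε < h i ∧
        (closedBall z (3 * ε) ∩ closedBall (c i) (h i)).Nonempty}.indicator
          (fun _ => (1 : ℝ≥0∞)) i) * H ε G z ^ 2 := ENNReal.tsum_mul_right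
      _ ≤ 25 * H ε G z ^ 2 := by gcongr; exact card25 hd hε z
  calc ∑' i, BB c h o ε G i = 32 * (∑' i, ENNReal.ofReal (o i ^ 2)) +
        2 * (∑' i, (if ε < h i then TT c h ε G i else 0)) +
        ∑' i, (if h i ≤ ε then ∫⁻ z in closedBall (c i) (h i), H ε G z ^ 2 else 0) := by
        unfold BB
        rw [ENNReal.tsum_add, ENNReal.tsum_add, ENNReal.tsum_mul_left, ENNReal.tsum_mul_left]
    _ ≤ 32 * (∑' i, ENNReal.ofReal (o i ^ 2)) + 2 * (25 * A) + A := by gcongr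
    _ = _ := by ring

end

end Crest.Agent.R105.Mq_347
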