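import Crest.Agent.R105.Jex3_987
import Crest.Agent.R105.Nod6_281
import Crest.Agent.R105.Mq5_347
import Crest.Agent.R105.Psq0_425
import Crest.Agent.R105.Mq4_347
import Crest.Agent.R105.Gl2_363
import Crest.Agent.R105.SqJb_361
import Crest.Agent.R105.SqJd_361
import Crest.Agent.R105.Kbx2_247
import Crest.Agent.R105.Psi12_425
import Crest.Agent.R105.SqC2_832
import Crest.Agent.R105.Psq8_425
import Crest.Agent.R105.Ins2_306_Mg

-- ▼ part R105/Jex4_987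
section

/-!
# Row 105, S0138: the top with 281's `hco_of` (helper987)

Open: `LEMAQ StrQ` (425), `ATNo Ext` (ends at solids lie in the square) and `ENDo Ext` (all ends at a
flat component coincide).
-/

set_option autoImplicit false

open MeasureTheory Set Filter Topology Metric
open scoped NNReal ENNReal

namespace Crest.Agent.R105.Jex_987

open Crest.AnalysisR
open SkT1_137 (LEMAQ)
open Psq_425 (StrQ)
open Nod_281 (ENDo ENDLo)

/-- **S0138 from `LEMAQ StrQ`, `ATNo Ext`, `ENDo Ext`** -/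
theorem s0138_end (hA : LEMAQ StrQ) (hN : ATNo Ext) (hE : ENDo Ext)
    (U : Set ℂ) (hU : IsExteriorDomain U) :
    ∃ f : ℂ → ℂ, DifferentiableOn ℂ f U ∧ Set.InjOn f U ∧
      Filter.Tendsto f (Filter.cocompact ℂ) (Filter.cocompact ℂ) ∧
      IsCircleDomainFinitePart (f '' U) :=
  s0138_e13 hA (Nod_281.hco_of lyo_ext hN hE) hN U hU


end Crest.Agent.R105.Jex_987
end

-- ▼ part R105/Mq6_347
section

/-! Row 105, S0138, NI-10: MOLLQ, part D: a function with line formulas and local flow bounds is, after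
a Lipschitz cut-off, a limit of planar Lipschitz functions with bounded energy. -/

set_option autoImplicit false

open MeasureTheory Set Metric Filter Topology
open scoped ENNReal NNReal Function

namespace Crest.Agent.R105.Mq_347

open Crest.Agent.R105.CF_363 Crest.Agent.R105.Stp_722 Crest.Agent.R105.Cq_463
open Crest.Agent.R105.Psq_425

/-- centre of a square -/
noncomputable def cen (Q : Sqr) : ℝ × ℝ := (Q.x + Q.s / 2, Q.y + Q.s / 2)

theorem car_eq (Q : Sqr) : Q.car = closedBall (cen Q) (Q.s / 2) := by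
  ext p
  rw [Sqr.mem_car, mem_cb_iff]
  simp only [cen]
  constructor
  · rintro ⟨⟨h1, h2⟩, h3, h4⟩
    exact ⟨abs_le.mpr ⟨by linarith, by linarith⟩, abs_le.mpr ⟨by linarith, by linarith⟩⟩
  · rintro ⟨h1, h2⟩
    have h1 := abs_le.mp h1
    have h2 := abs_le.mp h2
    exact ⟨⟨by linarith [h1.1], by linarith [h1.2]⟩, ⟨by linarith [h2.1], by linarith [h2.2]⟩⟩

/-- the squares in `W` -/
abbrev SqIn (𝒬 : Set Sqr) (W : Set (ℝ × ℝ)) : Type := {Q : Sqr // Q ∈ 𝒬 ∧ Q.car ⊆ W}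

/-- the data of the approximation theorem -/
structure Aps (E W : Set (ℝ × ℝ)) (𝒬 : Set Sqr) (f ψ Ψ : ℝ × ℝ → ℝ) (G : ℝ × ℝ → ℝ≥0∞)
    (μ : Sqr → Measure (ℝ × ℝ)) (o : Sqr → ℝ) : Prop where
  hW : IsOpen W
  alt : ∀ Q ∈ 𝒬, Q.car ⊆ W ∨ Disjoint Q.car W
  mG : Measurable G
  G1 : ∫⁻ z in W, G z ≠ ∞
  G2 : ∫⁻ z in W \ E, G z ^ 2 ≠ ∞
  L : LineB W ψ Ψ G
  int : ∀ z r, closedBall z r ⊆ W → IntegrableOn ψ (closedBall z r)
  cont : ContinuousOn f (W \ E)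
  eq : ∀ᵐ p : ℝ × ℝ, p ∈ W \ E → ψ p = f p
  fin : ∀ Q ∈ 𝒬, Q.car ⊆ W → IsFiniteMeasure (μ Q)
  flx : ∀ Q ∈ 𝒬, Q.car ⊆ W → ∀ z r, 0 < r → Q.s / 2 - r ≤ dist z (cen Q) →
    ∫⁻ u in closedBall z (3 * r) ∩ closedBall (cen Q) (Q.s / 2), G u ≤
      ENNReal.ofReal (12 * r) * μ Q (closedBall z (15 * r))
  μ2 : ∑' i : SqIn 𝒬 W, μ i.1 univ ^ 2 ≠ ∞
  o0 : ∀ Q, 0 ≤ o Q
  o2 : ∑' i : SqIn 𝒬 W, ENNReal.ofReal (o i.1 ^ 2) ≠ ∞
  osc : ∀ Q ∈ 𝒬, Q.car ⊆ W → ∃ m, ∀ᵐ p : ℝ × ℝ, p ∈ closedBall (cen Q) (Q.s / 2) →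
    |ψ p - m| ≤ o Q

variable {E W : Set (ℝ × ℝ)} {𝒬 : Set Sqr} {𝓗 : Set Hair} {f ψ Ψ : ℝ × ℝ → ℝ}
  {G : ℝ × ℝ → ℝ≥0∞} {μ : Sqr → Measure (ℝ × ℝ)} {o : Sqr → ℝ} {ε : ℝ}

theorem Aps.lineB (A : Aps E W 𝒬 f ψ Ψ G μ o) : LineB W ψ Ψ (W.indicator G) where
  H := by
    filter_upwards [A.L.H] with y hy x x' hxx hW
    refine (hy x x' hxx hW).trans (le_of_eq ?_)
    refine setLIntegral_congr_fun measurableSet_Icc fun s hs => ?_
    simp only [indicator_of_mem (hW s hs)]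
  V := by
    filter_upwards [A.L.V] with x hx y y' hyy hW
    refine (hx y y' hyy hW).trans (le_of_eq ?_)
    refine setLIntegral_congr_fun measurableSet_Icc fun s hs => ?_
    simp only [indicator_of_mem (hW s hs)]
  E := A.L.E

theorem Aps.lf (A : Aps E W 𝒬 f ψ Ψ G μ o) :
    LF (fun i : SqIn 𝒬 W => cen i.1) (fun i => i.1.s / 2) (fun i => μ i.1) (W.indicator G) := by
  intro i z r hr hz
  refine le_trans (lintegral_mono fun u => ?_) (A.flx i.1 i.2.1 i.2.2 z r hr hz)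
  exact indicator_le_self _ _ _

theorem SqIn.pos (i : SqIn 𝒬 W) : 0 < i.1.s / 2 := by have := i.1.hs; positivity

theorem SqIn.disj (hE : QPic E 𝒬 𝓗) :
    Pairwise (Disjoint on fun i : SqIn 𝒬 W => closedBall (cen i.1) (i.1.s / 2)) := by
  intro i j hij
  simp only [Function.onFun]
  rw [← car_eq, ← car_eq]
  exact hE.disjoint i.2.1 j.2.1 fun hh => hij (Subtype.ext hh)

theorem SqIn.countable (hE : QPic E 𝒬 𝓗) : Countable (SqIn 𝒬 W) := by
  have : {Q : Sqr | Q ∈ 𝒬 ∧ Q.car ⊆ W}.Countable := hE.countable.mono fun Q hQ => hQ.1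
  exact this.to_subtype

theorem Aps.sq_fin (A : Aps E W 𝒬 f ψ Ψ G μ o) (hE : QPic E 𝒬 𝓗) :
    ∫⁻ z in (⋃ i : SqIn 𝒬 W, closedBall (cen i.1) (i.1.s / 2))ᶜ, W.indicator G z ^ 2 ≤
      ∫⁻ z in W \ E, G z ^ 2 := by
  have hEc : MeasurableSet (W \ E) := A.hW.measurableSet.diff hE.cpt.isClosed.measurableSet
  have : Countable (SqIn 𝒬 W) := SqIn.countable hE
  have hU : MeasurableSet (⋃ i : SqIn 𝒬 W, closedBall (cen i.1) (i.1.s / 2)) :=
    MeasurableSet.iUnion fun i => isClosed_closedBall.measurableSet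
  rw [← lintegral_indicator hU.compl, ← lintegral_indicator hEc]
  refine lintegral_mono_ae ?_
  filter_upwards [measure_eq_zero_iff_ae_notMem.mp hE.null] with z hz
  by_cases hzU : z ∈ (⋃ i : SqIn 𝒬 W, closedBall (cen i.1) (i.1.s / 2))ᶜ
  · rw [indicator_of_mem hzU]
    by_cases hzW : z ∈ W
    · have hzE : z ∉ E := by
        intro hzE
        refine hz ⟨hzE, fun hc => ?_⟩
        obtain ⟨Q, hQ, hzQ⟩ := mem_iUnion₂.mp hc
        rcases A.alt Q hQ with h1 | h1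
        · exact hzU (mem_iUnion.mpr ⟨⟨Q, hQ, h1⟩, by rw [← car_eq]; exact hzQ⟩)
        · exact Set.disjoint_left.mp h1 hzQ hzW
      rw [indicator_of_mem hzW, indicator_of_mem (show z ∈ W \ E from ⟨hzW, hzE⟩)]
    · rw [indicator_of_notMem hzW]; simp
  · rw [indicator_of_notMem hzU]; exact zero_le

/-- the bound of the square function -/
noncomputable def AA (E W : Set (ℝ × ℝ)) (𝒬 : Set Sqr) (G : ℝ × ℝ → ℝ≥0∞)
    (μ : Sqr → Measure (ℝ × ℝ)) : ℝ≥0∞ :=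
  200000000 * ((∫⁻ z in W \ E, G z ^ 2) + ∑' i : SqIn 𝒬 W, μ i.1 univ ^ 2)

theorem Aps.AA_fin (A : Aps E W 𝒬 f ψ Ψ G μ o) : AA E W 𝒬 G μ ≠ ∞ :=
  ENNReal.mul_ne_top (by norm_num) (ENNReal.add_ne_top.mpr ⟨A.G2, A.μ2⟩)

theorem Aps.H_le (A : Aps E W 𝒬 f ψ Ψ G μ o) (hE : QPic E 𝒬 𝓗) (hε : 0 < ε) :
    ∫⁻ z in NQ (fun i : SqIn 𝒬 W => cen i.1) (fun i => i.1.s / 2) ε, H ε (W.indicator G) z ^ 2 ≤
      AA E W 𝒬 G μ := by
  have : Countable (SqIn 𝒬 W) := SqIn.countable hE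
  have : ∀ i : SqIn 𝒬 W, IsFiniteMeasure (μ i.1) := fun i => A.fin i.1 i.2.1 i.2.2
  refine (H_sq_le (μ := fun i : SqIn 𝒬 W => μ i.1) (fun i => i.pos) (SqIn.disj hE)
    (A.mG.indicator A.hW.measurableSet) A.lf hε).trans ?_
  unfold AA
  exact mul_le_mul_right (add_le_add_left (A.sq_fin hE) _) _

theorem compl_sub_NQ (hE : QPic E 𝒬 𝓗) (hε : 0 < ε) :
    Eᶜ ⊆ NQ (fun i : SqIn 𝒬 W => cen i.1) (fun i => i.1.s / 2) ε := by
  intro z hz i _
  have h1 : z ∉ closedBall (cen i.1) (i.1.s / 2) := by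
    rw [← car_eq]; exact fun hc => hz (hE.sub i.1 i.2.1 hc)
  rw [mem_closedBall, not_le] at h1
  linarith

theorem Aps.H_fin (A : Aps E W 𝒬 f ψ Ψ G μ o) (z : ℝ × ℝ) :
    H ε (W.indicator G) z ≤ (ENNReal.ofReal (ε ^ 2))⁻¹ * ∫⁻ z in W, G z := by
  unfold H
  refine mul_le_mul_right ?_ _
  rw [← lintegral_indicator A.hW.measurableSet]
  exact setLIntegral_le_lintegral _ _

theorem Aps.HM_fin (A : Aps E W 𝒬 f ψ Ψ G μ o) (hε : 0 < ε) :
    (ENNReal.ofReal (ε ^ 2))⁻¹ * ∫⁻ z in W, G z ≠ ∞ :=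
  ENNReal.mul_ne_top (ENNReal.inv_ne_top.mpr (by simp; positivity)) A.G1

/-- real form of (O1) -/
theorem Aps.O1r (A : Aps E W 𝒬 f ψ Ψ G μ o) (hε : 0 < ε) {z p p' : ℝ × ℝ}
    (hz : closedBall z (3 * ε) ⊆ W)
    (hp : p ∈ closedBall z (2 * ε)) (hp' : p' ∈ closedBall z (2 * ε)) :
    |bm ε ψ p' - bm ε ψ p| ≤ dist p' p / 2 * (H ε (W.indicator G) z).toReal := by
  have h1 := O1 A.lineB (A.mG.indicator A.hW.measurableSet) hε hz (A.int _ _ hz) hp hp'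
  have h2 : H ε (W.indicator G) z ≠ ∞ := ne_top_of_le_ne_top (A.HM_fin hε) (A.H_fin z)
  have h3 := ENNReal.toReal_mono (ENNReal.mul_ne_top ENNReal.ofReal_ne_top h2) h1
  rwa [toReal_enorm, Real.norm_eq_abs, ENNReal.toReal_mul, ENNReal.toReal_ofReal (by positivity)]
    at h3

/-- limit of the means -/
theorem Aps.bm_lim (A : Aps E W 𝒬 f ψ Ψ G μ o) (hE : QPic E 𝒬 𝓗) {p : ℝ × ℝ} (hp : p ∈ W \ E)
    {δ : ℝ} (hδ : 0 < δ) : ∃ r > 0, ∀ ε, 0 < ε → ε ≤ r → |bm ε ψ p - f p| ≤ δ := by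
  have hopen : IsOpen (W \ E) := A.hW.sdiff hE.cpt.isClosed
  have hc : ContinuousAt f p := A.cont.continuousAt (hopen.mem_nhds hp)
  obtain ⟨r1, hr1, h1⟩ := Metric.continuousAt_iff.mp hc δ hδ
  obtain ⟨r2, hr2, h2⟩ := Metric.isOpen_iff.mp hopen p hp
  refine ⟨min r1 r2 / 2, by positivity, fun ε hε hεr => ?_⟩
  have hsub : closedBall p ε ⊆ W \ E := by
    refine fun u hu => h2 ?_
    rw [mem_closedBall] at hu
    rw [mem_ball]
    have := min_le_right r1 r2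
    linarith
  refine bm_const_le hε (A.int _ _ fun u hu => (hsub hu).1) ?_
  filter_upwards [A.eq] with u hu hup
  rw [hu (hsub hup)]
  have h3 : dist u p < r1 := by
    rw [mem_closedBall] at hup
    have := min_le_left r1 r2
    linarith
  have := h1 h3
  rw [Real.dist_eq] at this
  exact this.le

end Crest.Agent.R105.Mq_347
end

-- ▼ part R105/Mq7_347
section

/-! Row 105, S0138, NI-10: MOLLQ, part E: the planar approximation. -/

set_option autoImplicit false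

open MeasureTheory Set Metric Filter Topology
open scoped ENNReal NNReal Function

namespace Crest.Agent.R105.Mq_347

open Crest.Agent.R105.CF_363 Crest.Agent.R105.Stp_722 Crest.Agent.R105.Cq_463
open Crest.Agent.R105.Psq_425

variable {E W : Set (ℝ × ℝ)} {𝒬 : Set Sqr} {𝓗 : Set Hair} {f ψ Ψ : ℝ × ℝ → ℝ}
  {G : ℝ × ℝ → ℝ≥0∞} {μ : Sqr → Measure (ℝ × ℝ)} {o : Sqr → ℝ} {ε : ℝ}

/-- the approximating function -/
noncomputable def fap (κ : ℝ × ℝ → ℝ) (T : ℝ → ℝ) (ψ : ℝ × ℝ → ℝ) (ε : ℝ) (p : ℝ × ℝ) : ℝ :=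
  κ p * T (bm ε ψ p)

section one

variable {κ : ℝ × ℝ → ℝ} {T : ℝ → ℝ} {Lκ LT : ℝ≥0} {K C : ℝ}

theorem mul_diff {a b s t : ℝ} {K C : ℝ} (ha : |a| ≤ K) (ht : |t| ≤ C) :
    |a * s - b * t| ≤ K * |s - t| + C * |a - b| := by
  have : a * s - b * t = a * (s - t) + (a - b) * t := by ring
  rw [this]
  refine (abs_add_le _ _).trans ?_
  rw [abs_mul, abs_mul]
  have h1 : |a| * |s - t| ≤ K * |s - t| := by gcongr
  have h2 : |a - b| * |t| ≤ C * |a - b| := by rw [mul_comm]; gcongr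
  linarith

/-- local Lipschitz bound -/
theorem Aps.loc (A : Aps E W 𝒬 f ψ Ψ G μ o) (hε : 0 < ε) (hκ : LipschitzWith Lκ κ)
    (hT : LipschitzWith LT T) (hK : ∀ p, |κ p| ≤ K) (hC : ∀ s, |T s| ≤ C) {z : ℝ × ℝ}
    (hz : closedBall z (3 * ε) ⊆ W) {p q : ℝ × ℝ} (hp : p ∈ closedBall z (2 * ε))
    (hq : q ∈ closedBall z (2 * ε)) :
    |fap κ T ψ ε p - fap κ T ψ ε q| ≤
      (K * LT / 2 * (H ε (W.indicator G) z).toReal + C * Lκ) * dist p q := by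
  have hK0 : 0 ≤ K := (abs_nonneg _).trans (hK p)
  have hC0 : 0 ≤ C := (abs_nonneg _).trans (hC 0)
  have h1 := A.O1r hε hz hq hp
  have h2 : |T (bm ε ψ p) - T (bm ε ψ q)| ≤ LT * |bm ε ψ p - bm ε ψ q| := by
    have := hT.dist_le_mul (bm ε ψ p) (bm ε ψ q)
    rwa [Real.dist_eq, Real.dist_eq] at this
  have h3 : |κ p - κ q| ≤ Lκ * dist p q := by
    have := hκ.dist_le_mul p q
    rwa [Real.dist_eq] at this
  refine (mul_diff (hK p) (hC _)).trans ?_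
  calc K * |T (bm ε ψ p) - T (bm ε ψ q)| + C * |κ p - κ q|
      ≤ K * (LT * (dist p q / 2 * (H ε (W.indicator G) z).toReal)) + C * (Lκ * dist p q) := by
        gcongr
        exact h2.trans (by gcongr)
    _ = _ := by ring

theorem fap_zero {p : ℝ × ℝ} (hp : p ∉ tsupport κ) : fap κ T ψ ε p = 0 := by
  unfold fap
  rw [image_eq_zero_of_notMem_tsupport hp, zero_mul]

/-- global Lipschitz bound -/
theorem Aps.lip (A : Aps E W 𝒬 f ψ Ψ G μ o) (hε : 0 < ε) (hκ : LipschitzWith Lκ κ)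
    (hT : LipschitzWith LT T) (hK : ∀ p, |κ p| ≤ K) (hC : ∀ s, |T s| ≤ C)
    (hW : ∀ p ∈ tsupport κ, closedBall p (6 * ε) ⊆ W) :
    ∃ L : ℝ≥0, LipschitzWith L (fap κ T ψ ε) := by
  have hK0 : 0 ≤ K := (abs_nonneg _).trans (hK 0)
  have hC0 : 0 ≤ C := (abs_nonneg _).trans (hC 0)
  set M := ((ENNReal.ofReal (ε ^ 2))⁻¹ * ∫⁻ z in W, G z).toReal with hM
  have hM0 : 0 ≤ M := ENNReal.toReal_nonneg
  have hHM : ∀ z, (H ε (W.indicator G) z).toReal ≤ M := fun z =>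
    ENNReal.toReal_mono (A.HM_fin hε) (A.H_fin z)
  set Λ := (K * LT / 2 * M + C * Lκ) + K * C / ε with hΛ
  have hΛ0 : 0 ≤ Λ := by positivity
  have key : ∀ p q, p ∈ tsupport κ → |fap κ T ψ ε p - fap κ T ψ ε q| ≤ Λ * dist p q := by
    intro p q hp
    rcases le_or_gt (dist p q) (2 * ε) with h1 | h1
    · refine (A.loc hε hκ hT hK hC ((closedBall_subset_closedBall (by linarith)).trans (hW p hp))
        (mem_closedBall_self (by linarith)) (by rw [mem_closedBall, dist_comm]; exact h1)).trans ?_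
      gcongr
      rw [hΛ]
      have h2 : K * LT / 2 * (H ε (W.indicator G) p).toReal ≤ K * LT / 2 * M := by
        gcongr; exact hHM p
      have h3 : 0 ≤ K * C / ε := by positivity
      linarith
    · have h2 : ∀ p, |fap κ T ψ ε p| ≤ K * C := by
        intro p
        unfold fap
        rw [abs_mul]
        gcongr
        · exact hK p
        · exact hC _
      have h3 : |fap κ T ψ ε p - fap κ T ψ ε q| ≤ 2 * (K * C) := by
        refine (abs_sub _ _).trans ?_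
        linarith [h2 p, h2 q]
      refine h3.trans ?_
      have h4 : 2 * (K * C) ≤ K * C / ε * dist p q := by
        rw [div_mul_eq_mul_div, le_div_iff₀ hε]
        have : 0 ≤ K * C := by positivity
        nlinarith
      have h5 : K * C / ε * dist p q ≤ Λ * dist p q := by
        gcongr
        rw [hΛ]
        have : 0 ≤ K * LT / 2 * M + C * Lκ := by positivity
        linarith
      exact h4.trans h5
  refine ⟨Λ.toNNReal, LipschitzWith.of_dist_le_mul fun p q => ?_⟩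
  rw [Real.dist_eq, Real.coe_toNNReal _ hΛ0]
  by_cases hp : p ∈ tsupport κ
  · exact key p q hp
  · by_cases hq : q ∈ tsupport κ
    · have := key q p hq
      rwa [abs_sub_comm, dist_comm] at this
    · rw [fap_zero hp, fap_zero hq, sub_zero, abs_zero]
      positivity

/-- the energy -/
theorem Aps.en (A : Aps E W 𝒬 f ψ Ψ G μ o) (hE : QPic E 𝒬 𝓗) (hε : 0 < ε)
    (hκ : LipschitzWith Lκ κ) (hκc : HasCompactSupport κ)
    (hT : LipschitzWith LT T) (hK : ∀ p, |κ p| ≤ K) (hC : ∀ s, |T s| ≤ C)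
    (hW : ∀ p ∈ tsupport κ, closedBall p (6 * ε) ⊆ W) :
    En (univ \ E) (fap κ T ψ ε) ≤ (ENNReal.ofReal (K ^ 2 * LT ^ 2) * AA E W 𝒬 G μ +
      ENNReal.ofReal (4 * C ^ 2 * Lκ ^ 2) * volume (tsupport κ)).toReal := by
  have hK0 : 0 ≤ K := (abs_nonneg _).trans (hK 0)
  have hC0 : 0 ≤ C := (abs_nonneg _).trans (hC 0)
  have hfin : ENNReal.ofReal (K ^ 2 * LT ^ 2) * AA E W 𝒬 G μ +
      ENNReal.ofReal (4 * C ^ 2 * Lκ ^ 2) * volume (tsupport κ) ≠ ∞ :=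
    ENNReal.add_ne_top.mpr ⟨ENNReal.mul_ne_top ENNReal.ofReal_ne_top A.AA_fin,
      ENNReal.mul_ne_top ENNReal.ofReal_ne_top (IsCompact.measure_ne_top hκc)⟩
  have hKm : MeasurableSet (tsupport κ) := (isClosed_tsupport κ).measurableSet
  have hHm := measurable_H2 (A.mG.indicator A.hW.measurableSet) ε
  unfold En
  rw [integral_eq_lintegral_of_nonneg_ae (Eventually.of_forall fun p => g2_nonneg _ p)
    (measurable_g2 _).aestronglyMeasurable]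
  refine ENNReal.toReal_mono hfin ?_
  have hpt : ∀ p, ENNReal.ofReal (g2 (fap κ T ψ ε) p) ≤
      ENNReal.ofReal (K ^ 2 * LT ^ 2) * H ε (W.indicator G) p ^ 2 +
        (tsupport κ).indicator (fun _ => ENNReal.ofReal (4 * C ^ 2 * Lκ ^ 2)) p := by
    intro p
    by_cases hp : p ∈ tsupport κ
    · rw [indicator_of_mem hp]
      set Hp := (H ε (W.indicator G) p).toReal with hHp
      have hHp0 : 0 ≤ Hp := ENNReal.toReal_nonneg
      have hne : H ε (W.indicator G) p ≠ ∞ := ne_top_of_le_ne_top (A.HM_fin hε) (A.H_fin p)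
      set Lp := K * LT / 2 * Hp + C * Lκ with hLp
      have hLp0 : 0 ≤ Lp := by positivity
      have hSL : SL (ball p (2 * ε)) Lp (fap κ T ψ ε) := by
        intro q q' hseg
        exact A.loc hε hκ hT hK hC ((closedBall_subset_closedBall (by linarith)).trans (hW p hp))
          (ball_subset_closedBall (hseg (left_mem_segment ℝ q q')))
          (ball_subset_closedBall (hseg (right_mem_segment ℝ q q')))
      have h1 := hSL.g2_le isOpen_ball hLp0 (mem_ball_self (by linarith : 0 < 2 * ε))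
      have h2 : 2 * Lp ^ 2 ≤ K ^ 2 * LT ^ 2 * Hp ^ 2 + 4 * C ^ 2 * Lκ ^ 2 := by
        rw [hLp]
        nlinarith [sq_nonneg (K * LT / 2 * Hp - C * Lκ)]
      calc ENNReal.ofReal (g2 (fap κ T ψ ε) p)
          ≤ ENNReal.ofReal (K ^ 2 * LT ^ 2 * Hp ^ 2 + 4 * C ^ 2 * Lκ ^ 2) :=
            ENNReal.ofReal_le_ofReal (h1.trans h2)
        _ = _ := by
            rw [ENNReal.ofReal_add (by positivity) (by positivity),
              ENNReal.ofReal_mul (by positivity), ENNReal.ofReal_pow hHp0, hHp,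
              ENNReal.ofReal_toReal hne]
    · have h0 : fap κ T ψ ε =ᶠ[𝓝 p] fun _ => 0 := by
        filter_upwards [(isClosed_tsupport κ).isOpen_compl.mem_nhds hp] with q hq
        exact fap_zero hq
      have h1 : g2 (fap κ T ψ ε) p = 0 := by
        unfold g2
        rw [gx_congr h0, gy_congr h0]
        simp [gx, gy]
      rw [h1]; simp
  calc ∫⁻ p in univ \ E, ENNReal.ofReal (g2 (fap κ T ψ ε) p)
      ≤ ∫⁻ p in univ \ E, (ENNReal.ofReal (K ^ 2 * LT ^ 2) * H ε (W.indicator G) p ^ 2 +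
        (tsupport κ).indicator (fun _ => ENNReal.ofReal (4 * C ^ 2 * Lκ ^ 2)) p) :=
        lintegral_mono fun p => hpt p
    _ = ENNReal.ofReal (K ^ 2 * LT ^ 2) * (∫⁻ p in univ \ E, H ε (W.indicator G) p ^ 2) +
        ∫⁻ p in univ \ E, (tsupport κ).indicator (fun _ => ENNReal.ofReal (4 * C ^ 2 * Lκ ^ 2)) p := by
        rw [lintegral_add_left (hHm.const_mul _), lintegral_const_mul _ hHm]
    _ ≤ _ := by
        refine add_le_add (mul_le_mul_right ?_ _) ?_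
        · refine le_trans (lintegral_mono_set ?_) (A.H_le hE hε)
          rw [← compl_eq_univ_sdiff]
          exact compl_sub_NQ hE hε
        · refine (setLIntegral_le_lintegral _ _).trans ?_
          rw [lintegral_indicator hKm, lintegral_const, Measure.restrict_apply_univ]

/-- bound of the squared charge of the square `i` -/
noncomputable def Gam (K C : ℝ) (Lκ LT : ℝ≥0) (o : Sqr → ℝ) (ε : ℝ) (G : ℝ × ℝ → ℝ≥0∞)
    (W : Set (ℝ × ℝ)) (𝒬 : Set Sqr) (i : SqIn 𝒬 W) : ℝ≥0∞ :=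
  ENNReal.ofReal (K ^ 2 * LT ^ 2) *
    BB (fun i : SqIn 𝒬 W => cen i.1) (fun i => i.1.s / 2) (fun i => o i.1) ε (W.indicator G) i +
  ENNReal.ofReal (2 * C ^ 2 * Lκ ^ 2) * ENNReal.ofReal (i.1.s ^ 2)

theorem Aps.osc_pt (A : Aps E W 𝒬 f ψ Ψ G μ o) (hE : QPic E 𝒬 𝓗) (hε : 0 < ε)
    (hκ : LipschitzWith Lκ κ)
    (hT : LipschitzWith LT T) (hK : ∀ p, |κ p| ≤ K) (hC : ∀ s, |T s| ≤ C)
    (hW : ∀ p ∈ tsupport κ, closedBall p (6 * ε) ⊆ W) (i : SqIn 𝒬 W) {p q : ℝ × ℝ}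
    (hp : p ∈ i.1.car) (hq : q ∈ i.1.car) :
    ENNReal.ofReal ((fap κ T ψ ε p - fap κ T ψ ε q) ^ 2) ≤ Gam K C Lκ LT o ε G W 𝒬 i := by
  have hK0 : 0 ≤ K := (abs_nonneg _).trans (hK 0)
  have hC0 : 0 ≤ C := (abs_nonneg _).trans (hC 0)
  have hpc := hp
  have hqc := hq
  rw [car_eq] at hpc hqc
  have hdist : dist p q ≤ i.1.s := by
    rw [mem_closedBall] at hpc hqc
    linarith [dist_triangle_right p q (cen i.1)]
  have hs0 := i.1.hs
  -- one point outside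
  have hone : ∀ p q : ℝ × ℝ, dist p q ≤ i.1.s → q ∉ tsupport κ →
      |fap κ T ψ ε p - fap κ T ψ ε q| ≤ C * Lκ * i.1.s := by
    intro p q hpq hq
    rw [fap_zero hq, sub_zero]
    unfold fap
    have h0 : κ q = 0 := image_eq_zero_of_notMem_tsupport hq
    have h1 : |κ p| ≤ Lκ * dist p q := by
      have := hκ.dist_le_mul p q
      rwa [Real.dist_eq, h0, sub_zero] at this
    rw [abs_mul]
    calc |κ p| * |T (bm ε ψ p)| ≤ (Lκ * dist p q) * C := by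
          gcongr
          exact hC _
      _ ≤ (Lκ * i.1.s) * C := by gcongr
      _ = _ := by ring
  have hfar : ∀ d : ℝ, |d| ≤ C * Lκ * i.1.s →
      ENNReal.ofReal (d ^ 2) ≤ Gam K C Lκ LT o ε G W 𝒬 i := by
    intro d hd
    unfold Gam
    refine le_trans ?_ le_add_self
    rw [← ENNReal.ofReal_mul (by positivity)]
    refine ENNReal.ofReal_le_ofReal ?_
    have h1 : d ^ 2 ≤ (C * Lκ * i.1.s) ^ 2 := by
      rw [← sq_abs d]
      gcongr
    have h2 : 0 ≤ (C * Lκ * i.1.s) ^ 2 := sq_nonneg _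
    calc d ^ 2 ≤ (C * Lκ * i.1.s) ^ 2 := h1
      _ ≤ 2 * (C * Lκ * i.1.s) ^ 2 := by linarith
      _ = _ := by ring
  by_cases hqK : q ∈ tsupport κ
  · by_cases hpK : p ∈ tsupport κ
    · have hcount : Countable (SqIn 𝒬 W) := SqIn.countable hE
      have h1 := osc_le (c := fun i : SqIn 𝒬 W => cen i.1) (h := fun i => i.1.s / 2)
        (o := fun i => o i.1) A.lineB (A.mG.indicator A.hW.measurableSet) hε (fun i => i.pos)
        (SqIn.disj hE) A.int (fun i => A.o0 i.1) (fun i => A.osc i.1 i.2.1 i.2.2) i hqc hpc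
        (hW q hqK) (hW p hpK)
      have h2 : |T (bm ε ψ p) - T (bm ε ψ q)| ≤ LT * |bm ε ψ p - bm ε ψ q| := by
        have := hT.dist_le_mul (bm ε ψ p) (bm ε ψ q)
        rwa [Real.dist_eq, Real.dist_eq] at this
      have h3 : |κ p - κ q| ≤ Lκ * i.1.s := by
        have := hκ.dist_le_mul p q
        rw [Real.dist_eq] at this
        exact this.trans (by gcongr)
      set D := |bm ε ψ p - bm ε ψ q| with hD
      have hD0 : 0 ≤ D := abs_nonneg _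
      have h4 : |fap κ T ψ ε p - fap κ T ψ ε q| ≤ K * LT * D + C * Lκ * i.1.s := by
        refine (mul_diff (hK p) (hC _)).trans ?_
        have e1 : K * |T (bm ε ψ p) - T (bm ε ψ q)| ≤ K * (LT * D) := by gcongr
        have e2 : C * |κ p - κ q| ≤ C * (Lκ * i.1.s) := by gcongr
        linarith
      have h5 : (fap κ T ψ ε p - fap κ T ψ ε q) ^ 2 ≤
          K ^ 2 * LT ^ 2 * (2 * D ^ 2) + 2 * C ^ 2 * Lκ ^ 2 * i.1.s ^ 2 := by
        have e1 : (fap κ T ψ ε p - fap κ T ψ ε q) ^ 2 ≤ (K * LT * D + C * Lκ * i.1.s) ^ 2 := by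
          rw [← sq_abs (fap κ T ψ ε p - fap κ T ψ ε q)]
          gcongr
        have e2 := sq_nonneg (K * LT * D - C * Lκ * i.1.s)
        nlinarith
      have h6 : ENNReal.ofReal (2 * D ^ 2) ≤
          BB (fun i : SqIn 𝒬 W => cen i.1) (fun i => i.1.s / 2) (fun i => o i.1) ε
            (W.indicator G) i := by
        refine le_trans ?_ h1
        rw [hD, ENNReal.ofReal_mul (by norm_num), ENNReal.ofReal_pow (abs_nonneg _),
          ← Real.enorm_eq_ofReal_abs]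
        refine mul_le_mul_left ?_ _
        norm_num
      unfold Gam
      calc ENNReal.ofReal ((fap κ T ψ ε p - fap κ T ψ ε q) ^ 2)
          ≤ ENNReal.ofReal (K ^ 2 * LT ^ 2 * (2 * D ^ 2) + 2 * C ^ 2 * Lκ ^ 2 * i.1.s ^ 2) :=
            ENNReal.ofReal_le_ofReal h5
        _ = ENNReal.ofReal (K ^ 2 * LT ^ 2) * ENNReal.ofReal (2 * D ^ 2) +
            ENNReal.ofReal (2 * C ^ 2 * Lκ ^ 2) * ENNReal.ofReal (i.1.s ^ 2) := by
            rw [ENNReal.ofReal_add (by positivity) (by positivity),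
              ENNReal.ofReal_mul (p := K ^ 2 * LT ^ 2) (by positivity),
              ENNReal.ofReal_mul (p := 2 * C ^ 2 * Lκ ^ 2) (by positivity)]
        _ ≤ _ := add_le_add_left (mul_le_mul_right h6 _) _
    · refine hfar _ ?_
      rw [abs_sub_comm]
      exact hone q p (by rw [dist_comm]; exact hdist) hpK
  · exact hfar _ (hone p q hdist hqK)

/-- a continuous function: oscillation at a compact set -/
theorem oscLe_of_lip {g : ℝ × ℝ → ℝ} {L : ℝ≥0} (hg : LipschitzWith L g) {V P : Set (ℝ × ℝ)}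
    {c : ℝ} (hc : ∀ p ∈ P, ∀ q ∈ P, |g p - g q| ≤ c) : OscLe V P g c := by
  intro δ hδ
  set r : ℝ := δ / (2 * (L + 1)) with hr
  have hr0 : 0 < r := by positivity
  refine ⟨thickening r P, isOpen_thickening, self_subset_thickening hr0 P, ?_⟩
  rintro q ⟨hq, -⟩ q' ⟨hq', -⟩
  obtain ⟨x, hx, hqx⟩ := mem_thickening_iff.1 hq
  obtain ⟨x', hx', hqx'⟩ := mem_thickening_iff.1 hq'
  have h1 : |g q - g x| ≤ L * dist q x := by
    have := hg.dist_le_mul q x; rwa [Real.dist_eq] at this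
  have h2 : |g q' - g x'| ≤ L * dist q' x' := by
    have := hg.dist_le_mul q' x'; rwa [Real.dist_eq] at this
  have h3 := hc x hx x' hx'
  have h4 : (L : ℝ) * r ≤ δ / 2 := by
    rw [hr]
    rw [show (L : ℝ) * (δ / (2 * (L + 1))) = (L * δ) / (2 * (L + 1)) by ring,
      div_le_div_iff₀ (by positivity) (by norm_num)]
    nlinarith [L.2]
  have h5 : (L : ℝ) * dist q x ≤ L * r := by gcongr
  have h6 : (L : ℝ) * dist q' x' ≤ L * r := by gcongr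
  have e : g q - g q' = (g q - g x) + (g x - g x') - (g q' - g x') := by ring
  rw [e]
  calc |(g q - g x) + (g x - g x') - (g q' - g x')|
      ≤ |(g q - g x) + (g x - g x')| + |g q' - g x'| := abs_sub _ _
    _ ≤ |g q - g x| + |g x - g x'| + |g q' - g x'| := by gcongr; exact abs_add_le _ _
    _ ≤ c + δ := by linarith

theorem Aps.ch_le (A : Aps E W 𝒬 f ψ Ψ G μ o) (hE : QPic E 𝒬 𝓗) (hε : 0 < ε)
    (hκ : LipschitzWith Lκ κ)
    (hT : LipschitzWith LT T) (hK : ∀ p, |κ p| ≤ K) (hC : ∀ s, |T s| ≤ C)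
    (hW : ∀ p ∈ tsupport κ, closedBall p (6 * ε) ⊆ W) (i : SqIn 𝒬 W) :
    ENNReal.ofReal (ch E univ (fap κ T ψ ε) i.1 ^ 2) ≤ Gam K C Lκ LT o ε G W 𝒬 i := by
  obtain ⟨L, hL⟩ := A.lip hε hκ hT hK hC hW
  by_cases hinf : Gam K C Lκ LT o ε G W 𝒬 i = ∞
  · rw [hinf]; exact le_top
  set c := Real.sqrt (Gam K C Lκ LT o ε G W 𝒬 i).toReal with hc
  have h1 : ∀ p ∈ i.1.car, ∀ q ∈ i.1.car, |fap κ T ψ ε p - fap κ T ψ ε q| ≤ c := by
    intro p hp q hq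
    have h2 := A.osc_pt hE hε hκ hT hK hC hW i hp hq
    have h3 := ENNReal.toReal_mono hinf h2
    rw [ENNReal.toReal_ofReal (sq_nonneg _)] at h3
    rw [hc]
    exact Real.abs_le_sqrt h3
  have h2 : ch E univ (fap κ T ψ ε) i.1 ≤ c := by
    unfold ch
    refine chg_le (Real.sqrt_nonneg _) ?_
    exact (oscLe_of_lip hL h1).mono_set inter_subset_left
  have h3 : ch E univ (fap κ T ψ ε) i.1 ^ 2 ≤ (Gam K C Lκ LT o ε G W 𝒬 i).toReal := by
    rw [← Real.sq_sqrt (ENNReal.toReal_nonneg (a := Gam K C Lκ LT o ε G W 𝒬 i)), ← hc]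
    have := ch_nonneg E univ (fap κ T ψ ε) i.1
    gcongr
  exact (ENNReal.ofReal_le_ofReal h3).trans (le_of_eq (ENNReal.ofReal_toReal hinf))

theorem Aps.sum_Gam (A : Aps E W 𝒬 f ψ Ψ G μ o) (hE : QPic E 𝒬 𝓗) (hε : 0 < ε) :
    ∑' i : SqIn 𝒬 W, Gam K C Lκ LT o ε G W 𝒬 i ≤
      ENNReal.ofReal (K ^ 2 * LT ^ 2) * (32 * (∑' i : SqIn 𝒬 W, ENNReal.ofReal (o i.1 ^ 2)) +
        51 * AA E W 𝒬 G μ) + ENNReal.ofReal (2 * C ^ 2 * Lκ ^ 2) * volume E := by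
  have hcount : Countable (SqIn 𝒬 W) := SqIn.countable hE
  unfold Gam
  rw [ENNReal.tsum_add, ENNReal.tsum_mul_left, ENNReal.tsum_mul_left]
  refine add_le_add (mul_le_mul_right ?_ _) (mul_le_mul_right ?_ _)
  · refine (sum_BB (A.mG.indicator A.hW.measurableSet) hε (SqIn.disj hE) _).trans ?_
    exact add_le_add_right (mul_le_mul_right (A.H_le hE hε) _) _
  · refine le_trans ?_ hE.tsum_sq_le
    exact ENNReal.tsum_comp_le_tsum_of_injective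
      (f := fun i : SqIn 𝒬 W => (⟨i.1, i.2.1⟩ : 𝒬))
      (fun i j hij => Subtype.ext (by simpa using hij)) (fun Q : 𝒬 => ENNReal.ofReal (Q.1.s ^ 2))

theorem Aps.Ch_le (A : Aps E W 𝒬 f ψ Ψ G μ o) (hE : QPic E 𝒬 𝓗) (hε : 0 < ε)
    (hκ : LipschitzWith Lκ κ)
    (hT : LipschitzWith LT T) (hK : ∀ p, |κ p| ≤ K) (hC : ∀ s, |T s| ≤ C)
    (hW : ∀ p ∈ tsupport κ, closedBall p (6 * ε) ⊆ W) :
    Ch E univ 𝒬 (fap κ T ψ ε) ≤
      (ENNReal.ofReal (K ^ 2 * LT ^ 2) * (32 * (∑' i : SqIn 𝒬 W, ENNReal.ofReal (o i.1 ^ 2)) +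
        51 * AA E W 𝒬 G μ) + ENNReal.ofReal (2 * C ^ 2 * Lκ ^ 2) * volume E).toReal := by
  have hfin : ENNReal.ofReal (K ^ 2 * LT ^ 2) * (32 * (∑' i : SqIn 𝒬 W, ENNReal.ofReal (o i.1 ^ 2)) +
        51 * AA E W 𝒬 G μ) + ENNReal.ofReal (2 * C ^ 2 * Lκ ^ 2) * volume E ≠ ∞ :=
    ENNReal.add_ne_top.mpr ⟨ENNReal.mul_ne_top ENNReal.ofReal_ne_top (ENNReal.add_ne_top.mpr
      ⟨ENNReal.mul_ne_top (by norm_num) A.o2, ENNReal.mul_ne_top (by norm_num) A.AA_fin⟩),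
      ENNReal.mul_ne_top ENNReal.ofReal_ne_top hE.cpt.measure_ne_top⟩
  -- squares outside
  have hout : ∀ Q : 𝒬, ¬ Q.1.car ⊆ W → ch E univ (fap κ T ψ ε) Q.1 = 0 := by
    intro Q hQ
    have hdis : Disjoint Q.1.car W := (A.alt Q.1 Q.2).resolve_left hQ
    unfold ch
    refine chg_eq_zero (O := (tsupport κ)ᶜ) (isClosed_tsupport κ).isOpen_compl ?_ (a := 0)
      fun q hq => fap_zero hq.1
    intro p hp hpK
    exact Set.disjoint_left.mp hdis hp.1 ((hW p hpK) (mem_closedBall_self (by linarith)))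
  have hsum : ∑' Q : 𝒬, ENNReal.ofReal (ch E univ (fap κ T ψ ε) Q.1 ^ 2) ≤
      ENNReal.ofReal (K ^ 2 * LT ^ 2) * (32 * (∑' i : SqIn 𝒬 W, ENNReal.ofReal (o i.1 ^ 2)) +
        51 * AA E W 𝒬 G μ) + ENNReal.ofReal (2 * C ^ 2 * Lκ ^ 2) * volume E := by
    refine le_trans ?_ (A.sum_Gam hE hε)
    have hinj : Function.Injective (fun i : SqIn 𝒬 W => (⟨i.1, i.2.1⟩ : 𝒬)) :=
      fun i j hij => Subtype.ext (by simpa using hij)
    rw [← hinj.tsum_eq (f := fun Q : 𝒬 => ENNReal.ofReal (ch E univ (fap κ T ψ ε) Q.1 ^ 2))]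
    · exact ENNReal.tsum_le_tsum fun i => A.ch_le hE hε hκ hT hK hC hW i
    · intro Q hQ
      by_contra hcon
      apply hQ
      have : ¬ Q.1.car ⊆ W := fun h => hcon ⟨⟨Q.1, Q.2, h⟩, rfl⟩
      simp only
      rw [hout Q this]; simp
  have hnn : ∀ Q : 𝒬, 0 ≤ ch E univ (fap κ T ψ ε) Q.1 ^ 2 := fun Q => sq_nonneg _
  have hsm : Summable fun Q : 𝒬 => ch E univ (fap κ T ψ ε) Q.1 ^ 2 :=
    summable_of_tsum_ofReal hnn (ne_top_of_le_ne_top hfin hsum)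
  unfold Ch
  rw [← ENNReal.toReal_ofReal (tsum_nonneg hnn), ENNReal.ofReal_tsum_of_nonneg hnn hsm]
  exact ENNReal.toReal_mono hfin hsum

end one

/-- **The planar approximation.** -/
theorem Aps.plaLim (A : Aps E W 𝒬 f ψ Ψ G μ o) (hE : QPic E 𝒬 𝓗) {κ : ℝ × ℝ → ℝ} {T : ℝ → ℝ}
    {Lκ LT : ℝ≥0} {C : ℝ} (hκ : LipschitzWith Lκ κ) (hκc : HasCompactSupport κ)
    (hκW : tsupport κ ⊆ W) (hT : LipschitzWith LT T) (hC : ∀ s, |T s| ≤ C) :
    PlaLim E 𝒬 fun p => κ p * T (f p) := by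
  obtain ⟨K, hK⟩ := hκc.exists_bound_of_continuous hκ.continuous
  simp only [Real.norm_eq_abs] at hK
  have hK0 : 0 ≤ K := (abs_nonneg _).trans (hK 0)
  have hC0 : 0 ≤ C := (abs_nonneg _).trans (hC 0)
  obtain ⟨δ, hδ, hδW⟩ := IsCompact.exists_cthickening_subset_open hκc A.hW hκW
  set e : ℕ → ℝ := fun n => δ / 6 / (n + 1) with he
  have he0 : ∀ n, 0 < e n := fun n => by rw [he]; positivity
  have heδ : ∀ n, e n ≤ δ / 6 := by
    intro n
    rw [he]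
    refine div_le_self (by positivity) ?_
    have : (0 : ℝ) ≤ n := n.cast_nonneg
    linarith
  have hW : ∀ n, ∀ p ∈ tsupport κ, closedBall p (6 * e n) ⊆ W := by
    intro n p hp
    refine (closedBall_subset_cthickening hp _).trans ((cthickening_mono ?_ _).trans hδW)
    linarith [heδ n]
  refine ⟨fun n => fap κ T ψ (e n), fun n => A.lip (he0 n) hκ hT hK hC (hW n),
    ⟨tsupport κ, hκc, fun n p hp => fap_zero hp⟩, ⟨K * C, fun n p => ?_⟩, fun p hp => ?_, ?_⟩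
  · unfold fap
    rw [abs_mul]
    gcongr
    · exact hK p
    · exact hC _
  · unfold fap
    by_cases hpK : p ∈ tsupport κ
    · refine Tendsto.const_mul _ ((hT.continuous.tendsto _).comp ?_)
      rw [Metric.tendsto_atTop]
      intro η hη
      obtain ⟨r, hr, h1⟩ := A.bm_lim hE (p := p) ⟨hκW hpK, hp⟩ (half_pos hη)
      have hlim : Tendsto e atTop (𝓝 0) := by
        have := tendsto_one_div_add_atTop_nhds_zero_nat (𝕜 := ℝ)
        have h2 := this.const_mul (δ / 6)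
        rw [mul_zero] at h2
        refine h2.congr fun n => ?_
        rw [he]; ring
      obtain ⟨N, hN⟩ := Filter.eventually_atTop.mp (hlim.eventually (gt_mem_nhds hr))
      refine ⟨N, fun n hn => ?_⟩
      rw [Real.dist_eq]
      exact (h1 (e n) (he0 n) (hN n hn).le).trans_lt (by linarith)
    · have h0 : κ p = 0 := image_eq_zero_of_notMem_tsupport hpK
      simp only [h0, zero_mul]
      exact tendsto_const_nhds
  · refine ⟨(ENNReal.ofReal (K ^ 2 * LT ^ 2) * AA E W 𝒬 G μ +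
      ENNReal.ofReal (4 * C ^ 2 * Lκ ^ 2) * volume (tsupport κ)).toReal +
      (ENNReal.ofReal (K ^ 2 * LT ^ 2) * (32 * (∑' i : SqIn 𝒬 W, ENNReal.ofReal (o i.1 ^ 2)) +
        51 * AA E W 𝒬 G μ) + ENNReal.ofReal (2 * C ^ 2 * Lκ ^ 2) * volume E).toReal,
      fun n => ?_⟩
    unfold TQ
    exact add_le_add (A.en hE (he0 n) hκ hκc hT hK hC (hW n))
      (A.Ch_le hE (he0 n) hκ hT hK hC (hW n))

end Crest.Agent.R105.Mq_347
end

-- ▼ part R105/Mq8_347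
section

/-! Row 105, S0138, NI-10: MOLLQ, part F: the planar approximation from the glued data. -/

set_option autoImplicit false

open MeasureTheory Set Metric Filter Topology
open scoped ENNReal NNReal Function

namespace Crest.Agent.R105.Mq_347

open Crest.Agent.R105.CF_363 Crest.Agent.R105.Stp_722 Crest.Agent.R105.Cq_463
open Crest.Agent.R105.Psq_425
open Crest.Agent.R105.SqF_136 (FillC FillP fill2)

/-- the glued data -/
structure GlueD (E W : Set (ℝ × ℝ)) (𝒬 : Set Sqr) (f ψ Ψ X1 X2 : ℝ × ℝ → ℝ)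
    (n1 n2 : Sqr → Measure (ℝ × ℝ)) : Prop where
  hW : IsOpen W
  alt : ∀ Q ∈ 𝒬, Q.car ⊆ W ∨ Disjoint Q.car W
  m1 : Measurable X1
  m2 : Measurable X2
  i1 : Integrable X1
  i2 : Integrable X2
  s1 : IntegrableOn (fun p => X1 p ^ 2) (W \ E)
  s2 : IntegrableOn (fun p => X2 p ^ 2) (W \ E)
  V : ∀ᵐ x : ℝ, ∀ y y', y ≤ y' → (∀ t ∈ Icc y y', (x, t) ∈ W) →
    ψ (x, y') - ψ (x, y) = ∫ t in y..y', X1 (x, t)
  H : ∀ᵐ y : ℝ, ∀ x x', x ≤ x' → (∀ s ∈ Icc x x', (s, y) ∈ W) →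
    Ψ (x', y) - Ψ (x, y) = -∫ s in x..x', X2 (s, y)
  ae_eq : ∀ᵐ p : ℝ × ℝ, p ∈ W → Ψ p = ψ p
  int : ∀ z r, closedBall z r ⊆ W → IntegrableOn ψ (closedBall z r)
  cont : ContinuousOn f (W \ E)
  eq : ∀ᵐ p : ℝ × ℝ, p ∈ W \ E → ψ p = f p
  fin1 : ∀ Q ∈ 𝒬, Q.car ⊆ W → IsFiniteMeasure (n1 Q)
  fin2 : ∀ Q ∈ 𝒬, Q.car ⊆ W → IsFiniteMeasure (n2 Q)
  c1 : ∀ Q ∈ 𝒬, Q.car ⊆ W → n1 Q Q.carᶜ = 0
  c2 : ∀ Q ∈ 𝒬, Q.car ⊆ W → n2 Q Q.carᶜ = 0
  mass : ∀ Q ∈ 𝒬, Q.car ⊆ W → n1 Q univ = n2 Q univ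
  mass2 : Summable fun i : SqIn 𝒬 W => (n1 i.1 univ).toReal ^ 2
  F1 : ∀ Q ∈ 𝒬, Q.car ⊆ W → ∀ (L : ℝ) (e : ℝ × ℝ → ℝ), 0 ≤ L →
    (∀ p q, |e p - e q| ≤ L * dist p q) →
    ∫ p in ball (cen Q) (Q.s / 2), (X1 p * gx e p + X2 p * gy e p) =
      (∫ p, e p ∂(n1 Q)) - ∫ p, e p ∂(n2 Q)

variable {E W : Set (ℝ × ℝ)} {𝒬 : Set Sqr} {𝓗 : Set Hair} {f ψ Ψ X1 X2 : ℝ × ℝ → ℝ}
  {n1 n2 : Sqr → Measure (ℝ × ℝ)}

theorem int_x {X : ℝ × ℝ → ℝ} (h : Integrable X) : ∀ᵐ x : ℝ, Integrable fun t : ℝ => X (x, t) := by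
  rw [Measure.volume_eq_prod] at h
  exact h.prod_right_ae

theorem int_y {X : ℝ × ℝ → ℝ} (h : Integrable X) : ∀ᵐ y : ℝ, Integrable fun s : ℝ => X (s, y) := by
  rw [Measure.volume_eq_prod] at h
  exact h.prod_left_ae

/-- a function with compact support box and an integrable vertical derivative is integrable -/
theorem int_of_V {δ D : ℝ × ℝ → ℝ} {a b c B : ℝ} (hm : Measurable δ) (hD : Integrable D)
    (hz : ∀ p, ¬ (p.1 ∈ Ioo a b ∧ p.2 ∈ Ioo c B) → δ p = 0)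
    (hV : ∀ᵐ x : ℝ, ∀ y y', δ (x, y') - δ (x, y) = ∫ t in y..y', D (x, t)) : Integrable δ := by
  have hK : Integrable fun x : ℝ => ∫ t, |D (x, t)| := by
    have h1 := hD.abs
    rw [Measure.volume_eq_prod] at h1
    exact h1.integral_prod_left
  have hI : Integrable ((Ioo c B).indicator fun _ => (1 : ℝ)) :=
    (integrable_indicator_iff measurableSet_Ioo).mpr
      (integrableOn_const (by rw [Real.volume_Ioo]; exact ENNReal.ofReal_ne_top))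
  have hg := hK.mul_prod hI
  rw [← Measure.volume_eq_prod] at hg
  refine Integrable.mono' hg hm.aestronglyMeasurable ?_
  filter_upwards [ae_fst' hV, ae_fst' (int_x hD)] with p h1 h2
  by_cases hp : p.2 ∈ Ioo c B
  · simp only [indicator_of_mem hp, mul_one]
    have e1 : δ p = ∫ t in c..p.2, D (p.1, t) := by
      have h3 := h1 c p.2
      rw [hz (p.1, c) (fun hh => lt_irrefl _ hh.2.1), sub_zero] at h3
      exact h3
    rw [e1]
    refine (intervalIntegral.norm_integral_le_integral_norm hp.1.le).trans ?_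
    rw [intervalIntegral.integral_of_le hp.1.le]
    exact setIntegral_le_integral h2.abs (Eventually.of_forall fun t => abs_nonneg _)
  · simp only [indicator_of_notMem hp, mul_zero]
    rw [hz p (fun hh => hp hh.2)]; simp

theorem enorm_ii_le {g : ℝ → ℝ} {x x' : ℝ} (hxx : x ≤ x') {k : ℝ → ℝ≥0∞}
    (hk : ∀ s, ‖g s‖ₑ ≤ k s) : ‖∫ s in x..x', g s‖ₑ ≤ ∫⁻ s in Icc x x', k s := by
  rw [intervalIntegral.integral_of_le hxx]
  refine (enorm_integral_le_lintegral_enorm _).trans ?_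
  refine le_trans (lintegral_mono fun s => hk s) (lintegral_mono_set Ioc_subset_Icc_self)

/-- oscillation over a filled square -/
theorem osc_fill {c : ℝ × ℝ} {h : ℝ} (hh : 0 < h) {ν1 ν2 : Measure (ℝ × ℝ)}
    {Y1 Y2 Z1 Z2 : ℝ × ℝ → ℝ} (hY : FillP c.1 c.2 h ν1 ν2 Y1 Y2)
    (hZ : ∀ p ∈ ball c h, Z1 p = Y1 p ∧ Z2 p = Y2 p)
    (hsub : closedBall c h ⊆ W)
    (hV : ∀ᵐ x : ℝ, ∀ y y', y ≤ y' → (∀ t ∈ Icc y y', (x, t) ∈ W) →
      ψ (x, y') - ψ (x, y) = ∫ t in y..y', Z1 (x, t))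
    (hH : ∀ᵐ y : ℝ, ∀ x x', x ≤ x' → (∀ s ∈ Icc x x', (s, y) ∈ W) →
      Ψ (x', y) - Ψ (x, y) = -∫ s in x..x', Z2 (s, y))
    (hE : ∀ᵐ p : ℝ × ℝ, p ∈ W → Ψ p = ψ p) :
    ∃ m, ∀ᵐ p : ℝ × ℝ, p ∈ closedBall c h → |ψ p - m| ≤ 2 * (ν1 univ + ν2 univ).toReal := by
  set ν := (ν1 univ + ν2 univ).toReal with hν
  -- vertical
  have hVb : ∀ᵐ x : ℝ, x ∈ Ioo (c.1 - h) (c.1 + h) → ∀ y ∈ Icc (c.2 - h) (c.2 + h),
      ∀ y' ∈ Icc (c.2 - h) (c.2 + h), |ψ (x, y') - ψ (x, y)| ≤ ν := by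
    filter_upwards [hV, hY.Lx] with x h1 h2 hx
    have key : ∀ y ∈ Icc (c.2 - h) (c.2 + h), ∀ y' ∈ Icc (c.2 - h) (c.2 + h), y ≤ y' →
        |ψ (x, y') - ψ (x, y)| ≤ ν := by
      intro y hy y' hy' hyy
      rw [h1 y y' hyy fun t ht => hsub (by
        rw [mem_cb_iff]
        exact ⟨abs_le.mpr ⟨by linarith [hx.1], by linarith [hx.2]⟩,
          abs_le.mpr ⟨by linarith [ht.1, hy.1], by linarith [ht.2, hy'.2]⟩⟩)]
      have e1 : ∫ t in y..y', Z1 (x, t) = ∫ t in y..y', Y1 (x, t) := by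
        rw [intervalIntegral.integral_of_le hyy, intervalIntegral.integral_of_le hyy,
          integral_Ioc_eq_integral_Ioo, integral_Ioc_eq_integral_Ioo]
        refine setIntegral_congr_fun measurableSet_Ioo fun t ht => ?_
        refine (hZ (x, t) ?_).1
        rw [mem_ball_iff]
        exact ⟨hx, by linarith [ht.1, hy.1], by linarith [ht.2, hy'.2]⟩
      rw [e1]
      have e2 := intervalIntegral.norm_integral_le_integral_norm (μ := volume)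
        (f := fun t => Y1 (x, t)) hyy
      rw [Real.norm_eq_abs] at e2
      refine e2.trans (le_trans ?_ h2.2)
      rw [intervalIntegral.integral_of_le hyy]
      exact setIntegral_le_integral h2.1.abs (Eventually.of_forall fun t => abs_nonneg _)
    intro y hy y' hy'
    rcases le_total y y' with hyy | hyy
    · exact key y hy y' hy' hyy
    · rw [abs_sub_comm]; exact key y' hy' y hy hyy
  have hHb : ∀ᵐ y : ℝ, y ∈ Ioo (c.2 - h) (c.2 + h) → ∀ x ∈ Icc (c.1 - h) (c.1 + h),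
      ∀ x' ∈ Icc (c.1 - h) (c.1 + h), |Ψ (x', y) - Ψ (x, y)| ≤ ν := by
    filter_upwards [hH, hY.Ly] with y h1 h2 hy
    have key : ∀ x ∈ Icc (c.1 - h) (c.1 + h), ∀ x' ∈ Icc (c.1 - h) (c.1 + h), x ≤ x' →
        |Ψ (x', y) - Ψ (x, y)| ≤ ν := by
      intro x hx x' hx' hxx
      rw [h1 x x' hxx fun t ht => hsub (by
        rw [mem_cb_iff]
        exact ⟨abs_le.mpr ⟨by linarith [ht.1, hx.1], by linarith [ht.2, hx'.2]⟩,
          abs_le.mpr ⟨by linarith [hy.1], by linarith [hy.2]⟩⟩)]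
      have e1 : ∫ t in x..x', Z2 (t, y) = ∫ t in x..x', Y2 (t, y) := by
        rw [intervalIntegral.integral_of_le hxx, intervalIntegral.integral_of_le hxx,
          integral_Ioc_eq_integral_Ioo, integral_Ioc_eq_integral_Ioo]
        refine setIntegral_congr_fun measurableSet_Ioo fun t ht => ?_
        refine (hZ (t, y) ?_).2
        rw [mem_ball_iff]
        exact ⟨⟨by linarith [ht.1, hx.1], by linarith [ht.2, hx'.2]⟩, hy⟩
      rw [e1, abs_neg]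
      have e2 := intervalIntegral.norm_integral_le_integral_norm (μ := volume)
        (f := fun t => Y2 (t, y)) hxx
      rw [Real.norm_eq_abs] at e2
      refine e2.trans (le_trans ?_ h2.2)
      rw [intervalIntegral.integral_of_le hxx]
      exact setIntegral_le_integral h2.1.abs (Eventually.of_forall fun t => abs_nonneg _)
    intro x hx x' hx'
    rcases le_total x x' with hxx | hxx
    · exact key x hx x' hx' hxx
    · rw [abs_sub_comm]; exact key x' hx' x hx hxx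
  -- a good vertical line
  have hEx : ∀ᵐ x : ℝ, ∀ᵐ y : ℝ, (x, y) ∈ W → Ψ (x, y) = ψ (x, y) := ae_unswap hE
  have hpos : (volume : Measure ℝ) (Ioo (c.1 - h) (c.1 + h)) ≠ 0 := by
    rw [Real.volume_Ioo]
    simp only [ne_eq, ENNReal.ofReal_eq_zero, not_le]
    linarith
  obtain ⟨x0, hx0, hx1, hx2⟩ :=
    (frequently_ae_mem_iff.mpr hpos |>.and_eventually (hVb.and hEx)).exists
  refine ⟨ψ (x0, c.2), ?_⟩
  have hnb : ∀ᵐ p : ℝ × ℝ, p ∈ closedBall c h → p ∈ ball c h := by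
    filter_upwards [(ball_ae_closedBall c hh).mem_iff] with p hp hpc using hp.mp hpc
  filter_upwards [hE, ae_snd' hHb, ae_snd' hx2, hnb] with p h1 h2 h3 h4 hp
  have hpb := h4 hp
  rw [mem_ball_iff] at hpb
  have hpI1 : p.1 ∈ Icc (c.1 - h) (c.1 + h) := Ioo_subset_Icc_self hpb.1
  have hpI2 : p.2 ∈ Icc (c.2 - h) (c.2 + h) := Ioo_subset_Icc_self hpb.2
  have hcI : c.2 ∈ Icc (c.2 - h) (c.2 + h) := ⟨by linarith, by linarith⟩
  have k1 := h2 hpb.2 x0 (Ioo_subset_Icc_self hx0) p.1 hpI1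
  have k2 := hx1 hx0 c.2 hcI p.2 hpI2
  have k3 : Ψ (x0, p.2) = ψ (x0, p.2) := h3 (hsub (by
    rw [mem_cb_iff]
    exact ⟨abs_le.mpr ⟨by linarith [hx0.1], by linarith [hx0.2]⟩,
      abs_le.mpr ⟨by linarith [hpI2.1], by linarith [hpI2.2]⟩⟩))
  have k4 : Ψ p = ψ p := h1 (hsub hp)
  have k5 : Ψ (p.1, p.2) = ψ p := k4
  rw [k3, k5] at k1
  have e : ψ p - ψ (x0, c.2) = (ψ p - ψ (x0, p.2)) + (ψ (x0, p.2) - ψ (x0, c.2)) := by ring
  rw [e]
  refine (abs_add_le _ _).trans ?_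
  linarith

/-- **the data of the approximation theorem from the glued data** -/
theorem GlueD.aps (D : GlueD E W 𝒬 f ψ Ψ X1 X2 n1 n2) (hE : QPic E 𝒬 𝓗) :
    ∃ (G : ℝ × ℝ → ℝ≥0∞) (ψ' Ψ' : ℝ × ℝ → ℝ) (o : Sqr → ℝ),
      Aps E W 𝒬 f ψ' Ψ' G (fun Q => n1 Q + n2 Q) o := by
  have hcount : Countable (SqIn 𝒬 W) := SqIn.countable hE
  have hf1 : ∀ i : SqIn 𝒬 W, IsFiniteMeasure (n1 i.1) := fun i => D.fin1 i.1 i.2.1 i.2.2
  have hf2 : ∀ i : SqIn 𝒬 W, IsFiniteMeasure (n2 i.1) := fun i => D.fin2 i.1 i.2.1 i.2.2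
  -- a box
  obtain ⟨R, hR0, hR⟩ := hE.cpt.isBounded.subset_ball_lt 0 (0 : ℝ × ℝ)
  have hbox : ∀ i : SqIn 𝒬 W, ball (cen i.1) (i.1.s / 2) ⊆ Ioo (-R) R ×ˢ Ioo (-R) R := by
    intro i p hp
    have h1 : p ∈ ball (0 : ℝ × ℝ) R := hR (hE.sub i.1 i.2.1 (by
      rw [car_eq]; exact ball_subset_closedBall hp))
    rw [mem_ball_iff] at h1
    simpa using h1
  have hUE : (⋃ i : SqIn 𝒬 W, ball (cen i.1) (i.1.s / 2)) ⊆ E := by
    refine iUnion_subset fun i => (ball_subset_closedBall.trans ?_)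
    rw [← car_eq]; exact hE.sub i.1 i.2.1
  have hd : Pairwise fun i j : SqIn 𝒬 W =>
      Disjoint (ball (cen i.1) (i.1.s / 2)) (ball (cen j.1) (j.1.s / 2)) := by
    intro i j hij
    exact (SqIn.disj hE hij).mono ball_subset_closedBall ball_subset_closedBall
  have hmass : ∀ i : SqIn 𝒬 W, (n1 i.1 univ + n2 i.1 univ).toReal = 2 * (n1 i.1 univ).toReal := by
    intro i
    rw [← D.mass i.1 i.2.1 i.2.2, ENNReal.toReal_add (measure_ne_top _ _) (measure_ne_top _ _)]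
    ring
  have hs2 : Summable fun i : SqIn 𝒬 W => (i.1.s / 2) ^ 2 := by
    have h1 := hE.summable_sq
    have h2 := h1.comp_injective (i := fun i : SqIn 𝒬 W => (⟨i.1, i.2.1⟩ : 𝒬))
      (fun i j hij => Subtype.ext (by simpa using hij))
    refine (h2.mul_left (1 / 4)).congr fun i => ?_
    simp only [Function.comp]
    ring
  have hs : Summable fun i : SqIn 𝒬 W => i.1.s / 2 * (n1 i.1 univ + n2 i.1 univ).toReal := by
    refine Summable.of_nonneg_of_le (fun i => ?_) (fun i => ?_) (hs2.add D.mass2)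
    · have := i.pos
      have h2 : 0 ≤ (n1 i.1 univ + n2 i.1 univ).toReal := ENNReal.toReal_nonneg
      positivity
    · rw [hmass]
      nlinarith [sq_nonneg (i.1.s / 2 - (n1 i.1 univ).toReal)]
  obtain ⟨Z1, Z2, Y1, Y2, δV, δH, hY, mZ1, mZ2, iZ1, iZ2, ho, hi, mδV, mδH, hδ0, hδe, hδV, hδH⟩ :=
    refill (c := fun i : SqIn 𝒬 W => cen i.1) (h := fun i => i.1.s / 2) (fun i => i.pos) hd
      (show -R < R by linarith) hbox (fun i => n1 i.1) (fun i => n2 i.1)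
      (fun i => by rw [← car_eq]; exact D.c1 i.1 i.2.1 i.2.2)
      (fun i => by rw [← car_eq]; exact D.c2 i.1 i.2.1 i.2.2)
      (fun i => D.mass i.1 i.2.1 i.2.2) hs D.m1 D.m2 D.i1 D.i2
      (fun i => D.F1 i.1 i.2.1 i.2.2)
  -- the line formulas
  have hV : ∀ᵐ x : ℝ, ∀ y y', y ≤ y' → (∀ t ∈ Icc y y', (x, t) ∈ W) →
      (ψ (x, y') - δV (x, y')) - (ψ (x, y) - δV (x, y)) = ∫ t in y..y', Z1 (x, t) := by
    filter_upwards [D.V, hδV, int_x D.i1, int_x iZ1] with x h1 h2 h3 h4 y y' hyy hW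
    have e1 := h1 y y' hyy hW
    have e2 := h2 y y'
    rw [intervalIntegral.integral_sub h3.intervalIntegrable h4.intervalIntegrable] at e2
    linarith
  have hH : ∀ᵐ y : ℝ, ∀ x x', x ≤ x' → (∀ s ∈ Icc x x', (s, y) ∈ W) →
      (Ψ (x', y) - δH (x', y)) - (Ψ (x, y) - δH (x, y)) = -∫ s in x..x', Z2 (s, y) := by
    filter_upwards [D.H, hδH, int_y D.i2, int_y iZ2] with y h1 h2 h3 h4 x x' hxx hW
    have e1 := h1 x x' hxx hW
    have e2 := h2 x x'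
    rw [intervalIntegral.integral_sub h3.intervalIntegrable h4.intervalIntegrable] at e2
    linarith
  have hEe : ∀ᵐ p : ℝ × ℝ, p ∈ W → Ψ p - δH p = ψ p - δV p := by
    filter_upwards [D.ae_eq, hδe] with p h1 h2 hp
    rw [h1 hp, h2]
  have iδV : Integrable δV := by
    refine int_of_V mδV (D.i1.sub iZ1) (a := -R) (b := R) (c := -R) (B := R) (fun p hp => ?_) hδV
    refine (hδ0 p fun hc => hp ?_).1
    obtain ⟨i, hi'⟩ := mem_iUnion.mp hc
    have := hbox i hi'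
    exact ⟨this.1, this.2⟩
  have hEm := hE.cpt.isClosed.measurableSet
  have hWE : MeasurableSet (W \ E) := D.hW.measurableSet.diff hEm
  have hZX : ∀ p ∈ W \ E, Z1 p = X1 p ∧ Z2 p = X2 p := fun p hp => ho p fun hc => hp.2 (hUE hc)
  refine ⟨GZ Z1 Z2, fun p => ψ p - δV p, fun p => Ψ p - δH p,
    fun Q => 2 * (n1 Q univ + n2 Q univ).toReal, ?_⟩
  exact
  { hW := D.hW
    alt := D.alt
    mG := measurable_GZ mZ1 mZ2
    G1 := by
      refine ne_top_of_le_ne_top ?_ (setLIntegral_le_lintegral W _)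
      unfold GZ
      rw [lintegral_add_left mZ1.enorm]
      exact ENNReal.add_ne_top.mpr ⟨iZ1.2.ne, iZ2.2.ne⟩
    G2 := by
      have e1 : ∀ X : ℝ × ℝ → ℝ, IntegrableOn (fun p => X p ^ 2) (W \ E) →
          ∫⁻ p in W \ E, ‖X p‖ₑ ^ 2 ≠ ∞ := by
        intro X hX
        have h1 := hX.2
        unfold HasFiniteIntegral at h1
        simp only [enorm_pow] at h1
        exact h1.ne
      have e2 : ∫⁻ p in W \ E, GZ Z1 Z2 p ^ 2 ≤
          ∫⁻ p in W \ E, 2 * (‖X1 p‖ₑ ^ 2 + ‖X2 p‖ₑ ^ 2) := by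
        refine setLIntegral_mono' hWE fun p hp => ?_
        unfold GZ
        rw [(hZX p hp).1, (hZX p hp).2]
        exact sq2 _ _
      refine ne_top_of_le_ne_top ?_ e2
      rw [lintegral_const_mul' _ _ (by norm_num), lintegral_add_left (D.m1.enorm.pow_const 2)]
      exact ENNReal.mul_ne_top (by norm_num) (ENNReal.add_ne_top.mpr ⟨e1 _ D.s1, e1 _ D.s2⟩)
    L :=
    { H := by
        filter_upwards [hH] with y h1 x x' hxx hW
        rw [h1 x x' hxx hW, enorm_neg]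
        exact enorm_ii_le hxx fun s => le_add_self
      V := by
        filter_upwards [hV] with x h1 y y' hyy hW
        rw [h1 y y' hyy hW]
        exact enorm_ii_le hyy fun s => le_self_add
      E := hEe }
    int := fun z r hz => (D.int z r hz).sub iδV.integrableOn
    cont := D.cont
    eq := by
      filter_upwards [D.eq] with p hp hpW
      rw [(hδ0 p fun hc => hpW.2 (hUE hc)).1, sub_zero]
      exact hp hpW
    fin := by
      intro Q hQ hQW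
      have := D.fin1 Q hQ hQW
      have := D.fin2 Q hQ hQW
      infer_instance
    flx := by
      intro Q hQ hQW z r hr hz
      exact flux_local (c := fun i : SqIn 𝒬 W => cen i.1) (h := fun i => i.1.s / 2)
        (fun i => i.pos) hY hi ⟨Q, hQ, hQW⟩ z r hr hz
    μ2 := by
      have h1 : ∀ i : SqIn 𝒬 W, (n1 i.1 + n2 i.1) univ ^ 2 =
          ENNReal.ofReal ((2 * (n1 i.1 univ).toReal) ^ 2) := by
        intro i
        rw [Measure.add_apply, ← hmass, ENNReal.ofReal_pow ENNReal.toReal_nonneg,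
          ENNReal.ofReal_toReal (ENNReal.add_ne_top.mpr ⟨measure_ne_top _ _, measure_ne_top _ _⟩)]
      simp_rw [h1]
      have h2 : Summable fun i : SqIn 𝒬 W => (2 * (n1 i.1 univ).toReal) ^ 2 := by
        refine (D.mass2.mul_left 4).congr fun i => by ring
      rw [← ENNReal.ofReal_tsum_of_nonneg (fun i => sq_nonneg _) h2]
      exact ENNReal.ofReal_ne_top
    o0 := fun Q => by positivity
    o2 := by
      have h2 : Summable fun i : SqIn 𝒬 W =>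
          (2 * (n1 i.1 univ + n2 i.1 univ).toReal) ^ 2 := by
        refine (D.mass2.mul_left 16).congr fun i => ?_
        rw [hmass]; ring
      rw [← ENNReal.ofReal_tsum_of_nonneg (fun i => sq_nonneg _) h2]
      exact ENNReal.ofReal_ne_top
    osc := by
      intro Q hQ hQW
      refine osc_fill (W := W) (Z1 := Z1) (Z2 := Z2) (SqIn.pos ⟨Q, hQ, hQW⟩) (hY ⟨Q, hQ, hQW⟩)
        (hi ⟨Q, hQ, hQW⟩) ?_ hV hH hEe
      rw [← car_eq]; exact hQW }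

/-- **PlaLim from the glued data.** -/
theorem GlueD.plaLim (D : GlueD E W 𝒬 f ψ Ψ X1 X2 n1 n2) (hE : QPic E 𝒬 𝓗)
    {κ : ℝ × ℝ → ℝ} {T : ℝ → ℝ}
    {Lκ LT : ℝ≥0} {C : ℝ} (hκ : LipschitzWith Lκ κ) (hκc : HasCompactSupport κ)
    (hκW : tsupport κ ⊆ W) (hT : LipschitzWith LT T) (hC : ∀ s, |T s| ≤ C) :
    PlaLim E 𝒬 fun p => κ p * T (f p) := by
  obtain ⟨G, ψ', Ψ', o, A⟩ := D.aps hE
  exact A.plaLim hE hκ hκc hκW hT hC

end Crest.Agent.R105.Mq_347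
end

-- ▼ part R105/Ge1_347
section

/-! Row 105, S0138, Lemma A with squares (helper347, leaf (L8)): the glued stream function satisfies the
hypotheses `GlueD` of the planar approximation. Part A: charges of one half, line formulas. -/

set_option autoImplicit false

open MeasureTheory Set Metric Filter Topology
open scoped ENNReal NNReal

namespace Crest.Agent.R105.Ge_347

open CF_363 Stp_722 Cq_463 Psq_425 Mq_347 Sq_87 Hq_363 Kbx_247 Gl_363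
open Mp_87 (lam)
open SqJ_361 (cl)

variable {ι : Type}

/-- the charges of one half -/
structure ChQ (Q : Rects ι) (X1 X2 : ℝ × ℝ → ℝ) (f : ι → ℝ) (np nm : ι → Measure (ℝ × ℝ)) :
    Prop where
  fp : ∀ i, IsFiniteMeasure (np i)
  fm : ∀ i, IsFiniteMeasure (nm i)
  cp : ∀ i, np i (cl Q i)ᶜ = 0
  cm : ∀ i, nm i (cl Q i)ᶜ = 0
  mp : ∀ i, (np i univ).toReal = f i
  mm : ∀ i, (nm i univ).toReal = f i
  f2 : Summable fun i => f i ^ 2
  one : ∀ i (L : ℝ) (e : ℝ × ℝ → ℝ), 0 ≤ L → (∀ p q, |e p - e q| ≤ L * dist p q) →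
    ∫ p in Q.op i, (X1 p * gx e p + X2 p * gy e p) = (∫ p, e p ∂(np i)) - ∫ p, e p ∂(nm i)

open Classical in
/-- the charge as a function of the square -/
noncomputable def cS (sq : ι → Sqr) (n : ι → Measure (ℝ × ℝ)) (Q₀ : Sqr) : Measure (ℝ × ℝ) :=
  if h : ∃ i, sq i = Q₀ then n h.choose else 0

variable {E S W : Set (ℝ × ℝ)} {𝒬 : Set Sqr} {𝓗 : Set Hair} {Q : Rects ι} {sq : ι → Sqr}
  {a b c d B T M : ℝ} {X1 X2 ψ Ψ : ℝ × ℝ → ℝ} {μ : Measure (ℝ × ℝ)} {f : ι → ℝ}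
  {np nm n : ι → Measure (ℝ × ℝ)}

theorem op_eq_sq (G : GeoC E S 𝒬 𝓗 Q sq a b c B T) (i : ι) : Q.op i =
    Ioo (sq i).x ((sq i).x + (sq i).s) ×ˢ Ioo (sq i).y (min ((sq i).y + (sq i).s) B) := by
  unfold Rects.op
  rw [G.x1, G.x2, G.y1, G.y2]

theorem cl_eq_sq (G : GeoC E S 𝒬 𝓗 Q sq a b c B T) (i : ι) : cl Q i =
    Icc (sq i).x ((sq i).x + (sq i).s) ×ˢ Icc (sq i).y (min ((sq i).y + (sq i).s) B) := by
  unfold cl SqJ_361.rc
  rw [G.x1, G.x2, G.y1, G.y2]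

theorem cl_sub (G : GeoC E S 𝒬 𝓗 Q sq a b c B T) (i : ι) : cl Q i ⊆ (sq i).car := by
  rw [cl_eq_sq G]
  rintro p ⟨h1, h2⟩
  exact Sqr.mem_car.2 ⟨h1, h2.1, h2.2.trans (min_le_left _ _)⟩

theorem op_nonempty (Q : Rects ι) (i : ι) : (Q.x i, Q.y i) ∈ Q.op i :=
  ⟨⟨by simp only; linarith [Q.p1 i], by simp only; linarith [Q.p1 i]⟩,
    by simp only; linarith [Q.p2 i], by simp only; linarith [Q.p2 i]⟩

theorem sq_inj (G : GeoC E S 𝒬 𝓗 Q sq a b c B T)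
    (dis : Pairwise (fun i j => Disjoint (Q.op i) (Q.op j))) : Function.Injective sq := by
  intro i j hij
  by_contra hne
  refine Set.disjoint_left.1 (dis hne) (op_nonempty Q i) ?_
  rw [op_eq_sq G j, ← hij, ← op_eq_sq G i]
  exact op_nonempty Q i

theorem cS_sq (hi : Function.Injective sq) (i : ι) : cS sq n (sq i) = n i := by
  have h : ∃ j, sq j = sq i := ⟨i, rfl⟩
  unfold cS
  rw [dif_pos h, hi h.choose_spec]

theorem cS_not {Q₀ : Sqr} (h : ¬ ∃ i, sq i = Q₀) : cS sq n Q₀ = 0 := by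
  unfold cS
  rw [dif_neg h]

theorem cS_fin (h : ∀ i, IsFiniteMeasure (n i)) (Q₀ : Sqr) : IsFiniteMeasure (cS sq n Q₀) := by
  unfold cS
  split_ifs with h1
  · exact h _
  · infer_instance

theorem cS_car (G : GeoC E S 𝒬 𝓗 Q sq a b c B T) (h : ∀ i, n i (cl Q i)ᶜ = 0) (Q₀ : Sqr) :
    cS sq n Q₀ Q₀.carᶜ = 0 := by
  unfold cS
  split_ifs with h1
  · refine measure_mono_null (compl_subset_compl.2 ?_) (h h1.choose)
    have := cl_sub G h1.choose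
    rwa [h1.choose_spec] at this
  · simp

/-- total mass of the charges -/
theorem cS_mass (C : ChQ Q X1 X2 f np nm) (Q₀ : Sqr) : cS sq np Q₀ univ = cS sq nm Q₀ univ := by
  unfold cS
  split_ifs with h1
  · have h2 := C.fp h1.choose
    have h3 := C.fm h1.choose
    have e : (np h1.choose univ).toReal = (nm h1.choose univ).toReal := by rw [C.mp, C.mm]
    exact (ENNReal.toReal_eq_toReal_iff' (measure_ne_top _ _) (measure_ne_top _ _)).mp e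
  · rfl

theorem cS_sum (hi : Function.Injective sq) (hf : ∀ i, (n i univ).toReal = f i)
    (hs : Summable fun i => f i ^ 2) : Summable fun Q₀ : Sqr => (cS sq n Q₀ univ).toReal ^ 2 := by
  rw [← hi.summable_iff]
  · refine hs.congr fun i => ?_
    simp only [Function.comp]
    rw [cS_sq hi, hf]
  · intro Q₀ hQ
    rw [cS_not hQ]; simp

/-- the flux identity in one square -/
theorem cS_F1 (G : GeoC E S 𝒬 𝓗 Q sq a b c B T)
    (dis : Pairwise (fun i j => Disjoint (Q.op i) (Q.op j))) (C : ChQ Q X1 X2 f np nm)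
    (B1 : ∀ p : ℝ × ℝ, B ≤ p.2 → X1 p = 0) (B2 : ∀ p : ℝ × ℝ, B ≤ p.2 → X2 p = 0)
    {Q₀ : Sqr} (hQ : Q₀ ∈ 𝒬) (hS : Disjoint Q₀.car S) {L : ℝ} {e : ℝ × ℝ → ℝ} (hL : 0 ≤ L)
    (he : ∀ p q, |e p - e q| ≤ L * dist p q) :
    ∫ p in ball (cen Q₀) (Q₀.s / 2), (X1 p * gx e p + X2 p * gy e p) =
      (∫ p, e p ∂(cS sq np Q₀)) - ∫ p, e p ∂(cS sq nm Q₀) := by
  have hb : ∀ p : ℝ × ℝ, p ∈ ball (cen Q₀) (Q₀.s / 2) ↔
      p.1 ∈ Ioo Q₀.x (Q₀.x + Q₀.s) ∧ p.2 ∈ Ioo Q₀.y (Q₀.y + Q₀.s) := by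
    intro p
    rw [mem_ball_iff]
    simp only [cen]
    have e1 : Q₀.x + Q₀.s / 2 - Q₀.s / 2 = Q₀.x := by ring
    have e2 : Q₀.x + Q₀.s / 2 + Q₀.s / 2 = Q₀.x + Q₀.s := by ring
    have e3 : Q₀.y + Q₀.s / 2 - Q₀.s / 2 = Q₀.y := by ring
    have e4 : Q₀.y + Q₀.s / 2 + Q₀.s / 2 = Q₀.y + Q₀.s := by ring
    rw [e1, e2, e3, e4]
  by_cases hy : Q₀.y < B
  · obtain ⟨i, hi⟩ := G.sqs Q₀ hQ hS hy
    have hinj := sq_inj G dis
    rw [← hi, cS_sq hinj, cS_sq hinj, ← C.one i L e hL he, hi]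
    have hsub : Q.op i ⊆ ball (cen Q₀) (Q₀.s / 2) := by
      intro p hp
      rw [op_eq_sq G, hi] at hp
      rw [hb]
      exact ⟨hp.1, hp.2.1, hp.2.2.trans_le (min_le_left _ _)⟩
    refine setIntegral_eq_of_subset_of_forall_sdiff_eq_zero isOpen_ball.measurableSet hsub ?_
    rintro p ⟨hp, hp2⟩
    have hpB : B ≤ p.2 := by
      by_contra hc
      push Not at hc
      refine hp2 ?_
      rw [hb] at hp
      rw [op_eq_sq G, hi]
      exact ⟨hp.1, hp.2.1, lt_min hp.2.2 hc⟩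
    rw [B1 p hpB, B2 p hpB]; ring
  · push Not at hy
    have hno : ¬ ∃ i, sq i = Q₀ := by
      rintro ⟨i, hi⟩
      have := (G.sqm i).2.2
      rw [hi] at this
      exact absurd this (not_lt.2 hy)
    rw [cS_not hno, cS_not hno]
    simp only [integral_zero_measure, sub_self]
    refine (setIntegral_congr_fun isOpen_ball.measurableSet (g := fun _ => 0) fun p hp => ?_).trans
      (by simp)
    have hpB : B ≤ p.2 := hy.trans ((hb p).1 hp).2.1.le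
    simp only
    rw [B1 p hpB, B2 p hpB]; ring

/-! ### integrability of `ψ` up to the level `M` -/

theorem intψ_M [IsFiniteMeasure μ] (L : LinesI a b c B 1 X1 X2 μ ψ Ψ) :
    IntegrableOn ψ (Ioo a b ×ˢ Ioc c M) := by
  have h1 : IntegrableOn ψ (Ioo a b ×ˢ Ioo c B) := L.intψ (by simp)
  have hfin : volume (Ioo a b ×ˢ Icc B M : Set (ℝ × ℝ)) ≠ ⊤ := by
    rw [Measure.volume_eq_prod, Measure.prod_prod]
    simp [Real.volume_Ioo, Real.volume_Icc, ENNReal.mul_eq_top]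
  have h2 : IntegrableOn ψ (Ioo a b ×ˢ Icc B M) := by
    refine Measure.integrableOn_of_bounded (M := (μ univ).toReal) hfin
      L.mψ.aestronglyMeasurable ?_
    rw [ae_restrict_iff' (measurableSet_Ioo.prod measurableSet_Icc)]
    refine Eventually.of_forall fun p hp => ?_
    rw [L.strip p hp.2.1, neg_one_mul, norm_neg, Real.norm_eq_abs]
    exact abs_lam_le μ _
  refine (h1.union h2).mono_set ?_
  rintro p ⟨hp1, hp2, hp3⟩
  rcases lt_or_ge p.2 B with h | h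
  · exact Or.inl ⟨hp1, hp2, h⟩
  · exact Or.inr ⟨hp1, h, hp3⟩

end Crest.Agent.R105.Ge_347
end

-- ▼ part R105/Ge2_347
section

/-! Row 105, S0138, Lemma A with squares (helper347, leaf (L8)): the glued stream function satisfies the
hypotheses `GlueD` of the planar approximation. Part B: the glued data. -/

set_option autoImplicit false

open MeasureTheory Set Metric Filter Topology
open scoped ENNReal NNReal

namespace Crest.Agent.R105.Ge_347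

open CF_363 Stp_722 Cq_463 Psq_425 Mq_347 Sq_87 Hq_363 Kbx_247 Gl_363
open Mp_87 (lam)

variable {ι ι' : Type} {E S W : Set (ℝ × ℝ)} {𝒬 : Set Sqr} {𝓗 : Set Hair} {Q : Rects ι}
  {Q' : Rects ι'} {sq : ι → Sqr} {sq' : ι' → Sqr} {a b c d Bm Bp Tl Tu M : ℝ}
  {X1 X2 ψ Ψ Y1 Y2 ψ' Ψ' g g' : ℝ × ℝ → ℝ} {μ ν : Measure (ℝ × ℝ)} {f : ι → ℝ} {f' : ι' → ℝ}
  {np nm : ι → Measure (ℝ × ℝ)} {np' nm' : ι' → Measure (ℝ × ℝ)}

theorem ae_neg' {P : ℝ → Prop} (h : ∀ᵐ y : ℝ, P y) : ∀ᵐ y : ℝ, P (-y) :=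
  (Measure.measurePreserving_neg (volume : Measure ℝ)).quasiMeasurePreserving.ae h

theorem ae_rf {P : ℝ × ℝ → Prop} (h : ∀ᵐ p : ℝ × ℝ, P p) : ∀ᵐ p : ℝ × ℝ, P (rf p) :=
  measurePreserving_rf.quasiMeasurePreserving.ae h

/-- vertical line formula of the glued function -/
theorem glue_V (T : TwoG E S 𝒬 𝓗 Q Q' sq sq' a b c d Bm Bp Tl Tu M X1 X2 ψ Ψ Y1 Y2 ψ' Ψ' μ ν f f'
      g g') (hWR : W ⊆ Ioo a b ×ˢ Ioo c d) (hWS : Disjoint W S) :
    ∀ᵐ x : ℝ, ∀ y y', y ≤ y' → (∀ t ∈ Icc y y', (x, t) ∈ W) →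
      glF M ψ ψ' (x, y') - glF M ψ ψ' (x, y) = ∫ t in y..y', W2 X1 Y1 (x, t) := by
  have L := T.D.L
  have L' := T.D'.L
  have hBM := T.BM
  have hMB := T.MB
  filter_upwards [L.V, L'.V, int_x L.L1, int_x L'.L1] with x h1 h2 h3 h4 y y' hyy hW
  have hx : x ∈ Ioo a b := (hWR (hW y ⟨le_rfl, hyy⟩)).1
  have hy : c < y := (hWR (hW y ⟨le_rfl, hyy⟩)).2.1
  have hy' : y' < d := (hWR (hW y' ⟨hyy, le_rfl⟩)).2.2
  have hint : ∀ u v, IntervalIntegrable (fun t => W2 X1 Y1 (x, t)) volume u v := by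
    intro u v
    have e2 : Integrable fun t : ℝ => Y1 (x, -t) := h4.comp_neg
    exact (h3.sub e2).intervalIntegrable
  have lo : ∀ u v, c < u → u ≤ v → v ≤ M → ψ (x, v) - ψ (x, u) = ∫ t in u..v, W2 X1 Y1 (x, t) := by
    intro u v hu huv hv
    rw [h1 hx u v hu huv]
    refine intervalIntegral.integral_congr fun t ht => ?_
    rw [uIcc_of_le huv] at ht
    show X1 (x, t) = X1 (x, t) - Y1 (x, -t)
    rw [T.B1' (x, -t) (by simp only; linarith [ht.2]), sub_zero]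
  have up : ∀ u v, M ≤ u → u ≤ v → v < d →
      ψ' (x, -v) - ψ' (x, -u) = ∫ t in u..v, W2 X1 Y1 (x, t) := by
    intro u v hu huv hv
    have e1 := h2 hx (-v) (-u) (by linarith) (by linarith)
    have e2 : ∫ t in u..v, W2 X1 Y1 (x, t) = ∫ t in u..v, -(Y1 (x, -t)) := by
      refine intervalIntegral.integral_congr fun t ht => ?_
      rw [uIcc_of_le huv] at ht
      show X1 (x, t) - Y1 (x, -t) = -(Y1 (x, -t))
      rw [T.B1 (x, t) (by simp only; linarith [ht.1]), zero_sub]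
    rw [e2, intervalIntegral.integral_neg,
      intervalIntegral.integral_comp_neg (fun t => Y1 (x, t)), ← e1]
    ring
  rcases lt_or_ge y' M with h | h
  · have e1 : glF M ψ ψ' (x, y') = ψ (x, y') := if_pos h
    have e2 : glF M ψ ψ' (x, y) = ψ (x, y) := if_pos (lt_of_le_of_lt hyy h)
    rw [e1, e2]
    exact lo y y' hy hyy h.le
  · have e1 : glF M ψ ψ' (x, y') = ψ' (x, -y') := if_neg (not_lt.2 h)
    rcases lt_or_ge y M with h' | h'
    · have e2 : glF M ψ ψ' (x, y) = ψ (x, y) := if_pos h'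
      have e3 := lo y M hy h'.le le_rfl
      have e4 := up M y' le_rfl h hy'
      have e5 : ψ (x, M) = -1 * lam μ x := L.strip (x, M) (by simp only; linarith)
      have e6 : ψ' (x, -M) = -1 * lam ν x := L'.strip (x, -M) (by simp only; linarith)
      have hMW : (x, M) ∈ W := hW M ⟨h'.le, h⟩
      have e7 : lam μ x = lam ν x := by
        have hMS : (x, M) ∉ S := fun hS => Set.disjoint_left.1 hWS hMW hS
        exact T.marg (x, M) ⟨hx, hBM, hMB⟩ T.Ml hMS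
      rw [e1, e2, ← intervalIntegral.integral_add_adjacent_intervals (hint y M) (hint M y'), ← e3,
        ← e4, e5, e6, e7]
      ring
    · have e2 : glF M ψ ψ' (x, y) = ψ' (x, -y) := if_neg (not_lt.2 h')
      rw [e1, e2]
      exact up y y' h' hyy hy'

/-- horizontal line formula of the glued function -/
theorem glue_H (T : TwoG E S 𝒬 𝓗 Q Q' sq sq' a b c d Bm Bp Tl Tu M X1 X2 ψ Ψ Y1 Y2 ψ' Ψ' μ ν f f'
      g g') (hWR : W ⊆ Ioo a b ×ˢ Ioo c d)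
    (k1 : ∀ᵐ q ∂μ, ∀ y ∈ Ico q.2 Tl, (q.1, y) ∉ W)
    (k2 : ∀ᵐ q ∂ν, ∀ y ∈ Ico q.2 Tu, rf (q.1, y) ∉ W) :
    ∀ᵐ y : ℝ, ∀ x x', x ≤ x' → (∀ s ∈ Icc x x', (s, y) ∈ W) →
      glF M Ψ Ψ' (x', y) - glF M Ψ Ψ' (x, y) = -∫ s in x..x', (X2 (s, y) + Y2 (rf (s, y))) := by
  have L := T.D.L
  have L' := T.D'.L
  have hBM := T.BM
  have hMB := T.MB
  filter_upwards [L.H, ae_neg' L'.H] with y h1 h2 x x' hxx hW
  have hx : x ∈ Ioo a b := (hWR (hW x ⟨le_rfl, hxx⟩)).1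
  have hx' : x' ∈ Ioo a b := (hWR (hW x' ⟨hxx, le_rfl⟩)).1
  have hy : y ∈ Ioo c d := (hWR (hW x ⟨le_rfl, hxx⟩)).2
  rcases lt_or_ge y M with h | h
  · have e1 : glF M Ψ Ψ' (x', y) = Ψ (x', y) := if_pos h
    have e2 : glF M Ψ Ψ' (x, y) = Ψ (x, y) := if_pos h
    have e3 : μ {q | q.1 ∈ Ico x x' ∧ q.2 < y} = 0 := by
      rw [measure_eq_zero_iff_ae_notMem]
      filter_upwards [k1] with q hq hq2
      exact hq y ⟨hq2.2.le, h.trans T.Ml⟩ (hW q.1 ⟨hq2.1.1, hq2.1.2.le⟩)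
    rw [e1, e2, h1 hy.1 x hx x' hx' hxx, e3]
    simp only [ENNReal.toReal_zero, mul_zero, sub_zero]
    congr 1
    refine intervalIntegral.integral_congr fun s hs => ?_
    show X2 (s, y) = X2 (s, y) + Y2 (s, -y)
    rw [T.D'.XB (s, -y) (by simp only; linarith), add_zero]
  · have e1 : glF M Ψ Ψ' (x', y) = Ψ' (x', -y) := if_neg (not_lt.2 h)
    have e2 : glF M Ψ Ψ' (x, y) = Ψ' (x, -y) := if_neg (not_lt.2 h)
    have hTu : -Tu < M := lt_of_le_of_lt T.Mu T.BM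
    have e3 : ν {q | q.1 ∈ Ico x x' ∧ q.2 < -y} = 0 := by
      rw [measure_eq_zero_iff_ae_notMem]
      filter_upwards [k2] with q hq hq2
      refine hq (-y) ⟨hq2.2.le, by linarith⟩ ?_
      have := hW q.1 ⟨hq2.1.1, hq2.1.2.le⟩
      simpa using this
    rw [e1, e2, h2 (by linarith [hy.2]) x hx x' hx' hxx, e3]
    simp only [ENNReal.toReal_zero, mul_zero, sub_zero]
    congr 1
    refine intervalIntegral.integral_congr fun s hs => ?_
    show Y2 (s, -y) = X2 (s, y) + Y2 (s, -y)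
    rw [T.D.XB (s, y) (by simp only; linarith), zero_add]

/-- almost everywhere equality of the two versions -/
theorem glue_E (T : TwoG E S 𝒬 𝓗 Q Q' sq sq' a b c d Bm Bp Tl Tu M X1 X2 ψ Ψ Y1 Y2 ψ' Ψ' μ ν f f'
      g g') (hWR : W ⊆ Ioo a b ×ˢ Ioo c d) :
    ∀ᵐ p : ℝ × ℝ, p ∈ W → glF M Ψ Ψ' p = glF M ψ ψ' p := by
  filter_upwards [T.D.L.E, ae_rf T.D'.L.E] with p h1 h2 hp
  have hpR := hWR hp
  unfold glF
  split_ifs with h
  · exact h1 hpR.1 hpR.2.1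
  · exact h2 hpR.1 (by simp only [rf_snd]; linarith [hpR.2.2])

/-- local integrability -/
theorem glue_int (T : TwoG E S 𝒬 𝓗 Q Q' sq sq' a b c d Bm Bp Tl Tu M X1 X2 ψ Ψ Y1 Y2 ψ' Ψ' μ ν f
      f' g g') [IsFiniteMeasure μ] [IsFiniteMeasure ν] (hWR : W ⊆ Ioo a b ×ˢ Ioo c d) {C : Set (ℝ × ℝ)}
    (hC : MeasurableSet C) (hCW : C ⊆ W) : IntegrableOn (glF M ψ ψ') C := by
  have i1 : IntegrableOn ψ (Ioo a b ×ˢ Ioc c M) := intψ_M T.D.L
  have i2 : IntegrableOn ψ' (Ioo a b ×ˢ Ioc (-d) (-M)) := intψ_M T.D'.L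
  have i2' : IntegrableOn (fun p => ψ' (rf p)) (rf ⁻¹' (Ioo a b ×ˢ Ioc (-d) (-M))) :=
    integrableOn_rf.2 i2
  have hlt : MeasurableSet {p : ℝ × ℝ | p.2 < M} := measurableSet_lt measurable_snd measurable_const
  have c1 : C ∩ {p | p.2 < M} ⊆ Ioo a b ×ˢ Ioc c M := by
    rintro p ⟨hp, hp2⟩
    exact ⟨(hWR (hCW hp)).1, (hWR (hCW hp)).2.1, le_of_lt hp2⟩
  have c2 : C \ {p | p.2 < M} ⊆ rf ⁻¹' (Ioo a b ×ˢ Ioc (-d) (-M)) := by
    rintro p ⟨hp, hp2⟩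
    have h1 := hWR (hCW hp)
    have h2 : M ≤ p.2 := not_lt.1 hp2
    exact ⟨h1.1, by simp only [rf_snd]; linarith [h1.2.2], by simp only [rf_snd]; linarith⟩
  have j1 : IntegrableOn (glF M ψ ψ') (C ∩ {p | p.2 < M}) :=
    (integrableOn_congr_fun (fun p hp => (if_pos hp.2 : glF M ψ ψ' p = ψ p)) (hC.inter hlt)).2
      (i1.mono_set c1)
  have j2 : IntegrableOn (glF M ψ ψ') (C \ {p | p.2 < M}) :=
    (integrableOn_congr_fun (fun p hp => (if_neg hp.2 : glF M ψ ψ' p = ψ' (rf p)))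
      (hC.diff hlt)).2 (i2'.mono_set c2)
  have := j1.union j2
  rwa [inter_union_sdiff] at this

/-- continuity of the glued continuous representative -/
theorem glue_cont (T : TwoG E S 𝒬 𝓗 Q Q' sq sq' a b c d Bm Bp Tl Tu M X1 X2 ψ Ψ Y1 Y2 ψ' Ψ' μ ν f
      f' g g') (hWR : W ⊆ Ioo a b ×ˢ Ioo c d) : ContinuousOn (glF M g g') (W \ E) := by
  have hBM := T.BM
  have hMB := T.MB
  have hMl := T.Ml
  have hMu : -Tu < M := lt_of_le_of_lt T.Mu T.BM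
  have hunE : Q.un ⊆ E := by
    intro p hp
    obtain ⟨i, hi⟩ := mem_iUnion.1 hp
    refine T.G.pic.sub _ (T.G.sqm i).1 (cl_sub T.G i ?_)
    exact ⟨⟨hi.1.1.le, hi.1.2.le⟩, hi.2.1.le, hi.2.2.le⟩
  have hunE' : Q'.un ⊆ rf ⁻¹' E := by
    intro p hp
    obtain ⟨i, hi⟩ := mem_iUnion.1 hp
    refine T.G'.pic.sub _ (T.G'.sqm i).1 (cl_sub T.G' i ?_)
    exact ⟨⟨hi.1.1.le, hi.1.2.le⟩, hi.2.1.le, hi.2.2.le⟩
  intro p hp
  have hpR := hWR hp.1
  -- lower part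
  have k1 : p.2 < Tl → ContinuousWithinAt g (W \ E) p := by
    intro h
    have h1 : p ∈ (Ioo a b ×ˢ Ioo c Tl) \ (Q.un ∪ S) :=
      ⟨⟨hpR.1, hpR.2.1, h⟩, fun hh => hp.2 (hh.elim (fun h => hunE h) (fun h => T.G.SE h))⟩
    have h2 := T.H.cont p h1
    refine h2.mono_of_mem_nhdsWithin ?_
    have h3 : {q : ℝ × ℝ | q.2 < Tl} ∈ 𝓝[W \ E] p :=
      mem_nhdsWithin_of_mem_nhds ((isOpen_lt continuous_snd continuous_const).mem_nhds h)
    filter_upwards [h3, self_mem_nhdsWithin] with q hq hq2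
    have hqR := hWR hq2.1
    exact ⟨⟨hqR.1, hqR.2.1, hq⟩, fun hh => hq2.2 (hh.elim (fun h => hunE h) (fun h => T.G.SE h))⟩
  have k2 : -Tu < p.2 → ContinuousWithinAt (fun q => g' (rf q)) (W \ E) p := by
    intro h
    have h1 : rf p ∈ (Ioo a b ×ˢ Ioo (-d) Tu) \ (Q'.un ∪ rf ⁻¹' S) := by
      refine ⟨⟨hpR.1, ?_, ?_⟩, fun hh => hp.2 ?_⟩
      · simp only [rf_snd]; linarith [hpR.2.2]
      · simp only [rf_snd]; linarith
      · rcases hh with hh | hh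
        · have := hunE' hh
          simpa using this
        · have := T.G.SE hh
          simpa using this
    have h2 := T.H'.cont (rf p) h1
    refine ContinuousWithinAt.comp_of_mem_nhdsWithin_image (t := (Ioo a b ×ˢ Ioo (-d) Tu) \
      (Q'.un ∪ rf ⁻¹' S)) h2 continuous_rf.continuousWithinAt ?_
    have h4 : {q : ℝ × ℝ | q.2 < Tu} ∈ 𝓝[rf '' (W \ E)] (rf p) :=
      mem_nhdsWithin_of_mem_nhds ((isOpen_lt continuous_snd continuous_const).mem_nhds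
        (by simp only [mem_ofPred_eq, rf_snd]; linarith))
    filter_upwards [h4, self_mem_nhdsWithin] with q hq hq2
    obtain ⟨w, hw, rfl⟩ := hq2
    have hqR := hWR hw.1
    refine ⟨⟨hqR.1, ?_, hq⟩, fun hh => hw.2 ?_⟩
    · simp only [rf_snd]; linarith [hqR.2.2]
    · rcases hh with hh | hh
      · have := hunE' hh
        simpa using this
      · have := T.G.SE hh
        simpa using this
  rcases lt_trichotomy p.2 M with h | h | h
  · refine (k1 (h.trans hMl)).congr_of_eventuallyEq ?_ (if_pos h)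
    have h3 : {q : ℝ × ℝ | q.2 < M} ∈ 𝓝[W \ E] p :=
      mem_nhdsWithin_of_mem_nhds ((isOpen_lt continuous_snd continuous_const).mem_nhds h)
    filter_upwards [h3] with q hq
    exact if_pos hq
  · -- on the level
    have key : ∀ q ∈ W \ E, M ≤ q.2 → q.2 < Tl → q.2 < Bp → glF M g g' q = g q := by
      intro q hq h1 h2 h3
      have hqR := hWR hq.1
      have hqS : q ∉ S := fun hh => hq.2 (T.G.SE hh)
      have e1 : glF M g g' q = g' (rf q) := if_neg (not_lt.2 h1)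
      have e2 := T.H.strip q ⟨hqR.1, hqR.2.1, h2⟩ (by linarith) hqS
      have e3 := T.H'.strip (rf q) ⟨hqR.1, by simp only [rf_snd]; linarith [hqR.2.2],
        by simp only [rf_snd]; linarith⟩ (by simp only [rf_snd]; linarith) (by
          intro hh
          exact hqS (by simpa using hh))
      have e4 := T.marg q ⟨hqR.1, by linarith, h3⟩ h2 hqS
      rw [e1, e3, e2, rf_fst, e4]
    have hpM : p.2 < Bp := by linarith
    refine (k1 (by linarith)).congr_of_eventuallyEq ?_ (key p hp h.ge (by linarith) hpM)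
    have h3 : {q : ℝ × ℝ | q.2 < Tl} ∈ 𝓝[W \ E] p :=
      mem_nhdsWithin_of_mem_nhds ((isOpen_lt continuous_snd continuous_const).mem_nhds
        (show p.2 < Tl by linarith))
    have h4 : {q : ℝ × ℝ | q.2 < Bp} ∈ 𝓝[W \ E] p :=
      mem_nhdsWithin_of_mem_nhds ((isOpen_lt continuous_snd continuous_const).mem_nhds hpM)
    filter_upwards [h3, h4, self_mem_nhdsWithin] with q hq hq2 hq3
    rcases lt_or_ge q.2 M with h5 | h5
    · exact if_pos h5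
    · exact key q hq3 h5 hq hq2
  · refine (k2 (hMu.trans h)).congr_of_eventuallyEq ?_ (if_neg (not_lt.2 h.le))
    have h3 : {q : ℝ × ℝ | M < q.2} ∈ 𝓝[W \ E] p :=
      mem_nhdsWithin_of_mem_nhds ((isOpen_lt continuous_const continuous_snd).mem_nhds h)
    filter_upwards [h3] with q hq
    exact if_neg (not_lt.2 (le_of_lt hq))

end Crest.Agent.R105.Ge_347
end

-- ▼ part R105/Ge3_347
section

/-! Row 105, S0138, Lemma A with squares (helper347, leaf (L8)): the glued stream function satisfies the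
hypotheses `GlueD` of the planar approximation. Part C: `TwoG ⟹ GlueD`. -/

set_option autoImplicit false

open MeasureTheory Set Metric Filter Topology
open scoped ENNReal NNReal

namespace Crest.Agent.R105.Ge_347

open CF_363 Stp_722 Cq_463 Psq_425 Mq_347 Sq_87 Hq_363 Kbx_247 Gl_363
open Mp_87 (lam)

variable {ι ι' : Type} {E S W : Set (ℝ × ℝ)} {𝒬 : Set Sqr} {𝓗 : Set Hair} {Q : Rects ι}
  {Q' : Rects ι'} {sq : ι → Sqr} {sq' : ι' → Sqr} {a b c d Bm Bp Tl Tu M : ℝ}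
  {X1 X2 ψ Ψ Y1 Y2 ψ' Ψ' g g' : ℝ × ℝ → ℝ} {μ ν : Measure (ℝ × ℝ)} {f : ι → ℝ} {f' : ι' → ℝ}
  {np nm : ι → Measure (ℝ × ℝ)} {np' nm' : ι' → Measure (ℝ × ℝ)}

/-- the charge of a square in the glued picture -/
noncomputable def nn (sq : ι → Sqr) (n : ι → Measure (ℝ × ℝ)) (sq' : ι' → Sqr)
    (n' : ι' → Measure (ℝ × ℝ)) (Q₀ : Sqr) : Measure (ℝ × ℝ) :=
  cS sq n Q₀ + (cS sq' n' (rfS Q₀)).map rf

theorem integral_nn {n : ι → Measure (ℝ × ℝ)} {n' : ι' → Measure (ℝ × ℝ)} (Q₀ : Sqr)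
    {e : ℝ × ℝ → ℝ} (i1 : Integrable e (cS sq n Q₀))
    (i2 : Integrable (fun p => e (rf p)) (cS sq' n' (rfS Q₀))) :
    ∫ p, e p ∂(nn sq n sq' n' Q₀) =
      (∫ p, e p ∂(cS sq n Q₀)) + ∫ p, e (rf p) ∂(cS sq' n' (rfS Q₀)) := by
  unfold nn
  rw [integral_add_measure i1 ((measurableEmbedding_rf.integrable_map_iff).2 i2),
    measurableEmbedding_rf.integral_map]

/-- a Lipschitz function is integrable against a measure carried by a square -/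
theorem int_of_car {m : Measure (ℝ × ℝ)} [IsFiniteMeasure m] {K : Set (ℝ × ℝ)} (hK : IsCompact K)
    (hm : m Kᶜ = 0) {e : ℝ × ℝ → ℝ} (he : Continuous e) : Integrable e m := by
  obtain ⟨C, hC⟩ := hK.exists_bound_of_continuousOn he.continuousOn
  refine Integrable.of_bound he.aestronglyMeasurable C ?_
  have h1 : ∀ᵐ p ∂m, p ∈ K := by
    rw [ae_iff]; exact hm
  filter_upwards [h1] with p hp using hC p hp

theorem continuous_of_lip {e : ℝ × ℝ → ℝ} {L : ℝ} (hL : 0 ≤ L)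
    (he : ∀ p q, |e p - e q| ≤ L * dist p q) : Continuous e := by
  refine (LipschitzWith.of_dist_le_mul (K := ⟨L, hL⟩) fun p q => ?_).continuous
  rw [Real.dist_eq]
  exact he p q

theorem gx_bd {e : ℝ × ℝ → ℝ} {L : ℝ} (hL : 0 ≤ L) (he : ∀ p q, |e p - e q| ≤ L * dist p q)
    (p : ℝ × ℝ) : ‖gx e p‖ ≤ L ∧ ‖gy e p‖ ≤ L := by
  have h1 : LipschitzWith ⟨L, hL⟩ e := LipschitzWith.of_dist_le_mul fun p q => by
    rw [Real.dist_eq]; exact he p q
  have h2 : ‖fderiv ℝ e p‖ ≤ L := norm_fderiv_le_of_lipschitz ℝ h1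
  constructor
  · show ‖fderiv ℝ e p ((1 : ℝ), (0 : ℝ))‖ ≤ L
    refine ((fderiv ℝ e p).le_opNorm _).trans ?_
    have : ‖((1 : ℝ), (0 : ℝ))‖ = 1 := by simp
    rw [this, mul_one]; exact h2
  · show ‖fderiv ℝ e p ((0 : ℝ), (1 : ℝ))‖ ≤ L
    refine ((fderiv ℝ e p).le_opNorm _).trans ?_
    have : ‖((0 : ℝ), (1 : ℝ))‖ = 1 := by simp
    rw [this, mul_one]; exact h2

theorem int_field {e : ℝ × ℝ → ℝ} {L : ℝ} (hL : 0 ≤ L) (he : ∀ p q, |e p - e q| ≤ L * dist p q)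
    {A1 A2 : ℝ × ℝ → ℝ} (h1 : Integrable A1) (h2 : Integrable A2) :
    Integrable fun p => A1 p * gx e p + A2 p * gy e p := by
  refine (h1.mul_bdd (c := L) (measurable_gx e).aestronglyMeasurable
    (Eventually.of_forall fun p => (gx_bd hL he p).1)).add
    (h2.mul_bdd (c := L) (measurable_gy e).aestronglyMeasurable
    (Eventually.of_forall fun p => (gx_bd hL he p).2))

theorem ball_cen_rf (Q₀ : Sqr) :
    ball (cen (rfS Q₀)) ((rfS Q₀).s / 2) = rf ⁻¹' ball (cen Q₀) (Q₀.s / 2) := by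
  ext p
  have e : cen (rfS Q₀) = rf (cen Q₀) := by
    unfold cen
    rw [rf_mk]
    simp only [rfS_x, rfS_y, rfS_s]
    congr 1
    ring
  rw [mem_preimage, mem_ball, mem_ball, rfS_s, e, ← dist_rf p, rf_rf]

/-- the fields are square integrable off `E` -/
theorem sq_off {E : Set (ℝ × ℝ)} {V : ℝ × ℝ → ℝ}
    (hV : MemLp V 2 (volume.restrict (rf ⁻¹' E)ᶜ)) :
    MemLp (fun p => V (rf p)) 2 (volume.restrict Eᶜ) := by
  have h1 : MeasurePreserving rf (volume.restrict Eᶜ) (volume.restrict (rf ⁻¹' E)ᶜ) := by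
    have h2 := measurePreserving_rf.restrict_preimage_emb measurableEmbedding_rf (rf ⁻¹' E)ᶜ
    have h3 : rf ⁻¹' (rf ⁻¹' E)ᶜ = Eᶜ := by
      ext p; simp
    rwa [h3] at h2
  exact hV.comp_measurePreserving h1

set_option maxHeartbeats 800000 in
/-- **the glued data** -/
theorem glueD_of (T : TwoG E S 𝒬 𝓗 Q Q' sq sq' a b c d Bm Bp Tl Tu M X1 X2 ψ Ψ Y1 Y2 ψ' Ψ' μ ν f f'
      g g') [IsFiniteMeasure μ] [IsFiniteMeasure ν] (C : ChQ Q X1 X2 f np nm)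
    (C' : ChQ Q' Y1 Y2 f' np' nm') (hWo : IsOpen W)
    (hWR : W ⊆ Ioo a b ×ˢ Ioo c d) (hWS : Disjoint W S)
    (alt : ∀ Q₀ ∈ 𝒬, Q₀.car ⊆ W ∨ Disjoint Q₀.car W)
    (k1 : ∀ᵐ q ∂μ, ∀ y ∈ Ico q.2 Tl, (q.1, y) ∉ W)
    (k2 : ∀ᵐ q ∂ν, ∀ y ∈ Ico q.2 Tu, rf (q.1, y) ∉ W) :
    GlueD E W 𝒬 (glF M g g') (glF M ψ ψ') (glF M Ψ Ψ') (Gl_363.W2 X1 Y1)
      (fun p => X2 p + Y2 (rf p)) (nn sq np sq' nm') (nn sq nm sq' np') := by
  have hEm : MeasurableSet E := T.G.pic.cpt.isClosed.measurableSet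
  have hBM := T.BM
  have hMB := T.MB
  have hMl := T.Ml
  have hMu : -Tu < M := lt_of_le_of_lt T.Mu T.BM
  have L := T.D.L
  have L' := T.D'.L
  have hinj := sq_inj T.G T.D.dis
  have hinj' := sq_inj T.G' T.D'.dis
  have iY1 : Integrable fun p => Y1 (rf p) := by
    have := (integrableOn_rf (F := Y1) (W := univ)).2 L'.L1.integrableOn
    simpa using this
  have iY2 : Integrable fun p => Y2 (rf p) := by
    have := (integrableOn_rf (F := Y2) (W := univ)).2 L'.L2.integrableOn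
    simpa using this
  have hWE : W \ E ⊆ Eᶜ := fun p hp => hp.2
  have hcar : ∀ Q₀ : Sqr, MeasurableSet Q₀.car := fun Q₀ => by
    rw [car_eq]; exact measurableSet_closedBall
  exact
  { hW := hWo
    alt := alt
    m1 := L.m1.sub (L'.m1.comp measurable_rf)
    m2 := L.m2.add (L'.m2.comp measurable_rf)
    i1 := L.L1.sub iY1
    i2 := L.L2.add iY2
    s1 := by
      have h1 := (T.sX.1.sub (sq_off T.sY.1)).integrable_sq
      exact IntegrableOn.mono_set h1 hWE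
    s2 := by
      have h1 := (T.sX.2.add (sq_off T.sY.2)).integrable_sq
      exact IntegrableOn.mono_set h1 hWE
    V := glue_V T hWR hWS
    H := glue_H T hWR k1 k2
    ae_eq := glue_E T hWR
    int := fun z r hz => glue_int T hWR measurableSet_closedBall hz
    cont := glue_cont T hWR
    eq := by
      filter_upwards [T.H.ae, ae_rf T.H'.ae] with p h1 h2 hp
      have hpR := hWR hp.1
      unfold glF
      split_ifs with h
      · refine (h1 ⟨hpR.1, hpR.2.1, h.trans hMl⟩ (fun hh => hp.2 ?_)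
          fun hh => hp.2 (T.G.SE hh)).symm
        obtain ⟨i, hi⟩ := mem_iUnion.1 hh
        refine T.G.pic.sub _ (T.G.sqm i).1 (cl_sub T.G i ?_)
        exact ⟨⟨hi.1.1.le, hi.1.2.le⟩, hi.2.1.le, hi.2.2.le⟩
      · refine (h2 ⟨hpR.1, ?_, ?_⟩ (fun hh => hp.2 ?_) fun hh => hp.2 ?_).symm
        · simp only [rf_snd]; linarith [hpR.2.2]
        · simp only [rf_snd]; linarith [not_lt.1 h]
        · obtain ⟨i, hi⟩ := mem_iUnion.1 hh
          have : rf p ∈ rf ⁻¹' E := by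
            refine T.G'.pic.sub _ (T.G'.sqm i).1 (cl_sub T.G' i ?_)
            exact ⟨⟨hi.1.1.le, hi.1.2.le⟩, hi.2.1.le, hi.2.2.le⟩
          simpa using this
        · exact T.G.SE (by simpa using hh)
    fin1 := fun Q₀ _ _ => by
      have := cS_fin (sq := sq) C.fp Q₀
      have := cS_fin (sq := sq') C'.fm (rfS Q₀)
      unfold nn
      infer_instance
    fin2 := fun Q₀ _ _ => by
      have := cS_fin (sq := sq) C.fm Q₀
      have := cS_fin (sq := sq') C'.fp (rfS Q₀)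
      unfold nn
      infer_instance
    c1 := fun Q₀ _ _ => by
      unfold nn
      rw [Measure.add_apply, cS_car T.G C.cp, zero_add,
        Measure.map_apply measurable_rf (hcar Q₀).compl, preimage_compl, ← car_rfS]
      exact cS_car T.G' C'.cm (rfS Q₀)
    c2 := fun Q₀ _ _ => by
      unfold nn
      rw [Measure.add_apply, cS_car T.G C.cm, zero_add,
        Measure.map_apply measurable_rf (hcar Q₀).compl, preimage_compl, ← car_rfS]
      exact cS_car T.G' C'.cp (rfS Q₀)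
    mass := fun Q₀ _ _ => by
      unfold nn
      rw [Measure.add_apply, Measure.add_apply, Measure.map_apply measurable_rf MeasurableSet.univ,
        Measure.map_apply measurable_rf MeasurableSet.univ, preimage_univ, cS_mass C,
        cS_mass C' (rfS Q₀)]
    mass2 := by
      have s1 := cS_sum hinj C.mp C.f2
      have s2 := (cS_sum hinj' C'.mm C'.f2).comp_injective rfS_injective
      have s3 : Summable fun Q₀ : Sqr => (nn sq np sq' nm' Q₀ univ).toReal ^ 2 := by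
        refine Summable.of_nonneg_of_le (fun Q₀ => sq_nonneg _) (fun Q₀ => ?_)
          ((s1.mul_left 2).add (s2.mul_left 2))
        have := cS_fin (sq := sq) C.fp Q₀
        have := cS_fin (sq := sq') C'.fm (rfS Q₀)
        unfold nn
        rw [Measure.add_apply, Measure.map_apply measurable_rf MeasurableSet.univ, preimage_univ,
          ENNReal.toReal_add (measure_ne_top _ _) (measure_ne_top _ _)]
        simp only [Function.comp]
        nlinarith [sq_nonneg ((cS sq np Q₀ univ).toReal - (cS sq' nm' (rfS Q₀) univ).toReal)]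
      exact s3.comp_injective (i := fun i : SqIn 𝒬 W => i.1) Subtype.val_injective
    F1 := fun Q₀ hQ hQW Le e hL he => by
      have f1 := cS_fin (sq := sq) C.fp Q₀
      have f2 := cS_fin (sq := sq) C.fm Q₀
      have f3 := cS_fin (sq := sq') C'.fp (rfS Q₀)
      have f4 := cS_fin (sq := sq') C'.fm (rfS Q₀)
      have hS : Disjoint Q₀.car S := hWS.mono_left hQW
      have hS' : Disjoint (rfS Q₀).car (rf ⁻¹' S) := by
        rw [car_rfS]
        exact hS.preimage rf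
      have hQ' : rfS Q₀ ∈ rfS '' 𝒬 := ⟨Q₀, hQ, rfl⟩
      have hec := continuous_of_lip hL he
      have he' : ∀ p q, |e (rf p) - e (rf q)| ≤ Le * dist p q := fun p q => by
        rw [← dist_rf p q]; exact he _ _
      have hec' : Continuous fun p => e (rf p) := hec.comp continuous_rf
      have l1 := cS_F1 T.G T.D.dis C T.B1 T.D.XB hQ hS hL he
      have l2 := cS_F1 T.G' T.D'.dis C' T.B1' T.D'.XB hQ' hS' (e := fun p => e (rf p)) hL he'
      have hk : IsCompact Q₀.car := by rw [car_eq]; exact isCompact_closedBall _ _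
      have hk' : IsCompact (rfS Q₀).car := by rw [car_eq]; exact isCompact_closedBall _ _
      rw [integral_nn Q₀ (int_of_car hk (cS_car T.G C.cp Q₀) hec)
          (int_of_car hk' (cS_car T.G' C'.cm _) hec'),
        integral_nn Q₀ (int_of_car hk (cS_car T.G C.cm Q₀) hec)
          (int_of_car hk' (cS_car T.G' C'.cp _) hec')]
      have e1 : ∫ p in ball (cen Q₀) (Q₀.s / 2),
          (Gl_363.W2 X1 Y1 p * gx e p + (X2 p + Y2 (rf p)) * gy e p) =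
          (∫ p in ball (cen Q₀) (Q₀.s / 2), (X1 p * gx e p + X2 p * gy e p)) -
          ∫ p in ball (cen Q₀) (Q₀.s / 2), (Y1 (rf p) * gx e p + -Y2 (rf p) * gy e p) := by
        have i3 : Integrable fun p => Y1 (rf p) * gx e p + -Y2 (rf p) * gy e p :=
          int_field hL he iY1 iY2.neg
        rw [← integral_sub (int_field hL he L.L1 L.L2).integrableOn i3.integrableOn]
        congr 1
        funext p
        unfold Gl_363.W2
        ring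
      have e2 : ∫ p in ball (cen Q₀) (Q₀.s / 2), (Y1 (rf p) * gx e p + -Y2 (rf p) * gy e p) =
          ∫ p in ball (cen (rfS Q₀)) ((rfS Q₀).s / 2),
            (Y1 p * gx (fun p => e (rf p)) p + Y2 p * gy (fun p => e (rf p)) p) := by
        rw [ball_cen_rf, ← integral_rf]
        simp_rw [CF_363.gx_rf, gy_rf, rf_rf]
        congr 1
        funext p
        ring
      rw [e1, e2, l1, l2]
      ring }

end Crest.Agent.R105.Ge_347
end

-- ▼ part R105/Ge4_347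
section

/-! Row 105, S0138, Lemma A with squares (helper347, leaf (L8)): `TwoG ⟹ PlaLim` off a closed union `N` of
components which carries the rays of the flux; instances: `N = S` and `N = ⋃₀ g`. -/

set_option autoImplicit false

open MeasureTheory Set Metric Filter Topology
open scoped ENNReal NNReal

namespace Crest.Agent.R105.Ge_347

open CF_363 Stp_722 Cq_463 Psq_425 Mq_347 Sq_87 Hq_363 Kbx_247 Gl_363 Famq_306
open Mp_87 (lam)
open Crest.Agent.R105.SqJ_361 (HQ Fills join RG)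
open Crest.Agent.R105.Skp2_257 (Comps)

variable {ι ι' : Type} {E S W N : Set (ℝ × ℝ)} {𝒬 : Set Sqr} {𝓗 : Set Hair} {Q : Rects ι}
  {Q' : Rects ι'} {sq : ι → Sqr} {sq' : ι' → Sqr} {a b c d B Bm Bp Tl Tu M : ℝ}
  {X1 X2 ψ Ψ Y1 Y2 ψ' Ψ' g g' : ℝ × ℝ → ℝ} {μ ν : Measure (ℝ × ℝ)} {f : ι → ℝ} {f' : ι' → ℝ}
  {np nm : ι → Measure (ℝ × ℝ)} {np' nm' : ι' → Measure (ℝ × ℝ)}


/-- **the glued data off a closed set `N` of components which contains the rays** -/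
theorem glueD_N (T : TwoG E S 𝒬 𝓗 Q Q' sq sq' a b c d Bm Bp Tl Tu M X1 X2 ψ Ψ Y1 Y2 ψ' Ψ' μ ν f f'
      g g') [IsFiniteMeasure μ] [IsFiniteMeasure ν] (C : ChQ Q X1 X2 f np nm)
    (C' : ChQ Q' Y1 Y2 f' np' nm') (hN : IsClosed N) (hSN : S ⊆ N)
    (hNQ : ∀ Q₀ ∈ 𝒬, (Q₀.car ∩ N).Nonempty → Q₀.car ⊆ N)
    (r1 : ∀ᵐ q ∂μ, ∀ y ∈ Ico q.2 Tl, (q.1, y) ∈ N)
    (r2 : ∀ᵐ q ∂ν, ∀ y ∈ Ico q.2 Tu, rf (q.1, y) ∈ N) :
    GlueD E ((Ioo a b ×ˢ Ioo c d) \ N) 𝒬 (glF M g g') (glF M ψ ψ') (glF M Ψ Ψ')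
      (Gl_363.W2 X1 Y1) (fun p => X2 p + Y2 (rf p)) (nn sq np sq' nm') (nn sq nm sq' np') := by
  refine glueD_of T C C' ((isOpen_Ioo.prod isOpen_Ioo).sdiff hN) sdiff_subset ?_ ?_ ?_ ?_
  · exact disjoint_sdiff_left.mono_right hSN
  · intro Q₀ hQ
    by_cases h : (Q₀.car ∩ N).Nonempty
    · exact Or.inr (disjoint_sdiff_right.mono_left (hNQ Q₀ hQ h))
    · refine Or.inl fun p hp => ⟨T.box (T.G.pic.sub Q₀ hQ hp), fun hpN => h ⟨p, hp, hpN⟩⟩
  · filter_upwards [r1] with q hq y hy hW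
    exact hW.2 (hq y hy)
  · filter_upwards [r2] with q hq y hy hW
    exact hW.2 (hq y hy)

/-- **PlaLim off `N`.** -/
theorem plaLim_N (T : TwoG E S 𝒬 𝓗 Q Q' sq sq' a b c d Bm Bp Tl Tu M X1 X2 ψ Ψ Y1 Y2 ψ' Ψ' μ ν f f'
      g g') [IsFiniteMeasure μ] [IsFiniteMeasure ν] (C : ChQ Q X1 X2 f np nm)
    (C' : ChQ Q' Y1 Y2 f' np' nm') (hN : IsClosed N) (hSN : S ⊆ N)
    (hNQ : ∀ Q₀ ∈ 𝒬, (Q₀.car ∩ N).Nonempty → Q₀.car ⊆ N)
    (r1 : ∀ᵐ q ∂μ, ∀ y ∈ Ico q.2 Tl, (q.1, y) ∈ N)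
    (r2 : ∀ᵐ q ∂ν, ∀ y ∈ Ico q.2 Tu, rf (q.1, y) ∈ N)
    {κ : ℝ × ℝ → ℝ} {t : ℝ → ℝ} {Lκ Lt : ℝ≥0} {K : ℝ} (hκ : LipschitzWith Lκ κ)
    (hκc : HasCompactSupport κ) (hκW : tsupport κ ⊆ (Ioo a b ×ˢ Ioo c d) \ N)
    (ht : LipschitzWith Lt t) (hK : ∀ s, |t s| ≤ K) :
    PlaLim E 𝒬 fun p => κ p * t (glF M g g' p) :=
  (glueD_N T C C' hN hSN hNQ r1 r2).plaLim T.G.pic hκ hκc hκW ht hK


/-- a square which meets the union of a family of components is inside -/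
theorem sq_sub_fam (hE : QPic E 𝒬 𝓗) {F : Set (Set (ℝ × ℝ))} (hF : F ⊆ Comps E) {Q₀ : Sqr}
    (hQ : Q₀ ∈ 𝒬) (h : (Q₀.car ∩ ⋃₀ F).Nonempty) : Q₀.car ⊆ ⋃₀ F := by
  obtain ⟨p, hp, P, hP, hpP⟩ := h
  obtain ⟨q, hq, rfl⟩ := hF hP
  have hpre : IsPreconnected Q₀.car := by
    rw [car_eq]; exact (convex_closedBall _ _).isPreconnected
  have h1 : Q₀.car ⊆ connectedComponentIn E p :=
    hpre.subset_connectedComponentIn hp (hE.sub Q₀ hQ)
  rw [← connectedComponentIn_eq hpP] at h1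
  exact h1.trans (subset_sUnion_of_mem hP)


end Crest.Agent.R105.Ge_347
end

-- ▼ part R105/Gl3_363
section

/-!
Row 105, S0138, Lemma A with squares (helper363, leaf (L5)): the glued function, continuity, strip,
hairs, squares.
-/

set_option autoImplicit false

open MeasureTheory Set Filter Topology
open scoped NNReal ENNReal

namespace Crest.Agent.R105.Gl_363

open CF_363 Cq_463 Sq_87 Hq_363 Kbx_247
open Mp_87 (lam Rc)

variable {ι ι' : Type}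

section Geo
variable {E S : Set (ℝ × ℝ)} {𝒬 : Set Sqr} {𝓗 : Set Hair} {Q : Rects ι} {sq : ι → Sqr}
  {a b c B T : ℝ} {μ : Measure (ℝ × ℝ)}

theorem mem_op {i : ι} {p : ℝ × ℝ} : p ∈ Q.op i ↔
    (Q.x i - Q.h1 i < p.1 ∧ p.1 < Q.x i + Q.h1 i) ∧ Q.y i - Q.h2 i < p.2 ∧ p.2 < Q.y i + Q.h2 i :=
  Iff.rfl

theorem mem_clq {i : ι} {p : ℝ × ℝ} : p ∈ clq Q i ↔
    (Q.x i - Q.h1 i ≤ p.1 ∧ p.1 ≤ Q.x i + Q.h1 i) ∧ Q.y i - Q.h2 i ≤ p.2 ∧ p.2 ≤ Q.y i + Q.h2 i :=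
  Iff.rfl

theorem mem_clq' (G : GeoC E S 𝒬 𝓗 Q sq a b c B T) {i : ι} {p : ℝ × ℝ} :
    p ∈ clq Q i ↔ p ∈ (sq i).car ∧ p.2 ≤ B := by
  rw [mem_clq, G.x1, G.x2, G.y1, G.y2, Sqr.mem_car, le_min_iff]
  tauto

theorem interior_car (Q₀ : Sqr) :
    interior Q₀.car = Ioo Q₀.x (Q₀.x + Q₀.s) ×ˢ Ioo Q₀.y (Q₀.y + Q₀.s) := by
  rw [Sqr.car, interior_prod_eq, interior_Icc, interior_Icc]

theorem mem_op' (G : GeoC E S 𝒬 𝓗 Q sq a b c B T) {i : ι} {p : ℝ × ℝ} :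
    p ∈ Q.op i ↔ p ∈ interior (sq i).car ∧ p.2 < B := by
  rw [mem_op, G.x1, G.x2, G.y1, G.y2, interior_car, lt_min_iff]
  simp only [mem_prod, mem_Ioo]
  tauto

theorem un_lt (G : GeoC E S 𝒬 𝓗 Q sq a b c B T) {p : ℝ × ℝ} (hp : p ∈ Q.un) : p.2 < B := by
  obtain ⟨i, hi⟩ := mem_iUnion.1 hp
  exact ((mem_op' G).1 hi).2

theorem un_int (G : GeoC E S 𝒬 𝓗 Q sq a b c B T) {p : ℝ × ℝ} (hp : p ∈ Q.un) :
    ∃ Q₀ ∈ 𝒬, p ∈ interior Q₀.car := by
  obtain ⟨i, hi⟩ := mem_iUnion.1 hp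
  exact ⟨sq i, (G.sqm i).1, ((mem_op' G).1 hi).1⟩

theorem un_sub (G : GeoC E S 𝒬 𝓗 Q sq a b c B T) : Q.un ⊆ E := by
  intro p hp
  obtain ⟨Q₀, hQ₀, h⟩ := un_int G hp
  exact G.pic.sub Q₀ hQ₀ (interior_subset h)

theorem lam_eq_of_null [IsFiniteMeasure μ] {x x' : ℝ} (hx : x ≤ x')
    (h : ∀ᵐ q ∂μ, ¬ (x ≤ q.1 ∧ q.1 ≤ x')) : lam μ x' = lam μ x := by
  unfold Mp_87.lam
  congr 1
  refine measure_congr ?_
  filter_upwards [h] with q hq
  refine propext ⟨fun h1 => ?_, fun h1 => ?_⟩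
  · show q.1 < x
    have h1' : q.1 < x' := h1
    by_contra hcon
    push Not at hcon
    exact hq ⟨hcon, h1'.le⟩
  · show q.1 < x'
    have h1' : q.1 < x := h1
    exact lt_of_lt_of_le h1' hx

end Geo

section Two
variable {E S : Set (ℝ × ℝ)} {𝒬 : Set Sqr} {𝓗 : Set Hair} {Q : Rects ι} {Q' : Rects ι'}
  {sq : ι → Sqr} {sq' : ι' → Sqr} {a b c d Bm Bp Tl Tu M : ℝ}
  {X1 X2 ψ Ψ Y1 Y2 ψ' Ψ' : ℝ × ℝ → ℝ} {μ ν : Measure (ℝ × ℝ)} {f : ι → ℝ} {f' : ι' → ℝ}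
  {g g' : ℝ × ℝ → ℝ}

/-- both representatives agree on the overlap -/
theorem TwoG.agree (H : TwoG E S 𝒬 𝓗 Q Q' sq sq' a b c d Bm Bp Tl Tu M X1 X2 ψ Ψ Y1 Y2 ψ' Ψ' μ ν f f'
    g g') {p : ℝ × ℝ} (hp : p.1 ∈ Ioo a b) (h1 : Bm < p.2) (h2 : p.2 < Bp) (h3 : p.2 < Tl)
    (hS : p ∉ S) : g p = -lam ν p.1 ∧ g' (rf p) = -lam ν p.1 := by
  have e1 := H.H.strip p ⟨hp, H.G.cB.trans h1, h3⟩ h1 hS
  have e2 := H.H'.strip (rf p) ⟨hp, by show -d < -p.2; linarith [H.Bd], by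
    show -p.2 < Tu; linarith [H.Mu]⟩ (by show -Bp < -p.2; linarith) (by simpa using hS)
  rw [H.marg p ⟨hp, h1, h2⟩ h3 hS] at e1
  exact ⟨e1, e2⟩

theorem TwoG.F_lo (H : TwoG E S 𝒬 𝓗 Q Q' sq sq' a b c d Bm Bp Tl Tu M X1 X2 ψ Ψ Y1 Y2 ψ' Ψ' μ ν f f'
    g g') {p : ℝ × ℝ} (hp : p.1 ∈ Ioo a b) (h2 : p.2 < Bp) (h3 : p.2 < Tl)
    (hS : p ∉ S) : glF M g g' p = g p := by
  unfold glF
  split_ifs with h
  · rfl
  · have := H.agree hp (by linarith [H.BM]) h2 h3 hS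
    rw [this.1, this.2]

theorem TwoG.F_up (H : TwoG E S 𝒬 𝓗 Q Q' sq sq' a b c d Bm Bp Tl Tu M X1 X2 ψ Ψ Y1 Y2 ψ' Ψ' μ ν f f'
    g g') {p : ℝ × ℝ} (hp : p.1 ∈ Ioo a b) (h1 : Bm < p.2)
    (hS : p ∉ S) : glF M g g' p = g' (rf p) := by
  unfold glF
  split_ifs with h
  · have := H.agree hp h1 (by linarith [H.MB]) (by linarith [H.Ml]) hS
    rw [this.1, this.2]
  · rfl

/-- the strip formula, open strip -/
theorem TwoG.strip₀ (H : TwoG E S 𝒬 𝓗 Q Q' sq sq' a b c d Bm Bp Tl Tu M X1 X2 ψ Ψ Y1 Y2 ψ' Ψ' μ ν f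
    f' g g') {p : ℝ × ℝ} (hp : p.1 ∈ Ioo a b) (h1 : Bm < p.2) (h2 : p.2 < Bp)
    (hS : p ∉ S) : glF M g g' p = -lam ν p.1 := by
  rw [H.F_up hp h1 hS]
  exact H.H'.strip (rf p) ⟨hp, by show -d < -p.2; linarith [H.Bd], by
    show -p.2 < Tu; linarith [H.Mu]⟩ (by show -Bp < -p.2; linarith) (by simpa using hS)

theorem TwoG.cont (H : TwoG E S 𝒬 𝓗 Q Q' sq sq' a b c d Bm Bp Tl Tu M X1 X2 ψ Ψ Y1 Y2 ψ' Ψ' μ ν f
    f' g g') : ContinuousOn (glF M g g')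
      ((Ioo a b ×ˢ Ioo c d) \ ((Q.un ∪ rf ⁻¹' Q'.un) ∪ S)) := by
  refine continuousOn_of_locally_continuousOn fun p hp => ?_
  obtain ⟨⟨hp1, hp2, hp3⟩, hpn⟩ := hp
  rcases lt_or_ge p.2 M with hpM | hpM
  · refine ⟨{q | q.2 < min Bp Tl}, isOpen_Iio.preimage continuous_snd,
      lt_min (hpM.trans H.MB) (hpM.trans H.Ml), ?_⟩
    have h1 : ContinuousOn g (((Ioo a b ×ˢ Ioo c d) \ ((Q.un ∪ rf ⁻¹' Q'.un) ∪ S)) ∩
        {q | q.2 < min Bp Tl}) := by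
      refine H.H.cont.mono ?_
      rintro q ⟨⟨⟨q1, q2, q3⟩, q4⟩, q5⟩
      have q5' : q.2 < min Bp Tl := q5
      rw [lt_min_iff] at q5'
      exact ⟨⟨q1, q2, q5'.2⟩, fun h => q4 (h.elim (fun h => Or.inl (Or.inl h)) Or.inr)⟩
    refine h1.congr ?_
    rintro q ⟨⟨⟨q1, q2, q3⟩, q4⟩, q5⟩
    have q5' : q.2 < min Bp Tl := q5
    rw [lt_min_iff] at q5'
    exact H.F_lo q1 q5'.1 q5'.2 fun h => q4 (Or.inr h)
  · refine ⟨{q | Bm < q.2}, isOpen_Ioi.preimage continuous_snd,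
      H.BM.trans_le hpM, ?_⟩
    have h1 : ContinuousOn (fun q => g' (rf q))
        (((Ioo a b ×ˢ Ioo c d) \ ((Q.un ∪ rf ⁻¹' Q'.un) ∪ S)) ∩ {q | Bm < q.2}) := by
      refine H.H'.cont.comp continuous_rf.continuousOn ?_
      rintro q ⟨⟨⟨q1, q2, q3⟩, q4⟩, q5⟩
      have q5' : Bm < q.2 := q5
      refine ⟨⟨q1, by show -d < -q.2; linarith, by show -q.2 < Tu; linarith [H.Mu]⟩, fun h => q4 ?_⟩
      rcases h with h | h
      · exact Or.inl (Or.inr h)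
      · exact Or.inr (by simpa using h)
    refine h1.congr ?_
    rintro q ⟨⟨⟨q1, q2, q3⟩, q4⟩, q5⟩
    exact H.F_up q1 q5 fun h => q4 (Or.inr h)

/-- the strip formula, closed strip -/
theorem TwoG.strip (H : TwoG E S 𝒬 𝓗 Q Q' sq sq' a b c d Bm Bp Tl Tu M X1 X2 ψ Ψ Y1 Y2 ψ' Ψ' μ ν f
    f' g g') {p : ℝ × ℝ} (hp : p.1 ∈ Ioo a b) (h1 : Bm ≤ p.2) (h2 : p.2 ≤ Bp)
    (hS : p ∉ S) : glF M g g' p = -lam ν p.1 := by
  have hBM := H.BM
  have hMB := H.MB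
  have hcB := H.G.cB
  have hBd := H.Bd
  have hnA : ∀ q : ℝ × ℝ, Bm ≤ q.2 → q.2 ≤ Bp → q ∉ Q.un ∪ rf ⁻¹' Q'.un := by
    rintro q q1 q2 (h | h)
    · exact absurd (un_lt H.G h) (not_lt.2 q1)
    · have := un_lt H.G' h
      simp only [rf_snd] at this
      linarith
  have hpd : p ∈ (Ioo a b ×ˢ Ioo c d) \ ((Q.un ∪ rf ⁻¹' Q'.un) ∪ S) :=
    ⟨⟨hp, by linarith, by linarith⟩, fun h => h.elim (hnA p h1 h2) hS⟩
  -- the approximating points
  set z : ℕ → ℝ × ℝ := fun n => (p.1, p.2 + (M - p.2) / ((n : ℝ) + 1)) with hz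
  have hz0 : Tendsto z atTop (𝓝 p) := by
    have h3 : Tendsto (fun n : ℕ => p.2 + (M - p.2) / ((n : ℝ) + 1)) atTop (𝓝 p.2) := by
      have h4 := (tendsto_one_div_add_atTop_nhds_zero_nat (𝕜 := ℝ)).const_mul (M - p.2)
      rw [mul_zero] at h4
      have h5 := h4.const_add p.2
      rw [add_zero] at h5
      refine h5.congr fun n => ?_
      ring
    exact (tendsto_const_nhds (x := p.1)).prodMk_nhds h3
  have hmem : ∀ n, Bm < (z n).2 ∧ (z n).2 < Bp := by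
    intro n
    have hn : (0:ℝ) < (n : ℝ) + 1 := by positivity
    have hn1 : 1 / ((n : ℝ) + 1) ≤ 1 := by
      rw [div_le_one hn]; linarith [(Nat.cast_nonneg n : (0:ℝ) ≤ n)]
    have hn0 : 0 < 1 / ((n : ℝ) + 1) := by positivity
    have e : (z n).2 = p.2 * (1 - 1 / ((n : ℝ) + 1)) + M * (1 / ((n : ℝ) + 1)) := by
      show p.2 + (M - p.2) / ((n : ℝ) + 1) = _
      ring
    rw [e]
    constructor <;> nlinarith
  have hSn : ∀ᶠ n in atTop, z n ∉ S := hz0 (H.G.cS.isOpen_compl.mem_nhds hS)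
  have hev : ∀ᶠ n in atTop, z n ∈ (Ioo a b ×ˢ Ioo c d) \ ((Q.un ∪ rf ⁻¹' Q'.un) ∪ S) := by
    filter_upwards [hSn] with n hn
    exact ⟨⟨hp, by linarith [(hmem n).1], by linarith [(hmem n).2]⟩, fun h =>
      h.elim (hnA _ (hmem n).1.le (hmem n).2.le) hn⟩
  have hlim : Tendsto (fun n => glF M g g' (z n)) atTop (𝓝 (glF M g g' p)) :=
    (H.cont p hpd).tendsto.comp (tendsto_nhdsWithin_iff.2 ⟨hz0, hev⟩)
  have hlim2 : Tendsto (fun n => glF M g g' (z n)) atTop (𝓝 (-lam ν p.1)) := by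
    refine tendsto_const_nhds.congr' ?_
    filter_upwards [hSn] with n hn
    exact (H.strip₀ (p := z n) hp (hmem n).1 (hmem n).2 hn).symm
  exact tendsto_nhds_unique hlim hlim2

/-- points at level `≤ M` -/
theorem TwoG.F_lo' (H : TwoG E S 𝒬 𝓗 Q Q' sq sq' a b c d Bm Bp Tl Tu M X1 X2 ψ Ψ Y1 Y2 ψ' Ψ' μ ν f f'
    g g') {p : ℝ × ℝ} (hp : p.1 ∈ Ioo a b) (h2 : p.2 ≤ M) (hS : p ∉ S) : glF M g g' p = g p :=
  H.F_lo hp (h2.trans_lt H.MB) (h2.trans_lt H.Ml) hS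

/-- constancy on the hairs -/
theorem TwoG.hair (H : TwoG E S 𝒬 𝓗 Q Q' sq sq' a b c d Bm Bp Tl Tu M X1 X2 ψ Ψ Y1 Y2 ψ' Ψ' μ ν f
    f' g g') {K : Hair} (hK : K ∈ 𝓗) (hKS : Disjoint K.car S) :
    ∀ p ∈ K.car, ∀ q ∈ K.car, glF M g g' p = glF M g g' q := by
  have hab : ∀ p ∈ K.car, p.1 ∈ Ioo a b := fun p hp => (H.box (H.G.pic.hsub K hK hp)).1
  have hnS : ∀ p ∈ K.car, p ∉ S := fun p hp => Set.disjoint_left.1 hKS hp
  have hKr : K.refl ∈ reflH 𝓗 := by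
    show K.refl.refl ∈ 𝓗
    rw [Hair.refl_refl]; exact hK
  have hKr' : Disjoint K.refl.car (rf ⁻¹' S) := by
    rw [Hair.car_refl]
    exact hKS.preimage _
  have lo : ∀ p ∈ K.car, ∀ q ∈ K.car, p.2 ≤ M → q.2 ≤ M → glF M g g' p = glF M g g' q := by
    intro p hp q hq h1 h2
    rw [H.F_lo' (hab p hp) h1 (hnS p hp), H.F_lo' (hab q hq) h2 (hnS q hq)]
    exact H.H.hair K hK hKS p hp q hq (h1.trans_lt H.Ml) (h2.trans_lt H.Ml)
  have up : ∀ p ∈ K.car, ∀ q ∈ K.car, M ≤ p.2 → M ≤ q.2 → glF M g g' p = glF M g g' q := by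
    intro p hp q hq h1 h2
    rw [H.F_up (hab p hp) (H.BM.trans_le h1) (hnS p hp),
      H.F_up (hab q hq) (H.BM.trans_le h2) (hnS q hq)]
    have hMu := H.Mu
    have hBM := H.BM
    exact H.H'.hair K.refl hKr hKr' (rf p) (by rw [Hair.car_refl]; simpa using hp) (rf q)
      (by rw [Hair.car_refl]; simpa using hq) (by show -p.2 < Tu; linarith)
      (by show -q.2 < Tu; linarith)
  have mid : ∀ p ∈ K.car, ∀ q ∈ K.car, p.2 ≤ M → M ≤ q.2 → glF M g g' p = glF M g g' q := by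
    intro p hp q hq h1 h2
    have hm : (K.x, M) ∈ K.car := Hair.mem_car.2 ⟨rfl, (Hair.mem_car.1 hp).2.1.trans h1,
      h2.trans (Hair.mem_car.1 hq).2.2⟩
    rw [lo p hp _ hm h1 le_rfl, up _ hm q hq le_rfl h2]
  intro p hp q hq
  rcases le_total p.2 M with h1 | h1 <;> rcases le_total q.2 M with h2 | h2
  · exact lo p hp q hq h1 h2
  · exact mid p hp q hq h1 h2
  · exact (mid q hq p hp h2 h1).symm
  · exact up p hp q hq h1 h2

end Two

end Crest.Agent.R105.Gl_363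
end

-- ▼ part R105/Gl4_363
section

/-!
Row 105, S0138, Lemma A with squares (helper363, leaf (L5)): the glued function, line formulas.
-/

set_option autoImplicit false

open MeasureTheory Set Filter Topology
open scoped NNReal ENNReal

namespace Crest.Agent.R105.Gl_363

open CF_363 Cq_463 Sq_87 Hq_363 Kbx_247
open Mp_87 (lam Rc)

variable {ι ι' : Type}
variable {E S : Set (ℝ × ℝ)} {𝒬 : Set Sqr} {𝓗 : Set Hair} {Q : Rects ι} {Q' : Rects ι'}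
  {sq : ι → Sqr} {sq' : ι' → Sqr} {a b c d Bm Bp Tl Tu M : ℝ}
  {X1 X2 ψ Ψ Y1 Y2 ψ' Ψ' : ℝ × ℝ → ℝ} {μ ν : Measure (ℝ × ℝ)} {f : ι → ℝ} {f' : ι' → ℝ}
  {g g' : ℝ × ℝ → ℝ}

theorem memLp_rf_restrict {u : ℝ × ℝ → ℝ} {V : Set (ℝ × ℝ)}
    (h : MemLp u 2 (volume.restrict (rf ⁻¹' V))) :
    MemLp (fun p => u (rf p)) 2 (volume.restrict V) := by
  have h1 : MeasurePreserving rf (volume.restrict V) (volume.restrict (rf ⁻¹' V)) := by
    have h2 := measurePreserving_rf.restrict_preimage_emb measurableEmbedding_rf (rf ⁻¹' V)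
    rwa [rf_pre_pre] at h2
  exact h.comp_measurePreserving h1

theorem TwoG.mW1 (H : TwoG E S 𝒬 𝓗 Q Q' sq sq' a b c d Bm Bp Tl Tu M X1 X2 ψ Ψ Y1 Y2 ψ' Ψ' μ ν f
    f' g g') : MemLp (W1 X2 Y2) 2 (volume.restrict Eᶜ) := by
  have h1 := memLp_rf_restrict (V := Eᶜ) H.sY.2
  exact (H.sX.2.neg).sub h1

theorem TwoG.mW2 (H : TwoG E S 𝒬 𝓗 Q Q' sq sq' a b c d Bm Bp Tl Tu M X1 X2 ψ Ψ Y1 Y2 ψ' Ψ' μ ν f
    f' g g') : MemLp (W2 X1 Y1) 2 (volume.restrict Eᶜ) := by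
  have h1 := memLp_rf_restrict (V := Eᶜ) H.sY.1
  exact H.sX.1.sub h1

/-- vertical lines -/
theorem TwoG.ver (H : TwoG E S 𝒬 𝓗 Q Q' sq sq' a b c d Bm Bp Tl Tu M X1 X2 ψ Ψ Y1 Y2 ψ' Ψ' μ ν f
    f' g g') : ∀ᵐ x : ℝ, ∀ y y', y ≤ y' →
      (∀ t ∈ Icc y y', (x, t) ∈ (Ioo a b ×ˢ Ioo c d) \ E) →
      glF M g g' (x, y') - glF M g g' (x, y) = ∫ t in y..y', W2 X1 Y1 (x, t) := by
  have hBM := H.BM
  have hMB := H.MB
  have hMl := H.Ml
  have hMu := H.Mu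
  filter_upwards [H.H.V, H.H'.V, Sq_87.ae_int_x H.D.L.L1, Sq_87.ae_int_x H.D'.L.L1]
    with x h1 h2 h3 h4 y y' hyy hs
  have hr : ∀ t ∈ Icc y y', x ∈ Ioo a b ∧ c < t ∧ t < d ∧ (x, t) ∉ E := fun t ht =>
    ⟨(hs t ht).1.1, (hs t ht).1.2.1, (hs t ht).1.2.2, (hs t ht).2⟩
  have hnS : ∀ t ∈ Icc y y', (x, t) ∉ S := fun t ht h => (hs t ht).2 (H.G.SE h)
  -- integrability
  have i1 : ∀ u v, IntervalIntegrable (fun t => W2 X1 Y1 (x, t)) volume u v := by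
    intro u v
    have e1 : IntervalIntegrable (fun t => X1 (x, t)) volume u v := h3.intervalIntegrable
    have e2 : IntervalIntegrable (fun t => Y1 (x, -t)) volume u v := h4.comp_neg.intervalIntegrable
    exact e1.sub e2
  -- lower part
  have lo : ∀ u v, u ≤ v → y ≤ u → v ≤ y' → v ≤ M →
      glF M g g' (x, v) - glF M g g' (x, u) = ∫ t in u..v, W2 X1 Y1 (x, t) := by
    intro u v huv hyu hvy hvM
    have hmu := hr u ⟨hyu, huv.trans hvy⟩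
    have hmv := hr v ⟨hyu.trans huv, hvy⟩
    rw [H.F_lo' (p := (x, v)) hmv.1 hvM (hnS v ⟨hyu.trans huv, hvy⟩),
      H.F_lo' (p := (x, u)) hmu.1 (huv.trans hvM) (hnS u ⟨hyu, huv.trans hvy⟩),
      h1 u v huv (fun t ht => ?_)]
    · refine intervalIntegral.integral_congr fun t ht => ?_
      rw [uIcc_of_le huv] at ht
      show X1 (x, t) = X1 (x, t) - Y1 (rf (x, t))
      rw [H.B1' (rf (x, t)) (by show -Bp ≤ -t; linarith [ht.2]), sub_zero]
    · have := hr t ⟨hyu.trans ht.1, ht.2.trans hvy⟩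
      exact ⟨⟨this.1, this.2.1, lt_of_le_of_lt (ht.2.trans hvM) hMl⟩, this.2.2.2⟩
  -- upper part
  have up : ∀ u v, u ≤ v → y ≤ u → v ≤ y' → M ≤ u →
      glF M g g' (x, v) - glF M g g' (x, u) = ∫ t in u..v, W2 X1 Y1 (x, t) := by
    intro u v huv hyu hvy hMu'
    have hmu := hr u ⟨hyu, huv.trans hvy⟩
    have hmv := hr v ⟨hyu.trans huv, hvy⟩
    rw [H.F_up (p := (x, v)) hmv.1 (hBM.trans_le (hMu'.trans huv)) (hnS v ⟨hyu.trans huv, hvy⟩),
      H.F_up (p := (x, u)) hmu.1 (hBM.trans_le hMu') (hnS u ⟨hyu, huv.trans hvy⟩)]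
    have e1 := h2 (-v) (-u) (neg_le_neg huv) (fun t ht => ?_)
    · have e2 : g' (rf (x, v)) - g' (rf (x, u)) = -∫ t in (-v)..(-u), Y1 (x, t) := by
        simp only [rf_mk]
        linarith
      rw [e2, ← intervalIntegral.integral_comp_neg (fun t => Y1 (x, t)),
        ← intervalIntegral.integral_neg]
      refine intervalIntegral.integral_congr fun t ht => ?_
      rw [uIcc_of_le huv] at ht
      show -Y1 (x, -t) = X1 (x, t) - Y1 (rf (x, t))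
      rw [H.B1 (x, t) (by show Bm ≤ t; linarith [ht.1]), zero_sub, rf_mk]
    · have := hr (-t) ⟨by linarith [ht.2], by linarith [ht.1]⟩
      refine ⟨⟨this.1, by linarith [this.2.2.1], ?_⟩, ?_⟩
      · show t < Tu
        linarith [ht.2]
      · intro hmem
        exact this.2.2.2 (by simpa using hmem)
  rcases le_total y' M with h5 | h5
  · exact lo y y' hyy le_rfl le_rfl h5
  rcases le_total M y with h6 | h6
  · exact up y y' hyy le_rfl le_rfl h6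
  · have e1 := lo y M h6 le_rfl h5 le_rfl
    have e2 := up M y' h5 h6 le_rfl le_rfl
    rw [← intervalIntegral.integral_add_adjacent_intervals (i1 y M) (i1 M y')]
    linarith

/-- horizontal lines -/
theorem TwoG.hor [IsFiniteMeasure ν]
    (H : TwoG E S 𝒬 𝓗 Q Q' sq sq' a b c d Bm Bp Tl Tu M X1 X2 ψ Ψ Y1 Y2 ψ' Ψ' μ ν f
    f' g g') : ∀ᵐ y : ℝ, ∀ x x', x ≤ x' →
      (∀ s ∈ Icc x x', (s, y) ∈ (Ioo a b ×ˢ Ioo c d) \ E) →
      glF M g g' (x', y) - glF M g g' (x, y) = ∫ s in x..x', W1 X2 Y2 (s, y) := by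
  have hBM := H.BM
  have hMB := H.MB
  have hMl := H.Ml
  have hMu := H.Mu
  have n1 : ∀ᵐ y : ℝ, y ≠ Bm := by rw [ae_iff]; simp
  have n2 : ∀ᵐ y : ℝ, y ≠ Bp := by rw [ae_iff]; simp
  filter_upwards [H.H.H, Psi12_425.ae_neg H.H'.H, n1, n2] with y h1 h2 h3 h4 x x' hxx hs
  have hr : ∀ s ∈ Icc x x', s ∈ Ioo a b ∧ c < y ∧ y < d ∧ (s, y) ∉ E := fun t ht =>
    ⟨(hs t ht).1.1, (hs t ht).1.2.1, (hs t ht).1.2.2, (hs t ht).2⟩
  have hnS : ∀ t ∈ Icc x x', (t, y) ∉ S := fun t ht h => (hs t ht).2 (H.G.SE h)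
  have mx : x ∈ Icc x x' := ⟨le_rfl, hxx⟩
  have mx' : x' ∈ Icc x x' := ⟨hxx, le_rfl⟩
  have hx := hr x mx
  have hx' := hr x' mx'
  rcases lt_trichotomy y Bm with h5 | h5 | h5
  · -- below
    rw [H.F_lo' (p := (x', y)) hx'.1 (h5.le.trans hBM.le) (hnS x' mx'),
      H.F_lo' (p := (x, y)) hx.1 (h5.le.trans hBM.le) (hnS x mx),
      h1 h5 x x' hxx (fun t ht => ?_), ← intervalIntegral.integral_neg]
    · refine intervalIntegral.integral_congr fun t ht => ?_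
      show -X2 (t, y) = -X2 (t, y) - Y2 (rf (t, y))
      rw [H.D'.XB (rf (t, y)) (by show -Bp ≤ -y; linarith), sub_zero]
    · have := hr t ht
      exact ⟨⟨this.1, this.2.1, by show y < Tl; linarith⟩, this.2.2.2⟩
  · exact absurd h5 h3
  rcases lt_trichotomy y Bp with h6 | h6 | h6
  · -- strip
    rw [H.strip₀ (p := (x', y)) hx'.1 h5 h6 (hnS x' mx'),
      H.strip₀ (p := (x, y)) hx.1 h5 h6 (hnS x mx)]
    have h7 : lam ν x' = lam ν x := by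
      refine lam_eq_of_null hxx ?_
      filter_upwards [H.C'.ray, H.C'.lvl] with q hq hl hcon
      have h8 := hq (-y) ⟨by linarith, by linarith⟩
      exact (hr q.1 hcon).2.2.2 (by simpa using h8)
    show -lam ν x' - -lam ν x = _
    rw [h7, sub_self]
    symm
    have h9 : ∀ t, W1 X2 Y2 (t, y) = 0 := fun t => by
      show -X2 (t, y) - Y2 (rf (t, y)) = 0
      rw [H.D.XB (t, y) h5.le, H.D'.XB (rf (t, y)) (by show -Bp ≤ -y; linarith)]; ring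
    simp only [h9, intervalIntegral.integral_zero]
  · exact absurd h6 h4
  · -- above
    rw [H.F_up (p := (x', y)) hx'.1 h5 (hnS x' mx'), H.F_up (p := (x, y)) hx.1 h5 (hnS x mx)]
    have e1 := h2 (by linarith) x x' hxx (fun t ht => ?_)
    · simp only [rf_mk]
      rw [e1, ← intervalIntegral.integral_neg]
      refine intervalIntegral.integral_congr fun t ht => ?_
      show -Y2 (t, -y) = -X2 (t, y) - Y2 (rf (t, y))
      rw [H.D.XB (t, y) h5.le, rf_mk]; ring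
    · have := hr t ht
      refine ⟨⟨this.1, by linarith [this.2.2.1], by linarith⟩, ?_⟩
      intro hmem
      exact this.2.2.2 (by simpa using hmem)

end Crest.Agent.R105.Gl_363
end

-- ▼ part R105/Glu1_832
section

/-!
# Row 105 (S0138), LEMAQ StrQ (helper832, (J1) of 425 #11396)

`TwoG` + flux bounds + charges + carriers ⟹ `Psq_425.Glue`, in one generic form (`N = ⋃₀ gg`).
-/

set_option autoImplicit false

open MeasureTheory Set Filter Topology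
open scoped NNReal ENNReal

namespace Crest.Agent.R105.Glu_832

open Crest.Agent.R105.CF_363 Crest.Agent.R105.Cq_463 Crest.Agent.R105.Stp_722
open Crest.Agent.R105.Exs_992 Crest.Agent.R105.Nal_649 Crest.Agent.R105.Psq_463
open Crest.Agent.R105.Psq_425 Crest.Agent.R105.SqC_832 Sq_87 Hq_363 Kbx_247
open Crest.Agent.R105.Gl_363 (GlueF TwoG GeoC CarC HalfG glF clq)
open Crest.Agent.R105.Ge_347 (ChQ)
open Crest.Agent.R105.Skp2_257 (Comps)
open Mp_87 (lam)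

variable {ι ι' : Type}
variable {E S A : Set (ℝ × ℝ)} {𝒬 : Set Sqr} {𝓗 : Set Hair} {Q : Rects ι} {Q' : Rects ι'}
  {sq : ι → Sqr} {sq' : ι' → Sqr} {a b c d Bm Bp Tl Tu M : ℝ}
  {X1 X2 ψ Ψ Y1 Y2 ψ' Ψ' : ℝ × ℝ → ℝ} {μ ν : Measure (ℝ × ℝ)} {f : ι → ℝ} {f' : ι' → ℝ}
  {g g' : ℝ × ℝ → ℝ} {gg S₀ : Set (Set (ℝ × ℝ))} {ch : Sqr → ℝ}
  {np nm : ι → Measure (ℝ × ℝ)} {np' nm' : ι' → Measure (ℝ × ℝ)}

/-! ## `lam` -/

theorem lam_mono [IsFiniteMeasure ν] : Monotone (lam ν) := by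
  intro x y hxy
  unfold Mp_87.lam
  exact ENNReal.toReal_mono (measure_ne_top _ _) (measure_mono fun q hq => lt_of_lt_of_le hq hxy)

theorem lam_nonneg (x : ℝ) : 0 ≤ lam ν x := by unfold Mp_87.lam; exact ENNReal.toReal_nonneg

theorem lam_le_univ [IsFiniteMeasure ν] (x : ℝ) : lam ν x ≤ (ν univ).toReal := by
  unfold Mp_87.lam
  exact ENNReal.toReal_mono (measure_ne_top _ _) (measure_mono (subset_univ _))

/-! ## The rays are in the family -/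

/-- a vertical ray in `E` which starts in a component of the family stays in the family -/
theorem ray_fam (hg : gg ⊆ Comps E) {x y0 y : ℝ} (h0 : (x, y0) ∈ ⋃₀ gg) (hy : y0 ≤ y)
    (hr : ∀ t ∈ Icc y0 y, (x, t) ∈ E) : (x, y) ∈ ⋃₀ gg := by
  obtain ⟨P, hP, hx⟩ := h0
  have hc : IsPreconnected ((fun t : ℝ => (x, t)) '' Icc y0 y) :=
    isPreconnected_Icc.image _ (by fun_prop)
  have h1 : (fun t : ℝ => (x, t)) '' Icc y0 y ⊆ P := by
    refine sub_of_meet (hg hP) ?_ hc ⟨_, hx, y0, ⟨le_rfl, hy⟩, rfl⟩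
    rintro _ ⟨t, ht, rfl⟩
    exact hr t ht
  exact ⟨P, hP, h1 ⟨y, ⟨hy, le_rfl⟩, rfl⟩⟩

/-- the same for a ray which goes down -/
theorem ray_fam' (hg : gg ⊆ Comps E) {x y0 y : ℝ} (h0 : (x, y0) ∈ ⋃₀ gg) (hy : y ≤ y0)
    (hr : ∀ t ∈ Icc y y0, (x, t) ∈ E) : (x, y) ∈ ⋃₀ gg := by
  obtain ⟨P, hP, hx⟩ := h0
  have hc : IsPreconnected ((fun t : ℝ => (x, t)) '' Icc y y0) :=
    isPreconnected_Icc.image _ (by fun_prop)
  have h1 : (fun t : ℝ => (x, t)) '' Icc y y0 ⊆ P := by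
    refine sub_of_meet (hg hP) ?_ hc ⟨_, hx, y0, ⟨hy, le_rfl⟩, rfl⟩
    rintro _ ⟨t, ht, rfl⟩
    exact hr t ht
  exact ⟨P, hP, h1 ⟨y, ⟨le_rfl, hy⟩, rfl⟩⟩

theorem rays_lo (hg : gg ⊆ Comps E) (C : CarC E S 𝒬 Bm Tl μ) (h1 : ∀ᵐ q ∂μ, q ∈ ⋃₀ gg) :
    ∀ᵐ q ∂μ, ∀ y ∈ Ico q.2 Tl, (q.1, y) ∈ ⋃₀ gg := by
  filter_upwards [h1, C.ray] with q hq hr y hy
  exact ray_fam hg (y0 := q.2) hq hy.1 fun t ht => hr t ⟨ht.1, ht.2.trans_lt hy.2⟩

theorem rays_up {B : ℝ} (hg : gg ⊆ Comps E)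
    (C : CarC (rf ⁻¹' E) (rf ⁻¹' S) (rfS '' 𝒬) B Tu ν) (h1 : ∀ᵐ q ∂ν, rf q ∈ ⋃₀ gg) :
    ∀ᵐ q ∂ν, ∀ y ∈ Ico q.2 Tu, rf (q.1, y) ∈ ⋃₀ gg := by
  filter_upwards [h1, C.ray] with q hq hr y hy
  show (q.1, -y) ∈ ⋃₀ gg
  refine ray_fam' hg (y0 := -q.2) hq (by linarith [hy.1]) fun t ht => ?_
  have := hr (-t) ⟨by linarith [ht.2], by linarith [ht.1, hy.2]⟩
  simpa using this

/-! ## Geometry -/

theorem op_sub (G : GeoC E S 𝒬 𝓗 Q sq a b c Bm Tl) (i : ι) : Q.op i ⊆ (sq i).car := by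
  intro p hp
  exact interior_subset ((Gl_363.mem_op' G).1 hp).1

/-- **(J1)** -/
theorem glue_of [IsFiniteMeasure μ] [IsFiniteMeasure ν] (hP : PicS E 𝒬 𝓗) (hg : FamQ E gg Bm Bp)
    (T : TwoG E S 𝒬 𝓗 Q Q' sq sq' a b c d Bm Bp Tl Tu M X1 X2 ψ Ψ Y1 Y2 ψ' Ψ' μ ν f f' g g')
    (two : TwoQ Q Q' ((E ∩ {p | p.2 < Bm}) \ Q.un) ((rf ⁻¹' E ∩ {p | p.2 < -Bp}) \ Q'.un) E
      a b c d Bm Bp M X1 X2 ψ Ψ Y1 Y2 ψ' Ψ' μ ν f f' (glF M g g'))
    (GF : GlueF E 𝒬 𝓗 S A a b c d Bm Bp (lam ν) ch (glF M g g') (W1 X2 Y2) (Gl_363.W2 X1 Y1))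
    (hch : ∀ Q, 0 ≤ ch Q) (hsum : Summable fun Q : 𝒬 => ch Q.1 ^ 2)
    (C : ChQ Q X1 X2 f np nm) (C' : ChQ Q' Y1 Y2 f' np' nm')
    (la : ∀ i, ∫ p in Q.op i, |X2 p| ≤ 4 * (Q.h2 i * f i))
    (la' : ∀ i, ∫ p in Q'.op i, |Y2 p| ≤ 4 * (Q'.h2 i * f' i))
    (c1 : ∀ᵐ q ∂μ, q ∈ ⋃₀ gg) (c2 : ∀ᵐ q ∂ν, rf q ∈ ⋃₀ gg) (hSg : S ⊆ ⋃₀ gg)
    (hSf : S₀.Finite) (hS : ∀ P ∈ Comps E, P ∉ S₀ → Disjoint P S) :
    Glue E 𝒬 gg S₀ a b c d Bm Bp M (μ univ).toReal Q Q' ((E ∩ {p | p.2 < Bm}) \ Q.un)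
      ((rf ⁻¹' E ∩ {p | p.2 < -Bp}) \ Q'.un) X1 X2 ψ Ψ Y1 Y2 ψ' Ψ' μ ν f f' (glF M g g')
      (Gl_363.W2 X1 Y1) ch sq (fun i => rfS (sq' i)) := by
  have r1 := rays_lo hg.sub T.C c1
  have r2 := rays_up hg.sub T.C' c2
  have hm0 : 0 ≤ (μ univ).toReal := ENNReal.toReal_nonneg
  refine ⟨two, la, la', ?_, ?_, rfl, ?_, ?_, ?_, ?_, ?_, ?_, ?_⟩
  · refine gFun hP GF hg hS hSf lam_mono lam_nonneg (fun x => ?_) hch hsum
      ⟨GF.str.cont, GF.str.V1, GF.str.V2, GF.str.hor, GF.str.ver⟩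
    rw [← T.mass]
    exact lam_le_univ x
  · exact (sUnion_subset fun P hP' => comps_sub' (hg.sub hP')).trans T.box
  · rintro p ⟨⟨h, -⟩, -⟩
    exact h
  · rintro p ⟨⟨h, -⟩, -⟩
    exact h
  · exact fun i => ⟨(T.G.sqm i).1, op_sub T.G i⟩
  · intro i
    refine ⟨mem_rfS.1 (T.G'.sqm i).1, fun p hp => ?_⟩
    rw [mem_car_rfS, rf_rf]
    exact op_sub T.G' i hp
  · filter_upwards [r1] with q hq y h1 h2
    exact hq y ⟨h1.le, h2.trans T.Ml⟩
  · filter_upwards [r2] with q hq y h1 h2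
    have h3 := hq (-y) ⟨h2.le, by linarith [T.Mu, T.BM]⟩
    simpa using h3
  · rintro t M₀ ht κ K hκ hκc hκR ⟨O, hO, hgO, hκ0⟩
    have hκW : tsupport κ ⊆ (Ioo a b ×ˢ Ioo c d) \ ⋃₀ gg := by
      intro p hp
      refine ⟨hκR hp, fun hpg => ?_⟩
      refine (notMem_tsupport_iff_eventuallyEq.2 ?_) hp
      filter_upwards [hO.mem_nhds (hgO hpg)] with q hq using hκ0 q hq
    exact Ge_347.plaLim_N T C C' hg.cpt.isClosed hSg
      (fun Q₀ hQ h => Ge_347.sq_sub_fam T.G.pic hg.sub hQ h) r1 r2 hκ hκc hκW ht.lip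
      (fun s => ht.bdd hm0 s)

end Crest.Agent.R105.Glu_832
end

-- ▼ part R105/Gl5_363
section

/-!
Row 105, S0138, Lemma A with squares (helper363, leaf (L5)): the glued function: squares, `GlueF`,
`TwoQ`.
-/

set_option autoImplicit false

open MeasureTheory Set Filter Topology
open scoped NNReal ENNReal

namespace Crest.Agent.R105.Gl_363

open CF_363 Cq_463 Sq_87 Hq_363 Kbx_247
open Mp_87 (lam Rc)

variable {ι ι' : Type}
variable {E S : Set (ℝ × ℝ)} {𝒬 : Set Sqr} {𝓗 : Set Hair} {Q : Rects ι} {Q' : Rects ι'}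
  {sq : ι → Sqr} {sq' : ι' → Sqr} {a b c d Bm Bp Tl Tu M : ℝ}
  {X1 X2 ψ Ψ Y1 Y2 ψ' Ψ' : ℝ × ℝ → ℝ} {μ ν : Measure (ℝ × ℝ)} {f : ι → ℝ} {f' : ι' → ℝ}
  {g g' : ℝ × ℝ → ℝ}

open Classical in
/-- the charge of a square, seen from an indexed family of squares -/
noncomputable def chq (sq : ι → Sqr) (f : ι → ℝ) (Q₀ : Sqr) : ℝ :=
  if h : ∃ i, sq i = Q₀ then f h.choose else 0

theorem chq_nonneg {sq : ι → Sqr} {f : ι → ℝ} (hf : ∀ i, 0 ≤ f i) (Q₀ : Sqr) :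
    0 ≤ chq sq f Q₀ := by
  unfold chq
  split_ifs with h
  · exact hf _
  · exact le_rfl

/-- the index is unique because the open rectangles are disjoint -/
theorem sq_inj {B T : ℝ} (G : GeoC E S 𝒬 𝓗 Q sq a b c B T)
    (dis : Pairwise (fun i j => Disjoint (Q.op i) (Q.op j))) : Function.Injective sq := by
  intro i j hij
  by_contra hne
  have h1 : Disjoint (Q.op i) (Q.op j) := dis hne
  have e : Q.op i = Q.op j := by
    ext p
    rw [mem_op' G, mem_op' G, hij]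
  have hne' : (Q.op i).Nonempty := ⟨(Q.x i, Q.y i), by
    have := Q.p1 i
    have := Q.p2 i
    rw [mem_op]
    exact ⟨⟨by linarith, by linarith⟩, by linarith, by linarith⟩⟩
  rw [← e, disjoint_self] at h1
  exact hne'.ne_empty h1

theorem chq_sq {B T : ℝ} (G : GeoC E S 𝒬 𝓗 Q sq a b c B T)
    (dis : Pairwise (fun i j => Disjoint (Q.op i) (Q.op j))) (i : ι) : chq sq f (sq i) = f i := by
  have h : ∃ j, sq j = sq i := ⟨i, rfl⟩
  unfold chq
  rw [dif_pos h]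
  exact congrArg f (sq_inj G dis h.choose_spec)

/-- the lower part of a charged square -/
theorem half_sq {B T : ℝ} {ψ₀ g₀ : ℝ × ℝ → ℝ} {μ₀ : Measure (ℝ × ℝ)}
    (G : GeoC E S 𝒬 𝓗 Q sq a b c B T)
    (dis : Pairwise (fun i j => Disjoint (Q.op i) (Q.op j)))
    (H : HalfG E S 𝓗 Q a b c B T X1 X2 μ₀ f ψ₀ g₀) {Q₀ : Sqr} (hQ₀ : Q₀ ∈ 𝒬)
    (hd : Disjoint Q₀.car S) (hB : Q₀.y < B) {p q : ℝ × ℝ} (hp : p ∈ Q₀.car) (hq : q ∈ Q₀.car)
    (hpB : p.2 ≤ B) (hqB : q.2 ≤ B) (hpu : p ∉ Q.un) (hqu : q ∉ Q.un) :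
    |g₀ p - g₀ q| ≤ 4 * chq sq f Q₀ := by
  obtain ⟨i, rfl⟩ := G.sqs Q₀ hQ₀ hd hB
  rw [chq_sq G dis]
  exact H.sq i p ((mem_clq' G).2 ⟨hp, hpB⟩) q ((mem_clq' G).2 ⟨hq, hqB⟩) hpu hqu

theorem car_rfS_mem {Q₀ : Sqr} {p : ℝ × ℝ} (hp : p ∈ Q₀.car) : rf p ∈ (rfS Q₀).car := by
  rw [mem_car_rfS, rf_rf]; exact hp

/-- **the oscillation over the squares** -/
theorem TwoG.sqq [IsFiniteMeasure ν]
    (H : TwoG E S 𝒬 𝓗 Q Q' sq sq' a b c d Bm Bp Tl Tu M X1 X2 ψ Ψ Y1 Y2 ψ' Ψ' μ ν f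
    f' g g') {Q₀ : Sqr} (hQ₀ : Q₀ ∈ 𝒬) (hd : Disjoint Q₀.car S) :
    ∀ p ∈ Q₀.car \ (Q.un ∪ rf ⁻¹' Q'.un), ∀ q ∈ Q₀.car \ (Q.un ∪ rf ⁻¹' Q'.un),
      |glF M g g' p - glF M g g' q| ≤ 4 * chq sq f Q₀ + 4 * chq sq' f' (rfS Q₀) := by
  have hBM := H.BM
  have hMB := H.MB
  have hMl := H.Ml
  have hMu := H.Mu
  have hc0 := chq_nonneg (sq := sq) H.D.f0 Q₀
  have hc0' := chq_nonneg (sq := sq') H.D'.f0 (rfS Q₀)
  have hab : ∀ p ∈ Q₀.car, p.1 ∈ Ioo a b := fun p hp => (H.box (H.G.pic.sub Q₀ hQ₀ hp)).1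
  have hnS : ∀ p ∈ Q₀.car, p ∉ S := fun p hp => Set.disjoint_left.1 hd hp
  have hr𝒬 : rfS Q₀ ∈ rfS '' 𝒬 := ⟨Q₀, hQ₀, rfl⟩
  have hrd : Disjoint (rfS Q₀).car (rf ⁻¹' S) := by
    rw [car_rfS]; exact hd.preimage _
  have hun : ∀ p : ℝ × ℝ, Bm ≤ p.2 → p ∉ Q.un := fun p hp h => absurd (un_lt H.G h) (not_lt.2 hp)
  have hun' : ∀ p : ℝ × ℝ, p.2 ≤ Bp → rf p ∉ Q'.un := fun p hp h => by
    have := un_lt H.G' h
    rw [rf_snd] at this
    linarith
  -- two points of the lower part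
  have lo : ∀ p ∈ Q₀.car, ∀ q ∈ Q₀.car, Q₀.y < Bm → p.2 ≤ Bm → q.2 ≤ Bm → p ∉ Q.un → q ∉ Q.un →
      |glF M g g' p - glF M g g' q| ≤ 4 * chq sq f Q₀ := by
    intro p hp q hq h0 hpB hqB hpu hqu
    rw [H.F_lo' (hab p hp) (hpB.trans hBM.le) (hnS p hp),
      H.F_lo' (hab q hq) (hqB.trans hBM.le) (hnS q hq)]
    exact half_sq H.G H.D.dis H.H hQ₀ hd h0 hp hq hpB hqB hpu hqu
  -- two points of the upper part
  have up : ∀ p ∈ Q₀.car, ∀ q ∈ Q₀.car, Bp < Q₀.y + Q₀.s → Bp ≤ p.2 → Bp ≤ q.2 →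
      rf p ∉ Q'.un → rf q ∉ Q'.un →
      |glF M g g' p - glF M g g' q| ≤ 4 * chq sq' f' (rfS Q₀) := by
    intro p hp q hq h0 hpB hqB hpu hqu
    rw [H.F_up (hab p hp) (by linarith) (hnS p hp), H.F_up (hab q hq) (by linarith) (hnS q hq)]
    exact half_sq H.G' H.D'.dis H.H' hr𝒬 hrd (by rw [rfS_y]; linarith) (car_rfS_mem hp)
      (car_rfS_mem hq) (by rw [rf_snd]; linarith) (by rw [rf_snd]; linarith) hpu hqu
  rintro p ⟨hp, hpn⟩ q ⟨hq, hqn⟩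
  have hpu : p ∉ Q.un := fun h => hpn (Or.inl h)
  have hqu : q ∉ Q.un := fun h => hqn (Or.inl h)
  have hpu' : rf p ∉ Q'.un := fun h => hpn (Or.inr h)
  have hqu' : rf q ∉ Q'.un := fun h => hqn (Or.inr h)
  have hp' := Sqr.mem_car.1 hp
  have hq' := Sqr.mem_car.1 hq
  have hs := Q₀.hs
  rcases le_or_gt (Q₀.y + Q₀.s) Bm with h1 | h1
  · have := lo p hp q hq (by linarith) (by linarith [hp'.2.2]) (by linarith [hq'.2.2]) hpu hqu
    linarith
  rcases le_or_gt Bp Q₀.y with h2 | h2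
  · have := up p hp q hq (by linarith) (by linarith [hp'.2.1]) (by linarith [hq'.2.1]) hpu' hqu'
    linarith
  -- no mass in the columns of the square
  have hk : ∀ x ∈ Icc Q₀.x (Q₀.x + Q₀.s), lam ν x = lam ν Q₀.x := by
    intro x hx
    refine lam_eq_of_null hx.1 ?_
    filter_upwards [H.C'.off, H.C'.lvl] with w hw hl hcon
    refine hw (max w.2 (-(Q₀.y + Q₀.s))) ⟨le_max_left _ _, max_lt (by linarith) (by linarith)⟩
      (rfS Q₀) hr𝒬 hrd ?_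
    rw [Sqr.mem_car, rfS_x, rfS_y, rfS_s]
    refine ⟨⟨hcon.1, hcon.2.trans hx.2⟩, le_max_right _ _, max_le ?_ ?_⟩
    · have := hl
      linarith
    · linarith
  -- the distance to the value of the strip
  have key : ∀ p ∈ Q₀.car, p ∉ Q.un → rf p ∉ Q'.un →
      (p.2 < Bm → |glF M g g' p - -lam ν Q₀.x| ≤ 4 * chq sq f Q₀) ∧
      (Bm ≤ p.2 → p.2 ≤ Bp → glF M g g' p = -lam ν Q₀.x) ∧
      (Bp < p.2 → |glF M g g' p - -lam ν Q₀.x| ≤ 4 * chq sq' f' (rfS Q₀)) := by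
    intro p hp hpu hpu'
    have hp' := Sqr.mem_car.1 hp
    refine ⟨fun h => ?_, fun h3 h4 => ?_, fun h => ?_⟩
    · have ht : (p.1, Bm) ∈ Q₀.car := Sqr.mem_car.2 ⟨hp'.1, by show Q₀.y ≤ Bm; linarith [hp'.2.1],
        h1.le⟩
      have e1 := lo p hp _ ht (by linarith [hp'.2.1]) h.le le_rfl hpu (hun _ le_rfl)
      have e2 := H.strip (p := (p.1, Bm)) (hab p hp) le_rfl (hBM.le.trans hMB.le) (hnS _ ht)
      rw [e2] at e1
      simp only at e1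
      rwa [hk p.1 hp'.1] at e1
    · rw [H.strip (hab p hp) h3 h4 (hnS p hp), hk p.1 hp'.1]
    · have ht : (p.1, Bp) ∈ Q₀.car := Sqr.mem_car.2 ⟨hp'.1, h2.le, by
        show Bp ≤ Q₀.y + Q₀.s; linarith [hp'.2.2]⟩
      have e1 := up p hp _ ht (by linarith [hp'.2.2]) h.le le_rfl hpu' (hun' _ le_rfl)
      have e2 := H.strip (p := (p.1, Bp)) (hab p hp) (hBM.le.trans hMB.le) le_rfl (hnS _ ht)
      rw [e2] at e1
      simp only at e1
      rwa [hk p.1 hp'.1] at e1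
  obtain ⟨a1, a2, a3⟩ := key p hp hpu hpu'
  obtain ⟨b1, b2, b3⟩ := key q hq hqu hqu'
  have tri : |glF M g g' p - glF M g g' q| ≤
      |glF M g g' p - -lam ν Q₀.x| + |glF M g g' q - -lam ν Q₀.x| := by
    rw [abs_sub_comm (glF M g g' q)]
    exact abs_sub_le _ _ _
  rcases lt_or_ge p.2 Bm with c1 | c1 <;> rcases lt_or_ge q.2 Bm with d1 | d1
  · have := lo p hp q hq (by linarith [hp'.2.1]) c1.le d1.le hpu hqu
    linarith
  · rcases le_or_gt q.2 Bp with d2 | d2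
    · have e1 := a1 c1
      rw [← b2 d1 d2] at e1
      linarith
    · have e1 := a1 c1
      have e2 := b3 d2
      linarith
  · rcases le_or_gt p.2 Bp with c2 | c2
    · have e1 := b1 d1
      rw [← a2 c1 c2, abs_sub_comm] at e1
      linarith
    · have e1 := b1 d1
      have e2 := a3 c2
      linarith
  · rcases le_or_gt p.2 Bp with c2 | c2 <;> rcases le_or_gt q.2 Bp with d2 | d2
    · rw [a2 c1 c2, b2 d1 d2, sub_self, abs_zero]; linarith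
    · have e1 := b3 d2
      rw [← a2 c1 c2, abs_sub_comm] at e1
      linarith
    · have e1 := a3 c2
      rw [← b2 d1 d2] at e1
      linarith
    · have := up p hp q hq (by linarith [hp'.2.2]) c2.le d2.le hpu' hqu'
      linarith

/-- **the list `GlueF` of the glued function** -/
theorem TwoG.glueF [IsFiniteMeasure ν]
    (H : TwoG E S 𝒬 𝓗 Q Q' sq sq' a b c d Bm Bp Tl Tu M X1 X2 ψ Ψ Y1 Y2 ψ' Ψ' μ ν f
    f' g g') : GlueF E 𝒬 𝓗 S (Q.un ∪ rf ⁻¹' Q'.un) a b c d Bm Bp (lam ν)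
      (fun Q₀ => 4 * chq sq f Q₀ + 4 * chq sq' f' (rfS Q₀)) (glF M g g') (W1 X2 Y2)
      (W2 X1 Y1) where
  box := H.box
  cS := H.G.cS
  SE := H.G.SE
  oA := Q.isOpen_un.union (Q'.isOpen_un.preimage continuous_rf)
  Asq := by
    rintro p (hp | hp)
    · exact un_int H.G hp
    · obtain ⟨Q₁, hQ₁, h⟩ := un_int H.G' hp
      refine ⟨rfS Q₁, mem_rfS.1 hQ₁, ?_⟩
      rw [interior_car] at h ⊢
      obtain ⟨⟨h1, h2⟩, h3, h4⟩ := h
      simp only [rf_fst, rf_snd] at h1 h2 h3 h4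
      refine ⟨⟨h1, h2⟩, ?_, ?_⟩
      · show -(Q₁.y + Q₁.s) < p.2
        linarith
      · show p.2 < -(Q₁.y + Q₁.s) + Q₁.s
        linarith
  cont := H.cont
  str := by
    have hsub : (Ioo a b ×ˢ Ioo c d) \ E ⊆
        (Ioo a b ×ˢ Ioo c d) \ ((Q.un ∪ rf ⁻¹' Q'.un) ∪ S) := by
      rintro p ⟨h1, h2⟩
      refine ⟨h1, ?_⟩
      rintro ((h | h) | h)
      · exact h2 (un_sub H.G h)
      · have := un_sub H.G' h
        exact h2 (by simpa using this)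
      · exact h2 (H.G.SE h)
    have hsub2 : (Ioo a b ×ˢ Ioo c d) \ E ⊆ Eᶜ := fun p hp => hp.2
    exact ⟨H.cont.mono hsub, H.mW1.mono_measure (Measure.restrict_mono hsub2 le_rfl),
      H.mW2.mono_measure (Measure.restrict_mono hsub2 le_rfl), H.hor, H.ver⟩
  strip := fun p hp h1 h2 hS => H.strip₀ hp.1 h1 h2 hS
  hair := fun K hK hKS => H.hair hK hKS
  sq := fun Q₀ hQ₀ hd => H.sqq hQ₀ hd

theorem ae_rf {P : ℝ × ℝ → Prop} (h : ∀ᵐ p : ℝ × ℝ, P p) : ∀ᵐ p : ℝ × ℝ, P (rf p) :=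
  measurePreserving_rf.quasiMeasurePreserving.ae h

/-- **the data `TwoQ` of the flux formula**, `Z = E` -/
theorem TwoG.twoQ (H : TwoG E S 𝒬 𝓗 Q Q' sq sq' a b c d Bm Bp Tl Tu M X1 X2 ψ Ψ Y1 Y2 ψ' Ψ' μ ν f
    f' g g') : TwoQ Q Q' ((E ∩ {p | p.2 < Bm}) \ Q.un) ((rf ⁻¹' E ∩ {p | p.2 < -Bp}) \ Q'.un) E
      a b c d Bm Bp M X1 X2 ψ Ψ Y1 Y2 ψ' Ψ' μ ν f f' (glF M g g') where
  ab := H.ab
  cB := H.G.cB
  BM := H.BM.le
  MB := H.MB.le
  Bd := H.Bd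
  lo := H.D
  up := H.D'
  mass := H.mass
  mZ := H.G.pic.cpt.isClosed.measurableSet
  Zl := by
    refine Eventually.of_forall fun p hp => ⟨fun h => ?_, fun h => ?_⟩
    · by_cases hu : p ∈ Q.un
      · exact Or.inl hu
      · exact Or.inr ⟨⟨h, hp.2.2⟩, hu⟩
    · rcases h with h | h
      · exact un_sub H.G h
      · exact h.1.1
  Zu := by
    refine Eventually.of_forall fun p hp => ⟨fun h => ?_, fun h => ?_⟩
    · by_cases hu : p ∈ Q'.un
      · exact Or.inl hu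
      · exact Or.inr ⟨⟨h, hp.2.2⟩, hu⟩
    · rcases h with h | h
      · exact un_sub H.G' h
      · exact h.1.1
  Fl := by
    filter_upwards [H.H.ae] with p hp hpR hpE
    have h1 : p ∉ S := fun h => hpE (H.G.SE h)
    rw [H.F_lo' hpR.1 hpR.2.2.le h1]
    exact hp ⟨hpR.1, hpR.2.1, hpR.2.2.trans H.Ml⟩ (fun h => hpE (un_sub H.G h)) h1
  Fu := by
    filter_upwards [ae_rf H.H'.ae] with p hp hpR hpE
    have h1 : p ∉ S := fun h => hpE (H.G.SE h)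
    have hM := hpR.2.1
    rw [H.F_up hpR.1 (H.BM.trans hpR.2.1) h1]
    refine hp ⟨hpR.1, by show -d < -p.2; linarith [hpR.2.2], ?_⟩ (fun h => ?_) (by simpa using h1)
    · show -p.2 < Tu
      linarith [H.Mu, H.BM]
    · have := un_sub H.G' h
      exact hpE (by simpa using this)

end Crest.Agent.R105.Gl_363
end

-- ▼ part R105/Kna8_421

/-!
Row 105, S0138, lemma A with squares (helper421). Part 8: the three joins, and `LEMAQ StrQ`.
-/

set_option autoImplicit false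

open Set Filter MeasureTheory Topology
open scoped ENNReal NNReal

namespace Crest.Agent.R105.Kna_421

open CF_363 Stp_722 Cq_463
open Hq_363 (TwoQ)
open Sq_87 (Rects)
open Skp2_257 (Lo Up Comps)
open Nal_649 (FamQ Win comp)
open Famq_306 (Gen SqSub isCompact_comp exists_gen)
open Kbx_247 (rfS QA SolF FamF rfS_injective mem_rfS rfS_rfS)
open Exs_992 (PicS)
open SkT1_137 (ELS SOLO BNDQ LEMAQ)
open Psq_425 (Glue StrQ)
open SqJ_361 (BoxP Ix cutR LowOut cl)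
open Gl_363 (TwoG GlueF chq glF)
open Ge_347 (ChQ)
open Kin_238 (Wl Wo)
open Mp_87 (lam)

variable {E : Set (ℝ × ℝ)} {𝒬 𝒬' 𝒬'' : Set Sqr} {𝓗 : Set Hair}
  {a b c d B Bm Bp Tl Tu M m : ℝ} {g : Set (Set (ℝ × ℝ))} {Q0 : Sqr} {K : Hair}

/-! ### charges of one half -/

/-- 347's charges from 361's output -/
theorem chQ_of {X1 X2 U1 U2 ψ Ψ : ℝ × ℝ → ℝ} {f : {Q : Sqr // Q ∈ 𝒬'} → ℝ}
    {νp νm : {Q : Sqr // Q ∈ 𝒬'} → Measure (ℝ × ℝ)} {μ : Measure (ℝ × ℝ)} {C : Set (ℝ × ℝ)}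
    {J : ℕ → Finset Hair} {z : ℕ → ℝ × ℝ → ℝ} {κ : Hair → ℝ} {r : ℕ → Ix 𝒬' B → ℝ}
    (hP : BoxP E 𝒬 𝓗 a b c d) (h𝒬 : 𝒬' ⊆ 𝒬)
    (h : Knq_247.HalfQ 𝓗 a b c B E (QA 𝒬') C X1 X2 f νp νm μ)
    (O : LowOut E 𝒬' 𝓗 a b c B X1 X2 f νp νm μ U1 U2 ψ Ψ J z κ r) :
    ChQ (cutR 𝒬' B) U1 U2 (fun i => f i.1) (fun i => νp i.1) (fun i => νm i.1) where
  fp i := h.pfin i.1
  fm i := h.mfin i.1
  cp i := by
    have h1 := h.pc i.1
    rwa [show QA 𝒬' i.1 ∩ Wl a b c B = cl (cutR 𝒬' B) i from hP.cl_eq h𝒬 i] at h1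
  cm i := by
    have h1 := h.mc i.1
    rwa [show QA 𝒬' i.1 ∩ Wl a b c B = cl (cutR 𝒬' B) i from hP.cl_eq h𝒬 i] at h1
  mp i := h.pm i.1
  mm i := h.mm i.1
  f2 := h.fs.comp_injective Subtype.val_injective
  one i L e hL he := by
    have hl : LipschitzWith ⟨L, hL⟩ e := LipschitzWith.of_dist_le_mul fun p q => by
      rw [Real.dist_eq]; exact he p q
    exact O.one i e ⟨L, hL⟩ hl.lipschitzOnWith hl.continuous.continuousOn

theorem sq_injective : Function.Injective fun i : Ix 𝒬' B => i.1.1 := fun _ _ h =>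
  Subtype.ext (Subtype.ext h)

theorem two_h2_le (i : Ix 𝒬' B) : 2 * (cutR 𝒬' B).h2 i ≤ i.1.1.s := by
  simp only [cutR]
  have := min_le_left (i.1.1.y + i.1.1.s) B
  linarith

/-! ### sums of charges -/

theorem sum_over {ι : Type} {h : ι → Sqr} (hi : Function.Injective h) {φ : Sqr → ℝ} {u : ι → ℝ}
    (h0 : ∀ Q, 0 ≤ φ Q) (hφ : ∀ i, φ (h i) = u i) (hz : ∀ Q, Q ∉ range h → φ Q = 0)
    (hu : Summable u) : (Summable fun Q : 𝒬 => φ Q.1) ∧ ∑' Q : 𝒬, φ Q.1 ≤ ∑' i, u i := by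
  have h1 : Summable (φ ∘ h) := by
    have : φ ∘ h = u := funext hφ
    rw [this]; exact hu
  have h2 : Summable φ := (hi.summable_iff hz).1 h1
  have h3 : ∑' i, u i = ∑' Q, φ Q := by
    have h4 : ∑' i, φ (h i) = ∑' Q, φ Q := hi.tsum_eq (by
      intro Q hQ
      by_contra hn
      exact hQ (hz Q hn))
    rw [← h4]
    exact tsum_congr fun i => (hφ i).symm
  refine ⟨h2.subtype 𝒬, ?_⟩
  rw [h3, tsum_subtype 𝒬 φ]
  exact (h2.indicator 𝒬).tsum_le_tsum (fun Q => indicator_le_self' (fun _ _ => h0 Q) Q) h2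

theorem chq_not {ι : Type} {sq : ι → Sqr} {f : ι → ℝ} {Q : Sqr} (h : Q ∉ range sq) :
    chq sq f Q = 0 := by
  unfold Gl_363.chq
  rw [dif_neg (show ¬ ∃ i, sq i = Q from h)]

theorem chq_eq {ι : Type} {sq : ι → Sqr} (hi : Function.Injective sq) (f : ι → ℝ) (i : ι) :
    chq sq f (sq i) = f i := by
  have h : ∃ j, sq j = sq i := ⟨i, rfl⟩
  unfold Gl_363.chq
  rw [dif_pos h]
  exact congrArg f (hi h.choose_spec)

/-- the sum of the squares of the oscillations -/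
theorem sum_o {ι ι' : Type} {sq : ι → Sqr} {sq' : ι' → Sqr} {f : ι → ℝ} {f' : ι' → ℝ}
    (hi : Function.Injective sq) (hi' : Function.Injective sq')
    (hf : Summable fun i => f i ^ 2) (hf' : Summable fun i => f' i ^ 2) :
    (Summable fun Q : 𝒬 => (4 * chq sq f Q.1 + 4 * chq sq' f' (rfS Q.1)) ^ 2) ∧
    ∑' Q : 𝒬, (4 * chq sq f Q.1 + 4 * chq sq' f' (rfS Q.1)) ^ 2 ≤
      32 * (∑' i, f i ^ 2 + ∑' i, f' i ^ 2) := by
  obtain ⟨s1, c1⟩ := sum_over (𝒬 := 𝒬) hi (φ := fun Q => chq sq f Q ^ 2) (fun Q => sq_nonneg _)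
    (fun i => by simp only [chq_eq hi]) (fun Q hQ => by simp only [chq_not hQ]; norm_num) hf
  have hi2 : Function.Injective fun i => rfS (sq' i) := rfS_injective.comp hi'
  obtain ⟨s2, c2⟩ := sum_over (𝒬 := 𝒬) hi2 (φ := fun Q => chq sq' f' (rfS Q) ^ 2)
    (fun Q => sq_nonneg _) (fun i => by simp only [rfS_rfS, chq_eq hi'])
    (fun Q hQ => by
      have : rfS Q ∉ range sq' := by
        rintro ⟨i, hi⟩
        exact hQ ⟨i, by simp only [hi, rfS_rfS]⟩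
      simp only [chq_not this]; norm_num) hf'
  have hb : ∀ Q : 𝒬, (4 * chq sq f Q.1 + 4 * chq sq' f' (rfS Q.1)) ^ 2 ≤
      32 * (chq sq f Q.1 ^ 2 + chq sq' f' (rfS Q.1) ^ 2) := fun Q => by
    nlinarith [sq_nonneg (chq sq f Q.1 - chq sq' f' (rfS Q.1))]
  have hs : Summable fun Q : 𝒬 => 32 * (chq sq f Q.1 ^ 2 + chq sq' f' (rfS Q.1) ^ 2) :=
    (s1.add s2).mul_left 32
  have ho := Summable.of_nonneg_of_le (fun Q : 𝒬 => sq_nonneg _) hb hs
  refine ⟨ho, (ho.tsum_le_tsum hb hs).trans ?_⟩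
  rw [tsum_mul_left, s1.tsum_add s2]
  linarith

/-! ### the generic join -/

theorem glue_join {S : Set (ℝ × ℝ)} {gg S₀ : Set (Set (ℝ × ℝ))}
    {X1 X2 U1 U2 ψ Ψ Y1 Y2 V1 V2 ψ' Ψ' h h' : ℝ × ℝ → ℝ}
    {f : {Q : Sqr // Q ∈ 𝒬'} → ℝ} {νp νm : {Q : Sqr // Q ∈ 𝒬'} → Measure (ℝ × ℝ)}
    {f' : {Q : Sqr // Q ∈ 𝒬''} → ℝ} {νp' νm' : {Q : Sqr // Q ∈ 𝒬''} → Measure (ℝ × ℝ)}
    {μ ν : Measure (ℝ × ℝ)} {C C' : Set (ℝ × ℝ)}
    {J J' : ℕ → Finset Hair} {z z' : ℕ → ℝ × ℝ → ℝ} {κ κ' : Hair → ℝ} {r : ℕ → Ix 𝒬' Bm → ℝ}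
    {r' : ℕ → Ix 𝒬'' (-Bp) → ℝ}
    (hP : BoxP E 𝒬 𝓗 a b c d) (h𝒬 : 𝒬' ⊆ 𝒬) (h𝒬' : 𝒬'' ⊆ rfS '' 𝒬) (hg : FamQ E gg Bm Bp)
    (H : Knq_247.HalfQ 𝓗 a b c Bm E (QA 𝒬') C X1 X2 f νp νm μ)
    (H' : Knq_247.HalfQ (reflH 𝓗) a b (-d) (-Bp) (rf ⁻¹' E) (QA 𝒬'') C' Y1 Y2 f' νp' νm' ν)
    (O : LowOut E 𝒬' 𝓗 a b c Bm X1 X2 f νp νm μ U1 U2 ψ Ψ J z κ r)
    (O' : LowOut (rf ⁻¹' E) 𝒬'' (reflH 𝓗) a b (-d) (-Bp) Y1 Y2 f' νp' νm' ν V1 V2 ψ' Ψ' J' z' κ' r')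
    (T : TwoG E S 𝒬 𝓗 (cutR 𝒬' Bm) (cutR 𝒬'' (-Bp)) (fun i => i.1.1) (fun i => i.1.1)
        a b c d Bm Bp Tl Tu M U1 U2 ψ Ψ V1 V2 ψ' Ψ' μ ν (fun i => f i.1) (fun i => f' i.1) h h')
    (c1 : ∀ᵐ q ∂μ, q ∈ ⋃₀ gg) (c2 : ∀ᵐ q ∂ν, rf q ∈ ⋃₀ gg) (hSg : S ⊆ ⋃₀ gg)
    (hSf : S₀.Finite) (hS : ∀ P ∈ Comps E, P ∉ S₀ → Disjoint P S) :
    Glue E 𝒬 gg S₀ a b c d Bm Bp M (μ univ).toReal (cutR 𝒬' Bm) (cutR 𝒬'' (-Bp))
      ((E ∩ {p | p.2 < Bm}) \ (cutR 𝒬' Bm).un)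
      ((rf ⁻¹' E ∩ {p | p.2 < -Bp}) \ (cutR 𝒬'' (-Bp)).un) U1 U2 ψ Ψ V1 V2 ψ' Ψ' μ ν
      (fun i => f i.1) (fun i => f' i.1) (glF M h h') (Gl_363.W2 U1 V1)
      (fun Q₀ => 4 * chq (fun i : Ix 𝒬' Bm => i.1.1) (fun i => f i.1) Q₀ +
        4 * chq (fun i : Ix 𝒬'' (-Bp) => i.1.1) (fun i => f' i.1) (rfS Q₀))
      (fun i => i.1.1) (fun i => rfS i.1.1) := by
  have f1 : IsFiniteMeasure μ := H.fin
  have f2 : IsFiniteMeasure ν := H'.fin
  have e1 : Summable fun i : Ix 𝒬' Bm => f i.1 ^ 2 := H.fs.comp_injective Subtype.val_injective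
  have e2 : Summable fun i : Ix 𝒬'' (-Bp) => f' i.1 ^ 2 :=
    H'.fs.comp_injective Subtype.val_injective
  have hP' := hP.refl
  exact Glu_832.glue_of hP.pic hg T T.twoQ T.glueF
    (fun Q => by
      have n1 := Gl_363.chq_nonneg (sq := fun i : Ix 𝒬' Bm => i.1.1) (f := fun i => f i.1)
        (fun i => H.f0 i.1) Q
      have n2 := Gl_363.chq_nonneg (sq := fun i : Ix 𝒬'' (-Bp) => i.1.1) (f := fun i => f' i.1)
        (fun i => H'.f0 i.1) (rfS Q)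
      positivity)
    (sum_o (𝒬 := 𝒬) sq_injective sq_injective e1 e2).1
    (chQ_of hP h𝒬 H O) (chQ_of hP' h𝒬' H' O') O.la O'.la c1 c2 hSg hSf hS

/-! ### (A) -/

theorem famQ_sol (hE : QPic E 𝒬 𝓗) (hQ : Q0 ∈ 𝒬) (h1 : Q0.y < B) (hlt : B < Bp)
    {X1 X2 f νp νm μ Y1 Y2 f' νp' νm' ν}
    (hF : SolF E 𝒬 𝓗 Q0 B Bp a b c d X1 X2 f νp νm μ Y1 Y2 f' νp' νm' ν) :
    FamQ E {comp E Q0} B Bp := by
  have hcm := SkT1_137.comp_mem hE hQ
  have hcar := SkT1_137.car_sub_comp hE hQ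
  refine ⟨hlt, singleton_subset_iff.2 hcm, ?_, ?_⟩
  · rw [sUnion_singleton]; exact isCompact_comp hE hcm
  · rintro _ rfl
    refine ⟨⟨_, hcar (Kbx_247.corner_mem Q0), h1.le⟩, ?_⟩
    have hne : (ae ν).NeBot := by
      rw [ae_neBot]
      intro h0
      have := hF.m2
      rw [h0] at this
      simp at this
    obtain ⟨q, hq2, K, hK, hKP, -, hqK, -⟩ := hF.c2.exists
    refine ⟨rf q, hKP hqK, ?_⟩
    rw [rf_snd]; linarith

theorem joinA (hP : BoxP E 𝒬 𝓗 a b c d) (hab : a < b) (hQ : Q0 ∈ 𝒬) (gB : Gen 𝒬 B)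
    (gp : Gen 𝒬 Bp) (hcB : c < B) (h1 : Q0.y < B) (h2 : B < Q0.y + Q0.s) (h3 : Q0.y + Q0.s < Bp)
    (hBd : Bp < d) {X1 X2 f νp νm μ Y1 Y2 f' νp' νm' ν}
    (F : SolF E 𝒬 𝓗 Q0 B Bp a b c d X1 X2 f νp νm μ Y1 Y2 f' νp' νm' ν) :
    JoinA E 𝒬 a b c d B Bp Q0 := by
  have hE := hP.pic.q
  have hcm := SkT1_137.comp_mem hE hQ
  have hcar := SkT1_137.car_sub_comp hE hQ
  have hg := famQ_sol hE hQ h1 (by linarith) F
  obtain ⟨M, hM1, hM2⟩ := exists_between h2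
  obtain ⟨U1, U2, ψ, Ψ, J, z, κ, r, V1, V2, ψ', Ψ', J', z', κ', r', h, h', O, O', T⟩ :=
    Ins_306.solF_twoG hP hQ hab hcB hBd gB gp h1 h2 h3 F hM1 hM2
  have G := glue_join hP sdiff_subset (image_mono sdiff_subset) hg F.lo F.up O O' T
    (by
      filter_upwards [F.c1] with q hq
      rw [sUnion_singleton]; exact hcar hq.1)
    (by
      filter_upwards [F.c2] with q hq
      obtain ⟨-, K, hK, hKP, -, hqK, -⟩ := hq
      rw [sUnion_singleton]; exact hKP hqK)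
    (by rw [sUnion_singleton]) (finite_singleton _) (SqC_832.exempt_one hcm)
  have c1 : Countable (Ix (𝒬 \ {Q0}) B) := hP.countable sdiff_subset
  have c2 : Countable (Ix (rfS '' (𝒬 \ {Q0})) (-Bp)) := hP.refl.countable (image_mono sdiff_subset)
  refine ⟨_, _, c1, c2, _, _, _, _, _, _, _, _, _, _, _, _, _, _, _, _, F.lo.fin, F.up.fin, _, _, _,
    _, _, _, _, G, ?_, fun i => ?_, fun i => ?_⟩
  · rw [F.m1]; norm_num
  · exact i.1.2.2
  · have := (mem_rfS.1 i.1.2).2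
    exact this

/-! ### (B) -/

theorem joinB (hP : BoxP E 𝒬 𝓗 a b c d) (hab : a < b) (gm : Gen 𝒬 Bm) (gp : Gen 𝒬 Bp)
    (hg : FamQ E {K.car} Bm Bp) (hcm : c < Bm) (hpd : Bp < d) {X1 X2 f νp νm μ Y1 Y2 f' νp' νm' ν}
    (F : FamF E 𝒬 𝓗 {K.car} Bm Bp a b c d m X1 X2 f νp νm μ Y1 Y2 f' νp' νm' ν) :
    JoinB E 𝒬 a b c d Bm Bp K := by
  obtain ⟨M, hM1, hM2⟩ := exists_between hg.lt
  obtain ⟨U1, U2, ψ, Ψ, J, z, κ, r, V1, V2, ψ', Ψ', J', z', κ', r', h, h', O, O', T⟩ :=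
    Ins_306.hairF_twoG hP hg hab hcm hpd gm gp F hM1 hM2
  have G := glue_join hP Subset.rfl Subset.rfl hg F.lo F.up O O' T
    (by
      filter_upwards [F.c1] with q hq
      obtain ⟨K', hK', hKg, hqK, -⟩ := hq
      exact ⟨_, hKg, hqK⟩)
    (by
      filter_upwards [F.c2] with q hq
      obtain ⟨K', hK', hKg, hqK, -⟩ := hq
      exact ⟨_, hKg, hqK⟩)
    (by rw [sUnion_singleton]) (finite_singleton _) (SqC_832.exempt_one (hg.sub rfl))
  have c1 : Countable (Ix 𝒬 Bm) := hP.countable Subset.rfl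
  have c2 : Countable (Ix (rfS '' 𝒬) (-Bp)) := hP.refl.countable Subset.rfl
  refine ⟨_, _, c1, c2, _, _, _, _, _, _, _, _, _, _, _, _, _, _, _, _, _, F.lo.fin, F.up.fin, _, _,
    _, _, _, _, _, G, ?_⟩
  rw [F.m1, ENNReal.toReal_ofReal F.pos.le]
  exact F.pos

/-! ### (C) -/

theorem joinC (hP : BoxP E 𝒬 𝓗 a b c d) (hab : a < b) (gm : Gen 𝒬 Bm) (gp : Gen 𝒬 Bp)
    (hg : FamQ E g Bm Bp) (hcm : c < Bm) (hpd : Bp < d) {X1 X2 f νp νm μ Y1 Y2 f' νp' νm' ν}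
    (F : FamF E 𝒬 𝓗 g Bm Bp a b c d m X1 X2 f νp νm μ Y1 Y2 f' νp' νm' ν)
    (n1 : ∀ x, μ {q | q.1 = x} = 0) (n2 : ∀ x, ν {q | q.1 = x} = 0) :
    JoinC E 𝒬 a b c d Bm Bp m g := by
  obtain ⟨M, hM1, hM2⟩ := exists_between hg.lt
  obtain ⟨U1, U2, ψ, Ψ, J, z, κ, r, V1, V2, ψ', Ψ', J', z', κ', r', h, h', O, O', T⟩ :=
    Ins_306.famF_twoG hP hg hab hcm hpd gm gp F n1 n2 hM1 hM2
  have G := glue_join hP Subset.rfl Subset.rfl hg F.lo F.up O O' T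
    (by
      filter_upwards [F.c1] with q hq
      obtain ⟨K', hK', hKg, hqK, -⟩ := hq
      exact ⟨_, hKg, hqK⟩)
    (by
      filter_upwards [F.c2] with q hq
      obtain ⟨K', hK', hKg, hqK, -⟩ := hq
      exact ⟨_, hKg, hqK⟩)
    (empty_subset _) finite_empty SqC_832.exempt_empty
  have hmass : (μ univ).toReal = m := by rw [F.m1, ENNReal.toReal_ofReal F.pos.le]
  rw [hmass] at G
  have c1 : Countable (Ix 𝒬 Bm) := hP.countable Subset.rfl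
  have c2 : Countable (Ix (rfS '' 𝒬) (-Bp)) := hP.refl.countable Subset.rfl
  have e1 : Summable fun i : Ix 𝒬 Bm => f i.1 ^ 2 := F.lo.fs.comp_injective Subtype.val_injective
  have e2 : Summable fun i : Ix (rfS '' 𝒬) (-Bp) => f' i.1 ^ 2 :=
    F.up.fs.comp_injective Subtype.val_injective
  have b1 : ∑' i : Ix 𝒬 Bm, f i.1 ^ 2 ≤ ∑' i, f i ^ 2 :=
    Summable.tsum_le_tsum_of_inj Subtype.val Subtype.val_injective (fun _ _ => sq_nonneg _)
      (fun _ => le_rfl) e1 F.lo.fs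
  have b2 : ∑' i : Ix (rfS '' 𝒬) (-Bp), f' i.1 ^ 2 ≤ ∑' i, f' i ^ 2 :=
    Summable.tsum_le_tsum_of_inj Subtype.val Subtype.val_injective (fun _ _ => sq_nonneg _)
      (fun _ => le_rfl) e2 F.up.fs
  have hen := F.energy
  have p1 : 0 ≤ ∫ p, X1 p ^ 2 := integral_nonneg fun _ => sq_nonneg _
  have p2 : 0 ≤ ∫ p, X2 p ^ 2 := integral_nonneg fun _ => sq_nonneg _
  have p3 : 0 ≤ ∫ p, Y1 p ^ 2 := integral_nonneg fun _ => sq_nonneg _
  have p4 : 0 ≤ ∫ p, Y2 p ^ 2 := integral_nonneg fun _ => sq_nonneg _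
  have p5 : 0 ≤ ∑' i, f i ^ 2 := tsum_nonneg fun _ => sq_nonneg _
  have p6 : 0 ≤ ∑' i, f' i ^ 2 := tsum_nonneg fun _ => sq_nonneg _
  have so := (sum_o (𝒬 := 𝒬) (sq_injective (𝒬' := 𝒬) (B := Bm))
    (sq_injective (𝒬' := rfS '' 𝒬) (B := -Bp)) e1 e2).2
  refine ⟨_, _, c1, c2, _, _, _, _, _, _, _, _, _, _, _, _, _, _, _, F.lo.fin, F.up.fin, _, _, _,
    _, _, _, _, G, so.trans ?_, e1, ?_, e2, ?_, sq_injective, rfS_injective.comp sq_injective,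
    two_h2_le, fun i => ?_⟩
  · linarith
  · linarith
  · linarith
  · exact two_h2_le i

/-- **LEMMA A WITH SOLIDS** -/
theorem lemaq : LEMAQ StrQ :=
  lemaq_of_joins
    (fun _ _ _ hP hd _ _ _ _ hab _ hbox _ hQ _ _ gB gp hcB h1 h2 h3 hBd _ _ _ _ _ _ _ _ _ _ _ _ F =>
      joinA ⟨hP, hd, hbox⟩ hab hQ gB gp hcB h1 h2 h3 hBd F)
    (fun _ _ _ hP hd _ _ _ _ hab _ hbox _ _ _ _ gm gp hg hcm hpd _ _ _ _ _ _ _ _ _ _ _ _ _ F =>
      joinB ⟨hP, hd, hbox⟩ hab gm gp hg hcm hpd F)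
    (fun _ _ _ hP hd _ _ _ _ hab _ hbox _ _ _ gm gp hg _ hcm hpd _ _ _ _ _ _ _ _ _ _ _ _ _ F n1 n2 =>
      joinC ⟨hP, hd, hbox⟩ hab gm gp hg hcm hpd F n1 n2)

end Crest.Agent.R105.Kna_421
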