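/-
# Row 105, S0138 (T-frame), lemma A with exact squares, part 6: existence of the pair flow; helper247
-/
import Crest.Agent.R105.Knq5_247

set_option autoImplicit false

open Set Filter MeasureTheory Topology
open scoped ENNReal NNReal InnerProductSpace

namespace Crest.Agent.R105.Knq_247

open CF_363 Kin_238 Kkt_238
open Kks_247 (Lc)

variable {ι ι' : Type*} {a b c B a' b' c' B' : ℝ} {𝓗 𝓗' : Set Hair} {Q : ι → Set (ℝ × ℝ)}
  {Q' : ι' → Set (ℝ × ℝ)} {S S' : Set (ℝ × ℝ)} {R R0 : Set ((ℝ × ℝ) × (ℝ × ℝ))}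
  {e e' : ℝ × ℝ → ℝ}

/-- marginal of the coupling -/
theorem marg {P : Type*} {lam : (P → ℝ) →ₗ[ℝ] ℝ} {Y : Type*} [TopologicalSpace Y]
    [MeasurableSpace Y] [BorelSpace Y] {R : Set Y} (hR : IsCompact R)
    {Λ : Measure Y} [IsFiniteMeasure Λ] (hcar : Λ Rᶜ = 0) {pt : P → Y} {pr : Y → ℝ × ℝ}
    (hpr : Continuous pr)
    (hint : ∀ f : Y → ℝ, ContinuousOn f R → ∫ p, f p ∂Λ = lam (fun q => f (pt q))) :
    (Λ.map pr) (pr '' R)ᶜ = 0 ∧ (Λ.map pr).real univ = Λ.real univ ∧
      (∀ f : ℝ × ℝ → ℝ, ContinuousOn f (pr '' R) →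
        ∫ p, f p ∂(Λ.map pr) = lam (fun q => f (pr (pt q)))) := by
  have hC : IsCompact (pr '' R) := hR.image hpr
  have hm := hpr.measurable
  have h0 : (Λ.map pr) (pr '' R)ᶜ = 0 := by
    rw [Measure.map_apply hm hC.isClosed.measurableSet.compl]
    refine measure_mono_null ?_ hcar
    intro q hq hqR
    exact hq ⟨q, hqR, rfl⟩
  refine ⟨h0, ?_, fun f hf => ?_⟩
  · rw [measureReal_def, measureReal_def, Measure.map_apply hm MeasurableSet.univ, preimage_univ]
  · have h1 : AEStronglyMeasurable f (Λ.map pr) := by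
      have h2 : (Λ.map pr).restrict (pr '' R) = Λ.map pr :=
        Measure.restrict_eq_self_of_ae_mem (by rw [ae_iff]; exact h0)
      rw [← h2]
      exact hf.aestronglyMeasurable hC.isClosed.measurableSet
    rw [integral_map hm.aemeasurable h1]
    exact hint (fun q => f (pr q)) (hf.comp hpr.continuousOn (mapsTo_image _ _))


end Crest.Agent.R105.Knq_247
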