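import Crest.Agent.R105.Mp7_87

/-! Row 105, lemma A: oscillation estimate for the stream function, final form. -/

open MeasureTheory Set Filter Topology

namespace Crest.Agent.R105.Mp_87

open Crest.Agent.R105.CF_363

variable {a b c B σ : ℝ} {X1 X2 ψ Ψ : ℝ × ℝ → ℝ} {μ : Measure (ℝ × ℝ)}

theorem gx_negf (f : ℝ × ℝ → ℝ) (p : ℝ × ℝ) : gx (fun q => -f q) p = -gx f p := by
  unfold gx
  rw [show (fun q => -f q) = -f from rfl, fderiv_neg]; rfl

theorem gy_negf (f : ℝ × ℝ → ℝ) (p : ℝ × ℝ) : gy (fun q => -f q) p = -gy f p := by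
  unfold gy
  rw [show (fun q => -f q) = -f from rfl, fderiv_neg]; rfl

theorem Appr.neg {J : ℕ → Finset Hair} {z : ℕ → ℝ × ℝ → ℝ} {κ : Hair → ℝ}
    (A : Appr a b c B σ X1 X2 μ Ψ J z κ) :
    Appr a b c B (-σ) (fun p => -X1 p) (fun p => -X2 p) μ (fun p => -Ψ p) J
      (fun n p => -z n p) (fun K => -κ K) where
  mX1 := A.mX1.neg
  mX2 := A.mX2.neg
  X1B := by intro p hp; simp [A.X1B p hp]
  X2B := by intro p hp; simp [A.X2B p hp]
  disj := A.disj
  sl := by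
    intro n
    obtain ⟨L, h1, h2⟩ := A.sl n
    exact ⟨L, h1, h2.neg⟩
  c1 := by
    refine A.c1.congr (fun n => ?_)
    congr 1; ext p; rw [gx_negf]; ring
  c2 := by
    refine A.c2.congr (fun n => ?_)
    congr 1; ext p; rw [gy_negf]; ring
  T := by
    intro n K hK hx hat
    obtain ⟨h1, h2⟩ := A.T n K hK hx hat
    refine ⟨?_, fun h => by rw [h2 h]; ring⟩
    filter_upwards [h1] with y hy hc hyI
    rw [hy hc hyI]

theorem PYh_neg {J : ℕ → Finset Hair} {κ : Hair → ℝ} {y : ℝ}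
    (h : PYh a b μ Ψ J κ y) : PYh a b μ (fun p => -Ψ p) J (fun K => -κ K) y := by
  intro n K hK
  obtain ⟨h1, h2, h3⟩ := h n K hK
  exact ⟨h1, h2, fun a1 a2 a3 => by show -Ψ (K.x, y) = -κ K; rw [h3 a1 a2 a3]⟩


end Crest.Agent.R105.Mp_87
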