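import Mathlib
import Crest.Agent.R105.Uv4_913

-- ▼ part R105/Uv1_913
section

/-!
Row 105, UNIV, file 1 (helper913): topological part.
The two sides of a crosscut of a closed barrier lie in different components of the complement
(continuous logarithm of `(z - a)/(z - b)`), hence one of them is bounded.
-/

set_option autoImplicit false

namespace Crest.Agent.R105.Uv_913

open Complex Set Filter Topology Metric

/-- `z ↦ (z - a)/(z - b)` has a continuous logarithm on `S`. -/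
def HasLg (S : Set ℂ) (a b : ℂ) : Prop :=
  ∃ L : ℂ → ℂ, ContinuousOn L S ∧ ∀ z ∈ S, Complex.exp (L z) = (z - a) / (z - b)

theorem HasLg.refl {S : Set ℂ} {a : ℂ} (ha : a ∉ S) : HasLg S a a := by
  refine ⟨fun _ => 0, continuousOn_const, fun z hz => ?_⟩
  have : z - a ≠ 0 := sub_ne_zero.2 (fun h => ha (h ▸ hz))
  simp [this]

/-- moving `a` by less than its distance to `S` keeps the logarithm. -/
theorem HasLg.move {S : Set ℂ} {a a' b : ℂ} (h : HasLg S a b) (ha : a ∉ S)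
    (hd : ∀ z ∈ S, dist a' a < dist z a) : HasLg S a' b := by
  obtain ⟨L, hL, hE⟩ := h
  have key : ∀ z ∈ S, (z - a') / (z - a) ∈ slitPlane := by
    intro z hz
    have hza : z - a ≠ 0 := sub_ne_zero.2 (fun h => ha (h ▸ hz))
    have h1 : (z - a') / (z - a) = 1 - (a' - a) / (z - a) := by
      field_simp; ring
    rw [h1]
    have h2 : ‖(a' - a) / (z - a)‖ < 1 := by
      rw [norm_div, div_lt_one (norm_pos_iff.2 hza)]
      have := hd z hz
      rwa [dist_eq_norm, dist_eq_norm] at this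
    left
    have h3 : |((a' - a) / (z - a)).re| ≤ ‖(a' - a) / (z - a)‖ := abs_re_le_norm _
    have h4 := le_abs_self ((a' - a) / (z - a)).re
    simp only [sub_re, one_re]
    linarith
  refine ⟨fun z => L z + Complex.log ((z - a') / (z - a)), ?_, ?_⟩
  · refine hL.add ?_
    refine ContinuousOn.clog ?_ key
    refine ContinuousOn.div (by fun_prop) (by fun_prop) ?_
    intro z hz
    exact sub_ne_zero.2 (fun h => ha (h ▸ hz))
  · intro z hz
    have hza : z - a ≠ 0 := sub_ne_zero.2 (fun h => ha (h ▸ hz))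
    rw [Complex.exp_add, hE z hz, Complex.exp_log (slitPlane_ne_zero (key z hz))]
    by_cases hb : z - b = 0
    · simp [hb]
    · field_simp

/-- Borsuk: `a`, `b` in one preconnected subset of the complement. -/
theorem hasLg_of_preconnected {S V : Set ℂ} (hS : IsClosed S) (hSn : S.Nonempty) {a b : ℂ}
    (hV : IsPreconnected V) (hVS : V ⊆ Sᶜ) (ha : a ∈ V) (hb : b ∈ V) : HasLg S a b := by
  have hpos : ∀ c, c ∉ S → 0 < infDist c S := fun c hc =>
    (hS.notMem_iff_infDist_pos hSn).1 hc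
  have hlt : ∀ c c', c ∉ S → dist c' c < infDist c S / 2 →
      (∀ z ∈ S, dist c' c < dist z c) ∧ (∀ z ∈ S, dist c c' < dist z c') ∧ c' ∉ S := by
    intro c c' hc hd
    have h0 := hpos c hc
    have h1 : ∀ z ∈ S, infDist c S ≤ dist c z := fun z hz => infDist_le_dist_of_mem hz
    refine ⟨fun z hz => ?_, fun z hz => ?_, fun hc' => ?_⟩
    · have := h1 z hz
      rw [dist_comm c z] at this
      linarith
    · have := h1 z hz
      have h2 := dist_triangle c c' z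
      rw [dist_comm c c', dist_comm z c']
      rw [dist_comm c c'] at h2
      linarith
    · have := h1 c' hc'
      rw [dist_comm c c'] at this
      linarith
  set u : Set ℂ := {c | c ∉ S ∧ HasLg S c b} with hu
  set w : Set ℂ := {c | c ∉ S ∧ ¬ HasLg S c b} with hw
  have huo : IsOpen u := by
    rw [Metric.isOpen_iff]
    rintro c ⟨hc, hLc⟩
    refine ⟨infDist c S / 2, half_pos (hpos c hc), fun c' hc' => ?_⟩
    obtain ⟨h1, h2, h3⟩ := hlt c c' hc hc'
    exact ⟨h3, hLc.move hc h1⟩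
  have hwo : IsOpen w := by
    rw [Metric.isOpen_iff]
    rintro c ⟨hc, hLc⟩
    refine ⟨infDist c S / 2, half_pos (hpos c hc), fun c' hc' => ?_⟩
    obtain ⟨h1, h2, h3⟩ := hlt c c' hc hc'
    exact ⟨h3, fun h => hLc (h.move h3 h2)⟩
  have hdis : Disjoint u w := by
    rw [Set.disjoint_left]
    rintro c ⟨_, h1⟩ ⟨_, h2⟩
    exact h2 h1
  have hsub : V ⊆ u ∪ w := by
    intro c hc
    by_cases h : HasLg S c b
    · exact Or.inl ⟨hVS hc, h⟩
    · exact Or.inr ⟨hVS hc, h⟩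
  have := hV.subset_left_of_subset_union huo hwo hdis hsub
    ⟨b, hb, hVS hb, HasLg.refl (hVS hb)⟩
  exact (this ha).2

/-- The imaginary part of `(u - iε)/(u + iε)`. -/
theorem im_moeb (u : ℂ) (ε : ℝ) :
    ((u - I * ε) / (u + I * ε)).im = - (2 * ε * u.re) / normSq (u + I * ε) := by
  rw [div_im]
  simp only [sub_im, sub_re, add_im, add_re, mul_re, mul_im, I_re, I_im, ofReal_re, ofReal_im]
  field_simp
  ring

/-- **No logarithm across a crosscut.** `Γ'` preconnected, `γ` an arc from `γ (-r)` to `γ r`, both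
in `Γ'`; in the coordinate `u = (z - w)/v` the arc crosses the imaginary axis exactly once
(at `0`) and `Γ'` does not meet the segment `[-iε, iε]`. -/
theorem not_hasLg {Γ' : Set ℂ} (hΓ' : IsPreconnected Γ') {w v : ℂ} (hv : v ≠ 0) {ε r : ℝ}
    (hε : 0 < ε) (hr : 0 < r)
    (hseg : ∀ z ∈ Γ', ((z - w) / v).re = 0 → ε < |((z - w) / v).im|)
    {γ : ℝ → ℂ} (hγ : ContinuousOn γ (Icc (-r) r)) (h0 : γ 0 = w)
    (hpos : ∀ τ ∈ Ioc 0 r, 0 < ((γ τ - w) / v).re)
    (hneg : ∀ τ ∈ Ico (-r) 0, ((γ τ - w) / v).re < 0)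
    (hl : γ (-r) ∈ Γ') (hrr : γ r ∈ Γ') :
    ¬ HasLg (Γ' ∪ γ '' Icc (-r) r) (w + v * (I * ε)) (w - v * (I * ε)) := by
  rintro ⟨L, hL, hE⟩
  set m : ℂ → ℂ := fun z => (((z - w) / v) - I * ε) / (((z - w) / v) + I * ε) with hm
  have hmE : ∀ z, (z - (w + v * (I * ε))) / (z - (w - v * (I * ε))) = m z := by
    intro z
    have h1 : z - (w + v * (I * ε)) = v * (((z - w) / v) - I * ε) := by
      field_simp; ring
    have h2 : z - (w - v * (I * ε)) = v * (((z - w) / v) + I * ε) := by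
      field_simp; ring
    rw [h1, h2, hm]
    exact mul_div_mul_left _ _ hv
  have hE' : ∀ z ∈ Γ' ∪ γ '' Icc (-r) r, Complex.exp (L z) = m z := by
    intro z hz
    rw [hE z hz, hmE]
  -- slit plane facts
  have hslit1 : ∀ z : ℂ, ((z - w) / v).re ≠ 0 → m z ∈ slitPlane := by
    intro z hz
    right
    rw [hm]
    simp only
    rw [im_moeb]
    have h1 : 0 < normSq ((z - w) / v + I * ε) := by
      rw [normSq_pos]
      intro h
      have := congrArg Complex.re h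
      simp at this
      exact hz this
    exact div_ne_zero (neg_ne_zero.2 (mul_ne_zero (by positivity) hz)) h1.ne'
  have hslit2 : ∀ z ∈ Γ', m z ∈ slitPlane := by
    intro z hz
    by_cases h : ((z - w) / v).re = 0
    · have h1 := hseg z hz h
      set y := ((z - w) / v).im with hy
      have h2 : (z - w) / v = I * y := by
        apply Complex.ext
        · simp [h]
        · simp [hy]
      left
      have h3 : m z = (((y - ε) / (y + ε) : ℝ) : ℂ) := by
        rw [hm]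
        simp only
        rw [h2]
        have h4 : (y + ε : ℝ) ≠ 0 := by
          intro h5
          have : y = -ε := by linarith
          rw [this, abs_neg, abs_of_pos hε] at h1
          exact lt_irrefl _ h1
        have h4' : ((y : ℂ) + ε) ≠ 0 := by exact_mod_cast h4
        push_cast
        rw [← mul_sub, ← mul_add]
        exact mul_div_mul_left _ _ I_ne_zero
      rw [h3, ofReal_re]
      rcases lt_abs.1 h1 with h5 | h5
      · apply div_pos <;> linarith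
      · apply div_pos_of_neg_of_neg <;> linarith
    · exact hslit1 z h
  have hden : ∀ z ∈ Γ', ((z - w) / v) + I * ε ≠ 0 := by
    intro z hz h
    have h1 : ((z - w) / v).re = 0 := by
      have := congrArg Complex.re h
      simpa using this
    have h2 : ((z - w) / v).im = -ε := by
      have := congrArg Complex.im h
      simp at this
      linarith
    have := hseg z hz h1
    rw [h2, abs_neg, abs_of_pos hε] at this
    exact lt_irrefl _ this
  -- L - log m is locally constant on Γ'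
  have hdiff : ∀ z, z ∈ Γ' ∪ γ '' Icc (-r) r → m z ∈ slitPlane →
      ∃ n : ℤ, L z - Complex.log (m z) = n * (2 * Real.pi * I) := by
    intro z hz hs
    have h1 : Complex.exp (L z) = Complex.exp (Complex.log (m z)) := by
      rw [hE' z hz, Complex.exp_log (slitPlane_ne_zero hs)]
    obtain ⟨n, hn⟩ := Complex.exp_eq_exp_iff_exists_int.1 h1
    exact ⟨n, by rw [hn]; ring⟩
  have hmcont : ∀ z : ℂ, ((z - w) / v) + I * ε ≠ 0 → ContinuousAt m z := by
    intro z hz
    refine ContinuousAt.div ?_ ?_ hz <;> fun_prop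
  have hconst : ∀ T : Set ℂ, IsPreconnected T → T ⊆ Γ' ∪ γ '' Icc (-r) r →
      (∀ z ∈ T, m z ∈ slitPlane ∧ ((z - w) / v) + I * ε ≠ 0) →
      ∀ z ∈ T, ∀ z' ∈ T, L z - Complex.log (m z) = L z' - Complex.log (m z') := by
    intro T hT hTs hTm z hz z' hz'
    set g : ℂ → ℝ := fun z => ((L z - Complex.log (m z)) / (2 * Real.pi * I)).re with hg
    have hgc : ContinuousOn g T := by
      have h1 : ContinuousOn (fun z => L z - Complex.log (m z)) T := by
        refine (hL.mono hTs).sub ?_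
        refine ContinuousOn.clog (fun z hz => (hmcont z (hTm z hz).2).continuousWithinAt) ?_
        exact fun z hz => (hTm z hz).1
      exact continuous_re.comp_continuousOn (h1.div_const _)
    have hpi : (2 * Real.pi * I : ℂ) ≠ 0 := by
      simp [Real.pi_ne_zero, I_ne_zero]
    have hgz : ∀ z ∈ T, ∃ n : ℤ, g z = n ∧ L z - Complex.log (m z) = n * (2 * Real.pi * I) := by
      intro z hz
      obtain ⟨n, hn⟩ := hdiff z (hTs hz) (hTm z hz).1
      refine ⟨n, ?_, hn⟩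
      rw [hg]
      simp only
      rw [hn, mul_div_assoc, div_self hpi]
      simp
    have himg : g z = g z' := by
      have h1 : IsPreconnected (g '' T) := hT.image g hgc
      have h2 : (g '' T) ⊆ Set.range ((↑) : ℤ → ℝ) := by
        rintro _ ⟨z, hz, rfl⟩
        obtain ⟨n, hn, _⟩ := hgz z hz
        exact ⟨n, hn.symm⟩
      have h3 : (g '' T).Subsingleton := by
        have : IsTotallyDisconnected (Set.range ((↑) : ℤ → ℝ)) := by
          apply Set.Countable.isTotallyDisconnected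
          exact Set.countable_range _
        exact this _ h2 h1
      exact h3 ⟨z, hz, rfl⟩ ⟨z', hz', rfl⟩
    obtain ⟨n, hn, hn'⟩ := hgz z hz
    obtain ⟨k, hk, hk'⟩ := hgz z' hz'
    have : (n : ℝ) = k := by rw [← hn, ← hk, himg]
    have : n = k := by exact_mod_cast this
    rw [hn', hk', this]
  have hrmem : r ∈ Icc (-r) r := ⟨by linarith, le_refl _⟩
  have hlmem : -r ∈ Icc (-r) r := ⟨le_refl _, by linarith⟩
  -- right half
  have hR : ∀ τ ∈ Ioc 0 r, L (γ τ) - Complex.log (m (γ τ)) =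
      L (γ r) - Complex.log (m (γ r)) := by
    intro τ hτ
    refine hconst (γ '' Ioc 0 r) ?_ ?_ ?_ _ ⟨τ, hτ, rfl⟩ _ ⟨r, ⟨hr, le_refl _⟩, rfl⟩
    · exact isPreconnected_Ioc.image _ (hγ.mono (fun x hx => ⟨by linarith [hx.1], hx.2⟩))
    · rintro _ ⟨x, hx, rfl⟩
      exact Or.inr ⟨x, ⟨by linarith [hx.1], hx.2⟩, rfl⟩
    · rintro _ ⟨x, hx, rfl⟩
      have := hpos x hx
      refine ⟨hslit1 _ this.ne', fun h => ?_⟩
      have h2 := congrArg Complex.re h
      simp at h2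
      exact this.ne' h2
  have hLf : ∀ τ ∈ Ico (-r) 0, L (γ τ) - Complex.log (m (γ τ)) =
      L (γ (-r)) - Complex.log (m (γ (-r))) := by
    intro τ hτ
    refine hconst (γ '' Ico (-r) 0) ?_ ?_ ?_ _ ⟨τ, hτ, rfl⟩ _
      ⟨-r, ⟨le_refl _, by linarith⟩, rfl⟩
    · exact isPreconnected_Ico.image _ (hγ.mono (fun x hx => ⟨hx.1, by linarith [hx.2]⟩))
    · rintro _ ⟨x, hx, rfl⟩
      exact Or.inr ⟨x, ⟨hx.1, by linarith [hx.2]⟩, rfl⟩
    · rintro _ ⟨x, hx, rfl⟩
      have := hneg x hx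
      refine ⟨hslit1 _ this.ne, fun h => ?_⟩
      have h2 := congrArg Complex.re h
      simp at h2
      exact this.ne h2
  have hM : L (γ r) - Complex.log (m (γ r)) = L (γ (-r)) - Complex.log (m (γ (-r))) :=
    hconst Γ' hΓ' subset_union_left (fun z hz => ⟨hslit2 z hz, hden z hz⟩) _ hrr _ hl
  set k := L (γ r) - Complex.log (m (γ r)) with hk
  -- limits at 0
  have h0mem : (0 : ℝ) ∈ Icc (-r) r := ⟨by linarith, hr.le⟩
  have hm0 : m (γ 0) = -1 := by
    rw [hm, h0]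
    simp only [sub_self, zero_div, zero_sub, zero_add]
    rw [neg_div, div_self]
    simp [I_ne_zero, hε.ne']
  have hLγ : ContinuousOn (fun τ => L (γ τ)) (Icc (-r) r) :=
    hL.comp hγ (fun x hx => Or.inr ⟨x, hx, rfl⟩)
  have hmγ : Tendsto (fun τ => m (γ τ)) (𝓝[Icc (-r) r] 0) (𝓝 (-1)) := by
    rw [← hm0]
    have h1 : ContinuousAt m (γ 0) := by
      apply hmcont
      rw [h0]
      simp [I_ne_zero, hε.ne']
    exact h1.tendsto.comp (hγ 0 h0mem)
  have hre : ((-1 : ℂ)).re < 0 := by simp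
  have him : ((-1 : ℂ)).im = 0 := by simp
  have hIoc : 𝓝[Ioc 0 r] (0 : ℝ) ≤ 𝓝[Icc (-r) r] 0 :=
    nhdsWithin_mono _ (fun x hx => ⟨by linarith [hx.1], hx.2⟩)
  have hIco : 𝓝[Ico (-r) 0] (0 : ℝ) ≤ 𝓝[Icc (-r) r] 0 :=
    nhdsWithin_mono _ (fun x hx => ⟨hx.1, by linarith [hx.2]⟩)
  have nb1 : (𝓝[Ioc 0 r] (0 : ℝ)).NeBot := by
    rw [nhdsWithin_Ioc_eq_nhdsGT hr]
    infer_instance
  have nb2 : (𝓝[Ico (-r) 0] (0 : ℝ)).NeBot := by
    rw [nhdsWithin_Ico_eq_nhdsLT (by linarith : -r < 0)]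
    infer_instance
  have hT1 : Tendsto (fun τ => Complex.log (m (γ τ))) (𝓝[Ioc 0 r] 0)
      (𝓝 (Real.log ‖(-1 : ℂ)‖ - Real.pi * I)) := by
    refine (tendsto_log_nhdsWithin_im_neg_of_re_neg_of_im_zero hre him).comp ?_
    refine tendsto_nhdsWithin_iff.2 ⟨hmγ.mono_left hIoc, ?_⟩
    filter_upwards [self_mem_nhdsWithin] with τ hτ
    show (m (γ τ)).im < 0
    rw [hm]
    simp only
    rw [im_moeb]
    have h1 := hpos τ hτ
    have h2 : 0 < normSq ((γ τ - w) / v + I * ε) := by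
      rw [normSq_pos]
      intro h
      have := congrArg Complex.re h
      simp at this
      exact h1.ne' this
    apply div_neg_of_neg_of_pos _ h2
    have : 0 < 2 * ε * ((γ τ - w) / v).re := by positivity
    linarith
  have hT2 : Tendsto (fun τ => Complex.log (m (γ τ))) (𝓝[Ico (-r) 0] 0)
      (𝓝 (Real.log ‖(-1 : ℂ)‖ + Real.pi * I)) := by
    refine (tendsto_log_nhdsWithin_im_nonneg_of_re_neg_of_im_zero hre him).comp ?_
    refine tendsto_nhdsWithin_iff.2 ⟨hmγ.mono_left hIco, ?_⟩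
    filter_upwards [self_mem_nhdsWithin] with τ hτ
    show 0 ≤ (m (γ τ)).im
    rw [hm]
    simp only
    rw [im_moeb]
    have h1 := hneg τ hτ
    apply div_nonneg _ (normSq_nonneg _)
    have : 2 * ε * ((γ τ - w) / v).re ≤ 0 :=
      mul_nonpos_of_nonneg_of_nonpos (by positivity) h1.le
    linarith
  have hL1 : Tendsto (fun τ => L (γ τ)) (𝓝[Ioc 0 r] 0) (𝓝 (L (γ 0))) :=
    (hLγ 0 h0mem).tendsto.mono_left hIoc
  have hL2 : Tendsto (fun τ => L (γ τ)) (𝓝[Ico (-r) 0] 0) (𝓝 (L (γ 0))) :=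
    (hLγ 0 h0mem).tendsto.mono_left hIco
  have e1 : L (γ 0) = Real.log ‖(-1 : ℂ)‖ - Real.pi * I + k := by
    refine tendsto_nhds_unique hL1 ?_
    refine (hT1.add_const k).congr' ?_
    filter_upwards [self_mem_nhdsWithin] with τ hτ
    rw [← hR τ hτ]; ring
  have e2 : L (γ 0) = Real.log ‖(-1 : ℂ)‖ + Real.pi * I + k := by
    refine tendsto_nhds_unique hL2 ?_
    refine (hT2.add_const k).congr' ?_
    filter_upwards [self_mem_nhdsWithin] with τ hτ
    rw [hM, ← hLf τ hτ]; ring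
  have e3 := e1.symm.trans e2
  have e4 := congrArg Complex.im e3
  simp at e4
  have := Real.pi_pos
  linarith

/-- the complement of a closed disc is preconnected. -/
theorem isPreconnected_far (R : ℝ) : IsPreconnected {z : ℂ | R < ‖z‖} := by
  rcases lt_or_ge R 0 with h | h
  · have : {z : ℂ | R < ‖z‖} = univ := by
      ext z; simp; linarith [norm_nonneg z]
    rw [this]
    exact isPreconnected_univ
  · have h1 : IsConnected (sphere (0 : ℂ) 1) := by
      apply isConnected_sphere _ _ zero_le_one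
      rw [← Module.finrank_eq_rank, Complex.finrank_real_complex]
      norm_num
    have h2 : IsPreconnected (Ioi R ×ˢ sphere (0 : ℂ) 1) :=
      isPreconnected_Ioi.prod h1.isPreconnected
    have h3 : {z : ℂ | R < ‖z‖} = (fun p : ℝ × ℂ => (p.1 : ℂ) * p.2) '' (Ioi R ×ˢ sphere (0 : ℂ) 1) := by
      ext z
      simp only [mem_setOf_eq, mem_image, mem_prod, mem_Ioi, mem_sphere_iff_norm, sub_zero,
        Prod.exists]
      constructor
      · intro hz
        have hz0 : (‖z‖ : ℂ) ≠ 0 := by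
          have : 0 < ‖z‖ := lt_of_le_of_lt h hz
          exact_mod_cast this.ne'
        refine ⟨‖z‖, z / ‖z‖, ⟨hz, ?_⟩, ?_⟩
        · rw [norm_div]
          simp
          have : 0 < ‖z‖ := lt_of_le_of_lt h hz
          exact norm_pos_iff.1 this
        · field_simp
      · rintro ⟨r, y, ⟨hr, hy⟩, rfl⟩
        rw [norm_mul, hy, mul_one, norm_real, Real.norm_eq_abs]
        exact lt_of_lt_of_le hr (le_abs_self r)
    rw [h3]
    exact h2.image _ (by fun_prop)

/-- If `(z-a)/(z-b)` has no logarithm on the compact set `Γ` then `a` or `b` lies in a bounded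
open set with frontier in `Γ`. -/
theorem exists_bounded {Γ : Set ℂ} (hΓ : IsCompact Γ) (hn : Γ.Nonempty) {a b : ℂ}
    (ha : a ∉ Γ) (hb : b ∉ Γ) (hab : ¬ HasLg Γ a b) :
    ∃ e, (e = a ∨ e = b) ∧ ∃ B : Set ℂ, IsOpen B ∧ Bornology.IsBounded B ∧ e ∈ B ∧
      frontier B ⊆ Γ ∧ Disjoint B Γ := by
  have hcl := hΓ.isClosed
  obtain ⟨R, hR⟩ := hΓ.isBounded.subset_closedBall 0
  have hV : {z : ℂ | R < ‖z‖} ⊆ Γᶜ := by
    intro z hz hzΓ
    have := hR hzΓ
    simp at this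
    exact absurd hz (not_lt.2 this)
  have hfr : ∀ c, c ∉ Γ → frontier (connectedComponentIn Γᶜ c) ⊆ Γ := by
    intro c hc z hz
    by_contra hzΓ
    have ho : IsOpen (connectedComponentIn Γᶜ c) := hcl.isOpen_compl.connectedComponentIn
    have hoz : IsOpen (connectedComponentIn Γᶜ z) := hcl.isOpen_compl.connectedComponentIn
    have hzz : z ∈ connectedComponentIn Γᶜ z := mem_connectedComponentIn hzΓ
    have hzcl : z ∈ closure (connectedComponentIn Γᶜ c) := frontier_subset_closure hz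
    obtain ⟨q, hq1, hq2⟩ := mem_closure_iff.1 hzcl _ hoz hzz
    have e1 := connectedComponentIn_eq hq1
    have e2 := connectedComponentIn_eq hq2
    rw [ho.frontier_eq] at hz
    apply hz.2
    rw [e2, ← e1]
    exact hzz
  have key : ∀ c, c ∉ Γ → ¬ Bornology.IsBounded (connectedComponentIn Γᶜ c) →
      (connectedComponentIn Γᶜ c ∩ {z : ℂ | R < ‖z‖}).Nonempty := by
    intro c hc hnb
    by_contra hemp
    apply hnb
    refine (isBounded_closedBall (x := (0 : ℂ)) (r := R)).subset ?_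
    intro z hz
    rw [mem_closedBall_zero_iff]
    by_contra h
    exact hemp ⟨z, hz, not_le.1 h⟩
  by_cases h1 : Bornology.IsBounded (connectedComponentIn Γᶜ a)
  · exact ⟨a, Or.inl rfl, _, hcl.isOpen_compl.connectedComponentIn, h1,
      mem_connectedComponentIn ha, hfr a ha,
      Set.disjoint_left.2 fun z hz hzΓ => connectedComponentIn_subset _ _ hz hzΓ⟩
  by_cases h2 : Bornology.IsBounded (connectedComponentIn Γᶜ b)
  · exact ⟨b, Or.inr rfl, _, hcl.isOpen_compl.connectedComponentIn, h2,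
      mem_connectedComponentIn hb, hfr b hb,
      Set.disjoint_left.2 fun z hz hzΓ => connectedComponentIn_subset _ _ hz hzΓ⟩
  exfalso
  apply hab
  have p1 : IsPreconnected (connectedComponentIn Γᶜ a ∪ {z : ℂ | R < ‖z‖}) := by
    obtain ⟨q, hq1, hq2⟩ := key a ha h1
    exact IsPreconnected.union q hq1 hq2 isPreconnected_connectedComponentIn (isPreconnected_far R)
  have p2 : IsPreconnected ((connectedComponentIn Γᶜ a ∪ {z : ℂ | R < ‖z‖}) ∪
      connectedComponentIn Γᶜ b) := by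
    obtain ⟨q, hq1, hq2⟩ := key b hb h2
    exact IsPreconnected.union q (Or.inr hq2) hq1 p1 isPreconnected_connectedComponentIn
  refine hasLg_of_preconnected hcl hn p2 ?_ (Or.inl (Or.inl (mem_connectedComponentIn ha)))
    (Or.inr (mem_connectedComponentIn hb))
  refine union_subset (union_subset (connectedComponentIn_subset _ _) hV)
    (connectedComponentIn_subset _ _)

end Crest.Agent.R105.Uv_913
end

-- ▼ part R105/Uv5_913

/-!
Row 105, UNIV, file 5 (helper913): the assembly `injOn_of_EL`.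
-/

set_option autoImplicit false

namespace Crest.Agent.R105.Uv_913

open Complex Set Filter Topology Metric MeasureTheory
open scoped ContDiff NNReal

variable {U : Set ℂ} {F : ℂ → ℂ}

/-- local inverse -/
theorem exists_local_inv (hU : IsOpen U) (hF : DifferentiableOn ℂ F U) {w : ℂ} (hw : w ∈ U)
    (hd : deriv F w ≠ 0) {N : Set ℂ} (hN : IsOpen N) (hwN : w ∈ N) :
    ∃ R0 : ℝ, 0 < R0 ∧ ∃ g : ℂ → ℂ, g (F w) = w ∧
      HasDerivAt g (deriv F w)⁻¹ (F w) ∧
      ∀ q ∈ ball (F w) R0, F (g q) = q ∧ g q ∈ U ∧ g q ∈ N ∧ DifferentiableAt ℂ g q := by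
  have han : AnalyticAt ℂ F w := hF.analyticAt (hU.mem_nhds hw)
  have hs : HasStrictDerivAt F (deriv F w) w := han.hasStrictDerivAt
  set e : OpenPartialHomeomorph ℂ ℂ :=
    (hs.hasStrictFDerivAt_equiv hd).toOpenPartialHomeomorph F with he
  have hws : w ∈ e.source := HasStrictFDerivAt.mem_toOpenPartialHomeomorph_source _
  have hec : ∀ z, e z = F z := fun z => rfl
  have hdc : ContinuousOn (deriv F) U := (hF.deriv hU).continuousOn
  set O : Set ℂ := U ∩ {z | deriv F z ≠ 0} with hO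
  have hOo : IsOpen O := hdc.isOpen_inter_preimage hU isOpen_ne
  have hT : IsOpen (e.target ∩ e.symm ⁻¹' (O ∩ N)) := e.isOpen_inter_preimage_symm (hOo.inter hN)
  have hsw : e.symm (F w) = w := e.left_inv hws
  have hwT : F w ∈ e.target ∩ e.symm ⁻¹' (O ∩ N) := by
    refine ⟨e.map_source hws, ?_⟩
    rw [mem_preimage, hsw]
    exact ⟨⟨hw, hd⟩, hwN⟩
  obtain ⟨R0, hR0, hb⟩ := Metric.isOpen_iff.1 hT _ hwT
  have hder : ∀ q ∈ ball (F w) R0, HasDerivAt e.symm (deriv F (e.symm q))⁻¹ q := by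
    intro q hq
    obtain ⟨h1, h2⟩ := hb hq
    have h3 : DifferentiableAt ℂ F (e.symm q) := hF.differentiableAt (hU.mem_nhds h2.1.1)
    exact e.hasDerivAt_symm h1 h2.1.2 h3.hasDerivAt
  refine ⟨R0, hR0, e.symm, hsw, ?_, fun q hq => ?_⟩
  · have := hder (F w) (mem_ball_self hR0)
    rwa [hsw] at this
  · obtain ⟨h1, h2⟩ := hb hq
    exact ⟨e.right_inv h1, h2.1.1, h2.2, (hder q hq).differentiableAt⟩

theorem exists_compact_conn {W : Set ℂ} (hW : IsOpen W) (hWc : IsPreconnected W) {a b : ℂ}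
    (ha : a ∈ W) (hb : b ∈ W) :
    ∃ P, IsCompact P ∧ IsPreconnected P ∧ P ⊆ W ∧ a ∈ P ∧ b ∈ P := by
  have h1 : IsPathConnected W := (hW.isConnected_iff_isPathConnected).1 ⟨⟨a, ha⟩, hWc⟩
  obtain ⟨γ, hγ⟩ := h1.joinedIn a ha b hb
  refine ⟨range γ, isCompact_range γ.continuous, isPreconnected_range γ.continuous, ?_, ?_, ?_⟩
  · rintro _ ⟨s, rfl⟩; exact hγ s
  · exact ⟨0, γ.source⟩
  · exact ⟨1, γ.target⟩

theorem volume_line (s : ℝ) : volume {z : ℂ | z.im = s} = 0 := by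
  have h1 : {z : ℂ | z.im = s} = Complex.measurableEquivRealProd ⁻¹' (univ ×ˢ {s}) := by
    ext z; simp
  rw [h1, Complex.volume_preserving_equiv_real_prod.measure_preimage_equiv,
    MeasureTheory.Measure.volume_eq_prod, Measure.prod_prod]
  simp

/-- core: two regular points with the same value -/
theorem core (hU : IsOpen U) (hF : DifferentiableOn ℂ F U)
    (hE : ∀ R : ℝ, IntegrableOn (fun z => ‖deriv F z‖ ^ 2) (U ∩ ball 0 R))
    (hEL : ELIneq U F)
    (hC1 : ∀ a b : ℝ, a < b → ∃ t ∈ Ioo a b, IsPreconnected {z | z ∈ U ∧ t < (F z).re})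
    (hC2 : ∀ a b : ℝ, a < b → ∃ t ∈ Ioo a b, IsPreconnected {z | z ∈ U ∧ (F z).re < t})
    {w1 w2 : ℂ} (h1 : w1 ∈ U) (h2 : w2 ∈ U) (hne : w1 ≠ w2) (hFe : F w1 = F w2)
    (hd1 : deriv F w1 ≠ 0) (hd2 : deriv F w2 ≠ 0) : False := by
  obtain ⟨N1, N2, hN1, hN2, hwN1, hwN2, hN⟩ := t2_separation hne
  obtain ⟨R1, hR1, g1, hg1, hgd1, hgb1⟩ := exists_local_inv hU hF h1 hd1 hN1 hwN1
  obtain ⟨R2, hR2, g2, hg2, -, hgb2⟩ := exists_local_inv hU hF h2 hd2 hN2 hwN2
  rw [← hFe] at hg2 hgb2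
  set p : ℂ := F w1 with hp
  set R0 : ℝ := min R1 R2 with hR0
  have hR0p : 0 < R0 := lt_min hR1 hR2
  set r : ℝ := R0 / 2 with hr
  have hrp : 0 < r := by positivity
  have hball : ∀ τ ∈ Icc (-r) r, p + (τ : ℂ) ∈ ball p R1 ∧ p + (τ : ℂ) ∈ ball p R2 := by
    intro τ hτ
    have h3 : ‖(p + (τ : ℂ)) - p‖ < R0 := by
      rw [add_sub_cancel_left, Complex.norm_real, Real.norm_eq_abs]
      have := abs_le.2 hτ
      linarith
    exact ⟨by rw [mem_ball, dist_eq_norm]; exact lt_of_lt_of_le h3 (min_le_left _ _),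
      by rw [mem_ball, dist_eq_norm]; exact lt_of_lt_of_le h3 (min_le_right _ _)⟩
  set γ1 : ℝ → ℂ := fun τ => g1 (p + τ) with hγ1
  set γ2 : ℝ → ℂ := fun τ => g2 (p + τ) with hγ2
  have hF1 : ∀ τ ∈ Icc (-r) r, F (γ1 τ) = p + τ := fun τ hτ => (hgb1 _ (hball τ hτ).1).1
  have hF2 : ∀ τ ∈ Icc (-r) r, F (γ2 τ) = p + τ := fun τ hτ => (hgb2 _ (hball τ hτ).2).1
  have hU1 : ∀ τ ∈ Icc (-r) r, γ1 τ ∈ U := fun τ hτ => (hgb1 _ (hball τ hτ).1).2.1
  have hU2 : ∀ τ ∈ Icc (-r) r, γ2 τ ∈ U := fun τ hτ => (hgb2 _ (hball τ hτ).2).2.1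
  have hlin : Continuous fun τ : ℝ => p + (τ : ℂ) := continuous_const.add continuous_ofReal
  have hc1 : ContinuousOn γ1 (Icc (-r) r) := fun τ hτ =>
    (ContinuousAt.comp (g := g1) (f := fun τ : ℝ => p + (τ : ℂ))
      (hgb1 _ (hball τ hτ).1).2.2.2.continuousAt hlin.continuousAt).continuousWithinAt
  have hc2 : ContinuousOn γ2 (Icc (-r) r) := fun τ hτ =>
    (ContinuousAt.comp (g := g2) (f := fun τ : ℝ => p + (τ : ℂ))
      (hgb2 _ (hball τ hτ).2).2.2.2.continuousAt hlin.continuousAt).continuousWithinAt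
  have h10 : γ1 0 = w1 := by
    show g1 (p + ((0 : ℝ) : ℂ)) = w1
    rw [Complex.ofReal_zero, add_zero]; exact hg1
  -- the connecting compact sets
  obtain ⟨tR, htR, hconR⟩ := hC1 (p.re + r / 2) (p.re + r) (by linarith)
  obtain ⟨tL, htL, hconL⟩ := hC2 (p.re - r) (p.re - r / 2) (by linarith)
  have hFc : ContinuousOn (fun z => (F z).re) U := continuous_re.comp_continuousOn hF.continuousOn
  have hWR : IsOpen {z | z ∈ U ∧ tR < (F z).re} := hFc.isOpen_inter_preimage hU isOpen_Ioi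
  have hWL : IsOpen {z | z ∈ U ∧ (F z).re < tL} := hFc.isOpen_inter_preimage hU isOpen_Iio
  have hrr : r ∈ Icc (-r) r := ⟨by linarith, le_rfl⟩
  have hll : -r ∈ Icc (-r) r := ⟨le_rfl, by linarith⟩
  have hre : ∀ τ : ℝ, (p + (τ : ℂ)).re = p.re + τ := fun τ => by simp
  have him : ∀ τ : ℝ, (p + (τ : ℂ)).im = p.im := fun τ => by simp
  obtain ⟨PR, hPRc, hPRp, hPRs, hPR1, hPR2⟩ := exists_compact_conn hWR hconR
    (a := γ1 r) (b := γ2 r) ⟨hU1 r hrr, by rw [hF1 r hrr, hre]; exact htR.2⟩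
    ⟨hU2 r hrr, by rw [hF2 r hrr, hre]; exact htR.2⟩
  obtain ⟨PL, hPLc, hPLp, hPLs, hPL2, hPL1⟩ := exists_compact_conn hWL hconL
    (a := γ2 (-r)) (b := γ1 (-r))
    ⟨hU2 _ hll, by rw [hF2 _ hll, hre]; linarith [htL.1]⟩
    ⟨hU1 _ hll, by rw [hF1 _ hll, hre]; linarith [htL.1]⟩
  -- the direction
  set v : ℂ := (deriv F w1)⁻¹ with hv
  have hv0 : v ≠ 0 := inv_ne_zero hd1
  obtain ⟨r2, hr2, hr2r, hγre⟩ : ∃ r2 : ℝ, 0 < r2 ∧ r2 ≤ r ∧ ∀ τ : ℝ, |τ| ≤ r2 →
      |((γ1 τ - w1) / v).re - τ| ≤ |τ| / 2 := by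
    have h3 : HasDerivAt γ1 v 0 := by
      have h4 : HasDerivAt (fun τ : ℝ => p + (τ : ℂ)) 1 0 := by
        simpa using (Complex.ofRealCLM.hasDerivAt (x := (0 : ℝ))).const_add p
      have h5 : HasDerivAt g1 v (p + ((0 : ℝ) : ℂ)) := by simpa using hgd1
      have h6 := HasDerivAt.comp (0 : ℝ) h5 h4
      rw [mul_one] at h6
      exact h6
    have h6 := h3.isLittleO
    have h7 : (0 : ℝ) < ‖v‖ / 2 := by positivity
    have h8 := h6.bound h7
    obtain ⟨ρ, hρ, hb⟩ := Metric.eventually_nhds_iff.1 h8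
    refine ⟨min (ρ / 2) r, by positivity, min_le_right _ _, fun τ hτ => ?_⟩
    have h9 : dist τ 0 < ρ := by
      rw [Real.dist_eq, sub_zero]
      have := hτ.trans (min_le_left _ _)
      linarith
    have h10' := hb h9
    rw [h10, sub_zero] at h10'
    have h11 : (((γ1 τ - w1) / v).re - τ) = ((γ1 τ - w1 - τ • v) / v).re := by
      have : (γ1 τ - w1 - τ • v) / v = (γ1 τ - w1) / v - (τ : ℂ) := by
        rw [Complex.real_smul]
        field_simp
      rw [this]; simp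
    rw [h11]
    refine (abs_re_le_norm _).trans ?_
    rw [norm_div, div_le_iff₀ (norm_pos_iff.2 hv0)]
    refine h10'.trans (le_of_eq ?_)
    rw [Real.norm_eq_abs]; ring
  have hpos : ∀ τ ∈ Ioc 0 r2, 0 < ((γ1 τ - w1) / v).re := by
    intro τ hτ
    have := hγre τ (by rw [abs_of_pos hτ.1]; exact hτ.2)
    rw [abs_of_pos hτ.1, abs_le] at this
    have := hτ.1
    linarith
  have hneg : ∀ τ ∈ Ico (-r2) 0, ((γ1 τ - w1) / v).re < 0 := by
    intro τ hτ
    have := hγre τ (by rw [abs_of_neg hτ.2]; linarith [hτ.1])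
    rw [abs_of_neg hτ.2, abs_le] at this
    have := hτ.2
    linarith
  -- the small segment
  set κ : ℝ := min r2 (r / 4) with hκ
  have hκp : 0 < κ := by positivity
  obtain ⟨ε, hε, hεb⟩ : ∃ ε : ℝ, 0 < ε ∧ ∀ ζ : ℂ, ‖ζ‖ ≤ ε → w1 + v * ζ ∈ N1 ∧ w1 + v * ζ ∈ U ∧
      ‖F (w1 + v * ζ) - p‖ < κ ∧ deriv F (w1 + v * ζ) ≠ 0 := by
    have hev : ∀ᶠ z in 𝓝 w1, z ∈ N1 ∧ z ∈ U ∧ ‖F z - p‖ < κ ∧ deriv F z ≠ 0 := by
      have e1 : ∀ᶠ z in 𝓝 w1, z ∈ N1 := hN1.mem_nhds hwN1
      have e2 : ∀ᶠ z in 𝓝 w1, z ∈ U := hU.mem_nhds h1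
      refine e1.and (e2.and ?_)
      have hFcw : ContinuousAt F w1 := hF.continuousOn.continuousAt (hU.mem_nhds h1)
      have hdcw : ContinuousAt (deriv F) w1 :=
        (hF.deriv hU).continuousOn.continuousAt (hU.mem_nhds h1)
      refine Filter.Eventually.and ?_ (hdcw.eventually_ne hd1)
      have : Tendsto (fun z => ‖F z - p‖) (𝓝 w1) (𝓝 0) := by
        have h0 : Tendsto (fun z => ‖F z - p‖) (𝓝 w1) (𝓝 ‖F w1 - p‖) :=
          (hFcw.tendsto.sub_const p).norm
        rwa [← hp, sub_self, norm_zero] at h0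
      exact this.eventually (gt_mem_nhds hκp)
    have hcont : Tendsto (fun ζ : ℂ => w1 + v * ζ) (𝓝 0) (𝓝 w1) := by
      have : Continuous fun ζ : ℂ => w1 + v * ζ := by fun_prop
      have := this.tendsto 0
      simpa using this
    obtain ⟨ρ, hρ, hb⟩ := Metric.eventually_nhds_iff.1 (hcont.eventually hev)
    refine ⟨ρ / 2, by positivity, fun ζ hζ => hb ?_⟩
    rw [dist_zero_right]; linarith
  -- the sets
  have hI1 : Icc r2 r ⊆ Icc (-r) r := Icc_subset_Icc (by linarith) le_rfl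
  have hI2 : Icc (-r) (-r2) ⊆ Icc (-r) r := Icc_subset_Icc le_rfl (by linarith)
  have hI3 : Icc (-r2) r2 ⊆ Icc (-r) r := Icc_subset_Icc (by linarith) hr2r
  set Γ' : Set ℂ := (((γ1 '' Icc r2 r ∪ PR) ∪ γ2 '' Icc (-r) r) ∪ PL) ∪ γ1 '' Icc (-r) (-r2)
    with hΓ'
  have hΓ'p : IsPreconnected Γ' := by
    have a1 : IsPreconnected (γ1 '' Icc r2 r) := isPreconnected_Icc.image _ (hc1.mono hI1)
    have a2 : IsPreconnected (γ2 '' Icc (-r) r) := isPreconnected_Icc.image _ hc2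
    have a3 : IsPreconnected (γ1 '' Icc (-r) (-r2)) := isPreconnected_Icc.image _ (hc1.mono hI2)
    have k1 : γ1 r ∈ γ1 '' Icc r2 r := mem_image_of_mem _ ⟨hr2r, le_rfl⟩
    have k2 : γ2 r ∈ γ2 '' Icc (-r) r := mem_image_of_mem _ hrr
    have k3 : γ2 (-r) ∈ γ2 '' Icc (-r) r := mem_image_of_mem _ hll
    have k4 : γ1 (-r) ∈ γ1 '' Icc (-r) (-r2) := mem_image_of_mem _ ⟨le_rfl, by linarith⟩
    have b1 := IsPreconnected.union (γ1 r) k1 hPR1 a1 hPRp
    have b2 := IsPreconnected.union (γ2 r) (Or.inr hPR2) k2 b1 a2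
    have b3 := IsPreconnected.union (γ2 (-r)) (Or.inr k3) hPL2 b2 hPLp
    exact IsPreconnected.union (γ1 (-r)) (Or.inr hPL1) k4 b3 a3
  have hseg : ∀ z ∈ Γ', ((z - w1) / v).re = 0 → ε < |((z - w1) / v).im| := by
    intro z hz hz0
    by_contra hle
    rw [not_lt] at hle
    set ζ : ℂ := (z - w1) / v with hζ
    have hzζ : w1 + v * ζ = z := by rw [hζ, mul_div_cancel₀ _ hv0]; ring
    have hζn : ‖ζ‖ ≤ ε := by
      have := norm_le_abs_re_add_abs_im ζ
      rw [hz0, abs_zero, zero_add] at this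
      exact this.trans hle
    obtain ⟨c1, c2, c3, c4⟩ := hεb ζ hζn
    rw [hzζ] at c1 c2 c3 c4
    have c5 : |(F z).re - p.re| < κ := lt_of_le_of_lt (by
      have := abs_re_le_norm (F z - p); simpa using this) c3
    have hκr2 : κ ≤ r2 := min_le_left _ _
    have hκr : κ ≤ r / 4 := min_le_right _ _
    rcases hz with (((hz | hz) | hz) | hz) | hz
    · obtain ⟨τ, hτ, rfl⟩ := hz
      rw [hF1 τ (hI1 hτ), add_sub_cancel_left, Complex.norm_real, Real.norm_eq_abs] at c3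
      have := le_abs_self τ
      linarith [hτ.1]
    · have c6 := (hPRs hz).2
      rw [abs_lt] at c5
      linarith [c5.2, htR.1]
    · obtain ⟨τ, hτ, rfl⟩ := hz
      exact Set.disjoint_left.1 hN c1 (hgb2 _ (hball τ hτ).2).2.2.1
    · have c6 := (hPLs hz).2
      rw [abs_lt] at c5
      linarith [c5.1, htL.2]
    · obtain ⟨τ, hτ, rfl⟩ := hz
      rw [hF1 τ (hI2 hτ), add_sub_cancel_left, Complex.norm_real, Real.norm_eq_abs] at c3
      have := neg_abs_le τ
      linarith [hτ.2]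
  have hlog := not_hasLg hΓ'p hv0 hε hr2 hseg (hc1.mono hI3) h10 hpos hneg
    (Or.inr ⟨-r2, ⟨by linarith, le_rfl⟩, rfl⟩)
    (Or.inl (Or.inl (Or.inl (Or.inl ⟨r2, ⟨le_rfl, hr2r⟩, rfl⟩))))
  set Γ : Set ℂ := Γ' ∪ γ1 '' Icc (-r2) r2 with hΓ
  have hΓc : IsCompact Γ := by
    refine IsCompact.union ?_ (isCompact_Icc.image_of_continuousOn (hc1.mono hI3))
    exact ((((isCompact_Icc.image_of_continuousOn (hc1.mono hI1)).union hPRc).union
      (isCompact_Icc.image_of_continuousOn hc2)).union hPLc).union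
      (isCompact_Icc.image_of_continuousOn (hc1.mono hI2))
  -- classification of the points of Γ
  have hcl : ∀ z ∈ Γ, z ∈ PR ∨ z ∈ PL ∨ (∃ τ ∈ Icc (-r) r, γ1 τ = z) ∨
      ∃ τ ∈ Icc (-r) r, γ2 τ = z := by
    rintro z (((((hz | hz) | hz) | hz) | hz) | hz)
    · obtain ⟨τ, hτ, rfl⟩ := hz; exact Or.inr (Or.inr (Or.inl ⟨τ, hI1 hτ, rfl⟩))
    · exact Or.inl hz
    · obtain ⟨τ, hτ, rfl⟩ := hz; exact Or.inr (Or.inr (Or.inr ⟨τ, hτ, rfl⟩))
    · exact Or.inr (Or.inl hz)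
    · obtain ⟨τ, hτ, rfl⟩ := hz; exact Or.inr (Or.inr (Or.inl ⟨τ, hI2 hτ, rfl⟩))
    · obtain ⟨τ, hτ, rfl⟩ := hz; exact Or.inr (Or.inr (Or.inl ⟨τ, hI3 hτ, rfl⟩))
  have hΓU : Γ ⊆ U := by
    intro z hz
    rcases hcl z hz with h | h | ⟨τ, hτ, rfl⟩ | ⟨τ, hτ, rfl⟩
    · exact (hPRs h).1
    · exact (hPLs h).1
    · exact hU1 τ hτ
    · exact hU2 τ hτ
  have hrη : r / 4 + r / 4 = r / 2 := by ring
  have hstrip : ∀ z ∈ Γ, |(F z).re - p.re| ≤ r / 4 + r / 4 →
      (∃ τ ∈ Icc (-r) r, γ1 τ = z) ∨ ∃ τ ∈ Icc (-r) r, γ2 τ = z := by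
    intro z hz hzs
    rw [hrη, abs_le] at hzs
    rcases hcl z hz with h | h | h | h
    · have := (hPRs h).2
      linarith [hzs.2, htR.1]
    · have := (hPLs h).2
      linarith [hzs.1, htL.2]
    · exact Or.inl h
    · exact Or.inr h
  have hstrip' : ∀ z ∈ Γ, |(F z).re - p.re| ≤ r / 4 + r / 4 → (F z).im = p.im := by
    intro z hz hzs
    rcases hstrip z hz hzs with ⟨τ, hτ, rfl⟩ | ⟨τ, hτ, rfl⟩
    · rw [hF1 τ hτ, him]
    · rw [hF2 τ hτ, him]
  have hnull : volume (Γ ∩ {z | |(F z).re - p.re| ≤ r / 4 + r / 4}) = 0 := by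
    have hn : ∀ (g : ℂ → ℂ) (R' : ℝ), (∀ q ∈ ball p R', DifferentiableAt ℂ g q) →
        volume (g '' (ball p R' ∩ {z : ℂ | z.im = p.im})) = 0 := by
      intro g R' hg
      refine addHaar_image_eq_zero_of_differentiableOn_of_addHaar_eq_zero volume ?_
        (measure_mono_null inter_subset_right (volume_line p.im))
      intro q hq
      exact ((hg q hq.1).restrictScalars ℝ).differentiableWithinAt
    refine measure_mono_null ?_ (measure_union_null (hn g1 R1 fun q hq => (hgb1 q hq).2.2.2)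
      (hn g2 R2 fun q hq => (hgb2 q hq).2.2.2))
    rintro z ⟨hz, hzs⟩
    rcases hstrip z hz hzs with ⟨τ, hτ, rfl⟩ | ⟨τ, hτ, rfl⟩
    · exact Or.inl ⟨p + τ, ⟨(hball τ hτ).1, him τ⟩, rfl⟩
    · exact Or.inr ⟨p + τ, ⟨(hball τ hτ).2, him τ⟩, rfl⟩
  -- the two sides are off Γ
  have hside : ∀ ζ : ℂ, ζ.re = 0 → 0 < ‖ζ‖ → |ζ.im| ≤ ε → w1 + v * ζ ∉ Γ := by
    intro ζ hζ hζ0 hζε hz
    have hq : ((w1 + v * ζ) - w1) / v = ζ := by
      rw [add_sub_cancel_left, mul_div_cancel_left₀ _ hv0]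
    rcases hz with hz | ⟨τ, hτ, hz⟩
    · have := hseg _ hz (by rw [hq]; exact hζ)
      rw [hq] at this
      linarith
    · have h3 : ((γ1 τ - w1) / v).re = 0 := by
        rw [hz, hq]; exact hζ
      rcases lt_trichotomy τ 0 with h | h | h
      · exact absurd h3 (hneg τ ⟨hτ.1, h⟩).ne
      · subst h
        rw [h10] at hz
        have : v * ζ = 0 := by
          have := hz
          linear_combination this.symm
        rcases mul_eq_zero.1 this with h | h
        · exact hv0 h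
        · rw [h, norm_zero] at hζ0; exact lt_irrefl _ hζ0
      · exact absurd h3 (hpos τ ⟨h, hτ.2⟩).ne'
  have hIε : ‖I * (ε : ℂ)‖ = ε := by
    rw [norm_mul, Complex.norm_I, one_mul, Complex.norm_real, Real.norm_of_nonneg hε.le]
  have hIre : (I * (ε : ℂ)).re = 0 := by simp
  have hIim : (I * (ε : ℂ)).im = ε := by simp
  have hminus : w1 - v * (I * ε) = w1 + v * (-(I * ε)) := by ring
  obtain ⟨e, he, B, hBo, hBb, heB, hfr, hBd⟩ := exists_bounded hΓc
    ⟨γ1 r2, Or.inl (Or.inl (Or.inl (Or.inl (Or.inl ⟨r2, ⟨le_rfl, hr2r⟩, rfl⟩))))⟩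
    (hside (I * ε) hIre (by rw [hIε]; exact hε) (by rw [hIim, abs_of_pos hε]))
    (by
      rw [hminus]
      exact hside (-(I * ε)) (by rw [neg_re, hIre, neg_zero]) (by rw [norm_neg, hIε]; exact hε)
        (by rw [neg_im, hIim, abs_neg, abs_of_pos hε])) hlog
  obtain ⟨ζ, hζn, hζe⟩ : ∃ ζ : ℂ, ‖ζ‖ ≤ ε ∧ e = w1 + v * ζ := by
    rcases he with he | he
    · exact ⟨I * ε, hIε.le, he⟩
    · exact ⟨-(I * ε), by rw [norm_neg, hIε], by rw [he, hminus]⟩
  obtain ⟨-, d2, d3, d4⟩ := hεb ζ hζn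
  rw [← hζe] at d2 d3 d4
  refine no_barrier hU hF hE hEL hΓc hΓU hBo hBb hfr hBd (t := p.re) (s := p.im)
    (r := r / 4) (η := r / 4) (by positivity) (by positivity) hstrip' hnull heB d2 ?_ d4
  have := abs_re_le_norm (F e - p)
  rw [sub_re] at this
  exact lt_of_le_of_lt this (lt_of_lt_of_le d3 (min_le_right _ _))

/-- **univalence from the Euler-Lagrange inequality and connectedness** -/
theorem injOn_of_EL (hU : IsOpen U) (hUc : IsPreconnected U) (hF : DifferentiableOn ℂ F U)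
    (hE : ∀ R : ℝ, IntegrableOn (fun z => ‖deriv F z‖ ^ 2) (U ∩ ball 0 R))
    (hEL : ELIneq U F) (hnc : ∃ z ∈ U, deriv F z ≠ 0)
    (hC1 : ∀ a b : ℝ, a < b → ∃ t ∈ Ioo a b, IsPreconnected {z | z ∈ U ∧ t < (F z).re})
    (hC2 : ∀ a b : ℝ, a < b → ∃ t ∈ Ioo a b, IsPreconnected {z | z ∈ U ∧ (F z).re < t}) :
    InjOn F U := by
  intro z1 hz1 z2 hz2 hFe
  by_contra hne
  obtain ⟨N1, N2, hN1, hN2, hwN1, hwN2, hN⟩ := t2_separation hne
  have han : AnalyticOnNhd ℂ F U := hF.analyticOnNhd hU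
  have hand : AnalyticOnNhd ℂ (deriv F) U := han.deriv
  have hiso : ∀ z ∈ U, ∀ᶠ w in 𝓝[≠] z, deriv F w ≠ 0 := by
    intro z hz
    rcases (hand z hz).eventually_eq_zero_or_eventually_ne_zero with h | h
    · exfalso
      obtain ⟨w, hw, hw0⟩ := hnc
      exact hw0 (hand.eqOn_zero_of_preconnected_of_eventuallyEq_zero hUc hz h hw)
    · exact h
  have hopen : ∀ z ∈ U, ∀ N : Set ℂ, IsOpen N → z ∈ N →
      ∃ N', N' ⊆ U ∩ N ∧ (∀ w ∈ N', w ≠ z → deriv F w ≠ 0) ∧ F '' N' ∈ 𝓝 (F z) := by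
    intro z hz N hN hzN
    have h3 : ∀ᶠ w in 𝓝 z, w ∈ U ∩ N ∧ (w ≠ z → deriv F w ≠ 0) := by
      have h4 := eventually_nhdsWithin_iff.1 (hiso z hz)
      filter_upwards [(hU.inter hN).mem_nhds ⟨hz, hzN⟩, h4] with w hw1 hw2
      exact ⟨hw1, hw2⟩
    refine ⟨{w | w ∈ U ∩ N ∧ (w ≠ z → deriv F w ≠ 0)}, fun w hw => hw.1, fun w hw => hw.2, ?_⟩
    rcases (han z hz).eventually_constant_or_nhds_le_map_nhds with h | h
    · exfalso
      have h5 : ∀ᶠ w in 𝓝 z, deriv F w = 0 := by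
        filter_upwards [h.eventually_nhds] with w hw
        have : F =ᶠ[𝓝 w] fun _ => F z := hw
        rw [this.deriv_eq]; simp
      have h6 := (hiso z hz).and (h5.filter_mono nhdsWithin_le_nhds)
      obtain ⟨w, hw1, hw2⟩ := h6.exists
      exact hw1 hw2
    · exact h (image_mem_map h3)
  obtain ⟨M1, hM1, hM1d, hM1i⟩ := hopen z1 hz1 N1 hN1 hwN1
  obtain ⟨M2, hM2, hM2d, hM2i⟩ := hopen z2 hz2 N2 hN2 hwN2
  rw [← hFe] at hM2i
  have h7 : ∀ᶠ q in 𝓝[≠] (F z1), q ∈ F '' M1 ∧ q ∈ F '' M2 ∧ q ≠ F z1 := by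
    filter_upwards [mem_nhdsWithin_of_mem_nhds hM1i, mem_nhdsWithin_of_mem_nhds hM2i,
      self_mem_nhdsWithin] with q a1 a2 a3
    exact ⟨a1, a2, a3⟩
  obtain ⟨q, ⟨w1, hw1, hq1⟩, ⟨w2, hw2, hq2⟩, hq⟩ := h7.exists
  have hw1z : w1 ≠ z1 := fun h => hq (by rw [← hq1, h])
  have hw2z : w2 ≠ z2 := fun h => hq (by rw [← hq2, h, ← hFe])
  exact core hU hF hE hEL hC1 hC2 (hM1 hw1).1 (hM2 hw2).1
    (fun h => Set.disjoint_left.1 hN (hM1 hw1).2 (by rw [h]; exact (hM2 hw2).2))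
    (by rw [hq1, hq2]) (hM1d w1 hw1 hw1z) (hM2d w2 hw2 hw2z)

end Crest.Agent.R105.Uv_913
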