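import Crest.Agent.R105.Selp_871
import Crest.Agent.R105.Bd5_775
import Mathlib
import Crest.Agent.R105.Pth2_988
import Crest.Agent.R105.Uv6_913
import Crest.Agent.R105.Uv4_913
import Crest.Agent.R105.Tdc1_987
import Crest.Agent.R105.Uv5_913
import Crest.Agent.R105.Pic1_442
import Crest.Agent.R105.Pic2_442
import Crest.Agent.R105.IfB2_641
import Crest.Agent.R105.Red2_828
import Crest.Agent.R105.Pln0_868
import Crest.Agent.R105.Prod9_412
import Crest.Agent.R105.Pv1_937
import Crest.Agent.R105.Skp2_257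
import Crest.Agent.R105.IfB1_641
import Crest.Agent.R105.Mid1_987
import Crest.Agent.R105.Tra3_937
import Crest.Agent.R105.Tra4_937
import Crest.Agent.R105.Ext1_616

-- ▼ part R105/Selp2_871
section

/-! Row 105 (S0139): the literal Prop `SELP`. -/

set_option autoImplicit false

namespace Crest.Agent.R105.Clo_871

theorem jLow : JLow := fun _ _ hTD hx =>
  (Bd_775.J_bddBelow hTD.cpt hx).imp fun _ hL u hu => hL u hu.q

/-- **SELP** (IfB1_641) -/
theorem selp : IfB_641.SELP := selp_of jLow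

end Crest.Agent.R105.Clo_871
end

-- ▼ part R105/Unv2_133
section

/-!
# Row 105 (Koebe), univalence of `p = x + i y`, part 2 (helper133): the flux inequality
-/

set_option autoImplicit false

open Set Filter Topology Metric Complex MeasureTheory
open scoped ComplexConjugate ContDiff

namespace Crest.Agent.R105.Unv_133

/-- smooth cut-off, equal to one near a compact set -/
theorem exists_cutoff {K W : Set ℂ} (hK : IsCompact K) (hW : IsOpen W) (hKW : K ⊆ W) :
    ∃ χ : ℂ → ℝ, ContDiff ℝ ∞ χ ∧ HasCompactSupport χ ∧ tsupport χ ⊆ W ∧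
      (∀ᶠ y in 𝓝ˢ K, χ y = 1) ∧ ∀ y, χ y ∈ Icc (0 : ℝ) 1 := by
  obtain ⟨V, hVo, hKV, hVΩ, hVc⟩ := exists_open_between_and_isCompact_closure hK hW hKW
  obtain ⟨f, hf1, hf0, hf⟩ := exists_contMDiffMap_one_nhds_of_subset_interior
    (modelWithCornersSelf ℝ ℂ) (n := (⊤ : ℕ∞)) hK.isClosed (t := V)
    (hKV.trans (interior_eq_iff_isOpen.mpr hVo).ge)
  have hsm : ContDiff ℝ ∞ (f : ℂ → ℝ) := f.contMDiff.contDiff
  have hts : tsupport (f : ℂ → ℝ) ⊆ closure V := by
    apply closure_mono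
    intro x hx
    by_contra h
    exact hx (hf0 x h)
  have hcs : HasCompactSupport (f : ℂ → ℝ) := hVc.of_isClosed_subset isClosed_closure hts
  exact ⟨f, hsm, hcs, hts.trans hVΩ, hf1, hf⟩



open Crest.Agent.R105.Pth_988 (hasFDerivAt_real fderiv_re integral_image)








end Crest.Agent.R105.Unv_133
end

-- ▼ part R105/Uv7_913
section

/-!
Row 105, UNIV, file 7 (helper913): `{x > t} \ C` and `{x < t} \ C` are connected
(component switch + `p z - z → c` at infinity), in the package `Pk` / `Cpl` of helper641.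
-/

set_option autoImplicit false

namespace Crest.Agent.R105.Uv_913

open Complex Set Filter Topology Metric MeasureTheory
open scoped ContDiff NNReal
open Crest.Agent.R105.IfB_641 (Pk Cpl X0 TD)
open Crest.Agent.R105.Bd_775 (D)

variable {C : Set ℂ} {x0 φ : ℂ → ℝ} {b : ℕ → ℂ → ℝ} {p : ℂ → ℂ}

theorem exists_switch (hC : IsCompact C) (td : IsTotallyDisconnected C) {K K' : Set ℂ}
    (hK : IsCompact K) (hK' : IsClosed K') (hd : Disjoint K K') :
    ∃ c : ℂ → ℝ, Lc Cᶜ c ∧ (∀ z, 0 ≤ c z) ∧ (∀ z ∈ K, ∀ᶠ w in 𝓝 z, c w = 1) ∧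
      ∀ z ∈ K', ∀ᶠ w in 𝓝 z, c w = 0 := by
  have : CompactSpace C := isCompact_iff_compactSpace.1 hC
  have : TotallyDisconnectedSpace C := totallyDisconnectedSpace_subtype_iff.2 td
  obtain ⟨A, hA, hZA, hAU⟩ := exists_clopen_of_closed_subset_open (X := C)
    (Z := Subtype.val ⁻¹' K) (U := (Subtype.val ⁻¹' K')ᶜ)
    (hK.isClosed.preimage continuous_subtype_val)
    (hK'.preimage continuous_subtype_val).isOpen_compl
    (fun z hz hz' => Set.disjoint_left.1 hd hz hz')
  have hC1 : IsCompact (Subtype.val '' A : Set ℂ) :=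
    hA.isClosed.isCompact.image continuous_subtype_val
  have hC2 : IsCompact (Subtype.val '' Aᶜ : Set ℂ) :=
    hA.compl.isClosed.isCompact.image continuous_subtype_val
  obtain ⟨χ, h1, h2, h3, h4, h5⟩ := Unv_133.exists_cutoff (K := K ∪ Subtype.val '' A)
    (W := (K' ∪ Subtype.val '' Aᶜ)ᶜ) (hK.union hC1) (hK'.union hC2.isClosed).isOpen_compl (by
      rintro z (hz | ⟨y, hy, rfl⟩) (hz' | ⟨y', hy', hyz⟩)
      · exact Set.disjoint_left.1 hd hz hz'
      · subst hyz; exact hy' (hZA hz)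
      · exact hAU hy hz'
      · exact hy' (by rwa [Subtype.val_injective hyz]))
  rw [eventually_nhdsSet_iff_forall] at h4
  have hzero : ∀ z ∈ K' ∪ Subtype.val '' Aᶜ, ∀ᶠ w in 𝓝 z, χ w = 0 := by
    intro z hz
    have : z ∉ tsupport χ := fun h => h3 h hz
    exact notMem_tsupport_iff_eventuallyEq.1 this
  refine ⟨χ, ⟨h1, h2, fun z hz => ?_⟩, fun z => (h5 z).1, fun z hz => h4 z (Or.inl hz),
    fun z hz => hzero z (Or.inl hz)⟩
  rw [notMem_compl_iff] at hz
  by_cases hzA : (⟨z, hz⟩ : C) ∈ A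
  · have := h4 z (Or.inr ⟨_, hzA, rfl⟩)
    filter_upwards [this] with w hw
    rw [hw, this.self_of_nhds]
  · have := hzero z (Or.inr ⟨_, hzA, rfl⟩)
    filter_upwards [this] with w hw
    rw [hw, this.self_of_nhds]

/-- behaviour at infinity -/
theorem far (hP : Pk C x0 b φ) (hp : Cpl C x0 φ p) : ∃ R M : ℝ, 0 < R ∧ 0 ≤ M ∧
    (∀ z, R ≤ ‖z‖ → z ∈ Cᶜ ∧ |(x0 z + φ z) - z.re| ≤ M ∧ ‖deriv (fun w => p w - w) z‖ ≤ 1 / 2) ∧
    ∀ z, R ≤ ‖z‖ → DifferentiableAt ℂ (fun w => p w - w) z := by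
  obtain ⟨R1, hR1⟩ := hP.hx0.far
  obtain ⟨M, hM⟩ := hP.memφ.bdd
  obtain ⟨c0, hc0⟩ := hp.inf
  obtain ⟨R2, hR2⟩ := hP.td.cpt.isBounded.subset_closedBall (0 : ℂ)
  have h1 : ∀ᶠ z in cocompact ℂ, ‖p z - z - c0‖ ≤ 1 / 2 := by
    have : Tendsto (fun z => ‖p z - z - c0‖) (cocompact ℂ) (𝓝 ‖c0 - c0‖) :=
      (hc0.sub_const c0).norm
    rw [sub_self, norm_zero] at this
    exact (this.eventually (gt_mem_nhds (by norm_num : (0 : ℝ) < 1 / 2))).mono
      fun z hz => le_of_lt hz
  obtain ⟨R3, hR3⟩ : ∃ R3 : ℝ, ∀ z : ℂ, R3 < ‖z‖ → ‖p z - z - c0‖ ≤ 1 / 2 := by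
    rw [← Metric.cobounded_eq_cocompact] at h1
    obtain ⟨R3, -, h⟩ := (hasBasis_cobounded_norm.eventually_iff).1 h1
    exact ⟨R3, fun z hz => h (le_of_lt hz)⟩
  set R := max (max R1 R2) (max R3 0) with hR
  have hCc : ∀ z : ℂ, R < ‖z‖ → z ∈ Cᶜ := by
    intro z hz hzC
    have := mem_closedBall_zero_iff.1 (hR2 hzC)
    have : R2 ≤ R := (le_max_right _ _).trans (le_max_left _ _)
    linarith
  have hRpos : 0 ≤ R := (le_max_right _ _).trans (le_max_right _ _)
  have hd : ∀ z : ℂ, R < ‖z‖ → DifferentiableAt ℂ (fun w => p w - w) z := by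
    intro z hz
    exact (hp.hol.differentiableAt (hP.td.cpt.isClosed.isOpen_compl.mem_nhds (hCc z hz))).sub
      differentiableAt_id
  refine ⟨R + 2, |M|, by linarith, abs_nonneg _, fun z hz => ⟨hCc z (by linarith), ?_, ?_⟩,
    fun z hz => hd z (by linarith)⟩
  · have : R1 ≤ ‖z‖ := by
      have : R1 ≤ R := (le_max_left _ _).trans (le_max_left _ _)
      linarith
    rw [hR1 z this, add_sub_cancel_left]
    exact (hM z).trans (le_abs_self M)
  · have hball : ∀ w ∈ closedBall z 1, R < ‖w‖ := by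
      intro w hw
      rw [mem_closedBall, dist_eq_norm] at hw
      have : ‖z‖ ≤ ‖w‖ + ‖w - z‖ := by
        have := norm_sub_norm_le z w
        rw [norm_sub_rev] at this
        linarith
      linarith
    have hdo : DifferentiableOn ℂ (fun w => p w - w - c0) {w : ℂ | R < ‖w‖} := by
      intro w hw
      exact ((hd w hw).sub_const c0).differentiableWithinAt
    have h2 := Complex.norm_deriv_le_of_forall_mem_sphere_norm_le (c := z) (R := 1) (C := 1 / 2)
      (f := fun w => p w - w - c0) one_pos (hdo.diffContOnCl_ball hball) (fun w hw => by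
        refine hR3 w ?_
        have : R3 ≤ R := (le_max_left _ _).trans (le_max_right _ _)
        have := hball w (sphere_subset_closedBall hw)
        linarith)
    rw [div_one] at h2
    have h3 : deriv (fun w => p w - w - c0) z = deriv (fun w => p w - w) z := by
      rw [deriv_sub_const]
    rwa [h3] at h2

theorem exists_deriv_ne (hP : Pk C x0 b φ) (hp : Cpl C x0 φ p) : ∃ z ∈ Cᶜ, deriv p z ≠ 0 := by
  obtain ⟨R, M, hR, -, h, hd⟩ := far hP hp
  have hz : R ≤ ‖(R : ℂ)‖ := by rw [Complex.norm_real, Real.norm_of_nonneg hR.le]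
  obtain ⟨h1, -, h3⟩ := h (R : ℂ) hz
  refine ⟨(R : ℂ), h1, fun h0 => ?_⟩
  have hpd : DifferentiableAt ℂ p (R : ℂ) :=
    hp.hol.differentiableAt (hP.td.cpt.isClosed.isOpen_compl.mem_nhds h1)
  have : deriv (fun w => p w - w) (R : ℂ) = deriv p (R : ℂ) - 1 := by
    rw [deriv_fun_sub hpd differentiableAt_fun_id]
    simp
  rw [this, h0] at h3
  norm_num at h3

/-- no bounded component of `{σ x > t}` -/
theorem unbounded_comp (hP : Pk C x0 b φ) (hp : Cpl C x0 φ p) {σ : ℝ} (hσ : σ = 1 ∨ σ = -1)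
    {t : ℝ} {z0 : ℂ} (hz0 : t < σ * (x0 z0 + φ z0)) :
    ¬ Bornology.IsBounded (connectedComponentIn {z | t < σ * (x0 z + φ z)} z0) := by
  intro hb
  have hC := hP.td.cpt.isClosed
  have hσ2 : σ * σ = 1 := by rcases hσ with rfl | rfl <;> norm_num
  have hσa : ∀ u : ℝ, |σ * u| = |u| := by
    intro u
    rcases hσ with rfl | rfl
    · rw [one_mul]
    · rw [neg_one_mul, abs_neg]
  set x : ℂ → ℝ := fun z => x0 z + φ z with hx
  have hxc : Continuous x := hP.hx0.sm.continuous.add hP.memφ.cont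
  set W : Set ℂ := {z | t < σ * x z} with hW
  have hWo : IsOpen W := isOpen_lt continuous_const (continuous_const.mul hxc)
  set V : Set ℂ := connectedComponentIn W z0 with hV
  have hVo : IsOpen V := hWo.connectedComponentIn
  have hz0W : z0 ∈ W := hz0
  have hz0V : z0 ∈ V := mem_connectedComponentIn hz0W
  have hVcl : ∀ z ∈ closure V, z ∈ W → z ∈ V := by
    intro z hz hzW
    have hoz : IsOpen (connectedComponentIn W z) := hWo.connectedComponentIn
    obtain ⟨q, hq1, hq2⟩ := mem_closure_iff.1 hz _ hoz (mem_connectedComponentIn hzW)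
    have e1 := connectedComponentIn_eq hq1
    have e2 := connectedComponentIn_eq hq2
    rw [hV, e2, ← e1]
    exact mem_connectedComponentIn hzW
  set δ : ℝ := (σ * x z0 - t) / 2 with hδ
  have hδ0 : 0 < δ := by rw [hδ]; linarith [show t < σ * x z0 from hz0]
  set a : ℝ := σ * x z0 - δ with ha
  have hta : t < a := by rw [ha, hδ]; linarith [show t < σ * x z0 from hz0]
  set K : Set ℂ := closure V ∩ {z | a ≤ σ * x z} with hK
  have hKV : K ⊆ V := fun z hz => hVcl z hz.1 (lt_of_lt_of_le hta hz.2)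
  have hacl : IsClosed {z | a ≤ σ * x z} := isClosed_le continuous_const (continuous_const.mul hxc)
  have hKc : IsCompact K := by
    refine Metric.isCompact_of_isClosed_isBounded (isClosed_closure.inter hacl) ?_
    exact hb.closure.subset inter_subset_left
  set K' : Set ℂ := Vᶜ ∩ {z | a ≤ σ * x z} with hK'
  have hK'c : IsClosed K' := hVo.isClosed_compl.inter hacl
  have hKK' : Disjoint K K' := Set.disjoint_left.2 fun z hz hz' => hz'.1 (hKV hz)
  obtain ⟨c, hc, hc0, hc1, hc2⟩ := exists_switch hP.td.cpt hP.td.td hKc hK'c hKK'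
  obtain ⟨H, hH1, hH2, hH3, hH4, hH5, hH6, hH7⟩ := exists_step (σ * x z0) hδ0
  have hHa : ∀ u, u ≤ a → H u = H a := by
    intro u hu
    rcases hu.eq_or_lt with rfl | hlt
    · rfl
    obtain ⟨ξ, hξ, he⟩ := exists_deriv_eq_slope H hlt hH1.continuous.continuousOn
      (hH1.differentiable (by simp)).differentiableOn
    have h0 : deriv H ξ = 0 := by
      by_contra hne
      have := hH6 ξ hne
      rw [abs_lt] at this
      have := hξ.2
      linarith
    rw [h0, eq_comm, div_eq_zero_iff] at he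
    rcases he with he | he
    · linarith
    · linarith
  set h : ℝ → ℝ := fun s => H (σ * s) - H a with hh
  have hhd : ∀ s, deriv h s = σ * deriv H (σ * s) := by
    intro s
    have h1 : HasDerivAt H (deriv H (σ * s)) (σ * s) :=
      ((hH1.differentiable (by simp)) _).hasDerivAt
    have h2 : HasDerivAt (fun s : ℝ => σ * s) σ s := by
      simpa using (hasDerivAt_id s).const_mul σ
    have h3 := (h1.comp s h2).sub_const (H a)
    rw [show deriv h s = deriv H (σ * s) * σ from h3.deriv]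
    ring
  have hhs : ContDiff ℝ ∞ h := (hH1.comp (contDiff_const.mul contDiff_id)).sub contDiff_const
  have hhc : HasCompactSupport (deriv h) := by
    refine HasCompactSupport.intro (isCompact_closedBall (x z0) δ) fun s hs => ?_
    rw [hhd s]
    have : deriv H (σ * s) = 0 := by
      by_contra hne
      have := hH6 _ hne
      rw [← mul_sub, hσa] at this
      apply hs
      rw [mem_closedBall, Real.dist_eq]
      exact this.le
    rw [this, mul_zero]
  obtain ⟨e1, e2⟩ := el_eq hP hp hc hhs hhc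
  set f : ℂ → ℝ := fun z => deriv H (σ * (p z).re) * c z * ‖deriv p z‖ ^ 2 with hf
  have hfe : EqOn (fun z => deriv h (p z).re * c z * ‖deriv p z‖ ^ 2
        + h (p z).re * fderiv ℝ c z ((starRingEnd ℂ) (deriv p z))) (fun z => σ * f z) Cᶜ := by
    intro z hz
    have hxz : (p z).re = x z := hp.re z hz
    have h0 : h (p z).re * fderiv ℝ c z ((starRingEnd ℂ) (deriv p z)) = 0 := by
      by_cases hza : a ≤ σ * x z
      · have : fderiv ℝ c z = 0 := by
          by_cases hzV : z ∈ V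
          · have : c =ᶠ[𝓝 z] fun _ => 1 := hc1 z ⟨subset_closure hzV, hza⟩
            rw [this.fderiv_eq]; simp
          · have : c =ᶠ[𝓝 z] fun _ => 0 := hc2 z ⟨hzV, hza⟩
            rw [this.fderiv_eq]; simp
        rw [this]; simp
      · have : h (p z).re = 0 := by
          rw [hxz]
          show H (σ * x z) - H a = 0
          rw [hHa _ (not_le.1 hza).le, sub_self]
        rw [this, zero_mul]
    simp only []
    rw [h0, hhd, add_zero, hf]
    ring
  have hmeas : MeasurableSet Cᶜ := hC.isOpen_compl.measurableSet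
  rw [setIntegral_congr_fun hmeas hfe, integral_const_mul] at e2
  have hσ0 : σ ≠ 0 := by rcases hσ with rfl | rfl <;> norm_num
  have e3 : ∫ z in Cᶜ, f z = 0 := by
    rcases mul_eq_zero.1 e2 with h | h
    · exact absurd h hσ0
    · exact h
  have hfi : IntegrableOn f Cᶜ := by
    have h1 : IntegrableOn (fun z => σ * f z) Cᶜ := e1.congr_fun hfe hmeas
    have h2 := h1.const_mul σ
    refine h2.congr (Eventually.of_forall fun z => ?_)
    show σ * (σ * f z) = f z
    rw [← mul_assoc, hσ2, one_mul]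
  have hf0 : ∀ z, 0 ≤ f z := fun z => mul_nonneg (mul_nonneg (hH4 _) (hc0 _)) (sq_nonneg _)
  have hae := (setIntegral_eq_zero_iff_of_nonneg_ae (Eventually.of_forall hf0) hfi).1 e3
  have hfc : ContinuousOn f Cᶜ := by
    have h1 : ContinuousOn (fun z => (p z).re) Cᶜ :=
      continuous_re.comp_continuousOn hp.hol.continuousOn
    have h2 : Continuous (deriv H) := hH1.continuous_deriv (by simp)
    exact ((h2.comp_continuousOn (continuousOn_const.mul h1)).mul
      hc.1.continuous.continuousOn).mul ((hp.hol.deriv hC.isOpen_compl).continuousOn.norm.pow 2)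
  have hfz : EqOn f (fun _ => 0) Cᶜ :=
    MeasureTheory.Measure.eqOn_open_of_ae_eq hae hC.isOpen_compl hfc continuousOn_const
  -- an open set where `p' = 0`
  set O : Set ℂ := V ∩ {z | |x z - x z0| < δ} with hO
  have hOo : IsOpen O := hVo.inter (isOpen_lt ((hxc.sub continuous_const).abs) continuous_const)
  have hOn : O.Nonempty := ⟨z0, hz0V, by show |x z0 - x z0| < δ; rw [sub_self, abs_zero]; exact hδ0⟩
  obtain ⟨z1, hz1, hz1C⟩ := Tdc_987.exists_mem_diff hP.td.td hOo hOn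
  have hder : ∀ z ∈ O \ C, deriv p z = 0 := by
    intro z hz
    have h1 := hfz (show z ∈ Cᶜ from hz.2)
    have hxz : (p z).re = x z := hp.re z hz.2
    have h2 : 0 < deriv H (σ * x z) := hH7 _ (by rw [← mul_sub, hσa]; exact hz.1.2)
    have hza : a ≤ σ * x z := by
      have := hz.1.2
      have h3 : |σ * (x z - x z0)| < δ := by rw [hσa]; exact this
      rw [mul_sub, abs_lt] at h3
      linarith [h3.1]
    have h3 : c z = 1 := (hc1 z ⟨subset_closure hz.1.1, hza⟩).self_of_nhds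
    have h4 : deriv H (σ * (p z).re) * c z * ‖deriv p z‖ ^ 2 = 0 := h1
    rw [hxz, h3, mul_one] at h4
    rcases mul_eq_zero.1 h4 with h5 | h5
    · exact absurd h5 h2.ne'
    · exact norm_eq_zero.1 (pow_eq_zero_iff (two_ne_zero) |>.1 h5)
  have hpre : IsPreconnected Cᶜ := Tdc_987.isPreconnected_compl hP.td.cpt hP.td.td
  have han : AnalyticOnNhd ℂ (deriv p) Cᶜ :=
    (hp.hol.analyticOnNhd hC.isOpen_compl).deriv
  have hev : deriv p =ᶠ[𝓝 z1] 0 := by
    have : O \ C ∈ 𝓝 z1 := (hOo.sdiff hC).mem_nhds ⟨hz1, hz1C⟩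
    filter_upwards [this] with w hw
    exact hder w hw
  have hall := han.eqOn_zero_of_preconnected_of_eventuallyEq_zero hpre hz1C hev
  obtain ⟨z2, hz2, hne⟩ := exists_deriv_ne hP hp
  exact hne (hall hz2)

/-- horizontal rays far from the real axis -/
theorem ray_mono (hp : Cpl C x0 φ p) {σ : ℝ} (hσ : σ = 1 ∨ σ = -1) {R : ℝ}
    (hR : ∀ z, R ≤ ‖z‖ → z ∈ Cᶜ ∧ ‖deriv (fun w => p w - w) z‖ ≤ 1 / 2)
    (hd : ∀ z, R ≤ ‖z‖ → DifferentiableAt ℂ (fun w => p w - w) z) {a : ℂ} (ha : R < |a.im|)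
    {s : ℝ} (hs : 0 ≤ s) :
    σ * (x0 a + φ a) ≤ σ * (x0 (a + σ * s) + φ (a + σ * s)) := by
  have hσ2 : σ * σ = 1 := by rcases hσ with rfl | rfl <;> norm_num
  have hσa : |σ| = 1 := by rcases hσ with rfl | rfl <;> norm_num
  set e : ℂ := a + σ * s with he
  have hae : e.im = a.im := by simp [he]
  have hnorm : ∀ z : ℂ, R < |z.im| → R ≤ ‖z‖ := fun z hz => hz.le.trans (abs_im_le_norm z)
  obtain ⟨S, hS, haS, heS, hSR⟩ : ∃ S : Set ℂ, Convex ℝ S ∧ a ∈ S ∧ e ∈ S ∧
      ∀ z ∈ S, R < |z.im| := by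
    rcases lt_abs.1 ha with h | h
    · exact ⟨{z | R < z.im}, convex_halfSpace_im_gt R, h, by rw [mem_ofPred_eq, hae]; exact h,
        fun z hz => lt_of_lt_of_le hz (le_abs_self _)⟩
    · exact ⟨{z | z.im < -R}, convex_halfSpace_im_lt (-R), by rw [mem_ofPred_eq]; linarith,
        by rw [mem_ofPred_eq, hae]; linarith, fun z hz => by
          have : z.im < -R := hz
          exact lt_of_lt_of_le (by linarith) (neg_le_abs _)⟩
  have h1 := hS.norm_image_sub_le_of_norm_deriv_le (f := fun w => p w - w) (C := 1 / 2)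
    (fun z hz => hd z (hnorm z (hSR z hz))) (fun z hz => (hR z (hnorm z (hSR z hz))).2) haS heS
  have h2 : ‖e - a‖ = s := by
    rw [he, add_sub_cancel_left, norm_mul, Complex.norm_real, Complex.norm_real,
      Real.norm_eq_abs, Real.norm_eq_abs, hσa, abs_of_nonneg hs, one_mul]
  rw [h2] at h1
  rw [← hp.re a (hR a (hnorm a ha)).1, ← hp.re e (hR e (hnorm e (by rw [hae]; exact ha))).1]
  have h3 := (abs_re_le_norm ((p e - e) - (p a - a))).trans h1
  have h4 : ((p e - e) - (p a - a)).re = (p e).re - (p a).re - σ * s := by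
    simp [he]; ring
  rw [h4] at h3
  have h5 : |σ * ((p e).re - (p a).re - σ * s)| ≤ 1 / 2 * s := by
    rw [abs_mul, hσa, one_mul]; exact h3
  have h6 : σ * ((p e).re - (p a).re - σ * s) = σ * (p e).re - σ * (p a).re - s := by
    have : σ * (σ * s) = s := by rw [← mul_assoc, hσ2, one_mul]
    rw [mul_sub, mul_sub, this]
  rw [h6, abs_le] at h5
  linarith [h5.1]

theorem preconn_W (hP : Pk C x0 b φ) (hp : Cpl C x0 φ p) {σ : ℝ} (hσ : σ = 1 ∨ σ = -1)
    (t : ℝ) : IsPreconnected {z | t < σ * (x0 z + φ z)} := by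
  have hC := hP.td.cpt.isClosed
  have hσ2 : σ * σ = 1 := by rcases hσ with rfl | rfl <;> norm_num
  have hσa : ∀ u : ℝ, |σ * u| = |u| := by
    intro u
    rcases hσ with rfl | rfl
    · rw [one_mul]
    · rw [neg_one_mul, abs_neg]
  obtain ⟨R, M, hR, hM, hfar, hd⟩ := far hP hp
  set x : ℂ → ℝ := fun z => x0 z + φ z with hx
  have hxc : Continuous x := hP.hx0.sm.continuous.add hP.memφ.cont
  set W : Set ℂ := {z | t < σ * x z} with hW
  set T : ℝ := R + M + |t| with hT
  set P : Set ℂ := {z | T < σ * z.re} with hPd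
  have hPc : IsPreconnected P := by
    have : Convex ℝ P := by
      rcases hσ with rfl | rfl
      · have : P = {z : ℂ | T < z.re} := by ext z; simp [hPd]
        rw [this]; exact convex_halfSpace_re_gt T
      · have : P = {z : ℂ | z.re < -T} := by
          ext z
          simp only [hPd, mem_ofPred_eq]
          constructor <;> intro h <;> linarith
        rw [this]; exact convex_halfSpace_re_lt (-T)
    exact this.isPreconnected
  have hxre : ∀ z, R ≤ ‖z‖ → |σ * x z - σ * z.re| ≤ M := by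
    intro z hz
    rw [← mul_sub, hσa]
    exact (hfar z hz).2.1
  have hPW : P ⊆ W := by
    intro z hz
    have hz' : T < σ * z.re := hz
    have h1 : R ≤ ‖z‖ := by
      have h2 := abs_re_le_norm z
      have h3 : σ * z.re ≤ |z.re| := by rw [← hσa]; exact le_abs_self _
      have := abs_nonneg t
      linarith
    have h2 := (abs_le.1 (hxre z h1)).1
    have := le_abs_self t
    show t < σ * x z
    linarith
  have hmeet : ∀ z ∈ W, (connectedComponentIn W z ∩ P).Nonempty := by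
    intro z hz
    have hub := unbounded_comp hP hp hσ (t := t) (z0 := z) hz
    set V : Set ℂ := connectedComponentIn W z with hV
    obtain ⟨z1, hz1, hz1n⟩ : ∃ z1 ∈ V, 2 * (T + R + M + 2) < ‖z1‖ := by
      by_contra hcon
      push Not at hcon
      refine hub ((isBounded_closedBall (x := (0 : ℂ)) (r := 2 * (T + R + M + 2))).subset ?_)
      intro w hw
      rw [mem_closedBall_zero_iff]
      exact hcon w hw
    have hz1W : z1 ∈ W := connectedComponentIn_subset _ _ hz1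
    have hTt : 0 ≤ |t| := abs_nonneg t
    by_cases him : R < |z1.im|
    · -- the ray
      have hray : ∀ s : ℝ, 0 ≤ s → z1 + σ * s ∈ W := by
        intro s hs
        have := ray_mono hp hσ (R := R) (fun z hz => ⟨(hfar z hz).1, (hfar z hz).2.2⟩) hd him hs
        exact lt_of_lt_of_le (show t < σ * x z1 from hz1W) this
      have hL : IsPreconnected ((fun s : ℝ => z1 + σ * s) '' Ici 0) :=
        isPreconnected_Ici.image _ (by fun_prop)
      have hLV : (fun s : ℝ => z1 + σ * s) '' Ici 0 ⊆ V := by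
        have h1 : z1 ∈ (fun s : ℝ => z1 + σ * s) '' Ici (0 : ℝ) := ⟨0, self_mem_Ici, by simp⟩
        have h2 := hL.subset_connectedComponentIn h1 (F := W) (by
          rintro _ ⟨s, hs, rfl⟩; exact hray s hs)
        rw [hV, connectedComponentIn_eq hz1]
        exact h2
      set s0 : ℝ := |z1.re| + |T| + 1 with hs0
      have hs00 : 0 ≤ s0 := by positivity
      refine ⟨z1 + σ * s0, hLV ⟨s0, hs00, rfl⟩, ?_⟩
      show T < σ * (z1 + σ * s0).re
      have : (z1 + (σ : ℂ) * (s0 : ℂ)).re = z1.re + σ * s0 := by simp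
      rw [this, mul_add, ← mul_assoc, hσ2, one_mul]
      have h3 : -|z1.re| ≤ σ * z1.re := by rw [← hσa]; exact neg_abs_le _
      have := le_abs_self T
      linarith
    · have him' := not_lt.1 him
      have h1 : ‖z1‖ ≤ |z1.re| + |z1.im| := norm_le_abs_re_add_abs_im z1
      have hz1R : R ≤ ‖z1‖ := by linarith
      have h2 := (abs_le.1 (hxre z1 hz1R)).2
      have h3 : t < σ * x z1 := hz1W
      have h4 := neg_abs_le t
      have h5 : |σ * z1.re| = |z1.re| := hσa _
      refine ⟨z1, hz1, ?_⟩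
      show T < σ * z1.re
      rcases abs_cases (σ * z1.re) with ⟨h6, _⟩ | ⟨h6, _⟩ <;> linarith
  obtain ⟨y0, hy0⟩ : P.Nonempty := by
    refine ⟨((σ * (T + 1) : ℝ) : ℂ), ?_⟩
    show T < σ * (((σ * (T + 1) : ℝ) : ℂ)).re
    rw [Complex.ofReal_re, ← mul_assoc, hσ2]
    linarith
  refine isPreconnected_of_forall y0 fun y hy => ?_
  refine ⟨P ∪ connectedComponentIn W y, union_subset hPW (connectedComponentIn_subset _ _),
    Or.inl hy0, Or.inr (mem_connectedComponentIn hy), ?_⟩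
  obtain ⟨q, hq1, hq2⟩ := hmeet y hy
  exact IsPreconnected.union q hq2 hq1 hPc isPreconnected_connectedComponentIn

theorem conn_gt (hP : Pk C x0 b φ) (hp : Cpl C x0 φ p) (t : ℝ) :
    IsPreconnected {z | z ∈ Cᶜ ∧ t < (p z).re} := by
  have h1 := preconn_W hP hp (Or.inl rfl) t
  have hc : Continuous fun z => 1 * (x0 z + φ z) :=
    continuous_const.mul (hP.hx0.sm.continuous.add hP.memφ.cont)
  have h2 := Tdc_987.preconn_diff hP.td.cpt hP.td.td (isOpen_lt continuous_const hc) h1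
  have e : {z | z ∈ Cᶜ ∧ t < (p z).re} = {z | t < 1 * (x0 z + φ z)} \ C := by
    ext z
    constructor
    · rintro ⟨h3, h4⟩
      refine ⟨?_, h3⟩
      show t < 1 * (x0 z + φ z)
      rw [← hp.re z h3, one_mul]; exact h4
    · rintro ⟨h3, h4⟩
      have h3' : t < 1 * (x0 z + φ z) := h3
      refine ⟨h4, ?_⟩
      rw [← hp.re z h4, one_mul] at h3'; exact h3'
  rw [e]; exact h2

theorem conn_lt (hP : Pk C x0 b φ) (hp : Cpl C x0 φ p) (t : ℝ) :
    IsPreconnected {z | z ∈ Cᶜ ∧ (p z).re < t} := by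
  have h1 := preconn_W hP hp (Or.inr rfl) (-t)
  have hc : Continuous fun z => -1 * (x0 z + φ z) :=
    continuous_const.mul (hP.hx0.sm.continuous.add hP.memφ.cont)
  have h2 := Tdc_987.preconn_diff hP.td.cpt hP.td.td (isOpen_lt continuous_const hc) h1
  have e : {z | z ∈ Cᶜ ∧ (p z).re < t} = {z | -t < -1 * (x0 z + φ z)} \ C := by
    ext z
    constructor
    · rintro ⟨h3, h4⟩
      refine ⟨?_, h3⟩
      show -t < -1 * (x0 z + φ z)
      rw [← hp.re z h3]; linarith
    · rintro ⟨h3, h4⟩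
      have h3' : -t < -1 * (x0 z + φ z) := h3
      refine ⟨h4, ?_⟩
      rw [← hp.re z h4] at h3'; linarith
  rw [e]; exact h2

end Crest.Agent.R105.Uv_913
end

-- ▼ part R105/Uv8_913
section

/-!
Row 105, UNIV (helper913): `IfB_641.UNIVP`.
-/

set_option autoImplicit false

namespace Crest.Agent.R105.Uv_913

open Set

/-- **UNIVP** -/
theorem univp : Crest.Agent.R105.IfB_641.UNIVP := by
  intro C x0 b φ p hP hp
  refine injOn_of_EL hP.td.cpt.isClosed.isOpen_compl
    (Tdc_987.isPreconnected_compl hP.td.cpt hP.td.td) hp.hol (energy hP hp) (elineq hP hp)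
    (exists_deriv_ne hP hp) (fun a b hab => ?_) (fun a b hab => ?_)
  · exact ⟨(a + b) / 2, ⟨by linarith, by linarith⟩, conn_gt hP hp _⟩
  · exact ⟨(a + b) / 2, ⟨by linarith, by linarith⟩, conn_lt hP hp _⟩

end Crest.Agent.R105.Uv_913
end

-- ▼ part R105/Tdc1_442
section

/-! Row 105 (helper442): the complement of a compact totally disconnected plane set is an
exterior domain. -/

set_option autoImplicit false

open Set Filter Topology Metric

namespace Crest.Agent.R105.Pic_442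

open Crest.AnalysisR Ends_897 Crest.Agent.R193.Planar

/-- `B` does not separate `a` and `b` -/
def NSep (a b : ℂ) (B : Set ℂ) : Prop := ∀ c : ℂ → ℝ, LCOff B c → c a = c b

theorem NSep.union {a b : ℂ} {B1 B2 : Set ℂ} (h1 : NSep a b B1) (h2 : NSep a b B2)
    (hc1 : IsCompact B1) (hc2 : IsCompact B2) (hd : Disjoint B1 B2) (ha : a ∉ B1 ∪ B2)
    (hb : b ∉ B1 ∪ B2) : NSep a b (B1 ∪ B2) := by
  intro c hc
  obtain ⟨c1, c2, hc1', hc2', hs⟩ := split_C hc1 hc2.isClosed hd hc
  rw [hs a ha, hs b hb, h1 c1 hc1', h2 c2 hc2']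

theorem nsep_of_ball {a b x : ℂ} {ε : ℝ} (hε : 0 ≤ ε) {B : Set ℂ} (hB : B ⊆ closedBall x ε)
    (ha : ε < dist a x) (hb : ε < dist b x) : NSep a b B := by
  intro c hc
  refine hc.eq_of_preconnected (isPreconnected_compl_closedBall x hε)
    (disjoint_left.2 fun y h1 h2 => h1 (hB h2)) ?_ ?_
  · rw [mem_compl_iff, mem_closedBall, not_le]; exact ha
  · rw [mem_compl_iff, mem_closedBall, not_le]; exact hb

/-- a compact totally disconnected set does not separate -/
theorem nsep_of_td {C : Set ℂ} (hC : IsCompact C) (ht : IsTotallyDisconnected C) {a b : ℂ}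
    (ha : a ∉ C) (hb : b ∉ C) : NSep a b C := by
  classical
  obtain ⟨ε1, hε1, h1⟩ := Metric.isOpen_iff.1 hC.isClosed.isOpen_compl a ha
  obtain ⟨ε2, hε2, h2⟩ := Metric.isOpen_iff.1 hC.isClosed.isOpen_compl b hb
  set ε := min ε1 ε2 / 2 with hε
  have hε0 : 0 < ε := by positivity
  have hda : ∀ x ∈ C, ε < dist a x := by
    intro x hx
    by_contra hn
    have : x ∈ ball a ε1 := by
      rw [mem_ball, dist_comm]
      have := min_le_left ε1 ε2
      linarith [not_lt.1 hn]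
    exact h1 this hx
  have hdb : ∀ x ∈ C, ε < dist b x := by
    intro x hx
    by_contra hn
    have : x ∈ ball b ε2 := by
      rw [mem_ball, dist_comm]
      have := min_le_right ε1 ε2
      linarith [not_lt.1 hn]
    exact h2 this hx
  have hex : ∀ x : C, ∃ B : Set ℂ, Piece C B ∧ (x : ℂ) ∈ B ∧ B ⊆ ball (x : ℂ) ε := by
    intro x
    have hcc := cc_singleton ht x.2
    obtain ⟨B, hBc, hBc', hBC, hxB, hBb⟩ := exists_clopen hC x.2 (W := ball (x : ℂ) ε) isOpen_ball
      (by rw [hcc]; exact singleton_subset_iff.2 (mem_ball_self hε0))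
    exact ⟨B, ⟨hBC, hBc, hBc'⟩, hxB (by rw [hcc]; rfl), hBb⟩
  choose B hB hxB hBb using hex
  obtain ⟨t, ht'⟩ := hC.elim_finite_subcover (fun x : C => (C \ B x)ᶜ)
    (fun x => (hB x).rest.isClosed.isOpen_compl)
    (fun x hx => mem_iUnion.2 ⟨⟨x, hx⟩, fun h => h.2 (hxB ⟨x, hx⟩)⟩)
  have key : ∀ s : Finset C, IsCompact (⋃ i ∈ s, B i) ∧ IsCompact (C \ ⋃ i ∈ s, B i) ∧
      NSep a b (⋃ i ∈ s, B i) := by
    intro s
    induction s using Finset.induction_on with
    | empty =>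
      refine ⟨by simp, by simpa using hC, ?_⟩
      intro c hc
      exact hc.eq_of_preconnected isPreconnected_univ (disjoint_left.2 fun y _ h => by simp at h)
        (mem_univ a) (mem_univ b)
    | insert i s _ ih =>
      obtain ⟨ih1, ih2, ih3⟩ := ih
      have e : ⋃ j ∈ insert i s, B j = (⋃ j ∈ s, B j) ∪ (B i ∩ (C \ ⋃ j ∈ s, B j)) := by
        rw [Finset.set_biUnion_insert]
        ext w
        constructor
        · rintro (h | h)
          · by_cases hw : w ∈ ⋃ j ∈ s, B j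
            · exact Or.inl hw
            · exact Or.inr ⟨h, (hB i).sub h, hw⟩
          · exact Or.inl h
        · rintro (h | h)
          · exact Or.inr h
          · exact Or.inl h.1
      have hcpt : IsCompact (B i ∩ (C \ ⋃ j ∈ s, B j)) := (hB i).cpt.inter ih2
      have hsub : (⋃ j ∈ s, B j) ⊆ C := iUnion₂_subset fun j _ => (hB j).sub
      refine ⟨?_, ?_, ?_⟩
      · rw [e]; exact ih1.union hcpt
      · rw [Finset.set_biUnion_insert]
        have e2 : C \ (B i ∪ ⋃ j ∈ s, B j) = (C \ B i) ∩ (C \ ⋃ j ∈ s, B j) := by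
          ext w; simp only [Set.mem_sdiff, Set.mem_union, Set.mem_inter_iff]; tauto
        rw [e2]; exact (hB i).rest.inter ih2
      · rw [e]
        refine ih3.union ?_ ih1 hcpt (disjoint_left.2 fun w h1 h2 => h2.2.2 h1) ?_ ?_
        · exact nsep_of_ball hε0.le (inter_subset_left.trans ((hBb i).trans ball_subset_closedBall))
            (hda i i.2) (hdb i i.2)
        · rintro (h | h)
          · exact ha (hsub h)
          · exact ha h.2.1
        · rintro (h | h)
          · exact hb (hsub h)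
          · exact hb h.2.1
  have hCt : C = ⋃ i ∈ t, B i := by
    refine Subset.antisymm (fun w hw => ?_) (iUnion₂_subset fun j _ => (hB j).sub)
    obtain ⟨i, hi, hwi⟩ := mem_iUnion₂.1 (ht' hw)
    exact mem_iUnion₂.2 ⟨i, hi, by by_contra h; exact hwi ⟨hw, h⟩⟩
  have := (key t).2.2
  rwa [← hCt] at this

/-- **the complement of a compact totally disconnected plane set is an exterior domain** -/
theorem isExteriorDomain_compl {C : Set ℂ} (hC : IsCompact C) (ht : IsTotallyDisconnected C) :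
    IsExteriorDomain Cᶜ := by
  classical
  obtain ⟨R, hR⟩ := hC.isBounded.exists_norm_le
  have hfar : ∀ z : ℂ, max R 0 < ‖z‖ → z ∈ Cᶜ := fun z hz hzC =>
    absurd (hR z hzC) (not_le.2 ((le_max_left _ _).trans_lt hz))
  refine ⟨hC.isClosed.isOpen_compl, ⟨⟨((max R 0 + 1 : ℝ) : ℂ), hfar _ ?_⟩, ?_⟩, _, hfar⟩
  · rw [Complex.norm_real, Real.norm_eq_abs, abs_of_pos (by positivity)]; linarith
  · rw [isPreconnected_iff_subset_of_disjoint]
    intro u v hu hv huv hdis
    by_contra hcon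
    rw [not_or, not_subset, not_subset] at hcon
    obtain ⟨⟨a, ha, hau⟩, ⟨b, hb, hbv⟩⟩ := hcon
    have hbu : b ∈ u := (huv hb).resolve_right hbv
    have h1 := nsep_of_td hC ht ha hb (fun y => if y ∈ u then 1 else 0) (by
      intro y hy
      by_cases hyu : y ∈ u
      · filter_upwards [hu.mem_nhds hyu] with w hw
        simp only [if_pos hyu, if_pos hw]
      · have hyv : y ∈ v := (huv hy).resolve_left hyu
        filter_upwards [hv.mem_nhds hyv, hC.isClosed.isOpen_compl.mem_nhds hy] with w hw hw'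
        have hwu : w ∉ u := fun h => by
          have : w ∈ Cᶜ ∩ (u ∩ v) := ⟨hw', h, hw⟩
          rw [hdis] at this; exact this
        simp only [if_neg hyu, if_neg hwu])
    simp only [if_neg hau, if_pos hbu] at h1
    norm_num at h1

end Crest.Agent.R105.Pic_442
end

-- ▼ part R105/Pic3_442
section

/-! Row 105, PIC (helper442), part 3: locally constant functions correspond in both directions,
the inverse is holomorphic, upper semicontinuity of the end correspondence. -/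

set_option autoImplicit false

open Set Filter Topology Metric MeasureTheory Complex
open scoped ContDiff

namespace Crest.Agent.R105.Pic_442

open Crest.AnalysisR Ends_897

variable {U V : Set ℂ} {F : ℂ → ℂ}




/-- smoothness of a function which is smooth on `U` and locally constant near `Uᶜ` -/
theorem contDiff_of_lc {n : WithTop ℕ∞} {χ : ℂ → ℝ} (hU : IsOpen U) (h1 : ContDiffOn ℝ n χ U)
    (h2 : ∀ z ∉ U, ∀ᶠ w in 𝓝 z, χ w = χ z) : ContDiff ℝ n χ := by
  rw [contDiff_iff_contDiffAt]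
  intro z
  by_cases hz : z ∈ U
  · exact h1.contDiffAt (hU.mem_nhds hz)
  · exact (contDiffAt_const (c := χ z)).congr_of_eventuallyEq (h2 z hz)





end Crest.Agent.R105.Pic_442
end

-- ▼ part R105/Null1_442
section

/-! Row 105, NULLP (helper442): the complement of the picture of `x0 + φ` is a null set, over the
carrier `IfB0_641` (version 2, over `Bd1_775`). -/

set_option autoImplicit false

open MeasureTheory Set Filter Topology Metric
open scoped ContDiff

namespace Crest.Agent.R105.Pic_442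

open Crest.AnalysisR Ends_897 IfB_641

variable {C : Set ℂ}

/-! ### small facts on the carrier -/

theorem continuous_gx {u : ℂ → ℝ} (h : ContDiff ℝ 1 u) : Continuous (gx u) :=
  (h.continuous_fderiv (by norm_num)).clm_apply continuous_const

theorem continuous_gy {u : ℂ → ℝ} (h : ContDiff ℝ 1 u) : Continuous (gy u) :=
  (h.continuous_fderiv (by norm_num)).clm_apply continuous_const

theorem gx_zero_of {u : ℂ → ℝ} {z : ℂ} {a : ℝ} (h : ∀ᶠ w in 𝓝 z, u w = a) : gx u z = 0 := by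
  have h3 : u =ᶠ[𝓝 z] fun _ => a := h
  simp [Bd_775.gx, h3.fderiv_eq]

theorem gy_zero_of {u : ℂ → ℝ} {z : ℂ} {a : ℝ} (h : ∀ᶠ w in 𝓝 z, u w = a) : gy u z = 0 := by
  have h3 : u =ᶠ[𝓝 z] fun _ => a := h
  simp [Bd_775.gy, h3.fderiv_eq]

theorem hasCompactSupport_gx {u : ℂ → ℝ} (h : HasCompactSupport u) : HasCompactSupport (gx u) := by
  refine (h.fderiv (𝕜 := ℝ)).mono fun x hx => ?_
  simp only [Function.mem_support] at hx ⊢
  intro h0; exact hx (by simp [Bd_775.gx, h0])

theorem hasCompactSupport_gy {u : ℂ → ℝ} (h : HasCompactSupport u) : HasCompactSupport (gy u) := by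
  refine (h.fderiv (𝕜 := ℝ)).mono fun x hx => ?_
  simp only [Function.mem_support] at hx ⊢
  intro h0; exact hx (by simp [Bd_775.gy, h0])

/-- smooth compactly supported functions, locally constant near `C`, are in `LC` -/
theorem LC.of_smooth {χ : ℂ → ℝ} (h1 : ContDiff ℝ 1 χ) (h2 : HasCompactSupport χ)
    (h3 : ∀ z ∈ C, ∀ᶠ w in 𝓝 z, χ w = χ z) : LC C χ :=
  Bd_775.LC.of_compact h1.locallyLipschitz h2 h3

/-- adding a generated function does not change the generated algebra -/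
theorem iso_insert {S : Set (ℂ → ℝ)} {ψ : ℂ → ℝ} (hψ : Gen C S ψ) (hI : Iso C S) :
    Iso C (insert ψ S) :=
  Iso.trans (by rintro s (rfl | hs) <;> [exact hψ; exact Gen.of hs]) hI

/-! ### the cut off coordinate -/

section Cut

variable {x0 φ χ : ℂ → ℝ}

theorem x0_near (hx0 : X0 C x0) {z : ℂ} (hz : z ∈ C) : ∀ᶠ w in 𝓝 z, x0 w = 0 := by
  have h1 : z ∉ tsupport x0 := fun h => hx0.zero h hz
  filter_upwards [(isClosed_tsupport x0).isOpen_compl.mem_nhds h1] with w hw
  exact image_eq_zero_of_notMem_tsupport hw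

theorem LC_mul_x0 (hx0 : X0 C x0) (h1 : ContDiff ℝ 1 χ) (h2 : HasCompactSupport χ) :
    LC C (fun z => χ z * x0 z) := by
  refine LC.of_smooth (h1.mul (hx0.sm.of_le (by simp))) h2.mul_right fun z hz => ?_
  have h3 := x0_near hx0 hz
  filter_upwards [h3] with w hw
  rw [hw, h3.self_of_nhds, mul_zero, mul_zero]

/-- `χ (x0 + φ)` is generated -/
theorem gen_cut (hx0 : X0 C x0) {S : Set (ℂ → ℝ)} (hφ : φ ∈ S) (h1 : ContDiff ℝ 1 χ)
    (h2 : HasCompactSupport χ) (h3 : ∀ z ∈ C, ∀ᶠ w in 𝓝 z, χ w = χ z) :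
    Gen C S (fun z => χ z * (x0 z + φ z)) := by
  have h4 := Gen.add (Gen.lc (S := S) (LC_mul_x0 hx0 h1 h2))
    (Gen.mul (Gen.lc (LC.of_smooth h1 h2 h3)) (Gen.of hφ))
  have e : (fun z => χ z * (x0 z + φ z)) = fun z => χ z * x0 z + χ z * φ z := by
    ext z; ring
  rw [e]; exact h4

end Cut

/-! ### the null lemma -/

/-- **NULLP**: the complement of the picture is a null set -/
theorem null_of (hC : IsCompact C) (ht : IsTotallyDisconnected C) {x0 φ : ℂ → ℝ} (hx0 : X0 C x0)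
    (hφ : D C φ) {S : Set (ℂ → ℝ)} (hφS : φ ∈ S) (hI : Iso C S)
    (hEL : ∀ ψ, D C ψ → Iso C (insert ψ S) → EL C x0 φ ψ) {p : ℂ → ℂ} {c : ℂ}
    (hp : DifferentiableOn ℂ p Cᶜ) (hre : ∀ z ∈ Cᶜ, (p z).re = x0 z + φ z)
    (hinf : Tendsto (fun z => p z - z) (cocompact ℂ) (𝓝 c)) (hinj : InjOn p Cᶜ) :
    volume (p '' Cᶜ)ᶜ = 0 := by
  have hU := isExteriorDomain_compl hC ht
  have hO : IsOpen Cᶜ := hC.isClosed.isOpen_compl
  have h := EndMap.of_holo hU hp hinj (Red_828.tendsto_cocompact_of_tendsto_sub hinf)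
  refine volume_compl_zero h hp fun χ hχ hχc hχ1 => ?_
  have hχ1' : ∀ z ∈ C, ∀ᶠ w in 𝓝 z, χ w = 1 := by
    intro z hz
    refine (eventually_nhdsSet_iff_forall.1 hχ1) z ?_
    rwa [compl_compl]
  have hχl : ∀ z ∈ C, ∀ᶠ w in 𝓝 z, χ w = χ z := by
    intro z hz
    have h1 := hχ1' z hz
    filter_upwards [h1] with w hw
    rw [hw, h1.self_of_nhds]
  have hχ' : ContDiff ℝ 1 χ := hχ.of_le (by simp)
  have hx0' : ContDiff ℝ 1 x0 := hx0.sm.of_le (by simp)
  -- smoothness on `Cᶜ`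
  have sp : ∀ z ∈ Cᶜ, ContDiffAt ℝ ∞ (fun z => (p z).re) z := by
    intro z hz
    have h2 : ContDiffAt ℝ ∞ p z :=
      ((hp.analyticAt (hO.mem_nhds hz)).contDiffAt).restrict_scalars ℝ
    exact Complex.reCLM.contDiff.contDiffAt.comp z h2
  have sφ : ∀ z ∈ Cᶜ, ContDiffAt ℝ ∞ φ z := by
    intro z hz
    refine ((sp z hz).sub hx0.sm.contDiffAt).congr_of_eventuallyEq ?_
    filter_upwards [hO.mem_nhds hz] with w hw
    rw [hre w hw]; ring
  have dφ : ∀ z ∈ Cᶜ, DifferentiableAt ℝ φ z := fun z hz =>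
    (sφ z hz).differentiableAt (by simp)
  -- the test function
  set ψ : ℂ → ℝ := fun z => χ z * (x0 z + φ z) with hψ
  have hgen : Gen C S ψ := gen_cut hx0 hφS hχ' hχc hχl
  have hψD : D C ψ := by
    have h1 : Gen C {φ} ψ := gen_cut hx0 (mem_singleton φ) hχ' hχc hχl
    refine (Gen.q hC.isClosed ?_ h1).d (hχ.continuous.mul (hx0.sm.continuous.add hφ.cont))
    rintro s rfl
    exact hφ.q
  have key := hEL ψ hψD (iso_insert hgen hI)
  -- `ψ` is smooth off `C`
  have sψ : ∀ z ∈ Cᶜ, ContDiffAt ℝ ∞ ψ z := fun z hz =>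
    hχ.contDiffAt.mul (hx0.sm.contDiffAt.add (sφ z hz))
  have near0 : ∀ z ∈ C, ∀ᶠ w in 𝓝 z, x0 w = 0 := fun z hz => x0_near hx0 hz
  have nx : ∀ z ∈ C, ∀ᶠ w in 𝓝 z, gx x0 w = 0 := fun z hz => by
    filter_upwards [(near0 z hz).eventually_nhds] with w hw using gx_zero_of hw
  have ny : ∀ z ∈ C, ∀ᶠ w in 𝓝 z, gy x0 w = 0 := fun z hz => by
    filter_upwards [(near0 z hz).eventually_nhds] with w hw using gy_zero_of hw
  have sgx : ContDiff ℝ 1 (gx x0) := (contDiff_gx hx0.sm).of_le (by simp)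
  have sgy : ContDiff ℝ 1 (gy x0) := (contDiff_gy hx0.sm).of_le (by simp)
  have cψ : HasCompactSupport ψ := hχc.mul_right
  have G1 : ContDiff ℝ 1 (fun z => ψ z * gx x0 z) := by
    refine contDiff_of_lc hO (fun z hz => (((sψ z hz).of_le (by simp)).mul
      sgx.contDiffAt).contDiffWithinAt) fun z hz => ?_
    have hz' : z ∈ C := not_not.1 hz
    filter_upwards [nx z hz'] with w hw
    rw [hw, (nx z hz').self_of_nhds, mul_zero, mul_zero]
  have G2 : ContDiff ℝ 1 (fun z => ψ z * gy x0 z) := by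
    refine contDiff_of_lc hO (fun z hz => (((sψ z hz).of_le (by simp)).mul
      sgy.contDiffAt).contDiffWithinAt) fun z hz => ?_
    have hz' : z ∈ C := not_not.1 hz
    filter_upwards [ny z hz'] with w hw
    rw [hw, (ny z hz').self_of_nhds, mul_zero, mul_zero]
  have I1 := Pth_988.integral_fderiv_eq_zero G1 cψ.mul_right 1
  have I2 := Pth_988.integral_fderiv_eq_zero G2 cψ.mul_right Complex.I
  -- pointwise product rule
  have pr : ∀ z ∈ Cᶜ, fderiv ℝ (fun z => ψ z * gx x0 z) z 1 +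
      fderiv ℝ (fun z => ψ z * gy x0 z) z Complex.I =
      dot x0 ψ z + ψ z * lap x0 z := by
    intro z hz
    have d1 : DifferentiableAt ℝ ψ z := (sψ z hz).differentiableAt (by simp)
    have d2 : DifferentiableAt ℝ (gx x0) z := (sgx.differentiable (by norm_num)) z
    have d3 : DifferentiableAt ℝ (gy x0) z := (sgy.differentiable (by norm_num)) z
    have k1 := Bd_775.gx_mul d1 d2
    have k2 := Bd_775.gy_mul d1 d3
    change gx (fun z => ψ z * gx x0 z) z + gy (fun z => ψ z * gy x0 z) z = _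
    rw [k1, k2]
    simp only [lap, Bd_775.dot]
    ring
  have pr0 : ∀ z ∈ C, fderiv ℝ (fun z => ψ z * gx x0 z) z 1 +
      fderiv ℝ (fun z => ψ z * gy x0 z) z Complex.I = 0 ∧ ψ z * lap x0 z = 0 := by
    intro z hz
    have a1 : gx (fun z => ψ z * gx x0 z) z = 0 := gx_zero_of (a := 0) (by
      filter_upwards [nx z hz] with w hw; rw [hw, mul_zero])
    have a2 : gy (fun z => ψ z * gy x0 z) z = 0 := gy_zero_of (a := 0) (by
      filter_upwards [ny z hz] with w hw; rw [hw, mul_zero])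
    refine ⟨?_, ?_⟩
    · change gx (fun z => ψ z * gx x0 z) z + gy (fun z => ψ z * gy x0 z) z = _
      rw [a1, a2, add_zero]
    · rw [lap, gx_zero_of (nx z hz), gy_zero_of (ny z hz), add_zero, mul_zero]
  have int1 : Integrable (fun z => fderiv ℝ (fun z => ψ z * gx x0 z) z 1) :=
    (continuous_gx G1).integrable_of_hasCompactSupport (hasCompactSupport_gx cψ.mul_right)
  have int2 : Integrable (fun z => fderiv ℝ (fun z => ψ z * gy x0 z) z Complex.I) :=
    (continuous_gy G2).integrable_of_hasCompactSupport (hasCompactSupport_gy cψ.mul_right)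
  have int12 : Integrable (fun z => fderiv ℝ (fun z => ψ z * gx x0 z) z 1 +
      fderiv ℝ (fun z => ψ z * gy x0 z) z Complex.I) := int1.add int2
  have int3 : Integrable (fun z => ψ z * lap x0 z) := int_mul_lap hC.isClosed hx0 hψD.q
  -- Green
  have green : ∫ z in Cᶜ, dot x0 ψ z = - ∫ z, ψ z * lap x0 z := by
    have e1 : ∫ z in Cᶜ, dot x0 ψ z =
        ∫ z in Cᶜ, ((fderiv ℝ (fun z => ψ z * gx x0 z) z 1 +
          fderiv ℝ (fun z => ψ z * gy x0 z) z Complex.I) - ψ z * lap x0 z) := by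
      refine setIntegral_congr_fun hO.measurableSet fun z hz => ?_
      simp only [pr z hz]; ring
    rw [e1, setIntegral_eq_integral_of_forall_compl_eq_zero (fun z hz => by
      obtain ⟨a, b⟩ := pr0 z (not_not.1 hz)
      rw [a, b, sub_zero]), integral_sub int12 int3, integral_add int1 int2, I1, I2]
    ring
  have intA : IntegrableOn (dot x0 ψ) Cᶜ := by
    have : IntegrableOn (fun z => ((fderiv ℝ (fun z => ψ z * gx x0 z) z 1 +
          fderiv ℝ (fun z => ψ z * gy x0 z) z Complex.I) - ψ z * lap x0 z)) Cᶜ :=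
      (int12.sub int3).integrableOn
    refine this.congr_fun (fun z hz => ?_) hO.measurableSet
    simp only [pr z hz]; ring
  have intB : IntegrableOn (dot φ ψ) Cᶜ := Bd_775.integrableOn_dot hφ.q hψD.q
  have fin : ∫ z in Cᶜ, (fderiv ℝ (fun z => (p z).re) z 1 *
      fderiv ℝ (fun z => χ z * (p z).re) z 1 +
      fderiv ℝ (fun z => (p z).re) z Complex.I *
        fderiv ℝ (fun z => χ z * (p z).re) z Complex.I) =
      ∫ z in Cᶜ, (dot x0 ψ z + dot φ ψ z) := by
    refine setIntegral_congr_fun hO.measurableSet fun z hz => ?_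
    have e1 : (fun z => (p z).re) =ᶠ[𝓝 z] fun z => x0 z + φ z := by
      filter_upwards [hO.mem_nhds hz] with w hw using hre w hw
    have e2 : (fun z => χ z * (p z).re) =ᶠ[𝓝 z] ψ := by
      filter_upwards [hO.mem_nhds hz] with w hw
      rw [hre w hw]
    have e3 : ∀ v : ℂ, fderiv ℝ (fun z => x0 z + φ z) z v = fderiv ℝ x0 z v + fderiv ℝ φ z v := by
      intro v
      rw [fderiv_fun_add ((hx0'.differentiable (by norm_num)) z) (dφ z hz)]; rfl
    simp only [e1.fderiv_eq, e2.fderiv_eq, e3, Bd_775.dot, Bd_775.gx, Bd_775.gy]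
    ring
  rw [fin, integral_add intA intB, green]
  have key' : ∫ z in Cᶜ, dot φ ψ z = ∫ z, ψ z * lap x0 z := key
  rw [key']; ring

/-- **NULLP, literally** -/
theorem nullp : NULLP := by
  intro C x0 b φ p hk hc hinj
  obtain ⟨c, hinf⟩ := hc.inf
  refine null_of hk.td.cpt hk.td.td hk.hx0 hk.memφ (mem_insert φ (range b)) hk.iso
    (fun ψ hψ hI => hk.el ψ (Or.inl hψ) hI) hc.hol hc.re hinf hinj

end Crest.Agent.R105.Pic_442
end

-- ▼ part R105/Pln1_868
section

/-!
# Row 105, PLANP: tools (locally Lipschitz functions on an open set, FTC on lines, trapezoids)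
-/

namespace Crest.Agent.R105.Pln_868

open Set Filter MeasureTheory Topology
open CF_363
open scoped NNReal ENNReal

noncomputable section

/-- Rademacher on an open set of the plane -/
theorem ae_diff {V : Set (ℝ × ℝ)} (hV : IsOpen V) {u : ℝ × ℝ → ℝ}
    (hu : LocallyLipschitzOn V u) : ∀ᵐ z : ℝ × ℝ, z ∈ V → DifferentiableAt ℝ u z := by
  have h1 : ∀ z : V, ∃ r > 0, Metric.ball (z : ℝ × ℝ) r ⊆ V ∧
      ∃ K, LipschitzOnWith K u (Metric.ball (z : ℝ × ℝ) r) := by
    rintro ⟨z, hz⟩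
    obtain ⟨K, t, ht, hK⟩ := hu hz
    rw [mem_nhdsWithin_iff_exists_mem_nhds_inter] at ht
    obtain ⟨s, hs, hst⟩ := ht
    obtain ⟨r, hr, hb⟩ := Metric.mem_nhds_iff.1 (inter_mem hs (hV.mem_nhds hz))
    exact ⟨r, hr, fun x hx => (hb hx).2, K, hK.mono fun x hx => hst (hb hx)⟩
  choose r hr hrV K hK using h1
  obtain ⟨T, hT, hTV⟩ := TopologicalSpace.isOpen_iUnion_countable
    (fun z : V => Metric.ball (z : ℝ × ℝ) (r z)) (fun _ => Metric.isOpen_ball)
  have h2 : ∀ z ∈ T, ∀ᵐ x : ℝ × ℝ, x ∈ Metric.ball (z : ℝ × ℝ) (r z) → DifferentiableAt ℝ u x := by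
    intro z _
    filter_upwards [(hK z).ae_differentiableWithinAt_of_mem (μ := volume)] with x hx hxb
    exact (hx hxb).differentiableAt (Metric.isOpen_ball.mem_nhds hxb)
  have h3 := (ae_ball_iff hT).2 h2
  filter_upwards [h3] with x hx hxV
  have : x ∈ ⋃ z : V, Metric.ball (z : ℝ × ℝ) (r z) :=
    mem_iUnion.2 ⟨⟨x, hxV⟩, Metric.mem_ball_self (hr _)⟩
  rw [← hTV] at this
  simp only [mem_iUnion] at this
  obtain ⟨z, hzT, hxz⟩ := this
  exact hx z hzT hxz

/-- a function on an interval, locally Lipschitz at each of its points -/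
theorem ftc_loc {α β : ℝ → ℝ} {s t : ℝ} (hα : ∀ y ∈ uIcc s t, ∃ K : ℝ≥0, ∃ u ∈ 𝓝 y, LipschitzOnWith K α u)
    (hd : ∀ᵐ y, y ∈ uIcc s t → HasDerivAt α (β y) y) :
    α t - α s = ∫ y in s..t, β y := by
  have h1 : LocallyLipschitzOn (uIcc s t) α := by
    intro y hy
    obtain ⟨K, u, hu, hK⟩ := hα y hy
    exact ⟨K, u, mem_nhdsWithin_of_mem_nhds hu, hK⟩
  obtain ⟨K, hK⟩ := h1.exists_lipschitzOnWith_of_compact isCompact_uIcc
  exact ftc_lip hK hd

theorem ll_line_x {V : Set (ℝ × ℝ)} (hV : IsOpen V) {u : ℝ × ℝ → ℝ} (hu : LocallyLipschitzOn V u)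
    {x y : ℝ} (h : (x, y) ∈ V) : ∃ K : ℝ≥0, ∃ t ∈ 𝓝 x, LipschitzOnWith K (fun x => u (x, y)) t := by
  obtain ⟨K, t, ht, hK⟩ := hu h
  rw [hV.nhdsWithin_eq h] at ht
  have hc : Continuous fun x : ℝ => (x, y) := by fun_prop
  refine ⟨K, (fun x : ℝ => (x, y)) ⁻¹' t, hc.continuousAt.preimage_mem_nhds ht, ?_⟩
  refine LipschitzOnWith.of_dist_le_mul fun a ha b hb => ?_
  have := hK.dist_le_mul _ ha _ hb
  simpa [Prod.dist_eq] using this


/-- FTC on horizontal segments of `V`, for a.e. line -/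
theorem ftc_x {V : Set (ℝ × ℝ)} (hV : IsOpen V) {u : ℝ × ℝ → ℝ} (hu : LocallyLipschitzOn V u) :
    ∀ᵐ y : ℝ, ∀ a b : ℝ, (∀ x ∈ uIcc a b, (x, y) ∈ V) →
      u (b, y) - u (a, y) = ∫ x in a..b, gx u (x, y) := by
  filter_upwards [ae_swap (ae_diff hV hu)] with y hy a b hab
  refine ftc_loc (α := fun x => u (x, y)) (fun x hx => ll_line_x hV hu (hab x hx)) ?_
  filter_upwards [hy] with x hx hx'
  exact gx_eq_deriv (hx (hab x hx'))


/-! ### algebra of locally Lipschitz functions -/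

section LL

variable {X : Type*} [PseudoMetricSpace X] {S : Set X} {f g : X → ℝ}


theorem ll_of_lip {L : ℝ≥0} (h : LipschitzWith L f) : LocallyLipschitzOn S f := fun _ _ =>
  ⟨L, univ, univ_mem, h.lipschitzOnWith⟩



theorem ll_mul (hf : LocallyLipschitzOn S f) (hg : LocallyLipschitzOn S g) :
    LocallyLipschitzOn S (fun x => f x * g x) := by
  intro x hx
  obtain ⟨K, t, ht, hK⟩ := hf hx
  obtain ⟨L, u, hu, hL⟩ := hg hx
  -- bounded near `x`
  have hfc : ContinuousWithinAt f S x := hf.continuousOn x hx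
  have hgc : ContinuousWithinAt g S x := hg.continuousOn x hx
  have hfb : ∀ᶠ y in 𝓝[S] x, |f y| ≤ |f x| + 1 := by
    have := (hfc.abs).eventually (gt_mem_nhds (show |f x| < |f x| + 1 by linarith))
    exact this.mono fun y hy => hy.le
  have hgb : ∀ᶠ y in 𝓝[S] x, |g y| ≤ |g x| + 1 := by
    have := (hgc.abs).eventually (gt_mem_nhds (show |g x| < |g x| + 1 by linarith))
    exact this.mono fun y hy => hy.le
  refine ⟨Real.toNNReal ((|f x| + 1) * L + (|g x| + 1) * K), t ∩ u ∩ {y | |f y| ≤ |f x| + 1 ∧ |g y| ≤ |g x| + 1},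
    inter_mem (inter_mem ht hu) (hfb.and hgb), ?_⟩
  refine LipschitzOnWith.of_dist_le_mul fun a ha b hb => ?_
  have h1 := hK.dist_le_mul _ ha.1.1 _ hb.1.1
  have h2 := hL.dist_le_mul _ ha.1.2 _ hb.1.2
  rw [Real.dist_eq] at h1 h2 ⊢
  have e : f a * g a - f b * g b = f a * (g a - g b) + g b * (f a - f b) := by ring
  have h3 : |f a * (g a - g b)| ≤ (|f x| + 1) * (L * dist a b) := by
    rw [abs_mul]; exact mul_le_mul ha.2.1 h2 (abs_nonneg _) (by positivity)
  have h4 : |g b * (f a - f b)| ≤ (|g x| + 1) * (K * dist a b) := by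
    rw [abs_mul]; exact mul_le_mul hb.2.2 h1 (abs_nonneg _) (by positivity)
  rw [e, Real.coe_toNNReal _ (by positivity)]
  calc _ ≤ |f a * (g a - g b)| + |g b * (f a - f b)| := abs_add_le _ _
    _ ≤ _ := by linarith

end LL

/-! ### trapezoids -/

/-- the trapezoid `1` on `[s + δ, t]`, `0` off `[s, t + δ]` -/
def trap (δ s t x : ℝ) : ℝ := (max 0 (min δ (x - s)) - max 0 (min δ (x - t))) / δ

theorem lip_ramp (δ s : ℝ) : LipschitzWith 1 (fun x : ℝ => max 0 (min δ (x - s))) := by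
  have h1 : LipschitzWith 1 (fun x : ℝ => x - s) := by
    refine LipschitzWith.of_dist_le_mul fun x y => ?_
    simp [Real.dist_eq]
  have h2 : LipschitzWith 1 (fun x : ℝ => min δ (x - s)) := by
    simpa using (LipschitzWith.const_min h1 δ)
  simpa using (LipschitzWith.const_max h2 0)

theorem lip_trap {δ : ℝ} (s t : ℝ) : ∃ L : ℝ≥0, LipschitzWith L (trap δ s t) := by
  have h1 := (lip_ramp δ s).sub (lip_ramp δ t)
  refine ⟨Real.toNNReal (2 * |δ⁻¹|), LipschitzWith.of_dist_le_mul fun x y => ?_⟩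
  have h2 := h1.dist_le_mul x y
  rw [Real.dist_eq] at h2 ⊢
  rw [Real.coe_toNNReal _ (by positivity)]
  have e : trap δ s t x - trap δ s t y = δ⁻¹ * (((max 0 (min δ (x - s)) - max 0 (min δ (x - t)))) -
      ((max 0 (min δ (y - s)) - max 0 (min δ (y - t))))) := by
    unfold trap; ring
  rw [e, abs_mul]
  have h3 : |((max 0 (min δ (x - s)) - max 0 (min δ (x - t)))) -
      ((max 0 (min δ (y - s)) - max 0 (min δ (y - t))))| ≤ 2 * dist x y := by
    convert h2 using 2
    norm_num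
  nlinarith [abs_nonneg δ⁻¹]

theorem ramp_deriv {δ : ℝ} (hδ : 0 < δ) (s x : ℝ) (h1 : x ≠ s) (h2 : x ≠ s + δ) :
    HasDerivAt (fun x : ℝ => max 0 (min δ (x - s))) ((Ioc s (s + δ)).indicator 1 x) x := by
  rcases lt_or_gt_of_ne h1 with h | h
  · have : (fun x : ℝ => max 0 (min δ (x - s))) =ᶠ[𝓝 x] fun _ => 0 := by
      filter_upwards [gt_mem_nhds h] with y hy
      exact max_eq_left ((min_le_right _ _).trans (by linarith))
    rw [indicator_of_notMem (fun hx => absurd hx.1 (by linarith))]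
    exact (hasDerivAt_const x (0 : ℝ)).congr_of_eventuallyEq this
  · rcases lt_or_gt_of_ne h2 with h' | h'
    · have : (fun x : ℝ => max 0 (min δ (x - s))) =ᶠ[𝓝 x] fun x => x - s := by
        filter_upwards [gt_mem_nhds h', lt_mem_nhds h] with y hy hy'
        rw [min_eq_right (by linarith), max_eq_right (by linarith)]
      rw [indicator_of_mem (show x ∈ Ioc s (s + δ) from ⟨h, h'.le⟩), Pi.one_apply]
      exact ((hasDerivAt_id x).sub_const s).congr_of_eventuallyEq this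
    · have : (fun x : ℝ => max 0 (min δ (x - s))) =ᶠ[𝓝 x] fun _ => δ := by
        filter_upwards [lt_mem_nhds h'] with y hy
        rw [min_eq_left (by linarith), max_eq_right hδ.le]
      rw [indicator_of_notMem (fun hx => absurd hx.2 (by linarith))]
      exact (hasDerivAt_const x δ).congr_of_eventuallyEq this

theorem trap_deriv {δ : ℝ} (hδ : 0 < δ) {s t x : ℝ} (h1 : x ≠ s) (h2 : x ≠ s + δ) (h3 : x ≠ t)
    (h4 : x ≠ t + δ) : HasDerivAt (trap δ s t)
      (((Ioc s (s + δ)).indicator 1 x - (Ioc t (t + δ)).indicator 1 x) / δ) x :=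
  ((ramp_deriv hδ s x h1 h2).sub (ramp_deriv hδ t x h3 h4)).div_const δ

theorem trap_eq_zero_left {δ s t x : ℝ} (hst : s ≤ t) (hx : x ≤ s) : trap δ s t x = 0 := by
  unfold trap
  rw [max_eq_left ((min_le_right _ _).trans (by linarith)),
    max_eq_left ((min_le_right _ _).trans (by linarith))]
  simp

theorem trap_eq_zero_right {δ s t x : ℝ} (hst : s ≤ t) (hx : t + δ ≤ x) : trap δ s t x = 0 := by
  unfold trap
  rw [min_eq_left (by linarith), min_eq_left (by linarith)]
  simp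

theorem trap_eq_one {δ s t x : ℝ} (hδ : 0 < δ) (hx : s + δ ≤ x) (hx' : x ≤ t) :
    trap δ s t x = 1 := by
  unfold trap
  rw [min_eq_left (by linarith), max_eq_left (a := (0 : ℝ)) ((min_le_right _ _).trans (by linarith)),
    max_eq_right hδ.le]
  field_simp
  simp

theorem abs_trap_le {δ s t x : ℝ} (hδ : 0 < δ) : |trap δ s t x| ≤ 1 := by
  unfold trap
  rw [abs_div, abs_of_pos hδ, div_le_one hδ]
  have a1 : 0 ≤ max 0 (min δ (x - s)) := le_max_left _ _
  have a2 : max 0 (min δ (x - s)) ≤ δ := max_le hδ.le (min_le_left _ _)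
  have a3 : 0 ≤ max 0 (min δ (x - t)) := le_max_left _ _
  have a4 : max 0 (min δ (x - t)) ≤ δ := max_le hδ.le (min_le_left _ _)
  rw [abs_le]; constructor <;> linarith

/-- averages over short intervals -/
theorem tendsto_avg {m : ℝ → ℝ} (hm : Continuous m) (s : ℝ) {δ : ℕ → ℝ} (hδ : ∀ n, 0 < δ n)
    (hlim : Tendsto δ atTop (𝓝 0)) :
    Tendsto (fun n => (∫ x in s..(s + δ n), m x) / δ n) atTop (𝓝 (m s)) := by
  have h1 : HasDerivAt (fun u => ∫ x in s..u, m x) (m s) s :=
    intervalIntegral.integral_hasDerivAt_right (hm.intervalIntegrable _ _)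
      (hm.stronglyMeasurableAtFilter _ _) hm.continuousAt
  have h2 := h1.tendsto_slope_zero
  have h3 : Tendsto δ atTop (𝓝[≠] 0) :=
    tendsto_nhdsWithin_iff.2 ⟨hlim, Eventually.of_forall fun n => (hδ n).ne'⟩
  have h4 := h2.comp h3
  refine h4.congr fun n => ?_
  simp only [Function.comp, intervalIntegral.integral_same, sub_zero, smul_eq_mul]
  rw [div_eq_inv_mul]

end

end Crest.Agent.R105.Pln_868
end

-- ▼ part R105/Pln2_868
section

/-!
# Row 105, PLANP: Stokes on slabs for the picture algebra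
-/

namespace Crest.Agent.R105.Pln_868

open Set Filter MeasureTheory Topology
open CF_363
open scoped NNReal ENNReal

noncomputable section

/-- Lipschitz cut-off `= 1` near a compact set, supported in an open set -/
theorem exists_cutoff {K O : Set (ℝ × ℝ)} (hK : IsCompact K) (hO : IsOpen O) (hKO : K ⊆ O) :
    ∃ κ : ℝ × ℝ → ℝ, (∃ L, LipschitzWith L κ) ∧ HasCompactSupport κ ∧ tsupport κ ⊆ O ∧
      (∀ᶠ p in 𝓝ˢ K, κ p = 1) ∧ ∀ p, 0 ≤ κ p ∧ κ p ≤ 1 := by
  rcases K.eq_empty_or_nonempty with rfl | hne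
  · refine ⟨fun _ => 0, ⟨0, LipschitzWith.const 0⟩, HasCompactSupport.zero, ?_, ?_, fun p => ⟨le_rfl, zero_le_one⟩⟩
    · have : tsupport (fun _ : ℝ × ℝ => (0 : ℝ)) = ∅ := by
        rw [tsupport_eq_empty_iff]; rfl
      rw [this]; exact empty_subset _
    · rw [nhdsSet_empty]; exact eventually_bot
  obtain ⟨δ, hδ, hδO⟩ := hK.exists_cthickening_subset_open hO hKO
  set κ : ℝ × ℝ → ℝ := fun p => max 0 (min 1 (2 - 3 / δ * Metric.infDist p K)) with hκ
  have hsub : tsupport κ ⊆ Metric.cthickening δ K := by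
    refine closure_minimal ?_ Metric.isClosed_cthickening
    intro p hp
    by_contra hcon
    have h1 : δ < Metric.infDist p K := by
      rw [Metric.mem_cthickening_iff, not_le] at hcon
      exact (ENNReal.ofReal_lt_iff_lt_toReal hδ.le (Metric.infEDist_ne_top hne)).1 hcon
    apply hp
    have h2 : 3 ≤ 3 / δ * Metric.infDist p K := by
      rw [div_mul_eq_mul_div, le_div_iff₀ hδ]; nlinarith
    simp only [hκ]
    rw [max_eq_left ((min_le_right _ _).trans (by linarith))]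
  refine ⟨κ, ?_, ?_, hsub.trans hδO, ?_, fun p => ⟨le_max_left _ _, max_le zero_le_one (min_le_left _ _)⟩⟩
  · have h1 : LipschitzWith (Real.toNNReal (3 / δ) * 1) (fun p : ℝ × ℝ => 3 / δ * Metric.infDist p K) := by
      refine LipschitzWith.of_dist_le_mul fun p q => ?_
      have := (Metric.lipschitz_infDist_pt K).dist_le_mul p q
      rw [Real.dist_eq] at this ⊢
      rw [← mul_sub, abs_mul, NNReal.coe_mul, Real.coe_toNNReal _ (by positivity),
        abs_of_pos (show (0 : ℝ) < 3 / δ by positivity), mul_assoc]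
      exact mul_le_mul_of_nonneg_left this (by positivity)
    have h2 : LipschitzWith (0 + Real.toNNReal (3 / δ) * 1)
        (fun p : ℝ × ℝ => 2 - 3 / δ * Metric.infDist p K) := (LipschitzWith.const (2 : ℝ)).sub h1
    have h3 := (h2.const_min 1).const_max 0
    exact ⟨_, h3⟩
  · exact HasCompactSupport.intro' hK.cthickening Metric.isClosed_cthickening fun p hp =>
      image_eq_zero_of_notMem_tsupport fun h => hp (hsub h)
  · filter_upwards [Metric.thickening_mem_nhdsSet K (show 0 < δ / 3 by positivity)] with p hp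
    obtain ⟨z, hz, hpz⟩ := Metric.mem_thickening_iff.1 hp
    have h1 : Metric.infDist p K < δ / 3 := (Metric.infDist_le_dist_of_mem hz).trans_lt hpz
    have h2 : 3 / δ * Metric.infDist p K ≤ 1 := by
      rw [div_mul_eq_mul_div, div_le_iff₀ hδ]; linarith
    simp only [hκ]
    rw [min_eq_left (by linarith), max_eq_right zero_le_one]

variable {E : Set (ℝ × ℝ)} {A : (ℝ × ℝ → ℝ) → Prop} {a : ℝ × ℝ → ℝ}

namespace PicAlg

theorem vol_eq (h : PicAlg E A) : (volume : Measure (ℝ × ℝ)).restrict Eᶜ = volume :=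
  Measure.restrict_eq_self_of_ae_mem (by
    have := h.null
    rw [measure_eq_zero_iff_ae_notMem] at this
    exact this)

theorem ae_notMem (h : PicAlg E A) : ∀ᵐ p : ℝ × ℝ, p ∉ E :=
  measure_eq_zero_iff_ae_notMem.1 h.null

theorem isOpen (h : PicAlg E A) : IsOpen Eᶜ := h.cpt.isClosed.isOpen_compl

theorem aeDiff (h : PicAlg E A) (ha : A a) : ∀ᵐ p : ℝ × ℝ, DifferentiableAt ℝ a p := by
  filter_upwards [ae_diff h.isOpen (h.loc a ha), h.ae_notMem] with p h1 h2
  exact h1 h2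

theorem intOn_gx (h : PicAlg E A) (ha : A a) {K : Set (ℝ × ℝ)} (hK : volume K ≠ ∞) :
    IntegrableOn (gx a) K := by
  have h1 := h.fin a ha
  rw [IntegrableOn, h.vol_eq] at h1
  have h2 : IntegrableOn (fun p => 1 + g2 a p) K := (integrableOn_const hK).add h1.integrableOn
  refine h2.mono' (measurable_gx a).aestronglyMeasurable (Eventually.of_forall fun p => ?_)
  rw [Real.norm_eq_abs]
  unfold g2
  nlinarith [sq_nonneg (|gx a p| - 1), sq_abs (gx a p), sq_nonneg (gy a p), abs_nonneg (gx a p)]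

theorem intOn_gy (h : PicAlg E A) (ha : A a) {K : Set (ℝ × ℝ)} (hK : volume K ≠ ∞) :
    IntegrableOn (gy a) K := by
  have h1 := h.fin a ha
  rw [IntegrableOn, h.vol_eq] at h1
  have h2 : IntegrableOn (fun p => 1 + g2 a p) K := (integrableOn_const hK).add h1.integrableOn
  refine h2.mono' (measurable_gy a).aestronglyMeasurable (Eventually.of_forall fun p => ?_)
  rw [Real.norm_eq_abs]
  unfold g2
  nlinarith [sq_nonneg (|gy a p| - 1), sq_abs (gy a p), sq_nonneg (gx a p), abs_nonneg (gy a p)]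

/-- a cut function equal to `1` on a bounded set -/
theorem exists_one (h : PicAlg E A) {K : Set (ℝ × ℝ)} (hK : IsCompact K) :
    ∃ κ, Cut E κ ∧ ∀ p ∈ K, κ p = 1 := by
  obtain ⟨κ, h1, h2, -, h3, -⟩ := exists_cutoff (h.cpt.union hK) isOpen_univ (subset_univ _)
  have h4 := h3.self_of_nhdsSet
  refine ⟨κ, ⟨h1, h2, fun p hp => ?_⟩, fun p hp => h4 p (Or.inr hp)⟩
  rw [eventually_nhdsSet_iff_forall] at h3
  filter_upwards [h3 p (Or.inl hp)] with q hq
  rw [hq, h4 p (Or.inl hp)]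

theorem hasFDeriv_fst {T : ℝ → ℝ} {T' : ℝ} {p : ℝ × ℝ} (hT : HasDerivAt T T' p.1) :
    DifferentiableAt ℝ (fun q : ℝ × ℝ => T q.1) p ∧ gx (fun q : ℝ × ℝ => T q.1) p = T' := by
  have h1 : HasFDerivAt (fun q : ℝ × ℝ => T q.1) (T' • (ContinuousLinearMap.fst ℝ ℝ ℝ)) p :=
    hT.comp_hasFDerivAt p hasFDerivAt_fst
  refine ⟨h1.differentiableAt, ?_⟩
  unfold gx
  rw [h1.fderiv]
  simp

theorem ae_fst {P : ℝ → Prop} (h : ∀ᵐ x, P x) : ∀ᵐ p : ℝ × ℝ, P p.1 := by
  have := (Measure.quasiMeasurePreserving_fst (μ := (volume : Measure ℝ))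
    (ν := (volume : Measure ℝ))).ae h
  rwa [← Measure.volume_eq_prod] at this

theorem ae_ne_fst (s : ℝ) : ∀ᵐ p : ℝ × ℝ, p.1 ≠ s :=
  ae_fst (by
    have : (volume : Measure ℝ) {s} = 0 := Real.volume_singleton
    exact measure_eq_zero_iff_ae_notMem.1 this)

theorem gx_zero_of_notMem {p : ℝ × ℝ} (hp : p ∉ tsupport a) :
    gx a p = 0 := by
  have : a =ᶠ[𝓝 p] fun _ => 0 := notMem_tsupport_iff_eventuallyEq.1 hp
  rw [gx_congr this, gx_const]

/-- Fubini with a weight in `x` -/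
theorem fub {T : ℝ → ℝ} {g : ℝ × ℝ → ℝ} {c0 c1 : ℝ} (hcc : c0 ≤ c1)
    (hg : ∀ p : ℝ × ℝ, ¬ (c0 < p.2 ∧ p.2 < c1) → g p = 0)
    (hi : Integrable (fun p : ℝ × ℝ => T p.1 * g p)) :
    ∫ p : ℝ × ℝ, T p.1 * g p = ∫ x, T x * ∫ y in c0..c1, g (x, y) := by
  rw [Measure.volume_eq_prod] at hi ⊢
  rw [integral_prod _ hi]
  refine integral_congr_ae (Eventually.of_forall fun x => ?_)
  simp only
  rw [integral_const_mul, intervalIntegral.integral_of_le hcc,
    setIntegral_eq_integral_of_forall_compl_eq_zero]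
  intro y hy
  exact hg (x, y) fun h => hy ⟨h.1, h.2.le⟩

theorem int_ind {m : ℝ → ℝ} {s δ : ℝ} (hδ : 0 ≤ δ) :
    ∫ x, (Ioc s (s + δ)).indicator (fun _ => (1 : ℝ)) x * m x = ∫ x in s..(s + δ), m x := by
  rw [intervalIntegral.integral_of_le (by linarith), ← integral_indicator measurableSet_Ioc]
  refine integral_congr_ae (Eventually.of_forall fun x => ?_)
  by_cases hx : x ∈ Ioc s (s + δ) <;> simp [hx]

/-- Stokes on slabs, compactly supported elements -/
theorem stokes_cpt (h : PicAlg E A) (ha : A a) (hac : HasCompactSupport a) {c0 c1 : ℝ}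
    (hcc : c0 ≤ c1) (hs : tsupport a ⊆ {p | c0 < p.2 ∧ p.2 < c1}) {s t : ℝ} (hst : s ≤ t) :
    (∫ y in c0..c1, a (t, y)) - (∫ y in c0..c1, a (s, y)) =
      ∫ x in s..t, ∫ y in c0..c1, gx a (x, y) := by
  have hcont := h.cont a ha
  set m : ℝ → ℝ := fun x => ∫ y in c0..c1, a (x, y) with hm
  have hmc : Continuous m :=
    intervalIntegral.continuous_parametric_intervalIntegral_of_continuous' (f := fun x y => a (x, y))
      (show Continuous (fun p : ℝ × ℝ => a (p.1, p.2)) from hcont) c0 c1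
  have ha0 : ∀ p : ℝ × ℝ, ¬ (c0 < p.2 ∧ p.2 < c1) → a p = 0 := fun p hp =>
    image_eq_zero_of_notMem_tsupport fun h => hp (hs h)
  have hg0 : ∀ p : ℝ × ℝ, ¬ (c0 < p.2 ∧ p.2 < c1) → gx a p = 0 := fun p hp =>
    gx_zero_of_notMem fun h => hp (hs h)
  have hai : Integrable a := hcont.integrable_of_hasCompactSupport hac
  have hgi : Integrable (gx a) := by
    have h1 : IntegrableOn (gx a) (tsupport a) :=
      h.intOn_gx ha (hac.isCompact.measure_lt_top.ne)
    exact h1.integrable_of_forall_notMem_eq_zero fun p hp => gx_zero_of_notMem hp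
  obtain ⟨κ, hκ, hκ1⟩ := h.exists_one hac.isCompact
  set δ : ℕ → ℝ := fun n => 1 / ((n : ℝ) + 1) with hδ
  have hδp : ∀ n, 0 < δ n := fun n => by positivity
  have hδl : Tendsto δ atTop (𝓝 0) := tendsto_one_div_add_atTop_nhds_zero_nat
  -- the identity for each `n`
  have key : ∀ n, ((∫ x in s..(s + δ n), m x) / δ n - (∫ x in t..(t + δ n), m x) / δ n) +
      ∫ p : ℝ × ℝ, trap (δ n) s t p.1 * gx a p = 0 := by
    intro n
    have hA : A (fun p => trap (δ n) s t p.1 * a p) := by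
      have h1 := h.mul _ _ (h.cut κ hκ (trap (δ n) s t) (lip_trap s t)) ha
      refine (congrArg A (funext fun p => ?_)).mp h1
      by_cases hp : a p = 0
      · simp [hp]
      · rw [hκ1 p (subset_tsupport a hp), one_mul]
    have hc : HasCompactSupport (fun p : ℝ × ℝ => trap (δ n) s t p.1 * a p) := hac.mul_left
    have h0 := h.el _ hA hc
    rw [h.vol_eq] at h0
    have h1 : ∀ᵐ p : ℝ × ℝ, gx (fun p => trap (δ n) s t p.1 * a p) p =
        (((Ioc s (s + δ n)).indicator (fun _ => (1 : ℝ)) p.1 * a p) / δ n -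
          ((Ioc t (t + δ n)).indicator (fun _ => (1 : ℝ)) p.1 * a p) / δ n) +
          trap (δ n) s t p.1 * gx a p := by
      filter_upwards [h.aeDiff ha, ae_ne_fst s, ae_ne_fst (s + δ n), ae_ne_fst t,
        ae_ne_fst (t + δ n)] with p h1 h2 h3 h4 h5
      obtain ⟨h6, h7⟩ := hasFDeriv_fst (trap_deriv (hδp n) h2 h3 h4 h5)
      rw [gx_mul h6 h1, h7]
      have e : (1 : ℝ → ℝ) = fun _ => 1 := rfl
      rw [e]
      ring
    have hi1 : Integrable (fun p : ℝ × ℝ => (Ioc s (s + δ n)).indicator (fun _ => (1 : ℝ)) p.1 * a p) := by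
      refine hai.bdd_mul (c := 1) ?_ (Eventually.of_forall fun p => ?_)
      · exact ((measurable_const.indicator measurableSet_Ioc).comp measurable_fst).aestronglyMeasurable
      · by_cases hx : p.1 ∈ Ioc s (s + δ n) <;> simp [hx]
    have hi2 : Integrable (fun p : ℝ × ℝ => (Ioc t (t + δ n)).indicator (fun _ => (1 : ℝ)) p.1 * a p) := by
      refine hai.bdd_mul (c := 1) ?_ (Eventually.of_forall fun p => ?_)
      · exact ((measurable_const.indicator measurableSet_Ioc).comp measurable_fst).aestronglyMeasurable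
      · by_cases hx : p.1 ∈ Ioc t (t + δ n) <;> simp [hx]
    have hi3 : Integrable (fun p : ℝ × ℝ => trap (δ n) s t p.1 * gx a p) := by
      obtain ⟨L, hL⟩ := lip_trap (δ := δ n) s t
      refine hgi.bdd_mul (c := 1) ?_ (Eventually.of_forall fun p => ?_)
      · exact (hL.continuous.comp continuous_fst).aestronglyMeasurable
      · rw [Real.norm_eq_abs]; exact abs_trap_le (hδp n)
    have hi4 : Integrable (fun p : ℝ × ℝ =>
        ((Ioc s (s + δ n)).indicator (fun _ => (1 : ℝ)) p.1 * a p) / δ n -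
          ((Ioc t (t + δ n)).indicator (fun _ => (1 : ℝ)) p.1 * a p) / δ n) :=
      (hi1.div_const _).sub (hi2.div_const _)
    rw [integral_congr_ae h1, integral_add hi4 hi3,
      integral_sub (hi1.div_const _) (hi2.div_const _), integral_div, integral_div,
      fub hcc ha0 hi1, fub hcc ha0 hi2, int_ind (hδp n).le, int_ind (hδp n).le] at h0
    exact h0
  -- limits
  have l1 := (tendsto_avg hmc s hδp hδl).sub (tendsto_avg hmc t hδp hδl)
  have hind : Integrable (fun p : ℝ × ℝ => (Ioc s t).indicator (fun _ => (1 : ℝ)) p.1 * gx a p) := by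
    refine hgi.bdd_mul (c := 1) ?_ (Eventually.of_forall fun p => ?_)
    · exact ((measurable_const.indicator measurableSet_Ioc).comp measurable_fst).aestronglyMeasurable
    · by_cases hx : p.1 ∈ Ioc s t <;> simp [hx]
  have l2 : Tendsto (fun n => ∫ p : ℝ × ℝ, trap (δ n) s t p.1 * gx a p) atTop
      (𝓝 (∫ p : ℝ × ℝ, (Ioc s t).indicator (fun _ => (1 : ℝ)) p.1 * gx a p)) := by
    refine tendsto_integral_of_dominated_convergence (fun p => |gx a p|) (fun n => ?_) hgi.abs
      (fun n => Eventually.of_forall fun p => ?_) (Eventually.of_forall fun p => ?_)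
    · obtain ⟨L, hL⟩ := lip_trap (δ := δ n) s t
      exact (hL.continuous.comp continuous_fst).aestronglyMeasurable.mul hgi.aestronglyMeasurable
    · rw [Real.norm_eq_abs, abs_mul]
      exact mul_le_of_le_one_left (abs_nonneg _) (abs_trap_le (hδp n))
    · refine Tendsto.mul_const _ ?_
      rcases le_or_gt p.1 s with h1 | h1
      · rw [indicator_of_notMem (fun hx => absurd hx.1 (not_lt.2 h1))]
        simp only [trap_eq_zero_left hst h1]
        exact tendsto_const_nhds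
      · rcases le_or_gt p.1 t with h2 | h2
        · rw [indicator_of_mem (show p.1 ∈ Ioc s t from ⟨h1, h2⟩)]
          refine tendsto_const_nhds.congr' ?_
          filter_upwards [hδl.eventually (gt_mem_nhds (show 0 < p.1 - s by linarith))] with n hn
          rw [trap_eq_one (hδp n) (by linarith) h2]
        · rw [indicator_of_notMem (fun hx => absurd hx.2 (not_le.2 h2))]
          refine tendsto_const_nhds.congr' ?_
          filter_upwards [hδl.eventually (gt_mem_nhds (show 0 < p.1 - t by linarith))] with n hn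
          rw [trap_eq_zero_right hst (by linarith)]
  have l3 := l1.add l2
  have l4 := tendsto_nhds_unique (l3.congr key) tendsto_const_nhds
  rw [fub hcc hg0 hind] at l4
  have l5 : ∫ x, (Ioc s t).indicator (fun _ => (1 : ℝ)) x * ∫ y in c0..c1, gx a (x, y) =
      ∫ x in s..t, ∫ y in c0..c1, gx a (x, y) := by
    have := int_ind (m := fun x => ∫ y in c0..c1, gx a (x, y)) (s := s) (δ := t - s) (by linarith)
    rwa [show s + (t - s) = t by ring] at this
  rw [l5] at l4
  linarith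

end PicAlg

end

end Crest.Agent.R105.Pln_868
end

-- ▼ part R105/Pln3_868
section

/-!
# Row 105, PLANP: absolute continuity on horizontal lines for the picture algebra
-/

namespace Crest.Agent.R105.Pln_868

open Set Filter MeasureTheory Topology
open CF_363
open scoped NNReal ENNReal

noncomputable section

variable {E : Set (ℝ × ℝ)} {A : (ℝ × ℝ → ℝ) → Prop} {a : ℝ × ℝ → ℝ}

namespace PicAlg

/-! ### separation of components -/

theorem cutA (h : PicAlg E A) {κ : ℝ × ℝ → ℝ} (hκ : Cut E κ) : A κ := by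
  have := h.cut κ hκ (fun _ => 1) ⟨0, LipschitzWith.const 1⟩
  simpa using this

/-- a cut function from a splitting of `E` -/
theorem exists_split {K1 K2 : Set (ℝ × ℝ)} (h1 : IsCompact K1) (h2 : IsClosed K2)
    (hd : Disjoint K1 K2) (hE : E ⊆ K1 ∪ K2) :
    ∃ κ, Cut E κ ∧ (∀ p ∈ K1, κ p = 1) ∧ ∀ p ∈ K2, κ p = 0 := by
  obtain ⟨κ, l, c, t, o, -⟩ := exists_cutoff h1 h2.isOpen_compl
    (fun p hp hp2 => Set.disjoint_left.1 hd hp hp2)
  have o' := o.self_of_nhdsSet
  have hz : ∀ p ∈ K2, ∀ᶠ q in 𝓝 p, κ q = 0 := fun p hp => by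
    have : p ∉ tsupport κ := fun hp' => t hp' hp
    exact notMem_tsupport_iff_eventuallyEq.1 this
  rw [eventually_nhdsSet_iff_forall] at o
  refine ⟨κ, ⟨l, c, fun p hp => ?_⟩, fun p hp => o' p hp, fun p hp => (hz p hp).self_of_nhds⟩
  rcases hE hp with hp | hp
  · filter_upwards [o p hp] with q hq
    rw [hq, o' p hp]
  · filter_upwards [hz p hp] with q hq
    rw [hq, (hz p hp).self_of_nhds]

/-- points of `E` in different components are separated by a splitting -/
theorem exists_clopen_split (hE : IsCompact E) {p q : ℝ × ℝ} (hp : p ∈ E) (hq : q ∈ E)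
    (hpq : q ∉ connectedComponentIn E p) :
    ∃ K1 K2 : Set (ℝ × ℝ), IsCompact K1 ∧ IsCompact K2 ∧ Disjoint K1 K2 ∧ E = K1 ∪ K2 ∧
      p ∈ K1 ∧ q ∈ K2 := by
  have : CompactSpace E := isCompact_iff_compactSpace.1 hE
  rw [connectedComponentIn_eq_image hp] at hpq
  have h1 : (⟨q, hq⟩ : E) ∉ connectedComponent (⟨p, hp⟩ : E) := fun h => hpq ⟨_, h, rfl⟩
  rw [connectedComponent_eq_iInter_isClopen] at h1
  simp only [mem_iInter, Subtype.forall, not_forall] at h1
  obtain ⟨s, ⟨hs, hps⟩, hqs⟩ := h1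
  refine ⟨Subtype.val '' s, Subtype.val '' sᶜ, hs.isClosed.isCompact.image continuous_subtype_val,
    hs.compl.isClosed.isCompact.image continuous_subtype_val, ?_, ?_, ⟨_, hps, rfl⟩, ⟨_, hqs, rfl⟩⟩
  · rw [Set.disjoint_image_iff Subtype.val_injective]
    exact disjoint_compl_right
  · rw [← image_union, union_compl_self, image_univ, Subtype.range_coe]

theorem sepc (h : PicAlg E A) {p q : ℝ × ℝ} (hne : p ≠ q) (hall : ∀ b, A b → b p = b q) :
    p ∈ E ∧ q ∈ connectedComponentIn E p := by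
  have key : ∀ p q : ℝ × ℝ, p ≠ q → (∀ b, A b → b p = b q) → p ∈ E := by
    intro p q hne hall
    by_contra hp
    obtain ⟨κ, hκ, h1, h2⟩ := exists_split (E := E) (K1 := {p}) (K2 := E ∪ {q}) isCompact_singleton
      (h.cpt.isClosed.union isClosed_singleton) (by
        rw [Set.disjoint_singleton_left]
        rintro (h1 | h1)
        · exact hp h1
        · exact hne h1) (subset_union_left.trans subset_union_right)
    have := hall κ (h.cutA hκ)
    rw [h1 p rfl, h2 q (Or.inr rfl)] at this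
    exact one_ne_zero this
  have hp := key p q hne hall
  have hq := key q p hne.symm fun b hb => (hall b hb).symm
  refine ⟨hp, ?_⟩
  by_contra hcon
  obtain ⟨K1, K2, k1, k2, kd, kE, kp, kq⟩ := exists_clopen_split h.cpt hp hq hcon
  obtain ⟨κ, hκ, h1, h2⟩ := exists_split k1 k2.isClosed kd kE.le
  have := hall κ (h.cutA hκ)
  rw [h1 p kp, h2 q kq] at this
  exact one_ne_zero this

/-- components of `E` are convex -/
theorem seg_cc (h : PicAlg E A) {p q r : ℝ × ℝ} (hp : p ∈ E) (hq : q ∈ connectedComponentIn E p)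
    (hr : r ∈ segment ℝ p q) : r ∈ connectedComponentIn E p := by
  have hqx := h.vert p hp q hq
  have hr1 : r.1 = p.1 := by
    obtain ⟨u, v, hu, hv, huv, rfl⟩ := hr
    simp only [Prod.fst_add, Prod.smul_fst, smul_eq_mul, hqx]
    rw [← add_mul, huv, one_mul]
  have hr2 : r.2 ∈ segment ℝ p.2 q.2 := by
    obtain ⟨u, v, hu, hv, huv, rfl⟩ := hr
    exact ⟨u, v, hu, hv, huv, by simp⟩
  have hpre : IsPreconnected (Prod.snd '' connectedComponentIn E p) :=
    isPreconnected_connectedComponentIn.image _ continuous_snd.continuousOn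
  have h3 : r.2 ∈ Prod.snd '' connectedComponentIn E p := by
    rw [segment_eq_uIcc] at hr2
    exact hpre.ordConnected.uIcc_subset ⟨p, mem_connectedComponentIn hp, rfl⟩ ⟨q, hq, rfl⟩ hr2
  obtain ⟨s, hs, hs2⟩ := h3
  have : s = r := Prod.ext ((h.vert p hp s hs).trans hr1.symm) hs2
  rwa [← this]

theorem agree_seg (h : PicAlg E A) {p q r : ℝ × ℝ} (hall : ∀ b, A b → b p = b q)
    (hr : r ∈ segment ℝ p q) : ∀ b, A b → b r = b p := by
  intro b hb
  rcases eq_or_ne p q with rfl | hne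
  · rw [segment_same] at hr
    rw [mem_singleton_iff.1 hr]
  · obtain ⟨hp, hq⟩ := h.sepc hne hall
    exact h.cst b hb p hp r (h.seg_cc hp hq hr)

/-! ### general Stokes -/

theorem ii_eq {g : ℝ × ℝ → ℝ} {s t c0 c1 : ℝ} (hst : s ≤ t) (hcc : c0 ≤ c1)
    (hg : IntegrableOn g (Ioc s t ×ˢ Ioc c0 c1)) :
    ∫ x in s..t, ∫ y in c0..c1, g (x, y) = ∫ p in Ioc s t ×ˢ Ioc c0 c1, g p := by
  rw [Measure.volume_eq_prod] at hg ⊢
  rw [setIntegral_prod _ hg, intervalIntegral.integral_of_le hst]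
  simp only [intervalIntegral.integral_of_le hcc]

theorem ii_eq' {g : ℝ × ℝ → ℝ} {s t c0 c1 : ℝ} (hst : s ≤ t) (hcc : c0 ≤ c1)
    (hg : IntegrableOn g (Ioc s t ×ˢ Ioc c0 c1)) :
    ∫ y in c0..c1, ∫ x in s..t, g (x, y) = ∫ p in Ioc s t ×ˢ Ioc c0 c1, g p := by
  rw [Measure.volume_eq_prod, ← setIntegral_prod_swap, setIntegral_prod,
    intervalIntegral.integral_of_le hcc]
  · simp only [intervalIntegral.integral_of_le hst, Prod.swap]
  · rw [Measure.volume_eq_prod] at hg
    exact hg.swap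

theorem vol_rect_ne (s t c0 c1 : ℝ) : (volume : Measure (ℝ × ℝ)) (Icc s t ×ˢ Icc c0 c1) ≠ ∞ :=
  (isCompact_Icc.prod isCompact_Icc).measure_lt_top.ne

theorem stokes (h : PicAlg E A) (ha : A a) {c0 c1 : ℝ} (hcc : c0 ≤ c1)
    (hE : E ⊆ {p | c0 < p.2 ∧ p.2 < c1}) {s t : ℝ} (hst : s ≤ t) :
    (∫ y in c0..c1, a (t, y)) - (∫ y in c0..c1, a (s, y)) =
      ∫ x in s..t, ∫ y in c0..c1, gx a (x, y) := by
  have hcont := h.cont a ha
  have hO : IsOpen {p : ℝ × ℝ | c0 < p.2 ∧ p.2 < c1} :=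
    (isOpen_lt continuous_const continuous_snd).inter (isOpen_lt continuous_snd continuous_const)
  obtain ⟨κ, l, c, tk, o, -⟩ := exists_cutoff h.cpt hO hE
  have o' := o.self_of_nhdsSet
  rw [eventually_nhdsSet_iff_forall] at o
  have hκ : Cut E κ := ⟨l, c, fun p hp => by
    filter_upwards [o p hp] with q hq
    rw [hq, o' p hp]⟩
  set b1 : ℝ × ℝ → ℝ := fun p => κ p * a p with hb1
  have hA1 : A b1 := h.mul _ _ (h.cutA hκ) ha
  have hc1 : HasCompactSupport b1 := c.mul_right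
  have ht1 : tsupport b1 ⊆ {p | c0 < p.2 ∧ p.2 < c1} :=
    (tsupport_mul_subset_left).trans tk
  have S1 := h.stokes_cpt hA1 hc1 hcc ht1 hst
  set b2 : ℝ × ℝ → ℝ := fun p => (1 - κ p) * a p with hb2
  obtain ⟨L, hL⟩ := l
  have hκc : Continuous κ := hL.continuous
  have hb2c : Continuous b2 := (continuous_const.sub hκc).mul hcont
  have hb1c : Continuous b1 := hκc.mul hcont
  have hll : LocallyLipschitzOn univ b2 := by
    intro x _
    by_cases hx : x ∈ E
    · refine ⟨0, {q | κ q = 1}, mem_nhdsWithin_of_mem_nhds (o x hx), ?_⟩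
      refine LipschitzOnWith.of_dist_le_mul fun p hp q hq => ?_
      have hp' : κ p = 1 := hp
      have hq' : κ q = 1 := hq
      simp [hb2, hp', hq']
    · have h1 : LocallyLipschitzOn Eᶜ (fun p => 1 - κ p) := by
        have : LipschitzWith (0 + L) (fun p => 1 - κ p) := (LipschitzWith.const (1 : ℝ)).sub hL
        exact ll_of_lip this
      obtain ⟨K, t, ht, hK⟩ := ll_mul h1 (h.loc a ha) (x := x) hx
      refine ⟨K, t, ?_, hK⟩
      rw [h.isOpen.nhdsWithin_eq hx] at ht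
      exact mem_nhdsWithin_of_mem_nhds ht
  have hftc := ftc_x isOpen_univ hll
  have hsum : ∀ᵐ p : ℝ × ℝ, gx a p = gx b1 p + gx b2 p := by
    filter_upwards [h.aeDiff hA1, ae_diff isOpen_univ hll] with p h1 h2
    have : a = fun p => b1 p + b2 p := by
      funext p; simp only [hb1, hb2]; ring
    conv_lhs => rw [this]
    exact gx_add h1 (h2 (mem_univ p))
  set Q : Set (ℝ × ℝ) := Ioc s t ×ˢ Ioc c0 c1 with hQ
  have hQv : volume Q ≠ ∞ :=
    ((measure_mono (Set.prod_mono Ioc_subset_Icc_self Ioc_subset_Icc_self)).trans_lt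
      (vol_rect_ne s t c0 c1).lt_top).ne
  have i0 : IntegrableOn (gx a) Q := h.intOn_gx ha hQv
  have i1 : IntegrableOn (gx b1) Q := h.intOn_gx hA1 hQv
  have i2 : IntegrableOn (gx b2) Q := by
    refine (i0.sub i1).congr ?_
    filter_upwards [ae_restrict_of_ae hsum] with p hp
    simp only [Pi.sub_apply]
    linarith
  have e1 : ∀ x : ℝ, ∫ y in c0..c1, a (x, y) = (∫ y in c0..c1, b1 (x, y)) + ∫ y in c0..c1, b2 (x, y) := by
    intro x
    rw [← intervalIntegral.integral_add]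
    · refine intervalIntegral.integral_congr fun y _ => ?_
      simp only [hb1, hb2]; ring
    · exact (hb1c.comp (by fun_prop)).intervalIntegrable _ _
    · exact (hb2c.comp (by fun_prop)).intervalIntegrable _ _
  have e2 : (∫ y in c0..c1, b2 (t, y)) - (∫ y in c0..c1, b2 (s, y)) = ∫ p in Q, gx b2 p := by
    rw [← ii_eq' hst hcc i2, ← intervalIntegral.integral_sub]
    · refine intervalIntegral.integral_congr_ae ?_
      filter_upwards [hftc] with y hy _
      exact hy s t fun x _ => mem_univ _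
    · exact (hb2c.comp (by fun_prop)).intervalIntegrable _ _
    · exact (hb2c.comp (by fun_prop)).intervalIntegrable _ _
  rw [ii_eq hst hcc i1] at S1
  rw [ii_eq hst hcc i0, e1, e1, integral_congr_ae (ae_restrict_of_ae hsum), integral_add i1 i2]
  linarith

/-- the slab structure of 412 -/
theorem slab (h : PicAlg E A) {t0 t1 y0 y1 : ℝ} (hy : y0 ≤ y1)
    (hE : E ⊆ {p | y0 < p.2 ∧ p.2 < y1}) :
    Prod_412.Slab {b | A b} gx t0 t1 y0 y1 where
  const := h.const
  add := fun a ha b hb => h.add a b ha hb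
  mul := fun a ha b hb => h.mul a b ha hb
  cont := fun a ha => (h.cont a ha).continuousOn
  int := fun a ha => h.intOn_gx ha (vol_rect_ne _ _ _ _)
  der := fun a ha => by
    filter_upwards [ae_restrict_of_ae (h.aeDiff ha)] with p hp
    exact gx_eq_deriv (x := p.1) (y := p.2) hp
  el := fun a ha t _ t' _ htt => h.stokes ha hy hE htt

theorem hor_rect (h : PicAlg E A) (ha : A a) {t0 t1 y0 y1 : ℝ} (hy : y0 ≤ y1)
    (hE : E ⊆ {p | y0 < p.2 ∧ p.2 < y1}) :
    ∀ᵐ y ∂((volume : Measure ℝ).restrict (Icc y0 y1)),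
      IntegrableOn (fun s => gx a (s, y)) (Icc t0 t1) ∧
      ∀ t ∈ Icc t0 t1, ∀ t' ∈ Icc t0 t1, a (t', y) - a (t, y) = ∫ s in t..t', gx a (s, y) := by
  refine Prod_412.acl_of_fibres (h.slab hy hE) hy (fun b hb τ _ hτ _ => h.comp τ hτ b hb)
    (S := {b // A b} → ℝ) (fun p b => b.1 p) (fun b hb p q hpq => congrFun hpq ⟨b, hb⟩)
    (fun p _ q _ hpq => funext fun b => hpq b.1 b.2) (fun p q hpq r hr => ?_) ha
  funext b
  exact h.agree_seg (fun b hb => congrFun hpq ⟨b, hb⟩) hr b.1 b.2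

/-- **absolute continuity on a.e. horizontal line** -/
theorem hor (h : PicAlg E A) (ha : A a) :
    ∀ᵐ y : ℝ, ∀ s t : ℝ, IntervalIntegrable (fun x => gx a (x, y)) volume s t ∧
      a (t, y) - a (s, y) = ∫ x in s..t, gx a (x, y) := by
  obtain ⟨R, hR⟩ := h.cpt.isBounded.exists_norm_le
  obtain ⟨N0, hN0⟩ := exists_nat_gt R
  have key : ∀ N : ℕ, ∀ᵐ y : ℝ, y ∈ Icc (-((N0 + N : ℕ) : ℝ)) ((N0 + N : ℕ) : ℝ) →
      IntegrableOn (fun s => gx a (s, y)) (Icc (-((N0 + N : ℕ) : ℝ)) ((N0 + N : ℕ) : ℝ)) ∧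
      ∀ t ∈ Icc (-((N0 + N : ℕ) : ℝ)) ((N0 + N : ℕ) : ℝ), ∀ t' ∈ Icc (-((N0 + N : ℕ) : ℝ)) ((N0 + N : ℕ) : ℝ),
        a (t', y) - a (t, y) = ∫ s in t..t', gx a (s, y) := by
    intro N
    rw [← ae_restrict_iff' measurableSet_Icc]
    refine h.hor_rect ha (by
      have : (0 : ℝ) ≤ ((N0 + N : ℕ) : ℝ) := Nat.cast_nonneg _
      linarith) fun p hp => ?_
    have h1 : |p.2| ≤ R := (norm_snd_le p).trans (hR p hp)
    have h2 : (N0 : ℝ) ≤ ((N0 + N : ℕ) : ℝ) := by exact_mod_cast Nat.le_add_right _ _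
    rw [abs_le] at h1
    exact ⟨by linarith [h1.1], by linarith [h1.2]⟩
  rw [← ae_all_iff] at key
  filter_upwards [key] with y hy s t
  obtain ⟨N, hN⟩ := exists_nat_gt (max |y| (max |s| |t|))
  have h2 : (N : ℝ) ≤ ((N0 + N : ℕ) : ℝ) := by exact_mod_cast Nat.le_add_left _ _
  have hm : ∀ u : ℝ, |u| ≤ max |y| (max |s| |t|) → u ∈ Icc (-((N0 + N : ℕ) : ℝ)) ((N0 + N : ℕ) : ℝ) := by
    intro u hu
    rw [mem_Icc, ← abs_le]
    linarith
  obtain ⟨h3, h4⟩ := hy N (hm y (le_max_left _ _))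
  have hs := hm s ((le_max_left _ _).trans (le_max_right _ _))
  have ht := hm t ((le_max_right _ _).trans (le_max_right _ _))
  refine ⟨?_, h4 s hs t ht⟩
  rw [intervalIntegrable_iff]
  exact h3.mono_set ((uIoc_subset_uIcc).trans (ordConnected_Icc.uIcc_subset hs ht))

end PicAlg

end

end Crest.Agent.R105.Pln_868
end

-- ▼ part R105/Pv2_937
section

/-!
# Row 105: vertical half of `planar` on 868's `PicAlg` (helper937)
-/

set_option autoImplicit false

open Set Filter MeasureTheory Topology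
open scoped ContDiff NNReal

namespace Crest.Agent.R105.Pv_937

noncomputable section

open CF_363 Pln_868


theorem gy_zero_of_ev {u : ℝ × ℝ → ℝ} {z : ℝ × ℝ} {c : ℝ} (h : ∀ᶠ w in 𝓝 z, u w = c) :
    gy u z = 0 := by
  rw [gy_congr (g := fun _ => c) h, gy_const]


theorem abs_gy_le (u : ℝ × ℝ → ℝ) (z : ℝ × ℝ) : |gy u z| ≤ 1 + g2 u z := by
  unfold g2
  rw [abs_le]; constructor <;> nlinarith [sq_nonneg (gy u z + 1), sq_nonneg (gy u z - 1),
    sq_nonneg (gx u z)]


theorem integrableOn_gy {V : Set (ℝ × ℝ)} {u : ℝ × ℝ → ℝ} (hu : IntegrableOn (g2 u) V)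
    {K : Set (ℝ × ℝ)} (hK : IsCompact K) : IntegrableOn (gy u) (V ∩ K) := by
  have h1 : IntegrableOn (fun z => 1 + g2 u z) (V ∩ K) := by
    refine Integrable.add ?_ (hu.mono_set inter_subset_left)
    exact (integrableOn_const hK.measure_lt_top.ne).mono_set inter_subset_right
  refine Integrable.mono' h1 (measurable_gy u).aestronglyMeasurable ?_
  exact Eventually.of_forall fun z => abs_gy_le u z

/-- weight with compact support times a function integrable on compacts. -/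
theorem integrableOn_mul {V : Set (ℝ × ℝ)} (hV : MeasurableSet V) {g f : ℝ × ℝ → ℝ}
    (hg : Continuous g) (hgc : HasCompactSupport g) (hf : IntegrableOn f (V ∩ tsupport g)) :
    IntegrableOn (fun z => g z * f z) V := by
  obtain ⟨M, hM⟩ := hgc.exists_bound_of_continuous hg
  have h1 : IntegrableOn (fun z => g z * f z) (V ∩ tsupport g) :=
    Integrable.bdd_mul (c := M) hf hg.aestronglyMeasurable (Eventually.of_forall hM)
  refine h1.of_forall_sdiff_eq_zero hV ?_
  rintro z ⟨hz, hz'⟩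
  have : z ∉ tsupport g := fun h => hz' ⟨hz, h⟩
  rw [image_eq_zero_of_notMem_tsupport this, zero_mul]

theorem restrict_compl {E : Set (ℝ × ℝ)} (hE0 : volume E = 0) :
    (volume.restrict Eᶜ : Measure (ℝ × ℝ)) = volume := by
  rw [Measure.restrict_eq_self_of_ae_mem]
  rw [ae_iff]; simpa using hE0

/-- the integrand of the slices. -/
def Sl (a X : ℝ × ℝ → ℝ) (p : ℝ × ℝ) : ℝ := X p * gy a p + gy X p * a p

variable {E : Set (ℝ × ℝ)} {A : (ℝ × ℝ → ℝ) → Prop} {a X : ℝ × ℝ → ℝ}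

theorem continuous_gy (hX : ContDiff ℝ ∞ X) : Continuous (gy X) :=
  (hX.continuous_fderiv (by simp)).clm_apply continuous_const

theorem compact_gy (hXc : HasCompactSupport X) : HasCompactSupport (gy X) := by
  refine HasCompactSupport.of_support_subset_isCompact hXc ?_
  intro z hz
  by_contra hn
  exact hz (gy_zero_of_ev (notMem_tsupport_iff_eventuallyEq.1 hn))

theorem integrable_Sl (h : PicAlg E A) (ha : A a) (hX : ContDiff ℝ ∞ X)
    (hXc : HasCompactSupport X) : Integrable (Sl a X) := by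
  have hV : MeasurableSet Eᶜ := h.cpt.isClosed.isOpen_compl.measurableSet
  have h1 : IntegrableOn (fun z => X z * gy a z) Eᶜ :=
    integrableOn_mul hV hX.continuous hXc (integrableOn_gy (h.fin a ha) hXc)
  rw [IntegrableOn, restrict_compl h.null] at h1
  have h2 : Integrable (fun z => gy X z * a z) :=
    ((continuous_gy hX).mul (h.cont a ha)).integrable_of_hasCompactSupport
      (compact_gy hXc).mul_right
  exact h1.add h2

theorem slice (h : PicAlg E A) (ha : A a) (hX : ContDiff ℝ ∞ X)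
    (hXc : HasCompactSupport X) (hXl : ∀ z ∈ E, ∀ᶠ w in 𝓝 z, X w = X z) :
    ∀ᵐ s : ℝ, ∫ y : ℝ, Sl a X (s, y) = 0 := by
  have hI := integrable_Sl h ha hX hXc
  have hI' : Integrable (Sl a X) ((volume : Measure ℝ).prod (volume : Measure ℝ)) := hI
  apply ae_eq_zero_of_integral_contDiff_smul_eq_zero hI'.integral_prod_left.locallyIntegrable
  intro k hk hkc
  have hcut : Cut E X := ⟨exists_lip hX hXc, hXc, hXl⟩
  have h1 := h.iso _ (h.mul _ _ ha (h.cut X hcut k (exists_lip hk hkc)))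
    ((hXc.mul_right (f' := fun p : ℝ × ℝ => k p.1)).mul_left)
  have hopen := h.cpt.isClosed.isOpen_compl
  have e : ∀ᵐ p ∂(volume.restrict Eᶜ), gy (fun p => a p * (X p * k p.1)) p
      = k p.1 * Sl a X p := by
    rw [ae_restrict_iff' hopen.measurableSet]
    filter_upwards [ae_diff hopen (h.loc a ha)] with p hp hpE
    have d1 := hp hpE
    have d2 : DifferentiableAt ℝ X p := (hX.differentiable (by simp)).differentiableAt
    have d3 : DifferentiableAt ℝ (fun p : ℝ × ℝ => k p.1) p :=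
      ((hk.differentiable (by simp)).comp differentiable_fst).differentiableAt
    have d4 : gy (fun p : ℝ × ℝ => k p.1) p = 0 := by
      unfold gy
      have h3 : HasFDerivAt (fun p : ℝ × ℝ => k p.1)
          ((fderiv ℝ k p.1).comp (ContinuousLinearMap.fst ℝ ℝ ℝ)) p :=
        ((hk.differentiable (by simp)).differentiableAt (x := p.1)).hasFDerivAt.comp p
          hasFDerivAt_fst
      rw [h3.fderiv]; simp
    have e1 := gy_mul (f := a) (g := fun p : ℝ × ℝ => X p * k p.1) d1 (d2.mul d3)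
    have e2 := gy_mul (f := X) (g := fun p : ℝ × ℝ => k p.1) d2 d3
    rw [e1, e2, d4]
    unfold Sl; ring
  rw [integral_congr_ae e, restrict_compl h.null] at h1
  have hI2 : Integrable (fun p : ℝ × ℝ => k p.1 * Sl a X p) := by
    obtain ⟨M, hM⟩ := hkc.exists_bound_of_continuous hk.continuous
    exact hI.bdd_mul (c := M) (hk.continuous.comp continuous_fst).aestronglyMeasurable
      (Eventually.of_forall fun z => hM z.1)
  rw [Measure.volume_eq_prod, integral_prod _ hI2] at h1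
  rw [← h1]
  congr 1
  ext s
  simp only [smul_eq_mul]
  rw [integral_const_mul]

theorem hasDerivAt_line {u : ℝ × ℝ → ℝ} {s y : ℝ} (h : DifferentiableAt ℝ u (s, y)) :
    HasDerivAt (fun y => u (s, y)) (gy u (s, y)) y := gy_eq_deriv h

/-- **the vertical half of planarity**. -/
theorem ver (h : PicAlg E A) (ha : A a) : ∀ᵐ x : ℝ, ∀ c d : ℝ,
    IntervalIntegrable (fun s => gy a (x, s)) volume c d ∧
      a (x, d) - a (x, c) = ∫ s in c..d, gy a (x, s) := by
  have hE := h.cpt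
  have hEcl : IsClosed E := hE.isClosed
  have : CompactSpace E := isCompact_iff_compactSpace.1 hE
  have : Countable (TopologicalSpace.Clopens E) := countable_clopens E
  choose X hX hXc hXl hX1 hX0 hX01 using fun S : TopologicalSpace.Clopens E =>
    exists_cutS hE S.isClopen
  -- (a)
  have a1 : ∀ᵐ s : ℝ, ∀ᵐ y : ℝ, (s, y) ∉ E := ae_unswap (measure_eq_zero_iff_ae_notMem.1 h.null)
  -- (b)
  have b1 := ae_unswap (ae_diff hEcl.isOpen_compl (h.loc a ha))
  -- (c)
  have c0 : ∀ n : ℕ, ∀ᵐ s : ℝ, Integrable (fun y : ℝ =>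
      (Eᶜ ∩ Metric.closedBall (0:ℝ × ℝ) n).indicator (gy a) (s, y)) := by
    intro n
    have h1 : Integrable ((Eᶜ ∩ Metric.closedBall (0:ℝ × ℝ) n).indicator (gy a)) := by
      rw [integrable_indicator_iff
        (hEcl.isOpen_compl.measurableSet.inter Metric.isClosed_closedBall.measurableSet)]
      exact integrableOn_gy (h.fin a ha) (isCompact_closedBall _ _)
    have h2 : Integrable ((Eᶜ ∩ Metric.closedBall (0:ℝ × ℝ) n).indicator (gy a))
      ((volume : Measure ℝ).prod (volume : Measure ℝ)) := h1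
    exact h2.prod_right_ae
  have c1 := ae_all_iff.2 c0
  -- (d)
  have d1 : ∀ᵐ s : ℝ, ∀ i, ∫ y : ℝ, Sl a (X i) (s, y) = 0 :=
    ae_all_iff.2 fun i => slice h ha (hX i) (hXc i) (hXl i)
  filter_upwards [a1, b1, c1, d1] with s ha' hb hc hd
  set K : Set ℝ := {y | (s, y) ∈ E} with hK
  have hvc : Continuous (fun y : ℝ => (s, y)) := by fun_prop
  have hvL : LipschitzWith 1 (fun y : ℝ => (s, y)) := LipschitzWith.prodMk_left s
  have hKcl : IsClosed K := hEcl.preimage hvc
  have hα : LocallyLipschitzOn Kᶜ (fun y => a (s, y)) := by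
    intro y hy
    obtain ⟨L, t, ht, hL⟩ := (h.loc a ha) (show (s, y) ∈ Eᶜ from hy)
    rw [hEcl.isOpen_compl.nhdsWithin_eq (show (s, y) ∈ Eᶜ from hy)] at ht
    refine ⟨L * 1, (fun y : ℝ => (s, y)) ⁻¹' t,
      mem_nhdsWithin_of_mem_nhds (hvc.continuousAt ht), ?_⟩
    exact hL.comp (hvL.lipschitzOnWith) (fun x hx => hx)
  have hαc : Continuous (fun y => a (s, y)) := (h.cont a ha).comp hvc
  have hder : ∀ᵐ y : ℝ, y ∉ K → HasDerivAt (fun y => a (s, y)) (gy a (s, y)) y := by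
    filter_upwards [hb] with y hy hyK
    exact hasDerivAt_line (hy hyK)
  have hbI : ∀ u v, IntervalIntegrable (fun y => gy a (s, y)) volume u v := by
    intro u v
    obtain ⟨n, hn⟩ := exists_nat_ge (|s| + (|u| + |v|))
    have h1 := (hc n).intervalIntegrable (a := u) (b := v)
    refine h1.congr_ae ?_
    rw [Filter.EventuallyEq, ae_restrict_iff' measurableSet_uIoc]
    filter_upwards [ha'] with y hy hyI
    have h2 : (s, y) ∈ Eᶜ ∩ Metric.closedBall (0:ℝ × ℝ) n := by
      refine ⟨hy, ?_⟩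
      rw [Metric.mem_closedBall, dist_zero_right, Prod.norm_def]
      have h3 : |y| ≤ |u| + |v| := by
        have h4 := uIoc_subset_uIcc hyI
        rw [mem_uIcc] at h4
        rcases h4 with h4 | h4
        · rw [abs_le]; constructor
          · linarith [neg_abs_le u, abs_nonneg v]
          · linarith [le_abs_self v, abs_nonneg u]
        · rw [abs_le]; constructor
          · linarith [neg_abs_le v, abs_nonneg u]
          · linarith [le_abs_self u, abs_nonneg v]
      refine max_le ?_ ?_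
      · simp only [Real.norm_eq_abs]; linarith [abs_nonneg u, abs_nonneg v]
      · simp only [Real.norm_eq_abs]; linarith [abs_nonneg s]
    rw [indicator_of_mem h2]
  -- increments between points off `K`
  have hinc : ∀ y1 y2 : ℝ, y1 ≤ y2 → y1 ∉ K → y2 ∉ K →
      a (s, y2) - a (s, y1) = ∫ y in y1..y2, gy a (s, y) := by
    intro y1 y2 h12 hy1 hy2
    obtain ⟨S, hS, hS1, hS0⟩ := sep_line hE h.vert (x := s) (y1 := y1) (y2 := y2) hy1 hy2
    set i : TopologicalSpace.Clopens E := ⟨S, hS⟩ with hi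
    obtain ⟨R0, hR0⟩ := (hXc i).isBounded.exists_norm_le
    set R : ℝ := |R0| + |y1| + |y2| + 1 with hR
    have hout : ∀ y : ℝ, |R0| < |y| → (s, y) ∉ tsupport (X i) := by
      intro y hy hm
      have h1 := hR0 _ hm
      have h2 : |y| ≤ ‖((s, y) : ℝ × ℝ)‖ := by
        rw [Prod.norm_def]; exact le_max_right _ _
      linarith [le_abs_self R0]
    have hRpos : 0 < R := by positivity
    have hRb : |R0| < R := by
      have := abs_nonneg y1; have := abs_nonneg y2; linarith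
    refine Vac_937.key (χ := fun y => X i (s, y)) (χ' := fun y => gy (X i) (s, y)) (R := R) hKcl
      hα hαc hder hbI ?_ ?_ h12 hy1 hy2 ?_ ?_ ?_ ?_ ?_ ?_ ?_
    · intro y
      exact hasDerivAt_line ((hX i).differentiable (by simp)).differentiableAt
    · exact (continuous_gy (hX i)).comp hvc
    · linarith [neg_abs_le y1, abs_nonneg R0, abs_nonneg y2]
    · linarith [le_abs_self y2, abs_nonneg R0, abs_nonneg y1]
    · intro y hyK hy
      have h1 := hvc.continuousAt.eventually (hXl i (s, y) hyK)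
      filter_upwards [h1] with x hx
      rw [hx]; exact hX1 i ⟨(s, y), hyK⟩ (hS1 ⟨(s, y), hyK⟩ rfl hy)
    · intro y hyK hy
      have h1 := hvc.continuousAt.eventually (hXl i (s, y) hyK)
      filter_upwards [h1] with x hx
      rw [hx]; exact hX0 i ⟨(s, y), hyK⟩ (hS0 ⟨(s, y), hyK⟩ rfl hy)
    · exact image_eq_zero_of_notMem_tsupport (hout (-R) (by rw [abs_neg, abs_of_pos hRpos]; exact hRb))
    · exact image_eq_zero_of_notMem_tsupport (hout R (by rw [abs_of_pos hRpos]; exact hRb))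
    · have h1 := hd i
      have h2 : Function.support (fun y : ℝ => Sl a (X i) (s, y)) ⊆ Ioc (-R) R := by
        intro y hy
        by_contra hn
        apply hy
        have h3 : |R0| < |y| := by
          rw [mem_Ioc, not_and_or, not_lt, not_le] at hn
          rcases hn with hn | hn
          · have : R ≤ |y| := by rw [← abs_neg]; exact le_trans (by linarith) (le_abs_self (-y))
            linarith
          · linarith [le_abs_self y]
        have h4 := hout y h3
        have h5 := notMem_tsupport_iff_eventuallyEq.1 h4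
        simp only [Sl]
        rw [gy_zero_of_ev h5, image_eq_zero_of_notMem_tsupport h4]; ring
      have h3 := intervalIntegral.integral_eq_integral_of_support_subset (μ := volume) h2
      have h4 : ∫ y in (-R)..R, Sl a (X i) (s, y) = 0 := by rw [h3]; exact h1
      exact h4
  -- all points
  have hden : Dense Kᶜ := by
    apply Measure.dense_of_ae (μ := (volume : Measure ℝ))
    exact ha'
  obtain ⟨y0, hy0⟩ := hden.nonempty
  have hD : (fun y => a (s, y) - a (s, y0)) = fun y => ∫ t in y0..y, gy a (s, t) := by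
    refine Continuous.ext_on hden (hαc.sub continuous_const)
      (intervalIntegral.continuous_primitive (fun u v => hbI u v) y0) ?_
    intro y hy
    rcases le_total y0 y with h | h
    · exact hinc y0 y h hy0 hy
    · have := hinc y y0 h hy hy0
      simp only
      rw [intervalIntegral.integral_symm]
      linarith
  intro y1 y2
  refine ⟨hbI _ _, ?_⟩
  have e1 := congrFun hD y1
  have e2 := congrFun hD y2
  beta_reduce at e1 e2
  have e3 := intervalIntegral.integral_interval_sub_left (hbI y0 y2) (hbI y0 y1)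
  linarith

end

end Crest.Agent.R105.Pv_937
end

-- ▼ part R105/Skp3_257
section

/-!
# Row 105, [B]: from PP on `ℝ × ℝ` to helper641's `PPP` on `ℂ`
-/

namespace Crest.Agent.R105.Skp3_257

open Set Filter MeasureTheory Topology
open Skp2_257

/-- `ℝ × ℝ → ℂ` -/
noncomputable def eC : ℝ × ℝ ≃ₜ ℂ := Complex.equivRealProdCLM.symm.toHomeomorph

theorem eC_apply (q : ℝ × ℝ) : eC q = ⟨q.1, q.2⟩ := by
  apply Complex.ext <;> simp [eC]

/-- the picture set on `ℝ × ℝ` -/
def EP (C : Set ℂ) (p : ℂ → ℂ) : Set (ℝ × ℝ) := eC ⁻¹' (p '' Cᶜ)ᶜ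

/-- **ADP** (987): the picture is a slit picture and satisfies E-L in the form of `Skp2_257`. -/
def ADP : Prop :=
  ∀ (C : Set ℂ) (x0 : ℂ → ℝ) (b : ℕ → ℂ → ℝ) (φ : ℂ → ℝ) (p : ℂ → ℂ),
    IfB_641.Pk C x0 b φ → IfB_641.Cpl C x0 φ p → InjOn p Cᶜ → volume (p '' Cᶜ)ᶜ = 0 →
    (∀ u, IfB_641.Gen C (insert φ (range b)) u → IfB_641.Planar C x0 φ p u) →
    Pic (EP C p) ∧ EL (EP C p)

theorem totallyDisconnected_of_points {S : Set ℂ}
    (h : ∀ q ∈ eC ⁻¹' S, connectedComponentIn (eC ⁻¹' S) q = {q}) : IsTotallyDisconnected S := by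
  intro t htS ht x hx y hy
  have h1 : IsPreconnected (eC ⁻¹' t) := by
    have := ht.image _ eC.symm.continuous.continuousOn
    rwa [eC.symm.image_eq_preimage_symm, Homeomorph.symm_symm] at this
  have hx' : eC.symm x ∈ eC ⁻¹' t := by simpa using hx
  have hy' : eC.symm y ∈ eC ⁻¹' t := by simpa using hy
  have hsub : eC ⁻¹' t ⊆ eC ⁻¹' S := preimage_mono htS
  have h2 := h1.subset_connectedComponentIn hx' hsub hy'
  rw [h _ (hsub hx')] at h2
  exact (eC.symm.injective h2).symm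

/-- 641's `PPP` from `PP` and the adapter. -/
theorem ppp_of (hPP : PP) (hAD : ADP) : IfB_641.PPP := by
  intro C x0 b φ p hPk hCpl hinj hnull hpl
  obtain ⟨h1, h2⟩ := hAD C x0 b φ p hPk hCpl hinj hnull hpl
  exact totallyDisconnected_of_points (hPP.points h1 h2)

end Crest.Agent.R105.Skp3_257
end

-- ▼ part R105/Skp4_257
section

/-!
# Row 105, [B]: strong form of planarity (ACL on lines) and the adapter built on it
-/

namespace Crest.Agent.R105.Skp4_257

open Set Filter MeasureTheory Topology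
open Skp2_257 Skp3_257

/-- `u` (a function on the `z`-side) is the pull-back of a planar function which is constant on the
components of the picture. -/
def PlaS (C : Set ℂ) (p : ℂ → ℂ) (u : ℂ → ℝ) : Prop :=
  ∃ w : ℝ × ℝ → ℝ, Pl (EP C p) w ∧ ∀ z ∈ Cᶜ, w ((p z).re, (p z).im) = u z

/-- **PLN** (868 / 412 / 937 / 987): planarity in the strong form: for every `u` of the algebra,
`u ∘ p⁻¹` extended by its limits at the ends is bounded, continuous, locally Lipschitz off the
picture set, of finite energy, ACL on a.e. horizontal and vertical line, constant on every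
component. -/
def PLN : Prop :=
  ∀ (C : Set ℂ) (x0 : ℂ → ℝ) (b : ℕ → ℂ → ℝ) (φ : ℂ → ℝ) (p : ℂ → ℂ),
    IfB_641.Pk C x0 b φ → IfB_641.Cpl C x0 φ p → InjOn p Cᶜ → volume (p '' Cᶜ)ᶜ = 0 →
    ∀ u, IfB_641.Gen C (insert φ (range b)) u → PlaS C p u

/-- **PICP**: the picture is a slit picture (616, 897, 442). -/
def PICP : Prop :=
  ∀ (C : Set ℂ) (x0 : ℂ → ℝ) (b : ℕ → ℂ → ℝ) (φ : ℂ → ℝ) (p : ℂ → ℂ),
    IfB_641.Pk C x0 b φ → IfB_641.Cpl C x0 φ p → InjOn p Cᶜ → volume (p '' Cᶜ)ᶜ = 0 →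
    Pic (EP C p)

/-- **ELP**: E-L on the picture side (back transport of the PP test functions). -/
def ELP : Prop :=
  ∀ (C : Set ℂ) (x0 : ℂ → ℝ) (b : ℕ → ℂ → ℝ) (φ : ℂ → ℝ) (p : ℂ → ℂ),
    IfB_641.Pk C x0 b φ → IfB_641.Cpl C x0 φ p → InjOn p Cᶜ → volume (p '' Cᶜ)ᶜ = 0 →
    (∀ u, IfB_641.Gen C (insert φ (range b)) u → PlaS C p u) → EL (EP C p)

/-- 641's `PPP`. -/
theorem ppp_of (hPP : PP) (hPLN : PLN) (hPIC : PICP) (hEL : ELP) : IfB_641.PPP := by
  intro C x0 b φ p hPk hCpl hinj hnull _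
  exact totallyDisconnected_of_points (hPP.points (hPIC C x0 b φ p hPk hCpl hinj hnull)
    (hEL C x0 b φ p hPk hCpl hinj hnull (hPLN C x0 b φ p hPk hCpl hinj hnull)))

end Crest.Agent.R105.Skp4_257
end

-- ▼ part R105/Adp1_987
section

/-!
# Row 105, [B]: adapter to the picture side (helper987)

* `picp : PICP` : the picture is a slit picture
* `elp : ELP` : E-L on the picture side
-/

set_option autoImplicit false

open MeasureTheory Set Filter Topology Metric
open scoped NNReal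

namespace Crest.Agent.R105.Adp_987

open Crest.AnalysisR Crest.Agent.R105.Skp2_257 Crest.Agent.R105.Skp3_257
  Crest.Agent.R105.Skp4_257 Crest.Agent.R105.Tra_937
open Crest.Agent.R105.Ends_897 (eF EndMap)

theorem eC_mk (z : ℂ) : eC (z.re, z.im) = z := by rw [eC_apply]

theorem eC_re (q : ℝ × ℝ) : (eC q).re = q.1 := by rw [eC_apply]
theorem eC_im (q : ℝ × ℝ) : (eC q).im = q.2 := by rw [eC_apply]

theorem setC_EP (C : Set ℂ) (p : ℂ → ℂ) : setC (EP C p) = (p '' Cᶜ)ᶜ := by
  ext z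
  simp only [setC, EP, mem_ofPred_eq, mem_preimage, eC_mk]

theorem setC_EPc (C : Set ℂ) (p : ℂ → ℂ) : setC (EP C p)ᶜ = p '' Cᶜ := by
  rw [setC_compl, setC_EP, compl_compl]

theorem cc_EP {C : Set ℂ} {p : ℂ → ℂ} {q : ℝ × ℝ} (hq : q ∈ EP C p) :
    connectedComponentIn (EP C p) q = eC ⁻¹' connectedComponentIn (p '' Cᶜ)ᶜ (eC q) := by
  have h1 : eC '' EP C p = (p '' Cᶜ)ᶜ := by
    unfold EP; rw [image_preimage_eq _ eC.surjective]
  rw [← h1, ← eC.image_connectedComponentIn hq, preimage_image_eq _ eC.injective]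

theorem xtend {C : Set ℂ} {x0 φ : ℂ → ℝ} {b : ℕ → ℂ → ℝ} {p : ℂ → ℂ}
    (h : IfB_641.Pk C x0 b φ) (hp : IfB_641.Cpl C x0 φ p) {z : ℂ} (hz : z ∉ Cᶜ) :
    Tendsto (fun w => (p w).re) (eF Cᶜ z) (𝓝 (x0 z + φ z)) := by
  have h1 : IsTotallyDisconnected (Cᶜ)ᶜ := by rw [compl_compl]; exact h.td.td
  exact Pic_442.tendsto_of_continuousAt (x := fun z => x0 z + φ z)
    (Pic_442.cc_singleton h1 hz) (Mid_987.Pk.xcont h).continuousAt (fun w hw => hp.re w hw)

/-- **PICP** -/
theorem picp : PICP := by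
  intro C x0 b φ p h hp hi hnull
  have hE := Mid_987.Pk.endMap h hp hi
  refine ⟨?_, ?_, ?_⟩
  · unfold EP
    exact eC.isCompact_preimage.2 (Ends_897.isCompact_compl hE.hV)
  · rw [← volume_setC, setC_EP]; exact hnull
  · rintro P ⟨q, hq, rfl⟩
    have hq' : eC q ∉ p '' Cᶜ := hq
    obtain ⟨z, -, -, -, b', t, hbt, hcc⟩ := Pic_442.cc_vseg hE
      (x := fun z => x0 z + φ z) (fun z hz => xtend h hp hz) hq'
    rw [cc_EP hq, hcc, eC_re]
    rcases hbt.eq_or_lt with rfl | hlt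
    · left
      refine ⟨(q.1, b'), ?_⟩
      ext r
      simp only [mem_preimage, Pic_442.mem_vseg, eC_re, eC_im, mem_singleton_iff, Prod.ext_iff]
      constructor
      · rintro ⟨h1, h2, h3⟩; exact ⟨h1, le_antisymm h3 h2⟩
      · rintro ⟨h1, h2⟩; exact ⟨h1, h2.ge, h2.le⟩
    · right
      refine ⟨⟨q.1, b', t, hlt⟩, ?_⟩
      ext r
      simp only [mem_preimage, Pic_442.mem_vseg, eC_re, eC_im]
      exact Iff.rfl

/-! ### limits at the ends -/

/-- oscillation zero at a component of `E` gives a limit along the end filter -/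
theorem lim_of_osc {C : Set ℂ} {p : ℂ → ℂ} {ψ : ℝ × ℝ → ℝ} {ζ : ℂ} (hV : IsExteriorDomain (p '' Cᶜ))
    (hζ : ζ ∉ p '' Cᶜ)
    (h : Stp_722.OscLe (EP C p)ᶜ (connectedComponentIn (EP C p) (ζ.re, ζ.im)) ψ 0) :
    ∃ c, Tendsto (toC ψ) (eF (p '' Cᶜ) ζ) (𝓝 c) := by
  have h0 : (eF (p '' Cᶜ) ζ).NeBot := Ends_897.eF_neBot hV hζ
  have hmem : (ζ.re, ζ.im) ∈ EP C p := by
    simp only [EP, mem_preimage, eC_mk]; exact hζ
  rw [cc_EP hmem, eC_mk] at h
  have hc : Cauchy (map (toC ψ) (eF (p '' Cᶜ) ζ)) := by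
    rw [Metric.cauchy_iff]
    refine ⟨(inferInstance : (map (toC ψ) (eF (p '' Cᶜ) ζ)).NeBot), fun ε hε => ?_⟩
    obtain ⟨O, hO, hPO, H⟩ := h (ε / 2) (by linarith)
    refine ⟨toC ψ '' (setC O ∩ p '' Cᶜ), image_mem_map ?_, ?_⟩
    · refine inter_mem (mem_inf_of_left ?_) (mem_inf_of_right (mem_principal_self _))
      refine (isOpen_setC.2 hO).mem_nhdsSet.2 fun z hz => ?_
      refine hPO ?_
      simp only [mem_preimage, eC_mk]; exact hz
    · rintro _ ⟨z, ⟨hz1, hz2⟩, rfl⟩ _ ⟨w, ⟨hw1, hw2⟩, rfl⟩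
      have e1 : (z.re, z.im) ∈ (EP C p)ᶜ := by
        have : z ∈ setC (EP C p)ᶜ := by rw [setC_EPc]; exact hz2
        exact this
      have e2 : (w.re, w.im) ∈ (EP C p)ᶜ := by
        have : w ∈ setC (EP C p)ᶜ := by rw [setC_EPc]; exact hw2
        exact this
      have := H _ ⟨hz1, e1⟩ _ ⟨hw1, e2⟩
      rw [Real.dist_eq]
      simp only [toC]
      linarith
  obtain ⟨c, hc⟩ := cauchy_iff_exists_le_nhds.1 hc
  exact ⟨c, hc⟩

section
variable {C : Set ℂ} {x0 φ : ℂ → ℝ} {b : ℕ → ℂ → ℝ} {p : ℂ → ℂ} {ψ : ℝ × ℝ → ℝ}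

theorem td' (h : IfB_641.Pk C x0 b φ) : IsTotallyDisconnected (Cᶜ)ᶜ := by
  rw [compl_compl]; exact h.td.td

theorem uni (h : IfB_641.Pk C x0 b φ) (hp : IfB_641.Cpl C x0 φ p) (hi : InjOn p Cᶜ) :
    Uni Cᶜ p := ⟨h.td.cpt.isClosed.isOpen_compl, hp.hol, hi⟩

theorem ll_toC (hψ : LocallyLipschitzOn (EP C p)ᶜ ψ) : LocallyLipschitzOn (p '' Cᶜ) (toC ψ) := by
  rw [← setC_EPc]; exact locLip_toC.2 hψ

theorem ll_toC_iff : LocallyLipschitzOn (EP C p)ᶜ ψ ↔ LocallyLipschitzOn (p '' Cᶜ) (toC ψ) := by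
  rw [← setC_EPc]; exact locLip_toC.symm


theorem en_int (hF : Uni Cᶜ p) (hψ : Reg (EP C p) ψ) : IntegrableOn (Tra_937.en (toC ψ)) (p '' Cᶜ) := by
  have h1 : IntegrableOn (toC (CF_363.g2 ψ)) (setC (EP C p)ᶜ) := (integrableOn_toC _ _).2 hψ.fin
  rw [setC_EPc] at h1
  refine h1.congr ?_
  filter_upwards [ae_diff_of_locLip hF.isOpen_image (ll_toC hψ.lip)] with z hz
  have hd := diff_toC.1 hz
  unfold Tra_937.en
  rw [gx_toC hd, gy_toC hd, dx_eq hd, dy_eq hd]
  rfl

/-- the pulled back test -/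
noncomputable def pb (C : Set ℂ) (p : ℂ → ℂ) (ψ : ℝ × ℝ → ℝ) : ℂ → ℝ := pull Cᶜ p (toC ψ)

theorem pb_eq (h : EndMap Cᶜ (p '' Cᶜ) p) (hψ : LocallyLipschitzOn (EP C p)ᶜ ψ) :
    EqOn (pb C p ψ) (toC ψ ∘ p) Cᶜ := pull_eq h (ll_toC hψ).continuousOn

theorem pb_loc (hF : Uni Cᶜ p) (h : EndMap Cᶜ (p '' Cᶜ) p) (hψ : LocallyLipschitzOn (EP C p)ᶜ ψ) :
    LocallyLipschitzOn Cᶜ (pb C p ψ) :=
  locLip_congr (pb_eq h hψ).symm (hF.locLip_comp (ll_toC hψ))

theorem pb_fin (hF : Uni Cᶜ p) (h : EndMap Cᶜ (p '' Cᶜ) p) (hψ : Reg (EP C p) ψ) :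
    IntegrableOn (IfB_641.en (pb C p ψ)) Cᶜ := by
  have h1 := (hF.integrableOn_en hF.op.measurableSet subset_rfl (fun _ => 1)
    (ae_diff_of_locLip hF.isOpen_image (ll_toC hψ.lip))).2 (by simpa using en_int hF hψ)
  simp only [one_mul] at h1
  exact h1.congr_fun (fun z hz => (en_congr hF.op (pb_eq h hψ.lip) hz).symm) hF.op.measurableSet

/-- all but one end: limits -/
theorem pb_q (hF : Uni Cᶜ p) (h : EndMap Cᶜ (p '' Cᶜ) p) (hC : IsTotallyDisconnected (Cᶜ)ᶜ)
    (hψ : Reg (EP C p) ψ) {q : ℂ}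
    (hl : ∀ z ∉ Cᶜ, z ≠ q → ∀ ζ ∉ p '' Cᶜ, map p (eF Cᶜ z) = eF (p '' Cᶜ) ζ →
      ∃ c, Tendsto (toC ψ) (eF (p '' Cᶜ) ζ) (𝓝 c)) :
    IfB_641.Q C (pb C p ψ) ∧ ∀ z, z ≠ q → ContinuousAt (pb C p ψ) z := by
  have hc : ContinuousOn (pb C p ψ) {q}ᶜ :=
    pull_continuousOn h hC (ll_toC hψ.lip).continuousOn (T := {q}) fun z hz hzq ζ hζ he =>
      hl z hz hzq ζ hζ he
  obtain ⟨M, hM⟩ := hψ.bdd
  refine ⟨⟨⟨max M |pb C p ψ q|, fun z => ?_⟩, pb_loc hF h hψ.lip, pb_fin hF h hψ⟩, fun z hz =>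
    hc.continuousAt (isOpen_compl_singleton.mem_nhds hz)⟩
  by_cases hzq : z = q
  · rw [hzq]; exact le_max_right _ _
  refine le_trans ?_ (le_max_left _ _)
  by_cases hz : z ∈ Cᶜ
  · rw [pb_eq h hψ.lip hz]; exact hM _
  · obtain ⟨ζ, hζ, he⟩ := h.exists_end hz
    obtain ⟨c, hc⟩ := hl z hz hzq ζ hζ he
    have h1 : pb C p ψ z = c := pull_at hC hz he hc
    rw [h1]
    have h0 : (eF (p '' Cᶜ) ζ).NeBot := Ends_897.eF_neBot h.hV hζ
    exact le_of_tendsto hc.abs (Eventually.of_forall fun w => hM _)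

theorem pb_cpt (h : EndMap Cᶜ (p '' Cᶜ) p) (hCc : IsCompact C)
    (hinf : Tendsto p (cocompact ℂ) (cocompact ℂ)) (hψ : Reg (EP C p) ψ) :
    HasCompactSupport (pb C p ψ) := by
  have h1 : ∀ᶠ w in cocompact ℂ, toC ψ w = 0 := by
    have h2 : HasCompactSupport (toC ψ) := by
      rw [toC_eq]
      exact hψ.cpt.comp_homeomorph Complex.equivRealProdCLM.toHomeomorph
    have h3 := h2.isCompact.compl_mem_cocompact
    filter_upwards [h3] with w hw
    exact image_eq_zero_of_notMem_tsupport hw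
  have h2 : ∀ᶠ z in cocompact ℂ, toC ψ (p z) = 0 := hinf.eventually h1
  have h3 : ∀ᶠ z in cocompact ℂ, z ∈ Cᶜ := hCc.compl_mem_cocompact
  obtain ⟨K, hK, hKs⟩ := mem_cocompact.1 (h2.and h3)
  refine HasCompactSupport.intro hK fun z hz => ?_
  obtain ⟨e1, e2⟩ := hKs hz
  rw [pb_eq h hψ.lip e2]; exact e1

/-- test functions of `PP` come from `T1` functions -/
theorem pb_t1 (hF : Uni Cᶜ p) (h : EndMap Cᶜ (p '' Cᶜ) p) (hC : IsTotallyDisconnected (Cᶜ)ᶜ)
    (hψ : Honest (EP C p) ψ ∨ OneAtom (EP C p) ψ) : IfB_641.T1 C (pb C p ψ) := by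
  have hmem : ∀ ζ : ℂ, ζ ∉ p '' Cᶜ → (ζ.re, ζ.im) ∈ EP C p := by
    intro ζ hζ
    simp only [EP, mem_preimage, eC_mk]; exact hζ
  rcases hψ with ⟨hr, hψ⟩ | ⟨hr, K, hK, hψ⟩
  · left
    have hl : ∀ ζ ∉ p '' Cᶜ, ∃ c, Tendsto (toC ψ) (eF (p '' Cᶜ) ζ) (𝓝 c) := fun ζ hζ =>
      lim_of_osc h.hV hζ (hψ _ ⟨_, hmem ζ hζ, rfl⟩)
    obtain ⟨M, hM⟩ := hr.bdd
    exact ⟨pull_continuous h hC (ll_toC hr.lip).continuousOn hl,
      ⟨M, pull_bound h hC (ll_toC hr.lip).continuousOn (fun w _ => hM _) hl⟩,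
      pb_loc hF h hr.lip, pb_fin hF h hr⟩
  · right
    obtain ⟨q0, hq0, hKe⟩ := hK
    have hζ0 : eC q0 ∉ p '' Cᶜ := hq0
    obtain ⟨q, hq, hqe⟩ := h.exists_end' hζ0
    refine ⟨q, not_not.1 hq, ?_⟩
    obtain ⟨h1, h2⟩ := pb_q hF h hC hr (q := q) fun z hz hzq ζ hζ he => by
      refine lim_of_osc h.hV hζ (hψ _ ⟨_, hmem ζ hζ, rfl⟩ fun heq => hzq ?_)
      rw [cc_EP (hmem ζ hζ), hKe, cc_EP hq0, eC_mk] at heq
      have e1 : connectedComponentIn (p '' Cᶜ)ᶜ ζ = connectedComponentIn (p '' Cᶜ)ᶜ (eC q0) :=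
        eC.surjective.preimage_injective heq
      have e2 := Ends_897.eF_congr e1
      rw [← he, ← hqe] at e2
      have e3 := h.map_injective hz e2
      rw [Pic_442.cc_singleton hC hz, Pic_442.cc_singleton hC hq] at e3
      exact singleton_injective e3
    exact ⟨h1, h2⟩

/-- generated functions are seen in the picture -/
theorem gen_push (h : EndMap Cᶜ (p '' Cᶜ) p) (hψ : LocallyLipschitzOn (EP C p)ᶜ ψ)
    {S : Set (ℂ → ℝ)} (hS : ∀ u, IfB_641.Gen C S u → PlaS C p u) {u : ℂ → ℝ}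
    (hu : IfB_641.Gen C (insert (pb C p ψ) S) u) :
    ∃ w, Skp2_257.Gen (insert ψ {b | Pl (EP C p) b}) w ∧ ∀ z ∈ Cᶜ, w ((p z).re, (p z).im) = u z := by
  have key : ∀ u, PlaS C p u → ∃ w, Skp2_257.Gen (insert ψ {b | Pl (EP C p) b}) w ∧
      ∀ z ∈ Cᶜ, w ((p z).re, (p z).im) = u z := by
    rintro u ⟨w, hw, hwu⟩
    exact ⟨w, Skp2_257.Gen.of w (Or.inr hw), hwu⟩
  unfold IfB_641.Gen at hu
  induction hu with
  | const c => exact ⟨fun _ => c, Skp2_257.Gen.const c, fun _ _ => rfl⟩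
  | lc hχ => exact key _ (hS _ (IfB_641.Gen.lc hχ))
  | of i =>
    rcases i.2 with hi | hi
    · refine ⟨ψ, Skp2_257.Gen.of ψ (Or.inl rfl), fun z hz => ?_⟩
      rw [hi]
      exact (pb_eq h hψ hz).symm
    · exact key _ (hS _ (IfB_641.Gen.of hi))
  | add _ _ h1 h2 =>
    obtain ⟨w1, g1, e1⟩ := h1
    obtain ⟨w2, g2, e2⟩ := h2
    exact ⟨_, Skp2_257.Gen.add _ _ g1 g2, fun z hz => by rw [e1 z hz, e2 z hz]⟩
  | mul _ _ h1 h2 =>
    obtain ⟨w1, g1, e1⟩ := h1
    obtain ⟨w2, g2, e2⟩ := h2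
    exact ⟨_, Skp2_257.Gen.mul _ _ g1 g2, fun z hz => by rw [e1 z hz, e2 z hz]⟩
  | @comp _ f K hh _ h1 =>
    obtain ⟨w1, g1, e1⟩ := h1
    exact ⟨_, Skp2_257.Gen.comp f _ ⟨K, hh⟩ g1, fun z hz => by rw [e1 z hz]⟩

/-- the area form in the picture -/
theorem om_push (hF : Uni Cᶜ p) {u v : ℂ → ℝ} {f k : ℝ × ℝ → ℝ}
    (hu : LocallyLipschitzOn Cᶜ u) (hv : LocallyLipschitzOn Cᶜ v)
    (hf : ∀ z ∈ Cᶜ, f ((p z).re, (p z).im) = u z) (hk : ∀ z ∈ Cᶜ, k ((p z).re, (p z).im) = v z) :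
    IfB_641.om C u v =
      ∫ q in (EP C p)ᶜ, (CF_363.gx f q * CF_363.gy k q - CF_363.gy f q * CF_363.gx k q) := by
  have e1 : EqOn u (toC f ∘ p) Cᶜ := fun z hz => (hf z hz).symm
  have e2 : EqOn v (toC k ∘ p) Cᶜ := fun z hz => (hk z hz).symm
  have l1 : LocallyLipschitzOn (p '' Cᶜ) (toC f) := hF.locLip_comp_iff.1 (locLip_congr e1 hu)
  have l2 : LocallyLipschitzOn (p '' Cᶜ) (toC k) := hF.locLip_comp_iff.1 (locLip_congr e2 hv)
  have l1' : LocallyLipschitzOn (EP C p)ᶜ f := ll_toC_iff.2 l1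
  have l2' : LocallyLipschitzOn (EP C p)ᶜ k := ll_toC_iff.2 l2
  have h1 := hF.integral_wdg hF.op.measurableSet subset_rfl (fun _ => 1)
    (ae_diff_of_locLip hF.isOpen_image l1) (ae_diff_of_locLip hF.isOpen_image l2)
  simp only [one_mul] at h1
  have h2 : IfB_641.om C u v = ∫ z in Cᶜ, Tra_937.wdg (toC f ∘ p) (toC k ∘ p) z :=
    setIntegral_congr_fun hF.op.measurableSet fun z hz => wdg_congr hF.op e1 e2 hz
  rw [h2, h1]
  have h3 := integral_toC (EP C p)ᶜ
    (fun q => CF_363.gx f q * CF_363.gy k q - CF_363.gy f q * CF_363.gx k q)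
  rw [setC_EPc] at h3
  rw [← h3]
  refine integral_congr_ae ?_
  filter_upwards [ae_diff_of_locLip hF.isOpen_image l1, ae_diff_of_locLip hF.isOpen_image l2]
    with z hz1 hz2
  have d1 := diff_toC.1 hz1
  have d2 := diff_toC.1 hz2
  unfold Tra_937.wdg
  rw [gx_toC d1, gx_toC d2, gy_toC d1, gy_toC d2, dx_eq d1, dx_eq d2, dy_eq d1, dy_eq d2]
  rfl

/-- the E-L integral in the picture -/
theorem di_push (hF : Uni Cᶜ p) (h : EndMap Cᶜ (p '' Cᶜ) p) {x : ℂ → ℝ}
    (hx : ∀ z ∈ Cᶜ, (p z).re = x z) (hψ : LocallyLipschitzOn (EP C p)ᶜ ψ) :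
    IfB_641.di C x (pb C p ψ) = ∫ q in (EP C p)ᶜ, CF_363.gx ψ q := by
  have h1 : ∫ z in Cᶜ, Tra_937.dot x (pull Cᶜ p (toC ψ)) z = _ :=
    integral_dot_re_pull h hF (x := x) (fun z hz => (hx z hz).symm) (ll_toC hψ)
  have h2 : IfB_641.di C x (pb C p ψ) = ∫ z in Cᶜ, Tra_937.dot x (pull Cᶜ p (toC ψ)) z := rfl
  rw [h2, h1]
  have h3 := integral_toC (EP C p)ᶜ (fun q => CF_363.gx ψ q)
  rw [setC_EPc] at h3
  rw [← h3]
  refine integral_congr_ae ?_
  filter_upwards [ae_diff_of_locLip hF.isOpen_image (ll_toC hψ)] with z hz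
  have d1 := diff_toC.1 hz
  rw [gx_toC d1, dx_eq d1]
  rfl

end

/-- **ELP** -/
theorem elp : ELP := by
  intro C x0 b φ p h hp hi hnull hpl ψ hψ hiso
  have hE := Mid_987.Pk.endMap h hp hi
  have hF := uni h hp hi
  have hC := td' h
  have hr : Reg (EP C p) ψ := by
    rcases hψ with hψ | hψ
    · exact hψ.1
    · exact hψ.1
  have hT := pb_t1 hF hE hC hψ
  obtain ⟨c, hc⟩ := hp.inf
  have hcpt := pb_cpt hE h.td.cpt (Mid_987.tendsto_cocompact hc) hr
  have hq : ∀ s ∈ insert (pb C p ψ) (insert φ (range b)), IfB_641.Q C s := by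
    rintro s (rfl | hs)
    · exact Mid_987.T1.toQ hT
    · exact Mid_987.Pk.q h s hs
  have hI : IfB_641.Iso C (insert (pb C p ψ) (insert φ (range b))) := by
    intro u v hu hv
    obtain ⟨f, gf, ef⟩ := gen_push hE hr.lip hpl hu
    obtain ⟨k, gk, ek⟩ := gen_push hE hr.lip hpl hv
    rw [om_push hF (IfB_641.Gen.q h.td.cpt.isClosed hq hu).loc
      (IfB_641.Gen.q h.td.cpt.isClosed hq hv).loc ef ek]
    exact hiso f k gf gk
  have h1 := (Mid_987.Pk.el_cpt h hT hcpt hI).2
  rw [← di_push hF hE (x := fun z => x0 z + φ z) (fun z hz => hp.re z hz) hr.lip]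
  exact h1

end Crest.Agent.R105.Adp_987
end

-- ▼ part R105/Padp1_987
section

/-!
# Row 105, [B]: PADP = the algebra `Gen C (insert φ (range b))` seen in the picture (helper987)

* `exists_pi` : the collapsing map
* `padp` : `PicAlg (EP C p) (PA C π (insert φ (range b)))` (868's literal `Pln0_868`)
* `pln_of`, `planp_of` : PLN (Skp4_257) and PLANP (IfB1_641) from theorems on `PicAlg`
-/

set_option autoImplicit false

open MeasureTheory Set Filter Topology Metric
open scoped NNReal ContDiff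

namespace Crest.Agent.R105.Padp_987

open Crest.AnalysisR Crest.Agent.R105.Skp2_257 Crest.Agent.R105.Skp3_257
  Crest.Agent.R105.Skp4_257 Crest.Agent.R105.Tra_937 Crest.Agent.R105.Adp_987
open Crest.Agent.R105.Ends_897 (eF EndMap)
open Crest.Agent.R105.Pln_868 (PicAlg Cut)

/-- the collapsing map of the picture -/
structure IsPi (C : Set ℂ) (p π : ℂ → ℂ) : Prop where
  cont : Continuous π
  left : ∀ z ∈ Cᶜ, π (p z) = z
  mem : ∀ ζ ∉ p '' Cᶜ, π ζ ∈ C
  val : ∀ z ∉ Cᶜ, ∀ ζ ∉ p '' Cᶜ, map p (eF Cᶜ z) = eF (p '' Cᶜ) ζ → π ζ = z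
  cst : ∀ ζ ∉ p '' Cᶜ, ∀ ζ' ∈ connectedComponentIn (p '' Cᶜ)ᶜ ζ, π ζ' = π ζ
  fib : ∀ ζ ∉ p '' Cᶜ, ∀ ζ' ∉ p '' Cᶜ, π ζ = π ζ' →
    connectedComponentIn (p '' Cᶜ)ᶜ ζ = connectedComponentIn (p '' Cᶜ)ᶜ ζ'

section
variable {C : Set ℂ} {x0 φ : ℂ → ℝ} {b : ℕ → ℂ → ℝ} {p π : ℂ → ℂ}

theorem exists_pi (h : EndMap Cᶜ (p '' Cᶜ) p) (hC : IsTotallyDisconnected (Cᶜ)ᶜ) :
    ∃ π, IsPi C p π := by
  obtain ⟨π, h1, h2, h3, h4⟩ := Ext_616.exists_transport h (v := fun z => z) continuous_id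
    (fun z hz z' hz' => by
      rw [Pic_442.cc_singleton hC hz] at hz'
      exact hz')
  refine ⟨π, h1, h3, fun ζ hζ => ?_, fun z hz ζ hζ he => h4 z ζ hz hζ he, h2,
    fun ζ hζ ζ' hζ' he => ?_⟩
  · obtain ⟨z, hz, hze⟩ := h.exists_end' hζ
    rw [h4 z ζ hz hζ hze]
    exact not_not.1 hz
  · obtain ⟨z, hz, hze⟩ := h.exists_end' hζ
    obtain ⟨z', hz', hze'⟩ := h.exists_end' hζ'
    have e1 := h4 z ζ hz hζ hze
    have e2 := h4 z' ζ' hz' hζ' hze'
    have e3 : z = z' := by rw [← e1, ← e2, he]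
    subst e3
    exact Ends_897.eF_injective h.hV hζ (hze.symm.trans hze')

/-- `x (π w) = re w` -/
theorem IsPi.x (hπ : IsPi C p π) (h : IfB_641.Pk C x0 b φ) (hp : IfB_641.Cpl C x0 φ p)
    (hi : InjOn p Cᶜ) (w : ℂ) : x0 (π w) + φ (π w) = w.re := by
  have hE := Mid_987.Pk.endMap h hp hi
  by_cases hw : w ∈ p '' Cᶜ
  · obtain ⟨z, hz, rfl⟩ := hw
    rw [hπ.left z hz]
    exact (hp.re z hz).symm
  · obtain ⟨z, hz, hze, hx, -⟩ := Pic_442.cc_vseg hE
      (x := fun z => x0 z + φ z) (fun z hz => xtend h hp hz) hw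
    rw [hπ.val z hz w hw hze]
    exact hx

/-- members of the algebra seen in the picture -/
def PA (C : Set ℂ) (π : ℂ → ℂ) (S : Set (ℂ → ℝ)) (a : ℝ × ℝ → ℝ) : Prop :=
  ∃ u, IfB_641.Gen C S u ∧ ∀ q, a q = u (π (eC q))


theorem pa_on (hπ : IsPi C p π) {a : ℝ × ℝ → ℝ} {u : ℂ → ℝ} (h : ∀ q, a q = u (π (eC q)))
    {z : ℂ} (hz : z ∈ Cᶜ) : a ((p z).re, (p z).im) = u z := by
  rw [h, eC_mk, hπ.left z hz]

/-! ### general transport of locally Lipschitz functions -/

theorem ll_of_on (hF : Uni Cᶜ p) {u : ℂ → ℝ} {f : ℝ × ℝ → ℝ} (hu : LocallyLipschitzOn Cᶜ u)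
    (hf : ∀ z ∈ Cᶜ, f ((p z).re, (p z).im) = u z) : LocallyLipschitzOn (EP C p)ᶜ f := by
  have e1 : EqOn u (toC f ∘ p) Cᶜ := fun z hz => (hf z hz).symm
  exact ll_toC_iff.2 (hF.locLip_comp_iff.1 (locLip_congr e1 hu))

theorem fin_of_on (hF : Uni Cᶜ p) {u : ℂ → ℝ} {f : ℝ × ℝ → ℝ} (hu : IfB_641.Q C u)
    (hf : ∀ z ∈ Cᶜ, f ((p z).re, (p z).im) = u z) : IntegrableOn (CF_363.g2 f) (EP C p)ᶜ := by
  have e1 : EqOn u (toC f ∘ p) Cᶜ := fun z hz => (hf z hz).symm
  have hL : LocallyLipschitzOn (p '' Cᶜ) (toC f) := hF.locLip_comp_iff.1 (locLip_congr e1 hu.loc)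
  have h1 := (hF.integrableOn_en hF.op.measurableSet subset_rfl (fun _ => 1)
    (ae_diff_of_locLip hF.isOpen_image hL)).1
  simp only [one_mul] at h1
  have h2 : IntegrableOn (Tra_937.en (toC f)) (p '' Cᶜ) := h1
    (hu.fin.congr_fun (fun z hz => en_congr hF.op e1 hz) hF.op.measurableSet)
  rw [← integrableOn_toC, setC_EPc]
  refine h2.congr ?_
  filter_upwards [ae_diff_of_locLip hF.isOpen_image hL] with z hz
  have hd := diff_toC.1 hz
  unfold Tra_937.en
  rw [gx_toC hd, gy_toC hd, dx_eq hd, dy_eq hd]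
  rfl

/-- the Dirichlet form with `x` = horizontal derivative in the picture -/
theorem di_on (hF : Uni Cᶜ p) {x u : ℂ → ℝ} {f : ℝ × ℝ → ℝ}
    (hx : ∀ z ∈ Cᶜ, (p z).re = x z) (hu : LocallyLipschitzOn Cᶜ u)
    (hf : ∀ z ∈ Cᶜ, f ((p z).re, (p z).im) = u z) :
    IfB_641.di C x u = ∫ q in (EP C p)ᶜ, CF_363.gx f q := by
  have e1 : EqOn u (toC f ∘ p) Cᶜ := fun z hz => (hf z hz).symm
  have hL : LocallyLipschitzOn (p '' Cᶜ) (toC f) := hF.locLip_comp_iff.1 (locLip_congr e1 hu)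
  have h1 := hF.integral_dot_re hF.op.measurableSet subset_rfl (fun _ => 1)
    (ae_diff_of_locLip hF.isOpen_image hL)
  simp only [one_mul] at h1
  have h2 : IfB_641.di C x u =
      ∫ z in Cᶜ, Tra_937.dot (fun z => (p z).re) (toC f ∘ p) z :=
    setIntegral_congr_fun hF.op.measurableSet
      (dot_congr hF.op (fun z hz => (hx z hz).symm) e1)
  rw [h2, h1]
  have h3 := integral_toC (EP C p)ᶜ (fun q => CF_363.gx f q)
  rw [setC_EPc] at h3
  rw [← h3]
  refine integral_congr_ae ?_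
  filter_upwards [ae_diff_of_locLip hF.isOpen_image hL] with z hz
  have d1 := diff_toC.1 hz
  rw [gx_toC d1, dx_eq d1]
  rfl

/-- the area form with `x` = vertical derivative in the picture -/
theorem om_on (hF : Uni Cᶜ p) {x u : ℂ → ℝ} {f : ℝ × ℝ → ℝ}
    (hx : ∀ z ∈ Cᶜ, (p z).re = x z) (hu : LocallyLipschitzOn Cᶜ u)
    (hf : ∀ z ∈ Cᶜ, f ((p z).re, (p z).im) = u z) :
    IfB_641.om C x u = ∫ q in (EP C p)ᶜ, CF_363.gy f q := by
  have e1 : EqOn u (toC f ∘ p) Cᶜ := fun z hz => (hf z hz).symm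
  have hL : LocallyLipschitzOn (p '' Cᶜ) (toC f) := hF.locLip_comp_iff.1 (locLip_congr e1 hu)
  have h1 := hF.integral_wdg_re hF.op.measurableSet subset_rfl (fun _ => 1)
    (ae_diff_of_locLip hF.isOpen_image hL)
  simp only [one_mul] at h1
  have h2 : IfB_641.om C x u =
      ∫ z in Cᶜ, Tra_937.wdg (fun z => (p z).re) (toC f ∘ p) z :=
    setIntegral_congr_fun hF.op.measurableSet
      (wdg_congr hF.op (fun z hz => (hx z hz).symm) e1)
  rw [h2, h1]
  have h3 := integral_toC (EP C p)ᶜ (fun q => CF_363.gy f q)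
  rw [setC_EPc] at h3
  rw [← h3]
  refine integral_congr_ae ?_
  filter_upwards [ae_diff_of_locLip hF.isOpen_image hL] with z hz
  have d1 := diff_toC.1 hz
  rw [gy_toC d1, dy_eq d1]
  rfl

theorem cpt_of_on (hCc : IsCompact C) (hinf : Tendsto p (cocompact ℂ) (cocompact ℂ))
    {u : ℂ → ℝ} {f : ℝ × ℝ → ℝ} (hc : HasCompactSupport f)
    (hf : ∀ z ∈ Cᶜ, f ((p z).re, (p z).im) = u z) : HasCompactSupport u := by
  have h1 : ∀ᶠ w in cocompact ℂ, toC f w = 0 := by
    have h2 : HasCompactSupport (toC f) := by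
      rw [toC_eq]
      exact hc.comp_homeomorph Complex.equivRealProdCLM.toHomeomorph
    filter_upwards [h2.isCompact.compl_mem_cocompact] with w hw
    exact image_eq_zero_of_notMem_tsupport hw
  have h2 : ∀ᶠ z in cocompact ℂ, toC f (p z) = 0 := hinf.eventually h1
  have h3 : ∀ᶠ z in cocompact ℂ, z ∈ Cᶜ := hCc.compl_mem_cocompact
  obtain ⟨K, hK, hKs⟩ := mem_cocompact.1 (h2.and h3)
  refine HasCompactSupport.intro hK fun z hz => ?_
  obtain ⟨e1, e2⟩ := hKs hz
  rw [← hf z e2]; exact e1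

/-! ### cut-offs -/

/-- a cut-off of the picture is constant near every component -/
theorem cut_const {κ : ℝ × ℝ → ℝ} (hκ : Cut (EP C p) κ) {ζ : ℂ} (hζ : ζ ∉ p '' Cᶜ) :
    ∀ᶠ w in eF (p '' Cᶜ) ζ, toC κ w = toC κ ζ := by
  set K := connectedComponentIn (p '' Cᶜ)ᶜ ζ with hK
  have hlc : ∀ w ∈ K, ∀ᶠ y in 𝓝 w, toC κ y = toC κ w := by
    intro w hw
    have hwE : (w.re, w.im) ∈ EP C p := by
      simp only [EP, mem_preimage, eC_mk]
      exact connectedComponentIn_subset _ _ hw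
    have h1 := hκ.lc _ hwE
    have h2 : Tendsto (fun y : ℂ => (y.re, y.im)) (𝓝 w) (𝓝 (w.re, w.im)) :=
      (Complex.equivRealProdCLM.continuous.tendsto w)
    exact h2.eventually h1
  have hcont : Continuous (toC κ) := by
    obtain ⟨L, hL⟩ := hκ.lip
    exact continuous_toC.2 hL.continuous
  have hconst : ∀ w ∈ K, toC κ w = toC κ ζ := by
    intro w hw
    by_contra hne
    have hpre : IsPreconnected K := isPreconnected_connectedComponentIn
    have hcov : K ⊆ interior {y | toC κ y = toC κ ζ} ∪ {y | toC κ y ≠ toC κ ζ} := by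
      intro y hy
      by_cases h : toC κ y = toC κ ζ
      · left
        refine mem_interior_iff_mem_nhds.2 ?_
        filter_upwards [hlc y hy] with u hu
        exact hu.trans h
      · exact Or.inr h
    obtain ⟨y, -, hy1, hy2⟩ := hpre (interior {y | toC κ y = toC κ ζ}) {y | toC κ y ≠ toC κ ζ}
      isOpen_interior (isOpen_ne_fun hcont continuous_const) hcov
      ⟨ζ, mem_connectedComponentIn hζ, mem_interior_iff_mem_nhds.2
        (hlc ζ (mem_connectedComponentIn hζ))⟩ ⟨w, hw, hne⟩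
    exact hy2 (interior_subset (s := {y | toC κ y = toC κ ζ}) hy1)
  refine mem_inf_of_left (mem_nhdsSet_iff_forall.2 fun w hw => ?_)
  filter_upwards [hlc w hw] with y hy
  rw [hy, hconst w hw]

theorem cut_tendsto {κ : ℝ × ℝ → ℝ} (hκ : Cut (EP C p) κ) {ζ : ℂ} (hζ : ζ ∉ p '' Cᶜ) :
    Tendsto (toC κ) (eF (p '' Cᶜ) ζ) (𝓝 (toC κ ζ)) :=
  tendsto_const_nhds.congr' ((cut_const hκ hζ).mono fun _ h => h.symm)

theorem cut_ll {κ : ℝ × ℝ → ℝ} (hκ : Cut (EP C p) κ) : LocallyLipschitzOn (EP C p)ᶜ κ := by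
  obtain ⟨L, hL⟩ := hκ.lip
  exact fun z _ => ⟨L, univ, univ_mem, hL.lipschitzOnWith⟩

theorem cut_pi (h : EndMap Cᶜ (p '' Cᶜ) p) (hC : IsTotallyDisconnected (Cᶜ)ᶜ)
    (hπ : IsPi C p π) {κ : ℝ × ℝ → ℝ} (hκ : Cut (EP C p) κ) (w : ℂ) :
    pb C p κ (π w) = toC κ w := by
  by_cases hw : w ∈ p '' Cᶜ
  · obtain ⟨z, hz, rfl⟩ := hw
    rw [hπ.left z hz, pb_eq h (cut_ll hκ) hz]; rfl
  · obtain ⟨z, hz, hze⟩ := h.exists_end' hw
    rw [hπ.val z hz w hw hze]
    exact pull_at hC hz hze (cut_tendsto hκ hw)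

theorem cut_cont (h : EndMap Cᶜ (p '' Cᶜ) p) (hC : IsTotallyDisconnected (Cᶜ)ᶜ)
    {κ : ℝ × ℝ → ℝ} (hκ : Cut (EP C p) κ) : Continuous (pb C p κ) :=
  pull_continuous h hC (ll_toC (cut_ll hκ)).continuousOn fun _ hζ => ⟨_, cut_tendsto hκ hζ⟩

theorem cut_lc (h : EndMap Cᶜ (p '' Cᶜ) p) (hC : IsTotallyDisconnected (Cᶜ)ᶜ)
    {κ : ℝ × ℝ → ℝ} (hκ : Cut (EP C p) κ) {z : ℂ} (hz : z ∈ C) :
    ∀ᶠ w in 𝓝 z, pb C p κ w = pb C p κ z := by
  have hz' : z ∉ Cᶜ := not_not.2 hz
  obtain ⟨ζ, hζ, he⟩ := h.exists_end hz'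
  have h1 := cut_const hκ hζ
  have h2 : pb C p κ z = toC κ ζ := pull_at hC hz' he (cut_tendsto hκ hζ)
  rw [← he, eF_point hC hz', eventually_map] at h1
  obtain ⟨G, hG, hzG, hGs⟩ := mem_nhdsWithin.1 h1
  filter_upwards [hG.mem_nhds hzG] with w hw
  rw [h2]
  have h3 : w ∈ closure (G ∩ Cᶜ) := by
    have hd : Dense Cᶜ := fun y => by rw [closure_univ hC]; exact mem_univ y
    exact hd.open_subset_closure_inter hG hw
  have h4 : IsClosed {y | pb C p κ y = toC κ ζ} := isClosed_eq (cut_cont h hC hκ) continuous_const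
  refine (h4.closure_subset_iff.2 ?_) h3
  rintro y ⟨hy1, hy2⟩
  rw [mem_ofPred_eq, pb_eq h (cut_ll hκ) hy2]
  exact hGs ⟨hy1, hy2⟩

theorem cut_isLC (hF : Uni Cᶜ p) (h : EndMap Cᶜ (p '' Cᶜ) p) (hC : IsTotallyDisconnected (Cᶜ)ᶜ)
    (hCc : IsCompact C) (hinf : Tendsto p (cocompact ℂ) (cocompact ℂ))
    {κ : ℝ × ℝ → ℝ} (hκ : Cut (EP C p) κ) :
    IfB_641.LC C (pb C p κ) ∧ HasCompactSupport (pb C p κ) := by
  have hc : HasCompactSupport (pb C p κ) := cpt_of_on hCc hinf hκ.cpt fun z hz =>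
    (pb_eq h (cut_ll hκ) hz).symm
  refine ⟨Bd_775.LC.of_compact ?_ hc fun z hz => cut_lc h hC hκ hz, hc⟩
  intro z
  by_cases hz : z ∈ C
  · refine ⟨0, _, cut_lc h hC hκ hz, LipschitzOnWith.of_dist_le_mul fun a ha b hb => ?_⟩
    rw [mem_ofPred_eq] at ha hb
    rw [ha, hb]; simp
  · obtain ⟨K, t, ht, h2⟩ := pb_loc hF h (cut_ll hκ) hz
    rw [hF.op.nhdsWithin_eq hz] at ht
    exact ⟨K, t, ht, h2⟩

/-! ### PADP -/

/-- **PADP** -/
theorem padp (h : IfB_641.Pk C x0 b φ) (hp : IfB_641.Cpl C x0 φ p) (hi : InjOn p Cᶜ)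
    (hnull : volume (p '' Cᶜ)ᶜ = 0) (hπ : IsPi C p π) :
    PicAlg (EP C p) (PA C π (insert φ (range b))) := by
  have hE := Mid_987.Pk.endMap h hp hi
  have hF := uni h hp hi
  have hC := td' h
  have hPic := picp C x0 b φ p h hp hi hnull
  obtain ⟨c, hc⟩ := hp.inf
  have hinf := Mid_987.tendsto_cocompact hc
  have hQ : ∀ u, IfB_641.Gen C (insert φ (range b)) u → IfB_641.Q C u := fun u hu =>
    IfB_641.Gen.q h.td.cpt.isClosed (Mid_987.Pk.q h) hu
  refine ⟨hPic.cpt, hPic.null, ?_, ?_, ?_, ?_, ?_, ?_, ?_, ?_, ?_, ?_, ?_, ?_⟩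
  · intro q hq r hr
    have hq' : eC q ∉ p '' Cᶜ := hq
    obtain ⟨z, -, -, -, b', t, hbt, hcc⟩ := Pic_442.cc_vseg hE
      (x := fun z => x0 z + φ z) (fun z hz => xtend h hp hz) hq'
    rw [cc_EP hq, hcc] at hr
    have := hr.1
    rwa [eC_re, eC_re] at this
  · rintro a ⟨u, hu, ha⟩
    have : a = fun q => u (π (eC q)) := funext ha
    rw [this]
    exact (Mid_987.Gen.cont (Mid_987.Pk.cont h) hu).comp (hπ.cont.comp eC.continuous)
  · rintro a ⟨u, hu, ha⟩
    exact ll_of_on hF (hQ u hu).loc fun z hz => pa_on hπ ha hz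
  · rintro a ⟨u, hu, ha⟩
    exact fin_of_on hF (hQ u hu) fun z hz => pa_on hπ ha hz
  · rintro a ⟨u, hu, ha⟩ q hq r hr
    rw [cc_EP hq] at hr
    rw [ha, ha, hπ.cst (eC q) hq (eC r) hr]
  · intro c
    exact ⟨fun _ => c, IfB_641.Gen.const c, fun _ => rfl⟩
  · rintro a a' ⟨u, hu, ha⟩ ⟨u', hu', ha'⟩
    exact ⟨_, IfB_641.Gen.add hu hu', fun q => by simp only [ha, ha']⟩
  · rintro a a' ⟨u, hu, ha⟩ ⟨u', hu', ha'⟩
    exact ⟨_, IfB_641.Gen.mul hu hu', fun q => by simp only [ha, ha']⟩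
  · rintro f ⟨L, hL⟩ a ⟨u, hu, ha⟩
    exact ⟨_, IfB_641.Gen.comp hL hu, fun q => by simp only [ha]⟩
  · rintro κ hκ f ⟨L, hL⟩
    obtain ⟨k1, k2⟩ := cut_isLC hF hE hC h.td.cpt hinf hκ
    refine ⟨_, Mid_987.Pk.gen_comp_mul h hL (IfB_641.Gen.lc k1) k2, fun q => ?_⟩
    rw [hπ.x h hp hi, cut_pi hE hC hπ hκ, eC_re, mul_comm]
    have : toC κ (eC q) = κ q := by unfold toC; rw [eC_re, eC_im]
    rw [this]
  · rintro a ⟨u, hu, ha⟩ hac
    have hon : ∀ z ∈ Cᶜ, a ((p z).re, (p z).im) = u z := fun z hz => pa_on hπ ha hz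
    have huc := cpt_of_on h.td.cpt hinf hac hon
    rw [← di_on hF (x := fun z => x0 z + φ z) (fun z hz => hp.re z hz) (hQ u hu).loc hon]
    exact (Mid_987.Pk.el_gen h hu huc).2
  · rintro a ⟨u, hu, ha⟩ hac
    have hon : ∀ z ∈ Cᶜ, a ((p z).re, (p z).im) = u z := fun z hz => pa_on hπ ha hz
    have huc := cpt_of_on h.td.cpt hinf hac hon
    rw [← om_on hF (x := fun z => x0 z + φ z) (fun z hz => hp.re z hz) (hQ u hu).loc hon]
    obtain ⟨κ, hκ, hκc, -, hκ1, -⟩ := Mid_987.exists_cut_in (huc.isCompact.union h.td.cpt)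
      isOpen_univ (subset_univ _)
    have h1 : ∀ z ∈ C, ∀ᶠ w in 𝓝 z, κ w = κ z := by
      intro z hz
      have h2 := hκ1 z (Or.inr hz)
      filter_upwards [h2] with w hw
      rw [hw, h2.self_of_nhds]
    rw [← h.iso _ _ (Mid_987.Pk.gen_mul h hκ hκc h1) hu]
    refine setIntegral_congr_fun hF.op.measurableSet fun z hz => ?_
    by_cases hzu : z ∈ tsupport u
    · refine Bd_775.wdg_eq_of_eventuallyEq ?_ EventuallyEq.rfl
      filter_upwards [hκ1 z (Or.inl hzu)] with w hw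
      rw [hw, one_mul]
    · have h3 : u =ᶠ[𝓝 z] fun _ => (0 : ℝ) := notMem_tsupport_iff_eventuallyEq.1 hzu
      simp only [Bd_775.wdg, Bd_775.gx_eq_of_eventuallyEq h3, Bd_775.gy_eq_of_eventuallyEq h3,
        Bd_775.gx_const, Bd_775.gy_const, mul_zero, sub_zero]

end

/-! ### PLN and PLANP from theorems on `PicAlg` -/

/-- strong planarity of a picture algebra -/
def ACP : Prop :=
  ∀ (E : Set (ℝ × ℝ)) (A : (ℝ × ℝ → ℝ) → Prop), PicAlg E A → ∀ a, A a →
    (∀ᵐ y : ℝ, ∀ s t : ℝ, IntervalIntegrable (fun x => CF_363.gx a (x, y)) volume s t ∧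
      a (t, y) - a (s, y) = ∫ x in s..t, CF_363.gx a (x, y)) ∧
    (∀ᵐ x : ℝ, ∀ s t : ℝ, IntervalIntegrable (fun y => CF_363.gy a (x, y)) volume s t ∧
      a (x, t) - a (x, s) = ∫ y in s..t, CF_363.gy a (x, y))

theorem pln_of (H : ACP) : PLN := by
  intro C x0 b φ p h hp hi hnull u hu
  have hE := Mid_987.Pk.endMap h hp hi
  obtain ⟨π, hπ⟩ := exists_pi hE (td' h)
  have hP := padp h hp hi hnull hπ
  have hA : PA C π (insert φ (range b)) (fun q => u (π (eC q))) := ⟨u, hu, fun _ => rfl⟩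
  obtain ⟨h1, h2⟩ := H _ _ hP _ hA
  obtain ⟨M, hM⟩ := (IfB_641.Gen.q h.td.cpt.isClosed (Mid_987.Pk.q h) hu).bdd
  refine ⟨_, ⟨⟨⟨M, fun q => hM _⟩, (hP.cont _ hA).continuousOn, hP.loc _ hA, hP.fin _ hA, ?_, ?_⟩,
    ?_⟩, fun z hz => pa_on hπ (fun _ => rfl) hz⟩
  · filter_upwards [h1] with y hy s t _ _
    exact hy s t
  · filter_upwards [h2] with x hx s t _ _
    exact hx s t
  · rintro P ⟨q, hq, rfl⟩ r hr r' hr'
    exact (hP.cst _ hA q hq r hr).trans (hP.cst _ hA q hq r' hr').symm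

/-- weak planarity of a picture algebra -/
def WKP : Prop :=
  ∀ (E : Set (ℝ × ℝ)) (A : (ℝ × ℝ → ℝ) → Prop), PicAlg E A → ∀ a, A a →
    ∀ χ : ℝ × ℝ → ℝ, ContDiff ℝ ∞ χ → HasCompactSupport χ →
      ∫ q in Eᶜ, CF_363.gx (fun r => a r * χ r) q = 0 ∧
      ∫ q in Eᶜ, CF_363.gy (fun r => a r * χ r) q = 0

theorem planp_of (H : WKP) : IfB_641.PLANP := by
  intro C x0 b φ p h hp hi hnull u hu χ hχ hχc
  have hE := Mid_987.Pk.endMap h hp hi
  have hF := uni h hp hi
  obtain ⟨π, hπ⟩ := exists_pi hE (td' h)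
  have hP := padp h hp hi hnull hπ
  have hA : PA C π (insert φ (range b)) (fun q => u (π (eC q))) := ⟨u, hu, fun _ => rfl⟩
  have heC : ContDiff ℝ ∞ (eC : ℝ × ℝ → ℂ) := Complex.equivRealProdCLM.symm.contDiff
  have hχ' : ContDiff ℝ ∞ (fun q : ℝ × ℝ => χ (eC q)) := hχ.comp heC
  have hχc' : HasCompactSupport (fun q : ℝ × ℝ => χ (eC q)) := hχc.comp_homeomorph eC
  obtain ⟨h1, h2⟩ := H _ _ hP _ hA _ hχ' hχc'
  have hQ := IfB_641.Gen.q h.td.cpt.isClosed (Mid_987.Pk.q h) hu
  have hon : ∀ z ∈ Cᶜ, (fun q => u (π (eC q)) * χ (eC q)) ((p z).re, (p z).im) =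
      u z * χ (p z) := by
    intro z hz
    simp only [eC_mk]
    rw [hπ.left z hz]
  have hll : LocallyLipschitzOn Cᶜ (fun z => u z * χ (p z)) := by
    obtain ⟨M, hM⟩ := hQ.bdd
    obtain ⟨N, hN⟩ := hχc.isCompact.exists_bound_of_continuousOn hχ.continuous.continuousOn
    have hN' : ∀ z, |χ z| ≤ max N 0 := by
      intro z
      by_cases hz : z ∈ tsupport χ
      · exact (hN z hz).trans (le_max_left _ _)
      · rw [image_eq_zero_of_notMem_tsupport hz, abs_zero]; exact le_max_right _ _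
    refine Bd_775.ll_mul (M := max M (max N 0)) hQ.loc ?_ (fun z => (hM z).trans (le_max_left _ _))
      (fun z => (hN' _).trans (le_max_right _ _))
    exact hF.locLip_comp (Mid_987.ll_on (Mid_987.ll_smooth hχ) _)
  constructor
  · rw [di_on hF (x := fun z => x0 z + φ z) (f := fun q => u (π (eC q)) * χ (eC q))
      (fun z hz => hp.re z hz) hll hon]
    exact h1
  · rw [om_on hF (x := fun z => x0 z + φ z) (f := fun q => u (π (eC q)) * χ (eC q))
      (fun z hz => hp.re z hz) hll hon]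
    exact h2

end Crest.Agent.R105.Padp_987
end

-- ▼ part R105/Pln4_868

/-!
# Row 105: `ACP`, `WKP`, hence `Skp4_257.PLN` and `IfB_641.PLANP`
-/

namespace Crest.Agent.R105.Pln_868

open Set Filter MeasureTheory Topology
open CF_363
open scoped NNReal ContDiff

noncomputable section

/-- product of an absolutely continuous function and a smooth one, on a line -/
theorem line_zero {α β χ : ℝ → ℝ} (hd : ∀ᵐ x, HasDerivAt α (β x) x)
    (hi : ∀ s t : ℝ, IntervalIntegrable β volume s t ∧ α t - α s = ∫ x in s..t, β x)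
    (hχ : ContDiff ℝ 1 χ) {R : ℝ} (h0 : χ (-R) = 0) (h1 : χ R = 0) :
    ∫ x in (-R)..R, (β x * χ x + α x * deriv χ x) = 0 := by
  have hα : AbsolutelyContinuousOnInterval α (-R) R := by
    have h2 : α = fun t => α (-R) + ∫ x in (-R)..t, β x := by
      funext t
      rw [← (hi (-R) t).2]; ring
    rw [h2]
    have h3 : AbsolutelyContinuousOnInterval (fun t => ∫ x in (-R)..t, β x) (-R) R :=
      (hi (-R) R).1.absolutelyContinuousOnInterval_intervalIntegral left_mem_uIcc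
    have h4 : AbsolutelyContinuousOnInterval (fun _ : ℝ => α (-R)) (-R) R :=
      (LipschitzWith.const (α (-R))).lipschitzOnWith.absolutelyContinuousOnInterval
    exact h4.add h3
  have hχa : AbsolutelyContinuousOnInterval χ (-R) R := by
    obtain ⟨K, hK⟩ := (hχ.locallyLipschitz.locallyLipschitzOn
      (s := uIcc (-R) R)).exists_lipschitzOnWith_of_compact isCompact_uIcc
    exact hK.absolutelyContinuousOnInterval
  have h2 := hα.integral_deriv_mul_eq_sub hχa
  rw [h0, h1] at h2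
  simp only [mul_zero, sub_zero] at h2
  rw [← h2]
  refine intervalIntegral.integral_congr_ae ?_
  filter_upwards [hd] with x hx _
  rw [hx.deriv]

variable {E : Set (ℝ × ℝ)} {A : (ℝ × ℝ → ℝ) → Prop} {a χ : ℝ × ℝ → ℝ}

theorem exists_box (hχc : HasCompactSupport χ) :
    ∃ R : ℝ, 0 < R ∧ ∀ p ∈ tsupport χ, |p.1| < R ∧ |p.2| < R := by
  obtain ⟨R, hR⟩ := hχc.isCompact.isBounded.exists_norm_le
  refine ⟨|R| + 1, by positivity, fun p hp => ?_⟩
  have h1 := hR p hp
  have h2 := le_abs_self R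
  exact ⟨by have := norm_fst_le p; rw [Real.norm_eq_abs] at this; linarith,
    by have := norm_snd_le p; rw [Real.norm_eq_abs] at this; linarith⟩

theorem bdd_of_cpt (hc : Continuous χ) (hχc : HasCompactSupport χ) : ∃ M, ∀ p, ‖χ p‖ ≤ M :=
  hc.bounded_above_of_compact_support hχc

theorem gx_smooth (hχ : ContDiff ℝ ∞ χ) (hχc : HasCompactSupport χ) :
    Continuous (gx χ) ∧ HasCompactSupport (gx χ) ∧ Continuous (gy χ) ∧ HasCompactSupport (gy χ) := by
  have h1 : Continuous (fderiv ℝ χ) := hχ.continuous_fderiv (by simp)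
  have h2 : HasCompactSupport (fderiv ℝ χ) := hχc.fderiv (𝕜 := ℝ)
  refine ⟨h1.clm_apply continuous_const, h2.mono fun x hx => ?_, h1.clm_apply continuous_const,
    h2.mono fun x hx => ?_⟩
  · intro h0; exact hx (by simp [gx, h0])
  · intro h0; exact hx (by simp [gy, h0])

theorem wk (h : PicAlg E A) (ha : A a) (hχ : ContDiff ℝ ∞ χ) (hχc : HasCompactSupport χ) :
    ∫ q in Eᶜ, gx (fun r => a r * χ r) q = 0 ∧ ∫ q in Eᶜ, gy (fun r => a r * χ r) q = 0 := by
  obtain ⟨R, hR, hRχ⟩ := exists_box hχc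
  obtain ⟨cx, sx, cy, sy⟩ := gx_smooth hχ hχc
  have hcont := h.cont a ha
  have hχd : ∀ p, DifferentiableAt ℝ χ p := fun p => (hχ.differentiable (by simp)).differentiableAt
  have hz : ∀ p, p ∉ tsupport χ → χ p = 0 ∧ gx χ p = 0 ∧ gy χ p = 0 := fun p hp => by
    have h1 : χ =ᶠ[𝓝 p] fun _ => 0 := notMem_tsupport_iff_eventuallyEq.1 hp
    exact ⟨h1.self_of_nhds, by rw [gx_congr h1, gx_const], by rw [gy_congr h1, gy_const]⟩
  obtain ⟨M, hM⟩ := bdd_of_cpt hχ.continuous hχc
  have hvt : volume (tsupport χ) ≠ ⊤ := hχc.isCompact.measure_lt_top.ne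
  rw [h.vol_eq]
  constructor
  · have e1 : ∀ᵐ p : ℝ × ℝ, gx (fun r => a r * χ r) p = gx a p * χ p + a p * gx χ p := by
      filter_upwards [h.aeDiff ha] with p hp
      rw [gx_mul hp (hχd p)]; ring
    have i1 : Integrable (fun p => gx a p * χ p) := by
      have j1 : IntegrableOn (fun p => gx a p * χ p) (tsupport χ) :=
        (h.intOn_gx ha hvt).mul_bdd (c := M) hχ.continuous.aestronglyMeasurable
          (Eventually.of_forall hM)
      exact j1.integrable_of_forall_notMem_eq_zero fun p hp => by rw [(hz p hp).1, mul_zero]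
    have i2 : Integrable (fun p => a p * gx χ p) :=
      (hcont.mul cx).integrable_of_hasCompactSupport sx.mul_left
    have i3 : Integrable (fun p : ℝ × ℝ => gx a p * χ p + a p * gx χ p) := i1.add i2
    rw [integral_congr_ae e1, Measure.volume_eq_prod]
    rw [Measure.volume_eq_prod] at i3
    rw [integral_prod_symm _ i3]
    refine integral_eq_zero_of_ae ?_
    filter_upwards [h.hor ha, ae_swap (h.aeDiff ha)] with y hy hdy
    have k1 := line_zero (α := fun x => a (x, y)) (β := fun x => gx a (x, y))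
      (χ := fun x => χ (x, y)) (R := R) (by
        filter_upwards [hdy] with x hx
        exact gx_eq_deriv hx) hy ((hχ.of_le (by simp)).comp (by fun_prop))
      (hz _ fun hp => by have := (hRχ _ hp).1; simp [abs_of_pos hR] at this).1
      (hz _ fun hp => by have := (hRχ _ hp).1; simp [abs_of_pos hR] at this).1
    have k2 : ∀ x, deriv (fun x => χ (x, y)) x = gx χ (x, y) := fun x =>
      (gx_eq_deriv (hχd (x, y))).deriv
    simp only [k2] at k1
    rw [Pi.zero_apply, ← k1, intervalIntegral.integral_of_le (by linarith),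
      setIntegral_eq_integral_of_forall_compl_eq_zero]
    intro x hx
    have : (x, y) ∉ tsupport χ := fun hp => hx (by
      have := (hRχ _ hp).1
      rw [abs_lt] at this
      exact ⟨this.1, this.2.le⟩)
    rw [(hz _ this).1, (hz _ this).2.1]; ring
  · have e1 : ∀ᵐ p : ℝ × ℝ, gy (fun r => a r * χ r) p = gy a p * χ p + a p * gy χ p := by
      filter_upwards [h.aeDiff ha] with p hp
      rw [gy_mul hp (hχd p)]; ring
    have i1 : Integrable (fun p => gy a p * χ p) := by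
      have j1 : IntegrableOn (fun p => gy a p * χ p) (tsupport χ) :=
        (h.intOn_gy ha hvt).mul_bdd (c := M) hχ.continuous.aestronglyMeasurable
          (Eventually.of_forall hM)
      exact j1.integrable_of_forall_notMem_eq_zero fun p hp => by rw [(hz p hp).1, mul_zero]
    have i2 : Integrable (fun p => a p * gy χ p) :=
      (hcont.mul cy).integrable_of_hasCompactSupport sy.mul_left
    have i3 : Integrable (fun p : ℝ × ℝ => gy a p * χ p + a p * gy χ p) := i1.add i2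
    rw [integral_congr_ae e1, Measure.volume_eq_prod]
    rw [Measure.volume_eq_prod] at i3
    rw [integral_prod _ i3]
    refine integral_eq_zero_of_ae ?_
    filter_upwards [Pv_937.ver h ha, ae_unswap (h.aeDiff ha)] with x hx hdx
    have k1 := line_zero (α := fun y => a (x, y)) (β := fun y => gy a (x, y))
      (χ := fun y => χ (x, y)) (R := R) (by
        filter_upwards [hdx] with y hy
        exact gy_eq_deriv hy) hx ((hχ.of_le (by simp)).comp (by fun_prop))
      (hz _ fun hp => by have := (hRχ _ hp).2; simp [abs_of_pos hR] at this).1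
      (hz _ fun hp => by have := (hRχ _ hp).2; simp [abs_of_pos hR] at this).1
    have k2 : ∀ y, deriv (fun y => χ (x, y)) y = gy χ (x, y) := fun y =>
      (gy_eq_deriv (hχd (x, y))).deriv
    simp only [k2] at k1
    rw [Pi.zero_apply, ← k1, intervalIntegral.integral_of_le (by linarith),
      setIntegral_eq_integral_of_forall_compl_eq_zero]
    intro y hy
    have : (x, y) ∉ tsupport χ := fun hp => hy (by
      have := (hRχ _ hp).2
      rw [abs_lt] at this
      exact ⟨this.1, this.2.le⟩)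
    rw [(hz _ this).1, (hz _ this).2.2]; ring

theorem wkp : Padp_987.WKP := fun _ _ h _ ha _ hχ hχc => wk h ha hχ hχc

theorem planp : IfB_641.PLANP := Padp_987.planp_of wkp

theorem acp : Padp_987.ACP := fun _ _ h _ ha => ⟨h.hor ha, Pv_937.ver h ha⟩

theorem pln : Skp4_257.PLN := Padp_987.pln_of acp

end

end Crest.Agent.R105.Pln_868
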