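import Crest.Agent.R105.Red2_828
import Crest.Agent.R105.Pth2_988
import Crest.Agent.R105.Rd0_557
import Mathlib
import Crest.Agent.R105.Ends1_897
import Crest.Agent.R281.Mx1_405

-- ▼ part R105/End139a_279
section

/-!
# Row 105 (S0139), the end of RED (helper279)

`eq_id_of_flux` : area identity (change of variables against a bump function) + flux inequality ==> `f = z`
(#9406 (5), #9417 (5)).
-/

set_option autoImplicit false

open Set Filter Metric MeasureTheory Topology
open scoped Topology Real ContDiff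
open Crest.AnalysisR

namespace Crest.Agent.R105.End139_279

/-- the exterior of a disc is connected -/
theorem isExteriorDomain_norm_gt (R : ℝ) : IsExteriorDomain {z : ℂ | R < ‖z‖} := by
  refine ⟨isOpen_lt continuous_const continuous_norm, ?_, R, fun z hz => hz⟩
  have h1 : {z : ℂ | R < ‖z‖} =
      (fun p : ℝ × ℝ => (p.1 : ℂ) * Complex.exp (p.2 * Complex.I)) '' (Ioi R ×ˢ univ) := by
    ext z
    constructor
    · intro hz
      exact ⟨(‖z‖, z.arg), ⟨hz, mem_univ _⟩, Complex.norm_mul_exp_arg_mul_I z⟩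
    · rintro ⟨⟨a, b⟩, ⟨ha, -⟩, rfl⟩
      have ha' : R < a := ha
      simp only [mem_ofPred_eq, norm_mul, Complex.norm_real, Complex.norm_exp_ofReal_mul_I, mul_one,
        Real.norm_eq_abs]
      exact ha'.trans_le (le_abs_self a)
  rw [h1]
  refine (isConnected_Ioi.prod isConnected_univ).image _ ?_
  fun_prop

/-- decay of `f - z` and of its derivative at infinity -/
theorem decay {U : Set ℂ} (hU : IsExteriorDomain U) {f : ℂ → ℂ}
    (hf : DifferentiableOn ℂ f U) (hinj : InjOn f U)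
    (hinf : Tendsto (fun z => f z - z) (cocompact ℂ) (𝓝 0)) :
    ∃ C R : ℝ, 1 ≤ R ∧ 0 ≤ C ∧ ∀ z : ℂ, R < ‖z‖ →
      z ∈ U ∧ ‖f z - z‖ ≤ C / ‖z‖ ∧ ‖deriv f z - 1‖ ≤ C / ‖z‖ ^ 2 := by
  have hinf' := Red_828.tendsto_cocompact_of_tendsto_sub hinf
  obtain ⟨a, b, -, C, R, hR, hexp⟩ := Red_828.exists_expansion hU hf hinj hinf'
  have hC : 0 ≤ C := by
    have h1 := (hexp ((R + 1 : ℝ) : ℂ) (by
      rw [Complex.norm_real, Real.norm_eq_abs, abs_of_pos (by linarith)]; linarith)).2
    have h2 := (norm_nonneg _).trans h1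
    rw [Complex.norm_real, Real.norm_eq_abs, abs_of_pos (by linarith : (0:ℝ) < R + 1)] at h2
    by_contra hC
    exact absurd h2 (not_le.2 (div_neg_of_neg_of_pos (not_le.1 hC) (by linarith)))
  -- `h z = (a - 1) z + b → 0`
  have hh : Tendsto (fun z : ℂ => (a - 1) * z + b) (cocompact ℂ) (𝓝 0) := by
    have h2 : Tendsto (fun z : ℂ => f z - (a * z + b)) (cocompact ℂ) (𝓝 0) := by
      have h3 : Tendsto (fun z : ℂ => C / ‖z‖) (cocompact ℂ) (𝓝 0) :=
        (tendsto_norm_cocompact_atTop (E := ℂ)).const_div_atTop C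
      refine squeeze_zero_norm' ?_ h3
      have h4 : ∀ᶠ z : ℂ in cocompact ℂ, R < ‖z‖ :=
        (tendsto_norm_cocompact_atTop (E := ℂ)).eventually_gt_atTop R
      filter_upwards [h4] with z hz using (hexp z hz).2
    have h5 := hinf.sub h2
    rw [sub_zero] at h5
    refine h5.congr fun z => ?_
    ring
  have hshift : Tendsto (fun z : ℂ => z + 1) (cocompact ℂ) (cocompact ℂ) :=
    (Homeomorph.addRight (1 : ℂ)).isClosedEmbedding.tendsto_cocompact
  have ha : a = 1 := by
    have h6 := (hh.comp hshift).sub hh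
    rw [sub_zero] at h6
    have h7 : Tendsto (fun _ : ℂ => a - 1) (cocompact ℂ) (𝓝 0) := by
      refine h6.congr fun z => ?_
      simp only [Function.comp_apply]
      ring
    have h8 := tendsto_nhds_unique h7 tendsto_const_nhds
    exact (sub_eq_zero.1 h8.symm)
  have hb : b = 0 := by
    have h7 : Tendsto (fun _ : ℂ => b) (cocompact ℂ) (𝓝 0) := by
      refine hh.congr fun z => ?_
      rw [ha]; ring
    exact (tendsto_nhds_unique h7 tendsto_const_nhds).symm
  have key : ∀ z : ℂ, R < ‖z‖ → z ∈ U ∧ ‖f z - z‖ ≤ C / ‖z‖ := by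
    intro z hz
    have h9 := hexp z hz
    rw [ha, hb, one_mul, add_zero] at h9
    exact h9
  refine ⟨4 * C, 2 * R + 1, by linarith, by linarith, fun z hz => ?_⟩
  have hz0 : 0 < ‖z‖ := by linarith
  obtain ⟨h1, h2⟩ := key z (by linarith)
  refine ⟨h1, h2.trans ?_, ?_⟩
  · gcongr; linarith
  · have hball : ∀ w ∈ closedBall z (‖z‖ / 2), ‖z‖ / 2 ≤ ‖w‖ := by
      intro w hw
      rw [mem_closedBall, dist_eq_norm] at hw
      have := norm_sub_norm_le z w
      rw [norm_sub_rev] at this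
      linarith
    have hballU : closedBall z (‖z‖ / 2) ⊆ U := fun w hw =>
      (key w (by have := hball w hw; linarith)).1
    have hd : DifferentiableOn ℂ (fun w => f w - w) U := hf.sub differentiableOn_id
    have hdc : DiffContOnCl ℂ (fun w => f w - w) (ball z (‖z‖ / 2)) := by
      refine DifferentiableOn.diffContOnCl ?_
      rw [closure_ball z (by positivity)]
      exact hd.mono hballU
    have h3 := Complex.norm_deriv_le_of_forall_mem_sphere_norm_le (c := z) (R := ‖z‖ / 2)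
      (C := C / (‖z‖ / 2)) (f := fun w => f w - w) (by positivity) hdc ?_
    · have h4 : deriv (fun w => f w - w) z = deriv f z - 1 := by
        have h5 : DifferentiableAt ℂ f z := (hf z h1).differentiableAt (hU.1.mem_nhds h1)
        rw [show (fun w => f w - w) = f - id from rfl, deriv_sub h5 differentiableAt_id, deriv_id]
      rw [h4] at h3
      refine h3.trans (le_of_eq ?_)
      field_simp
      ring
    · intro w hw
      have hw' := hball w (sphere_subset_closedBall hw)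
      refine (key w (by linarith)).2.trans ?_
      gcongr

/-- `f` is bounded on bounded parts of `U` -/
theorem bdd_on {U : Set ℂ} (hU : IsExteriorDomain U) {f : ℂ → ℂ}
    (hf : DifferentiableOn ℂ f U) (hinj : InjOn f U)
    (hinf : Tendsto f (cocompact ℂ) (cocompact ℂ)) (ρ : ℝ) :
    ∃ M : ℝ, 0 ≤ M ∧ ∀ z ∈ U, ‖z‖ ≤ ρ → ‖f z‖ ≤ M := by
  obtain ⟨R, hR⟩ := hU.2.2
  set R1 : ℝ := max (max R ρ) 0 with hR1
  have hsub : {z : ℂ | R1 < ‖z‖} ⊆ U := fun z hz =>
    hR z (lt_of_le_of_lt ((le_max_left _ _).trans (le_max_left _ _)) hz)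
  obtain ⟨M, hM⟩ := (Red_828.exteriorDomain_image (isExteriorDomain_norm_gt R1)
    (hf.mono hsub) (hinj.mono hsub) hinf).2.2
  refine ⟨max M 0, le_max_right _ _, fun z hz hzρ => ?_⟩
  by_contra hcon
  push Not at hcon
  obtain ⟨w, hw, hwz⟩ := hM (f z) (lt_of_le_of_lt (le_max_left _ _) hcon)
  have : w = z := hinj (hsub hw) hz hwz
  rw [this] at hw
  have h1 : ρ ≤ R1 := (le_max_right R ρ).trans (le_max_left _ _)
  exact absurd hw (not_lt.2 (hzρ.trans h1))

theorem norm_sq_eq (a : ℂ) : ‖a‖ ^ 2 = 1 + 2 * (a - 1).re + ‖a - 1‖ ^ 2 := by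
  rw [← Complex.normSq_eq_norm_sq, ← Complex.normSq_eq_norm_sq, Complex.normSq_apply,
    Complex.normSq_apply]
  simp
  ring

/-- Taylor for a smooth compactly supported function -/
theorem taylor2 {b : ℂ → ℝ} (hb : ContDiff ℝ ∞ b) (hc : HasCompactSupport b) :
    ∃ K : ℝ, 0 ≤ K ∧ (∀ x, ‖fderiv ℝ b x‖ ≤ K) ∧
      ∀ x h : ℂ, |b (x + h) - b x - fderiv ℝ b x h| ≤ K * ‖h‖ ^ 2 := by
  have hd : ContDiff ℝ 1 (fderiv ℝ b) := hb.fderiv_right (by norm_cast)
  have hcd : HasCompactSupport (fderiv ℝ b) := hc.fderiv (𝕜 := ℝ)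
  obtain ⟨K1, hK1⟩ := hcd.exists_bound_of_continuous hd.continuous
  obtain ⟨K2, hK2⟩ := hd.lipschitzWith_of_hasCompactSupport hcd (by norm_num)
  refine ⟨max K1 K2, le_max_of_le_right K2.2, fun x => (hK1 x).trans (le_max_left _ _), ?_⟩
  intro x h
  have h1 := (convex_segment x (x + h)).norm_image_sub_le_of_norm_fderiv_le' (𝕜 := ℝ) (f := b)
    (φ := fderiv ℝ b x) (C := K2 * ‖h‖) (x := x) (y := x + h) ?_ ?_
    (left_mem_segment ℝ _ _) (right_mem_segment ℝ _ _)
  · rw [add_sub_cancel_left] at h1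
    rw [← Real.norm_eq_abs]
    refine h1.trans ?_
    calc (K2 : ℝ) * ‖h‖ * ‖h‖ = K2 * ‖h‖ ^ 2 := by ring
      _ ≤ max K1 K2 * ‖h‖ ^ 2 := by gcongr; exact le_max_right _ _
  · intro y _
    exact (hb.differentiable (by simp)) y
  · intro y hy
    have h2 := hK2.dist_le_mul y x
    rw [dist_eq_norm, dist_eq_norm] at h2
    refine h2.trans ?_
    gcongr
    rw [segment_eq_image'] at hy
    obtain ⟨t, ht, rfl⟩ := hy
    simp only [add_sub_cancel_left, norm_smul, Real.norm_eq_abs, abs_of_nonneg ht.1]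
    exact mul_le_of_le_one_left (norm_nonneg _) ht.2


/-- volume of the image side minus volume of the domain side, exactly -/
theorem area_exact {U : Set ℂ} (hU : IsOpen U) {φ : ℂ → ℝ}
    (hφ : Integrable φ) (h1 : ∀ z ∉ U, φ z = 1) :
    ∫ z in U, φ z = (∫ z, φ z) - (volume Uᶜ).toReal := by
  have h := integral_add_compl hU.measurableSet hφ
  have h2 : ∫ z in Uᶜ, φ z = (volume Uᶜ).toReal := by
    rw [setIntegral_congr_fun hU.measurableSet.compl (g := fun _ => (1 : ℝ)) (fun z hz => h1 z hz)]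
    simp [Measure.real]
  linarith


/-- `f'` is square integrable on bounded parts of `U` -/
theorem integrable_deriv_sq {U : Set ℂ} (hU : IsExteriorDomain U) {f : ℂ → ℂ}
    (hf : DifferentiableOn ℂ f U) (hinj : InjOn f U)
    (hinf : Tendsto f (cocompact ℂ) (cocompact ℂ)) (ρ : ℝ) :
    IntegrableOn (fun z => ‖deriv f z‖ ^ 2) (U ∩ ball 0 ρ) := by
  have hO : IsOpen (U ∩ ball (0 : ℂ) ρ) := hU.1.inter isOpen_ball
  have h := (Crest.Agent.R105.Pth_988.integrableOn_image hO (hf.mono inter_subset_left)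
    (hinj.mono inter_subset_left) (fun _ => (1 : ℝ))).1 ?_
  · simpa using h
  · obtain ⟨M, -, hM⟩ := bdd_on hU hf hinj hinf ρ
    refine integrableOn_const (ne_of_lt ?_)
    refine (measure_mono (?_ : f '' (U ∩ ball (0 : ℂ) ρ) ⊆ closedBall 0 M)).trans_lt
      measure_closedBall_lt_top
    rintro _ ⟨z, ⟨hz, hz'⟩, rfl⟩
    rw [mem_closedBall_zero_iff]
    exact hM z hz (mem_ball_zero_iff.1 hz').le


section Main

variable {U : Set ℂ} {f : ℂ → ℂ}

theorem integrableOn_of_bound (hU : IsExteriorDomain U)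
    (hf : DifferentiableOn ℂ f U) (hinj : InjOn f U)
    (hinf : Tendsto f (cocompact ℂ) (cocompact ℂ)) {h : ℂ → ℝ} {ρ A : ℝ}
    (hm : ContinuousOn h U) (h0 : ∀ z ∈ U, z ∉ ball (0 : ℂ) ρ → h z = 0)
    (hb : ∀ z ∈ U, ‖z‖ < ρ → |h z| ≤ A * (‖deriv f z‖ ^ 2 + 1)) : IntegrableOn h U := by
  have hO : IsOpen (U ∩ ball (0 : ℂ) ρ) := hU.1.inter isOpen_ball
  have h1 : IntegrableOn h (U ∩ ball 0 ρ) := by
    have hi : IntegrableOn (fun z => A * (‖deriv f z‖ ^ 2 + 1)) (U ∩ ball 0 ρ) := by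
      refine Integrable.const_mul ?_ A
      refine (integrable_deriv_sq hU hf hinj hinf ρ).add ?_
      exact integrableOn_const (ne_of_lt ((measure_mono inter_subset_right).trans_lt
        measure_ball_lt_top))
    refine Integrable.mono' hi ((hm.mono inter_subset_left).aestronglyMeasurable hO.measurableSet) ?_
    refine (ae_restrict_mem hO.measurableSet).mono fun z hz => ?_
    rw [Real.norm_eq_abs]
    exact hb z hz.1 (mem_ball_zero_iff.1 hz.2)
  refine h1.of_forall_sdiff_eq_zero hU.1.measurableSet fun z hz => ?_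
  refine h0 z hz.1 fun hzb => hz.2 ⟨hz.1, hzb⟩

theorem norm_sub_one_sq_le (a : ℂ) : ‖a - 1‖ ^ 2 ≤ 2 * (‖a‖ ^ 2 + 1) := by
  have h := norm_sub_le a 1
  rw [norm_one] at h
  have h0 := norm_nonneg (a - 1)
  nlinarith [sq_nonneg (‖a‖ - 1), norm_nonneg a]

theorem abs_two_re_le (a : ℂ) : |2 * (a - 1).re| ≤ 3 * (‖a‖ ^ 2 + 1) := by
  have h := Complex.abs_re_le_norm (a - 1)
  have h1 := norm_sub_le a 1
  rw [norm_one] at h1
  rw [abs_mul, abs_two]
  nlinarith [sq_nonneg (3 * ‖a‖ - 1), norm_nonneg a]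

/-- the bump function at scale `R` -/
noncomputable def bmp (R : ℝ) (z : ℂ) : ℝ :=
  (⟨1, 2, by norm_num, by norm_num⟩ : ContDiffBump (0 : ℂ)) (R⁻¹ • z)

theorem bmp_contDiff (R : ℝ) : ContDiff ℝ ∞ (bmp R) :=
  (ContDiffBump.contDiff _).comp (contDiff_const_smul _)

theorem bmp_one {R : ℝ} (hR : 0 < R) {z : ℂ} (hz : ‖z‖ ≤ R) : bmp R z = 1 := by
  refine ContDiffBump.one_of_mem_closedBall _ ?_
  rw [mem_closedBall_zero_iff, norm_smul, norm_inv, Real.norm_eq_abs, abs_of_pos hR,
    inv_mul_le_iff₀ hR]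
  simpa using hz

theorem bmp_zero {R : ℝ} (hR : 0 < R) {z : ℂ} (hz : 2 * R ≤ ‖z‖) : bmp R z = 0 := by
  refine ContDiffBump.zero_of_le_dist _ ?_
  rw [dist_zero_right, norm_smul, norm_inv, Real.norm_eq_abs, abs_of_pos hR,
    le_inv_mul_iff₀ hR]
  linarith

theorem bmp_nonneg (R : ℝ) (z : ℂ) : 0 ≤ bmp R z := ContDiffBump.nonneg _

theorem bmp_le_one (R : ℝ) (z : ℂ) : bmp R z ≤ 1 := ContDiffBump.le_one _

theorem bmp_compact {R : ℝ} (hR : 0 < R) : HasCompactSupport (bmp R) :=
  HasCompactSupport.intro (isCompact_closedBall (0 : ℂ) (2 * R)) fun z hz => by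
    rw [mem_closedBall_zero_iff, not_le] at hz
    exact bmp_zero hR hz.le

theorem fderiv_bmp (R : ℝ) (z v : ℂ) : fderiv ℝ (bmp R) z v =
    fderiv ℝ (⟨1, 2, by norm_num, by norm_num⟩ : ContDiffBump (0 : ℂ)) (R⁻¹ • z) (R⁻¹ • v) := by
  have h1 : HasFDerivAt (bmp R)
      ((fderiv ℝ (⟨1, 2, by norm_num, by norm_num⟩ : ContDiffBump (0 : ℂ)) (R⁻¹ • z)).comp
        (R⁻¹ • ContinuousLinearMap.id ℝ ℂ)) z := by
    refine HasFDerivAt.comp z (g := ((⟨1, 2, by norm_num, by norm_num⟩ : ContDiffBump (0 : ℂ)) :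
      ℂ → ℝ)) ?_ ((hasFDerivAt_id z).const_smul R⁻¹)
    exact ((ContDiffBump.contDiff _ (n := 1)).differentiable (by norm_num) _).hasFDerivAt
  rw [h1.fderiv]
  rfl

theorem fderiv_bmp_zero_of_lt {R : ℝ} (hR : 0 < R) {z : ℂ} (hz : ‖z‖ < R) :
    fderiv ℝ (bmp R) z = 0 := by
  have h : bmp R =ᶠ[𝓝 z] fun _ => 1 := by
    filter_upwards [(isOpen_lt continuous_norm continuous_const).mem_nhds hz] with w hw
    exact bmp_one hR (le_of_lt hw)
  rw [h.fderiv_eq]
  simp

theorem fderiv_bmp_zero_of_gt {R : ℝ} (hR : 0 < R) {z : ℂ} (hz : 2 * R < ‖z‖) :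
    fderiv ℝ (bmp R) z = 0 := by
  have h : bmp R =ᶠ[𝓝 z] fun _ => 0 := by
    filter_upwards [(isOpen_lt continuous_const continuous_norm).mem_nhds hz] with w hw
    exact bmp_zero hR (le_of_lt hw)
  rw [h.fderiv_eq]
  simp


theorem key (hU : IsExteriorDomain U)
    (hf : DifferentiableOn ℂ f U) (hinj : InjOn f U)
    (hinf : Tendsto (fun z => f z - z) (cocompact ℂ) (𝓝 0)) :
    ∃ K R0 : ℝ, 1 ≤ R0 ∧ ∀ R, R0 ≤ R →
      IntegrableOn (fun z => bmp R z * ‖deriv f z - 1‖ ^ 2) U ∧
      |(∫ z in U, bmp R z * ‖deriv f z - 1‖ ^ 2) +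
        (∫ z in U, (bmp R z * (2 * (deriv f z - 1).re) + fderiv ℝ (bmp R) z (f z - z))) -
        ((volume Uᶜ).toReal - (volume (f '' U)ᶜ).toReal)| ≤ K / R ^ 2 := by
  have hinf' := Red_828.tendsto_cocompact_of_tendsto_sub hinf
  obtain ⟨C, R1, hR1, hC, hdec⟩ := decay hU hf hinj hinf
  obtain ⟨M, hM0, hM⟩ := bdd_on hU hf hinj hinf' R1
  have hV := Red_828.exteriorDomain_image hU hf hinj hinf'
  obtain ⟨R2, hR2⟩ := hV.2.2
  obtain ⟨R3, hR3⟩ := hU.2.2
  obtain ⟨T, hT0, hT1, hT2⟩ := taylor2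
    (b := (⟨1, 2, by norm_num, by norm_num⟩ : ContDiffBump (0 : ℂ)))
    (ContDiffBump.contDiff _) (ContDiffBump.hasCompactSupport _)
  refine ⟨360 * π * T * C ^ 2, 2 * R1 + 2 * C + M + |R2| + |R3| + 1, ?_, fun R hR => ?_⟩
  · have := abs_nonneg R2
    have := abs_nonneg R3
    linarith
  have hRR2 : R2 ≤ R := by
    have := le_abs_self R2
    have := abs_nonneg R3
    linarith
  have hRR3 : R3 ≤ R := by
    have := le_abs_self R3
    have := abs_nonneg R2
    linarith
  have hb2 := abs_nonneg R2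
  have hb3 := abs_nonneg R3
  have hR0 : 0 < R := by linarith
  have hU1 : ∀ z ∉ U, bmp R z = 1 := by
    intro z hz
    refine bmp_one hR0 ?_
    by_contra hcon
    exact hz (hR3 z (by linarith [not_le.1 hcon]))
  have hV1 : ∀ z ∉ f '' U, bmp R z = 1 := by
    intro z hz
    refine bmp_one hR0 ?_
    by_contra hcon
    exact hz (hR2 z (by linarith [not_le.1 hcon]))
  have hφi : Integrable (bmp R) :=
    (bmp_contDiff R).continuous.integrable_of_hasCompactSupport (bmp_compact hR0)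
  have hd1 : ContinuousOn (deriv f) U := (hf.deriv hU.1).continuousOn
  have hbc : Continuous (bmp R) := (bmp_contDiff R).continuous
  -- bound of `f` for `‖z‖ ≤ R / 2`
  have hsmall : ∀ z ∈ U, ‖z‖ ≤ R / 2 → ‖f z‖ ≤ R := by
    intro z hz hz2
    rcases le_or_gt ‖z‖ R1 with h | h
    · exact (hM z hz h).trans (by linarith)
    · have h1 := (hdec z h).2.1
      have h2 : C / ‖z‖ ≤ C := div_le_self hC (by linarith)
      have h3 := norm_sub_norm_le (f z) z
      linarith
  -- the three integrable pieces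
  have i1 : IntegrableOn (fun z => ‖deriv f z‖ ^ 2 * bmp R (f z)) U :=
    (Crest.Agent.R105.Pth_988.integrableOn_image hU.1 hf hinj (bmp R)).1 hφi.integrableOn
  have i2 : IntegrableOn (bmp R) U := hφi.integrableOn
  have i3 : IntegrableOn (fun z => bmp R z * ‖deriv f z - 1‖ ^ 2) U := by
    refine integrableOn_of_bound hU hf hinj hinf' (ρ := 2 * R) (A := 2)
      (hbc.continuousOn.mul ((hd1.sub continuousOn_const).norm.pow 2)) ?_ ?_
    · intro z _ hz
      rw [mem_ball_zero_iff, not_lt] at hz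
      rw [bmp_zero hR0 hz, zero_mul]
    · intro z _ _
      rw [abs_mul, abs_of_nonneg (bmp_nonneg R z), abs_of_nonneg (sq_nonneg _)]
      have h1 := norm_sub_one_sq_le (deriv f z)
      have h2 := bmp_le_one R z
      have h3 := bmp_nonneg R z
      nlinarith [sq_nonneg ‖deriv f z - 1‖]
  have hbound : ∃ G : ℝ, 0 ≤ G ∧ ∀ z ∈ U, ‖z‖ < 3 * R → ‖f z - z‖ ≤ G := by
    refine ⟨M + R1 + C, by linarith, fun z hz hz2 => ?_⟩
    rcases le_or_gt ‖z‖ R1 with h | h
    · have := norm_sub_le (f z) z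
      linarith [hM z hz h]
    · have h1 := (hdec z h).2.1
      have h2 : C / ‖z‖ ≤ C := div_le_self hC (by linarith)
      linarith
  obtain ⟨G, hG0, hG⟩ := hbound
  have hDb : ∀ z v : ℂ, |fderiv ℝ (bmp R) z v| ≤ T * (R⁻¹ * ‖v‖) := by
    intro z v
    rw [fderiv_bmp, ← Real.norm_eq_abs]
    refine (ContinuousLinearMap.le_opNorm _ _).trans ?_
    rw [norm_smul, norm_inv, Real.norm_eq_abs, abs_of_pos hR0]
    gcongr
    exact hT1 _
  have hbcd : Continuous (fderiv ℝ (bmp R)) := (bmp_contDiff R).continuous_fderiv (by simp)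
  have i4 : IntegrableOn
      (fun z => bmp R z * (2 * (deriv f z - 1).re) + fderiv ℝ (bmp R) z (f z - z)) U := by
    refine integrableOn_of_bound hU hf hinj hinf' (ρ := 3 * R) (A := 3 + T * (R⁻¹ * G))
      ?_ ?_ ?_
    · refine (hbc.continuousOn.mul (continuousOn_const.mul ?_)).add ?_
      · exact Complex.continuous_re.comp_continuousOn (hd1.sub continuousOn_const)
      · exact hbcd.continuousOn.clm_apply (hf.continuousOn.sub continuousOn_id)
    · intro z _ hz
      rw [mem_ball_zero_iff, not_lt] at hz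
      rw [bmp_zero hR0 (by linarith), zero_mul, fderiv_bmp_zero_of_gt hR0 (by linarith)]
      simp
    · intro z hz hz2
      refine (abs_add_le _ _).trans ?_
      have h1 := abs_two_re_le (deriv f z)
      have h2 : |bmp R z * (2 * (deriv f z - 1).re)| ≤ 3 * (‖deriv f z‖ ^ 2 + 1) := by
        rw [abs_mul, abs_of_nonneg (bmp_nonneg R z)]
        have h3 := bmp_le_one R z
        have h4 := bmp_nonneg R z
        nlinarith [abs_nonneg (2 * (deriv f z - 1).re)]
      have h3 := hDb z (f z - z)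
      have h4 : T * (R⁻¹ * ‖f z - z‖) ≤ T * (R⁻¹ * G) := by
        gcongr
        exact hG z hz hz2
      have h5 : 0 ≤ T * (R⁻¹ * G) := by positivity
      nlinarith [sq_nonneg ‖deriv f z‖]
  refine ⟨i3, ?_⟩
  -- the error term
  set E : ℂ → ℝ := fun z => ‖deriv f z‖ ^ 2 * bmp R (f z) - bmp R z -
    (bmp R z * ‖deriv f z - 1‖ ^ 2 +
      (bmp R z * (2 * (deriv f z - 1).re) + fderiv ℝ (bmp R) z (f z - z))) with hE
  have hEeq : ∀ z, E z = ‖deriv f z‖ ^ 2 * (bmp R (f z) - bmp R z) -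
      fderiv ℝ (bmp R) z (f z - z) := by
    intro z
    have h1 := norm_sq_eq (deriv f z)
    simp only [hE]
    have h2 : ‖deriv f z‖ ^ 2 * bmp R z =
      bmp R z + bmp R z * (2 * (deriv f z - 1).re) + bmp R z * ‖deriv f z - 1‖ ^ 2 := by
      rw [h1]; ring
    linarith
  have hE1 : ∀ z ∈ U, ‖z‖ < R / 2 → E z = 0 := by
    intro z hz hz2
    rw [hEeq, bmp_one hR0 (hsmall z hz hz2.le), bmp_one hR0 (by linarith),
      fderiv_bmp_zero_of_lt hR0 (by linarith)]
    simp
  have hE2 : ∀ z ∈ U, 3 * R ≤ ‖z‖ → E z = 0 := by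
    intro z hz hz2
    have h1 := (hdec z (by linarith)).2.1
    have h2 : C / ‖z‖ ≤ C := div_le_self hC (by linarith)
    have h3 := norm_sub_norm_le z (f z)
    rw [norm_sub_rev] at h3
    rw [hEeq, bmp_zero hR0 (by linarith), bmp_zero hR0 (by linarith),
      fderiv_bmp_zero_of_gt hR0 (by linarith)]
    simp
  have hE3 : ∀ z ∈ U, R / 2 ≤ ‖z‖ → |E z| ≤ 40 * T * C ^ 2 / R ^ 4 := by
    intro z hz hz2
    have hz1 : R1 < ‖z‖ := by linarith
    obtain ⟨-, h1, h2⟩ := hdec z hz1
    have hzpos : 0 < ‖z‖ := by linarith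
    set g : ℂ := f z - z with hg
    have h1' : ‖g‖ ≤ 2 * C / R := by
      refine h1.trans ?_
      rw [div_le_div_iff₀ hzpos hR0]
      nlinarith
    have h2' : ‖deriv f z - 1‖ ≤ 4 * C / R ^ 2 := by
      refine h2.trans ?_
      rw [div_le_div_iff₀ (by positivity) (by positivity)]
      have h3 : R ^ 2 ≤ 4 * ‖z‖ ^ 2 := by nlinarith
      nlinarith
    have h3 : 4 * C / R ^ 2 ≤ 1 := by
      rw [div_le_one (by positivity)]
      nlinarith
    have h4 : ‖deriv f z‖ ≤ 2 := by
      have := norm_sub_norm_le (deriv f z) 1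
      rw [norm_one] at this
      linarith
    have h5 : |‖deriv f z‖ - 1| ≤ 4 * C / R ^ 2 := by
      have := abs_norm_sub_norm_le (deriv f z) 1
      rw [norm_one] at this
      exact this.trans h2'
    have h6 : |‖deriv f z‖ ^ 2 - 1| ≤ 12 * C / R ^ 2 := by
      have e : ‖deriv f z‖ ^ 2 - 1 = (‖deriv f z‖ - 1) * (‖deriv f z‖ + 1) := by ring
      rw [e, abs_mul, abs_of_nonneg (by positivity : 0 ≤ ‖deriv f z‖ + 1)]
      calc |‖deriv f z‖ - 1| * (‖deriv f z‖ + 1) ≤ (4 * C / R ^ 2) * 3 := by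
            gcongr; linarith
        _ = 12 * C / R ^ 2 := by ring
    have hh : ‖R⁻¹ • g‖ ≤ 2 * C / R ^ 2 := by
      rw [norm_smul, norm_inv, Real.norm_eq_abs, abs_of_pos hR0]
      calc R⁻¹ * ‖g‖ ≤ R⁻¹ * (2 * C / R) := by gcongr
        _ = 2 * C / R ^ 2 := by field_simp
    have h7 : |bmp R (f z) - bmp R z - fderiv ℝ (bmp R) z g| ≤ T * (2 * C / R ^ 2) ^ 2 := by
      have h8 := hT2 (R⁻¹ • z) (R⁻¹ • g)
      have e : R⁻¹ • z + R⁻¹ • g = R⁻¹ • f z := by rw [← smul_add, hg]; congr 1; ring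
      rw [e] at h8
      rw [fderiv_bmp]
      refine h8.trans ?_
      gcongr
    have h9 : |fderiv ℝ (bmp R) z g| ≤ T * (2 * C / R ^ 2) := by
      refine (hDb z g).trans ?_
      rw [norm_smul, norm_inv, Real.norm_eq_abs, abs_of_pos hR0] at hh
      gcongr
    have e : E z = ‖deriv f z‖ ^ 2 * (bmp R (f z) - bmp R z - fderiv ℝ (bmp R) z g) +
        (‖deriv f z‖ ^ 2 - 1) * fderiv ℝ (bmp R) z g := by
      rw [hEeq]; ring
    rw [e]
    refine (abs_add_le _ _).trans ?_
    rw [abs_mul, abs_mul, abs_of_nonneg (sq_nonneg ‖deriv f z‖)]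
    have h10 : ‖deriv f z‖ ^ 2 ≤ 4 := by nlinarith [norm_nonneg (deriv f z)]
    calc ‖deriv f z‖ ^ 2 * |bmp R (f z) - bmp R z - fderiv ℝ (bmp R) z g| +
        |‖deriv f z‖ ^ 2 - 1| * |fderiv ℝ (bmp R) z g|
        ≤ 4 * (T * (2 * C / R ^ 2) ^ 2) + (12 * C / R ^ 2) * (T * (2 * C / R ^ 2)) := by
          gcongr
      _ = 40 * T * C ^ 2 / R ^ 4 := by field_simp; ring
  have hEint : |∫ z in U, E z| ≤ 360 * π * T * C ^ 2 / R ^ 2 := by
    have h1 : ∫ z in U, E z = ∫ z in U ∩ ball 0 (3 * R), E z := by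
      refine setIntegral_eq_of_subset_of_forall_sdiff_eq_zero hU.1.measurableSet inter_subset_left ?_
      rintro z ⟨hz, hz'⟩
      refine hE2 z hz ?_
      by_contra hcon
      exact hz' ⟨hz, mem_ball_zero_iff.2 (not_le.1 hcon)⟩
    rw [h1, ← Real.norm_eq_abs]
    have hfin : volume (U ∩ ball (0 : ℂ) (3 * R)) < ⊤ :=
      (measure_mono inter_subset_right).trans_lt measure_ball_lt_top
    have h2 := norm_setIntegral_le_of_norm_le_const (μ := volume)
      (s := U ∩ ball (0 : ℂ) (3 * R)) (f := E) (C := 40 * T * C ^ 2 / R ^ 4) hfin (by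
        intro z hz
        rw [Real.norm_eq_abs]
        rcases lt_or_ge ‖z‖ (R / 2) with h | h
        · rw [hE1 z hz.1 h, abs_zero]; positivity
        · exact hE3 z hz.1 h)
    refine h2.trans ?_
    have h3 : volume.real (U ∩ ball (0 : ℂ) (3 * R)) ≤ 9 * π * R ^ 2 := by
      have h4 : volume.real (U ∩ ball (0 : ℂ) (3 * R)) ≤ volume.real (ball (0 : ℂ) (3 * R)) :=
        measureReal_mono inter_subset_right measure_ball_lt_top.ne
      refine h4.trans (le_of_eq ?_)
      rw [Measure.real, Complex.volume_ball, ENNReal.toReal_mul, ENNReal.toReal_pow,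
        ENNReal.toReal_ofReal (by positivity)]
      simp
      ring
    calc 40 * T * C ^ 2 / R ^ 4 * volume.real (U ∩ ball (0 : ℂ) (3 * R))
        ≤ 40 * T * C ^ 2 / R ^ 4 * (9 * π * R ^ 2) := by gcongr
      _ = 360 * π * T * C ^ 2 / R ^ 2 := by field_simp; ring
  have hsplit : ∫ z in U, E z = (∫ z in U, ‖deriv f z‖ ^ 2 * bmp R (f z)) - (∫ z in U, bmp R z) -
      ((∫ z in U, bmp R z * ‖deriv f z - 1‖ ^ 2) +
        ∫ z in U, (bmp R z * (2 * (deriv f z - 1).re) + fderiv ℝ (bmp R) z (f z - z))) := by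
    have a1 := integral_add i3 i4
    have a2 := integral_sub i1 i2
    have a3 := integral_sub (i1.sub i2) (i3.add i4)
    simp only [Pi.sub_apply, Pi.add_apply] at a3
    rw [← a1, ← a2, ← a3]
  have hV2 : ∫ z in U, ‖deriv f z‖ ^ 2 * bmp R (f z) =
      (∫ z, bmp R z) - (volume (f '' U)ᶜ).toReal := by
    rw [← Crest.Agent.R105.Pth_988.integral_image hU.1 hf hinj (bmp R)]
    exact area_exact hV.1 hφi hV1
  have hU2 : ∫ z in U, bmp R z = (∫ z, bmp R z) - (volume Uᶜ).toReal :=
    area_exact hU.1 hφi hU1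
  rw [hsplit, hV2, hU2] at hEint
  rw [abs_sub_comm]
  refine le_trans (le_of_eq ?_) hEint
  congr 1
  ring

/-- **End of S0139** ((5) of #9406 / #9417): area identity + flux inequality ==> `f = z`. -/
theorem eq_id_of_flux (hU : IsExteriorDomain U)
    (hf : DifferentiableOn ℂ f U) (hinj : InjOn f U)
    (hinf : Tendsto (fun z => f z - z) (cocompact ℂ) (𝓝 0)) {ι : Type*} (r r' : ι → ℝ)
    (hs : Summable fun i => r i ^ 2) (hs' : Summable fun i => r' i ^ 2)
    (hA : (volume Uᶜ).toReal ≤ π * ∑' i, r i ^ 2)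
    (hA' : π * ∑' i, r' i ^ 2 ≤ (volume (f '' U)ᶜ).toReal)
    (hflux : ∀ᶠ R : ℝ in atTop, ∀ φ : ℂ → ℝ, ContDiff ℝ ∞ φ → HasCompactSupport φ →
      (∀ z, ‖z‖ ≤ R → φ z = 1) → -(2 * π * ∑' i, r i * (r' i - r i)) ≤
        ∫ z in U, (φ z * (2 * (deriv f z - 1).re) + fderiv ℝ φ z (f z - z))) :
    ∀ z ∈ U, f z = z := by
  obtain ⟨K, R0, hR0, hK⟩ := key hU hf hinj hinf
  obtain ⟨R1, hR1⟩ := eventually_atTop.1 hflux
  have hrr : Summable fun i => r i * r' i := by
    refine Summable.of_norm_bounded (g := fun i => r i ^ 2 + r' i ^ 2) (hs.add hs') fun i => ?_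
    rw [Real.norm_eq_abs, abs_le]
    constructor <;> nlinarith [sq_nonneg (r i + r' i), sq_nonneg (r i - r' i)]
  have hrr2 : Summable fun i => r i * (r' i - r i) := by
    have : (fun i => r i * (r' i - r i)) = fun i => r i * r' i - r i ^ 2 := by
      ext i; ring
    rw [this]
    exact hrr.sub hs
  -- elementary: π Σ r² - π Σ r'² + 2 π Σ r (r' - r) ≤ 0
  have helem : (∑' i, r i ^ 2) - (∑' i, r' i ^ 2) + 2 * ∑' i, r i * (r' i - r i) ≤ 0 := by
    rw [← hs.tsum_sub hs', ← tsum_mul_left, ← (hs.sub hs').tsum_add (hrr2.mul_left 2)]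
    refine tsum_nonpos fun i => ?_
    nlinarith [sq_nonneg (r i - r' i)]
  have hle : ∀ R, max (max R0 R1) 1 ≤ R →
      ∫ z in U, bmp R z * ‖deriv f z - 1‖ ^ 2 ≤ K / R ^ 2 := by
    intro R hR
    have hRa : R0 ≤ R := ((le_max_left _ _).trans (le_max_left _ _)).trans hR
    have hRb : R1 ≤ R := ((le_max_right _ _).trans (le_max_left _ _)).trans hR
    have hRc : 1 ≤ R := (le_max_right _ _).trans hR
    obtain ⟨-, h1⟩ := hK R hRa
    have h2 := hR1 R hRb (bmp R) (bmp_contDiff R) (bmp_compact (by linarith))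
      (fun z hz => bmp_one (by linarith) hz)
    have h3 := (abs_le.1 h1).2
    have h4 : π * ((∑' i, r i ^ 2) - (∑' i, r' i ^ 2) + 2 * ∑' i, r i * (r' i - r i)) ≤ 0 :=
      mul_nonpos_of_nonneg_of_nonpos Real.pi_pos.le helem
    linarith
  have hd1 : ContinuousOn (deriv f) U := (hf.deriv hU.1).continuousOn
  have hzero : ∀ z ∈ U, deriv f z = 1 := by
    intro z0 hz0
    set ρ : ℝ := ‖z0‖ + 1 with hρ
    have hO : IsOpen (U ∩ ball (0 : ℂ) ρ) := hU.1.inter isOpen_ball
    have hz0' : z0 ∈ U ∩ ball (0 : ℂ) ρ := ⟨hz0, by rw [mem_ball_zero_iff]; linarith⟩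
    have hint : ∫ z in U ∩ ball 0 ρ, ‖deriv f z - 1‖ ^ 2 ≤ 0 := by
      have hev : ∀ R, max (max (max R0 R1) 1) ρ ≤ R →
          ∫ z in U ∩ ball 0 ρ, ‖deriv f z - 1‖ ^ 2 ≤ K / R ^ 2 := by
        intro R hR
        have hRa : max (max R0 R1) 1 ≤ R := (le_max_left _ _).trans hR
        have hRρ : ρ ≤ R := (le_max_right _ _).trans hR
        have hRc : 1 ≤ R := (le_max_right _ _).trans hRa
        refine le_trans ?_ (hle R hRa)
        have h5 : ∫ z in U ∩ ball 0 ρ, ‖deriv f z - 1‖ ^ 2 =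
            ∫ z in U ∩ ball 0 ρ, bmp R z * ‖deriv f z - 1‖ ^ 2 := by
          refine setIntegral_congr_fun hO.measurableSet fun z hz => ?_
          have : bmp R z = 1 := bmp_one (by linarith) ((mem_ball_zero_iff.1 hz.2).le.trans hRρ)
          simp only [this, one_mul]
        rw [h5]
        refine setIntegral_mono_set (hK R (((le_max_left _ _).trans (le_max_left _ _)).trans hRa)).1
          ?_ inter_subset_left.eventuallyLE
        exact Eventually.of_forall fun z => mul_nonneg (bmp_nonneg R z) (sq_nonneg _)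
      have ht : Tendsto (fun R : ℝ => K / R ^ 2) atTop (𝓝 0) :=
        (tendsto_pow_atTop (by norm_num)).const_div_atTop K
      exact ge_of_tendsto ht (eventually_atTop.2 ⟨_, hev⟩)
    have hi : IntegrableOn (fun z => ‖deriv f z - 1‖ ^ 2) (U ∩ ball 0 ρ) := by
      have h6 := (hK (max R0 ρ) (le_max_left _ _)).1.mono_set (inter_subset_left (t := ball 0 ρ))
      refine h6.congr_fun (fun z hz => ?_) hO.measurableSet
      have : bmp (max R0 ρ) z = 1 := bmp_one (by
        have := le_max_left R0 ρ; linarith) ((mem_ball_zero_iff.1 hz.2).le.trans (le_max_right _ _))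
      simp only [this, one_mul]
    have hae : (fun z => ‖deriv f z - 1‖ ^ 2) =ᵐ[volume.restrict (U ∩ ball 0 ρ)] 0 := by
      refine (integral_eq_zero_iff_of_nonneg (fun z => sq_nonneg _) hi).1 ?_
      exact le_antisymm hint (integral_nonneg fun z => sq_nonneg _)
    have hc : ContinuousOn (fun z => ‖deriv f z - 1‖ ^ 2) (U ∩ ball 0 ρ) :=
      ((hd1.sub continuousOn_const).norm.pow 2).mono inter_subset_left
    have h7 := Measure.eqOn_open_of_ae_eq hae hO hc continuousOn_const hz0'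
    have h8 : ‖deriv f z0 - 1‖ ^ 2 = 0 := h7
    exact sub_eq_zero.1 (norm_eq_zero.1 (pow_eq_zero_iff (by norm_num) |>.1 h8))
  -- so `f - z` is constant
  have hgd : DifferentiableOn ℂ (fun z => f z - z) U := hf.sub differentiableOn_id
  have hconst : ∀ z ∈ U, ∀ w ∈ U, f z - z = f w - w := by
    intro z hz w hw
    refine hU.1.is_const_of_deriv_eq_zero hU.2.1.isPreconnected hgd ?_ hz hw
    intro x hx
    have h5 : DifferentiableAt ℂ f x := (hf x hx).differentiableAt (hU.1.mem_nhds hx)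
    rw [show (fun w => f w - w) = f - id from rfl, deriv_sub h5 differentiableAt_id, deriv_id,
      hzero x hx]
    simp
  intro z hz
  have h9 : Tendsto (fun w => f w - w) (cocompact ℂ) (𝓝 (f z - z)) := by
    refine tendsto_const_nhds.congr' ?_
    obtain ⟨R, hR⟩ := hU.2.2
    have h4 : ∀ᶠ w : ℂ in cocompact ℂ, R < ‖w‖ :=
      (tendsto_norm_cocompact_atTop (E := ℂ)).eventually_gt_atTop R
    filter_upwards [h4] with w hw using hconst z hz w (hR w hw)
  exact sub_eq_zero.1 (tendsto_nhds_unique h9 hinf)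

end Main

end Crest.Agent.R105.End139_279
end

-- ▼ part R105/End139b_279
section

/-!
# Row 105 (S0139): `EndP` of helper557's interface (helper279)
-/

set_option autoImplicit false

open Set Filter Metric MeasureTheory Topology
open scoped ContDiff
open Crest.AnalysisR

namespace Crest.Agent.R105.End139_279

theorem endP : Crest.Agent.R105.Rd_557.EndP := by
  intro U f ι r R hU hf hinj hinf hs hs' hA hA' hfl
  refine eq_id_of_flux hU hf hinj hinf r R hs hs' hA hA' ?_
  filter_upwards [hfl] with T hT φ hφ hc h1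
  exact hT φ (hφ.of_le (by norm_cast)) hc h1

end Crest.Agent.R105.End139_279
end

-- ▼ part R105/Top139_474
section

/-!
# Row 105, S0139: top of the skeleton (helper474)

`s0139` : S0139 (verbatim) from the literal Props `BP` ([B], assembled by helper641) and `PlanP`,
`CenP`, `FluxP`, `EndP` (RED, helper557).
-/

set_option autoImplicit false

open Set Filter Metric Topology MeasureTheory
open Crest.AnalysisR

namespace Crest.Agent.R105.Top139_474

open Crest.Agent.R105.Rd_557

/-- **S0139 from the leaves.** -/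
theorem s0139 (hB : BP) (hP : PlanP) (hC : CenP) (hF : FluxP) (hEnd : EndP)
    (U V : Set ℂ) (hU : Crest.AnalysisR.IsCircleDomainFinitePart U)
    (hV : Crest.AnalysisR.IsCircleDomainFinitePart V)
    (hE : Crest.AnalysisR.IsConformallyRemovable (frontier U)) (f : ℂ → ℂ)
    (hf : DifferentiableOn ℂ f U) (hinj : Set.InjOn f U) (hsurj : f '' U = V)
    (hinf : Filter.Tendsto f (Filter.cocompact ℂ) (Filter.cocompact ℂ)) :
    ∃ a b : ℂ, a ≠ 0 ∧ ∀ z ∈ U, f z = a * z + b :=
  Red_828.s0139_of (red hB hP hC hF hEnd) U V hU hV hE f hf hinj hsurj hinf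

end Crest.Agent.R105.Top139_474
end

-- ▼ part R105/Pln1_897
section

/-! Row 105, S0139, RED-PLAN (helper897), part 1: the clamping function
`G(z,s) = ∫_0^s (1 - sup_i χ_i(z) 1_{[a_i,b_i]}(t)) dt` (formula of helper449, #9406). -/

set_option autoImplicit false

open Set Filter Topology Metric MeasureTheory
open scoped ENNReal NNReal

namespace Crest.Agent.R105.Pln_897

variable {ι : Type*}

/-- the profile: sup of `χ_i(z)` over the `i` with `t ∈ [a_i, b_i]` -/
noncomputable def ph (χ : ι → ℂ → ℝ) (a b : ι → ℝ) (z : ℂ) (t : ℝ) : ℝ :=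
  ⨆ i, χ i z * (Icc (a i) (b i)).indicator 1 t

/-- the clamping function -/
noncomputable def G (χ : ι → ℂ → ℝ) (a b : ι → ℝ) (z : ℂ) (s : ℝ) : ℝ :=
  ∫ t in (0 : ℝ)..s, (1 - ph χ a b z t)

/-- cut-offs with values in `[0,1]` and intervals -/
structure Cut (χ : ι → ℂ → ℝ) (a b : ι → ℝ) : Prop where
  nonneg : ∀ i z, 0 ≤ χ i z
  le_one : ∀ i z, χ i z ≤ 1
  ab : ∀ i, a i ≤ b i

section

variable {χ : ι → ℂ → ℝ} {a b : ι → ℝ}

theorem ind_nonneg (a b t : ℝ) : 0 ≤ (Icc a b).indicator (1 : ℝ → ℝ) t :=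
  indicator_nonneg (fun _ _ => zero_le_one) t

theorem ind_le (a b t : ℝ) : (Icc a b).indicator (1 : ℝ → ℝ) t ≤ 1 :=
  indicator_le_self' (fun _ _ => zero_le_one) t

namespace Cut

variable (h : Cut χ a b)
include h

theorem term_nonneg (i : ι) (z : ℂ) (t : ℝ) : 0 ≤ χ i z * (Icc (a i) (b i)).indicator 1 t :=
  mul_nonneg (h.nonneg i z) (ind_nonneg _ _ t)

theorem term_le (i : ι) (z : ℂ) (t : ℝ) : χ i z * (Icc (a i) (b i)).indicator 1 t ≤ 1 :=
  mul_le_one₀ (h.le_one i z) (ind_nonneg _ _ t) (ind_le _ _ t)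

theorem bdd (z : ℂ) (t : ℝ) : BddAbove (range fun i => χ i z * (Icc (a i) (b i)).indicator 1 t) :=
  ⟨1, by rintro _ ⟨i, rfl⟩; exact h.term_le i z t⟩

theorem ph_nonneg (z : ℂ) (t : ℝ) : 0 ≤ ph χ a b z t :=
  Real.iSup_nonneg fun i => h.term_nonneg i z t

theorem ph_le_one (z : ℂ) (t : ℝ) : ph χ a b z t ≤ 1 :=
  Real.iSup_le (fun i => h.term_le i z t) zero_le_one

theorem le_ph (i : ι) (z : ℂ) (t : ℝ) : χ i z * (Icc (a i) (b i)).indicator 1 t ≤ ph χ a b z t :=
  le_ciSup (h.bdd z t) i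

theorem ph_eq_one {i : ι} {z : ℂ} {t : ℝ} (hi : χ i z = 1) (ht : t ∈ Icc (a i) (b i)) :
    ph χ a b z t = 1 := by
  refine le_antisymm (h.ph_le_one z t) ?_
  have := h.le_ph i z t
  rw [hi, indicator_of_mem ht] at this
  simpa using this

/-- one-sided comparison of profiles off the bad set -/
theorem ph_le {F : Finset ι} {B : Set ℝ} {z z' : ℂ} {t : ℝ} (ht : t ∉ B)
    (hF : ∀ i, i ∉ F → χ i z ≠ 0 → Icc (a i) (b i) ⊆ B) :
    ph χ a b z t ≤ ph χ a b z' t +
      ∑ i ∈ F, |χ i z - χ i z'| * (Icc (a i) (b i)).indicator 1 t := by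
  have hS : 0 ≤ ∑ i ∈ F, |χ i z - χ i z'| * (Icc (a i) (b i)).indicator (1 : ℝ → ℝ) t :=
    Finset.sum_nonneg fun i _ => mul_nonneg (abs_nonneg _) (ind_nonneg _ _ t)
  refine Real.iSup_le (fun i => ?_) (add_nonneg (h.ph_nonneg z' t) hS)
  by_cases hi : i ∈ F
  · have h1 := h.le_ph i z' t
    have h2 : |χ i z - χ i z'| * (Icc (a i) (b i)).indicator (1 : ℝ → ℝ) t ≤
        ∑ i ∈ F, |χ i z - χ i z'| * (Icc (a i) (b i)).indicator 1 t :=
      Finset.single_le_sum (f := fun i => |χ i z - χ i z'| * (Icc (a i) (b i)).indicator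
        (1 : ℝ → ℝ) t) (fun i _ => mul_nonneg (abs_nonneg _) (ind_nonneg _ _ t)) hi
    have h3 : χ i z ≤ χ i z' + |χ i z - χ i z'| := by linarith [le_abs_self (χ i z - χ i z')]
    have h4 := mul_le_mul_of_nonneg_right h3 (ind_nonneg (a i) (b i) t)
    rw [add_mul] at h4
    linarith
  · by_cases hz : χ i z = 0
    · rw [hz, zero_mul]; exact add_nonneg (h.ph_nonneg z' t) hS
    · have : t ∉ Icc (a i) (b i) := fun hm => ht (hF i hi hz hm)
      rw [indicator_of_notMem this, mul_zero]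
      exact add_nonneg (h.ph_nonneg z' t) hS

/-- two-sided comparison -/
theorem abs_ph_sub_le {F : Finset ι} {B : Set ℝ} {z z' : ℂ} {t : ℝ}
    (hF : ∀ i, i ∉ F → (χ i z ≠ 0 ∨ χ i z' ≠ 0) → Icc (a i) (b i) ⊆ B) :
    |ph χ a b z t - ph χ a b z' t| ≤
      ∑ i ∈ F, |χ i z - χ i z'| * (Icc (a i) (b i)).indicator 1 t + B.indicator 1 t := by
  have hS : 0 ≤ ∑ i ∈ F, |χ i z - χ i z'| * (Icc (a i) (b i)).indicator (1 : ℝ → ℝ) t :=
    Finset.sum_nonneg fun i _ => mul_nonneg (abs_nonneg _) (ind_nonneg _ _ t)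
  by_cases ht : t ∈ B
  · rw [indicator_of_mem ht]
    have h1 := h.ph_nonneg z t
    have h2 := h.ph_le_one z t
    have h3 := h.ph_nonneg z' t
    have h4 := h.ph_le_one z' t
    rw [abs_le]
    constructor <;> simp only [Pi.one_apply] <;> linarith
  · rw [indicator_of_notMem ht, add_zero, abs_le]
    have h1 := h.ph_le (z' := z') ht fun i hi hz => hF i hi (Or.inl hz)
    have h2 := h.ph_le (z := z') (z' := z) ht fun i hi hz => hF i hi (Or.inr hz)
    simp only [abs_sub_comm (χ _ z') (χ _ z)] at h2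
    constructor <;> linarith

omit h in
theorem measurable_ph [Countable ι] (z : ℂ) : Measurable (ph χ a b z) := by
  unfold ph
  exact Measurable.iSup fun i => (measurable_one.indicator measurableSet_Icc).const_mul _

theorem integrable_ph [Countable ι] (z : ℂ) (s s' : ℝ) :
    IntervalIntegrable (ph χ a b z) volume s s' := by
  refine (intervalIntegrable_const (c := (1 : ℝ))).mono_fun
    (measurable_ph z).aestronglyMeasurable ?_
  refine Eventually.of_forall fun t => ?_
  show ‖ph χ a b z t‖ ≤ ‖(1 : ℝ)‖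
  rw [Real.norm_eq_abs, abs_of_nonneg (h.ph_nonneg z t), norm_one]
  exact h.ph_le_one z t

theorem integrable_g [Countable ι] (z : ℂ) (s s' : ℝ) :
    IntervalIntegrable (fun t => 1 - ph χ a b z t) volume s s' :=
  intervalIntegrable_const.sub (h.integrable_ph z s s')

theorem G_sub [Countable ι] (z : ℂ) (s s' : ℝ) :
    G χ a b z s - G χ a b z s' = ∫ t in s'..s, (1 - ph χ a b z t) :=
  intervalIntegral.integral_interval_sub_left (h.integrable_g z 0 s) (h.integrable_g z 0 s')

/-- **(P1)** `G` is 1-Lipschitz in `s` -/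
theorem G_lip [Countable ι] (z : ℂ) (s s' : ℝ) : |G χ a b z s - G χ a b z s'| ≤ |s - s'| := by
  rw [h.G_sub]
  have := intervalIntegral.norm_integral_le_of_norm_le_const (a := s') (b := s) (C := 1)
    (f := fun t => 1 - ph χ a b z t) (fun t _ => by
      rw [Real.norm_eq_abs, abs_le]
      constructor <;> linarith [h.ph_nonneg z t, h.ph_le_one z t])
  simpa using this

/-- `G z` is constant on an interval on which the cut-off is one -/
theorem G_const [Countable ι] {i : ι} {z : ℂ} (hi : χ i z = 1) {s s' : ℝ}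
    (hs : s ∈ Icc (a i) (b i)) (hs' : s' ∈ Icc (a i) (b i)) : G χ a b z s = G χ a b z s' := by
  rw [← sub_eq_zero, h.G_sub]
  refine intervalIntegral.integral_zero_ae (Eventually.of_forall fun t ht => ?_)
  have h1 : t ∈ Icc (a i) (b i) := by
    have h2 : uIcc s' s ⊆ Icc (a i) (b i) := uIcc_subset_Icc hs' hs
    exact h2 (uIoc_subset_uIcc ht)
  rw [h.ph_eq_one hi h1, sub_self]

/-- **(P2)** dependence on `z` -/
theorem G_z [Countable ι] {F : Finset ι} {B : Set ℝ} (hB : MeasurableSet B) {δ : ℝ} (hδ : 0 ≤ δ)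
    (hBδ : volume B ≤ ENNReal.ofReal δ) {z z' : ℂ}
    (hF : ∀ i, i ∉ F → (χ i z ≠ 0 ∨ χ i z' ≠ 0) → Icc (a i) (b i) ⊆ B) (s : ℝ) :
    |G χ a b z s - G χ a b z' s| ≤ ∑ i ∈ F, |χ i z - χ i z'| * (b i - a i) + δ := by
  have h1 : G χ a b z s - G χ a b z' s =
      ∫ t in (0 : ℝ)..s, (ph χ a b z' t - ph χ a b z t) := by
    unfold G
    rw [← intervalIntegral.integral_sub (h.integrable_g z 0 s) (h.integrable_g z' 0 s)]
    congr 1
    ext t
    ring
  have hI : ∀ i, Integrable (fun t => |χ i z - χ i z'| * (Icc (a i) (b i)).indicator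
      (1 : ℝ → ℝ) t) volume := fun i => by
    refine Integrable.const_mul ?_ _
    exact (integrableOn_const (by
      rw [Real.volume_Icc]; exact ENNReal.ofReal_ne_top)).integrable_indicator measurableSet_Icc
  have hBfin : volume B ≠ ∞ := ne_top_of_le_ne_top ENNReal.ofReal_ne_top hBδ
  have hIB : Integrable (B.indicator (1 : ℝ → ℝ)) volume :=
    (integrableOn_const hBfin).integrable_indicator hB
  have hIS : Integrable (fun t => ∑ i ∈ F, |χ i z - χ i z'| * (Icc (a i) (b i)).indicator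
      (1 : ℝ → ℝ) t + B.indicator 1 t) volume :=
    (integrable_finsetSum _ fun i _ => hI i).add hIB
  have hpos : ∀ t, 0 ≤ ∑ i ∈ F, |χ i z - χ i z'| * (Icc (a i) (b i)).indicator
      (1 : ℝ → ℝ) t + B.indicator 1 t := fun t =>
    add_nonneg (Finset.sum_nonneg fun i _ => mul_nonneg (abs_nonneg _) (ind_nonneg _ _ t))
      (indicator_nonneg (fun _ _ => zero_le_one) t)
  have hval : ∫ t, (∑ i ∈ F, |χ i z - χ i z'| * (Icc (a i) (b i)).indicator
      (1 : ℝ → ℝ) t + B.indicator 1 t) = ∑ i ∈ F, |χ i z - χ i z'| * (b i - a i) +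
        volume.real B := by
    rw [integral_add (integrable_finsetSum _ fun i _ => hI i) hIB,
      integral_finsetSum _ fun i _ => hI i]
    congr 1
    · refine Finset.sum_congr rfl fun i _ => ?_
      rw [integral_const_mul, integral_indicator_one measurableSet_Icc, Real.volume_real_Icc,
        max_eq_left (sub_nonneg.2 (h.ab i))]
    · exact integral_indicator_one hB
  rw [h1]
  calc |∫ t in (0 : ℝ)..s, (ph χ a b z' t - ph χ a b z t)|
      ≤ ∫ t in uIoc 0 s, ‖ph χ a b z' t - ph χ a b z t‖ := by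
        rw [← Real.norm_eq_abs]; exact intervalIntegral.norm_integral_le_integral_norm_uIoc
    _ ≤ ∫ t in uIoc 0 s, (∑ i ∈ F, |χ i z - χ i z'| * (Icc (a i) (b i)).indicator
          (1 : ℝ → ℝ) t + B.indicator 1 t) := by
        refine integral_mono_of_nonneg (Eventually.of_forall fun t => norm_nonneg _)
          hIS.integrableOn (Eventually.of_forall fun t => ?_)
        show ‖ph χ a b z' t - ph χ a b z t‖ ≤ _
        rw [Real.norm_eq_abs, abs_sub_comm]
        exact h.abs_ph_sub_le hF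
    _ ≤ ∫ t, (∑ i ∈ F, |χ i z - χ i z'| * (Icc (a i) (b i)).indicator
          (1 : ℝ → ℝ) t + B.indicator 1 t) :=
        setIntegral_le_integral hIS (Eventually.of_forall hpos)
    _ = ∑ i ∈ F, |χ i z - χ i z'| * (b i - a i) + volume.real B := hval
    _ ≤ _ := by
        have : volume.real B ≤ δ := by
          rw [Measure.real]
          exact ENNReal.toReal_le_of_le_ofReal hδ hBδ
        linarith

/-- **(P2')** with finitely many active indices -/
theorem G_z' [Countable ι] {F : Finset ι} {z z' : ℂ}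
    (hF : ∀ i, i ∉ F → χ i z = 0 ∧ χ i z' = 0) (s : ℝ) :
    |G χ a b z s - G χ a b z' s| ≤ ∑ i ∈ F, |χ i z - χ i z'| * (b i - a i) := by
  have := h.G_z (F := F) (B := ∅) MeasurableSet.empty le_rfl (by simp) (z := z) (z' := z')
    (fun i hi hz => by
      exfalso
      rcases hz with hz | hz
      · exact hz (hF i hi).1
      · exact hz (hF i hi).2) s
  simpa using this

/-- **(P5)** distance to the identity -/
theorem G_sub_self [Countable ι] {F : Finset ι} {z : ℂ} (hF : ∀ i, i ∉ F → χ i z = 0) (s : ℝ) :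
    |G χ a b z s - s| ≤ ∑ i ∈ F, χ i z * (b i - a i) := by
  have h1 : G χ a b z s - s = -∫ t in (0 : ℝ)..s, ph χ a b z t := by
    unfold G
    rw [intervalIntegral.integral_sub intervalIntegrable_const (h.integrable_ph z 0 s)]
    simp
  have hI : ∀ i, Integrable (fun t => χ i z * (Icc (a i) (b i)).indicator
      (1 : ℝ → ℝ) t) volume := fun i => by
    refine Integrable.const_mul ?_ _
    exact (integrableOn_const (by
      rw [Real.volume_Icc]; exact ENNReal.ofReal_ne_top)).integrable_indicator measurableSet_Icc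
  have hIS : Integrable (fun t => ∑ i ∈ F, χ i z * (Icc (a i) (b i)).indicator
      (1 : ℝ → ℝ) t) volume := integrable_finsetSum _ fun i _ => hI i
  have hpos : ∀ t, 0 ≤ ∑ i ∈ F, χ i z * (Icc (a i) (b i)).indicator (1 : ℝ → ℝ) t := fun t =>
    Finset.sum_nonneg fun i _ => h.term_nonneg i z t
  rw [h1, abs_neg]
  calc |∫ t in (0 : ℝ)..s, ph χ a b z t| ≤ ∫ t in uIoc 0 s, ‖ph χ a b z t‖ := by
        rw [← Real.norm_eq_abs]; exact intervalIntegral.norm_integral_le_integral_norm_uIoc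
    _ ≤ ∫ t in uIoc 0 s, ∑ i ∈ F, χ i z * (Icc (a i) (b i)).indicator (1 : ℝ → ℝ) t := by
        refine integral_mono_of_nonneg (Eventually.of_forall fun t => norm_nonneg _)
          hIS.integrableOn (Eventually.of_forall fun t => ?_)
        show ‖ph χ a b z t‖ ≤ _
        rw [Real.norm_eq_abs, abs_of_nonneg (h.ph_nonneg z t)]
        refine Real.iSup_le (fun i => ?_) (hpos t)
        by_cases hi : i ∈ F
        · exact Finset.single_le_sum (f := fun i => χ i z * (Icc (a i) (b i)).indicator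
            (1 : ℝ → ℝ) t) (fun i _ => h.term_nonneg i z t) hi
        · rw [hF i hi, zero_mul]; exact hpos t
    _ ≤ ∫ t, ∑ i ∈ F, χ i z * (Icc (a i) (b i)).indicator (1 : ℝ → ℝ) t :=
        setIntegral_le_integral hIS (Eventually.of_forall hpos)
    _ = ∑ i ∈ F, χ i z * (b i - a i) := by
        rw [integral_finsetSum _ fun i _ => hI i]
        refine Finset.sum_congr rfl fun i _ => ?_
        rw [integral_const_mul, integral_indicator_one measurableSet_Icc, Real.volume_real_Icc,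
          max_eq_left (sub_nonneg.2 (h.ab i))]

end Cut

end

end Crest.Agent.R105.Pln_897
end

-- ▼ part R105/Pln2_897
section

/-! Row 105, S0139, RED-PLAN (helper897), part 2: the planarised function `w z = G z (v z)` from
abstract data: continuous, locally Lipschitz off the dust, derivatives. -/

set_option autoImplicit false

open Set Filter Topology Metric MeasureTheory
open scoped ENNReal NNReal

namespace Crest.Agent.R105.Pln_897

variable {κ : Type*}

/-- data for the planarisation off `B`: `N i` are open neighbourhoods of the treated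
components, `χ i = 1` on `N i`, the values of `v` on `N i` lie in `[a i, b i]`, `T i` supports
`χ i`, `g i` is a slope of `χ i` -/
structure PData (U B : Set ℂ) (v : ℂ → ℝ) (N T : κ → Set ℂ) (χ g : κ → ℂ → ℝ) (a b : κ → ℝ) :
    Prop where
  cut : Cut χ a b
  Uo : IsOpen U
  No : ∀ i, IsOpen (N i)
  one : ∀ i, ∀ z ∈ N i, χ i z = 1
  lip : ∀ i, ∃ L : ℝ≥0, LipschitzWith L (χ i)
  Tc : ∀ i, IsClosed (T i)
  supp : ∀ i, ∀ z ∉ T i, χ i z = 0
  mem : ∀ i, ∀ z ∈ N i, v z ∈ Icc (a i) (b i)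
  g0 : ∀ i z, 0 ≤ g i z
  gT : ∀ i, ∀ z ∉ T i, g i z = 0
  gm : ∀ i, Measurable (g i)
  slope : ∀ i z, ∀ᶠ y in 𝓝 z, |χ i y - χ i z| ≤ g i z * ‖y - z‖
  locfin : ∀ z ∈ U ∪ ⋃ i, N i, ∃ t ∈ 𝓝 z, {i | (T i ∩ t).Nonempty}.Finite
  dust : ∀ q, q ∉ B → q ∉ U ∪ ⋃ i, N i → ContinuousAt v q ∧ ∀ ε > 0, ∃ t ∈ 𝓝 q,
    {i | (T i ∩ t).Nonempty ∧ ¬ Icc (a i) (b i) ⊆ Icc (v q - ε) (v q + ε)}.Finite

/-- the weight -/
noncomputable def hE (g : κ → ℂ → ℝ) (a b : κ → ℝ) (z : ℂ) : ℝ≥0∞ :=
  ∑' i, ENNReal.ofReal ((b i - a i) * g i z)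

/-- the real weight -/
noncomputable def hh (g : κ → ℂ → ℝ) (a b : κ → ℝ) (z : ℂ) : ℝ := (hE g a b z).toReal

namespace PData

variable {U B : Set ℂ} {v : ℂ → ℝ} {N T : κ → Set ℂ} {χ g : κ → ℂ → ℝ} {a b : κ → ℝ}
variable (h : PData U B v N T χ g a b)
include h

theorem len_nonneg (i : κ) : 0 ≤ b i - a i := sub_nonneg.2 (h.cut.ab i)

theorem term_nonneg (i : κ) (z : ℂ) : 0 ≤ (b i - a i) * g i z :=
  mul_nonneg (h.len_nonneg i) (h.g0 i z)

theorem sum_le_hh {z : ℂ} (hfin : hE g a b z ≠ ∞) (F : Finset κ) :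
    ∑ i ∈ F, (b i - a i) * g i z ≤ hh g a b z := by
  rw [hh, ← ENNReal.ofReal_le_iff_le_toReal hfin, ENNReal.ofReal_sum_of_nonneg
    fun i _ => h.term_nonneg i z]
  exact ENNReal.sum_le_tsum F

omit h in
theorem hE_ne_top {z : ℂ} {F : Finset κ} (hF : ∀ i, i ∉ F → g i z = 0) : hE g a b z ≠ ∞ := by
  rw [hE, tsum_eq_sum (s := F) fun i hi => by rw [hF i hi, mul_zero, ENNReal.ofReal_zero]]
  exact ENNReal.sum_ne_top.2 fun i _ => ENNReal.ofReal_ne_top

omit h in
theorem hE_zero {z : ℂ} (hF : ∀ i, g i z = 0) : hE g a b z = 0 := by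
  rw [hE, ENNReal.tsum_eq_zero]
  intro i
  rw [hF i, mul_zero, ENNReal.ofReal_zero]

theorem measurable_hE [Countable κ] : Measurable (hE g a b) :=
  Measurable.tsum fun i => ((h.gm i).const_mul _).ennreal_ofReal

theorem measurable_hh [Countable κ] : Measurable (hh g a b) := h.measurable_hE.ennreal_toReal

/-- the active indices near a point, as a finset -/
theorem exists_active {z : ℂ} (hz : z ∈ U ∪ ⋃ i, N i) :
    ∃ t ∈ 𝓝 z, ∃ F : Finset κ, ∀ y ∈ t, ∀ i, i ∉ F → y ∉ T i := by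
  obtain ⟨t, ht, hfin⟩ := h.locfin z hz
  refine ⟨t, ht, hfin.toFinset, fun y hy i hi hyT => ?_⟩
  exact hi (hfin.mem_toFinset.2 ⟨y, hyT, hy⟩)

/-- increments of `w` -/
theorem inc [Countable κ] {F : Finset κ} {z z' : ℂ} (hF : ∀ i, i ∉ F → z ∉ T i ∧ z' ∉ T i) :
    |G χ a b z (v z) - G χ a b z' (v z')| ≤
      |v z - v z'| + ∑ i ∈ F, |χ i z - χ i z'| * (b i - a i) := by
  have h1 := h.cut.G_lip z (v z) (v z')
  have h2 := h.cut.G_z' (fun i hi => ⟨h.supp i z (hF i hi).1, h.supp i z' (hF i hi).2⟩) (v z')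
  calc |G χ a b z (v z) - G χ a b z' (v z')|
      = |(G χ a b z (v z) - G χ a b z (v z')) + (G χ a b z (v z') - G χ a b z' (v z'))| := by
        congr 1; ring
    _ ≤ _ := (abs_add_le _ _).trans (add_le_add h1 h2)

/-- increments of `w - v` -/
theorem inc' [Countable κ] {F : Finset κ} {z z' : ℂ} (hF : ∀ i, i ∉ F → z ∉ T i ∧ z' ∉ T i) :
    |(G χ a b z (v z) - v z) - (G χ a b z' (v z') - v z')| ≤
      |v z - v z'| + ∑ i ∈ F, |χ i z - χ i z'| * (b i - a i) := by
  have h2 := h.cut.G_z' (fun i hi => ⟨h.supp i z (hF i hi).1, h.supp i z' (hF i hi).2⟩) (v z')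
  have h1 : |(G χ a b z (v z) - G χ a b z (v z')) - (v z - v z')| ≤ |v z - v z'| := by
    have e : (G χ a b z (v z) - G χ a b z (v z')) - (v z - v z') =
        -∫ t in (v z')..(v z), ph χ a b z t := by
      rw [h.cut.G_sub, intervalIntegral.integral_sub intervalIntegrable_const
        (h.cut.integrable_ph z _ _)]
      simp
    rw [e, abs_neg]
    have := intervalIntegral.norm_integral_le_of_norm_le_const (a := v z') (b := v z) (C := 1)
      (f := fun t => ph χ a b z t) (fun t _ => by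
        rw [Real.norm_eq_abs, abs_of_nonneg (h.cut.ph_nonneg z t)]
        exact h.cut.ph_le_one z t)
    simpa using this
  calc |(G χ a b z (v z) - v z) - (G χ a b z' (v z') - v z')|
      = |((G χ a b z (v z) - G χ a b z (v z')) - (v z - v z')) +
          (G χ a b z (v z') - G χ a b z' (v z'))| := by
        congr 1; ring
    _ ≤ _ := (abs_add_le _ _).trans (add_le_add h1 h2)

/-- increments on `N i` -/
theorem inc_N [Countable κ] {F : Finset κ} {i : κ} {z z' : ℂ} (hz : z ∈ N i) (hz' : z' ∈ N i)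
    (hF : ∀ i, i ∉ F → z ∉ T i ∧ z' ∉ T i) :
    |G χ a b z (v z) - G χ a b z' (v z')| ≤ ∑ i ∈ F, |χ i z - χ i z'| * (b i - a i) := by
  rw [h.cut.G_const (h.one i z hz) (h.mem i z hz) (s' := a i) ⟨le_rfl, h.cut.ab i⟩,
    h.cut.G_const (h.one i z' hz') (h.mem i z' hz') (s' := a i) ⟨le_rfl, h.cut.ab i⟩]
  exact h.cut.G_z' (fun i hi => ⟨h.supp i z (hF i hi).1, h.supp i z' (hF i hi).2⟩) (a i)

/-- the sum of the increments of the cut-offs near a point -/
theorem slope_sum (F : Finset κ) (z : ℂ) :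
    ∀ᶠ y in 𝓝 z, ∑ i ∈ F, |χ i y - χ i z| * (b i - a i) ≤
      (∑ i ∈ F, (b i - a i) * g i z) * ‖y - z‖ := by
  have := (eventually_all_finset F).2 fun i _ => h.slope i z
  filter_upwards [this] with y hy
  rw [Finset.sum_mul]
  refine Finset.sum_le_sum fun i hi => ?_
  have := mul_le_mul_of_nonneg_right (hy i hi) (h.len_nonneg i)
  linarith

theorem exists_lip (F : Finset κ) : ∃ S : ℝ≥0, ∀ y y' : ℂ,
    ∑ i ∈ F, |χ i y - χ i y'| * (b i - a i) ≤ S * dist y y' := by
  choose L hL using h.lip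
  have hS : 0 ≤ ∑ i ∈ F, (L i : ℝ) * (b i - a i) :=
    Finset.sum_nonneg fun i _ => mul_nonneg (L i).2 (h.len_nonneg i)
  refine ⟨Real.toNNReal (∑ i ∈ F, (L i : ℝ) * (b i - a i)), fun y y' => ?_⟩
  rw [Real.coe_toNNReal _ hS, Finset.sum_mul]
  refine Finset.sum_le_sum fun i _ => ?_
  have h1 := (hL i).dist_le_mul y y'
  rw [Real.dist_eq] at h1
  have h2 := h.len_nonneg i
  nlinarith

/-- **locally Lipschitz off the dust** -/
theorem lipschitz [Countable κ] (hv : ∀ z ∈ U, ∃ K : ℝ≥0, ∃ t ∈ 𝓝 z, LipschitzOnWith K v t)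
    {z : ℂ} (hz : z ∈ U ∪ ⋃ i, N i) :
    ∃ K : ℝ≥0, ∃ t ∈ 𝓝 z, LipschitzOnWith K (fun z => G χ a b z (v z)) t := by
  obtain ⟨t, ht, F, hF⟩ := h.exists_active hz
  obtain ⟨S, hsum⟩ := h.exists_lip F
  rcases hz with hz | hz
  · obtain ⟨K, s, hs, hK⟩ := hv z hz
    refine ⟨K + S, t ∩ s, inter_mem ht hs, ?_⟩
    refine LipschitzOnWith.of_dist_le_mul fun y hy y' hy' => ?_
    have h1 := h.inc (F := F) (z := y) (z' := y') fun i hi => ⟨hF y hy.1 i hi, hF y' hy'.1 i hi⟩
    have h2 := hK.dist_le_mul y hy.2 y' hy'.2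
    have h3 := hsum y y'
    rw [Real.dist_eq] at h2 ⊢
    rw [NNReal.coe_add, add_mul]
    linarith
  · rw [mem_iUnion] at hz
    obtain ⟨j, hj⟩ := hz
    refine ⟨S, t ∩ N j, inter_mem ht ((h.No j).mem_nhds hj), ?_⟩
    refine LipschitzOnWith.of_dist_le_mul fun y hy y' hy' => ?_
    have h1 := h.inc_N hy.2 hy'.2 (F := F) fun i hi => ⟨hF y hy.1 i hi, hF y' hy'.1 i hi⟩
    rw [Real.dist_eq]
    exact h1.trans (hsum y y')

/-- **continuity at the dust** -/
theorem continuousAt_dust [Countable κ] {q : ℂ} (hqB : q ∉ B) (hq : q ∉ U ∪ ⋃ i, N i) :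
    ContinuousAt (fun z => G χ a b z (v z)) q := by
  rw [Metric.continuousAt_iff']
  intro ε0 hε0
  obtain ⟨ε, hε, hε1⟩ : ∃ ε : ℝ, 0 < ε ∧ 6 * ε < ε0 := ⟨ε0 / 12, by positivity, by linarith⟩
  obtain ⟨hcv, hd⟩ := h.dust q hqB hq
  obtain ⟨t, ht, hfin⟩ := hd ε hε
  set F : Finset κ := hfin.toFinset with hFdef
  have hactive : ∀ y ∈ t, ∀ i, i ∉ F → χ i y ≠ 0 →
      Icc (a i) (b i) ⊆ Icc (v q - ε) (v q + ε) := by
    intro y hy i hi hne
    by_contra hcon
    refine hi (hfin.mem_toFinset.2 ⟨⟨y, ?_, hy⟩, hcon⟩)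
    by_contra hyT
    exact hne (h.supp i y hyT)
  have hqt : q ∈ t := mem_of_mem_nhds ht
  have hcont : ∀ i, Continuous (χ i) := fun i => (h.lip i).choose_spec.continuous
  -- small neighbourhood
  have hχF : ∀ᶠ y in 𝓝 q, ∑ i ∈ F, |χ i y - χ i q| * (b i - a i) < ε := by
    have hc : Tendsto (fun y => ∑ i ∈ F, |χ i y - χ i q| * (b i - a i)) (𝓝 q) (𝓝 0) := by
      have h0 : (fun y => ∑ i ∈ F, |χ i y - χ i q| * (b i - a i)) q = 0 := by simp
      rw [← h0]
      refine tendsto_finsetSum _ fun i _ => ?_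
      exact (((hcont i).continuousAt.sub continuousAt_const).abs.mul continuousAt_const)
    exact hc.eventually_lt_const hε
  have hvq : ∀ᶠ y in 𝓝 q, |v y - v q| < ε := by
    have := Metric.continuousAt_iff'.1 hcv ε hε
    simpa only [Real.dist_eq] using this
  filter_upwards [ht, hχF, hvq] with y hy hyχ hyv
  rw [Real.dist_eq]
  have h1 := h.cut.G_lip y (v y) (v q)
  have h2 := h.cut.G_z (F := F) (B := Icc (v q - ε) (v q + ε)) measurableSet_Icc
      (δ := 2 * ε) (by positivity) (by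
        rw [Real.volume_Icc]
        exact ENNReal.ofReal_le_ofReal (by linarith)) (z := y) (z' := q)
      (fun i hi hne => by
        rcases hne with hne | hne
        · exact hactive y hy i hi hne
        · exact hactive q hqt i hi hne) (v q)
  calc |G χ a b y (v y) - G χ a b q (v q)|
      = |(G χ a b y (v y) - G χ a b y (v q)) + (G χ a b y (v q) - G χ a b q (v q))| := by
        congr 1; ring
    _ ≤ _ := (abs_add_le _ _).trans (add_le_add h1 h2)
    _ < ε0 := by linarith

/-- **continuity off `B`** -/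
theorem continuousOn [Countable κ]
    (hv : ∀ z ∈ U, ∃ K : ℝ≥0, ∃ t ∈ 𝓝 z, LipschitzOnWith K v t) :
    ContinuousOn (fun z => G χ a b z (v z)) Bᶜ := by
  intro z hz
  by_cases hz' : z ∈ U ∪ ⋃ i, N i
  · obtain ⟨K, t, ht, hK⟩ := h.lipschitz hv hz'
    exact (hK.continuousOn.continuousAt ht).continuousWithinAt
  · exact (h.continuousAt_dust hz hz').continuousWithinAt

/-- **(derC)** -/
theorem fderiv_N [Countable κ] {i : κ} {z : ℂ} (hz : z ∈ N i) :
    ‖fderiv ℝ (fun z => G χ a b z (v z)) z‖ ≤ hh g a b z := by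
  obtain ⟨t, ht, F, hF⟩ := h.exists_active (Or.inr (mem_iUnion.2 ⟨i, hz⟩))
  have hzt := mem_of_mem_nhds ht
  have hfin : hE g a b z ≠ ∞ := hE_ne_top fun j hj => h.gT j z (hF z hzt j hj)
  refine le_trans ?_ (h.sum_le_hh hfin F)
  refine norm_fderiv_le_of_lip' ℝ (Finset.sum_nonneg fun j _ => h.term_nonneg j z) ?_
  filter_upwards [ht, (h.No i).mem_nhds hz, h.slope_sum F z] with y hy hyN hys
  rw [Real.norm_eq_abs]
  exact (h.inc_N hyN hz fun j hj => ⟨hF y hy j hj, hF z hzt j hj⟩).trans hys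

/-- **(derU)** -/
theorem fderiv_U [Countable κ] {z : ℂ} (hz : z ∈ U) (hv : DifferentiableAt ℝ v z) :
    ‖fderiv ℝ (fun z => G χ a b z (v z)) z - fderiv ℝ v z‖ ≤
      (⋃ i, T i).indicator (fun z => ‖fderiv ℝ v z‖) z + hh g a b z := by
  obtain ⟨t, ht, F, hF⟩ := h.exists_active (Or.inl hz)
  have hzt := mem_of_mem_nhds ht
  have hfin : hE g a b z ≠ ∞ := hE_ne_top fun j hj => h.gT j z (hF z hzt j hj)
  have hh0 : 0 ≤ hh g a b z := ENNReal.toReal_nonneg
  by_cases hA : z ∈ ⋃ i, T i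
  · rw [indicator_of_mem hA]
    by_cases hw : DifferentiableAt ℝ (fun z => G χ a b z (v z)) z
    · refine le_of_forall_pos_le_add fun ε hε => ?_
      have hd := hw.hasFDerivAt.sub hv.hasFDerivAt
      refine hd.le_of_lip' (by positivity) ?_
      have h1 : ∀ᶠ y in 𝓝 z, |v y - v z| ≤ (‖fderiv ℝ v z‖ + ε) * ‖y - z‖ := by
        filter_upwards [hv.hasFDerivAt.isLittleO.def hε] with y hy
        rw [Real.norm_eq_abs] at hy
        have h2 := (fderiv ℝ v z).le_opNorm (y - z)
        rw [Real.norm_eq_abs] at h2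
        have h3 : |v y - v z| ≤ |v y - v z - fderiv ℝ v z (y - z)| + |fderiv ℝ v z (y - z)| := by
          simpa using abs_add_le (v y - v z - fderiv ℝ v z (y - z)) (fderiv ℝ v z (y - z))
        rw [add_mul]
        linarith
      filter_upwards [ht, h1, h.slope_sum F z] with y hy hy1 hys
      rw [Real.norm_eq_abs]
      have h2 := h.inc' (F := F) (z := y) (z' := z) fun j hj => ⟨hF y hy j hj, hF z hzt j hj⟩
      have h3 := mul_le_mul_of_nonneg_right (h.sum_le_hh hfin F) (norm_nonneg (y - z))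
      calc _ ≤ |v y - v z| + ∑ i ∈ F, |χ i y - χ i z| * (b i - a i) := h2
        _ ≤ (‖fderiv ℝ v z‖ + ε) * ‖y - z‖ + hh g a b z * ‖y - z‖ := by linarith
        _ = _ := by ring
    · rw [fderiv_zero_of_not_differentiableAt hw, zero_sub, norm_neg]
      linarith
  · rw [indicator_of_notMem hA, zero_add]
    have hno : ∀ᶠ y in 𝓝 z, ∀ i, y ∉ T i := by
      have h1 : ∀ᶠ y in 𝓝 z, ∀ i ∈ F, y ∉ T i := by
        rw [eventually_all_finset]
        intro i _
        exact (h.Tc i).isOpen_compl.mem_nhds fun hm => hA (mem_iUnion.2 ⟨i, hm⟩)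
      filter_upwards [ht, h1] with y hy hy1 i
      by_cases hi : i ∈ F
      · exact hy1 i hi
      · exact hF y hy i hi
    have heq : (fun z => G χ a b z (v z)) =ᶠ[𝓝 z] v := by
      filter_upwards [hno] with y hy
      have := h.cut.G_sub_self (F := ∅) (z := y) (fun i _ => h.supp i y (hy i)) (v y)
      rw [Finset.sum_empty] at this
      exact sub_eq_zero.1 (abs_nonpos_iff.1 this)
    rw [heq.fderiv_eq, sub_self, norm_zero]
    exact hh0

end PData

end Crest.Agent.R105.Pln_897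
end

-- ▼ part R105/Pln3_897
section

/-! Row 105, S0139, RED-PLAN (helper897), part 3: finite sups, measurability, the constants. -/

set_option autoImplicit false

open Set Filter Topology Metric MeasureTheory
open scoped ENNReal NNReal

namespace Crest.Agent.R105.Pln_897

variable {κ : Type*}

open Classical in
/-- restricted cut-offs -/
noncomputable def res (F : Finset κ) (χ : κ → ℂ → ℝ) (i : κ) (z : ℂ) : ℝ :=
  if i ∈ F then χ i z else 0

theorem res_mem {F : Finset κ} {χ : κ → ℂ → ℝ} {i : κ} (hi : i ∈ F) (z : ℂ) :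
    res F χ i z = χ i z := by
  classical
  exact if_pos hi

theorem res_not {F : Finset κ} {χ : κ → ℂ → ℝ} {i : κ} (hi : i ∉ F) (z : ℂ) :
    res F χ i z = 0 := by
  classical
  exact if_neg hi

theorem Cut.res {χ : κ → ℂ → ℝ} {a b : κ → ℝ} (h : Cut χ a b) (F : Finset κ) :
    Cut (res F χ) a b where
  nonneg i z := by
    by_cases hi : i ∈ F
    · rw [res_mem hi]; exact h.nonneg i z
    · rw [res_not hi]
  le_one i z := by
    by_cases hi : i ∈ F
    · rw [res_mem hi]; exact h.le_one i z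
    · rw [res_not hi]; exact zero_le_one
  ab := h.ab

/-- `|G z s| ≤ |s|` -/
theorem Cut.abs_G_le {χ : κ → ℂ → ℝ} {a b : κ → ℝ} (h : Cut χ a b) [Countable κ] (z : ℂ) (s : ℝ) :
    |G χ a b z s| ≤ |s| := by
  have := h.G_lip z s 0
  have h0 : G χ a b z 0 = 0 := intervalIntegral.integral_same
  rwa [h0, sub_zero, sub_zero] at this

/-- the finite sups converge -/
theorem Cut.tendsto_ph {χ : κ → ℂ → ℝ} {a b : κ → ℝ} (h : Cut χ a b) (z : ℂ) (t : ℝ) :
    Tendsto (fun F : Finset κ => ph (Pln_897.res F χ) a b z t) atTop (𝓝 (ph χ a b z t)) := by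
  rw [tendsto_order]
  constructor
  · intro x hx
    rcases isEmpty_or_nonempty κ with he | hne
    · refine Eventually.of_forall fun F => ?_
      have : ph (Pln_897.res F χ) a b z t = ph χ a b z t := by
        unfold ph
        rw [Real.iSup_of_isEmpty, Real.iSup_of_isEmpty]
      rw [this]
      exact hx
    · obtain ⟨i, hi⟩ := exists_lt_of_lt_ciSup hx
      filter_upwards [eventually_ge_atTop ({i} : Finset κ)] with F hF
      have hiF : i ∈ F := hF (Finset.mem_singleton_self i)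
      have := (h.res F).le_ph i z t
      rw [res_mem hiF] at this
      exact lt_of_lt_of_le hi this
  · intro x hx
    refine Eventually.of_forall fun F => lt_of_le_of_lt ?_ hx
    refine Real.iSup_le (fun i => ?_) (h.ph_nonneg z t)
    by_cases hi : i ∈ F
    · rw [res_mem hi]; exact h.le_ph i z t
    · rw [res_not hi, zero_mul]; exact h.ph_nonneg z t

/-- the finite clampings converge -/
theorem Cut.tendsto_G {χ : κ → ℂ → ℝ} {a b : κ → ℝ} (h : Cut χ a b) [Countable κ] (z : ℂ)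
    (s : ℝ) :
    Tendsto (fun F : Finset κ => G (Pln_897.res F χ) a b z s) atTop (𝓝 (G χ a b z s)) := by
  unfold G
  refine intervalIntegral.tendsto_integral_filter_of_dominated_convergence (fun _ => (1 : ℝ))
    ?_ ?_ intervalIntegrable_const ?_
  · exact Eventually.of_forall fun F =>
      (measurable_const.sub (Cut.measurable_ph z)).aestronglyMeasurable
  · refine Eventually.of_forall fun F => Eventually.of_forall fun t _ => ?_
    rw [Real.norm_eq_abs, abs_le]
    constructor <;> linarith [(h.res F).ph_nonneg z t, (h.res F).ph_le_one z t]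
  · exact Eventually.of_forall fun t _ => tendsto_const_nhds.sub (h.tendsto_ph z t)

namespace PData

variable {U B : Set ℂ} {v : ℂ → ℝ} {N T : κ → Set ℂ} {χ g : κ → ℂ → ℝ} {a b : κ → ℝ}
variable (h : PData U B v N T χ g a b)
include h

/-- increments of the finite clampings -/
theorem inc_res [Countable κ] (F : Finset κ) (z z' : ℂ) (s : ℝ) :
    |G (res F χ) a b z s - G (res F χ) a b z' s| ≤ ∑ i ∈ F, |χ i z - χ i z'| * (b i - a i) := by
  have := (h.cut.res F).G_z' (F := F) (z := z) (z' := z')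
    (fun i hi => ⟨res_not hi z, res_not hi z'⟩) s
  refine this.trans (Finset.sum_le_sum fun i hi => ?_)
  rw [res_mem hi, res_mem hi]

theorem lip_res [Countable κ] (F : Finset κ) (s : ℝ) :
    ∃ S : ℝ≥0, LipschitzWith S fun z => G (res F χ) a b z s := by
  obtain ⟨S, hS⟩ := h.exists_lip F
  refine ⟨S, LipschitzWith.of_dist_le_mul fun z z' => ?_⟩
  rw [Real.dist_eq]
  exact (h.inc_res F z z' s).trans (hS z z')

/-- **(meas)** -/
theorem measurable_G [Countable κ] (s : ℝ) : Measurable fun z => G χ a b z s := by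
  refine measurable_of_tendsto_metrizable' (atTop : Filter (Finset κ))
    (f := fun F z => G (res F χ) a b z s) (fun F => ?_) ?_
  · obtain ⟨S, hS⟩ := h.lip_res F s
    exact hS.continuous.measurable
  · rw [tendsto_pi_nhds]
    exact fun z => h.cut.tendsto_G z s

/-- **(cst)** -/
theorem cst [Countable κ] (hfin : ∀ᵐ z, hE g a b z ≠ ∞) (hi : Integrable (hh g a b))
    (s : ℝ) {η : ℂ → ℝ} {K : ℝ≥0} (hη : LipschitzWith K η) (hc : HasCompactSupport η) (e : ℂ) :
    |∫ z, G χ a b z s * fderiv ℝ η z e| ≤ ‖e‖ * ∫ z, |η z| * hh g a b z := by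
  have hηc : Continuous η := hη.continuous
  obtain ⟨M, hM⟩ := hc.exists_bound_of_continuous hηc
  have hI : Integrable fun z => |η z| * hh g a b z := by
    refine (hi.norm.const_mul M).mono (hηc.abs.aestronglyMeasurable.mul hi.aestronglyMeasurable)
      (Eventually.of_forall fun z => ?_)
    rw [norm_mul, norm_mul, norm_norm, Real.norm_eq_abs |η z|, abs_abs]
    have h1 := hM z
    rw [Real.norm_eq_abs] at h1
    have h2 : |η z| ≤ ‖M‖ := h1.trans (le_abs_self M)
    exact mul_le_mul_of_nonneg_right h2 (norm_nonneg _)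
  have hηd : ∀ᵐ z, DifferentiableAt ℝ η z := hη.ae_differentiableAt
  -- finite
  have hF : ∀ F : Finset κ, |∫ z, G (res F χ) a b z s * fderiv ℝ η z e| ≤
      ‖e‖ * ∫ z, |η z| * hh g a b z := by
    intro F
    obtain ⟨S, hS⟩ := h.lip_res F s
    have h1 := hS.integral_lineDeriv_mul_eq (μ := volume) hη hc e
    have h2 : ∫ z, G (res F χ) a b z s * fderiv ℝ η z e =
        -∫ z, lineDeriv ℝ η z (-e) * G (res F χ) a b z s := by
      rw [← integral_neg]
      refine integral_congr_ae ?_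
      filter_upwards [hηd] with z hz
      rw [hz.lineDeriv_eq_fderiv, map_neg]
      ring
    rw [h2, ← h1, abs_neg, ← integral_const_mul]
    rw [← Real.norm_eq_abs]
    refine (norm_integral_le_integral_norm _).trans ?_
    refine integral_mono_of_nonneg (Eventually.of_forall fun z => norm_nonneg _)
      (hI.const_mul _) ?_
    filter_upwards [hfin] with z hz
    show ‖_‖ ≤ _
    rw [norm_mul, Real.norm_eq_abs (η z)]
    have h3 : ‖lineDeriv ℝ (fun z => G (res F χ) a b z s) z e‖ ≤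
        (∑ i ∈ F, (b i - a i) * g i z) * ‖e‖ := by
      refine norm_lineDeriv_le_of_lip' ℝ (Finset.sum_nonneg fun i _ => h.term_nonneg i z) ?_
      filter_upwards [h.slope_sum F z] with y hy
      rw [Real.norm_eq_abs]
      exact (h.inc_res F y z s).trans hy
    have h4 := h.sum_le_hh hz F
    calc _ ≤ ((∑ i ∈ F, (b i - a i) * g i z) * ‖e‖) * |η z| :=
          mul_le_mul_of_nonneg_right h3 (abs_nonneg _)
      _ ≤ (hh g a b z * ‖e‖) * |η z| := by gcongr
      _ = _ := by ring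
  -- the limit
  have hlim : Tendsto (fun F : Finset κ => ∫ z, G (res F χ) a b z s * fderiv ℝ η z e) atTop
      (𝓝 (∫ z, G χ a b z s * fderiv ℝ η z e)) := by
    refine tendsto_integral_filter_of_dominated_convergence
      (fun z : ℂ => |s| * ‖fderiv ℝ η z e‖) ?_ ?_ ?_ ?_
    · refine Eventually.of_forall fun F => ?_
      obtain ⟨S, hS⟩ := h.lip_res F s
      exact hS.continuous.aestronglyMeasurable.mul
        (measurable_fderiv_apply_const ℝ η e).aestronglyMeasurable
    · refine Eventually.of_forall fun F => Eventually.of_forall fun z => ?_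
      rw [norm_mul, Real.norm_eq_abs (G _ _ _ _ _)]
      exact mul_le_mul_of_nonneg_right ((h.cut.res F).abs_G_le z s) (norm_nonneg _)
    · refine Integrable.const_mul ?_ _
      refine Integrable.norm ?_
      have hcs : HasCompactSupport fun z => fderiv ℝ η z e := hc.fderiv_apply ℝ e
      refine (integrableOn_iff_integrable_of_support_subset (s := tsupport fun z => fderiv ℝ η z e)
        subset_closure).1 ?_
      refine Measure.integrableOn_of_bounded (M := K * ‖e‖) hcs.isCompact.measure_lt_top.ne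
        (measurable_fderiv_apply_const ℝ η e).aestronglyMeasurable
        (Eventually.of_forall fun z => ?_)
      exact (ContinuousLinearMap.le_opNorm _ _).trans
        (mul_le_mul_of_nonneg_right (norm_fderiv_le_of_lipschitz ℝ hη) (norm_nonneg _))
    · exact Eventually.of_forall fun z => (h.cut.tendsto_G z s).mul_const _
  exact le_of_tendsto hlim.abs (Eventually.of_forall hF)

end PData

end Crest.Agent.R105.Pln_897
end

-- ▼ part R105/Pln4_897
section

/-! Row 105, S0139, RED-PLAN (helper897), part 4: cut-offs of discs and of points. -/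

set_option autoImplicit false

open Set Filter Topology Metric MeasureTheory
open scoped ENNReal NNReal

namespace Crest.Agent.R105.Pln_897

/-- a cut-off, one on `closedBall c p`, supported by `closedBall c ρ`, with slope `g` -/
structure CutAt (c : ℂ) (p ρ : ℝ) (χ g : ℂ → ℝ) : Prop where
  nonneg : ∀ z, 0 ≤ χ z
  le_one : ∀ z, χ z ≤ 1
  one : ∀ z ∈ closedBall c p, χ z = 1
  lip : ∃ L : ℝ≥0, LipschitzWith L χ
  supp : ∀ z ∉ closedBall c ρ, χ z = 0
  g0 : ∀ z, 0 ≤ g z
  gT : ∀ z ∉ closedBall c ρ, g z = 0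
  gm : Measurable g
  slope : ∀ z, ∀ᶠ y in 𝓝 z, |χ y - χ z| ≤ g z * ‖y - z‖

/-- the basic cut-off -/
noncomputable def bump (c : ℂ) (p q : ℝ) (z : ℂ) : ℝ := max 0 (min 1 ((q - dist z c) / (q - p)))

theorem bump_nonneg (c : ℂ) (p q : ℝ) (z : ℂ) : 0 ≤ bump c p q z := le_max_left _ _

theorem bump_le_one (c : ℂ) (p q : ℝ) (z : ℂ) : bump c p q z ≤ 1 :=
  max_le zero_le_one (min_le_left _ _)

theorem bump_one {c : ℂ} {p q : ℝ} (h : p < q) {z : ℂ} (hz : dist z c ≤ p) :
    bump c p q z = 1 := by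
  have h1 : 1 ≤ (q - dist z c) / (q - p) := by
    rw [le_div_iff₀ (sub_pos.2 h)]
    linarith
  rw [bump, min_eq_left h1, max_eq_right zero_le_one]

theorem bump_zero {c : ℂ} {p q : ℝ} (h : p < q) {z : ℂ} (hz : q ≤ dist z c) :
    bump c p q z = 0 := by
  have h1 : (q - dist z c) / (q - p) ≤ 0 :=
    div_nonpos_of_nonpos_of_nonneg (by linarith) (sub_pos.2 h).le
  rw [bump, min_eq_right (h1.trans zero_le_one), max_eq_left h1]

theorem bump_lip (c : ℂ) {p q : ℝ} (h : p < q) (z y : ℂ) :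
    |bump c p q y - bump c p q z| ≤ 1 / (q - p) * ‖y - z‖ := by
  have hq := sub_pos.2 h
  have h1 : |bump c p q y - bump c p q z| ≤
      |(q - dist y c) / (q - p) - (q - dist z c) / (q - p)| := by
    set A := (q - dist y c) / (q - p)
    set D := (q - dist z c) / (q - p)
    have e1 : |max 0 (min 1 A) - max 0 (min 1 D)| ≤ |min 1 A - min 1 D| := by
      rw [max_comm 0, max_comm 0]
      exact abs_max_sub_max_le_abs _ _ _
    have e2 : |min 1 A - min 1 D| ≤ |A - D| := by
      have := abs_min_sub_min_le_max 1 A 1 D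
      rw [sub_self, abs_zero, max_eq_right (abs_nonneg _)] at this
      exact this
    exact e1.trans e2
  refine h1.trans ?_
  rw [← sub_div, abs_div, abs_of_pos hq, div_le_iff₀ hq]
  have h2 : |q - dist y c - (q - dist z c)| ≤ dist y z := by
    have := abs_dist_sub_le y z c
    rw [show q - dist y c - (q - dist z c) = -(dist y c - dist z c) by ring, abs_neg]
    exact this
  calc _ ≤ dist y z := h2
    _ = _ := by rw [dist_eq_norm y z]; field_simp

theorem bump_lipschitz (c : ℂ) {p q : ℝ} (h : p < q) :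
    LipschitzWith (Real.toNNReal (1 / (q - p))) (bump c p q) := by
  refine LipschitzWith.of_dist_le_mul fun y z => ?_
  rw [Real.dist_eq, dist_eq_norm, Real.coe_toNNReal _ (by
    have := sub_pos.2 h
    positivity)]
  exact bump_lip c h z y

theorem bump_slope (c : ℂ) {p q : ℝ} (h : p < q) (z : ℂ) : ∀ᶠ y in 𝓝 z,
    |bump c p q y - bump c p q z| ≤
      (closedBall c q \ ball c p).indicator (fun _ => 1 / (q - p)) z * ‖y - z‖ := by
  by_cases h1 : z ∈ closedBall c q
  · by_cases h2 : z ∈ ball c p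
    · filter_upwards [isOpen_ball.mem_nhds h2] with y hy
      rw [bump_one h (mem_ball.1 hy).le, bump_one h (mem_ball.1 h2).le, sub_self, abs_zero]
      refine mul_nonneg (indicator_nonneg (fun _ _ => ?_) _) (norm_nonneg _)
      have := sub_pos.2 h
      positivity
    · rw [indicator_of_mem (show z ∈ closedBall c q \ ball c p from ⟨h1, h2⟩)]
      exact Eventually.of_forall fun y => bump_lip c h z y
  · filter_upwards [isClosed_closedBall.isOpen_compl.mem_nhds h1] with y hy
    have e1 : q ≤ dist y c := (not_le.1 fun hm => hy (mem_closedBall.2 hm)).le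
    have e2 : q ≤ dist z c := (not_le.1 fun hm => h1 (mem_closedBall.2 hm)).le
    rw [bump_zero h e1, bump_zero h e2, sub_self, abs_zero]
    refine mul_nonneg (indicator_nonneg (fun _ _ => ?_) _) (norm_nonneg _)
    have := sub_pos.2 h
    positivity

/-- the cut-off of a disc -/
theorem exists_disc (c : ℂ) {r : ℝ} (hr : 0 < r) :
    ∃ χ : ℂ → ℝ, CutAt c (3 / 2 * r) (2 * r) χ
      ((closedBall c (2 * r)).indicator fun _ => 2 / r) := by
  have hpq : 3 / 2 * r < 2 * r := by linarith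
  have e : 1 / (2 * r - 3 / 2 * r) = 2 / r := by field_simp; norm_num
  refine ⟨bump c (3 / 2 * r) (2 * r), bump_nonneg _ _ _, bump_le_one _ _ _, fun z hz =>
    bump_one hpq hz, ⟨_, bump_lipschitz c hpq⟩, fun z hz => bump_zero hpq (not_le.1 hz).le,
    fun z => indicator_nonneg (fun _ _ => by positivity) z, fun z hz => indicator_of_notMem hz _,
    measurable_const.indicator measurableSet_closedBall, fun z => ?_⟩
  filter_upwards [bump_slope c hpq z] with y hy
  refine hy.trans (mul_le_mul_of_nonneg_right ?_ (norm_nonneg _))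
  rw [e]
  exact indicator_le_indicator_of_subset sdiff_subset (fun _ => by positivity) z

/-- the annular slope -/
noncomputable def ga (c : ℂ) (s : ℝ) (z : ℂ) : ℝ :=
  (closedBall c (2 * s) \ ball c s).indicator (fun _ => 1 / s) z

theorem ga_nonneg (c : ℂ) {s : ℝ} (hs : 0 < s) (z : ℂ) : 0 ≤ ga c s z :=
  indicator_nonneg (fun _ _ => by positivity) z

theorem measurable_ga (c : ℂ) (s : ℝ) : Measurable (ga c s) :=
  measurable_const.indicator (measurableSet_closedBall.diff measurableSet_ball)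

theorem lintegral_ga_sq (c : ℂ) {s : ℝ} (hs : 0 < s) :
    ∫⁻ z, ENNReal.ofReal (ga c s z ^ 2) ≤ ENNReal.ofReal (4 * Real.pi) := by
  calc ∫⁻ z, ENNReal.ofReal (ga c s z ^ 2)
      ≤ ∫⁻ z, (closedBall c (2 * s)).indicator (fun _ => ENNReal.ofReal ((1 / s) ^ 2)) z := by
        refine lintegral_mono fun z => ?_
        by_cases hz : z ∈ closedBall c (2 * s) \ ball c s
        · rw [ga, indicator_of_mem hz, indicator_of_mem hz.1]
        · rw [ga, indicator_of_notMem hz]
          simp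
    _ = ENNReal.ofReal ((1 / s) ^ 2) * volume (closedBall c (2 * s)) := by
        rw [lintegral_indicator measurableSet_closedBall, setLIntegral_const]
    _ = ENNReal.ofReal (4 * Real.pi) := by
        rw [Complex.volume_closedBall, ← ENNReal.ofReal_pow (by positivity),
          ← ENNReal.ofReal_coe_nnreal, NNReal.coe_real_pi, ← ENNReal.ofReal_mul (by positivity),
          ← ENNReal.ofReal_mul (by positivity)]
        congr 1
        field_simp
        ring
    _ ≤ _ := le_rfl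

/-- the cut-off of a point -/
theorem exists_pt (c : ℂ) {δ : ℝ} (hδ : 0 < δ) :
    ∃ (p ρ : ℝ) (χ g : ℂ → ℝ), 0 < p ∧ 0 < ρ ∧ ρ ≤ δ ∧ CutAt c p ρ χ g ∧
      ∫⁻ z, ENNReal.ofReal (g z ^ 2) ≤ ENNReal.ofReal δ := by
  obtain ⟨n, hn⟩ := exists_nat_gt (4 * Real.pi / δ)
  have hn0 : 0 < (n : ℝ) := lt_trans (by positivity) hn
  set s : ℕ → ℝ := fun j => δ / 2 * (1 / 4) ^ j with hs
  have hs0 : ∀ j, 0 < s j := fun j => by positivity
  have hsl : ∀ j, s j < 2 * s j := fun j => by linarith [hs0 j]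
  have hmono : ∀ j k, j < k → 2 * s k < s j := by
    intro j k hjk
    have h1 : (1 / 4 : ℝ) ^ k ≤ (1 / 4) ^ (j + 1) :=
      pow_le_pow_of_le_one (by norm_num) (by norm_num) hjk
    have h2 : s k ≤ s j / 4 := by
      show δ / 2 * (1 / 4) ^ k ≤ δ / 2 * (1 / 4) ^ j / 4
      rw [pow_succ] at h1
      nlinarith
    linarith [hs0 j]
  have hanti : ∀ j k, j ≤ k → s k ≤ s j := by
    intro j k hjk
    rcases hjk.lt_or_eq with h | h
    · linarith [hmono j k h, hs0 k]
    · rw [h]
  set χ : ℂ → ℝ := fun z => (∑ j ∈ Finset.range n, bump c (s j) (2 * s j) z) / n with hχ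
  set g : ℂ → ℝ := fun z => (∑ j ∈ Finset.range n, ga c (s j) z) / n with hg
  have hga : ∀ j z, ga c (s j) z =
      (closedBall c (2 * s j) \ ball c (s j)).indicator (fun _ => 1 / (2 * s j - s j)) z := by
    intro j z
    rw [ga, show 2 * s j - s j = s j by ring]
  refine ⟨s n, 2 * s 0, χ, g, hs0 n, by linarith [hs0 0], ?_, ⟨?_, ?_, ?_, ?_, ?_, ?_, ?_, ?_, ?_⟩,
    ?_⟩
  · show 2 * (δ / 2 * (1 / 4) ^ 0) ≤ δ
    rw [pow_zero]
    linarith
  · exact fun z => div_nonneg (Finset.sum_nonneg fun j _ => bump_nonneg _ _ _ _) hn0.le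
  · intro z
    rw [hχ]
    simp only
    rw [div_le_one hn0]
    calc _ ≤ ∑ j ∈ Finset.range n, (1 : ℝ) := Finset.sum_le_sum fun j _ => bump_le_one _ _ _ _
      _ = n := by simp
  · intro z hz
    rw [hχ]
    simp only
    rw [Finset.sum_congr rfl fun j hj => bump_one (hsl j) (c := c) (z := z)
      ((mem_closedBall.1 hz).trans (hanti j n (Finset.mem_range.1 hj).le))]
    simp [hn0.ne']
  · refine ⟨Real.toNNReal ((∑ j ∈ Finset.range n, 1 / (2 * s j - s j)) / n),
      LipschitzWith.of_dist_le_mul fun y z => ?_⟩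
    have hpos : ∀ j ∈ Finset.range n, 0 ≤ 1 / (2 * s j - s j) := fun j _ => by
      have := sub_pos.2 (hsl j)
      positivity
    rw [Real.coe_toNNReal _ (div_nonneg (Finset.sum_nonneg hpos) hn0.le), Real.dist_eq,
      dist_eq_norm]
    show |(∑ j ∈ Finset.range n, bump c (s j) (2 * s j) y) / n -
      (∑ j ∈ Finset.range n, bump c (s j) (2 * s j) z) / n| ≤ _
    rw [← sub_div, ← Finset.sum_sub_distrib, abs_div, abs_of_pos hn0, div_mul_eq_mul_div]
    refine div_le_div_of_nonneg_right ?_ hn0.le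
    rw [Finset.sum_mul]
    exact (Finset.abs_sum_le_sum_abs _ _).trans (Finset.sum_le_sum fun j _ =>
      bump_lip c (hsl j) z y)
  · intro z hz
    have hz' : 2 * s 0 < dist z c := not_le.1 hz
    rw [hχ]
    simp only
    rw [Finset.sum_congr rfl fun j hj => bump_zero (hsl j) (c := c) (z := z)
      (by linarith [hanti 0 j (Nat.zero_le j)])]
    simp
  · exact fun z => div_nonneg (Finset.sum_nonneg fun j _ => ga_nonneg c (hs0 j) z) hn0.le
  · intro z hz
    have hz' : 2 * s 0 < dist z c := not_le.1 hz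
    rw [hg]
    simp only
    rw [Finset.sum_congr rfl fun j hj => show ga c (s j) z = 0 from
      indicator_of_notMem (fun hm => by
        have := mem_closedBall.1 hm.1
        linarith [hanti 0 j (Nat.zero_le j)]) _]
    simp
  · exact (Finset.measurable_sum _ fun j _ => measurable_ga c (s j)).div_const _
  · intro z
    have := (eventually_all_finset (Finset.range n)).2 fun j _ => bump_slope c (hsl j) z
    filter_upwards [this] with y hy
    show |(∑ j ∈ Finset.range n, bump c (s j) (2 * s j) y) / n -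
      (∑ j ∈ Finset.range n, bump c (s j) (2 * s j) z) / n| ≤
        (∑ j ∈ Finset.range n, ga c (s j) z) / n * ‖y - z‖
    rw [← sub_div, ← Finset.sum_sub_distrib, abs_div, abs_of_pos hn0, div_mul_eq_mul_div]
    refine div_le_div_of_nonneg_right ?_ hn0.le
    rw [Finset.sum_mul]
    refine (Finset.abs_sum_le_sum_abs _ _).trans (Finset.sum_le_sum fun j hj => ?_)
    rw [hga]
    exact hy j hj
  · have hpt : ∀ z, (g z) ^ 2 ≤ ∑ j ∈ Finset.range n, ga c (s j) z ^ 2 / n ^ 2 := by
      intro z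
      show ((∑ j ∈ Finset.range n, ga c (s j) z) / n) ^ 2 ≤ _
      rw [div_pow, ← Finset.sum_div]
      refine div_le_div_of_nonneg_right ?_ (by positivity)
      by_cases hex : ∃ j ∈ Finset.range n, ga c (s j) z ≠ 0
      · obtain ⟨j, hj, hne⟩ := hex
        have hjm : z ∈ closedBall c (2 * s j) \ ball c (s j) := by
          by_contra hm
          exact hne (indicator_of_notMem hm _)
        have hz1 := mem_closedBall.1 hjm.1
        have hz2 : s j ≤ dist z c := not_lt.1 hjm.2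
        rw [Finset.sum_eq_single j (fun k _ hkj => ?_) (fun hm => absurd hj hm)]
        · exact Finset.single_le_sum (f := fun k => ga c (s k) z ^ 2)
            (fun k _ => sq_nonneg _) hj
        · refine indicator_of_notMem (fun hm => ?_) _
          have hz3 := mem_closedBall.1 hm.1
          have hz4 : s k ≤ dist z c := not_lt.1 hm.2
          rcases lt_or_gt_of_ne hkj with h | h
          · linarith [hmono k j h]
          · linarith [hmono j k h]
      · push Not at hex
        rw [Finset.sum_congr rfl hex, Finset.sum_const_zero]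
        simp only [ne_eq, OfNat.ofNat_ne_zero, not_false_eq_true, zero_pow]
        exact Finset.sum_nonneg fun j _ => sq_nonneg _
    calc ∫⁻ z, ENNReal.ofReal (g z ^ 2)
        ≤ ∫⁻ z, ∑ j ∈ Finset.range n, ENNReal.ofReal (ga c (s j) z ^ 2) *
            ENNReal.ofReal (1 / n ^ 2) := by
          refine lintegral_mono fun z => ?_
          refine (ENNReal.ofReal_le_ofReal (hpt z)).trans ?_
          rw [ENNReal.ofReal_sum_of_nonneg fun j _ => by positivity]
          refine Finset.sum_le_sum fun j _ => ?_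
          rw [← ENNReal.ofReal_mul (by positivity), mul_one_div]
      _ = ∑ j ∈ Finset.range n, (∫⁻ z, ENNReal.ofReal (ga c (s j) z ^ 2)) *
            ENNReal.ofReal (1 / n ^ 2) := by
          rw [lintegral_finsetSum _ fun j _ =>
            (((measurable_ga c (s j)).pow_const 2).ennreal_ofReal.mul_const _)]
          refine Finset.sum_congr rfl fun j _ => ?_
          rw [lintegral_mul_const _ ((measurable_ga c (s j)).pow_const 2).ennreal_ofReal]
      _ ≤ ∑ j ∈ Finset.range n, ENNReal.ofReal (4 * Real.pi) * ENNReal.ofReal (1 / n ^ 2) := by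
          gcongr with j _
          exact lintegral_ga_sq c (hs0 j)
      _ = ENNReal.ofReal (4 * Real.pi / n) := by
          rw [Finset.sum_const, Finset.card_range, nsmul_eq_mul, ← ENNReal.ofReal_mul
            (by positivity), ← ENNReal.ofReal_natCast, ← ENNReal.ofReal_mul (by positivity)]
          congr 1
          field_simp
      _ ≤ ENNReal.ofReal δ := by
          refine ENNReal.ofReal_le_ofReal ?_
          rw [div_le_iff₀ hn0]
          rw [div_lt_iff₀ hδ] at hn
          linarith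

end Crest.Agent.R105.Pln_897
end

-- ▼ part R105/Pln5_897
section

/-! Row 105, S0139, RED-PLAN (helper897), part 5: neighbourhoods of the components, the skip rule,
local finiteness. -/

set_option autoImplicit false

open Set Filter Topology Metric MeasureTheory
open scoped ENNReal NNReal

namespace Crest.Agent.R105.Pln_897

open Crest.Agent.R105 Crest.Agent.R105.Rd_557

/-- neighbourhoods whose trace on the complement is a union of components -/
theorem exists_nb {X W : Set ℂ} (hX : IsCompact X) {z : ℂ} (hz : z ∈ X) (hW : IsOpen W)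
    (hKW : connectedComponentIn X z ⊆ W) :
    ∃ N : Set ℂ, IsOpen N ∧ connectedComponentIn X z ⊆ N ∧ N ⊆ W ∧
      ∀ K : Set ℂ, IsPreconnected K → K ⊆ X → (K ∩ N).Nonempty → K ⊆ N := by
  obtain ⟨B, hB, hXB, hBX, hzB, hBW⟩ := Ends_897.exists_clopen hX hz hW hKW
  refine ⟨W ∩ (X \ B)ᶜ, hW.inter hXB.isClosed.isOpen_compl, fun y hy => ⟨hKW hy, fun hm =>
    hm.2 (hzB hy)⟩, inter_subset_left, ?_⟩
  rintro K hK hKX ⟨y, hyK, hyW, hyB⟩
  have hyB' : y ∈ B := by
    by_contra hcon
    exact hyB ⟨hKX hyK, hcon⟩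
  have hKB : K ⊆ B := by
    intro w hw
    by_contra hcon
    have := isPreconnected_closed_iff.1 hK B (X \ B) hB.isClosed hXB.isClosed
      (fun u hu => by
        by_cases hu' : u ∈ B
        · exact Or.inl hu'
        · exact Or.inr ⟨hKX hu, hu'⟩) ⟨y, hyK, hyB'⟩ ⟨w, hw, hKX hw, hcon⟩
    obtain ⟨u, -, hu1, hu2⟩ := this
    exact hu2.2 hu1
  exact fun w hw => ⟨hBW (hKB hw), fun hm => hm.2 (hKB hw)⟩

/-- the greedy choice -/
theorem greedy {ι : Type} (e : ι → ℕ) (Q : ι → Prop) (P : ι → ι → Prop) :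
    ∃ S : Set ι, ∀ k, k ∈ S ↔ (Q k ∧ ∀ i, e i < e k → i ∈ S → P i k) := by
  have hwf : WellFounded (InvImage (· < ·) e) := InvImage.wf e wellFounded_lt
  let f : ι → Prop := hwf.fix fun k ih => Q k ∧ ∀ i (h : e i < e k), ih i h → P i k
  refine ⟨{k | f k}, fun k => ?_⟩
  show f k ↔ _
  have : f k = (Q k ∧ ∀ i (_ : e i < e k), f i → P i k) := hwf.fix_eq _ k
  rw [this]
  rfl

variable {U : Set ℂ} {L : ℝ} {ι : Type} {c : ι → ℂ} {r : ι → ℝ} {m R : ι → ℝ} {v : ℂ → ℝ}

theorem isCompact_compl' (D : DatR U L c r m R v) : IsCompact Uᶜ :=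
  (isCompact_closedBall 0 L).of_isClosed_subset D.ext.1.isClosed_compl D.hL

theorem c_mem (D : DatR U L c r m R v) (i : ι) : c i ∈ closedBall (c i) (r i) :=
  mem_closedBall_self (D.r0 i)

theorem c_not (D : DatR U L c r m R v) (i : ι) : c i ∉ U := (D.comp i _ (c_mem D i)).1

theorem ball_sub (D : DatR U L c r m R v) (i : ι) : closedBall (c i) (r i) ⊆ Uᶜ :=
  fun z hz => (D.comp i z hz).1

theorem pre_ball (i : ι) : IsPreconnected (closedBall (c i) (r i)) :=
  (convex_closedBall (c i) (r i)).isPreconnected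

/-- the planarisation data -/
theorem exists_pdata (D : DatR U L c r m R v) (s : Finset ι) {e p ρ : ι → ℝ} {χ g : ι → ℂ → ℝ}
    (he : ∀ i, 0 < e i) (hp : ∀ i, r i < p i)
    (hcut : ∀ i, CutAt (c i) (p i) (ρ i) (χ i) (g i))
    (hfin : ∀ η > 0, {i | η ≤ ρ i ∨ η ≤ R i + e i}.Finite) :
    ∃ (S : Set ι) (N : ι → Set ℂ), (∀ i ∈ S, i ∉ s) ∧
      PData U (big c r s) v (fun i : S => N i) (fun i : S => closedBall (c i) (ρ i))
        (fun i : S => χ i) (fun i : S => g i) (fun i : S => m i - R i - e i)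
        (fun i : S => m i + R i + e i) ∧
      ∀ i, i ∉ s → closedBall (c i) (r i) ⊆ ⋃ j : S, N j := by
  have hX := isCompact_compl' D
  have := D.cnt
  obtain ⟨e0, he0⟩ := exists_injective_nat ι
  -- the neighbourhoods
  have hN : ∀ i, ∃ N : Set ℂ, IsOpen N ∧ closedBall (c i) (r i) ⊆ N ∧
      N ⊆ closedBall (c i) (p i) ∧ (∀ w ∈ N, |v w - m i| ≤ R i + e i) ∧
      ∀ K : Set ℂ, IsPreconnected K → K ⊆ Uᶜ → (K ∩ N).Nonempty → K ⊆ N := by
    intro i
    obtain ⟨N0, hN0, h1, h2⟩ := D.near i (e i) (he i)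
    have hcc := (D.comp i _ (c_mem D i)).2
    obtain ⟨N, hNo, h3, h4, h5⟩ := exists_nb hX (c_not D i) (hN0.inter isOpen_ball)
      (W := N0 ∩ ball (c i) (p i)) (by
        rw [hcc]
        exact fun y hy => ⟨h1 hy, closedBall_subset_ball (hp i) hy⟩)
    rw [hcc] at h3
    exact ⟨N, hNo, h3, fun y hy => ball_subset_closedBall (h4 hy).2,
      fun w hw => h2 w (h4 hw).1, h5⟩
  choose N hNo hKN hNp hNv hNK using hN
  obtain ⟨S, hS⟩ := greedy e0 (fun i => i ∉ s)
    (fun i k => Disjoint (closedBall (c k) (r k)) (N i))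
  -- balls centred near a point
  have hnear : ∀ (z : ℂ) (δ : ℝ) (i : ι), ρ i < δ →
      (closedBall (c i) (ρ i) ∩ ball z δ).Nonempty → c i ∈ ball z (2 * δ) := by
    rintro z δ i hi ⟨y, hy1, hy2⟩
    rw [mem_closedBall, dist_comm] at hy1
    rw [mem_ball] at hy2 ⊢
    linarith [dist_triangle (c i) y z]
  refine ⟨S, N, fun i hi => ((hS i).1 hi).1, ?_, ?_⟩
  · refine ⟨⟨fun i z => (hcut i).nonneg z, fun i z => (hcut i).le_one z, fun i => ?_⟩, D.ext.1,
      fun i => hNo i, fun i z hz => (hcut i).one z (hNp i hz), fun i => (hcut i).lip,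
      fun i => isClosed_closedBall, fun i z hz => (hcut i).supp z hz, fun i z hz => ?_,
      fun i z => (hcut i).g0 z, fun i z hz => (hcut i).gT z hz, fun i => (hcut i).gm,
      fun i z => (hcut i).slope z, ?_, ?_⟩
    · linarith [D.R0 i, he i]
    · have := abs_le.1 (hNv i z hz)
      constructor <;> linarith
    · -- local finiteness
      rintro z (hz | hz)
      · obtain ⟨δ, hδ, hδU⟩ := Metric.isOpen_iff.1 D.ext.1 z hz
        refine ⟨ball z (δ / 2), ball_mem_nhds z (by positivity), ?_⟩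
        refine Set.Finite.of_finite_image ?_ Subtype.val_injective.injOn
        refine (hfin (δ / 2) (by positivity)).subset ?_
        rintro _ ⟨i, hi, rfl⟩
        by_contra hcon
        have hc := hnear z (δ / 2) i (by
          by_contra h
          exact hcon (Or.inl (not_lt.1 h))) hi
        rw [show 2 * (δ / 2) = δ by ring] at hc
        exact c_not D i (hδU hc)
      · rw [mem_iUnion] at hz
        obtain ⟨j, hj⟩ := hz
        obtain ⟨δ, hδ, hδN⟩ := Metric.isOpen_iff.1 (hNo j) z hj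
        refine ⟨ball z (δ / 2), ball_mem_nhds z (by positivity), ?_⟩
        refine Set.Finite.of_finite_image ?_ Subtype.val_injective.injOn
        have hf2 : {i : ι | e0 i ≤ e0 j}.Finite :=
          (finite_le_nat (e0 j)).preimage he0.injOn
        refine ((hfin (δ / 2) (by positivity)).union hf2).subset ?_
        rintro _ ⟨i, hi, rfl⟩
        by_contra hcon
        rw [mem_union, not_or] at hcon
        have hc := hnear z (δ / 2) i (by
          by_contra h
          exact hcon.1 (Or.inl (not_lt.1 h))) hi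
        rw [show 2 * (δ / 2) = δ by ring] at hc
        have h1 := ((hS i).1 i.2).2 j (not_le.1 hcon.2) j.2
        exact disjoint_left.1 h1 (c_mem D i) (hδN hc)
    · -- the dust
      intro q hqB hq
      rw [mem_union, not_or, mem_iUnion, not_exists] at hq
      have hqc : ∀ i, q ∉ closedBall (c i) (r i) := by
        intro i hi
        by_cases his : i ∈ s
        · exact hqB (mem_biUnion (t := fun i => closedBall (c i) (r i)) his hi)
        · by_cases hiS : i ∈ S
          · exact hq.2 ⟨i, hiS⟩ (hKN i hi)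
          · rw [hS] at hiS
            push Not at hiS
            obtain ⟨j, -, hjS, hj⟩ := hiS his
            rw [not_disjoint_iff_nonempty_inter] at hj
            exact hq.2 ⟨j, hjS⟩ (hNK j _ (pre_ball i) (ball_sub D i) hj hi)
      have hcv := (D.dust q hq.1 hqc).2
      refine ⟨hcv, fun ε hε => ?_⟩
      obtain ⟨δ, hδ, hδv⟩ := Metric.continuousAt_iff.1 hcv (ε / 2) (by positivity)
      refine ⟨ball q (δ / 2), ball_mem_nhds q (by positivity), ?_⟩
      refine Set.Finite.of_finite_image ?_ Subtype.val_injective.injOn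
      refine (hfin (min (δ / 2) (ε / 2)) (by positivity)).subset ?_
      rintro _ ⟨i, ⟨hi, hi2⟩, rfl⟩
      by_contra hcon
      have hc1 : ρ i < δ / 2 := by
        by_contra h
        exact hcon (Or.inl ((min_le_left _ _).trans (not_lt.1 h)))
      have hc2 : R i + e i < ε / 2 := by
        by_contra h
        exact hcon (Or.inr ((min_le_right _ _).trans (not_lt.1 h)))
      have hc := hnear q (δ / 2) i hc1 hi
      rw [show 2 * (δ / 2) = δ by ring] at hc
      have h3 := hδv (mem_ball.1 hc)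
      rw [D.val i _ (c_mem D i), Real.dist_eq, abs_lt] at h3
      refine hi2 (Icc_subset_Icc ?_ ?_) <;> linarith
  · -- covering
    intro i his
    by_cases hiS : i ∈ S
    · exact (hKN i).trans (subset_iUnion (fun j : S => N j) ⟨i, hiS⟩)
    · rw [hS] at hiS
      push Not at hiS
      obtain ⟨j, -, hjS, hj⟩ := hiS his
      rw [not_disjoint_iff_nonempty_inter] at hj
      exact (hNK j _ (pre_ball i) (ball_sub D i) hj).trans
        (subset_iUnion (fun j : S => N j) ⟨j, hjS⟩)

/-- the dust -/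
theorem c0_props (D : DatR U L c r m R v) (s : Finset ι) {V : Set ℂ} (hV : IsOpen V)
    (hcov : ∀ i, i ∉ s → closedBall (c i) (r i) ⊆ V) :
    IsCompact ((Uᶜ \ (big c r s ∪ V)) ∪ big c r s) ∧
      IsTotallyDisconnected (Uᶜ \ (big c r s ∪ V)) ∧ Uᶜ \ (big c r s ∪ V) ⊆ frontier U ∧
      ∀ z ∈ Uᶜ \ (big c r s ∪ V), ∀ i, z ∉ closedBall (c i) (r i) := by
  have hno : ∀ z ∈ Uᶜ \ (big c r s ∪ V), ∀ i, z ∉ closedBall (c i) (r i) := by
    rintro z ⟨-, hz⟩ i hi
    by_cases his : i ∈ s
    · exact hz (Or.inl (mem_biUnion (t := fun i => closedBall (c i) (r i)) his hi))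
    · exact hz (Or.inr (hcov i his hi))
  have hbig : IsCompact (big c r s) := s.isCompact_biUnion fun i _ => isCompact_closedBall _ _
  refine ⟨?_, ?_, ?_, hno⟩
  · have : (Uᶜ \ (big c r s ∪ V)) ∪ big c r s = (Uᶜ \ V) ∪ big c r s := by
      ext z
      simp only [mem_union, Set.mem_sdiff, mem_compl_iff]
      tauto
    rw [this]
    exact ((isCompact_compl' D).diff hV).union hbig
  · intro T hT hTp x hx y hy
    have h1 : T ⊆ connectedComponentIn Uᶜ x :=
      hTp.subset_connectedComponentIn hx fun u hu => (hT hu).1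
    have h2 := (D.dust x (hT hx).1 (hno x (hT hx))).1
    rw [h2] at h1
    exact (h1 hy).symm
  · intro z hz
    have h2 := (D.dust z hz.1 (hno z hz)).1
    rw [D.ext.1.frontier_eq]
    refine ⟨?_, hz.1⟩
    by_contra hcl
    obtain ⟨δ, hδ, hδU⟩ := Metric.isOpen_iff.1 isClosed_closure.isOpen_compl z hcl
    have h3 : ball z δ ⊆ connectedComponentIn Uᶜ z :=
      (convex_ball z δ).isPreconnected.subset_connectedComponentIn (mem_ball_self hδ)
        fun y hy hyU => hδU hy (subset_closure hyU)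
    rw [h2] at h3
    have h4 : z + (δ / 2 : ℝ) ∈ ball z δ := by
      rw [mem_ball, dist_eq_norm, add_sub_cancel_left, Complex.norm_real, Real.norm_eq_abs,
        abs_of_pos (by positivity)]
      linarith
    have h5 := h3 h4
    rw [mem_singleton_iff, add_eq_left] at h5
    have : δ / 2 = 0 := by exact_mod_cast h5
    linarith

end Crest.Agent.R105.Pln_897
end

-- ▼ part R105/Boj1_676
section

/-!
# Row 105 (helper676), BOJ, part 1: Bojarski's lemma

`μ` doubling, `B i` pairwise disjoint balls, `a i ≥ 0`: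
`∫ (∑ a i 1_(2 B i))² ≤ K ∑ (a i)² μ (B i)`.

* `strong`  : strong type (2,2) of the maximal function, through any measurable minorant
* `carleson`: `∑ (∫_(2 B i) f / μ (B i))² μ (B i) ≤ K ∫ f²`
* `boj`     : Bojarski's lemma (finite families)
-/

set_option autoImplicit false

open MeasureTheory Metric Set Filter Topology
open scoped ENNReal NNReal

namespace Crest.Agent.R105.Boj_676

open Crest.Agent.R281.Mx_405

variable {X : Type*} [PseudoMetricSpace X] [MeasurableSpace X] [OpensMeasurableSpace X]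
  [SecondCountableTopology X] {μ : Measure X} {C : ℝ≥0}

omit [OpensMeasurableSpace X] [SecondCountableTopology X] in
/-- the maximal function of a function cut at height `s` -/
theorem Mx_split (h : Dbl μ C) (f : X → ℝ≥0∞) (s : ℝ≥0∞) (x : X) :
    Mx μ f x ≤ s + Mx μ ({y | s < f y}.indicator f) x := by
  refine iSup_le fun r => iSup_le fun hr => ?_
  have h1 : avg μ f x r ≤ s + avg μ ({y | s < f y}.indicator f) x r := by
    unfold avg
    have h2 : ∫⁻ y in closedBall x r, f y ∂μ ≤ s * μ (closedBall x r) +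
        ∫⁻ y in closedBall x r, {y | s < f y}.indicator f y ∂μ := by
      have h3 : ∀ y, f y ≤ s + {y | s < f y}.indicator f y := by
        intro y
        by_cases hy : s < f y
        · rw [indicator_of_mem (by exact hy)]
          exact le_add_self
        · rw [indicator_of_notMem (by exact hy), add_zero]
          exact not_lt.1 hy
      calc ∫⁻ y in closedBall x r, f y ∂μ ≤
          ∫⁻ y in closedBall x r, (s + {y | s < f y}.indicator f y) ∂μ :=
            lintegral_mono fun y => h3 y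
        _ = _ := by
          rw [lintegral_add_left measurable_const, lintegral_const, Measure.restrict_apply_univ]
    have h4 := h.pos x r hr
    have h5 := h.fin x r
    calc (∫⁻ y in closedBall x r, f y ∂μ) / μ (closedBall x r) ≤
        (s * μ (closedBall x r) + ∫⁻ y in closedBall x r, {y | s < f y}.indicator f y ∂μ) /
          μ (closedBall x r) := ENNReal.div_le_div_right h2 _
      _ = _ := by
        rw [ENNReal.add_div, ENNReal.mul_div_cancel_right h4.ne' h5.ne]
  exact h1.trans (add_le_add le_rfl (avg_le_Mx _ x hr))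

/-- strong type (2,2) -/
theorem strong [SFinite μ] (h : Dbl μ C) {f : X → ℝ≥0∞} (hf : Measurable f) {g : X → ℝ}
    (hg : Measurable g) (g0 : ∀ x, 0 ≤ g x) {D : ℝ≥0} (hD : 0 < D)
    (hgM : ∀ x, ENNReal.ofReal (g x) ≤ D * Mx μ f x) :
    ∫⁻ x, ENNReal.ofReal (g x ^ 2) ∂μ ≤ 8 * D ^ 2 * C ^ 2 * ∫⁻ x, f x ^ 2 ∂μ := by
  have hD0 : (D : ℝ≥0∞) ≠ 0 := by exact_mod_cast hD.ne'
  have hD1 : (D : ℝ≥0∞) ≠ ⊤ := ENNReal.coe_ne_top
  have h2D0 : (2 * D : ℝ≥0∞) ≠ 0 := mul_ne_zero two_ne_zero hD0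
  have h2D1 : (2 * D : ℝ≥0∞) ≠ ⊤ := ENNReal.mul_ne_top ENNReal.ofNat_ne_top hD1
  have key : ∀ t : ℝ, 0 < t → μ {x | t < g x} * ENNReal.ofReal t ≤
      2 * D * C ^ 2 * ∫⁻ x, {y | ENNReal.ofReal t / (2 * D) < f y}.indicator f x ∂μ := by
    intro t ht
    set s : ℝ≥0∞ := ENNReal.ofReal t / (2 * D) with hs
    have hsD : ENNReal.ofReal t = 2 * D * s := by
      rw [hs, ENNReal.mul_div_cancel h2D0 h2D1]
    have hsub : {x | t < g x} ⊆ {x | s < Mx μ ({y | s < f y}.indicator f) x} := by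
      intro x hx
      have h1 : ENNReal.ofReal t < ENNReal.ofReal (g x) :=
        (ENNReal.ofReal_lt_ofReal_iff (ht.trans hx)).2 hx
      have h2 := (hgM x).trans (mul_le_mul_right (Mx_split h f s x) (D : ℝ≥0∞))
      by_contra hcon
      have h3 : Mx μ ({y | s < f y}.indicator f) x ≤ s := not_lt.1 hcon
      have h4 : (D : ℝ≥0∞) * (s + Mx μ ({y | s < f y}.indicator f) x) ≤ 2 * D * s := by
        calc (D : ℝ≥0∞) * (s + Mx μ ({y | s < f y}.indicator f) x) ≤ D * (s + s) := by gcongr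
          _ = 2 * D * s := by ring
      exact absurd (h1.trans_le (h2.trans h4)) (by rw [hsD]; exact lt_irrefl _)
    have h5 := weak_Mx h ({y | s < f y}.indicator f) s
    calc μ {x | t < g x} * ENNReal.ofReal t =
        2 * D * (s * μ {x | t < g x}) := by rw [hsD]; ring
      _ ≤ 2 * D * (s * μ {x | s < Mx μ ({y | s < f y}.indicator f) x}) := by gcongr
      _ ≤ 2 * D * (C ^ 2 * ∫⁻ x, {y | s < f y}.indicator f x ∂μ) := by gcongr
      _ = _ := by ring
  have hlc := lintegral_rpow_eq_lintegral_meas_lt_mul μ (ae_of_all _ g0) hg.aemeasurable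
    (p := 2) two_pos
  have e1 : ∫⁻ x, ENNReal.ofReal (g x ^ 2) ∂μ = ∫⁻ x, ENNReal.ofReal (g x ^ (2 : ℝ)) ∂μ := by
    refine lintegral_congr fun x => ?_
    rw [Real.rpow_two]
  rw [e1, hlc]
  have hmeas : Measurable (Function.uncurry fun (t : ℝ) (x : X) =>
      {y | ENNReal.ofReal t / (2 * D) < f y}.indicator f x) := by
    have : (Function.uncurry fun (t : ℝ) (x : X) =>
        {y | ENNReal.ofReal t / (2 * D) < f y}.indicator f x) =
        {p : ℝ × X | ENNReal.ofReal p.1 / (2 * D) < f p.2}.indicator fun p => f p.2 := by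
      funext p
      by_cases hp : ENNReal.ofReal p.1 / (2 * D) < f p.2
      · rw [indicator_of_mem (by exact hp)]
        simp only [Function.uncurry]
        rw [indicator_of_mem (by exact hp)]
      · rw [indicator_of_notMem (by exact hp)]
        simp only [Function.uncurry]
        rw [indicator_of_notMem (by exact hp)]
    rw [this]
    refine (hf.comp measurable_snd).indicator (measurableSet_lt ?_ (hf.comp measurable_snd))
    exact (ENNReal.measurable_ofReal.comp measurable_fst).div_const _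
  have h6 : ∫⁻ t in Ioi (0 : ℝ), μ {a | t < g a} * ENNReal.ofReal (t ^ ((2 : ℝ) - 1)) ≤
      ∫⁻ t in Ioi (0 : ℝ), 2 * D * C ^ 2 *
        ∫⁻ x, {y | ENNReal.ofReal t / (2 * D) < f y}.indicator f x ∂μ := by
    refine setLIntegral_mono' measurableSet_Ioi fun t ht => ?_
    have : t ^ ((2 : ℝ) - 1) = t := by norm_num
    rw [this]
    exact key t ht
  have h7 : ∫⁻ t in Ioi (0 : ℝ), 2 * D * C ^ 2 *
        ∫⁻ x, {y | ENNReal.ofReal t / (2 * D) < f y}.indicator f x ∂μ =
      2 * D * C ^ 2 * ∫⁻ x, (∫⁻ t in Ioi (0 : ℝ),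
        {y | ENNReal.ofReal t / (2 * D) < f y}.indicator f x) ∂μ := by
    rw [lintegral_const_mul' _ _ (by finiteness), lintegral_lintegral_swap hmeas.aemeasurable]
  have h8 : ∀ x, ∫⁻ t in Ioi (0 : ℝ), {y | ENNReal.ofReal t / (2 * D) < f y}.indicator f x ≤
      2 * D * f x ^ 2 := by
    intro x
    have h9 : ∫⁻ t in Ioi (0 : ℝ), {y | ENNReal.ofReal t / (2 * D) < f y}.indicator f x =
        f x * volume ({t : ℝ | ENNReal.ofReal t / (2 * D) < f x} ∩ Ioi 0) := by
      have hms : MeasurableSet {t : ℝ | ENNReal.ofReal t / (2 * D) < f x} :=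
        measurableSet_lt (ENNReal.measurable_ofReal.div_const _) measurable_const
      have : (fun t : ℝ => {y | ENNReal.ofReal t / (2 * D) < f y}.indicator f x) =
          {t : ℝ | ENNReal.ofReal t / (2 * D) < f x}.indicator fun _ => f x := by
        funext t
        by_cases hp : ENNReal.ofReal t / (2 * D) < f x
        · rw [indicator_of_mem (by exact hp), indicator_of_mem (by exact hp)]
        · rw [indicator_of_notMem (by exact hp), indicator_of_notMem (by exact hp)]
      rw [this, lintegral_indicator hms, lintegral_const, Measure.restrict_restrict hms,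
        Measure.restrict_apply_univ]
    rw [h9]
    have h10 : volume ({t : ℝ | ENNReal.ofReal t / (2 * D) < f x} ∩ Ioi 0) ≤ 2 * D * f x := by
      by_cases hfx : f x = ⊤
      · rw [hfx, ENNReal.mul_top h2D0]; exact le_top
      · have h11 : {t : ℝ | ENNReal.ofReal t / (2 * D) < f x} ∩ Ioi 0 ⊆
            Ioc 0 (2 * D * f x).toReal := by
          rintro t ⟨ht, ht0⟩
          refine ⟨ht0, ?_⟩
          have h12 : ENNReal.ofReal t ≤ 2 * D * f x := by
            have := ENNReal.div_le_iff_le_mul (Or.inl h2D0) (Or.inl h2D1) |>.1 (le_of_lt ht)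
            rw [mul_comm] at this
            exact this
          exact (ENNReal.ofReal_le_iff_le_toReal (ENNReal.mul_ne_top h2D1 hfx)).1 h12
        refine (measure_mono h11).trans ?_
        rw [Real.volume_Ioc, sub_zero, ENNReal.ofReal_toReal (ENNReal.mul_ne_top h2D1 hfx)]
    calc f x * volume ({t : ℝ | ENNReal.ofReal t / (2 * D) < f x} ∩ Ioi 0) ≤
        f x * (2 * D * f x) := by gcongr
      _ = 2 * D * f x ^ 2 := by ring
  calc ENNReal.ofReal 2 * ∫⁻ t in Ioi (0 : ℝ), μ {a | t < g a} * ENNReal.ofReal (t ^ ((2 : ℝ) - 1))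
      ≤ 2 * (2 * D * C ^ 2 * ∫⁻ x, 2 * D * f x ^ 2 ∂μ) := by
        rw [ENNReal.ofReal_ofNat]
        refine mul_le_mul_right (h6.trans ?_) 2
        rw [h7]
        exact mul_le_mul_right (lintegral_mono h8) _
    _ = 8 * D ^ 2 * C ^ 2 * ∫⁻ x, f x ^ 2 ∂μ := by
        rw [lintegral_const_mul' _ _ h2D1]; ring



end Crest.Agent.R105.Boj_676
end

-- ▼ part R105/Boj2_676
section

/-!
# Row 105 (helper676), BOJ, part 2: Bojarski's lemma for the balls `K B i`, countable families, and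
the plane (`boj_plane`).
-/

set_option autoImplicit false

open MeasureTheory Metric Set Filter Topology
open scoped ENNReal NNReal

namespace Crest.Agent.R105.Boj_676

open Crest.Agent.R281.Mx_405

variable {X : Type*} [PseudoMetricSpace X] [MeasurableSpace X] [OpensMeasurableSpace X]
  [SecondCountableTopology X] {μ : Measure X} {C : ℝ≥0}

/-- the square function of the averages of `f` over the double balls -/
theorem carlesonK [SFinite μ] (h : Dbl μ C) {K : ℝ} {k : ℕ}
    (hk : K + 2 ≤ 2 ^ k) (hK : 0 ≤ K) {f : X → ℝ≥0∞} (hf : Measurable f) {ι : Type*}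
    (I : Finset ι) {c : ι → X} {r : ι → ℝ} (hr : ∀ i ∈ I, 0 < r i)
    (hd : (I : Set ι).PairwiseDisjoint fun i => closedBall (c i) (r i)) {m : ι → ℝ}
    (m0 : ∀ i, 0 ≤ m i)
    (hm : ∀ i ∈ I, ENNReal.ofReal (m i) * μ (closedBall (c i) (r i)) ≤
      ∫⁻ x in closedBall (c i) (K * r i), f x ∂μ) (hC : 0 < C) :
    ∑ i ∈ I, ENNReal.ofReal (m i ^ 2) * μ (closedBall (c i) (r i)) ≤
      8 * C ^ (2 * k + 2) * ∫⁻ x, f x ^ 2 ∂μ := by
  classical
  set g : X → ℝ := fun x => ∑ i ∈ I, (closedBall (c i) (r i)).indicator (fun _ => m i) x with hg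
  have hgm : Measurable g :=
    Finset.measurable_fun_sum I fun i _ => measurable_const.indicator measurableSet_closedBall
  have g0 : ∀ x, 0 ≤ g x := fun x =>
    Finset.sum_nonneg fun i _ => indicator_nonneg (fun _ _ => m0 i) x
  have gin : ∀ i ∈ I, ∀ x ∈ closedBall (c i) (r i), g x = m i := by
    intro i hi x hx
    rw [hg]
    show ∑ j ∈ I, (closedBall (c j) (r j)).indicator (fun _ => m j) x = m i
    rw [Finset.sum_eq_single i]
    · rw [indicator_of_mem hx]
    · intro j hj hji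
      refine indicator_of_notMem (fun hxj => ?_) _
      exact (Set.disjoint_left.1 (hd hi hj (Ne.symm hji))) hx hxj
    · exact fun h => absurd hi h
  have gM : ∀ x, ENNReal.ofReal (g x) ≤ (C ^ k : ℝ≥0) * Mx μ f x := by
    intro x
    by_cases hx : ∃ i ∈ I, x ∈ closedBall (c i) (r i)
    · obtain ⟨i, hi, hxi⟩ := hx
      rw [gin i hi x hxi]
      have hri := hr i hi
      have h1 : closedBall (c i) (K * r i) ⊆ closedBall x ((K + 1) * r i) := by
        intro y hy
        rw [mem_closedBall] at hy hxi ⊢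
        have := dist_triangle_right y x (c i)
        nlinarith
      have h2 : closedBall x ((K + 1) * r i) ⊆ closedBall (c i) (2 ^ k * r i) := by
        intro y hy
        rw [mem_closedBall] at hy hxi ⊢
        have := dist_triangle y x (c i)
        have h9 := mul_le_mul_of_nonneg_right hk hri.le
        nlinarith
      have h3 : μ (closedBall x ((K + 1) * r i)) ≤ C ^ k * μ (closedBall (c i) (r i)) :=
        (measure_mono h2).trans (h.dbl_pow _ hri k)
      have h4 : ∫⁻ y in closedBall x ((K + 1) * r i), f y ∂μ ≤ Mx μ f x * μ (closedBall x ((K + 1) * r i)) := by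
        have h5 := avg_le_Mx (μ := μ) f x (r := (K + 1) * r i) (by positivity)
        unfold avg at h5
        exact (ENNReal.div_le_iff (h.pos _ _ (by positivity)).ne' (h.fin _ _).ne).1 h5
      have h6 : ENNReal.ofReal (m i) * μ (closedBall (c i) (r i)) ≤
          ((C ^ k : ℝ≥0) * Mx μ f x) * μ (closedBall (c i) (r i)) := by
        calc ENNReal.ofReal (m i) * μ (closedBall (c i) (r i)) ≤
            ∫⁻ x in closedBall (c i) (K * r i), f x ∂μ := hm i hi
          _ ≤ ∫⁻ y in closedBall x ((K + 1) * r i), f y ∂μ := lintegral_mono_set h1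
          _ ≤ Mx μ f x * μ (closedBall x ((K + 1) * r i)) := h4
          _ ≤ Mx μ f x * (C ^ k * μ (closedBall (c i) (r i))) := by gcongr
          _ = _ := by push_cast; ring
      exact (ENNReal.mul_le_mul_iff_left (h.pos _ _ hri).ne' (h.fin _ _).ne).1 h6
    · have : g x = 0 := by
        rw [hg]
        refine Finset.sum_eq_zero fun i hi => ?_
        exact indicator_of_notMem (fun hxi => hx ⟨i, hi, hxi⟩) _
      rw [this, ENNReal.ofReal_zero]
      exact zero_le
  have h7 := strong h hf hgm g0 (D := C ^ k) (by positivity) gM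
  have h8 : ∑ i ∈ I, ENNReal.ofReal (m i ^ 2) * μ (closedBall (c i) (r i)) ≤
      ∫⁻ x, ENNReal.ofReal (g x ^ 2) ∂μ := by
    calc ∑ i ∈ I, ENNReal.ofReal (m i ^ 2) * μ (closedBall (c i) (r i)) =
        ∑ i ∈ I, ∫⁻ x in closedBall (c i) (r i), ENNReal.ofReal (g x ^ 2) ∂μ := by
          refine Finset.sum_congr rfl fun i hi => ?_
          rw [setLIntegral_congr_fun measurableSet_closedBall fun x hx => by
            show ENNReal.ofReal (g x ^ 2) = ENNReal.ofReal (m i ^ 2)
            rw [gin i hi x hx], lintegral_const, Measure.restrict_apply_univ]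
      _ = ∫⁻ x in ⋃ i ∈ I, closedBall (c i) (r i), ENNReal.ofReal (g x ^ 2) ∂μ := by
          rw [lintegral_biUnion_finset hd fun i _ => measurableSet_closedBall]
      _ ≤ _ := setLIntegral_le_lintegral _ _
  refine h8.trans (h7.trans (le_of_eq ?_))
  push_cast
  rw [← pow_mul]
  ring

/-- **Bojarski's lemma** -/
theorem bojK [SFinite μ] (h : Dbl μ C) {K : ℝ} {k : ℕ} (hk : K + 2 ≤ 2 ^ k) (hK : 0 ≤ K) {ι : Type*} (I : Finset ι) {c : ι → X} {r : ι → ℝ}
    (hr : ∀ i ∈ I, 0 < r i)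
    (hd : (I : Set ι).PairwiseDisjoint fun i => closedBall (c i) (r i)) {a : ι → ℝ}
    (a0 : ∀ i, 0 ≤ a i) (hC : 0 < C) :
    ∫⁻ x, (∑ i ∈ I, (closedBall (c i) (K * r i)).indicator (fun _ => ENNReal.ofReal (a i)) x) ^ 2 ∂μ
      ≤ 8 * C ^ (2 * k + 2) * ∑ i ∈ I, ENNReal.ofReal (a i ^ 2) * μ (closedBall (c i) (r i)) := by
  classical
  set f : X → ℝ≥0∞ := fun x =>
    ∑ i ∈ I, (closedBall (c i) (K * r i)).indicator (fun _ => ENNReal.ofReal (a i)) x with hf
  have hfm : Measurable f :=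
    Finset.measurable_fun_sum I fun i _ => measurable_const.indicator measurableSet_closedBall
  -- everything is finite
  have hfb : ∀ x, f x ≤ ∑ i ∈ I, ENNReal.ofReal (a i) := fun x =>
    Finset.sum_le_sum fun i _ => indicator_le_self _ _ x
  have hA : ∑ i ∈ I, ENNReal.ofReal (a i) ≠ ⊤ := ENNReal.sum_ne_top.2 fun i _ => ENNReal.ofReal_ne_top
  have hfi : ∀ i, ∫⁻ x in closedBall (c i) (K * r i), f x ∂μ ≠ ⊤ := by
    intro i
    refine ne_top_of_le_ne_top ?_ (lintegral_mono fun x => hfb x)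
    rw [lintegral_const, Measure.restrict_apply_univ]
    exact ENNReal.mul_ne_top hA (h.fin _ _).ne
  have hsq : ∫⁻ x, f x ^ 2 ∂μ =
      ∑ i ∈ I, ENNReal.ofReal (a i) * ∫⁻ x in closedBall (c i) (K * r i), f x ∂μ := by
    have e1 : ∀ x, f x ^ 2 = ∑ i ∈ I,
        (closedBall (c i) (K * r i)).indicator (fun x => ENNReal.ofReal (a i) * f x) x := by
      intro x
      rw [sq]
      nth_rewrite 1 [hf]
      rw [Finset.sum_mul]
      refine Finset.sum_congr rfl fun i _ => ?_
      by_cases hx : x ∈ closedBall (c i) (K * r i)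
      · rw [indicator_of_mem hx, indicator_of_mem hx]
      · rw [indicator_of_notMem hx, indicator_of_notMem hx, zero_mul]
    simp only [e1]
    rw [lintegral_finsetSum _ fun i _ =>
      (hfm.const_mul _).indicator measurableSet_closedBall]
    refine Finset.sum_congr rfl fun i _ => ?_
    rw [lintegral_indicator measurableSet_closedBall, lintegral_const_mul _ hfm]
  have hsqf : ∫⁻ x, f x ^ 2 ∂μ ≠ ⊤ := by
    rw [hsq]
    exact ENNReal.sum_ne_top.2 fun i _ => ENNReal.mul_ne_top ENNReal.ofReal_ne_top (hfi i)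
  -- the averages
  set q : ι → ℝ := fun i => (μ (closedBall (c i) (r i))).toReal with hq
  have hqe : ∀ i, ENNReal.ofReal (q i) = μ (closedBall (c i) (r i)) := fun i =>
    ENNReal.ofReal_toReal (h.fin _ _).ne
  have hq0 : ∀ i, 0 ≤ q i := fun i => ENNReal.toReal_nonneg
  have hqp : ∀ i ∈ I, 0 < q i := fun i hi =>
    ENNReal.toReal_pos (h.pos _ _ (hr i hi)).ne' (h.fin _ _).ne
  set t : ι → ℝ := fun i => (∫⁻ x in closedBall (c i) (K * r i), f x ∂μ).toReal with ht
  have hte : ∀ i, ENNReal.ofReal (t i) = ∫⁻ x in closedBall (c i) (K * r i), f x ∂μ := fun i =>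
    ENNReal.ofReal_toReal (hfi i)
  have ht0 : ∀ i, 0 ≤ t i := fun i => ENNReal.toReal_nonneg
  set m : ι → ℝ := fun i => t i / q i with hm
  have m0 : ∀ i, 0 ≤ m i := fun i => div_nonneg (ht0 i) (hq0 i)
  have hmq : ∀ i ∈ I, m i * q i = t i := fun i hi => div_mul_cancel₀ _ (hqp i hi).ne'
  have hcar := carlesonK h hk hK hfm I hr hd m0 (fun i hi => by
    rw [← hqe i, ← ENNReal.ofReal_mul (m0 i), hmq i hi, hte i]) hC
  -- real numbers
  set S : ℝ := (∫⁻ x, f x ^ 2 ∂μ).toReal with hS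
  have hSe : ENNReal.ofReal S = ∫⁻ x, f x ^ 2 ∂μ := ENNReal.ofReal_toReal hsqf
  have hS0 : 0 ≤ S := ENNReal.toReal_nonneg
  have r1 : S = ∑ i ∈ I, a i * t i := by
    have : ENNReal.ofReal S = ENNReal.ofReal (∑ i ∈ I, a i * t i) := by
      rw [hSe, hsq, ENNReal.ofReal_sum_of_nonneg fun i _ => mul_nonneg (a0 i) (ht0 i)]
      exact Finset.sum_congr rfl fun i _ => by rw [ENNReal.ofReal_mul (a0 i), hte i]
    exact (ENNReal.ofReal_eq_ofReal_iff hS0
      (Finset.sum_nonneg fun i _ => mul_nonneg (a0 i) (ht0 i))).1 this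
  have r2 : ∑ i ∈ I, m i ^ 2 * q i ≤ 8 * (C : ℝ) ^ (2 * k + 2) * S := by
    have e2 : ∑ i ∈ I, ENNReal.ofReal (m i ^ 2) * μ (closedBall (c i) (r i)) =
        ENNReal.ofReal (∑ i ∈ I, m i ^ 2 * q i) := by
      rw [ENNReal.ofReal_sum_of_nonneg fun i _ => mul_nonneg (sq_nonneg _) (hq0 i)]
      exact Finset.sum_congr rfl fun i _ => by
        rw [ENNReal.ofReal_mul (sq_nonneg _), hqe i]
    have e3 : 8 * (C : ℝ≥0∞) ^ (2 * k + 2) * ∫⁻ x, f x ^ 2 ∂μ = ENNReal.ofReal (8 * (C : ℝ) ^ (2 * k + 2) * S) := by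
      rw [ENNReal.ofReal_mul (by positivity), hSe, ENNReal.ofReal_mul (by norm_num),
        ENNReal.ofReal_pow (p := (C : ℝ)) C.2, ENNReal.ofReal_coe_nnreal, ENNReal.ofReal_ofNat]
    rw [e2, e3] at hcar
    exact (ENNReal.ofReal_le_ofReal_iff (by positivity)).1 hcar
  set Q : ℝ := ∑ i ∈ I, a i ^ 2 * q i with hQ
  have hQ0 : 0 ≤ Q := Finset.sum_nonneg fun i _ => mul_nonneg (sq_nonneg _) (hq0 i)
  have r3 : S ^ 2 ≤ Q * (8 * (C : ℝ) ^ (2 * k + 2) * S) := by
    have e4 : S = ∑ i ∈ I, (a i * √(q i)) * (m i * √(q i)) := by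
      rw [r1]
      refine Finset.sum_congr rfl fun i hi => ?_
      rw [← hmq i hi]
      have := Real.mul_self_sqrt (hq0 i)
      linear_combination (-(a i * m i)) * this
    have e5 := Finset.sum_mul_sq_le_sq_mul_sq I (fun i => a i * √(q i)) (fun i => m i * √(q i))
    rw [← e4] at e5
    have e6 : ∑ i ∈ I, (a i * √(q i)) ^ 2 = Q :=
      Finset.sum_congr rfl fun i _ => by rw [mul_pow, Real.sq_sqrt (hq0 i)]
    have e7 : ∑ i ∈ I, (m i * √(q i)) ^ 2 = ∑ i ∈ I, m i ^ 2 * q i :=
      Finset.sum_congr rfl fun i _ => by rw [mul_pow, Real.sq_sqrt (hq0 i)]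
    rw [e6, e7] at e5
    exact e5.trans (mul_le_mul_of_nonneg_left r2 hQ0)
  have r4 : S ≤ 8 * (C : ℝ) ^ (2 * k + 2) * Q := by
    rcases hS0.eq_or_lt with h0 | h0
    · rw [← h0]; positivity
    · have : S * S ≤ (8 * (C : ℝ) ^ (2 * k + 2) * Q) * S := by nlinarith
      exact le_of_mul_le_mul_right this h0
  have r5 : ∑ i ∈ I, ENNReal.ofReal (a i ^ 2) * μ (closedBall (c i) (r i)) = ENNReal.ofReal Q := by
    rw [hQ, ENNReal.ofReal_sum_of_nonneg fun i _ => mul_nonneg (sq_nonneg _) (hq0 i)]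
    exact Finset.sum_congr rfl fun i _ => by rw [ENNReal.ofReal_mul (sq_nonneg _), hqe i]
  show ∫⁻ x, f x ^ 2 ∂μ ≤ _
  rw [← hSe, r5]
  have e8 : 8 * (C : ℝ≥0∞) ^ (2 * k + 2) * ENNReal.ofReal Q = ENNReal.ofReal (8 * (C : ℝ) ^ (2 * k + 2) * Q) := by
    rw [ENNReal.ofReal_mul (by positivity), ENNReal.ofReal_mul (by norm_num),
      ENNReal.ofReal_pow (p := (C : ℝ)) C.2, ENNReal.ofReal_coe_nnreal, ENNReal.ofReal_ofNat]
  rw [e8]
  exact ENNReal.ofReal_le_ofReal r4

/-- Bojarski's lemma for countable families -/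
theorem boj_tsum [SFinite μ] (h : Dbl μ C) {K : ℝ} {k : ℕ} (hk : K + 2 ≤ 2 ^ k) (hK : 0 ≤ K)
    (hC : 0 < C) {ι : Type*} [Countable ι] {c : ι → X} {r : ι → ℝ} (hr : ∀ i, 0 < r i)
    (hd : Pairwise fun i j => Disjoint (closedBall (c i) (r i)) (closedBall (c j) (r j)))
    (a : ι → ℝ≥0∞) :
    ∫⁻ x, (∑' i, (closedBall (c i) (K * r i)).indicator (fun _ => a i) x) ^ 2 ∂μ ≤
      8 * C ^ (2 * k + 2) * ∑' i, a i ^ 2 * μ (closedBall (c i) (r i)) := by
  classical
  have hC0 : (8 * (C : ℝ≥0∞) ^ (2 * k + 2)) ≠ 0 :=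
    mul_ne_zero (by norm_num) (pow_ne_zero _ (by exact_mod_cast hC.ne'))
  by_cases hfin : ∀ i, a i ≠ ⊤
  · have hfs : ∀ s : Finset ι,
        ∫⁻ x, (∑ i ∈ s, (closedBall (c i) (K * r i)).indicator (fun _ => a i) x) ^ 2 ∂μ ≤
          8 * C ^ (2 * k + 2) * ∑' i, a i ^ 2 * μ (closedBall (c i) (r i)) := by
      intro s
      have h1 := bojK h hk hK s (c := c) (r := r) (fun i _ => hr i)
        (fun i _ j _ hij => hd hij) (a := fun i => (a i).toReal)
        (fun i => ENNReal.toReal_nonneg) hC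
      have h2 : ∀ i, ENNReal.ofReal (a i).toReal = a i := fun i => ENNReal.ofReal_toReal (hfin i)
      have h3 : ∀ i, ENNReal.ofReal ((a i).toReal ^ 2) = a i ^ 2 := fun i => by
        rw [ENNReal.ofReal_pow ENNReal.toReal_nonneg, h2]
      simp only [h2, h3] at h1
      refine h1.trans ?_
      gcongr
      exact ENNReal.sum_le_tsum s
    have e1 : ∀ x, (∑' i, (closedBall (c i) (K * r i)).indicator (fun _ => a i) x) ^ 2 =
        ⨆ s : Finset ι, (∑ i ∈ s, (closedBall (c i) (K * r i)).indicator (fun _ => a i) x) ^ 2 := by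
      intro x
      rw [ENNReal.tsum_eq_iSup_sum]
      exact (Monotone.map_iSup_of_continuousAt (f := fun t : ℝ≥0∞ => t ^ 2)
        (ENNReal.continuous_pow 2).continuousAt (fun a b hab => pow_le_pow_left' hab 2)
        (by simp))
    simp only [e1]
    rw [lintegral_iSup_directed]
    · exact iSup_le hfs
    · intro s
      exact ((Finset.measurable_fun_sum s fun i _ =>
        measurable_const.indicator measurableSet_closedBall).pow_const 2).aemeasurable
    · refine Monotone.directed_le fun s t hst x => ?_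
      exact pow_le_pow_left' (Finset.sum_le_sum_of_subset hst) 2
  · push Not at hfin
    obtain ⟨i, hi⟩ := hfin
    have : ∑' i, a i ^ 2 * μ (closedBall (c i) (r i)) = ⊤ := by
      refine ENNReal.tsum_eq_top_of_eq_top ⟨i, ?_⟩
      rw [hi]
      exact ENNReal.mul_eq_top.2 (Or.inr ⟨by simp, (h.pos _ _ (hr i)).ne'⟩)
    rw [this, ENNReal.mul_top hC0]
    exact le_top

/-- the plane is doubling -/
theorem dbl_plane : Dbl (volume : Measure ℂ) 4 := by
  refine ⟨fun x r hr => ?_, fun x r hr => ?_, fun x r => ?_⟩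
  · rw [Complex.volume_closedBall, Complex.volume_closedBall, ENNReal.ofReal_mul (by norm_num)]
    rw [mul_pow]
    norm_num
    refine le_of_eq ?_
    ring
  · exact measure_closedBall_pos _ _ hr
  · exact measure_closedBall_lt_top

/-- **Bojarski's lemma in the plane**, in the form of task 2295 -/
theorem boj_plane {K : ℝ} (hK : 0 ≤ K) : ∃ C : ℝ≥0, 0 < C ∧ ∀ {ι : Type} [Countable ι] (c : ι → ℂ)
    (r : ι → ℝ) (_ : ∀ i, 0 < r i)
    (_ : Pairwise fun i j => Disjoint (closedBall (c i) (r i)) (closedBall (c j) (r j)))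
    (a : ι → ℝ≥0∞),
    ∫⁻ z, (∑' i, (closedBall (c i) (K * r i)).indicator (fun _ => a i) z) ^ 2 ≤
      C * ∑' i, a i ^ 2 * volume (closedBall (c i) (r i)) := by
  obtain ⟨k, hk⟩ := pow_unbounded_of_one_lt (K + 2) (one_lt_two (α := ℝ))
  refine ⟨8 * 4 ^ (2 * k + 2), by positivity, fun {ι} _ c r hr hd a => ?_⟩
  have := boj_tsum dbl_plane hk.le hK (by norm_num) hr hd a
  push_cast at this ⊢
  exact this

end Crest.Agent.R105.Boj_676
end

-- ▼ part R105/Pln6_897
section

/-! Row 105, S0139, RED-PLAN (helper897), part 6: sums. -/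

set_option autoImplicit false

open Set Filter Topology Metric MeasureTheory
open scoped ENNReal NNReal

namespace Crest.Agent.R105.Pln_897

/-- weighted Cauchy-Schwarz -/
theorem cs_nn {ι : Type*} (w x : ι → ℝ≥0) (hw : ∀ i, w i ≠ 0) :
    (∑' i, (x i : ℝ≥0∞)) ^ 2 ≤
      (∑' i, (w i : ℝ≥0∞)) * ∑' i, (((x i) ^ 2 / w i : ℝ≥0) : ℝ≥0∞) := by
  have ht : Tendsto (fun F : Finset ι => (∑ i ∈ F, (x i : ℝ≥0∞)) ^ 2) atTop
      (𝓝 ((∑' i, (x i : ℝ≥0∞)) ^ 2)) :=
    ((ENNReal.continuous_pow 2).tendsto _).comp ENNReal.summable.hasSum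
  refine le_of_tendsto' ht fun F => ?_
  have h1 : (∑ i ∈ F, x i) ^ 2 ≤ (∑ i ∈ F, w i) * ∑ i ∈ F, (x i) ^ 2 / w i :=
    Finset.sum_sq_le_sum_mul_sum_of_sq_le_mul F (fun _ _ => zero_le) (fun _ _ => zero_le)
      (fun i _ => by rw [mul_div_cancel₀ _ (hw i)])
  have h2 : (((∑ i ∈ F, x i) ^ 2 : ℝ≥0) : ℝ≥0∞) ≤
      (((∑ i ∈ F, w i) * ∑ i ∈ F, (x i) ^ 2 / w i : ℝ≥0) : ℝ≥0∞) := ENNReal.coe_le_coe.2 h1
  rw [ENNReal.coe_pow, ENNReal.coe_mul, ENNReal.ofNNReal_finsetSum, ENNReal.ofNNReal_finsetSum,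
    ENNReal.ofNNReal_finsetSum] at h2
  exact h2.trans (mul_le_mul' (ENNReal.sum_le_tsum F) (ENNReal.sum_le_tsum F))

theorem add_sq_le (x y : ℝ≥0∞) : (x + y) ^ 2 ≤ 2 * (x ^ 2 + y ^ 2) := by
  have := ENNReal.rpow_add_le_mul_rpow_add_rpow x y (p := 2) (by norm_num)
  norm_num at this
  exact_mod_cast this

section

variable {ι : Type} [Countable ι] {c : ι → ℂ} {r ℓ w : ι → ℝ} {g : ι → ℂ → ℝ}

/-- the discs -/
theorem disc_sq (hd : Pairwise fun i j => Disjoint (closedBall (c i) (r i)) (closedBall (c j) (r j)))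
    (hℓ0 : ∀ i, 0 ≤ ℓ i) (hℓ : Summable fun i => ℓ i ^ 2) :
    ∫⁻ z, (∑' i : {i | 0 < r i}, (closedBall (c i) (2 * r i)).indicator
      (fun _ => ENNReal.ofReal (ℓ i * (2 / r i))) z) ^ 2 ≠ ∞ := by
  obtain ⟨C, -, hC⟩ := Boj_676.boj_plane (K := 2) (by norm_num)
  have h1 := hC (ι := {i | 0 < r i}) (fun i => c i) (fun i => r i) (fun i => i.2)
    (fun i j hij => hd fun h => hij (Subtype.ext h)) (fun i => ENNReal.ofReal (ℓ i * (2 / r i)))
  refine ne_top_of_le_ne_top ?_ h1
  refine ENNReal.mul_ne_top ENNReal.coe_ne_top ?_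
  have h2 : ∀ i : {i | 0 < r i}, ENNReal.ofReal (ℓ i * (2 / r i)) ^ 2 *
      volume (closedBall (c i) (r i)) = ENNReal.ofReal (4 * Real.pi * ℓ i ^ 2) := by
    intro i
    have hi : 0 < r i := i.2
    have := hℓ0 i
    rw [Complex.volume_closedBall, ← ENNReal.ofReal_pow (by positivity),
      ← ENNReal.ofReal_pow hi.le, ← ENNReal.ofReal_coe_nnreal, NNReal.coe_real_pi,
      ← ENNReal.ofReal_mul (by positivity), ← ENNReal.ofReal_mul (by positivity)]
    congr 1
    field_simp
    ring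
  simp only [h2]
  have h3 : Summable fun i : {i | 0 < r i} => 4 * Real.pi * ℓ i ^ 2 :=
    (hℓ.comp_injective Subtype.val_injective).mul_left _
  exact h3.tsum_ofReal_ne_top

/-- the points -/
theorem pt_sq {s : Set ι} (hg : ∀ i, Measurable (g i)) (hℓ0 : ∀ i, 0 ≤ ℓ i)
    (hg0 : ∀ i z, 0 ≤ g i z) (hw0 : ∀ i, 0 < w i) (hw : Summable w)
    (hi : ∀ i ∈ s, ∫⁻ z, ENNReal.ofReal ((ℓ i * g i z) ^ 2) ≤ ENNReal.ofReal (w i ^ 2)) :
    ∫⁻ z, (∑' i : s, ENNReal.ofReal (ℓ i * g i z)) ^ 2 ≠ ∞ := by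
  have hwt : ∑' i : s, ENNReal.ofReal (w i) ≠ ∞ :=
    (hw.comp_injective Subtype.val_injective).tsum_ofReal_ne_top
  have h1 : ∀ z, (∑' i : s, ENNReal.ofReal (ℓ i * g i z)) ^ 2 ≤
      (∑' i : s, ENNReal.ofReal (w i)) * ∑' i : s, ENNReal.ofReal ((ℓ i * g i z) ^ 2 / w i) := by
    intro z
    refine (cs_nn (fun i : s => Real.toNNReal (w i)) (fun i : s => Real.toNNReal (ℓ i * g i z))
      (fun i => (Real.toNNReal_pos.2 (hw0 i)).ne')).trans (mul_le_mul' le_rfl ?_)
    refine ENNReal.tsum_le_tsum fun i => ?_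
    rw [← Real.toNNReal_pow (mul_nonneg (hℓ0 i) (hg0 i z)), ← Real.toNNReal_div (sq_nonneg _)]
    exact le_rfl
  refine ne_top_of_le_ne_top ?_ (lintegral_mono h1)
  have hm : ∀ i : s, Measurable fun z => ENNReal.ofReal ((ℓ i * g i z) ^ 2 / w i) := fun i =>
    ((((hg i).const_mul _).pow_const 2).div_const _).ennreal_ofReal
  rw [lintegral_const_mul _ (Measurable.tsum hm), lintegral_tsum fun i => (hm i).aemeasurable]
  refine ENNReal.mul_ne_top hwt (ne_top_of_le_ne_top hwt ?_)
  refine ENNReal.tsum_le_tsum fun i => ?_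
  have e1 : ∀ z, ENNReal.ofReal ((ℓ i * g i z) ^ 2 / w i) =
      ENNReal.ofReal ((ℓ i * g i z) ^ 2) * ENNReal.ofReal (1 / w i) := by
    intro z
    rw [← ENNReal.ofReal_mul (sq_nonneg _), mul_one_div]
  simp only [e1]
  rw [lintegral_mul_const _ (((hg i).const_mul _).pow_const 2).ennreal_ofReal]
  calc _ ≤ ENNReal.ofReal (w i ^ 2) * ENNReal.ofReal (1 / w i) :=
        mul_le_mul' (hi i i.2) le_rfl
    _ = ENNReal.ofReal (w i) := by
      rw [← ENNReal.ofReal_mul (sq_nonneg _)]
      congr 1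
      have := (hw0 i).ne'
      field_simp

/-- **the square of the weight is integrable** -/
theorem all_sq (hd : Pairwise fun i j => Disjoint (closedBall (c i) (r i)) (closedBall (c j) (r j)))
    (hg : ∀ i, Measurable (g i)) (hℓ0 : ∀ i, 0 ≤ ℓ i) (hℓ : Summable fun i => ℓ i ^ 2)
    (hg0 : ∀ i z, 0 ≤ g i z) (hw0 : ∀ i, 0 < w i) (hw : Summable w)
    (hgd : ∀ i, 0 < r i → g i = (closedBall (c i) (2 * r i)).indicator fun _ => 2 / r i)
    (hgp : ∀ i, ¬ 0 < r i → ∫⁻ z, ENNReal.ofReal ((ℓ i * g i z) ^ 2) ≤ ENNReal.ofReal (w i ^ 2)) :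
    ∫⁻ z, (∑' i, ENNReal.ofReal (ℓ i * g i z)) ^ 2 ≠ ∞ := by
  have h1 := disc_sq hd hℓ0 hℓ
  have h2 := pt_sq (s := {i | 0 < r i}ᶜ) hg hℓ0 hg0 hw0 hw hgp
  have h3 : ∀ z, ∑' i, ENNReal.ofReal (ℓ i * g i z) =
      (∑' i : {i | 0 < r i}, (closedBall (c i) (2 * r i)).indicator
        (fun _ => ENNReal.ofReal (ℓ i * (2 / r i))) z) +
      ∑' i : ({i | 0 < r i}ᶜ : Set ι), ENNReal.ofReal (ℓ i * g i z) := by
    intro z
    have e1 : ∀ i : {i | 0 < r i}, (closedBall (c i) (2 * r i)).indicator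
        (fun _ => ENNReal.ofReal (ℓ i * (2 / r i))) z = ENNReal.ofReal (ℓ i * g i z) := by
      intro i
      rw [hgd i i.2]
      by_cases hz : z ∈ closedBall (c i) (2 * r i)
      · rw [indicator_of_mem hz, indicator_of_mem hz]
      · rw [indicator_of_notMem hz, indicator_of_notMem hz, mul_zero, ENNReal.ofReal_zero]
    simp only [e1]
    exact (ENNReal.summable.tsum_add_tsum_compl ENNReal.summable).symm
  have hm1 : Measurable fun z => (∑' i : {i | 0 < r i}, (closedBall (c i) (2 * r i)).indicator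
      (fun _ => ENNReal.ofReal (ℓ i * (2 / r i))) z) ^ 2 :=
    (Measurable.tsum fun i => measurable_const.indicator measurableSet_closedBall).pow_const 2
  have h4 : ∀ z, (∑' i, ENNReal.ofReal (ℓ i * g i z)) ^ 2 ≤
      2 * ((∑' i : {i | 0 < r i}, (closedBall (c i) (2 * r i)).indicator
        (fun _ => ENNReal.ofReal (ℓ i * (2 / r i))) z) ^ 2 +
      (∑' i : ({i | 0 < r i}ᶜ : Set ι), ENNReal.ofReal (ℓ i * g i z)) ^ 2) := by
    intro z
    rw [h3 z]
    exact add_sq_le _ _
  refine ne_top_of_le_ne_top ?_ (lintegral_mono h4)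
  rw [lintegral_const_mul' _ _ (by norm_num), lintegral_add_left hm1]
  exact ENNReal.mul_ne_top (by norm_num) (ENNReal.add_ne_top.2 ⟨h1, h2⟩)

/-- `L¹` norm of a disc term -/
theorem disc_one (c : ℂ) {r ℓ : ℝ} (hr : 0 < r) (hℓ : 0 ≤ ℓ) :
    ∫⁻ z, ENNReal.ofReal (ℓ * (closedBall c (2 * r)).indicator (fun _ => 2 / r) z) ≤
      ENNReal.ofReal (4 * Real.pi * (ℓ ^ 2 + r ^ 2)) := by
  have h1 : ∀ z, ENNReal.ofReal (ℓ * (closedBall c (2 * r)).indicator (fun _ => 2 / r) z) =
      (closedBall c (2 * r)).indicator (fun _ => ENNReal.ofReal (ℓ * (2 / r))) z := by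
    intro z
    by_cases hz : z ∈ closedBall c (2 * r)
    · rw [indicator_of_mem hz, indicator_of_mem hz]
    · rw [indicator_of_notMem hz, indicator_of_notMem hz, mul_zero, ENNReal.ofReal_zero]
  simp only [h1]
  rw [lintegral_indicator measurableSet_closedBall, setLIntegral_const, Complex.volume_closedBall,
    ← ENNReal.ofReal_pow (by positivity), ← ENNReal.ofReal_coe_nnreal, NNReal.coe_real_pi,
    ← ENNReal.ofReal_mul (by positivity), ← ENNReal.ofReal_mul (by positivity)]
  refine ENNReal.ofReal_le_ofReal ?_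
  have e : ℓ * (2 / r) * ((2 * r) ^ 2 * Real.pi) = 4 * Real.pi * (2 * ℓ * r) := by
    field_simp
    ring
  rw [e]
  have := Real.pi_pos
  exact mul_le_mul_of_nonneg_left (two_mul_le_add_sq ℓ r) (by positivity)

/-- `L¹` norm of a point term -/
theorem pt_one {c : ℂ} {ρ ℓ δ : ℝ} {g : ℂ → ℝ} (hρ0 : 0 ≤ ρ) (hρ : ρ ≤ δ) (hδ : δ ≤ 1)
    (hg : Measurable g) (hgT : ∀ z ∉ closedBall c ρ, g z = 0)
    (h2 : ∫⁻ z, ENNReal.ofReal (g z ^ 2) ≤ ENNReal.ofReal δ) :
    ∫⁻ z, ENNReal.ofReal (ℓ * g z) ≤ ENNReal.ofReal ((4 + ℓ ^ 2) * δ) := by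
  have hδ0 : 0 ≤ δ := hρ0.trans hρ
  have h1 : ∀ z, ENNReal.ofReal (ℓ * g z) ≤ (closedBall c ρ).indicator (fun _ => (1 : ℝ≥0∞)) z +
      ENNReal.ofReal (ℓ ^ 2) * ENNReal.ofReal (g z ^ 2) := by
    intro z
    by_cases hz : z ∈ closedBall c ρ
    · rw [indicator_of_mem hz, ← ENNReal.ofReal_mul (sq_nonneg _), ← ENNReal.ofReal_one,
        ← ENNReal.ofReal_add zero_le_one (by positivity)]
      refine ENNReal.ofReal_le_ofReal ?_
      nlinarith [sq_nonneg (ℓ * g z - 1), sq_nonneg (ℓ * g z)]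
    · rw [hgT z hz, mul_zero, ENNReal.ofReal_zero]
      exact zero_le
  calc ∫⁻ z, ENNReal.ofReal (ℓ * g z)
      ≤ ∫⁻ z, ((closedBall c ρ).indicator (fun _ => (1 : ℝ≥0∞)) z +
          ENNReal.ofReal (ℓ ^ 2) * ENNReal.ofReal (g z ^ 2)) := lintegral_mono h1
    _ = volume (closedBall c ρ) + ENNReal.ofReal (ℓ ^ 2) * ∫⁻ z, ENNReal.ofReal (g z ^ 2) := by
        rw [lintegral_add_left (measurable_const.indicator measurableSet_closedBall),
          lintegral_indicator measurableSet_closedBall, setLIntegral_const, one_mul,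
          lintegral_const_mul _ (hg.pow_const 2).ennreal_ofReal]
    _ ≤ ENNReal.ofReal (4 * δ) + ENNReal.ofReal (ℓ ^ 2) * ENNReal.ofReal δ := by
        gcongr
        rw [Complex.volume_closedBall, ← ENNReal.ofReal_pow hρ0, ← ENNReal.ofReal_coe_nnreal,
          NNReal.coe_real_pi, ← ENNReal.ofReal_mul (by positivity)]
        refine ENNReal.ofReal_le_ofReal ?_
        have h3 : ρ ^ 2 ≤ δ := by nlinarith
        have := Real.pi_pos
        have h4 := Real.pi_le_four
        nlinarith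
    _ = ENNReal.ofReal ((4 + ℓ ^ 2) * δ) := by
        rw [← ENNReal.ofReal_mul (sq_nonneg _), ← ENNReal.ofReal_add (by positivity)
          (by positivity)]
        congr 1
        ring

end

end Crest.Agent.R105.Pln_897
end

-- ▼ part R105/Pln7_897

/-! Row 105, S0139, RED-PLAN (helper897), part 7: `PlanP`. -/

set_option autoImplicit false

open Set Filter Topology Metric MeasureTheory
open scoped ENNReal NNReal

namespace Crest.Agent.R105.Pln_897

open Crest.Agent.R105 Crest.Agent.R105.Rd_557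

section

variable {U : Set ℂ} {L : ℝ} {ι : Type} {c : ι → ℂ} {r : ι → ℝ} {m R : ι → ℝ} {v : ℂ → ℝ}

/-- `PlanOut` from the data and the numbers -/
theorem planOut (D : DatR U L c r m R v) (hnull : volume (frontier U) = 0) {ε : ℝ} (hε : 0 ≤ ε)
    (s : Finset ι) {S : Set ι} {N : ι → Set ℂ} {χ g : ι → ℂ → ℝ} {a b ρ : ι → ℝ}
    (P : PData U (big c r s) v (fun i : S => N i) (fun i : S => closedBall (c i) (ρ i))
        (fun i : S => χ i) (fun i : S => g i) (fun i : S => a i) (fun i : S => b i))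
    (hcov : ∀ i, i ∉ s → closedBall (c i) (r i) ⊆ ⋃ j : S, N j)
    (hAv : ∑' i : S, volume (closedBall (c i) (ρ i)) ≤ ENNReal.ofReal ε)
    (hAL : ∀ i, closedBall (c i) (ρ i) ⊆ closedBall 0 (3 * L + 1))
    (hL1 : ∑' i : S, ∫⁻ z, ENNReal.ofReal ((b i - a i) * g i z) ≤ ENNReal.ofReal ε)
    (hL2 : ∫⁻ z, (hE (fun i : S => g i) (fun i : S => a i) (fun i : S => b i) z) ^ 2 ≠ ∞) :
    ∃ (C0 A : Set ℂ) (h : ℂ → ℝ) (Ψ : ℂ → ℝ → ℝ), PlanOut U L v (big c r s) ε C0 A h Ψ := by
  have := D.cnt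
  have hVo : IsOpen (⋃ j : S, N j) := isOpen_iUnion fun j => P.No j
  obtain ⟨hC1, hC2, hC3, -⟩ := c0_props D s hVo hcov
  set χ' : S → ℂ → ℝ := fun i => χ i with hχ'
  set g' : S → ℂ → ℝ := fun i => g i with hg'
  set a' : S → ℝ := fun i => a i with ha'
  set b' : S → ℝ := fun i => b i with hb'
  have hm := P.measurable_hE
  have h1 : ∫⁻ z, hE g' a' b' z ≤ ENNReal.ofReal ε := by
    refine le_trans (le_of_eq ?_) hL1
    exact lintegral_tsum fun i => (((P.gm i).const_mul _).ennreal_ofReal).aemeasurable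
  have h1t : ∫⁻ z, hE g' a' b' z ≠ ∞ := ne_top_of_le_ne_top ENNReal.ofReal_ne_top h1
  have hfin : ∀ᵐ z, hE g' a' b' z ≠ ∞ := by
    filter_upwards [ae_lt_top hm h1t] with z hz using hz.ne
  have hint : Integrable (hh g' a' b') :=
    integrable_toReal_of_lintegral_ne_top hm.aemeasurable h1t
  have hvL : ∀ z ∈ U, ∃ K : ℝ≥0, ∃ t ∈ 𝓝 z, LipschitzOnWith K v t := fun z hz =>
    (D.diff.contDiffAt (D.ext.1.mem_nhds hz)).exists_lipschitzOnWith
  have hvd : ∀ z ∈ U, DifferentiableAt ℝ v z := fun z hz =>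
    (D.diff.contDiffAt (D.ext.1.mem_nhds hz)).differentiableAt one_ne_zero
  have hnot : ∀ z, z ∉ big c r s → z ∉ Uᶜ \ (big c r s ∪ ⋃ j : S, N j) →
      z ∈ U ∪ ⋃ j : S, N j := by
    intro z h2 h3
    by_contra h4
    rw [mem_union, not_or] at h4
    exact h3 ⟨h4.1, fun h5 => h5.elim h2 h4.2⟩
  refine ⟨Uᶜ \ (big c r s ∪ ⋃ j : S, N j), ⋃ i : S, closedBall (c i) (ρ i), hh g' a' b',
    G χ' a' b', ?_⟩
  constructor
  · -- mono
    intro z s t hst
    have e1 := P.cut.G_sub z t s
    have e2 : 0 ≤ ∫ x in s..t, (1 - ph χ' a' b' z x) :=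
      intervalIntegral.integral_nonneg hst fun x _ => sub_nonneg.2 (P.cut.ph_le_one z x)
    rw [← e1] at e2
    exact sub_nonneg.1 e2
  · -- lip
    intro z s t hst
    have := P.cut.G_lip z t s
    rw [abs_of_nonneg (sub_nonneg.2 hst)] at this
    exact (le_abs_self _).trans this
  · -- off
    intro z hz s
    rw [mem_iUnion, not_exists] at hz
    have := P.cut.G_sub_self (F := ∅) (z := z) (fun i _ => P.supp i z (hz i)) s
    rw [Finset.sum_empty] at this
    exact sub_eq_zero.1 (abs_nonpos_iff.1 this)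
  · exact fun z => intervalIntegral.integral_same
  · exact fun s => P.measurable_G s
  · exact fun s η K hη hc e => P.cst hfin hint s hη hc e
  · exact hC1
  · rw [disjoint_left]
    exact fun z hz hzB => hz.2 (Or.inl hzB)
  · exact hC2
  · exact hC3
  · exact P.continuousOn hvL
  · exact fun z h2 h3 => P.lipschitz hvL (hnot z h2 h3)
  · exact Eventually.of_forall fun z hz => P.fderiv_U hz (hvd z hz)
  · have hae : ∀ᵐ z : ℂ, z ∉ frontier U := by
      rw [ae_iff]
      simpa using hnull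
    filter_upwards [hae] with z hz hzU hzB
    have h2 := hnot z hzB fun h3 => hz (hC3 h3)
    rcases h2 with h2 | h2
    · exact absurd h2 hzU
    · rw [mem_iUnion] at h2
      obtain ⟨j, hj⟩ := h2
      exact P.fderiv_N hj
  · exact MeasurableSet.iUnion fun i => measurableSet_closedBall
  · exact (measure_iUnion_le _).trans hAv
  · exact iUnion_subset fun i => hAL i
  · exact P.measurable_hh
  · exact fun z => ENNReal.toReal_nonneg
  · intro z hz
    rw [mem_iUnion, not_exists] at hz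
    rw [hh, PData.hE_zero fun i => P.gT i z (hz i), ENNReal.toReal_zero]
  · show ∫ z, (hE g' a' b' z).toReal ≤ ε
    rw [integral_toReal hm.aemeasurable (ae_lt_top hm h1t)]
    exact ENNReal.toReal_le_of_le_ofReal hε h1
  · refine ⟨(P.measurable_hh.pow_const 2).aestronglyMeasurable, ?_⟩
    refine lt_of_le_of_lt (lintegral_mono fun z => ?_) hL2.lt_top
    rw [Real.enorm_eq_ofReal (sq_nonneg _),
      ENNReal.ofReal_pow (show 0 ≤ hh g' a' b' z from ENNReal.toReal_nonneg)]
    exact pow_le_pow_left' ENNReal.ofReal_toReal_le 2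

end

/-- finiteness of level sets of a summable function -/
theorem finite_ge {ι : Type} {F : ι → ℝ} (hF : Summable F) {τ : ℝ} (hτ : 0 < τ) :
    {i | τ ≤ F i}.Finite := by
  have := hF.tendsto_cofinite_zero.eventually (gt_mem_nhds hτ)
  rw [eventually_cofinite] at this
  refine this.subset fun i hi => ?_
  simpa using hi

/-- **PLAN** -/
theorem planP : PlanP := by
  classical
  intro U L ι c r m R v D hnull ε hε
  have := D.cnt
  obtain ⟨e0, he0⟩ := exists_injective_nat ι
  -- weights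
  set w : ι → ℝ := fun i => (1 / 2) ^ e0 i with hwdef
  have hw0 : ∀ i, 0 < w i := fun i => by positivity
  have hw1 : ∀ i, w i ≤ 1 := fun i => pow_le_one₀ (by norm_num) (by norm_num)
  have hws : Summable w := summable_geometric_two.comp_injective he0
  have hw2 : ∀ i, w i ^ 2 ≤ w i := fun i => by nlinarith [hw0 i, hw1 i]
  set ℓ : ι → ℝ := fun i => 2 * (R i + w i) with hℓdef
  have hℓ0 : ∀ i, 0 ≤ ℓ i := fun i => by
    have := D.R0 i
    have := hw0 i
    positivity
  have hℓs : Summable fun i => ℓ i ^ 2 := by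
    refine Summable.of_nonneg_of_le (fun i => sq_nonneg _) (fun i => ?_)
      ((D.sR.mul_left 8).add (hws.mul_left 8))
    show (2 * (R i + w i)) ^ 2 ≤ 8 * R i ^ 2 + 8 * w i
    nlinarith [sq_nonneg (R i - w i), hw2 i]
  -- the small constant
  obtain ⟨κ, hκ0, hκ1, hκε⟩ : ∃ κ : ℝ, 0 < κ ∧ κ ≤ 1 ∧ ∑' i, κ * w i ≤ ε / 2 := by
    have hW : 0 ≤ ∑' i, w i := tsum_nonneg fun i => (hw0 i).le
    refine ⟨min 1 (ε / (2 * (1 + ∑' i, w i))), by positivity, min_le_left _ _, ?_⟩
    rw [tsum_mul_left]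
    calc _ ≤ (ε / (2 * (1 + ∑' i, w i))) * ∑' i, w i :=
          mul_le_mul_of_nonneg_right (min_le_right _ _) hW
      _ ≤ _ := by
        rw [div_mul_eq_mul_div, div_le_iff₀ (by positivity)]
        nlinarith
  set δ : ι → ℝ := fun i => κ * w i ^ 2 / (4 + ℓ i ^ 2) with hδdef
  have hδ0 : ∀ i, 0 < δ i := fun i => by
    have := hw0 i
    positivity
  have hδκ : ∀ i, (4 + ℓ i ^ 2) * δ i = κ * w i ^ 2 := fun i => by
    show (4 + ℓ i ^ 2) * (κ * w i ^ 2 / (4 + ℓ i ^ 2)) = _
    field_simp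
  have hκw : ∀ i, κ * w i ^ 2 ≤ κ * w i := fun i => mul_le_mul_of_nonneg_left (hw2 i) hκ0.le
  have hκw1 : ∀ i, κ * w i ^ 2 ≤ w i ^ 2 := fun i => by nlinarith [sq_nonneg (w i)]
  have hδw : ∀ i, 4 * δ i ≤ κ * w i := fun i => by
    nlinarith [hδκ i, hκw i, mul_nonneg (sq_nonneg (ℓ i)) (hδ0 i).le]
  have hδw' : ∀ i, δ i ≤ w i := fun i => by
    nlinarith [hδw i, hδ0 i, hw0 i, mul_le_mul_of_nonneg_right hκ1 (hw0 i).le]
  have hδ1 : ∀ i, δ i ≤ 1 := fun i => (hδw' i).trans (hw1 i)
  -- the cut-offs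
  have hex : ∀ i, ∃ (p ρ : ℝ) (χ g : ℂ → ℝ), r i < p ∧ 0 ≤ ρ ∧ CutAt (c i) p ρ χ g ∧
      (0 < r i → ρ = 2 * r i ∧ g = (closedBall (c i) (2 * r i)).indicator fun _ => 2 / r i) ∧
      (¬ 0 < r i → ρ ≤ δ i ∧ ∫⁻ z, ENNReal.ofReal (g z ^ 2) ≤ ENNReal.ofReal (δ i)) := by
    intro i
    by_cases hi : 0 < r i
    · obtain ⟨χ, hχ⟩ := exists_disc (c i) hi
      exact ⟨_, _, χ, _, by linarith, by linarith, hχ, fun _ => ⟨rfl, rfl⟩,
        fun h => absurd hi h⟩
    · obtain ⟨p, ρ, χ, g, hp, hρ, hρδ, hχ, hg⟩ := exists_pt (c i) (hδ0 i)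
      exact ⟨p, ρ, χ, g, lt_of_le_of_lt (not_lt.1 hi) hp, hρ.le, hχ, fun h => absurd h hi,
        fun _ => ⟨hρδ, hg⟩⟩
  choose p ρ χ g hp hρ0 hcut hdisc hpt using hex
  -- sums over the discs
  set q : ι → ℝ := fun i => 4 * Real.pi * (ℓ i ^ 2 + r i ^ 2) with hqdef
  have hq0 : ∀ i, 0 ≤ q i := fun i => by
    have := Real.pi_pos
    positivity
  have hqs : Summable q := (hℓs.add D.sr).mul_left _
  have htail := ENNReal.tendsto_tsum_compl_atTop_zero (f := fun i => ENNReal.ofReal (q i))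
    hqs.tsum_ofReal_ne_top
  obtain ⟨s1, hs1⟩ := (htail.eventually_le_const
    (ENNReal.ofReal_pos.2 (half_pos hε))).exists
  refine ⟨s1.filter fun i => 0 < r i, fun i hi => (Finset.mem_filter.1 hi).2,
    fun s hs0 hs => ?_⟩
  -- the basic estimate
  have hbasic : ∀ (S : Set ι) (F : ι → ℝ≥0∞), (∀ i ∈ S, i ∉ s) →
      (∀ i, 0 < r i → F i ≤ ENNReal.ofReal (q i)) →
      (∀ i, ¬ 0 < r i → F i ≤ ENNReal.ofReal (κ * w i)) →
      ∑' i : S, F i ≤ ENNReal.ofReal ε := by
    intro S F hS h1 h2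
    have h3 : ∀ i : S, F i ≤ ENNReal.ofReal (κ * w i) +
        {i | i ∉ s1}.indicator (fun i => ENNReal.ofReal (q i)) (i : ι) := by
      intro i
      by_cases hi : 0 < r i
      · have hi1 : (i : ι) ∉ s1 := fun h => hS i i.2 (hs0 (Finset.mem_filter.2 ⟨h, hi⟩))
        rw [indicator_of_mem (show (i : ι) ∈ {i | i ∉ s1} from hi1)]
        exact (h1 i hi).trans le_add_self
      · exact (h2 i hi).trans le_self_add
    calc ∑' i : S, F i ≤ ∑' i : S, (ENNReal.ofReal (κ * w i) +
          {i | i ∉ s1}.indicator (fun i => ENNReal.ofReal (q i)) (i : ι)) :=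
          ENNReal.tsum_le_tsum h3
      _ ≤ ∑' i : ι, (ENNReal.ofReal (κ * w i) +
          {i | i ∉ s1}.indicator (fun i => ENNReal.ofReal (q i)) i) :=
          ENNReal.tsum_comp_le_tsum_of_injective Subtype.val_injective _
      _ = ∑' i : ι, ENNReal.ofReal (κ * w i) +
          ∑' i : {i | i ∉ s1}, ENNReal.ofReal (q i) := by
          rw [ENNReal.tsum_add, tsum_subtype {i | i ∉ s1} fun i => ENNReal.ofReal (q i)]
      _ ≤ ENNReal.ofReal (ε / 2) + ENNReal.ofReal (ε / 2) := by
          refine add_le_add ?_ hs1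
          rw [← ENNReal.ofReal_tsum_of_nonneg (fun i => by have := hw0 i; positivity)
            (hws.mul_left κ)]
          exact ENNReal.ofReal_le_ofReal hκε
      _ = ENNReal.ofReal ε := by
          rw [← ENNReal.ofReal_add (by positivity) (by positivity), add_halves]
  -- finiteness
  have hfin : ∀ η > 0, {i | η ≤ ρ i ∨ η ≤ R i + w i}.Finite := by
    intro η hη
    have hsum : Summable fun i => r i ^ 2 + R i ^ 2 + w i := (D.sr.add D.sR).add hws
    refine (finite_ge hsum (τ := min (η ^ 2 / 4) (η / 2)) (by positivity)).subset ?_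
    rintro i (hi | hi)
    · show min (η ^ 2 / 4) (η / 2) ≤ r i ^ 2 + R i ^ 2 + w i
      by_cases hr : 0 < r i
      · rw [(hdisc i hr).1] at hi
        refine (min_le_left _ _).trans ?_
        nlinarith [sq_nonneg (R i), hw0 i]
      · have := (hpt i hr).1
        refine (min_le_right _ _).trans ?_
        nlinarith [sq_nonneg (R i), hw0 i, sq_nonneg (r i), hδw' i]
    · show min (η ^ 2 / 4) (η / 2) ≤ r i ^ 2 + R i ^ 2 + w i
      by_cases hR : η / 2 ≤ R i
      · refine (min_le_left _ _).trans ?_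
        nlinarith [sq_nonneg (r i), hw0 i]
      · refine (min_le_right _ _).trans ?_
        nlinarith [sq_nonneg (R i), hw0 i, sq_nonneg (r i)]
  obtain ⟨S, N, hSs, P, hcov⟩ := exists_pdata D s hw0 hp hcut hfin
  have hlen : ∀ i, (m i + R i + w i) - (m i - R i - w i) = ℓ i := fun i => by
    show _ = 2 * (R i + w i)
    ring
  refine planOut (a := fun i => m i - R i - w i) (b := fun i => m i + R i + w i) D hnull hε.le s
    P hcov ?_ ?_ ?_ ?_
  · -- volume
    refine hbasic S (fun i => volume (closedBall (c i) (ρ i))) hSs (fun i hi => ?_)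
      fun i hi => ?_
    · show volume (closedBall (c i) (ρ i)) ≤ ENNReal.ofReal (4 * Real.pi * (ℓ i ^ 2 + r i ^ 2))
      rw [(hdisc i hi).1, Complex.volume_closedBall, ← ENNReal.ofReal_pow (by positivity),
        ← ENNReal.ofReal_coe_nnreal, NNReal.coe_real_pi, ← ENNReal.ofReal_mul (by positivity)]
      refine ENNReal.ofReal_le_ofReal ?_
      have := mul_nonneg Real.pi_pos.le (sq_nonneg (ℓ i))
      nlinarith
    · show volume (closedBall (c i) (ρ i)) ≤ ENNReal.ofReal (κ * w i)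
      rw [Complex.volume_closedBall, ← ENNReal.ofReal_pow (hρ0 i),
        ← ENNReal.ofReal_coe_nnreal, NNReal.coe_real_pi, ← ENNReal.ofReal_mul (by positivity)]
      refine ENNReal.ofReal_le_ofReal ?_
      have h3 : ρ i ^ 2 ≤ δ i := by nlinarith [hρ0 i, (hpt i hi).1, hδ1 i]
      nlinarith [Real.pi_pos, Real.pi_le_four, hδw i, hδ0 i]
  · -- the ball
    intro i z hz
    rw [mem_closedBall_zero_iff]
    rw [mem_closedBall, dist_eq_norm] at hz
    have hcL : ∀ y ∈ closedBall (c i) (r i), ‖y‖ ≤ L := fun y hy => by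
      have := D.hL (ball_sub D i hy)
      rwa [mem_closedBall_zero_iff] at this
    have hc := hcL _ (c_mem D i)
    have hzc : ‖z‖ ≤ ‖z - c i‖ + ‖c i‖ := by simpa using norm_add_le (z - c i) (c i)
    have hL0 : 0 ≤ L := (norm_nonneg _).trans hc
    by_cases hr : 0 < r i
    · rw [(hdisc i hr).1] at hz
      have h1 := hcL (c i + (r i : ℂ)) (by
        rw [mem_closedBall, dist_eq_norm, add_sub_cancel_left, Complex.norm_real,
          Real.norm_eq_abs, abs_of_pos hr])
      have h2 := hcL (c i - (r i : ℂ)) (by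
        rw [mem_closedBall, dist_eq_norm, sub_sub_cancel_left, norm_neg, Complex.norm_real,
          Real.norm_eq_abs, abs_of_pos hr])
      have h3 : ‖(c i + (r i : ℂ)) - (c i - (r i : ℂ))‖ = 2 * r i := by
        rw [show (c i + (r i : ℂ)) - (c i - (r i : ℂ)) = ((2 * r i : ℝ) : ℂ) by push_cast; ring,
          Complex.norm_real, Real.norm_eq_abs, abs_of_pos (by positivity)]
      have h4 := norm_sub_le (c i + (r i : ℂ)) (c i - (r i : ℂ))
      linarith
    · have := (hpt i hr).1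
      have := hδ1 i
      linarith
  · -- `L¹`
    simp only [hlen]
    refine hbasic S (fun i => ∫⁻ z, ENNReal.ofReal (ℓ i * g i z)) hSs (fun i hi => ?_)
      fun i hi => ?_
    · show ∫⁻ z, ENNReal.ofReal (ℓ i * g i z) ≤ _
      rw [(hdisc i hi).2]
      exact disc_one (c i) hi (hℓ0 i)
    · refine (pt_one (hρ0 i) (hpt i hi).1 (hδ1 i) (hcut i).gm (hcut i).gT (hpt i hi).2).trans ?_
      rw [hδκ]
      exact ENNReal.ofReal_le_ofReal (hκw i)
  · -- `L²`
    have h1 := all_sq (c := c) (r := r) (ℓ := ℓ) (w := w) (g := g) D.disj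
      (fun i => (hcut i).gm) hℓ0 hℓs (fun i => (hcut i).g0) hw0 hws (fun i hi => (hdisc i hi).2)
      (fun i hi => by
        have e1 : ∀ z, ENNReal.ofReal ((ℓ i * g i z) ^ 2) =
            ENNReal.ofReal (ℓ i ^ 2) * ENNReal.ofReal (g i z ^ 2) := fun z => by
          rw [← ENNReal.ofReal_mul (sq_nonneg _), mul_pow]
        simp only [e1]
        rw [lintegral_const_mul _ ((hcut i).gm.pow_const 2).ennreal_ofReal]
        refine (mul_le_mul' le_rfl (hpt i hi).2).trans ?_
        rw [← ENNReal.ofReal_mul (sq_nonneg _)]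
        refine ENNReal.ofReal_le_ofReal ?_
        nlinarith [hδκ i, hκw1 i, hδ0 i])
    refine ne_top_of_le_ne_top h1 (lintegral_mono fun z => ?_)
    refine pow_le_pow_left' ?_ 2
    show ∑' i : S, ENNReal.ofReal (((m i + R i + w i) - (m i - R i - w i)) * g i z) ≤ _
    simp only [hlen]
    exact ENNReal.tsum_comp_le_tsum_of_injective Subtype.val_injective
      (fun i => ENNReal.ofReal (ℓ i * g i z))

end Crest.Agent.R105.Pln_897
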