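import Crest.Agent.R105.Isx1_909
import Crest.Agent.R105.Skp2_257
import Mathlib
import Crest.Agent.R105.Bd1_775
import Crest.Agent.R335.HMollB
import Crest.Agent.R105.Isx2_909
import Crest.Agent.R105.Tra4_937
import Crest.Agent.R105.Stp10_722
import Crest.Agent.R105.Lop4_744

-- ▼ part R105/Isx4_909
section

/-!
# Row 105, PP: `NULLIM` (helper909)
-/

set_option autoImplicit false

open MeasureTheory Set Filter Topology Metric
open scoped NNReal ENNReal

namespace Crest.Agent.R105.Isx_909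

open CF_363 Skp2_257

/-- a.e. horizontal slice of a null set is null (`ℝ × ℝ`) -/
theorem ae_slice {E : Set (ℝ × ℝ)} (hE : volume E = 0) :
    ∀ᵐ y : ℝ, volume {x : ℝ | (x, y) ∈ E} = 0 := by
  have h1 : ∀ᵐ p : ℝ × ℝ, p ∉ E := by rw [ae_iff]; simpa using hE
  filter_upwards [CF_363.ae_swap h1] with y hy
  rw [ae_iff] at hy
  simpa using hy

/-- **NULLIM** -/
theorem nullim : Skp2_257.NULLIM := by
  intro E hE g Bm Bp hg b hb
  have hlev : ∃ y ∈ Ioo Bm Bp, volume {x : ℝ | (x, y) ∈ E} = 0 ∧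
      ∀ a c, a ≤ c → IntervalIntegrable (fun s => gx b (s, y)) volume a c ∧
        b (c, y) - b (a, y) = ∫ s in a..c, gx b (s, y) := by
    by_contra hcon
    push Not at hcon
    have h3 : ∀ᵐ y : ℝ, y ∉ Ioo Bm Bp := by
      filter_upwards [ae_slice hE.null, hb.1.hor] with y a1 a2 hmem
      obtain ⟨a, c, hac, hne⟩ := hcon y hmem a1
      have := a2 a c hac (fun _ _ => notMem_empty _)
      exact hne this.1 this.2
    rw [ae_iff] at h3
    simp only [not_not] at h3
    have h4 : volume (Ioo Bm Bp) = 0 := h3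
    rw [Real.volume_Ioo] at h4
    simp only [ENNReal.ofReal_eq_zero] at h4
    linarith [hg.lt]
  obtain ⟨y, hy, hnull, hline⟩ := hlev
  have hii : ∀ a c, IntervalIntegrable (fun s => gx b (s, y)) volume a c := by
    intro a c
    rcases le_total a c with h | h
    · exact (hline a c h).1
    · exact (hline c a h).1.symm
  have hF : ∀ a c, b (c, y) - b (a, y) = ∫ s in a..c, gx b (s, y) := by
    intro a c
    rcases le_total a c with h | h
    · exact (hline a c h).2
    · rw [intervalIntegral.integral_symm, ← (hline c a h).2]; ring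
  have h5 := lusinN (F := fun s => b (s, y)) (v := fun s => gx b (s, y)) hii hF hnull
  refine measure_mono_null ?_ h5
  rintro _ ⟨p, hp, rfl⟩
  simp only [un, mem_iUnion] at hp
  obtain ⟨K, hK, hpK⟩ := hp
  have hcr := hg.crs K hK
  have hmem : (K.x, y) ∈ K.car := Hair.mem_car.2 ⟨rfl, by linarith [hy.1], by linarith [hy.2]⟩
  have hcomp : K.car ∈ Comps E := hg.sub hK
  have hE' : (K.x, y) ∈ E := by
    obtain ⟨q, _, hq⟩ := hcomp
    rw [hq] at hmem
    exact connectedComponentIn_subset _ _ hmem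
  exact ⟨K.x, hE', (hb.2 K.car hcomp (K.x, y) hmem p hpK)⟩

end Crest.Agent.R105.Isx_909
end

-- ▼ part R105/Iso1_938
section

/-!
# Row 105, ISO-PP, core (helper938), part 1: one variable

`line_ftc` : increments dominated by the integral of an integrable function and a derivative
almost everywhere give the fundamental theorem of calculus;
`inc_of_local` : the domination of increments is local; `ae_hor`, `ae_ver` : Fubini on `ℂ`.
-/

set_option autoImplicit false

open MeasureTheory Set Filter Topology Metric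
open scoped NNReal ENNReal

namespace Crest.Agent.R105.Iso_938

noncomputable section

/-! ### one variable -/

lemma ii_sub {m : ℝ → ℝ} {a b s t : ℝ} (hm : IntervalIntegrable m volume a b) (h1 : a ≤ s)
    (h2 : s ≤ t) (h3 : t ≤ b) : IntervalIntegrable m volume s t := by
  refine hm.mono_set ?_
  rw [uIcc_of_le h2, uIcc_of_le ((h1.trans h2).trans h3)]
  exact Icc_subset_Icc h1 h3

theorem ac_of_inc {f m : ℝ → ℝ} {a b : ℝ} (hab : a ≤ b) (hm : IntervalIntegrable m volume a b)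
    (hf : ∀ s t, a ≤ s → s ≤ t → t ≤ b → |f t - f s| ≤ ∫ x in s..t, m x) :
    AbsolutelyContinuousOnInterval f a b := by
  have hM : AbsolutelyContinuousOnInterval (fun x ↦ ∫ v in a..x, m v) a b :=
    hm.absolutelyContinuousOnInterval_intervalIntegral left_mem_uIcc
  have key : ∀ s ∈ uIcc a b, ∀ t ∈ uIcc a b,
      dist (f s) (f t) ≤ dist (∫ v in a..s, m v) (∫ v in a..t, m v) := by
    have k1 : ∀ s t, a ≤ s → s ≤ t → t ≤ b →
        dist (f s) (f t) ≤ dist (∫ v in a..s, m v) (∫ v in a..t, m v) := by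
      intro s t h1 h2 h3
      have e := intervalIntegral.integral_interval_sub_left
        (ii_sub hm le_rfl (h1.trans h2) h3) (ii_sub hm le_rfl h1 (h2.trans h3))
      rw [dist_comm, Real.dist_eq, dist_comm, Real.dist_eq, e]
      exact (hf s t h1 h2 h3).trans (le_abs_self _)
    intro s hs t ht
    rw [uIcc_of_le hab] at hs ht
    rcases le_total s t with h | h
    · exact k1 s t hs.1 h ht.2
    · rw [dist_comm, dist_comm (∫ v in a..s, m v)]
      exact k1 t s ht.1 h hs.2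
  rw [absolutelyContinuousOnInterval_iff] at hM ⊢
  intro ε hε
  obtain ⟨δ, hδ, h⟩ := hM ε hε
  refine ⟨δ, hδ, fun E hE hs => lt_of_le_of_lt ?_ (h E hE hs)⟩
  refine Finset.sum_le_sum fun i hi => ?_
  exact key _ (hE.1 i hi).1 _ (hE.1 i hi).2

theorem line_ftc {f g m : ℝ → ℝ} {a b : ℝ} (hab : a ≤ b) (hm : IntervalIntegrable m volume a b)
    (hf : ∀ s t, a ≤ s → s ≤ t → t ≤ b → |f t - f s| ≤ ∫ x in s..t, m x)
    (hd : ∀ᵐ x, x ∈ Icc a b → HasDerivAt f (g x) x) : f b - f a = ∫ x in a..b, g x := by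
  have h1 := (ac_of_inc hab hm hf).integral_deriv_eq_sub
  rw [← h1]
  refine intervalIntegral.integral_congr_ae ?_
  filter_upwards [hd] with x hx hxI
  rw [uIoc_of_le hab] at hxI
  exact (hx (Ioc_subset_Icc_self hxI)).deriv

/-- domination of increments is a local property -/
theorem inc_of_local {f m : ℝ → ℝ} {a b : ℝ} (hab : a ≤ b)
    (hm : IntervalIntegrable m volume a b)
    (h : ∀ x ∈ Icc a b, ∃ δ > 0, ∀ s t, a ≤ s → s ≤ t → t ≤ b → |s - x| < δ → |t - x| < δ →
      |f t - f s| ≤ ∫ x in s..t, m x) : |f b - f a| ≤ ∫ x in a..b, m x := by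
  choose! δ hδ hl using h
  obtain ⟨t, h0, hmono, ⟨n, hn⟩, ht⟩ := exists_monotone_Icc_subset_open_cover_Icc hab
    (c := fun x : Icc a b => {y : Icc a b | dist y x < δ x})
    (fun x => isOpen_lt (continuous_id.dist continuous_const) continuous_const)
    (fun x _ => mem_iUnion.2 ⟨x, by
      simp only [mem_ofPred_eq, dist_self]; exact hδ x x.2⟩)
  have key : ∀ k : ℕ, |f (t k) - f a| ≤ ∫ x in a..(t k), m x := by
    intro k
    induction k with
    | zero => rw [h0]; simp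
    | succ k ih =>
      obtain ⟨x, hx⟩ := ht k
      have hk : t k ≤ t (k + 1) := hmono (Nat.le_succ k)
      have e1 : dist (t k) x < δ x := hx ⟨le_rfl, hk⟩
      have e2 : dist (t (k + 1)) x < δ x := hx ⟨hk, le_rfl⟩
      rw [Subtype.dist_eq, Real.dist_eq] at e1 e2
      have e3 := hl x x.2 (t k) (t (k + 1)) (t k).2.1 hk (t (k + 1)).2.2 e1 e2
      have e4 : (∫ x in a..(t k), m x) + ∫ x in (t k : ℝ)..(t (k + 1)), m x
          = ∫ x in a..(t (k + 1)), m x :=
        intervalIntegral.integral_add_adjacent_intervals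
          (ii_sub hm le_rfl (t k).2.1 (t k).2.2) (ii_sub hm (t k).2.1 hk (t (k + 1)).2.2)
      have e5 : f (t (k + 1)) - f a = (f (t k) - f a) + (f (t (k + 1)) - f (t k)) := by ring
      rw [e5, ← e4]
      exact (abs_add_le _ _).trans (add_le_add ih e3)
  have := key n
  rw [hn n le_rfl] at this
  exact this

/-- locally Lipschitz functions of one variable -/
theorem inc_of_locLip {f g : ℝ → ℝ} {a b : ℝ} (hab : a ≤ b) (hf : LocallyLipschitz f)
    (hg : IntervalIntegrable g volume a b)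
    (hd : ∀ᵐ x, x ∈ Icc a b → HasDerivAt f (g x) x) : |f b - f a| ≤ ∫ x in a..b, |g x| := by
  refine inc_of_local hab hg.abs fun x hx => ?_
  obtain ⟨K, u, hu, hL⟩ := hf x
  obtain ⟨δ, hδ, hs⟩ := Metric.mem_nhds_iff.1 hu
  refine ⟨δ, hδ, fun s t h1 h2 h3 h4 h5 => ?_⟩
  have hsub : Icc s t ⊆ ball x δ := by
    intro r hr
    rw [mem_ball, Real.dist_eq]
    rw [abs_lt] at h4 h5 ⊢
    constructor <;> linarith [hr.1, hr.2]
  have hac : AbsolutelyContinuousOnInterval f s t := by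
    apply LipschitzOnWith.absolutelyContinuousOnInterval (K := K)
    rw [uIcc_of_le h2]
    exact hL.mono (hsub.trans hs)
  have e1 := hac.integral_deriv_eq_sub
  have e2 : ∫ x in s..t, deriv f x = ∫ x in s..t, g x := by
    refine intervalIntegral.integral_congr_ae ?_
    filter_upwards [hd] with y hy hyI
    rw [uIoc_of_le h2] at hyI
    exact (hy ⟨h1.trans hyI.1.le, hyI.2.trans h3⟩).deriv
  rw [← e1, e2]
  exact intervalIntegral.abs_integral_le_integral_abs h2

/-! ### Fubini on `ℂ` -/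

lemma ae_ver {P : ℂ → Prop} (h : ∀ᵐ z : ℂ, P z) : ∀ᵐ x : ℝ, ∀ᵐ y : ℝ, P ⟨x, y⟩ := by
  have h1 : ∀ᵐ p : ℝ × ℝ, P (Complex.measurableEquivRealProd.symm p) :=
    Complex.volume_preserving_equiv_real_prod.symm.quasiMeasurePreserving.ae h
  exact Measure.ae_ae_of_ae_prod h1

lemma ae_hor {P : ℂ → Prop} (h : ∀ᵐ z : ℂ, P z) : ∀ᵐ y : ℝ, ∀ᵐ x : ℝ, P ⟨x, y⟩ := by
  have h1 : ∀ᵐ p : ℝ × ℝ, P (Complex.measurableEquivRealProd.symm p) :=
    Complex.volume_preserving_equiv_real_prod.symm.quasiMeasurePreserving.ae h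
  have h2 : ∀ᵐ p : ℝ × ℝ, P (Complex.measurableEquivRealProd.symm p.swap) :=
    (Measure.measurePreserving_swap (μ := (volume : Measure ℝ))
      (ν := (volume : Measure ℝ))).quasiMeasurePreserving.ae h1
  exact Measure.ae_ae_of_ae_prod h2

lemma integral_c (g : ℂ → ℝ) : ∫ z : ℂ, g z = ∫ p : ℝ × ℝ, g ⟨p.1, p.2⟩ := by
  have := Complex.volume_preserving_equiv_real_prod.symm.integral_comp
    (Complex.measurableEquivRealProd.symm.measurableEmbedding) g
  rw [← this]
  rfl

lemma integrable_c {g : ℂ → ℝ} (h : Integrable g) :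
    Integrable (fun p : ℝ × ℝ => g ⟨p.1, p.2⟩) := by
  have := (Complex.volume_preserving_equiv_real_prod.symm.integrable_comp_emb
    (Complex.measurableEquivRealProd.symm.measurableEmbedding) (g := g)).2 h
  exact this

/-- `∫ g = ∫ (∫ g(x,y) dx) dy` -/
lemma integral_hor {g : ℂ → ℝ} (h : Integrable g) : ∫ z : ℂ, g z = ∫ y : ℝ, ∫ x : ℝ, g ⟨x, y⟩ := by
  rw [integral_c]
  exact integral_prod_symm _ (integrable_c h)

lemma integral_ver {g : ℂ → ℝ} (h : Integrable g) : ∫ z : ℂ, g z = ∫ x : ℝ, ∫ y : ℝ, g ⟨x, y⟩ := by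
  rw [integral_c]
  exact integral_prod _ (integrable_c h)

lemma measurable_mk_left (y : ℝ) : Measurable fun x : ℝ => (⟨x, y⟩ : ℂ) :=
  Complex.measurableEquivRealProd.symm.measurable.comp (measurable_id.prodMk measurable_const)

lemma measurable_mk_right (x : ℝ) : Measurable fun y : ℝ => (⟨x, y⟩ : ℂ) :=
  Complex.measurableEquivRealProd.symm.measurable.comp (measurable_const.prodMk measurable_id)

lemma sq_ii {m : ℝ → ℝ} (hm : Measurable m) (h : Integrable fun x => m x ^ 2) (a b : ℝ) :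
    IntervalIntegrable m volume a b := by
  have h1 : MemLp m 2 volume := (memLp_two_iff_integrable_sq hm.aestronglyMeasurable).2 h
  have h2 : LocallyIntegrable m volume := h1.locallyIntegrable (by norm_num)
  exact (h2.integrableOn_isCompact isCompact_uIcc).intervalIntegrable

lemma ii_hor {m : ℂ → ℝ} (hm : Measurable m) (h : MemLp m 2) :
    ∀ᵐ y : ℝ, ∀ a b : ℝ, IntervalIntegrable (fun x => m ⟨x, y⟩) volume a b := by
  have h1 := integrable_c ((memLp_two_iff_integrable_sq hm.aestronglyMeasurable).1 h)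
  filter_upwards [h1.prod_left_ae] with y hy a b
  exact sq_ii (hm.comp (measurable_mk_left y)) hy a b

lemma ii_ver {m : ℂ → ℝ} (hm : Measurable m) (h : MemLp m 2) :
    ∀ᵐ x : ℝ, ∀ a b : ℝ, IntervalIntegrable (fun y => m ⟨x, y⟩) volume a b := by
  have h1 := integrable_c ((memLp_two_iff_integrable_sq hm.aestronglyMeasurable).1 h)
  filter_upwards [h1.prod_right_ae] with y hy a b
  exact sq_ii (hm.comp (measurable_mk_right y)) hy a b

end

end Crest.Agent.R105.Iso_938
end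

-- ▼ part R105/Iso2_938
section

/-!
# Row 105, ISO-PP, core (helper938), part 2: functions which are planar off `G`

`Dom G u m` : the increments of `u` along a.e. horizontal and a.e. vertical segment off `G` are
dominated by the integral of `m`, `m` in `L²`; `PL E G u` : `u` in the class `Q E` of helper775
and `∃ m, Dom G u m` ("planar off `G`").  Closure under the operations of `Gen`, cut-off,
fundamental theorem of calculus on a.e. line when `E` is null.
-/

set_option autoImplicit false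

open MeasureTheory Set Filter Topology Metric
open scoped NNReal ENNReal

namespace Crest.Agent.R105.Iso_938

open Crest.Agent.R105.Bd_775

noncomputable section

/-- increments of `u` along horizontal and vertical segments off `G` are dominated by `m` -/
structure Dom (G : Set ℂ) (u m : ℂ → ℝ) : Prop where
  nn : ∀ z, 0 ≤ m z
  meas : Measurable m
  mem : MemLp m 2
  hor : ∀ᵐ y : ℝ, ∀ a b : ℝ, a ≤ b → (∀ s ∈ Icc a b, (⟨s, y⟩ : ℂ) ∉ G) →
    |u ⟨b, y⟩ - u ⟨a, y⟩| ≤ ∫ s in a..b, m ⟨s, y⟩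
  ver : ∀ᵐ x : ℝ, ∀ a b : ℝ, a ≤ b → (∀ s ∈ Icc a b, (⟨x, s⟩ : ℂ) ∉ G) →
    |u ⟨x, b⟩ - u ⟨x, a⟩| ≤ ∫ s in a..b, m ⟨x, s⟩

/-- `u` is planar off `G` -/
structure PL (E G : Set ℂ) (u : ℂ → ℝ) : Prop extends Q E u where
  dom : ∃ m, Dom G u m

/-! ### operations on `Dom` -/

lemma Dom.mono {G G' : Set ℂ} {u m : ℂ → ℝ} (h : Dom G u m) (hG : G ⊆ G') : Dom G' u m where
  nn := h.nn
  meas := h.meas
  mem := h.mem
  hor := by
    filter_upwards [h.hor] with y hy a b hab hs
    exact hy a b hab fun s hs' h' => hs s hs' (hG h')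
  ver := by
    filter_upwards [h.ver] with y hy a b hab hs
    exact hy a b hab fun s hs' h' => hs s hs' (hG h')

lemma inc_add {u v m n : ℝ → ℝ} {a b : ℝ} (hm : IntervalIntegrable m volume a b)
    (hn : IntervalIntegrable n volume a b) (h1 : |u b - u a| ≤ ∫ s in a..b, m s)
    (h2 : |v b - v a| ≤ ∫ s in a..b, n s) :
    |(u b + v b) - (u a + v a)| ≤ ∫ s in a..b, (m s + n s) := by
  rw [intervalIntegral.integral_add hm hn]
  have : (u b + v b) - (u a + v a) = (u b - u a) + (v b - v a) := by ring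
  rw [this]
  exact (abs_add_le _ _).trans (add_le_add h1 h2)

lemma inc_mul {u v m n : ℝ → ℝ} {a b M : ℝ} (hm : IntervalIntegrable m volume a b)
    (hn : IntervalIntegrable n volume a b) (hu : ∀ s, |u s| ≤ M) (hv : ∀ s, |v s| ≤ M)
    (h1 : |u b - u a| ≤ ∫ s in a..b, m s) (h2 : |v b - v a| ≤ ∫ s in a..b, n s) :
    |u b * v b - u a * v a| ≤ ∫ s in a..b, M * (m s + n s) := by
  rw [intervalIntegral.integral_const_mul, intervalIntegral.integral_add hm hn]
  have hM : 0 ≤ M := (abs_nonneg _).trans (hu a)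
  have : u b * v b - u a * v a = v b * (u b - u a) + u a * (v b - v a) := by ring
  rw [this, mul_add]
  refine (abs_add_le _ _).trans ?_
  rw [abs_mul, abs_mul]
  exact add_le_add (mul_le_mul (hv b) h1 (abs_nonneg _) hM)
    (mul_le_mul (hu a) h2 (abs_nonneg _) hM)

lemma Dom.add {G : Set ℂ} {u v m n : ℂ → ℝ} (hu : Dom G u m) (hv : Dom G v n) :
    Dom G (fun z => u z + v z) (fun z => m z + n z) where
  nn z := add_nonneg (hu.nn z) (hv.nn z)
  meas := hu.meas.add hv.meas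
  mem := hu.mem.add hv.mem
  hor := by
    filter_upwards [hu.hor, hv.hor, ii_hor hu.meas hu.mem, ii_hor hv.meas hv.mem]
      with y h1 h2 h3 h4 a b hab hG
    exact inc_add (u := fun s => u ⟨s, y⟩) (v := fun s => v ⟨s, y⟩) (h3 a b) (h4 a b)
      (h1 a b hab hG) (h2 a b hab hG)
  ver := by
    filter_upwards [hu.ver, hv.ver, ii_ver hu.meas hu.mem, ii_ver hv.meas hv.mem]
      with y h1 h2 h3 h4 a b hab hG
    exact inc_add (u := fun s => u ⟨y, s⟩) (v := fun s => v ⟨y, s⟩) (h3 a b) (h4 a b)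
      (h1 a b hab hG) (h2 a b hab hG)

lemma Dom.mul {G : Set ℂ} {u v m n : ℂ → ℝ} {M : ℝ} (hu : Dom G u m) (hv : Dom G v n)
    (bu : ∀ z, |u z| ≤ M) (bv : ∀ z, |v z| ≤ M) :
    Dom G (fun z => u z * v z) (fun z => M * (m z + n z)) where
  nn z := mul_nonneg ((abs_nonneg _).trans (bu z)) (add_nonneg (hu.nn z) (hv.nn z))
  meas := (hu.meas.add hv.meas).const_mul M
  mem := (hu.mem.add hv.mem).const_mul M
  hor := by
    filter_upwards [hu.hor, hv.hor, ii_hor hu.meas hu.mem, ii_hor hv.meas hv.mem]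
      with y h1 h2 h3 h4 a b hab hG
    exact inc_mul (u := fun s => u ⟨s, y⟩) (v := fun s => v ⟨s, y⟩) (h3 a b) (h4 a b)
      (fun s => bu _) (fun s => bv _) (h1 a b hab hG) (h2 a b hab hG)
  ver := by
    filter_upwards [hu.ver, hv.ver, ii_ver hu.meas hu.mem, ii_ver hv.meas hv.mem]
      with y h1 h2 h3 h4 a b hab hG
    exact inc_mul (u := fun s => u ⟨y, s⟩) (v := fun s => v ⟨y, s⟩) (h3 a b) (h4 a b)
      (fun s => bu _) (fun s => bv _) (h1 a b hab hG) (h2 a b hab hG)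

lemma Dom.comp {G : Set ℂ} {u m : ℂ → ℝ} {h : ℝ → ℝ} {K : ℝ≥0} (hu : Dom G u m)
    (hh : LipschitzWith K h) : Dom G (fun z => h (u z)) (fun z => K * m z) where
  nn z := mul_nonneg K.2 (hu.nn z)
  meas := hu.meas.const_mul _
  mem := hu.mem.const_mul _
  hor := by
    filter_upwards [hu.hor] with y h1 a b hab hG
    rw [intervalIntegral.integral_const_mul]
    have := hh.dist_le_mul (u ⟨b, y⟩) (u ⟨a, y⟩)
    rw [Real.dist_eq, Real.dist_eq] at this
    exact this.trans (mul_le_mul_of_nonneg_left (h1 a b hab hG) K.2)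
  ver := by
    filter_upwards [hu.ver] with y h1 a b hab hG
    rw [intervalIntegral.integral_const_mul]
    have := hh.dist_le_mul (u ⟨y, b⟩) (u ⟨y, a⟩)
    rw [Real.dist_eq, Real.dist_eq] at this
    exact this.trans (mul_le_mul_of_nonneg_left (h1 a b hab hG) K.2)

lemma continuous_mk_left (y : ℝ) : Continuous fun x : ℝ => (⟨x, y⟩ : ℂ) := by
  have : (fun x : ℝ => (⟨x, y⟩ : ℂ)) = fun x : ℝ => (x : ℂ) + y * Complex.I := by
    funext x; apply Complex.ext <;> simp
  rw [this]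
  exact Complex.continuous_ofReal.add continuous_const

lemma continuous_mk_right (x : ℝ) : Continuous fun y : ℝ => (⟨x, y⟩ : ℂ) := by
  have : (fun y : ℝ => (⟨x, y⟩ : ℂ)) = fun y : ℝ => (x : ℂ) + y * Complex.I := by
    funext y; apply Complex.ext <;> simp
  rw [this]
  exact continuous_const.add (Complex.continuous_ofReal.mul continuous_const)

/-- local form of the cut-off on a line -/
lemma inc_cut {κ u k m : ℝ → ℝ} {a b M : ℝ} {A : Set ℝ} (hA : IsClosed A) (hab : a ≤ b)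
    (hk : ∀ a b, IntervalIntegrable k volume a b) (hm : ∀ a b, IntervalIntegrable m volume a b)
    (k0 : ∀ s, 0 ≤ k s) (m0 : ∀ s, 0 ≤ m s)
    (bk : ∀ s, |κ s| ≤ M) (bu : ∀ s, |u s| ≤ M)
    (h1 : ∀ a b, a ≤ b → |κ b - κ a| ≤ ∫ s in a..b, k s)
    (h2 : ∀ a b, a ≤ b → (∀ s ∈ Icc a b, s ∉ A) → |u b - u a| ≤ ∫ s in a..b, m s)
    (h3 : ∀ s ∈ A, ∀ᶠ t in 𝓝 s, κ t = 0) :
    |κ b * u b - κ a * u a| ≤ ∫ s in a..b, M * (k s + m s) := by
  have hM : 0 ≤ M := (abs_nonneg _).trans (bk a)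
  refine inc_of_local (f := fun s => κ s * u s) hab (((hk a b).add (hm a b)).const_mul M)
    fun x hx => ?_
  by_cases hxA : x ∈ A
  · obtain ⟨δ, hδ, hs⟩ := Metric.eventually_nhds_iff.1 (h3 x hxA)
    refine ⟨δ, hδ, fun s t _ h2 _ h4 h5 => ?_⟩
    have e1 : κ s = 0 := hs (by rwa [Real.dist_eq])
    have e2 : κ t = 0 := hs (by rwa [Real.dist_eq])
    simp only [e1, e2, zero_mul, sub_zero, abs_zero]
    exact intervalIntegral.integral_nonneg h2 fun r _ =>
      mul_nonneg hM (add_nonneg (k0 r) (m0 r))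
  · have : Aᶜ ∈ 𝓝 x := hA.isOpen_compl.mem_nhds hxA
    obtain ⟨δ, hδ, hs⟩ := Metric.mem_nhds_iff.1 this
    refine ⟨δ, hδ, fun s t g1 g2 g3 h4 h5 => ?_⟩
    refine inc_mul (hk s t) (hm s t) bk bu (h1 s t g2) (h2 s t g2 fun r hr => ?_)
    refine hs ?_
    rw [mem_ball, Real.dist_eq]
    rw [abs_lt] at h4 h5 ⊢
    constructor <;> linarith [hr.1, hr.2]

/-- cut-off: `κ = 0` near `G` -/
lemma Dom.cut {G : Set ℂ} {κ u k m : ℂ → ℝ} {M : ℝ} (hG : IsClosed G) (hκ : Dom ∅ κ k)
    (hu : Dom G u m) (bk : ∀ z, |κ z| ≤ M) (bu : ∀ z, |u z| ≤ M)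
    (h0 : ∀ z ∈ G, ∀ᶠ w in 𝓝 z, κ w = 0) :
    Dom ∅ (fun z => κ z * u z) (fun z => M * (k z + m z)) where
  nn z := mul_nonneg ((abs_nonneg _).trans (bu z)) (add_nonneg (hκ.nn z) (hu.nn z))
  meas := (hκ.meas.add hu.meas).const_mul M
  mem := (hκ.mem.add hu.mem).const_mul M
  hor := by
    filter_upwards [hκ.hor, hu.hor, ii_hor hκ.meas hκ.mem, ii_hor hu.meas hu.mem]
      with y h1 h2 h3 h4 a b hab _
    refine inc_cut (κ := fun s => κ ⟨s, y⟩) (u := fun s => u ⟨s, y⟩)
      (A := (fun s : ℝ => (⟨s, y⟩ : ℂ)) ⁻¹' G) (hG.preimage (continuous_mk_left y)) hab h3 h4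
      (fun s => hκ.nn _) (fun s => hu.nn _) (fun s => bk _) (fun s => bu _)
      (fun a b hab => h1 a b hab fun s _ h => h) (fun a b hab h => h2 a b hab h) ?_
    intro s hs
    exact (continuous_mk_left y).continuousAt.eventually (h0 _ hs)
  ver := by
    filter_upwards [hκ.ver, hu.ver, ii_ver hκ.meas hκ.mem, ii_ver hu.meas hu.mem]
      with y h1 h2 h3 h4 a b hab _
    refine inc_cut (κ := fun s => κ ⟨y, s⟩) (u := fun s => u ⟨y, s⟩)
      (A := (fun s : ℝ => (⟨y, s⟩ : ℂ)) ⁻¹' G) (hG.preimage (continuous_mk_right y)) hab h3 h4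
      (fun s => hκ.nn _) (fun s => hu.nn _) (fun s => bk _) (fun s => bu _)
      (fun a b hab => h1 a b hab fun s _ h => h) (fun a b hab h => h2 a b hab h) ?_
    intro s hs
    exact (continuous_mk_right y).continuousAt.eventually (h0 _ hs)

/-! ### derivatives along lines -/

lemma hasDerivAt_hor {u : ℂ → ℝ} {x y : ℝ} (h : DifferentiableAt ℝ u ⟨x, y⟩) :
    HasDerivAt (fun s : ℝ => u ⟨s, y⟩) (gx u ⟨x, y⟩) x := by
  have e : (fun s : ℝ => (⟨s, y⟩ : ℂ)) = fun s : ℝ => (s : ℂ) + y * Complex.I := by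
    funext s; apply Complex.ext <;> simp
  have h1 : HasDerivAt (fun s : ℝ => (⟨s, y⟩ : ℂ)) 1 x := by
    rw [e]
    exact (Complex.ofRealCLM.hasDerivAt (x := x)).add_const _ |>.congr_deriv (by simp)
  exact h.hasFDerivAt.comp_hasDerivAt x h1

lemma hasDerivAt_ver {u : ℂ → ℝ} {x y : ℝ} (h : DifferentiableAt ℝ u ⟨x, y⟩) :
    HasDerivAt (fun s : ℝ => u ⟨x, s⟩) (gy u ⟨x, y⟩) y := by
  have e : (fun s : ℝ => (⟨x, s⟩ : ℂ)) = fun s : ℝ => (x : ℂ) + (s : ℂ) * Complex.I := by
    funext s; apply Complex.ext <;> simp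
  have h1 : HasDerivAt (fun s : ℝ => (⟨x, s⟩ : ℂ)) Complex.I y := by
    rw [e]
    exact (((Complex.ofRealCLM.hasDerivAt (x := y)).mul_const Complex.I).const_add _)
      |>.congr_deriv (by simp)
  exact h.hasFDerivAt.comp_hasDerivAt y h1

lemma lip_mk_left (y : ℝ) : LipschitzWith 1 fun x : ℝ => (⟨x, y⟩ : ℂ) := by
  refine LipschitzWith.of_dist_le_mul fun s t => ?_
  rw [Complex.dist_eq, Real.dist_eq]
  have : (⟨s, y⟩ - ⟨t, y⟩ : ℂ) = ((s - t : ℝ) : ℂ) := by apply Complex.ext <;> simp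
  rw [this, Complex.norm_real]; simp

lemma lip_mk_right (x : ℝ) : LipschitzWith 1 fun y : ℝ => (⟨x, y⟩ : ℂ) := by
  refine LipschitzWith.of_dist_le_mul fun s t => ?_
  rw [Complex.dist_eq, Real.dist_eq]
  have : (⟨x, s⟩ - ⟨x, t⟩ : ℂ) = ((s - t : ℝ) : ℂ) * Complex.I := by apply Complex.ext <;> simp
  rw [this, norm_mul, Complex.norm_real]; simp

lemma memLp_gx {u : ℂ → ℝ} (h : Integrable (en u)) : MemLp (gx u) 2 := by
  rw [memLp_two_iff_integrable_sq (measurable_gx u).aestronglyMeasurable]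
  refine h.mono' ((measurable_gx u).pow_const 2).aestronglyMeasurable
    (Eventually.of_forall fun z => ?_)
  rw [Real.norm_of_nonneg (sq_nonneg _)]
  unfold en; nlinarith [sq_nonneg (gy u z)]

lemma memLp_gy {u : ℂ → ℝ} (h : Integrable (en u)) : MemLp (gy u) 2 := by
  rw [memLp_two_iff_integrable_sq (measurable_gy u).aestronglyMeasurable]
  refine h.mono' ((measurable_gy u).pow_const 2).aestronglyMeasurable
    (Eventually.of_forall fun z => ?_)
  rw [Real.norm_of_nonneg (sq_nonneg _)]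
  unfold en; nlinarith [sq_nonneg (gx u z)]

/-- locally Lipschitz functions of finite energy on the plane -/
lemma Dom.of_locLip {u : ℂ → ℝ} (hu : LocallyLipschitz u) (he : Integrable (en u)) :
    Dom ∅ u (fun z => |gx u z| + |gy u z|) := by
  have hd : ∀ᵐ z : ℂ, DifferentiableAt ℝ u z := by
    have := ae_diff isOpen_univ (hu.locallyLipschitzOn (s := univ))
    rwa [Measure.restrict_univ] at this
  have mx := memLp_gx he
  have my := memLp_gy he
  exact
  { nn := fun z => add_nonneg (abs_nonneg _) (abs_nonneg _)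
    meas := (measurable_gx u).norm.add (measurable_gy u).norm
    mem := mx.norm.add my.norm
    hor := by
      filter_upwards [ae_hor hd, ii_hor (measurable_gx u) mx, ii_hor (measurable_gy u) my]
        with y h1 h2 h3 a b hab _
      have e1 := inc_of_locLip (f := fun s => u ⟨s, y⟩) (g := fun s => gx u ⟨s, y⟩) hab
        (hu.comp (lip_mk_left y).locallyLipschitz) (h2 a b) (by
          filter_upwards [h1] with s hs _
          exact hasDerivAt_hor hs)
      refine e1.trans (intervalIntegral.integral_mono_on hab (h2 a b).abs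
        ((h2 a b).abs.add (h3 a b).abs) fun s _ => ?_)
      linarith [abs_nonneg (gy u ⟨s, y⟩)]
    ver := by
      filter_upwards [ae_ver hd, ii_ver (measurable_gx u) mx, ii_ver (measurable_gy u) my]
        with y h1 h2 h3 a b hab _
      have e1 := inc_of_locLip (f := fun s => u ⟨y, s⟩) (g := fun s => gy u ⟨y, s⟩) hab
        (hu.comp (lip_mk_right y).locallyLipschitz) (h3 a b) (by
          filter_upwards [h1] with s hs _
          exact hasDerivAt_ver hs)
      refine e1.trans (intervalIntegral.integral_mono_on hab (h3 a b).abs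
        ((h2 a b).abs.add (h3 a b).abs) fun s _ => ?_)
      linarith [abs_nonneg (gx u ⟨y, s⟩)] }

/-! ### the class `PL` -/

section PL

variable {E G : Set ℂ} {u v : ℂ → ℝ}

lemma PL.mono {G' : Set ℂ} (h : PL E G u) (hG : G ⊆ G') : PL E G' u :=
  ⟨h.toQ, h.dom.imp fun _ hm => hm.mono hG⟩

lemma PL.of_locLip (hu : LocallyLipschitz u) (hb : ∃ M, ∀ z, |u z| ≤ M)
    (he : Integrable (en u)) : PL E G u :=
  ⟨⟨hb, hu.locallyLipschitzOn, he.integrableOn⟩,
    ⟨_, (Dom.of_locLip hu he).mono (empty_subset _)⟩⟩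

lemma PL.lc (h : LC E u) : PL E G u := PL.of_locLip h.lip h.bdd h.fin

lemma PL.const (c : ℝ) : PL E G (fun _ => c) := PL.lc (LC.const E c)

lemma PL.add (hE : IsClosed E) (hu : PL E G u) (hv : PL E G v) :
    PL E G (fun z => u z + v z) := by
  obtain ⟨m, hm⟩ := hu.dom
  obtain ⟨n, hn⟩ := hv.dom
  exact ⟨hu.toQ.add hE hv.toQ, ⟨_, hm.add hn⟩⟩

lemma exists_bound2 (hu : ∃ M, ∀ z, |u z| ≤ M) (hv : ∃ M, ∀ z, |v z| ≤ M) :
    ∃ M, (∀ z, |u z| ≤ M) ∧ ∀ z, |v z| ≤ M := by
  obtain ⟨M, hM⟩ := hu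
  obtain ⟨N, hN⟩ := hv
  exact ⟨max M N, fun z => (hM z).trans (le_max_left _ _),
    fun z => (hN z).trans (le_max_right _ _)⟩

lemma PL.mul (hE : IsClosed E) (hu : PL E G u) (hv : PL E G v) :
    PL E G (fun z => u z * v z) := by
  obtain ⟨m, hm⟩ := hu.dom
  obtain ⟨n, hn⟩ := hv.dom
  obtain ⟨M, h1, h2⟩ := exists_bound2 hu.bdd hv.bdd
  exact ⟨hu.toQ.mul hE hv.toQ, ⟨_, hm.mul hn h1 h2⟩⟩

lemma PL.comp (hE : IsClosed E) (hu : PL E G u) {h : ℝ → ℝ} {K : ℝ≥0}
    (hh : LipschitzWith K h) : PL E G (fun z => h (u z)) := by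
  obtain ⟨m, hm⟩ := hu.dom
  exact ⟨hu.toQ.comp hE hh, ⟨_, hm.comp hh⟩⟩

/-- everything generated by planar functions is planar -/
lemma PL.gen (hE : IsClosed E) {ι : Type*} {b : ι → ℂ → ℝ} (hb : ∀ i, PL E G (b i))
    (hu : Gen E b u) : PL E G u := by
  induction hu with
  | const c => exact PL.const c
  | lc h => exact PL.lc h
  | of i => exact hb i
  | add _ _ h1 h2 => exact h1.add hE h2
  | mul _ _ h1 h2 => exact h1.mul hE h2
  | comp hh _ h1 => exact h1.comp hE hh

/-- cut-off near `G` -/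
lemma PL.cut {κ : ℂ → ℝ} (hE : IsClosed E) (hG : IsClosed G) (hκ : PL E ∅ κ) (hu : PL E G u)
    (h0 : ∀ z ∈ G, ∀ᶠ w in 𝓝 z, κ w = 0) : PL E ∅ (fun z => κ z * u z) := by
  obtain ⟨k, hk⟩ := hκ.dom
  obtain ⟨m, hm⟩ := hu.dom
  obtain ⟨M, h1, h2⟩ := exists_bound2 hκ.bdd hu.bdd
  exact ⟨hκ.toQ.mul hE hu.toQ, ⟨_, Dom.cut hG hk hm h1 h2 h0⟩⟩

lemma Q.ae_diff' (h : Q E u) (hE : IsClosed E) (hE0 : volume E = 0) :
    ∀ᵐ z : ℂ, DifferentiableAt ℝ u z := by
  have h1 := h.ae_diff hE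
  rw [ae_restrict_iff' hE.isOpen_compl.measurableSet] at h1
  have h2 : ∀ᵐ z : ℂ, z ∈ Eᶜ := compl_mem_ae_iff.2 hE0
  filter_upwards [h1, h2] with z h3 h4
  exact h3 h4

lemma restrict_compl (hE0 : volume E = 0) : volume.restrict Eᶜ = volume :=
  Measure.restrict_eq_self_of_ae_mem (compl_mem_ae_iff.2 hE0)

lemma Q.fin' (h : Q E u) (hE0 : volume E = 0) : Integrable (en u) := by
  have := h.fin
  rwa [IntegrableOn, restrict_compl hE0] at this

/-- fundamental theorem of calculus on a.e. horizontal line -/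
theorem PL.ftc_hor (hE : IsClosed E) (hE0 : volume E = 0) (h : PL E G u) :
    ∀ᵐ y : ℝ, ∀ a b : ℝ, a ≤ b → (∀ s ∈ Icc a b, (⟨s, y⟩ : ℂ) ∉ G) →
      u ⟨b, y⟩ - u ⟨a, y⟩ = ∫ s in a..b, gx u ⟨s, y⟩ := by
  obtain ⟨m, hm⟩ := h.dom
  filter_upwards [ae_hor (Q.ae_diff' h.toQ hE hE0), hm.hor, ii_hor hm.meas hm.mem]
    with y h1 h2 h3 a b hab hG
  refine line_ftc (f := fun s => u ⟨s, y⟩) (m := fun s => m ⟨s, y⟩) hab (h3 a b) ?_ ?_
  · intro s t hs hst ht
    exact h2 s t hst fun r hr => hG r ⟨hs.trans hr.1, hr.2.trans ht⟩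
  · filter_upwards [h1] with s hs _
    exact hasDerivAt_hor hs

/-- fundamental theorem of calculus on a.e. vertical line -/
theorem PL.ftc_ver (hE : IsClosed E) (hE0 : volume E = 0) (h : PL E G u) :
    ∀ᵐ x : ℝ, ∀ a b : ℝ, a ≤ b → (∀ s ∈ Icc a b, (⟨x, s⟩ : ℂ) ∉ G) →
      u ⟨x, b⟩ - u ⟨x, a⟩ = ∫ s in a..b, gy u ⟨x, s⟩ := by
  obtain ⟨m, hm⟩ := h.dom
  filter_upwards [ae_ver (Q.ae_diff' h.toQ hE hE0), hm.ver, ii_ver hm.meas hm.mem]
    with x h1 h2 h3 a b hab hG
  refine line_ftc (f := fun s => u ⟨x, s⟩) (m := fun s => m ⟨x, s⟩) hab (h3 a b) ?_ ?_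
  · intro s t hs hst ht
    exact h2 s t hst fun r hr => hG r ⟨hs.trans hr.1, hr.2.trans ht⟩
  · filter_upwards [h1] with s hs _
    exact hasDerivAt_ver hs

end PL

end

end Crest.Agent.R105.Iso_938
end

-- ▼ part R105/Iso3_938
section

/-!
# Row 105, ISO-PP, core (helper938), part 3: planar Stokes

`stokes` : `P`, `T` in `PL E ∅`, `E` closed and null ⟹ `∫ wdg P T = 0` (no condition at infinity).
-/

set_option autoImplicit false

open MeasureTheory Set Filter Topology Metric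
open scoped NNReal ENNReal ContDiff

namespace Crest.Agent.R105.Iso_938

open Crest.Agent.R105.Bd_775
open Crest.Agent.R335 (mo mo_contDiff fderiv_mo fderiv_eta_sub contDiff_eta_sub compact_eta_sub
  integrable_eta_smul tendsto_eLpNorm_mo mo_continuous)
open Crest.Agent.R080 (eta eta_contDiff eta_nonneg eta_compact)

noncomputable section

variable {E : Set ℂ} {P T : ℂ → ℝ}

/-! ### vanishing integrals of derivatives -/

lemma gx_zero_of_notMem {u : ℂ → ℝ} {z : ℂ} (h : z ∉ tsupport u) : gx u z = 0 := by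
  have : u =ᶠ[𝓝 z] fun _ => (0 : ℝ) := by
    rw [notMem_tsupport_iff_eventuallyEq] at h; exact h
  rw [gx_eq_of_eventuallyEq this, gx_const]

lemma gy_zero_of_notMem {u : ℂ → ℝ} {z : ℂ} (h : z ∉ tsupport u) : gy u z = 0 := by
  have : u =ᶠ[𝓝 z] fun _ => (0 : ℝ) := by
    rw [notMem_tsupport_iff_eventuallyEq] at h; exact h
  rw [gy_eq_of_eventuallyEq this, gy_const]

lemma exists_radius {u : ℂ → ℝ} (hc : HasCompactSupport u) :
    ∃ R : ℝ, 0 < R ∧ ∀ z : ℂ, R ≤ |z.re| ∨ R ≤ |z.im| → z ∉ tsupport u := by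
  obtain ⟨R, hR⟩ := hc.isCompact.isBounded.subset_closedBall (0 : ℂ)
  refine ⟨|R| + 1, by positivity, fun z hz h => ?_⟩
  have h1 := hR h
  rw [mem_closedBall, dist_zero_right] at h1
  have h2 := le_abs_self R
  rcases hz with h3 | h3
  · have := Complex.abs_re_le_norm z; linarith
  · have := Complex.abs_im_le_norm z; linarith

theorem int_gx {w : ℂ → ℝ} (hE : IsClosed E) (hE0 : volume E = 0) (hw : PL E ∅ w)
    (hc : HasCompactSupport w) : ∫ z, gx w z = 0 := by
  by_cases hi : Integrable (gx w)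
  swap
  · exact integral_undef hi
  obtain ⟨R, hR, hz⟩ := exists_radius hc
  rw [integral_hor hi]
  refine integral_eq_zero_of_ae ?_
  filter_upwards [hw.ftc_hor hE hE0] with y hy
  have h1 := hy (-R) R (by linarith) (fun _ _ h => h)
  have h2 : w ⟨R, y⟩ = 0 := image_eq_zero_of_notMem_tsupport (hz _ (Or.inl (le_abs_self R)))
  have h3 : w ⟨-R, y⟩ = 0 := by
    refine image_eq_zero_of_notMem_tsupport (hz _ (Or.inl ?_))
    simp only [abs_neg]; exact le_abs_self R
  rw [h2, h3, sub_zero] at h1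
  have h4 : (Function.support fun x : ℝ => gx w ⟨x, y⟩) ⊆ Ioc (-R) R := by
    intro x hx
    by_contra h5
    refine hx (gx_zero_of_notMem (hz _ (Or.inl ?_)))
    rw [mem_Ioc, not_and_or, not_lt, not_le] at h5
    rcases h5 with h5 | h5
    · rw [le_abs]; right; simp only; linarith
    · exact h5.le.trans (le_abs_self _)
  rw [← intervalIntegral.integral_eq_integral_of_support_subset h4]
  exact h1.symm

theorem int_gy {w : ℂ → ℝ} (hE : IsClosed E) (hE0 : volume E = 0) (hw : PL E ∅ w)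
    (hc : HasCompactSupport w) : ∫ z, gy w z = 0 := by
  by_cases hi : Integrable (gy w)
  swap
  · exact integral_undef hi
  obtain ⟨R, hR, hz⟩ := exists_radius hc
  rw [integral_ver hi]
  refine integral_eq_zero_of_ae ?_
  filter_upwards [hw.ftc_ver hE hE0] with y hy
  have h1 := hy (-R) R (by linarith) (fun _ _ h => h)
  have h2 : w ⟨y, R⟩ = 0 := image_eq_zero_of_notMem_tsupport (hz _ (Or.inr (le_abs_self R)))
  have h3 : w ⟨y, -R⟩ = 0 := by
    refine image_eq_zero_of_notMem_tsupport (hz _ (Or.inr ?_))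
    simp only [abs_neg]; exact le_abs_self R
  rw [h2, h3, sub_zero] at h1
  have h4 : (Function.support fun x : ℝ => gy w ⟨y, x⟩) ⊆ Ioc (-R) R := by
    intro x hx
    by_contra h5
    refine hx (gy_zero_of_notMem (hz _ (Or.inr ?_)))
    rw [mem_Ioc, not_and_or, not_lt, not_le] at h5
    rcases h5 with h5 | h5
    · rw [le_abs]; right; simp only; linarith
    · exact h5.le.trans (le_abs_self _)
  rw [← intervalIntegral.integral_eq_integral_of_support_subset h4]
  exact h1.symm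

/-! ### smooth functions -/


lemma PL.of_smooth {u : ℂ → ℝ} {G : Set ℂ} (hu : ContDiff ℝ 1 u) (hc : HasCompactSupport u) :
    PL E G u := by
  obtain ⟨M, hM⟩ := hc.exists_bound_of_continuous hu.continuous
  obtain ⟨K, hK⟩ := lipschitz_of_compact hu.locallyLipschitz hc
  exact PL.of_locLip hu.locallyLipschitz ⟨M, fun z => by simpa using hM z⟩
    (integrable_en_of_lipschitz hK hc)

lemma contDiff_gx {u : ℂ → ℝ} {n : ℕ∞} (hu : ContDiff ℝ (n + 1) u) : ContDiff ℝ n (gx u) :=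
  (hu.fderiv_right le_rfl).clm_apply contDiff_const

lemma contDiff_gy {u : ℂ → ℝ} {n : ℕ∞} (hu : ContDiff ℝ (n + 1) u) : ContDiff ℝ n (gy u) :=
  (hu.fderiv_right le_rfl).clm_apply contDiff_const

lemma gx_gy_comm {u : ℂ → ℝ} (hu : ContDiff ℝ 2 u) (z : ℂ) : gx (gy u) z = gy (gx u) z := by
  have h1 : IsSymmSndFDerivAt ℝ u z :=
    (hu.contDiffAt (x := z)).isSymmSndFDerivAt (by simp)
  have h2 : DifferentiableAt ℝ (fderiv ℝ u) z :=
    ((hu.fderiv_right (m := 1) (by norm_num)).differentiable (by norm_num)) z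
  have e1 : gx (gy u) z = fderiv ℝ (fderiv ℝ u) z 1 Complex.I := by
    unfold gx gy
    rw [show (fun w => (fderiv ℝ u w) Complex.I) = fun w => (fderiv ℝ u w) Complex.I from rfl]
    have := h2.hasFDerivAt.clm_apply (hasFDerivAt_const Complex.I z)
    rw [this.fderiv]; simp
  have e2 : gy (gx u) z = fderiv ℝ (fderiv ℝ u) z Complex.I 1 := by
    unfold gx gy
    have := h2.hasFDerivAt.clm_apply (hasFDerivAt_const (1 : ℂ) z)
    rw [this.fderiv]; simp
  rw [e1, e2]
  exact h1 1 Complex.I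

/-! ### mollification -/

lemma PL.aesm (hE : IsClosed E) (hE0 : volume E = 0) (h : Q E P) :
    AEStronglyMeasurable P volume := by
  have h1 : AEStronglyMeasurable P (volume.restrict Eᶜ) :=
    h.loc.continuousOn.aestronglyMeasurable hE.isOpen_compl.measurableSet
  rwa [restrict_compl hE0] at h1

lemma PL.locInt (hE : IsClosed E) (hE0 : volume E = 0) (h : Q E P) :
    LocallyIntegrable P volume := by
  obtain ⟨M, hM⟩ := h.bdd
  have : MemLp P ⊤ volume := memLp_top_of_bound (PL.aesm hE hE0 h) M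
    (Eventually.of_forall fun z => by simpa using hM z)
  exact this.locallyIntegrable le_top

theorem gx_mo (hE : IsClosed E) (hE0 : volume E = 0) (hQ : PL E ∅ T) {ε : ℝ} (hε : 0 < ε)
    (x : ℂ) : gx (mo ε T) x = mo ε (gx T) x := by
  have hl := PL.locInt hE hE0 hQ.toQ
  have hgl : LocallyIntegrable (gx T) volume :=
    (memLp_gx (Q.fin' hQ.toQ hE0)).locallyIntegrable (by norm_num)
  have hs : ContDiff ℝ 1 (fun y : ℂ => eta ε (x - y)) :=
    (contDiff_eta_sub ε x).of_le (by norm_cast)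
  have hw : PL E ∅ (fun y => eta ε (x - y) * T y) :=
    (PL.of_smooth hs (compact_eta_sub hε x)).mul hE hQ
  have hwc : HasCompactSupport (fun y => eta ε (x - y) * T y) := (compact_eta_sub hε x).mul_right
  have h0 := int_gx hE hE0 hw hwc
  have h1 : (fun y => gx (fun y => eta ε (x - y) * T y) y) =ᵐ[volume]
      fun y => eta ε (x - y) * gx T y - fderiv ℝ (eta ε : ℂ → ℝ) (x - y) 1 * T y := by
    filter_upwards [Q.ae_diff' hQ.toQ hE hE0] with y hy
    rw [gx_mul ((hs.differentiable one_ne_zero) y) hy]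
    have : gx (fun y : ℂ => eta ε (x - y)) y = - fderiv ℝ (eta ε : ℂ → ℝ) (x - y) 1 :=
      fderiv_eta_sub ε x y 1
    rw [this]; ring
  rw [integral_congr_ae h1] at h0
  have i1 : Integrable (fun y => eta ε (x - y) * gx T y) := integrable_eta_smul hε hgl x
  have i2 : Integrable (fun y => fderiv ℝ (eta ε : ℂ → ℝ) (x - y) 1 * T y) := by
    have hc : HasCompactSupport (fun y : ℂ => fderiv ℝ (eta ε : ℂ → ℝ) (x - y) 1) :=
      (((eta_compact (E := ℂ) hε).fderiv ℝ).comp_homeomorph (Homeomorph.subLeft x)).comp_left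
        (g := fun L : ℂ →L[ℝ] ℝ => L 1) (by simp)
    have hcont : Continuous (fun y : ℂ => fderiv ℝ (eta ε : ℂ → ℝ) (x - y) 1) :=
      ((((eta_contDiff (E := ℂ) ε).of_le (m := 1) (by norm_cast)).continuous_fderiv
        one_ne_zero).comp (continuous_const.sub continuous_id)).clm_apply continuous_const
    exact hl.integrable_smul_left_of_hasCompactSupport hcont hc
  rw [integral_sub i1 i2] at h0
  have h2 : gx (mo ε T) x = ∫ y, fderiv ℝ (eta ε : ℂ → ℝ) (x - y) 1 * T y :=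
    fderiv_mo hε hl x 1
  rw [h2]
  have h3 : mo ε (gx T) x = ∫ y, eta ε (x - y) * gx T y := rfl
  rw [h3]; linarith

theorem gy_mo (hE : IsClosed E) (hE0 : volume E = 0) (hQ : PL E ∅ T) {ε : ℝ} (hε : 0 < ε)
    (x : ℂ) : gy (mo ε T) x = mo ε (gy T) x := by
  have hl := PL.locInt hE hE0 hQ.toQ
  have hgl : LocallyIntegrable (gy T) volume :=
    (memLp_gy (Q.fin' hQ.toQ hE0)).locallyIntegrable (by norm_num)
  have hs : ContDiff ℝ 1 (fun y : ℂ => eta ε (x - y)) :=
    (contDiff_eta_sub ε x).of_le (by norm_cast)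
  have hw : PL E ∅ (fun y => eta ε (x - y) * T y) :=
    (PL.of_smooth hs (compact_eta_sub hε x)).mul hE hQ
  have hwc : HasCompactSupport (fun y => eta ε (x - y) * T y) := (compact_eta_sub hε x).mul_right
  have h0 := int_gy hE hE0 hw hwc
  have h1 : (fun y => gy (fun y => eta ε (x - y) * T y) y) =ᵐ[volume]
      fun y => eta ε (x - y) * gy T y - fderiv ℝ (eta ε : ℂ → ℝ) (x - y) Complex.I * T y := by
    filter_upwards [Q.ae_diff' hQ.toQ hE hE0] with y hy
    rw [gy_mul ((hs.differentiable one_ne_zero) y) hy]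
    have : gy (fun y : ℂ => eta ε (x - y)) y
        = - fderiv ℝ (eta ε : ℂ → ℝ) (x - y) Complex.I :=
      fderiv_eta_sub ε x y Complex.I
    rw [this]; ring
  rw [integral_congr_ae h1] at h0
  have i1 : Integrable (fun y => eta ε (x - y) * gy T y) := integrable_eta_smul hε hgl x
  have i2 : Integrable (fun y => fderiv ℝ (eta ε : ℂ → ℝ) (x - y) Complex.I * T y) := by
    have hc : HasCompactSupport (fun y : ℂ => fderiv ℝ (eta ε : ℂ → ℝ) (x - y) Complex.I) :=
      (((eta_compact (E := ℂ) hε).fderiv ℝ).comp_homeomorph (Homeomorph.subLeft x)).comp_left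
        (g := fun L : ℂ →L[ℝ] ℝ => L Complex.I) (by simp)
    have hcont : Continuous (fun y : ℂ => fderiv ℝ (eta ε : ℂ → ℝ) (x - y) Complex.I) :=
      ((((eta_contDiff (E := ℂ) ε).of_le (m := 1) (by norm_cast)).continuous_fderiv
        one_ne_zero).comp (continuous_const.sub continuous_id)).clm_apply continuous_const
    exact hl.integrable_smul_left_of_hasCompactSupport hcont hc
  rw [integral_sub i1 i2] at h0
  have h2 : gy (mo ε T) x = ∫ y, fderiv ℝ (eta ε : ℂ → ℝ) (x - y) Complex.I * T y :=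
    fderiv_mo hε hl x Complex.I
  rw [h2]
  have h3 : mo ε (gy T) x = ∫ y, eta ε (x - y) * gy T y := rfl
  rw [h3]; linarith

/-! ### Stokes, one function with compact support -/

lemma integrable_of_cpt {g : ℂ → ℝ} (hg : MemLp g 2) {K : Set ℂ} (hK : IsCompact K)
    (h : ∀ z, z ∉ K → g z = 0) : Integrable g := by
  have h1 : IntegrableOn g K := (hg.locallyIntegrable (by norm_num)).integrableOn_isCompact hK
  rwa [integrableOn_iff_integrable_of_support_subset] at h1
  intro z hz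
  by_contra h2
  exact hz (h z h2)

/-- one smooth function -/
theorem stokes_smooth (hE : IsClosed E) (hE0 : volume E = 0) (hP : PL E ∅ P)
    (hc : HasCompactSupport P) {S : ℂ → ℝ} (hS : ContDiff ℝ ∞ S) : ∫ z, wdg P S z = 0 := by
  obtain ⟨R, hR⟩ := hc.isCompact.isBounded.subset_ball (0 : ℂ)
  let f : ContDiffBump (0 : ℂ) := ⟨|R| + 1, |R| + 2, by positivity, by linarith⟩
  have hf1 : ∀ z ∈ tsupport P, (f : ℂ → ℝ) =ᶠ[𝓝 z] fun _ => 1 := by
    intro z hz
    have h1 := hR hz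
    rw [mem_ball, dist_zero_right] at h1
    refine Eventually.mono ((isOpen_ball (x := (0 : ℂ)) (ε := |R| + 1)).mem_nhds ?_) fun w hw => ?_
    · rw [mem_ball, dist_zero_right]
      have := le_abs_self R; linarith
    · exact f.one_of_mem_closedBall (ball_subset_closedBall hw)
  have hfs : ContDiff ℝ 1 (f : ℂ → ℝ) := f.contDiff.of_le (by norm_cast)
  have hS2 : ContDiff ℝ 2 S := hS.of_le (by norm_cast)
  have hgx : ContDiff ℝ 1 (gx S) := contDiff_gx (n := 1) (by exact_mod_cast hS2)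
  have hgy : ContDiff ℝ 1 (gy S) := contDiff_gy (n := 1) (by exact_mod_cast hS2)
  have pa : PL E ∅ (fun z => P z * (f z * gy S z)) :=
    hP.mul hE (PL.of_smooth (hfs.mul hgy) f.hasCompactSupport.mul_right)
  have pb : PL E ∅ (fun z => P z * (f z * gx S z)) :=
    hP.mul hE (PL.of_smooth (hfs.mul hgx) f.hasCompactSupport.mul_right)
  have ca : HasCompactSupport (fun z => P z * (f z * gy S z)) := hc.mul_right
  have cb : HasCompactSupport (fun z => P z * (f z * gx S z)) := hc.mul_right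
  have ia := int_gx hE hE0 pa ca
  have ib := int_gy hE hE0 pb cb
  have ja : Integrable (gx fun z => P z * (f z * gy S z)) :=
    integrable_of_cpt (memLp_gx (Q.fin' pa.toQ hE0)) ca.isCompact fun z hz => gx_zero_of_notMem hz
  have jb : Integrable (gy fun z => P z * (f z * gx S z)) :=
    integrable_of_cpt (memLp_gy (Q.fin' pb.toQ hE0)) cb.isCompact fun z hz => gy_zero_of_notMem hz
  have : ∫ z, wdg P S z
      = ∫ z, ((gx fun z => P z * (f z * gy S z)) z - (gy fun z => P z * (f z * gx S z)) z) := by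
    refine integral_congr_ae ?_
    filter_upwards [Q.ae_diff' hP.toQ hE hE0] with z hz
    have d1 : DifferentiableAt ℝ (fun z => f z * gy S z) z :=
      ((hfs.mul hgy).differentiable one_ne_zero) z
    have d2 : DifferentiableAt ℝ (fun z => f z * gx S z) z :=
      ((hfs.mul hgx).differentiable one_ne_zero) z
    rw [gx_mul hz d1, gy_mul hz d2]
    by_cases hzs : z ∈ tsupport P
    · have e1 : (fun z => f z * gy S z) =ᶠ[𝓝 z] gy S := by
        filter_upwards [hf1 z hzs] with w hw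
        rw [hw, one_mul]
      have e2 : (fun z => f z * gx S z) =ᶠ[𝓝 z] gx S := by
        filter_upwards [hf1 z hzs] with w hw
        rw [hw, one_mul]
      rw [gx_eq_of_eventuallyEq e1, gy_eq_of_eventuallyEq e2, gx_gy_comm hS2,
        (hf1 z hzs).eq_of_nhds]
      unfold wdg; ring
    · unfold wdg
      rw [gx_zero_of_notMem hzs, gy_zero_of_notMem hzs, image_eq_zero_of_notMem_tsupport hzs]
      ring
  rw [this, integral_sub ja jb, ia, ib, sub_zero]

lemma imul {f g : ℂ → ℝ} (hf : MemLp f 2) (hg : MemLp g 2) : Integrable (fun z => f z * g z) :=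
  hf.integrable_mul hg

lemma tendsto_int_mul {f g : ℂ → ℝ} (hf : MemLp f 2) (hg : MemLp g 2) {k : ℕ → ℂ → ℝ}
    (hk : ∀ n, MemLp (k n) 2)
    (h : Tendsto (fun n => eLpNorm (fun x => k n x - g x) 2 volume) atTop (𝓝 0)) :
    Tendsto (fun n => ∫ z, f z * k n z) atTop (𝓝 (∫ z, f z * g z)) := by
  refine tendsto_integral_of_L1' _ (imul hf hg).aestronglyMeasurable
    (Eventually.of_forall fun n => imul hf (hk n)) ?_
  have hfin : eLpNorm f 2 volume ≠ ⊤ := hf.eLpNorm_ne_top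
  have h2 : Tendsto (fun n => eLpNorm f 2 volume * eLpNorm (fun x => k n x - g x) 2 volume)
      atTop (𝓝 0) := by
    have := ENNReal.Tendsto.const_mul h (Or.inr hfin)
    rwa [mul_zero] at this
  refine tendsto_of_tendsto_of_tendsto_of_le_of_le tendsto_const_nhds h2
    (fun n => zero_le) fun n => ?_
  have e : (fun z => f z * k n z) - (fun z => f z * g z) = f • (fun x => k n x - g x) := by
    funext z; simp [mul_sub]
  rw [e]
  exact eLpNorm_smul_le_mul_eLpNorm ((hk n).sub hg).aestronglyMeasurable hf.aestronglyMeasurable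

/-- **planar Stokes**, one function with compact support -/
theorem stokes_cpt (hE : IsClosed E) (hE0 : volume E = 0) (hP : PL E ∅ P)
    (hc : HasCompactSupport P) (hQ : PL E ∅ T) : ∫ z, wdg P T z = 0 := by
  set e : ℕ → ℝ := fun n => 1 / ((n : ℝ) + 1) with he
  have hep : ∀ n, 0 < e n := fun n => Nat.one_div_pos_of_nat
  have he0 : Tendsto e atTop (𝓝 0) := tendsto_one_div_add_atTop_nhds_zero_nat
  have mPx := memLp_gx (Q.fin' hP.toQ hE0)
  have mPy := memLp_gy (Q.fin' hP.toQ hE0)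
  have mQx := memLp_gx (Q.fin' hQ.toQ hE0)
  have mQy := memLp_gy (Q.fin' hQ.toQ hE0)
  have mo2 : ∀ {g : ℂ → ℝ}, MemLp g 2 → ∀ n, MemLp (mo (e n) g) 2 := fun {g} hg n =>
    ⟨(mo_continuous (hep n) (hg.locallyIntegrable (by norm_num))).aestronglyMeasurable,
      (Crest.Agent.R335.eLpNorm_mo_le (hep n) hg.aestronglyMeasurable (Or.inr rfl)).trans_lt
        hg.eLpNorm_lt_top⟩
  have t1 := tendsto_int_mul mPx mQy (fun n => mo2 mQy n)
    (tendsto_eLpNorm_mo (Or.inr rfl) mQy hep he0)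
  have t2 := tendsto_int_mul mPy mQx (fun n => mo2 mQx n)
    (tendsto_eLpNorm_mo (Or.inr rfl) mQx hep he0)
  have t3 := t1.sub t2
  have h1 : ∀ n, (∫ z, gx P z * mo (e n) (gy T) z) - (∫ z, gy P z * mo (e n) (gx T) z) = 0 := by
    intro n
    rw [← integral_sub (imul mPx (mo2 mQy n)) (imul mPy (mo2 mQx n))]
    rw [← stokes_smooth hE hE0 hP hc (mo_contDiff (hep n) (PL.locInt hE hE0 hQ.toQ))]
    refine integral_congr_ae (Eventually.of_forall fun z => ?_)
    simp only [wdg, gx_mo hE hE0 hQ (hep n), gy_mo hE hE0 hQ (hep n)]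
  simp only [h1] at t3
  have h2 := tendsto_nhds_unique tendsto_const_nhds t3
  have h3 : ∫ z, wdg P T z = (∫ z, gx P z * gy T z) - ∫ z, gy P z * gx T z := by
    rw [← integral_sub (imul mPx mQy) (imul mPy mQx)]
    rfl
  rw [h3, ← h2]

end

end Crest.Agent.R105.Iso_938
end

-- ▼ part R105/Iso4_938
section

/-!
# Row 105, ISO-PP, core (helper938), part 4: cut-offs near infinity and Stokes without support

`exists_logcut` : smooth compactly supported cut-offs `= 1` on a large ball with small energy;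
`stokes` : `P`, `T` in `PL E ∅`, `E` closed and null ⟹ `∫ wdg P T = 0`.
-/

set_option autoImplicit false

open MeasureTheory Set Filter Topology Metric
open scoped NNReal ENNReal ContDiff

namespace Crest.Agent.R105.Iso_938

open Crest.Agent.R105.Bd_775

noncomputable section

/-! ### logarithmic cut-offs by averaging -/

/-- smooth bump, `1` on the unit ball, `0` off the ball of radius `2` -/
def bmp : ContDiffBump (0 : ℂ) := ⟨1, 2, one_pos, one_lt_two⟩

lemma bmp_fderiv_zero {z : ℂ} (h : ‖z‖ ≤ 1 ∨ 2 ≤ ‖z‖) : fderiv ℝ (bmp : ℂ → ℝ) z = 0 := by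
  rcases h with h | h
  · have h1 : (bmp : ℂ → ℝ) z = 1 :=
      bmp.one_of_mem_closedBall (by rw [mem_closedBall, dist_zero_right]; exact h)
    have : IsLocalMax (bmp : ℂ → ℝ) z := Eventually.of_forall fun w => by
      rw [h1]; exact bmp.le_one
    exact this.fderiv_eq_zero
  · have h1 : (bmp : ℂ → ℝ) z = 0 :=
      bmp.zero_of_le_dist (by rw [dist_zero_right]; exact h)
    have : IsLocalMin (bmp : ℂ → ℝ) z := Eventually.of_forall fun w => by
      rw [h1]; exact bmp.nonneg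
    exact this.fderiv_eq_zero

/-- dilated bump -/
def bk (k : ℕ) (z : ℂ) : ℝ := bmp (((2 : ℝ) ^ k)⁻¹ • z)

lemma bk_contDiff (k : ℕ) : ContDiff ℝ ∞ (bk k) :=
  bmp.contDiff.comp (contDiff_const_smul _)

lemma norm_dil (k : ℕ) (z : ℂ) : ‖((2 : ℝ) ^ k)⁻¹ • z‖ = ‖z‖ / 2 ^ k := by
  rw [norm_smul, norm_inv, norm_pow, Real.norm_ofNat, div_eq_inv_mul]

lemma bk_fderiv (k : ℕ) (z : ℂ) :
    fderiv ℝ (bk k) z = ((2 : ℝ) ^ k)⁻¹ • fderiv ℝ (bmp : ℂ → ℝ) (((2 : ℝ) ^ k)⁻¹ • z) := by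
  unfold bk
  exact fderiv_comp_smul _

lemma bk_fderiv_zero {k : ℕ} {z : ℂ} (h : ‖z‖ ≤ 2 ^ k ∨ 2 ^ (k + 1) ≤ ‖z‖) :
    fderiv ℝ (bk k) z = 0 := by
  rw [bk_fderiv, bmp_fderiv_zero, smul_zero]
  rw [norm_dil]
  have h2 : (0 : ℝ) < 2 ^ k := by positivity
  rcases h with h | h
  · left; rwa [div_le_one h2]
  · right; rw [le_div_iff₀ h2, ← pow_succ']; exact h

lemma en_bk (k : ℕ) (z : ℂ) :
    en (bk k) z = (((2 : ℝ) ^ k)⁻¹) ^ 2 * en bmp (((2 : ℝ) ^ k)⁻¹ • z) := by
  rw [en_eq, en_eq, bk_fderiv, norm_smul, mul_pow, Real.norm_eq_abs, sq_abs]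

lemma integrable_en_bmp : Integrable (en bmp) := by
  have h1 : ContDiff ℝ 1 (bmp : ℂ → ℝ) := bmp.contDiff.of_le (by norm_cast)
  obtain ⟨K, hK⟩ := lipschitz_of_compact h1.locallyLipschitz bmp.hasCompactSupport
  exact integrable_en_of_lipschitz hK bmp.hasCompactSupport

lemma integral_en_bk (k : ℕ) : ∫ z, en (bk k) z = ∫ z, en bmp z := by
  simp only [en_bk]
  rw [integral_const_mul, Measure.integral_comp_smul volume (fun z => en bmp z)]
  rw [Complex.finrank_real_complex, smul_eq_mul, ← mul_assoc]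
  have h2 : (0 : ℝ) < 2 ^ k := by positivity
  have : ((2 : ℝ) ^ k)⁻¹ ^ 2 * |((((2 : ℝ) ^ k)⁻¹) ^ 2)⁻¹| = 1 := by
    rw [abs_of_pos (by positivity)]
    field_simp
  rw [this, one_mul]

lemma integrable_en_bk (k : ℕ) : Integrable (en (bk k)) := by
  have h2 : ((2 : ℝ) ^ k)⁻¹ ≠ 0 := by positivity
  have h1 : Integrable (fun z => en bmp (((2 : ℝ) ^ k)⁻¹ • z)) :=
    (integrable_comp_smul_iff volume (en bmp) h2).2 integrable_en_bmp
  have : en (bk k) = fun z => (((2 : ℝ) ^ k)⁻¹) ^ 2 * en bmp (((2 : ℝ) ^ k)⁻¹ • z) :=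
    funext (en_bk k)
  rw [this]
  exact h1.const_mul _

/-- at most one of the dilated bumps has a gradient at `z` -/
lemma bk_single (z : ℂ) : ∃ k₀ : ℕ, ∀ k, k ≠ k₀ → fderiv ℝ (bk k) z = 0 := by
  by_cases h : ∃ k : ℕ, 2 ^ k < ‖z‖ ∧ ‖z‖ < 2 ^ (k + 1)
  · obtain ⟨k₀, h1, h2⟩ := h
    refine ⟨k₀, fun k hk => bk_fderiv_zero ?_⟩
    rcases lt_or_gt_of_ne hk with h3 | h3
    · right
      have : (2 : ℝ) ^ (k + 1) ≤ 2 ^ k₀ := pow_le_pow_right₀ (by norm_num) h3
      linarith
    · left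
      have : (2 : ℝ) ^ (k₀ + 1) ≤ 2 ^ k := pow_le_pow_right₀ (by norm_num) h3
      linarith
  · push Not at h
    refine ⟨0, fun k _ => bk_fderiv_zero ?_⟩
    by_cases h1 : ‖z‖ ≤ 2 ^ k
    · exact Or.inl h1
    · exact Or.inr (h k (not_le.1 h1))

/-- the average of `N` dilated bumps -/
def lg (a N : ℕ) (z : ℂ) : ℝ := (N : ℝ)⁻¹ * ∑ k ∈ Finset.range N, bk (a + k) z

lemma lg_contDiff (a N : ℕ) : ContDiff ℝ ∞ (lg a N) :=
  contDiff_const.mul (ContDiff.sum fun _ _ => bk_contDiff _)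

lemma en_lg (a N : ℕ) (z : ℂ) :
    en (lg a N) z ≤ ((N : ℝ)⁻¹) ^ 2 * ∑ k ∈ Finset.range N, en (bk (a + k)) z := by
  have hd : ∀ k, DifferentiableAt ℝ (bk k) z := fun k =>
    ((bk_contDiff k).differentiable (by simp)) z
  have e1 : fderiv ℝ (lg a N) z = (N : ℝ)⁻¹ • ∑ k ∈ Finset.range N, fderiv ℝ (bk (a + k)) z := by
    unfold lg
    rw [fderiv_const_mul (DifferentiableAt.fun_sum fun k _ => hd _),
      fderiv_fun_sum fun k _ => hd _]
  rw [en_eq, e1, norm_smul, mul_pow, Real.norm_eq_abs, sq_abs]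
  refine mul_le_mul_of_nonneg_left ?_ (sq_nonneg _)
  obtain ⟨k₀, hk⟩ := bk_single z
  by_cases h0 : ∃ k ∈ Finset.range N, a + k = k₀
  · obtain ⟨k, hkN, hk0⟩ := h0
    rw [Finset.sum_eq_single k (fun j _ hj => hk _ (by omega)) (fun h => absurd hkN h)]
    rw [← en_eq]
    exact Finset.single_le_sum (f := fun k => en (bk (a + k)) z)
      (fun j _ => en_nonneg _ _) hkN
  · push Not at h0
    rw [Finset.sum_eq_zero fun j hj => hk _ (h0 j hj)]
    simp only [norm_zero, ne_eq, OfNat.ofNat_ne_zero, not_false_eq_true, zero_pow]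
    exact Finset.sum_nonneg fun j _ => en_nonneg _ _

lemma lg_support (a N : ℕ) : HasCompactSupport (lg a N) := by
  refine HasCompactSupport.of_support_subset_isCompact
    (isCompact_closedBall (0 : ℂ) (2 ^ (a + N + 1))) fun z hz => ?_
  by_contra h
  rw [mem_closedBall, dist_zero_right, not_le] at h
  refine hz ?_
  unfold lg
  rw [Finset.sum_eq_zero, mul_zero]
  intro k hk
  refine bmp.zero_of_le_dist ?_
  rw [dist_zero_right, norm_dil]
  change (2 : ℝ) ≤ _
  rw [le_div_iff₀ (by positivity), ← pow_succ']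
  have : (2 : ℝ) ^ (a + k + 1) ≤ 2 ^ (a + N + 1) :=
    pow_le_pow_right₀ (by norm_num) (by have := Finset.mem_range.1 hk; omega)
  linarith

lemma lg_mem (a N : ℕ) (z : ℂ) : lg a N z ∈ Icc (0 : ℝ) 1 := by
  unfold lg
  constructor
  · exact mul_nonneg (by positivity) (Finset.sum_nonneg fun k _ => bmp.nonneg)
  · have h1 : ∑ k ∈ Finset.range N, bk (a + k) z ≤ ∑ k ∈ Finset.range N, (1 : ℝ) :=
      Finset.sum_le_sum fun k _ => bmp.le_one
    rw [Finset.sum_const, Finset.card_range, nsmul_eq_mul, mul_one] at h1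
    rcases Nat.eq_zero_or_pos N with h | h
    · subst h; simp
    · have h2 : (0 : ℝ) < N := by exact_mod_cast h
      rw [inv_mul_le_iff₀ h2, mul_one]; exact h1

lemma lg_one {a N : ℕ} (hN : 0 < N) {z : ℂ} (hz : ‖z‖ ≤ 2 ^ a) : lg a N z = 1 := by
  unfold lg
  have h1 : ∑ k ∈ Finset.range N, bk (a + k) z = ∑ k ∈ Finset.range N, (1 : ℝ) := by
    refine Finset.sum_congr rfl fun k _ => bmp.one_of_mem_closedBall ?_
    rw [mem_closedBall, dist_zero_right, norm_dil]
    change _ ≤ (1 : ℝ)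
    rw [div_le_one (by positivity)]
    exact hz.trans (pow_le_pow_right₀ (by norm_num) (Nat.le_add_right _ _))
  rw [h1, Finset.sum_const, Finset.card_range, nsmul_eq_mul, mul_one]
  exact inv_mul_cancel₀ (by exact_mod_cast hN.ne')

/-- cut-offs near infinity of small energy -/
theorem exists_logcut (R : ℝ) {δ : ℝ} (hδ : 0 < δ) :
    ∃ χ : ℂ → ℝ, ContDiff ℝ ∞ χ ∧ HasCompactSupport χ ∧ (∀ z, χ z ∈ Icc (0 : ℝ) 1) ∧
      (∀ z, ‖z‖ ≤ R → χ z = 1) ∧ Integrable (en χ) ∧ ∫ z, en χ z ≤ δ := by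
  obtain ⟨a, ha⟩ := pow_unbounded_of_one_lt R (by norm_num : (1 : ℝ) < 2)
  set A := ∫ z, en bmp z with hA
  obtain ⟨N, hN⟩ := exists_nat_gt (A / δ)
  have hA0 : 0 ≤ A := integral_nonneg fun z => en_nonneg _ _
  have hN0 : (0 : ℝ) < N := (div_nonneg hA0 hδ.le).trans_lt hN
  have hNn : 0 < N := by exact_mod_cast hN0
  have hint : Integrable (fun z => ((N : ℝ)⁻¹) ^ 2 * ∑ k ∈ Finset.range N, en (bk (a + k)) z) :=
    (integrable_finsetSum _ fun k _ => integrable_en_bk _).const_mul _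
  have hen : Integrable (en (lg a N)) := by
    refine hint.mono' (measurable_en _).aestronglyMeasurable (Eventually.of_forall fun z => ?_)
    rw [Real.norm_of_nonneg (en_nonneg _ _)]
    exact en_lg a N z
  refine ⟨lg a N, lg_contDiff a N, lg_support a N, lg_mem a N,
    fun z hz => lg_one hNn (hz.trans ha.le), hen, ?_⟩
  refine (integral_mono hen hint (en_lg a N)).trans ?_
  rw [integral_const_mul, integral_finsetSum _ fun k _ => integrable_en_bk _]
  simp only [integral_en_bk, Finset.sum_const, Finset.card_range, nsmul_eq_mul]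
  rw [← hA]
  have h1 : A < N * δ := by rwa [div_lt_iff₀ hδ] at hN
  have h2 : ((N : ℝ)⁻¹) ^ 2 * (N * A) = A / N := by field_simp
  rw [h2, div_le_iff₀ hN0]
  linarith

/-! ### Stokes -/

variable {E : Set ℂ} {P T : ℂ → ℝ}

lemma abs_wdg_le' (u v : ℂ → ℝ) (z : ℂ) {l : ℝ} (hl : 0 < l) :
    |wdg u v z| ≤ (l * en u z + l⁻¹ * en v z) / 2 := by
  have h1 : ∀ a b c d : ℝ, |a * d - b * c| ≤
      (l * (a ^ 2 + b ^ 2) + l⁻¹ * (c ^ 2 + d ^ 2)) / 2 := by
    intro a b c d
    have hl2 : l * l⁻¹ = 1 := mul_inv_cancel₀ hl.ne'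
    have k1 : 0 ≤ l⁻¹ * (l * a - d) ^ 2 := by positivity
    have k2 : 0 ≤ l⁻¹ * (l * b + c) ^ 2 := by positivity
    have k3 : 0 ≤ l⁻¹ * (l * a + d) ^ 2 := by positivity
    have k4 : 0 ≤ l⁻¹ * (l * b - c) ^ 2 := by positivity
    have e1 : l⁻¹ * (l * a - d) ^ 2 = l * a ^ 2 - 2 * (a * d) + l⁻¹ * d ^ 2 := by
      field_simp; ring
    have e2 : l⁻¹ * (l * b + c) ^ 2 = l * b ^ 2 + 2 * (b * c) + l⁻¹ * c ^ 2 := by
      field_simp; ring
    have e3 : l⁻¹ * (l * a + d) ^ 2 = l * a ^ 2 + 2 * (a * d) + l⁻¹ * d ^ 2 := by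
      field_simp; ring
    have e4 : l⁻¹ * (l * b - c) ^ 2 = l * b ^ 2 - 2 * (b * c) + l⁻¹ * c ^ 2 := by
      field_simp; ring
    rw [abs_le]; constructor <;> nlinarith
  unfold wdg en
  have := h1 (gx u z) (gy u z) (gx v z) (gy v z)
  linarith

/-- **planar Stokes** for bounded functions of finite energy -/
theorem stokes (hE : IsClosed E) (hE0 : volume E = 0) (hP : PL E ∅ P) (hT : PL E ∅ T) :
    ∫ z, wdg P T z = 0 := by
  have hex : ∀ n : ℕ, ∃ χ : ℂ → ℝ, ContDiff ℝ ∞ χ ∧ HasCompactSupport χ ∧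
      (∀ z, χ z ∈ Icc (0 : ℝ) 1) ∧ (∀ z, ‖z‖ ≤ n → χ z = 1) ∧ Integrable (en χ) ∧
      ∫ z, en χ z ≤ (1 / ((n : ℝ) + 1)) ^ 2 := fun n =>
    exists_logcut n (by positivity)
  choose χ hχs hχc hχm hχ1 hχi hχe using hex
  obtain ⟨M, hM⟩ := hP.bdd
  have hM0 : 0 ≤ M := (abs_nonneg _).trans (hM 0)
  have ePi := Q.fin' hP.toQ hE0
  have eTi := Q.fin' hT.toQ hE0
  have hwi : Integrable (wdg P T) := by
    refine ((ePi.add eTi).div_const 2).mono' (measurable_wdg _ _).aestronglyMeasurable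
      (Eventually.of_forall fun z => abs_wdg_le P T z)
  -- Stokes with the cut-off
  have h0 : ∀ n, ∫ z, (χ n z * wdg P T z + P z * wdg (χ n) T z) = 0 := by
    intro n
    have hs : ContDiff ℝ 1 (χ n) := (hχs n).of_le (by norm_cast)
    have hc : PL E ∅ (χ n) := PL.of_smooth hs (hχc n)
    rw [← stokes_cpt hE hE0 (hc.mul hE hP) (hχc n).mul_right hT]
    refine integral_congr_ae ?_
    filter_upwards [Q.ae_diff' hP.toQ hE hE0] with z hz
    have d := (hs.differentiable one_ne_zero) z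
    unfold wdg
    rw [gx_mul d hz, gy_mul d hz]
    ring
  have i1 : ∀ n, Integrable (fun z => χ n z * wdg P T z) := by
    intro n
    refine hwi.norm.mono' ((hχs n).continuous.aestronglyMeasurable.mul
      (measurable_wdg _ _).aestronglyMeasurable) (Eventually.of_forall fun z => ?_)
    rw [norm_mul]
    have : ‖χ n z‖ ≤ 1 := by
      rw [Real.norm_of_nonneg (hχm n z).1]; exact (hχm n z).2
    exact mul_le_of_le_one_left (norm_nonneg _) this
  have bd : ∀ (n : ℕ) z, |P z * wdg (χ n) T z|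
      ≤ M * ((((n : ℝ) + 1) * en (χ n) z + ((n : ℝ) + 1)⁻¹ * en T z) / 2) := by
    intro n z
    rw [abs_mul]
    exact mul_le_mul (hM z) (abs_wdg_le' _ _ _ (by positivity)) (abs_nonneg _) hM0
  have ibd : ∀ n : ℕ, Integrable (fun z =>
      M * ((((n : ℝ) + 1) * en (χ n) z + ((n : ℝ) + 1)⁻¹ * en T z) / 2)) := fun n =>
    ((((hχi n).const_mul _).add (eTi.const_mul _)).div_const 2).const_mul M
  have i2 : ∀ n, Integrable (fun z => P z * wdg (χ n) T z) := by
    intro n
    exact (ibd n).mono' ((PL.aesm hE hE0 hP.toQ).mul (measurable_wdg _ _).aestronglyMeasurable)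
      (Eventually.of_forall fun z => bd n z)
  have t1 : Tendsto (fun n => ∫ z, χ n z * wdg P T z) atTop (𝓝 (∫ z, wdg P T z)) := by
    refine tendsto_integral_of_dominated_convergence (fun z => ‖wdg P T z‖)
      (fun n => (i1 n).aestronglyMeasurable) hwi.norm (fun n => Eventually.of_forall fun z => ?_)
      (Eventually.of_forall fun z => ?_)
    · rw [norm_mul]
      have : ‖χ n z‖ ≤ 1 := by
        rw [Real.norm_of_nonneg (hχm n z).1]; exact (hχm n z).2
      exact mul_le_of_le_one_left (norm_nonneg _) this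
    · refine tendsto_const_nhds.congr' ?_
      obtain ⟨k, hk⟩ := exists_nat_ge ‖z‖
      filter_upwards [eventually_ge_atTop k] with n hn
      rw [hχ1 n z (hk.trans (by exact_mod_cast hn)), one_mul]
  have t2 : Tendsto (fun n => ∫ z, P z * wdg (χ n) T z) atTop (𝓝 0) := by
    have hle : ∀ n : ℕ, |∫ z, P z * wdg (χ n) T z|
        ≤ M * ((1 + ∫ z, en T z) / 2) * (1 / ((n : ℝ) + 1)) := by
      intro n
      have hp : (0 : ℝ) < (n : ℝ) + 1 := by positivity
      calc |∫ z, P z * wdg (χ n) T z| ≤ ∫ z, |P z * wdg (χ n) T z| :=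
            abs_integral_le_integral_abs
        _ ≤ ∫ z, M * ((((n : ℝ) + 1) * en (χ n) z + ((n : ℝ) + 1)⁻¹ * en T z) / 2) :=
            integral_mono (i2 n).abs (ibd n) (bd n)
        _ = M * ((((n : ℝ) + 1) * (∫ z, en (χ n) z) + ((n : ℝ) + 1)⁻¹ * ∫ z, en T z) / 2) := by
            rw [integral_const_mul, integral_div, integral_add ((hχi n).const_mul _)
              (eTi.const_mul _), integral_const_mul, integral_const_mul]
        _ ≤ M * ((((n : ℝ) + 1) * (1 / ((n : ℝ) + 1)) ^ 2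
              + ((n : ℝ) + 1)⁻¹ * ∫ z, en T z) / 2) := by
            have := hχe n
            gcongr
        _ = M * ((1 + ∫ z, en T z) / 2) * (1 / ((n : ℝ) + 1)) := by
            field_simp
    have h3 : Tendsto (fun n : ℕ => M * ((1 + ∫ z, en T z) / 2) * (1 / ((n : ℝ) + 1))) atTop
        (𝓝 0) := by
      have := (tendsto_one_div_add_atTop_nhds_zero_nat (𝕜 := ℝ)).const_mul
        (M * ((1 + ∫ z, en T z) / 2))
      rwa [mul_zero] at this
    exact squeeze_zero_norm (fun n => by rw [Real.norm_eq_abs]; exact hle n) h3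
  have t3 := t1.add t2
  have h1 : ∀ n, (∫ z, χ n z * wdg P T z) + ∫ z, P z * wdg (χ n) T z = 0 := by
    intro n
    rw [← integral_add (i1 n) (i2 n)]
    exact h0 n
  simp only [h1, add_zero] at t3
  exact (tendsto_nhds_unique tendsto_const_nhds t3).symm

end

end Crest.Agent.R105.Iso_938
end

-- ▼ part R105/Iso5_938
section

/-!
# Row 105, ISO-PP, core (helper938), part 5: isotropy when only one function varies near `G`

`NF G ψ a` : near every point of `G`, `a` is a bounded Lipschitz function of `ψ`, the function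
depending only on a locally constant label.
`iso_core` : `E` closed null, `G ⊆ E` compact, `ψ` planar off `G`, all the other generators planar
and locally constant near `G` ⟹ the family is isotropic (`Iso` of helper775).
-/

set_option autoImplicit false

open MeasureTheory Set Filter Topology Metric
open scoped NNReal ENNReal ContDiff

namespace Crest.Agent.R105.Iso_938

open Crest.Agent.R105.Bd_775

noncomputable section

/-! ### one variable: bounded Lipschitz functions -/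

/-- bounded Lipschitz function of one variable -/
def BL (h : ℝ → ℝ) : Prop := (∃ K : ℝ≥0, LipschitzWith K h) ∧ ∃ M : ℝ, ∀ s, |h s| ≤ M

lemma BL.const (c : ℝ) : BL fun _ => c := ⟨⟨0, LipschitzWith.const c⟩, ⟨|c|, fun _ => le_rfl⟩⟩

lemma BL.add {f g : ℝ → ℝ} (hf : BL f) (hg : BL g) : BL fun s => f s + g s := by
  obtain ⟨⟨K, hK⟩, M, hM⟩ := hf
  obtain ⟨⟨L, hL⟩, N, hN⟩ := hg
  exact ⟨⟨K + L, hK.add hL⟩, ⟨M + N, fun s => (abs_add_le _ _).trans (add_le_add (hM s) (hN s))⟩⟩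

lemma BL.mul {f g : ℝ → ℝ} (hf : BL f) (hg : BL g) : BL fun s => f s * g s := by
  obtain ⟨⟨K, hK⟩, M, hM⟩ := hf
  obtain ⟨⟨L, hL⟩, N, hN⟩ := hg
  have hM0 : 0 ≤ M := (abs_nonneg _).trans (hM 0)
  have hN0 : 0 ≤ N := (abs_nonneg _).trans (hN 0)
  refine ⟨⟨M.toNNReal * L + N.toNNReal * K, LipschitzWith.of_dist_le_mul fun x y => ?_⟩,
    ⟨M * N, fun s => ?_⟩⟩
  · rw [Real.dist_eq]
    have e1 := hK.dist_le_mul x y
    have e2 := hL.dist_le_mul x y
    rw [Real.dist_eq] at e1 e2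
    have : f x * g x - f y * g y = f x * (g x - g y) + g y * (f x - f y) := by ring
    rw [this]
    refine (abs_add_le _ _).trans ?_
    rw [abs_mul, abs_mul]
    have e3 : |f x| * |g x - g y| ≤ M * (L * dist x y) := mul_le_mul (hM x) e2 (abs_nonneg _) hM0
    have e4 : |g y| * |f x - f y| ≤ N * (K * dist x y) := mul_le_mul (hN y) e1 (abs_nonneg _) hN0
    push_cast
    rw [Real.coe_toNNReal M hM0, Real.coe_toNNReal N hN0]
    nlinarith
  · rw [abs_mul]; exact mul_le_mul (hM s) (hN s) (abs_nonneg _) hM0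

lemma BL.comp {f h : ℝ → ℝ} {K : ℝ≥0} (hf : BL f) (hh : LipschitzWith K h) :
    BL fun s => h (f s) := by
  obtain ⟨⟨L, hL⟩, M, hM⟩ := hf
  refine ⟨⟨K * L, hh.comp hL⟩, ⟨|h 0| + K * M, fun s => ?_⟩⟩
  have := hh.dist_le_mul (f s) 0
  rw [Real.dist_eq, Real.dist_eq, sub_zero] at this
  have h2 : |h (f s)| ≤ |h 0| + |h (f s) - h 0| := by
    have := abs_add_le (h 0) (h (f s) - h 0)
    rwa [add_sub_cancel] at this
  have h3 : (K : ℝ) * |f s| ≤ K * M := mul_le_mul_of_nonneg_left (hM s) K.2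
  linarith

lemma BL.clamp (M : ℝ) : BL fun s => max (-M) (min M s) := by
  refine ⟨⟨1, ?_⟩, ⟨|M|, fun s => ?_⟩⟩
  · have h1 : LipschitzWith 1 fun s : ℝ => min M s := LipschitzWith.id.const_min M
    exact h1.const_max (-M)
  · rw [abs_le]
    constructor
    · refine (neg_le_neg (le_abs_self M)).trans (le_max_left _ _)
    · refine max_le ?_ ((min_le_left _ _).trans (le_abs_self M))
      exact neg_le_abs M

/-! ### one function -/

lemma clm_mk (L : ℂ →L[ℝ] ℝ) (x y : ℝ) : L ⟨x, y⟩ = x * L 1 + y * L Complex.I := by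
  have : (⟨x, y⟩ : ℂ) = x • (1 : ℂ) + y • Complex.I := by
    apply Complex.ext <;> simp
  rw [this, map_add, map_smul, map_smul, smul_eq_mul, smul_eq_mul]

/-- Lipschitz functions of the same function have parallel gradients -/
theorem wdg_one {ψ : ℂ → ℝ} {f g : ℝ → ℝ} {K L : ℝ≥0} (hf : LipschitzWith K f)
    (hg : LipschitzWith L g) {z : ℂ} (hψ : DifferentiableAt ℝ ψ z) :
    wdg (fun w => f (ψ w)) (fun w => g (ψ w)) z = 0 := by
  have k1 := norm_fderiv_comp_le hf hψ ⟨-gy ψ z, gx ψ z⟩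
  have k2 := norm_fderiv_comp_le hg hψ ⟨-gy ψ z, gx ψ z⟩
  rw [clm_mk (fderiv ℝ (fun w => f (ψ w)) z) (-gy ψ z) (gx ψ z),
    clm_mk (fderiv ℝ ψ z) (-gy ψ z) (gx ψ z)] at k1
  rw [clm_mk (fderiv ℝ (fun w => g (ψ w)) z) (-gy ψ z) (gx ψ z),
    clm_mk (fderiv ℝ ψ z) (-gy ψ z) (gx ψ z)] at k2
  have e0 : -gy ψ z * fderiv ℝ ψ z 1 + gx ψ z * fderiv ℝ ψ z Complex.I = 0 := by
    change -gy ψ z * gx ψ z + gx ψ z * gy ψ z = 0
    ring
  rw [e0, abs_zero, mul_zero] at k1 k2
  have k1' : -gy ψ z * gx (fun w => f (ψ w)) z + gx ψ z * gy (fun w => f (ψ w)) z = 0 :=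
    abs_eq_zero.1 (le_antisymm k1 (abs_nonneg _))
  have k2' : -gy ψ z * gx (fun w => g (ψ w)) z + gx ψ z * gy (fun w => g (ψ w)) z = 0 :=
    abs_eq_zero.1 (le_antisymm k2 (abs_nonneg _))
  have l1 : |gx (fun w => f (ψ w)) z| ≤ K * |gx ψ z| := norm_fderiv_comp_le hf hψ 1
  have l2 : |gy (fun w => f (ψ w)) z| ≤ K * |gy ψ z| := norm_fderiv_comp_le hf hψ Complex.I
  unfold wdg
  set p := gx ψ z
  set q := gy ψ z
  set a := gx (fun w => f (ψ w)) z
  set b := gy (fun w => f (ψ w)) z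
  set c := gx (fun w => g (ψ w)) z
  set d := gy (fun w => g (ψ w)) z
  by_cases hp : p = 0
  · by_cases hq : q = 0
    · rw [hp, abs_zero, mul_zero] at l1
      rw [hq, abs_zero, mul_zero] at l2
      have ha : a = 0 := abs_eq_zero.1 (le_antisymm l1 (abs_nonneg _))
      have hb : b = 0 := abs_eq_zero.1 (le_antisymm l2 (abs_nonneg _))
      rw [ha, hb]; ring
    · have e : q * (a * d - b * c) = 0 := by
        rw [hp] at k1' k2'
        have h1 : q * a = 0 := by linarith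
        have h2 : q * c = 0 := by linarith
        linear_combination d * h1 - b * h2
      exact (mul_eq_zero.1 e).resolve_left hq
  · have e : p * (a * d - b * c) = 0 := by linear_combination a * k2' - c * k1'
    exact (mul_eq_zero.1 e).resolve_left hp

/-- primitive of `f dg` -/
theorem exists_prim {f g : ℝ → ℝ} (hf : BL f) (hg : BL g) :
    ∃ (H : ℝ → ℝ) (K : ℝ≥0), LipschitzWith K H ∧ ∃ C : ℝ, ∀ r s,
      |H s - H r - f r * (g s - g r)| ≤ C * |s - r| ^ 2 := by
  obtain ⟨⟨K, hK⟩, M, hM⟩ := hf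
  obtain ⟨⟨L, hL⟩, -⟩ := hg
  have hM0 : 0 ≤ M := (abs_nonneg _).trans (hM 0)
  have hgm : Measurable (deriv g) := measurable_deriv g
  have hgb : ∀ s, |deriv g s| ≤ L := fun s => by
    have : ‖deriv g s‖ ≤ L := norm_deriv_le_of_lipschitz hL
    simpa using this
  have hgi : ∀ a b, IntervalIntegrable (deriv g) volume a b := fun a b => by
    refine (intervalIntegrable_const (c := (L : ℝ)) (a := a) (b := b)).mono_fun
      hgm.aestronglyMeasurable (Eventually.of_forall fun s => ?_)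
    simp only [Real.norm_eq_abs, NNReal.abs_eq]
    exact hgb s
  have hcf : Continuous f := hK.continuous
  have hi : ∀ a b, IntervalIntegrable (fun t => f t * deriv g t) volume a b := fun a b =>
    (hgi a b).continuousOn_mul hcf.continuousOn
  have hftc : ∀ a b, g b - g a = ∫ t in a..b, deriv g t := fun a b =>
    ((LipschitzOnWith.absolutelyContinuousOnInterval
      (hL.lipschitzOnWith (s := uIcc a b))).integral_deriv_eq_sub).symm
  refine ⟨fun s => ∫ t in (0 : ℝ)..s, f t * deriv g t, (M * L).toNNReal, ?_, K * L, ?_⟩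
  · refine LipschitzWith.of_dist_le_mul fun x y => ?_
    rw [dist_comm, Real.dist_eq, Real.dist_eq, intervalIntegral.integral_interval_sub_left
      (hi 0 y) (hi 0 x), abs_sub_comm x y, Real.coe_toNNReal _ (by positivity)]
    have h1 : ∀ t ∈ uIoc x y, ‖f t * deriv g t‖ ≤ M * L := fun t _ => by
      rw [norm_mul]
      exact mul_le_mul (hM t) (hgb t) (norm_nonneg _) hM0
    exact intervalIntegral.norm_integral_le_of_norm_le_const h1
  · intro r s
    simp only []
    rw [intervalIntegral.integral_interval_sub_left (hi 0 s) (hi 0 r), hftc r s,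
      ← intervalIntegral.integral_const_mul,
      ← intervalIntegral.integral_sub (hi r s) ((hgi r s).const_mul _)]
    have h1 : ∀ t ∈ uIoc r s, ‖f t * deriv g t - f r * deriv g t‖ ≤ K * |s - r| * L := by
      intro t ht
      rw [← sub_mul, norm_mul]
      have h2 : ‖f t - f r‖ ≤ K * |s - r| := by
        have := hK.dist_le_mul t r
        rw [dist_eq_norm, Real.dist_eq] at this
        refine this.trans (mul_le_mul_of_nonneg_left ?_ K.2)
        exact abs_sub_left_of_mem_uIcc (uIoc_subset_uIcc ht)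
      exact mul_le_mul h2 (hgb t) (norm_nonneg _) (by positivity)
    have h2 := intervalIntegral.norm_integral_le_of_norm_le_const h1
    rw [Real.norm_eq_abs] at h2
    refine h2.trans (le_of_eq ?_)
    rw [sq]; ring

/-- `f(ψ) d g(ψ) = d H(ψ)` -/
theorem fderiv_prim {ψ : ℂ → ℝ} {f g H : ℝ → ℝ} {C : ℝ}
    (hH : ∀ r s, |H s - H r - f r * (g s - g r)| ≤ C * |s - r| ^ 2) {z : ℂ}
    (hψ : DifferentiableAt ℝ ψ z) (hg : DifferentiableAt ℝ (fun w => g (ψ w)) z) (v : ℂ) :
    fderiv ℝ (fun w => H (ψ w)) z v = f (ψ z) * fderiv ℝ (fun w => g (ψ w)) z v := by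
  have h1 : HasFDerivAt (fun w => H (ψ w) - f (ψ z) * g (ψ w)) (0 : ℂ →L[ℝ] ℝ) z := by
    rw [hasFDerivAt_iff_isLittleO]
    have o1 : (fun w => ψ w - ψ z) =O[𝓝 z] fun w => w - z := hψ.hasFDerivAt.isBigO_sub
    have o2 : (fun w => C * |ψ w - ψ z| ^ 2) =O[𝓝 z] fun w => ‖w - z‖ ^ 2 := by
      refine Asymptotics.IsBigO.const_mul_left ?_ C
      exact (o1.norm_norm.pow 2).congr_left fun w => by rw [Real.norm_eq_abs]
    have o3 : (fun w => ‖w - z‖ ^ 2) =o[𝓝 z] fun w => w - z := by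
      have h := (Asymptotics.isLittleO_norm_pow_id (E' := ℂ) one_lt_two)
      refine h.comp_tendsto (k := fun w => w - z) ?_
      have : Tendsto (fun w : ℂ => w - z) (𝓝 z) (𝓝 (z - z)) :=
        (continuous_id.sub continuous_const).tendsto z
      rwa [sub_self] at this
    refine (Asymptotics.IsBigO.of_bound 1 (Eventually.of_forall fun w => ?_)).trans_isLittleO
      (o2.trans_isLittleO o3)
    have e := hH (ψ z) (ψ w)
    simp only [_root_.zero_apply, sub_zero, one_mul]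
    have e2 : H (ψ w) - f (ψ z) * g (ψ w) - (H (ψ z) - f (ψ z) * g (ψ z))
        = H (ψ w) - H (ψ z) - f (ψ z) * (g (ψ w) - g (ψ z)) := by ring
    rw [e2, Real.norm_eq_abs, Real.norm_eq_abs]
    exact e.trans (le_abs_self _)
  have h2 := (h1.add (hg.hasFDerivAt.const_mul (f (ψ z)))).fderiv
  have e : (fun w => H (ψ w) - f (ψ z) * g (ψ w)) + (fun w => f (ψ z) * g (ψ w))
      = fun w => H (ψ w) := by funext w; simp
  rw [e] at h2
  rw [h2]
  simp

end

end Crest.Agent.R105.Iso_938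
end

-- ▼ part R105/Iso6_938
section

/-!
# Row 105, ISO-PP, core (helper938), part 6: isotropy when only one function varies near `G`

`NF G ψ a` : near every point of `G`, `a` is a bounded Lipschitz function of `ψ`, the function
depending only on a locally constant label.
`iso_core` : `E` closed null, `G ⊆ E` compact, `ψ` planar off `G`, all the other generators planar
and locally constant near `G` ⟹ the family is isotropic (`Iso` of helper775).
-/

set_option autoImplicit false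

open MeasureTheory Set Filter Topology Metric
open scoped NNReal ENNReal ContDiff

namespace Crest.Agent.R105.Iso_938

open Crest.Agent.R105.Bd_775

noncomputable section

/-- near `G`, `a` is a function of `ψ` and of a locally constant label -/
def NF (G : Set ℂ) (ψ a : ℂ → ℝ) : Prop :=
  ∃ (α : Type) (L : ℂ → α) (Φ : α → ℝ → ℝ), (∀ z ∈ G, ∀ᶠ w in 𝓝 z, L w = L z) ∧
    (∀ c, BL (Φ c)) ∧ (∀ z ∈ G, ∀ᶠ w in 𝓝 z, a w = Φ (L w) (ψ w))

section NF
variable {G : Set ℂ} {ψ a b : ℂ → ℝ}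

lemma NF.of_lc (h : ∀ z ∈ G, ∀ᶠ w in 𝓝 z, a w = a z) : NF G ψ a :=
  ⟨ℝ, a, fun c _ => c, h, fun c => BL.const c, fun _ _ => Eventually.of_forall fun _ => rfl⟩

lemma NF.self {M : ℝ} (h : ∀ z, |ψ z| ≤ M) : NF G ψ ψ := by
  refine ⟨Unit, fun _ => (), fun _ s => max (-M) (min M s),
    fun _ _ => Eventually.of_forall fun _ => rfl, fun _ => BL.clamp M,
    fun _ _ => Eventually.of_forall fun w => ?_⟩
  have := abs_le.1 (h w)
  change ψ w = max (-M) (min M (ψ w))
  rw [min_eq_right this.2, max_eq_right this.1]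

lemma NF.add (ha : NF G ψ a) (hb : NF G ψ b) : NF G ψ (fun z => a z + b z) := by
  obtain ⟨α, L, Φ, h1, h2, h3⟩ := ha
  obtain ⟨α', L', Φ', h1', h2', h3'⟩ := hb
  refine ⟨α × α', fun z => (L z, L' z), fun c s => Φ c.1 s + Φ' c.2 s, fun z hz => ?_,
    fun c => (h2 _).add (h2' _), fun z hz => ?_⟩
  · filter_upwards [h1 z hz, h1' z hz] with w e1 e2
    rw [e1, e2]
  · filter_upwards [h3 z hz, h3' z hz] with w e1 e2
    rw [e1, e2]

lemma NF.mul (ha : NF G ψ a) (hb : NF G ψ b) : NF G ψ (fun z => a z * b z) := by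
  obtain ⟨α, L, Φ, h1, h2, h3⟩ := ha
  obtain ⟨α', L', Φ', h1', h2', h3'⟩ := hb
  refine ⟨α × α', fun z => (L z, L' z), fun c s => Φ c.1 s * Φ' c.2 s, fun z hz => ?_,
    fun c => (h2 _).mul (h2' _), fun z hz => ?_⟩
  · filter_upwards [h1 z hz, h1' z hz] with w e1 e2
    rw [e1, e2]
  · filter_upwards [h3 z hz, h3' z hz] with w e1 e2
    rw [e1, e2]

lemma NF.comp (ha : NF G ψ a) {h : ℝ → ℝ} {K : ℝ≥0} (hh : LipschitzWith K h) :
    NF G ψ (fun z => h (a z)) := by
  obtain ⟨α, L, Φ, h1, h2, h3⟩ := ha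
  refine ⟨α, L, fun c s => h (Φ c s), h1, fun c => (h2 _).comp hh, fun z hz => ?_⟩
  filter_upwards [h3 z hz] with w e1
  rw [e1]

lemma NF.gen {E : Set ℂ} (hGE : G ⊆ E) {κ : Type*} {b : κ → ℂ → ℝ}
    (hb : ∀ k, NF G ψ (b k)) {u : ℂ → ℝ} (hu : Gen E b u) : NF G ψ u := by
  induction hu with
  | const c => exact NF.of_lc fun _ _ => Eventually.of_forall fun _ => rfl
  | lc h => exact NF.of_lc fun z hz => h.lc z (hGE hz)
  | of i => exact hb i
  | add _ _ h1 h2 => exact h1.add h2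
  | mul _ _ h1 h2 => exact h1.mul h2
  | comp hh _ h1 => exact h1.comp hh

end NF

/-! ### cut-offs -/

/-- smooth cut-offs -/
lemma exists_cut {K U : Set ℂ} (hK : IsCompact K) (hU : IsOpen U) (hKU : K ⊆ U) :
    ∃ χ : ℂ → ℝ, ContDiff ℝ ∞ χ ∧ HasCompactSupport χ ∧ tsupport χ ⊆ U ∧
      ∀ z ∈ K, ∀ᶠ w in 𝓝 z, χ w = 1 := by
  obtain ⟨K', hK', h1, h2⟩ := exists_compact_between hK hU hKU
  obtain ⟨f, hf1, hf2, -⟩ := exists_contMDiffMap_one_nhds_of_subset_interior
    (I := modelWithCornersSelf ℝ ℂ) (n := ⊤) hK.isClosed h1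
  have hsup : tsupport (f : ℂ → ℝ) ⊆ K' := by
    refine closure_minimal (fun z hz => ?_) hK'.isClosed
    by_contra h
    exact hz (hf2 z h)
  refine ⟨f, f.contMDiff.contDiff, HasCompactSupport.of_support_subset_isCompact hK'
    ((subset_tsupport _).trans hsup), hsup.trans h2, fun z hz => ?_⟩
  exact (eventually_nhdsSet_iff_forall.1 hf1) z hz

lemma gx_one_sub {u : ℂ → ℝ} {z : ℂ} (h : DifferentiableAt ℝ u z) :
    gx (fun z => 1 + (-1) * u z) z = - gx u z := by
  unfold gx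
  rw [((h.hasFDerivAt.const_mul (-1)).const_add 1).fderiv]; simp

lemma gy_one_sub {u : ℂ → ℝ} {z : ℂ} (h : DifferentiableAt ℝ u z) :
    gy (fun z => 1 + (-1) * u z) z = - gy u z := by
  unfold gy
  rw [((h.hasFDerivAt.const_mul (-1)).const_add 1).fderiv]; simp

/-! ### the core -/

section core
variable {E G : Set ℂ} {ψ a a' : ℂ → ℝ}

theorem core_pair (hE : IsClosed E) (hE0 : volume E = 0) (hG : IsCompact G)
    (hψ : PL E G ψ) (ha : PL E G a) (ha' : PL E G a') (na : NF G ψ a) (na' : NF G ψ a') :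
    ∫ z, wdg a a' z = 0 := by
  classical
  obtain ⟨α, L, Φ, h1, h2, h3⟩ := na
  obtain ⟨α', L', Φ', h1', h2', h3'⟩ := na'
  -- the open sets on which the label is constant
  set W : α × α' → Set ℂ := fun c =>
    {z | ∀ᶠ w in 𝓝 z, a w = Φ c.1 (ψ w) ∧ a' w = Φ' c.2 (ψ w) ∧ (L w, L' w) = c} with hW
  have hWo : ∀ c, IsOpen (W c) := fun c => isOpen_setOfPred_eventually_nhds
  have hWm : ∀ c z, z ∈ W c →
      ∀ᶠ w in 𝓝 z, a w = Φ c.1 (ψ w) ∧ a' w = Φ' c.2 (ψ w) ∧ (L w, L' w) = c :=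
    fun c z hz => hz
  have hWd : ∀ c c' z, z ∈ W c → z ∈ W c' → c = c' := by
    intro c c' z hz hz'
    rw [← (hWm c z hz).self_of_nhds.2.2, ← (hWm c' z hz').self_of_nhds.2.2]
  have hWG : G ⊆ ⋃ c, W c := by
    intro z hz
    refine mem_iUnion.2 ⟨(L z, L' z), ?_⟩
    change ∀ᶠ w in 𝓝 z, _
    filter_upwards [h1 z hz, h1' z hz, h3 z hz, h3' z hz] with w e1 e2 e3 e4
    exact ⟨by rw [e3, e1], by rw [e4, e2], by rw [e1, e2]⟩
  obtain ⟨t, ht⟩ := hG.elim_finite_subcover W hWo hWG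
  -- the pieces of `G`
  have hGc : ∀ c ∈ t, IsCompact (G ∩ W c) := by
    intro c hc
    have : G ∩ W c = G \ ⋃ c' ∈ t.erase c, W c' := by
      ext z
      simp only [mem_inter_iff, Set.mem_sdiff, mem_iUnion, Finset.mem_erase, not_exists]
      constructor
      · rintro ⟨hz, hzc⟩
        exact ⟨hz, fun c' hc' hzc' => hc'.1 (hWd _ _ z hzc' hzc)⟩
      · rintro ⟨hz, hn⟩
        refine ⟨hz, ?_⟩
        obtain ⟨c', hc', hzc'⟩ := mem_iUnion₂.1 (ht hz)
        by_cases hcc : c' = c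
        · rwa [hcc] at hzc'
        · exact absurd hzc' (hn c' ⟨hcc, hc'⟩)
    rw [this]
    exact hG.diff (isOpen_biUnion fun c' _ => hWo c')
  have hex : ∀ c : t, ∃ χ : ℂ → ℝ, ContDiff ℝ ∞ χ ∧ HasCompactSupport χ ∧
      tsupport χ ⊆ W c ∧ ∀ z ∈ G ∩ W c, ∀ᶠ w in 𝓝 z, χ w = 1 := fun c =>
    exists_cut (hGc c c.2) (hWo c) inter_subset_right
  choose θ hθs hθc hθW hθ1 using hex
  have hθs1 : ∀ c, ContDiff ℝ 1 (θ c) := fun c => (hθs c).of_le (by norm_cast)
  have hθP : ∀ c, PL E ∅ (θ c) := fun c => PL.of_smooth (hθs1 c) (hθc c)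
  have hθd : ∀ c z, DifferentiableAt ℝ (θ c) z := fun c z =>
    (hθs1 c).differentiable one_ne_zero z
  set Θ : ℂ → ℝ := fun z => ∑ c, θ c z with hΘ
  have hΘs : ContDiff ℝ 1 Θ := ContDiff.sum fun c _ => hθs1 c
  have hΘc : HasCompactSupport Θ := by
    refine HasCompactSupport.of_support_subset_isCompact
      (isCompact_iUnion fun c => (hθc c).isCompact) fun z hz => ?_
    by_contra h
    refine hz (Finset.sum_eq_zero fun c _ => ?_)
    exact image_eq_zero_of_notMem_tsupport fun h' => h (mem_iUnion.2 ⟨c, h'⟩)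
  have hΘP : PL E ∅ Θ := PL.of_smooth hΘs hΘc
  -- the neighbourhood of `G` on which all cut-offs are locally constant
  set N : Set ℂ := {z | ∀ᶠ w in 𝓝 z, Θ w = 1 ∧ ∀ c, gx (θ c) w = 0 ∧ gy (θ c) w = 0} with hN
  have hNo : IsOpen N := isOpen_setOfPred_eventually_nhds
  have hGN : G ⊆ N := by
    intro z hz
    obtain ⟨c, hc, hzc⟩ := mem_iUnion₂.1 (ht hz)
    have e1 : ∀ᶠ w in 𝓝 z, ∀ᶠ v in 𝓝 w, θ ⟨c, hc⟩ v = 1 := (hθ1 ⟨c, hc⟩ z ⟨hz, hzc⟩).eventually_nhds
    have e2 : ∀ᶠ w in 𝓝 z, w ∈ W c := (hWo c).mem_nhds hzc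
    have e3 : ∀ᶠ w in 𝓝 z, ∀ c' : t, c' ≠ ⟨c, hc⟩ → ∀ᶠ v in 𝓝 w, θ c' v = 0 := by
      filter_upwards [e2] with w hw c' hc'
      have : w ∉ tsupport (θ c') := fun h => by
        apply hc'
        exact Subtype.ext (hWd _ _ w (hθW c' h) hw)
      rw [notMem_tsupport_iff_eventuallyEq] at this
      exact this
    change ∀ᶠ w in 𝓝 z, _
    filter_upwards [e1, e3] with w h1 h3
    constructor
    · change ∑ c', θ c' w = 1
      rw [Finset.sum_eq_single ⟨c, hc⟩ (fun c' _ hc' => (h3 c' hc').self_of_nhds)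
        (fun h => absurd (Finset.mem_univ _) h)]
      exact h1.self_of_nhds
    · intro c'
      by_cases hc' : c' = ⟨c, hc⟩
      · have : θ c' =ᶠ[𝓝 w] fun _ => (1 : ℝ) := by rw [hc']; exact h1
        rw [gx_eq_of_eventuallyEq this, gy_eq_of_eventuallyEq this, gx_const, gy_const]
        exact ⟨rfl, rfl⟩
      · have : θ c' =ᶠ[𝓝 w] fun _ => (0 : ℝ) := h3 c' hc'
        rw [gx_eq_of_eventuallyEq this, gy_eq_of_eventuallyEq this, gx_const, gy_const]
        exact ⟨rfl, rfl⟩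
  obtain ⟨η, hηs, hηc, hηN, hη1⟩ := exists_cut hG hNo hGN
  set κ : ℂ → ℝ := fun z => 1 + (-1) * η z with hκ
  have hκP : PL E ∅ κ :=
    (PL.const 1).add hE ((PL.const (-1)).mul hE
      (PL.of_smooth (hηs.of_le (by norm_cast)) hηc))
  have hκ0 : ∀ z ∈ G, ∀ᶠ w in 𝓝 z, κ w = 0 := by
    intro z hz
    filter_upwards [hη1 z hz] with w hw
    simp only [hκ, hw]; ring
  have hκ1 : ∀ z, z ∉ N → ∀ᶠ w in 𝓝 z, κ w = 1 := by
    intro z hz
    have : z ∉ tsupport η := fun h => hz (hηN h)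
    rw [notMem_tsupport_iff_eventuallyEq] at this
    filter_upwards [this] with w hw
    simp only [hκ, hw, Pi.zero_apply]; ring
  have hNm : ∀ z ∈ N, ∀ᶠ w in 𝓝 z, Θ w = 1 ∧ ∀ c, gx (θ c) w = 0 ∧ gy (θ c) w = 0 :=
    fun z hz => hz
  have hNz : ∀ z ∈ N, Θ z = 1 ∧ ∀ c, gx (θ c) z = 0 ∧ gy (θ c) z = 0 := fun z hz =>
    (hNm z hz).self_of_nhds
  -- the functions cut off near `G`
  have hP : PL E ∅ (fun z => κ z * a z) := PL.cut hE hG.isClosed hκP ha hκ0
  have hP' : PL E ∅ (fun z => κ z * a' z) := PL.cut hE hG.isClosed hκP ha' hκ0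
  have hda := Q.ae_diff' ha.toQ hE hE0
  have hda' := Q.ae_diff' ha'.toQ hE hE0
  have hdψ := Q.ae_diff' hψ.toQ hE hE0
  have hdP := Q.ae_diff' hP.toQ hE hE0
  have hΘd : ∀ z, DifferentiableAt ℝ Θ z := fun z => hΘs.differentiable one_ne_zero z
  have hgxΘ : ∀ z, gx Θ z = ∑ c, gx (θ c) z := by
    intro z
    unfold gx
    rw [hΘ, fderiv_fun_sum fun c _ => hθd c z]; simp
  have hgyΘ : ∀ z, gy Θ z = ∑ c, gy (θ c) z := by
    intro z
    unfold gy
    rw [hΘ, fderiv_fun_sum fun c _ => hθd c z]; simp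
  -- (1) the form vanishes on the support of `θ c`
  have s1 : ∀ᵐ z, ∀ c, θ c z * wdg a a' z = 0 := by
    filter_upwards [hdψ] with z hz c
    by_cases hzc : z ∈ tsupport (θ c)
    · have hw := hWm c z (hθW c hzc)
      obtain ⟨K, hK⟩ := (h2 c.1.1).1
      obtain ⟨K', hK'⟩ := (h2' c.1.2).1
      have e1 : a =ᶠ[𝓝 z] fun w => Φ c.1.1 (ψ w) := hw.mono fun w h => h.1
      have e2 : a' =ᶠ[𝓝 z] fun w => Φ' c.1.2 (ψ w) := hw.mono fun w h => h.2.1
      rw [wdg_eq_of_eventuallyEq e1 e2, wdg_one hK hK' hz, mul_zero]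
    · rw [image_eq_zero_of_notMem_tsupport hzc, zero_mul]
  -- (2) Stokes off `G`
  have hS : PL E ∅ (fun z => (1 + (-1) * Θ z) * (κ z * a z)) :=
    ((PL.const 1).add hE ((PL.const (-1)).mul hE hΘP)).mul hE hP
  have s2 := stokes hE hE0 hS hP'
  have s3 : ∀ᵐ z, wdg (fun z => (1 + (-1) * Θ z) * (κ z * a z)) (fun z => κ z * a' z) z
      = wdg a a' z - ∑ c, a z * wdg (θ c) a' z := by
    filter_upwards [hda, hda', hdP, s1] with z d1 d2 d3 hs1
    have hd1 : DifferentiableAt ℝ (fun z => 1 + (-1) * Θ z) z :=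
      (differentiableAt_const _).add ((differentiableAt_const _).mul (hΘd z))
    have e0 : wdg (fun z => (1 + (-1) * Θ z) * (κ z * a z)) (fun z => κ z * a' z) z
        = (1 - Θ z) * wdg (fun z => κ z * a z) (fun z => κ z * a' z) z
          - κ z * a z * wdg Θ (fun z => κ z * a' z) z := by
      have gx1 : gx (fun z => 1 + (-1) * Θ z) z = - gx Θ z := gx_one_sub (hΘd z)
      have gy1 : gy (fun z => 1 + (-1) * Θ z) z = - gy Θ z := gy_one_sub (hΘd z)
      unfold wdg
      rw [gx_mul hd1 d3, gy_mul hd1 d3, gx1, gy1]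
      ring
    rw [e0]
    have hsum : Θ z * wdg a a' z = 0 := by
      change (∑ c, θ c z) * wdg a a' z = 0
      rw [Finset.sum_mul]
      exact Finset.sum_eq_zero fun c _ => hs1 c
    by_cases hzN : z ∈ N
    · obtain ⟨n1, n2⟩ := hNz z hzN
      have g1 : gx Θ z = 0 := by rw [hgxΘ]; exact Finset.sum_eq_zero fun c _ => (n2 c).1
      have g2 : gy Θ z = 0 := by rw [hgyΘ]; exact Finset.sum_eq_zero fun c _ => (n2 c).2
      have g3 : ∀ c, wdg (θ c) a' z = 0 := fun c => by
        unfold wdg; rw [(n2 c).1, (n2 c).2]; ring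
      have g4 : wdg a a' z = 0 := by rwa [n1, one_mul] at hsum
      rw [n1, g4, Finset.sum_eq_zero fun c _ => by rw [g3 c, mul_zero]]
      unfold wdg
      rw [g1, g2]; ring
    · have k1 : (fun z => κ z * a z) =ᶠ[𝓝 z] a := by
        filter_upwards [hκ1 z hzN] with w hw
        rw [hw, one_mul]
      have k2 : (fun z => κ z * a' z) =ᶠ[𝓝 z] a' := by
        filter_upwards [hκ1 z hzN] with w hw
        rw [hw, one_mul]
      have k3 : κ z * a z = a z := k1.eq_of_nhds
      rw [wdg_eq_of_eventuallyEq k1 k2, wdg_eq_of_eventuallyEq (EventuallyEq.refl _ Θ) k2, k3]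
      have k4 : a z * wdg Θ a' z = ∑ c, a z * wdg (θ c) a' z := by
        unfold wdg
        rw [hgxΘ, hgyΘ, ← Finset.mul_sum, Finset.sum_sub_distrib, Finset.sum_mul, Finset.sum_mul]
      rw [k4, sub_mul, one_mul, hsum, sub_zero]
  rw [integral_congr_ae s3] at s2
  -- (3) the boundary terms vanish
  have s4 : ∀ c, ∫ z, a z * wdg (θ c) a' z = 0 := by
    intro c
    obtain ⟨H, K, hHK, C, hH⟩ := exists_prim (h2 c.1.1) (h2' c.1.2)
    have hHP : PL E ∅ (fun z => κ z * H (ψ z)) :=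
      PL.cut hE hG.isClosed hκP (hψ.comp hE hHK) hκ0
    rw [← stokes hE hE0 (hθP c) hHP]
    refine integral_congr_ae ?_
    filter_upwards [hdψ, hda'] with z d1 d2
    by_cases hzN : z ∈ N
    · obtain ⟨n1, n2⟩ := hNz z hzN
      unfold wdg
      rw [(n2 c).1, (n2 c).2]; ring
    · by_cases hzc : z ∈ tsupport (θ c)
      · have hw := hWm c z (hθW c hzc)
        have e1 : a z = Φ c.1.1 (ψ z) := hw.self_of_nhds.1
        have e2 : a' =ᶠ[𝓝 z] fun w => Φ' c.1.2 (ψ w) := hw.mono fun w h => h.2.1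
        have d3 : DifferentiableAt ℝ (fun w => Φ' c.1.2 (ψ w)) z := d2.congr_of_eventuallyEq e2.symm
        have k1 : (fun z => κ z * H (ψ z)) =ᶠ[𝓝 z] fun z => H (ψ z) := by
          filter_upwards [hκ1 z hzN] with w hw
          rw [hw, one_mul]
        rw [wdg_eq_of_eventuallyEq (EventuallyEq.refl _ (θ c)) k1,
          wdg_eq_of_eventuallyEq (EventuallyEq.refl _ (θ c)) e2]
        have f1 : gx (fun z => H (ψ z)) z = Φ c.1.1 (ψ z) * gx (fun w => Φ' c.1.2 (ψ w)) z :=
          fderiv_prim hH d1 d3 1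
        have f2 : gy (fun z => H (ψ z)) z = Φ c.1.1 (ψ z) * gy (fun w => Φ' c.1.2 (ψ w)) z :=
          fderiv_prim hH d1 d3 Complex.I
        unfold wdg
        rw [f1, f2, e1]; ring
      · unfold wdg
        rw [gx_zero_of_notMem hzc, gy_zero_of_notMem hzc]; ring
  -- conclusion
  have hi1 : Integrable (wdg a a') :=
    (((Q.fin' ha.toQ hE0).add (Q.fin' ha'.toQ hE0)).div_const 2).mono'
      (measurable_wdg _ _).aestronglyMeasurable (Eventually.of_forall fun z => abs_wdg_le a a' z)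
  obtain ⟨M, hM⟩ := ha.bdd
  have hi2 : ∀ c, Integrable (fun z => a z * wdg (θ c) a' z) := by
    intro c
    have hw : Integrable (wdg (θ c) a') :=
      (((Q.fin' (hθP c).toQ hE0).add (Q.fin' ha'.toQ hE0)).div_const 2).mono'
        (measurable_wdg _ _).aestronglyMeasurable
        (Eventually.of_forall fun z => abs_wdg_le (θ c) a' z)
    refine (hw.norm.const_mul M).mono' ((PL.aesm hE hE0 ha.toQ).mul
      (measurable_wdg _ _).aestronglyMeasurable) (Eventually.of_forall fun z => ?_)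
    rw [norm_mul]
    exact mul_le_mul_of_nonneg_right (hM z) (norm_nonneg _)
  rw [integral_sub hi1 (integrable_finsetSum _ fun c _ => hi2 c),
    integral_finsetSum _ fun c _ => hi2 c, Finset.sum_eq_zero fun c _ => s4 c, sub_zero] at s2
  exact s2

/-- **core of ISO-PP** : `ψ` planar off `G`, the other generators planar and locally constant near
`G` -/
theorem iso_core (hE : IsClosed E) (hE0 : volume E = 0) (hG : IsCompact G) (hGE : G ⊆ E)
    (hψ : PL E G ψ) {ι : Type*} {b : ι → ℂ → ℝ}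
    (hb : ∀ i, b i = ψ ∨ (PL E ∅ (b i) ∧ ∀ z ∈ G, ∀ᶠ w in 𝓝 z, b i w = b i z)) : Iso E b := by
  obtain ⟨M, hM⟩ := hψ.bdd
  have h1 : ∀ i, PL E G (b i) := fun i => by
    rcases hb i with h | h
    · rw [h]; exact hψ
    · exact h.1.mono (empty_subset _)
  have h2 : ∀ i, NF G ψ (b i) := fun i => by
    rcases hb i with h | h
    · rw [h]; exact NF.self hM
    · exact NF.of_lc h.2
  intro u v hu hv
  unfold om
  rw [restrict_compl hE0]
  exact core_pair hE hE0 hG hψ (PL.gen hE h1 hu) (PL.gen hE h1 hv) (NF.gen hGE h2 hu)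
    (NF.gen hGE h2 hv)

end core

end

end Crest.Agent.R105.Iso_938
end

-- ▼ part R105/Isx5_909
section

/-!
# Row 105, PP: `ISOG` (helper909), adapter `ℝ × ℝ` → `ℂ` + closing

`isog_of_core` : the core of 938 (generators locally constant near `G`) ⟹ `Skp2_257.ISOG`.
-/

set_option autoImplicit false

open MeasureTheory Set Filter Topology Metric
open scoped NNReal ENNReal

namespace Crest.Agent.R105.Isx_909

open Tra_937 (toC setC integral_toC integrableOn_toC locLip_toC continuous_toC volume_setC)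

theorem gx_toC' (f : ℝ × ℝ → ℝ) (z : ℂ) :
    Bd_775.gx (toC f) z = CF_363.gx f (z.re, z.im) := by
  unfold Bd_775.gx CF_363.gx
  have e : toC f = f ∘ (Complex.equivRealProdCLM : ℂ ≃L[ℝ] ℝ × ℝ) := rfl
  rw [e, ContinuousLinearEquiv.comp_right_fderiv]
  simp

theorem gy_toC' (f : ℝ × ℝ → ℝ) (z : ℂ) :
    Bd_775.gy (toC f) z = CF_363.gy f (z.re, z.im) := by
  unfold Bd_775.gy CF_363.gy
  have e : toC f = f ∘ (Complex.equivRealProdCLM : ℂ ≃L[ℝ] ℝ × ℝ) := rfl
  rw [e, ContinuousLinearEquiv.comp_right_fderiv]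
  simp

theorem en_toC' (f : ℝ × ℝ → ℝ) : Bd_775.en (toC f) = toC (CF_363.g2 f) := by
  funext z
  unfold Bd_775.en CF_363.g2
  rw [gx_toC', gy_toC']
  rfl

theorem om_toC (E : Set (ℝ × ℝ)) (u v : ℝ × ℝ → ℝ) :
    Bd_775.om (setC E) (toC u) (toC v) =
      ∫ p in Eᶜ, (CF_363.gx u p * CF_363.gy v p - CF_363.gy u p * CF_363.gx v p) := by
  rw [← integral_toC]
  unfold Bd_775.om
  congr 1
  funext z
  unfold Bd_775.wdg
  rw [gx_toC', gy_toC', gx_toC', gy_toC']
  rfl

theorem isCompact_setC {E : Set (ℝ × ℝ)} (h : IsCompact E) : IsCompact (setC E) :=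
  (Complex.equivRealProdCLM.toHomeomorph.isCompact_preimage).2 h


theorem q_toC {E : Set (ℝ × ℝ)} {u : ℝ × ℝ → ℝ} (hb : ∃ M : ℝ, ∀ p, |u p| ≤ M)
    (hl : LocallyLipschitzOn Eᶜ u) (hf : IntegrableOn (CF_363.g2 u) Eᶜ) :
    Bd_775.Q (setC E) (toC u) where
  bdd := hb.imp fun M hM z => hM _
  loc := locLip_toC.2 hl
  fin := by
    rw [en_toC']
    exact (integrableOn_toC Eᶜ _).2 hf

/-- everything planar off `G` in the letters of 257 is planar off `G` in the letters of 938 -/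
theorem pl_toC {E G : Set (ℝ × ℝ)} (hE0 : volume E = 0) {u : ℝ × ℝ → ℝ}
    (h : Skp2_257.PL E G u) : Iso_938.PL (setC E) (setC G) (toC u) := by
  have hq := q_toC h.bdd h.lip h.fin
  have hE0' : volume (setC E) = 0 := by rw [volume_setC]; exact hE0
  -- integrable on the whole plane
  have hint : Integrable (Bd_775.en (toC u)) := by
    have h1 : IntegrableOn (Bd_775.en (toC u)) (setC E) := by
      rw [IntegrableOn, Measure.restrict_eq_zero.2 hE0']
      exact integrable_zero_measure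
    have h2 := h1.union hq.fin
    rwa [union_compl_self, integrableOn_univ] at h2
  refine { hq with dom := ⟨fun z => |Bd_775.gx (toC u) z| + |Bd_775.gy (toC u) z|, ?_⟩ }
  have mx := Iso_938.memLp_gx hint
  have my := Iso_938.memLp_gy hint
  have hmeas : Measurable (fun z => |Bd_775.gx (toC u) z| + |Bd_775.gy (toC u) z|) :=
    (Bd_775.measurable_gx _).norm.add (Bd_775.measurable_gy _).norm
  have hmem : MemLp (fun z => |Bd_775.gx (toC u) z| + |Bd_775.gy (toC u) z|) 2 :=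
    mx.abs.add my.abs
  refine ⟨fun z => by positivity, hmeas, hmem, ?_, ?_⟩
  · filter_upwards [h.hor, Iso_938.ii_hor hmeas hmem] with y hy hii a b hab hG
    obtain ⟨i1, e1⟩ := hy a b hab fun x hx => hG x hx
    have e2 : toC u ⟨b, y⟩ - toC u ⟨a, y⟩ = ∫ s in a..b, CF_363.gx u (s, y) := e1
    rw [e2]
    refine (intervalIntegral.abs_integral_le_integral_abs hab).trans ?_
    refine intervalIntegral.integral_mono_on hab i1.abs (hii a b) fun s hs => ?_
    rw [gx_toC']
    have := abs_nonneg (Bd_775.gy (toC u) ⟨s, y⟩)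
    linarith
  · filter_upwards [h.ver, Iso_938.ii_ver hmeas hmem] with x hx hii a b hab hG
    obtain ⟨i1, e1⟩ := hx a b hab fun y hy => hG y hy
    have e2 : toC u ⟨x, b⟩ - toC u ⟨x, a⟩ = ∫ s in a..b, CF_363.gy u (x, s) := e1
    rw [e2]
    refine (intervalIntegral.abs_integral_le_integral_abs hab).trans ?_
    refine intervalIntegral.integral_mono_on hab i1.abs (hii a b) fun s hs => ?_
    rw [gy_toC']
    have := abs_nonneg (Bd_775.gx (toC u) ⟨x, s⟩)
    linarith

/-- generators -/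
theorem gen_toC {E : Set (ℝ × ℝ)} {ψ u : ℝ × ℝ → ℝ}
    (h : Skp2_257.Gen (insert ψ {b | Skp2_257.Pl E b}) u) :
    Bd_775.Gen (setC E) (Sum.elim (fun b : {b // Skp2_257.Pl E b} => toC b.1)
      (fun _ : Unit => toC ψ)) (toC u) := by
  induction h with
  | const c => exact Bd_775.Gen.const c
  | of u hu =>
    rcases hu with rfl | hu
    · exact Bd_775.Gen.of (b := Sum.elim (fun b : {b // Skp2_257.Pl E b} => toC b.1)
        (fun _ : Unit => toC u)) (Sum.inr ())
    · exact Bd_775.Gen.of (b := Sum.elim (fun b : {b // Skp2_257.Pl E b} => toC b.1)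
        (fun _ : Unit => toC ψ)) (Sum.inl ⟨u, hu⟩)
  | add u v _ _ h1 h2 => exact h1.add h2
  | mul u v _ _ h1 h2 => exact h1.mul h2
  | comp k u hk _ h1 =>
    obtain ⟨L, hL⟩ := hk
    exact Bd_775.Gen.comp hL h1

/-- the core (938, C3) -/
def Core : Prop := ∀ (E G : Set ℂ), IsCompact E → volume E = 0 → IsClosed G → G ⊆ E →
  ∀ (ι : Type) (b : ι → ℂ → ℝ), (∀ i, Iso_938.PL E ∅ (b i)) → (∀ i, Continuous (b i)) →
  (∀ i, ∀ z ∈ G, ∀ᶠ w in 𝓝 z, b i w = b i z) → ∀ ψ : ℂ → ℝ, Iso_938.PL E G ψ →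
  Bd_775.Iso E (Sum.elim b (fun _ : Unit => ψ))

/-- **ISOG** from the core -/
theorem isog_of_core (hcore : Core) : Skp2_257.ISOG := by
  intro E hE G hG hGE hnull ψ hψ hψG u v hu hv
  have hc := isCompact_setC hE.cpt
  have hE0 : volume (setC E) = 0 := by rw [volume_setC]; exact hE.null
  have hD : ∀ b : {b // Skp2_257.Pl E b}, Bd_775.D (setC E) (toC b.1) := by
    intro b
    have hb := b.2.1
    refine (q_toC hb.bdd hb.lip hb.fin).d ?_
    rw [continuous_toC, ← continuousOn_univ]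
    have := hb.cont
    rwa [compl_empty] at this
  have hiso : Bd_775.Iso (setC E) (Sum.elim (fun b : {b // Skp2_257.Pl E b} => toC b.1)
      (fun _ : Unit => toC ψ)) := by
    refine iso_of_flat hc hD (fun _ => q_toC hψ.bdd hψ.lip hψ.fin) (isCompact_setC hG)
      (fun z hz => hGE hz) ?_ ?_
    · intro b
      refine measure_mono_null ?_ (hnull b.1 b.2)
      rintro _ ⟨z, hz, rfl⟩
      exact ⟨(z.re, z.im), hz, rfl⟩
    · intro β hβD hβG hβl
      refine hcore (setC E) (setC G) hc hE0 (isCompact_setC hG).isClosed (fun z hz => hGE hz) _ β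
        (fun i => ?_) (fun i => (hβD i).cont) hβl (toC ψ) (pl_toC hE.null hψG)
      refine Iso_938.PL.gen hc.isClosed (fun _ => ?_) (hβG i)
      exact pl_toC hE.null i.2.1
  have := hiso _ _ (gen_toC hu) (gen_toC hv)
  rw [om_toC] at this
  exact this

end Crest.Agent.R105.Isx_909
end

-- ▼ part R105/Iso7_938
section

/-!
# Row 105, ISO-PP (helper938), part 7: `Isx_909.Core` and `Skp2_257.ISOG`
-/

set_option autoImplicit false

open MeasureTheory Set Filter Topology Metric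

namespace Crest.Agent.R105.Iso_938

/-- the core in the form of helper909 -/
theorem core : Crest.Agent.R105.Isx_909.Core := by
  intro E G hE hE0 hG hGE ι b hb _ hlc ψ hψ
  refine iso_core hE.isClosed hE0 (hE.of_isClosed_subset hG hGE) hGE hψ fun i => ?_
  rcases i with i | i
  · exact Or.inr ⟨hb i, hlc i⟩
  · exact Or.inl rfl

/-- **ISOG** of the skeleton of helper257 -/
theorem isog : Crest.Agent.R105.Skp2_257.ISOG :=
  Crest.Agent.R105.Isx_909.isog_of_core core

end Crest.Agent.R105.Iso_938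
end

-- ▼ part R105/Isl1_157
section

/-!
# Row 105 (S0139, PP): the leaf `ISOLIM` of `Skp2_257` (helper157)

Isotropy passes to the limit.  An element of the class generated by `ψ` and the planar functions is
`e.eval ψ` for a formal expression `e`; `e.eval (φ n)` agrees with it locally for large `n`, and
its gradient is dominated by the gradients of the planar functions occurring in `e` and of `φ n`.
-/

set_option autoImplicit false

namespace Crest.Agent.R105.Isl_157

open Set Filter MeasureTheory Topology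
open CF_363 Stp_722 Skp2_257

/-- Rademacher for locally Lipschitz functions on an open set -/
theorem ae_diff {O : Set (ℝ × ℝ)} (hO : IsOpen O) {u : ℝ × ℝ → ℝ}
    (hu : LocallyLipschitzOn O u) : ∀ᵐ z ∂(volume.restrict O), DifferentiableAt ℝ u z := by
  rw [ae_restrict_iff' hO.measurableSet]
  have : volume {z | ¬ (z ∈ O → DifferentiableAt ℝ u z)} = 0 := by
    apply measure_null_of_locally_null
    intro x hx
    have hxO : x ∈ O := by
      by_contra h
      exact hx fun h' => absurd h' h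
    obtain ⟨K, t, ht, hL⟩ := hu hxO
    rw [hO.nhdsWithin_eq hxO] at ht
    obtain ⟨V, hVt, hV, hxV⟩ := _root_.mem_nhds_iff.1 ht
    refine ⟨V ∩ {z | ¬ (z ∈ O → DifferentiableAt ℝ u z)}, ?_, ?_⟩
    · exact inter_mem (mem_nhdsWithin_of_mem_nhds (hV.mem_nhds hxV)) self_mem_nhdsWithin
    · have h1 := (hL.mono hVt).ae_differentiableWithinAt_of_mem (μ := volume)
      refine measure_mono_null ?_ (ae_iff.1 h1)
      rintro z ⟨hzV, hz⟩
      simp only [mem_ofPred_eq, Classical.not_imp] at hz ⊢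
      exact ⟨hzV, fun h => hz.2 (h.differentiableAt (hV.mem_nhds hzV))⟩
  exact this

/-! ### pointwise Lipschitz constants -/

/-- `u` is pointwise `L`-Lipschitz at `p`. -/
def PW (u : ℝ × ℝ → ℝ) (p : ℝ × ℝ) (L : ℝ) : Prop := ∀ᶠ q in 𝓝 p, |u q - u p| ≤ L * dist q p

/-- `|u_x| + |u_y|` -/
noncomputable def s1 (u : ℝ × ℝ → ℝ) (p : ℝ × ℝ) : ℝ := |gx u p| + |gy u p|

theorem s1_nonneg (u : ℝ × ℝ → ℝ) (p : ℝ × ℝ) : 0 ≤ s1 u p := by unfold s1; positivity

theorem measurable_s1 (u : ℝ × ℝ → ℝ) : Measurable (s1 u) :=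
  ((measurable_gx u).abs).add ((measurable_gy u).abs)

theorem s1_sq_le (u : ℝ × ℝ → ℝ) (p : ℝ × ℝ) : s1 u p ^ 2 ≤ 2 * g2 u p := by
  unfold s1 g2
  nlinarith [sq_nonneg (|gx u p| - |gy u p|), sq_abs (gx u p), sq_abs (gy u p)]

theorem PW.mono {u : ℝ × ℝ → ℝ} {p : ℝ × ℝ} {L M : ℝ} (h : PW u p L) (hLM : L ≤ M) : PW u p M := by
  filter_upwards [h] with q hq
  exact hq.trans (mul_le_mul_of_nonneg_right hLM dist_nonneg)

theorem PW.s1_le {u : ℝ × ℝ → ℝ} {p : ℝ × ℝ} {L : ℝ} (hL : 0 ≤ L) (h : PW u p L) :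
    s1 u p ≤ 2 * L := by
  have h0 : ‖fderiv ℝ u p‖ ≤ L := by
    refine norm_fderiv_le_of_lip' ℝ hL ?_
    filter_upwards [h] with q hq
    rwa [Real.norm_eq_abs, ← dist_eq_norm]
  have h1 : |gx u p| ≤ L := by
    unfold gx
    have := (fderiv ℝ u p).le_opNorm ((1 : ℝ), (0 : ℝ))
    have e : ‖((1 : ℝ), (0 : ℝ))‖ = 1 := by simp [Prod.norm_def]
    rw [e, mul_one, Real.norm_eq_abs] at this
    exact this.trans h0
  have h2 : |gy u p| ≤ L := by
    unfold gy
    have := (fderiv ℝ u p).le_opNorm ((0 : ℝ), (1 : ℝ))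
    have e : ‖((0 : ℝ), (1 : ℝ))‖ = 1 := by simp [Prod.norm_def]
    rw [e, mul_one, Real.norm_eq_abs] at this
    exact this.trans h0
  unfold s1
  linarith

theorem pw_of_diff {u : ℝ × ℝ → ℝ} {p : ℝ × ℝ} (h : DifferentiableAt ℝ u p) {ε : ℝ}
    (hε : 0 < ε) : PW u p (s1 u p + ε) := by
  have h1 := h.hasFDerivAt.isLittleO.def hε
  filter_upwards [h1] with q hq
  have e1 : fderiv ℝ u p (q - p) = (q.1 - p.1) * gx u p + (q.2 - p.2) * gy u p := by
    have : q - p = (q.1 - p.1) • ((1 : ℝ), (0 : ℝ)) + (q.2 - p.2) • ((0 : ℝ), (1 : ℝ)) := by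
      ext <;> simp
    rw [this, map_add, map_smul, map_smul]
    rfl
  have d1 : |q.1 - p.1| ≤ dist q p := by
    rw [← Real.dist_eq, Prod.dist_eq]; exact le_max_left _ _
  have d2 : |q.2 - p.2| ≤ dist q p := by
    rw [← Real.dist_eq, Prod.dist_eq]; exact le_max_right _ _
  rw [Real.norm_eq_abs, ← dist_eq_norm, e1] at hq
  have h3 : |(q.1 - p.1) * gx u p + (q.2 - p.2) * gy u p| ≤ s1 u p * dist q p := by
    refine (abs_add_le _ _).trans ?_
    rw [abs_mul, abs_mul]
    unfold s1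
    have := mul_le_mul_of_nonneg_right d1 (abs_nonneg (gx u p))
    have := mul_le_mul_of_nonneg_right d2 (abs_nonneg (gy u p))
    nlinarith
  have h4 : u q - u p = (u q - u p - ((q.1 - p.1) * gx u p + (q.2 - p.2) * gy u p)) +
      ((q.1 - p.1) * gx u p + (q.2 - p.2) * gy u p) := by ring
  rw [h4]
  refine (abs_add_le _ _).trans ?_
  rw [add_mul]
  linarith

theorem PW.add {u v : ℝ × ℝ → ℝ} {p : ℝ × ℝ} {L M : ℝ} (h : PW u p L) (k : PW v p M) :
    PW (fun q => u q + v q) p (L + M) := by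
  filter_upwards [h, k] with q hq kq
  calc |(u q + v q) - (u p + v p)| = |(u q - u p) + (v q - v p)| := by congr 1; ring
    _ ≤ |u q - u p| + |v q - v p| := abs_add_le _ _
    _ ≤ _ := by rw [add_mul]; exact add_le_add hq kq

theorem PW.mul {u v : ℝ × ℝ → ℝ} {p : ℝ × ℝ} {L M A B : ℝ} (h : PW u p L) (k : PW v p M)
    (hA : ∀ q, |u q| ≤ A) (hB : ∀ q, |v q| ≤ B) :
    PW (fun q => u q * v q) p (A * M + B * L) := by
  filter_upwards [h, k] with q hq kq
  have hA0 : 0 ≤ A := (abs_nonneg _).trans (hA p)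
  have hB0 : 0 ≤ B := (abs_nonneg _).trans (hB p)
  calc |u q * v q - u p * v p| = |u q * (v q - v p) + v p * (u q - u p)| := by congr 1; ring
    _ ≤ |u q| * |v q - v p| + |v p| * |u q - u p| := by
        rw [← abs_mul, ← abs_mul]; exact abs_add_le _ _
    _ ≤ A * (M * dist q p) + B * (L * dist q p) := by
        exact add_le_add (mul_le_mul (hA q) kq (abs_nonneg _) hA0)
          (mul_le_mul (hB p) hq (abs_nonneg _) hB0)
    _ = _ := by ring

theorem PW.comp {u : ℝ × ℝ → ℝ} {p : ℝ × ℝ} {L : ℝ} (h : PW u p L) {G : ℝ → ℝ} {K : NNReal}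
    (hG : LipschitzWith K G) : PW (fun q => G (u q)) p (K * L) := by
  filter_upwards [h] with q hq
  have h1 := hG.dist_le_mul (u q) (u p)
  rw [Real.dist_eq, Real.dist_eq] at h1
  calc |G (u q) - G (u p)| ≤ K * |u q - u p| := h1
    _ ≤ K * (L * dist q p) := mul_le_mul_of_nonneg_left hq K.2
    _ = _ := by ring

/-! ### formal expressions -/

/-- expressions in one variable function and the planar functions -/
inductive Ex (E : Set (ℝ × ℝ)) : Type
  | const (c : ℝ) : Ex E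
  | psi : Ex E
  | of (b : ℝ × ℝ → ℝ) (hb : Pl E b) : Ex E
  | add (e f : Ex E) : Ex E
  | mul (e f : Ex E) : Ex E
  | comp (h : ℝ → ℝ) (K : NNReal) (hh : LipschitzWith K h) (e : Ex E) : Ex E

variable {E : Set (ℝ × ℝ)}

/-- value -/
def Ex.eval (θ : ℝ × ℝ → ℝ) : Ex E → ℝ × ℝ → ℝ
  | .const c => fun _ => c
  | .psi => θ
  | .of b _ => b
  | .add e f => fun p => e.eval θ p + f.eval θ p
  | .mul e f => fun p => e.eval θ p * f.eval θ p
  | .comp h _ _ e => fun p => h (e.eval θ p)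

theorem Ex.gen (θ : ℝ × ℝ → ℝ) (e : Ex E) : Gen (insert θ {b | Pl E b}) (e.eval θ) := by
  induction e with
  | const c => exact Gen.const c
  | psi => exact Gen.of _ (mem_insert _ _)
  | of b hb => exact Gen.of _ (mem_insert_of_mem _ hb)
  | add e f he hf => exact Gen.add _ _ he hf
  | mul e f he hf => exact Gen.mul _ _ he hf
  | comp h K hh e he => exact Gen.comp _ _ ⟨K, hh⟩ he

theorem exists_ex {θ u : ℝ × ℝ → ℝ} (h : Gen (insert θ {b | Pl E b}) u) :
    ∃ e : Ex E, e.eval θ = u := by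
  induction h with
  | const c => exact ⟨.const c, rfl⟩
  | of u hu =>
      rcases hu with hu | hu
      · exact ⟨.psi, hu.symm⟩
      · exact ⟨.of u hu, rfl⟩
  | add u v _ _ hu hv =>
      obtain ⟨e, rfl⟩ := hu
      obtain ⟨f, rfl⟩ := hv
      exact ⟨.add e f, rfl⟩
  | mul u v _ _ hu hv =>
      obtain ⟨e, rfl⟩ := hu
      obtain ⟨f, rfl⟩ := hv
      exact ⟨.mul e f, rfl⟩
  | comp h u hh _ hu =>
      obtain ⟨e, rfl⟩ := hu
      obtain ⟨K, hK⟩ := hh
      exact ⟨.comp h K hK e, rfl⟩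

theorem Ex.eval_congr {θ θ' : ℝ × ℝ → ℝ} {p : ℝ × ℝ} (h : θ p = θ' p) (e : Ex E) :
    e.eval θ p = e.eval θ' p := by
  induction e with
  | const c => rfl
  | psi => exact h
  | of b hb => rfl
  | add e f he hf => simp only [Ex.eval, he, hf]
  | mul e f he hf => simp only [Ex.eval, he, hf]
  | comp g K hh e he => simp only [Ex.eval, he]

/-- size of the gradients of the planar functions which occur -/
noncomputable def Ex.sz : Ex E → ℝ × ℝ → ℝ
  | .const _ => fun _ => 0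
  | .psi => fun _ => 0
  | .of b _ => s1 b
  | .add e f => fun p => e.sz p + f.sz p
  | .mul e f => fun p => e.sz p + f.sz p
  | .comp _ _ _ e => e.sz

/-- the planar functions which occur are differentiable -/
def Ex.dif : Ex E → ℝ × ℝ → Prop
  | .const _ => fun _ => True
  | .psi => fun _ => True
  | .of b _ => fun p => DifferentiableAt ℝ b p
  | .add e f => fun p => e.dif p ∧ f.dif p
  | .mul e f => fun p => e.dif p ∧ f.dif p
  | .comp _ _ _ e => e.dif

theorem Ex.sz_nonneg (e : Ex E) (p : ℝ × ℝ) : 0 ≤ e.sz p := by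
  induction e with
  | const c => exact le_rfl
  | psi => exact le_rfl
  | of b hb => exact s1_nonneg b p
  | add e f he hf => exact add_nonneg he hf
  | mul e f he hf => exact add_nonneg he hf
  | comp g K hh e he => exact he

theorem Ex.measurable_sz (e : Ex E) : Measurable e.sz := by
  induction e with
  | const c => exact measurable_const
  | psi => exact measurable_const
  | of b hb => exact measurable_s1 b
  | add e f he hf => exact he.add hf
  | mul e f he hf => exact he.add hf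
  | comp g K hh e he => exact he

theorem Ex.ae_dif (hE : IsClosed E) (e : Ex E) : ∀ᵐ p ∂(volume.restrict Eᶜ), e.dif p := by
  induction e with
  | const c => exact Eventually.of_forall fun _ => trivial
  | psi => exact Eventually.of_forall fun _ => trivial
  | of b hb => exact ae_diff hE.isOpen_compl hb.1.lip
  | add e f he hf => exact he.and hf
  | mul e f he hf => exact he.and hf
  | comp g K hh e he => exact he

theorem Ex.int_sz (e : Ex E) : IntegrableOn (fun p => e.sz p ^ 2) Eᶜ := by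
  have two : ∀ f g : ℝ × ℝ → ℝ, Measurable f → Measurable g →
      IntegrableOn (fun p => f p ^ 2) Eᶜ → IntegrableOn (fun p => g p ^ 2) Eᶜ →
      IntegrableOn (fun p => (f p + g p) ^ 2) Eᶜ := by
    intro f g hf hg h1 h2
    refine Integrable.mono' ((h1.const_mul 2).add (h2.const_mul 2))
      (((hf.add hg).pow_const 2).aestronglyMeasurable) (Eventually.of_forall fun p => ?_)
    rw [Real.norm_of_nonneg (sq_nonneg _)]
    simp only [Pi.add_apply]
    nlinarith [sq_nonneg (f p - g p)]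
  induction e with
  | const c => simp [Ex.sz]
  | psi => simp [Ex.sz]
  | of b hb =>
      refine Integrable.mono' (hb.1.fin.const_mul 2)
        (((measurable_s1 b).pow_const 2).aestronglyMeasurable) (Eventually.of_forall fun p => ?_)
      rw [Real.norm_of_nonneg (sq_nonneg _)]
      exact s1_sq_le b p
  | add e f he hf => exact two _ _ e.measurable_sz f.measurable_sz he hf
  | mul e f he hf => exact two _ _ e.measurable_sz f.measurable_sz he hf
  | comp g K hh e he => exact he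

/-- the uniform bounds -/
theorem Ex.bound (e : Ex E) (C : ℝ) : ∃ B M : ℝ, 0 ≤ M ∧ ∀ θ : ℝ × ℝ → ℝ, (∀ p, |θ p| ≤ C) →
    (∀ p, |e.eval θ p| ≤ B) ∧ ∀ p, DifferentiableAt ℝ θ p → e.dif p → ∀ ε > 0,
      PW (e.eval θ) p (M * (e.sz p + s1 θ p + ε)) := by
  induction e with
  | const c =>
      refine ⟨|c|, 0, le_rfl, fun θ _ => ⟨fun p => le_rfl, fun p _ _ ε _ => ?_⟩⟩
      refine Eventually.of_forall fun q => ?_
      simp [Ex.eval]
  | psi =>
      refine ⟨C, 1, zero_le_one, fun θ hθ => ⟨hθ, fun p hp _ ε hε => ?_⟩⟩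
      have := pw_of_diff hp hε
      refine this.mono ?_
      simp [Ex.sz]
  | of b hb =>
      obtain ⟨B, hB⟩ := hb.1.bdd
      refine ⟨B, 1, zero_le_one, fun θ hθ => ⟨hB, fun p hp hd ε hε => ?_⟩⟩
      have := pw_of_diff (u := b) hd hε
      refine this.mono ?_
      have := s1_nonneg θ p
      simp only [Ex.sz]
      linarith
  | add e f he hf =>
      obtain ⟨B, M, hM, h⟩ := he
      obtain ⟨B', M', hM', h'⟩ := hf
      refine ⟨B + B', M + M', by positivity, fun θ hθ => ⟨fun p => ?_, fun p hp hd ε hε => ?_⟩⟩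
      · exact (abs_add_le _ _).trans (add_le_add ((h θ hθ).1 p) ((h' θ hθ).1 p))
      · have h1 := (h θ hθ).2 p hp hd.1 ε hε
        have h2 := (h' θ hθ).2 p hp hd.2 ε hε
        refine (h1.add h2).mono ?_
        have e1 := e.sz_nonneg p
        have e2 := f.sz_nonneg p
        simp only [Ex.sz]
        nlinarith [mul_nonneg hM e2, mul_nonneg hM' e1]
  | mul e f he hf =>
      obtain ⟨B, M, hM, h⟩ := he
      obtain ⟨B', M', hM', h'⟩ := hf
      refine ⟨|B| * |B'|, |B| * M' + |B'| * M, by positivity, fun θ hθ => ⟨fun p => ?_,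
        fun p hp hd ε hε => ?_⟩⟩
      · simp only [Ex.eval]
        rw [abs_mul]
        exact mul_le_mul (((h θ hθ).1 p).trans (le_abs_self _))
          (((h' θ hθ).1 p).trans (le_abs_self _)) (abs_nonneg _) (abs_nonneg _)
      · have h1 := (h θ hθ).2 p hp hd.1 ε hε
        have h2 := (h' θ hθ).2 p hp hd.2 ε hε
        refine (h1.mul h2 (fun q => ((h θ hθ).1 q).trans (le_abs_self B))
          (fun q => ((h' θ hθ).1 q).trans (le_abs_self B'))).mono ?_
        have e1 := e.sz_nonneg p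
        have e2 := f.sz_nonneg p
        simp only [Ex.sz]
        have k1 := mul_nonneg (mul_nonneg (abs_nonneg B) hM') e1
        have k2 := mul_nonneg (mul_nonneg (abs_nonneg B') hM) e2
        nlinarith
  | comp g K hh e he =>
      obtain ⟨B, M, hM, h⟩ := he
      refine ⟨|g 0| + K * |B|, K * M, by positivity, fun θ hθ => ⟨fun p => ?_,
        fun p hp hd ε hε => ?_⟩⟩
      · have h1 := hh.dist_le_mul (e.eval θ p) 0
        rw [Real.dist_eq, Real.dist_eq, sub_zero] at h1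
        have h2 := ((h θ hθ).1 p).trans (le_abs_self _)
        have h3 : |g (e.eval θ p)| ≤ |g (e.eval θ p) - g 0| + |g 0| := by
          have := abs_add_le (g (e.eval θ p) - g 0) (g 0); simpa using this
        have h4 : (K : ℝ) * |e.eval θ p| ≤ K * |B| := mul_le_mul_of_nonneg_left h2 K.2
        simp only [Ex.eval]
        linarith
      · have h1 := (h θ hθ).2 p hp hd ε hε
        have h2 := h1.comp hh
        refine h2.mono ?_
        simp only [Ex.sz]
        exact le_of_eq (by ring)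

theorem Ex.s1_le (e : Ex E) (C : ℝ) : ∃ M : ℝ, 0 ≤ M ∧ ∀ θ : ℝ × ℝ → ℝ, (∀ p, |θ p| ≤ C) →
    ∀ p, DifferentiableAt ℝ θ p → e.dif p → s1 (e.eval θ) p ≤ M * (e.sz p + s1 θ p) := by
  obtain ⟨B, M, hM, h⟩ := e.bound C
  refine ⟨2 * M, by positivity, fun θ hθ p hp hd => ?_⟩
  have h0 : 0 ≤ e.sz p + s1 θ p := add_nonneg (e.sz_nonneg p) (s1_nonneg θ p)
  have key : ∀ ε > 0, s1 (e.eval θ) p ≤ 2 * M * (e.sz p + s1 θ p) + 2 * M * ε := by
    intro ε hε
    have h1 := ((h θ hθ).2 p hp hd ε hε).s1_le (by positivity)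
    nlinarith
  apply le_of_forall_pos_le_add
  intro δ hδ
  have h2 := key (δ / (2 * M + 1)) (by positivity)
  have h3 : 2 * M * (δ / (2 * M + 1)) ≤ δ := by
    rw [mul_div_assoc', div_le_iff₀ (by positivity)]
    nlinarith
  linarith

/-! ### the limit -/

/-- the area form -/
noncomputable def wd (u v : ℝ × ℝ → ℝ) (p : ℝ × ℝ) : ℝ := gx u p * gy v p - gy u p * gx v p

theorem measurable_wd (u v : ℝ × ℝ → ℝ) : Measurable (wd u v) :=
  ((measurable_gx u).mul (measurable_gy v)).sub ((measurable_gy u).mul (measurable_gx v))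

theorem abs_wd_le (u v : ℝ × ℝ → ℝ) (p : ℝ × ℝ) : |wd u v p| ≤ s1 u p * s1 v p := by
  unfold wd s1
  refine (abs_sub _ _).trans ?_
  rw [abs_mul, abs_mul]
  nlinarith [mul_nonneg (abs_nonneg (gx u p)) (abs_nonneg (gx v p)),
    mul_nonneg (abs_nonneg (gy u p)) (abs_nonneg (gy v p))]

theorem wd_congr {u v u' v' : ℝ × ℝ → ℝ} {p : ℝ × ℝ} (h : u =ᶠ[𝓝 p] u') (k : v =ᶠ[𝓝 p] v') :
    wd u v p = wd u' v' p := by
  unfold wd
  rw [gx_congr h, gy_congr h, gx_congr k, gy_congr k]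

/-- one uniform bound for the area form of two expressions -/
theorem wd_bound (e f : Ex E) (C : ℝ) : ∃ K : ℝ, 0 ≤ K ∧ ∀ θ : ℝ × ℝ → ℝ, (∀ p, |θ p| ≤ C) →
    ∀ p, DifferentiableAt ℝ θ p → e.dif p → f.dif p →
      |wd (e.eval θ) (f.eval θ) p| ≤ K * (e.sz p ^ 2 + f.sz p ^ 2 + g2 θ p) := by
  obtain ⟨M, hM, h⟩ := e.s1_le C
  obtain ⟨M', hM', h'⟩ := f.s1_le C
  refine ⟨4 * M * M', by positivity, fun θ hθ p hp hd hd' => ?_⟩
  have h1 := h θ hθ p hp hd
  have h2 := h' θ hθ p hp hd'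
  have e1 := e.sz_nonneg p
  have e2 := f.sz_nonneg p
  have e3 := s1_nonneg θ p
  have h3 : s1 (e.eval θ) p * s1 (f.eval θ) p ≤
      (M * (e.sz p + s1 θ p)) * (M' * (f.sz p + s1 θ p)) :=
    mul_le_mul h1 h2 (s1_nonneg _ _) (by positivity)
  have h4 := s1_sq_le θ p
  have h5 : (e.sz p + s1 θ p) * (f.sz p + s1 θ p) ≤
      4 * (e.sz p ^ 2 + f.sz p ^ 2 + g2 θ p) := by
    nlinarith [sq_nonneg (e.sz p - f.sz p), sq_nonneg (e.sz p - s1 θ p),
      sq_nonneg (f.sz p - s1 θ p), g2_nonneg θ p]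
  calc |wd (e.eval θ) (f.eval θ) p| ≤ s1 (e.eval θ) p * s1 (f.eval θ) p := abs_wd_le _ _ _
    _ ≤ (M * (e.sz p + s1 θ p)) * (M' * (f.sz p + s1 θ p)) := h3
    _ = M * M' * ((e.sz p + s1 θ p) * (f.sz p + s1 θ p)) := by ring
    _ ≤ M * M' * (4 * (e.sz p ^ 2 + f.sz p ^ 2 + g2 θ p)) :=
        mul_le_mul_of_nonneg_left h5 (by positivity)
    _ = _ := by ring

theorem integrable_wd (hE : IsClosed E) (e f : Ex E) {C : ℝ} {θ : ℝ × ℝ → ℝ}
    (hb : ∀ p, |θ p| ≤ C) (hr : LocallyLipschitzOn Eᶜ θ) (hi : IntegrableOn (g2 θ) Eᶜ) :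
    IntegrableOn (wd (e.eval θ) (f.eval θ)) Eᶜ := by
  obtain ⟨K, hK, h⟩ := wd_bound e f C
  refine Integrable.mono' (((e.int_sz.add f.int_sz).add hi).const_mul K)
    (measurable_wd _ _).aestronglyMeasurable ?_
  filter_upwards [ae_diff hE.isOpen_compl hr, e.ae_dif hE, f.ae_dif hE] with p h1 h2 h3
  exact h θ hb p h1 h2 h3

/-- **ISOLIM** -/
theorem isolim : ISOLIM := by
  intro E hP φ ψ hφ hψ _ hbd hev hlim hiso u v hu hv
  obtain ⟨e, rfl⟩ := exists_ex hu
  obtain ⟨f, rfl⟩ := exists_ex hv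
  have hE : IsClosed E := hP.cpt.isClosed
  have hO : IsOpen Eᶜ := hE.isOpen_compl
  obtain ⟨C0, hC0⟩ := hbd
  obtain ⟨C1, hC1⟩ := hψ.bdd
  set C := max C0 C1 with hC
  have hφC : ∀ n p, |φ n p| ≤ C := fun n p => (hC0 n p).trans (le_max_left _ _)
  have hψC : ∀ p, |ψ p| ≤ C := fun p => (hC1 p).trans (le_max_right _ _)
  obtain ⟨K, hK, hKb⟩ := wd_bound e f C
  have I0 : IntegrableOn (wd (e.eval ψ) (f.eval ψ)) Eᶜ := integrable_wd hE e f hψC hψ.lip hψ.fin
  have In : ∀ n, IntegrableOn (wd (e.eval (φ n)) (f.eval (φ n))) Eᶜ := fun n =>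
    integrable_wd hE e f (hφC n) (hφ n).lip (hφ n).fin
  have hzero : ∀ n, ∫ p in Eᶜ, wd (e.eval (φ n)) (f.eval (φ n)) p = 0 := fun n =>
    hiso n _ _ (e.gen (φ n)) (f.gen (φ n))
  -- the differences
  have hdd : ∀ n, IntegrableOn (g2 (fun q => φ n q - ψ q)) Eᶜ := by
    intro n
    refine Integrable.mono' (((hφ n).fin.const_mul 2).add (hψ.fin.const_mul 2))
      (measurable_g2 _).aestronglyMeasurable ?_
    filter_upwards [ae_diff hO (hφ n).lip, ae_diff hO hψ.lip] with p h1 h2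
    rw [Real.norm_of_nonneg (g2_nonneg _ _)]
    unfold g2
    rw [gx_sub h1 h2, gy_sub h1 h2]
    simp only [Pi.add_apply]
    nlinarith [sq_nonneg (gx (φ n) p + gx ψ p), sq_nonneg (gy (φ n) p + gy ψ p)]
  -- the good sets
  set good : ℕ → Set (ℝ × ℝ) := fun n => {p | ∀ᶠ q in 𝓝 p, φ n q = ψ q} with hgood
  have hgo : ∀ n, IsOpen (good n) := by
    intro n
    rw [isOpen_iff_mem_nhds]
    intro p hp
    exact (eventually_eventually_nhds.2 hp)
  set D : ℝ × ℝ → ℝ := fun p => e.sz p ^ 2 + f.sz p ^ 2 + g2 ψ p with hD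
  have hDi : IntegrableOn D Eᶜ := (e.int_sz.add f.int_sz).add hψ.fin
  have hD0 : ∀ p, 0 ≤ D p := fun p => by
    simp only [hD]
    have := g2_nonneg ψ p
    positivity
  have hDm : Measurable D :=
    ((e.measurable_sz.pow_const 2).add (f.measurable_sz.pow_const 2)).add (measurable_g2 ψ)
  have hT : Tendsto (fun n => ∫ p in Eᶜ, (good n)ᶜ.indicator D p) atTop (𝓝 0) := by
    have h0 : ∫ p in Eᶜ, (0 : ℝ × ℝ → ℝ) p = 0 := by simp
    rw [← h0]
    refine tendsto_integral_of_dominated_convergence D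
      (fun n => (hDm.indicator (hgo n).measurableSet.compl).aestronglyMeasurable) hDi
      (fun n => Eventually.of_forall fun p => ?_) ?_
    · rw [Real.norm_of_nonneg (indicator_nonneg (fun q _ => hD0 q) p)]
      exact indicator_le_self' (fun q _ => hD0 q) p
    · rw [ae_restrict_iff' hO.measurableSet]
      refine Eventually.of_forall fun p hp => ?_
      obtain ⟨r, hr, hrO⟩ := Metric.nhds_basis_closedBall.mem_iff.1 (hO.mem_nhds hp)
      refine tendsto_const_nhds.congr' ?_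
      filter_upwards [hev _ (isCompact_closedBall p r) hrO] with n hn
      have hpg : p ∈ good n := by
        filter_upwards [Metric.closedBall_mem_nhds p hr] with q hq
        exact hn q hq
      rw [indicator_of_notMem (show p ∉ (good n)ᶜ from fun h => h hpg)]
      rfl
  -- the estimate
  have hest : ∀ n, |∫ p in Eᶜ, wd (e.eval ψ) (f.eval ψ) p| ≤
      (4 * K) * (∫ p in Eᶜ, (good n)ᶜ.indicator D p) +
        (2 * K) * ∫ p in Eᶜ, g2 (fun q => φ n q - ψ q) p := by
    intro n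
    have h1 : ∫ p in Eᶜ, wd (e.eval ψ) (f.eval ψ) p =
        ∫ p in Eᶜ, (wd (e.eval ψ) (f.eval ψ) p - wd (e.eval (φ n)) (f.eval (φ n)) p) := by
      rw [integral_sub I0 (In n), hzero n, sub_zero]
    have hDin : IntegrableOn ((good n)ᶜ.indicator D) Eᶜ :=
      hDi.indicator (hgo n).measurableSet.compl
    rw [h1, ← integral_const_mul, ← integral_const_mul,
      ← integral_add (hDin.const_mul _) ((hdd n).const_mul _), ← Real.norm_eq_abs]
    refine norm_integral_le_of_norm_le ((hDin.const_mul _).add ((hdd n).const_mul _)) ?_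
    filter_upwards [ae_diff hO (hφ n).lip, ae_diff hO hψ.lip, e.ae_dif hE, f.ae_dif hE]
      with p h2 h3 h4 h5
    have hg0 := g2_nonneg (fun q => φ n q - ψ q) p
    by_cases hp : p ∈ good n
    · have e1 : e.eval ψ =ᶠ[𝓝 p] e.eval (φ n) := by
        filter_upwards [hp] with q hq
        exact (Ex.eval_congr hq e).symm
      have e2 : f.eval ψ =ᶠ[𝓝 p] f.eval (φ n) := by
        filter_upwards [hp] with q hq
        exact (Ex.eval_congr hq f).symm
      rw [wd_congr e1 e2, sub_self, norm_zero]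
      have := indicator_nonneg (s := (good n)ᶜ) (fun q _ => hD0 q) p
      positivity
    · rw [indicator_of_mem (show p ∈ (good n)ᶜ from hp)]
      have k1 := hKb ψ hψC p h3 h4 h5
      have k2 := hKb (φ n) (hφC n) p h2 h4 h5
      have k3 : g2 (φ n) p ≤ 2 * g2 (fun q => φ n q - ψ q) p + 2 * g2 ψ p := by
        unfold g2
        rw [gx_sub h2 h3, gy_sub h2 h3]
        nlinarith [sq_nonneg (gx (φ n) p - 2 * gx ψ p), sq_nonneg (gy (φ n) p - 2 * gy ψ p)]
      rw [Real.norm_eq_abs]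
      refine (abs_sub _ _).trans ?_
      have hs1 := sq_nonneg (e.sz p)
      have hs2 := sq_nonneg (f.sz p)
      have k4 : K * (e.sz p ^ 2 + f.sz p ^ 2 + g2 (φ n) p) ≤
          K * (e.sz p ^ 2 + f.sz p ^ 2 + (2 * g2 (fun q => φ n q - ψ q) p + 2 * g2 ψ p)) :=
        mul_le_mul_of_nonneg_left (by linarith) hK
      simp only [hD]
      have k5 := g2_nonneg ψ p
      nlinarith [mul_nonneg hK hs1, mul_nonneg hK hs2, mul_nonneg hK k5, mul_nonneg hK hg0]
  have hlim2 : Tendsto (fun n => (4 * K) * (∫ p in Eᶜ, (good n)ᶜ.indicator D p) +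
      (2 * K) * ∫ p in Eᶜ, g2 (fun q => φ n q - ψ q) p) atTop (𝓝 0) := by
    have := (hT.const_mul (4 * K)).add (hlim.const_mul (2 * K))
    simpa using this
  have hfin : |∫ p in Eᶜ, wd (e.eval ψ) (f.eval ψ) p| ≤ 0 :=
    ge_of_tendsto hlim2 (Eventually.of_forall hest)
  exact abs_nonpos_iff.1 hfin

end Crest.Agent.R105.Isl_157
private theorem rz_debcfe2092 : type_of% @_root_.Crest.Agent.R105.Isl_157.Ex.eval.eq_def := @_root_.Crest.Agent.R105.Isl_157.Ex.eval.eq_def -- L154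
private theorem rz_a75217f085 : type_of% @_root_.Crest.Agent.R105.Isl_157.Ex.eval.eq_1 := @_root_.Crest.Agent.R105.Isl_157.Ex.eval.eq_1 -- L154
private theorem rz_269daf65f6 : type_of% @_root_.Crest.Agent.R105.Isl_157.Ex.sz.eq_def := @_root_.Crest.Agent.R105.Isl_157.Ex.sz.eq_def -- L203
private theorem rz_e1017ae661 : type_of% @_root_.Crest.Agent.R105.Isl_157.Ex.sz.eq_1 := @_root_.Crest.Agent.R105.Isl_157.Ex.sz.eq_1 -- L203
end

-- ▼ part R105/Stp11_722
section

/-!
Row 105 (Koebe), leaf STEP of 257's skeleton `Skp2_257`, part 11: assembly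
`LayerOp → (all hairs have single cut-offs) → StepOut`.
-/

set_option autoImplicit false

open Set Filter Topology Metric MeasureTheory
open scoped ENNReal NNReal

namespace Crest.Agent.R105.Stp_722

open CF_363 Skp2_257 SkLim2_363 Lop1_744

local notation "cc" => connectedComponentIn

/-- flattening of finitely many hairs -/
theorem flatten_all {E : Set (ℝ × ℝ)} (hE : Pic E) (hS : ∀ K ∈ hairs E, SinOut E K) {n : ℕ}
    {N : Fin n → Set (ℝ × ℝ)} (hNo : ∀ i, IsOpen (N i))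
    (hNd : ∀ i j, i ≠ j → Disjoint (N i) (N j)) {K : Fin n → Hair} (hK : ∀ i, K i ∈ hairs E)
    (hKN : ∀ i, (K i).car ⊆ N i) {χ : ℝ × ℝ → ℝ} (hχ : ClE E χ) {k : Fin n → ℝ} {A m ε R : ℝ}
    (hm : 0 < m) (hε : 0 < ε) (hA0 : 0 ≤ A) (hA : ∀ i, ∀ q ∈ N i ∩ Eᶜ, |χ q - k i| ≤ A)
    (hR : ∀ p, |χ p| ≤ R) (hkR : ∀ i, |k i| ≤ R) (s : Finset (Fin n)) :
    ∃ χ' : ℝ × ℝ → ℝ, DE E χ χ' (s.card * ε) ∧ (∀ p, (∀ i ∈ s, p ∉ N i) → χ' p = χ p) ∧
      (∀ q ∈ Eᶜ, |χ' q - χ q| ≤ A) ∧ (∀ p, |χ' p| ≤ R) ∧ (∀ i ∈ s, OscLe Eᶜ (K i).car χ' 0) ∧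
      ∀ x ∈ E, ∀ P ⊆ cc E x, ∀ b, OscLe Eᶜ P χ b → OscLe Eᶜ P χ' (b + s.card * (m * A)) := by
  classical
  induction s using Finset.induction_on with
  | empty =>
    refine ⟨χ, ?_, fun _ _ => rfl, fun q _ => by simpa using hA0, hR, by simp, ?_⟩
    · simpa using DE.zero hχ
    · intro x _ P _ b hb
      simpa using hb
  | insert i s hi ih =>
    obtain ⟨χ₁, hD, hoff, hsup, hR1, hflat, hgr⟩ := ih
    have heq : ∀ q ∈ N i, χ₁ q = χ q := by
      intro q hq
      refine hoff q fun j hj hqj => ?_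
      have hji : j ≠ i := by rintro rfl; exact hi hj
      exact Set.disjoint_left.1 (hNd j i hji) hqj hq
    have hA1 : ∀ q ∈ N i ∩ Eᶜ, |χ₁ q - k i| ≤ A := fun q hq => by
      rw [heq q hq.1]; exact hA i q hq
    obtain ⟨χ₂, hD2, ⟨S, hSc, hSN, hoff2⟩, hhull, hfl, hgr2⟩ := flatten_one hE (hK i)
      (hS _ (hK i)) hD.2.2.1 (hNo i) (hKN i) hm hε hA0 hA1
    have hcard : ((insert i s).card : ℝ) = s.card + 1 := by
      rw [Finset.card_insert_of_notMem hi]; push_cast; ring
    refine ⟨χ₂, ?_, ?_, ?_, ?_, ?_, ?_⟩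
    · rw [hcard]
      have := hD.trans hD2
      convert this using 1
      ring
    · intro p hp
      rw [hoff2 p fun h => hp i (Finset.mem_insert_self _ _) (hSN h)]
      exact hoff p fun j hj => hp j (Finset.mem_insert_of_mem hj)
    · intro q hq
      by_cases hqN : q ∈ N i
      · have h1 := hhull q (min (χ₁ q) (k i)) (max (χ₁ q) (k i)) ⟨min_le_left _ _, le_max_left _ _⟩
          ⟨min_le_right _ _, le_max_right _ _⟩
        have h2 := hA i q ⟨hqN, hq⟩
        rw [heq q hqN] at h1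
        rcases le_total (χ q) (k i) with h3 | h3
        · rw [min_eq_left h3, max_eq_right h3] at h1
          rw [abs_le] at h2 ⊢
          constructor <;> linarith [h1.1, h1.2]
        · rw [min_eq_right h3, max_eq_left h3] at h1
          rw [abs_le] at h2 ⊢
          constructor <;> linarith [h1.1, h1.2]
      · rw [hoff2 q fun h => hqN (hSN h)]
        exact hsup q hq
    · intro p
      exact abs_le.2 (hhull p (-R) R (abs_le.1 (hR1 p)) (abs_le.1 (hkR i)))
    · intro j hj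
      by_cases hji : j = i
      · rw [hji]; exact hfl
      · have hjs : j ∈ s := (Finset.mem_insert.1 hj).resolve_left hji
        refine (hflat j hjs).congr (hNo j) (hKN j) fun q hq => ?_
        exact hoff2 q fun h => Set.disjoint_left.1 (hNd j i hji) hq.1 (hSN h)
    · intro x hx P hP b hb
      have := hgr2 x hx P hP _ (hgr x hx P hP b hb)
      rw [hcard]
      refine this.mono (le_of_eq ?_)
      ring

/-- a component is a jump hair or misses the cut. -/
theorem cut_dich {E : Set (ℝ × ℝ)} {J : Finset Hair} (hJ : ∀ K ∈ J, K ∈ hairs E)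
    (x : ℝ × ℝ) : (∃ K ∈ J, cc E x = K.car) ∨ Disjoint (cc E x) (cut J) := by
  by_cases h : Disjoint (cc E x) (cut J)
  · exact Or.inr h
  · left
    obtain ⟨y, hy, hyJ⟩ := Set.not_disjoint_iff.1 h
    obtain ⟨K, hK, hyK⟩ := hyJ
    refine ⟨K, hK, ?_⟩
    rw [← cc_of_mem (hJ K hK) hyK]
    exact (cc_eq hy).symm

set_option maxHeartbeats 1600000 in
theorem stepOut_of {E : Set (ℝ × ℝ)} (hE : Pic E)
    (hLO : LayerOp Eᶜ E Prod.snd (un (hairs E)) (ClE E) (DE E))
    (hS : ∀ K ∈ hairs E, SinOut E K) : StepOut E := by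
  classical
  intro φ a ha hφ hφc hφb hosc W hW hEW ε hε
  have hφcl : ClE E φ := ⟨hφ, hφc, hφb⟩
  obtain ⟨R, hR⟩ := hφb
  have hR0 : 0 ≤ R := (abs_nonneg _).trans (hR 0)
  obtain ⟨J, hJ, L, C0, hL, hsl, -⟩ := hφ
  have hJE : cut J ⊆ E := cut_sub hJ
  have hEo : IsOpen Eᶜ := hE.cpt.isClosed.isOpen_compl
  have hclos := sub_closure hE
  have St : Setup Eᶜ E Prod.snd (un (hairs E)) (ClE E) (DE E) :=
    { hE := hE.cpt
      hh := continuous_snd
      lev := fun x _ => Lev.of_preconnected continuous_snd isPreconnected_connectedComponentIn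
        ((connectedComponentIn_subset E x).trans hclos)
      inj := fun x hx => by
        obtain ⟨K, hK, hxK⟩ := mem_un.1 hx
        rw [cc_of_mem hK hxK]
        intro p hp q hq hpq
        exact Prod.ext (hp.1.trans hq.1.symm) hpq
      vis := fun x _ => (connectedComponentIn_subset E x).trans hclos
      D0 := fun χ h => DE.zero h
      Dadd := fun _ _ _ _ _ h h' => h.trans h'
      layer := hLO }
  -- levels
  obtain ⟨B, hB⟩ := hE.cpt.exists_bound_of_continuousOn (f := fun p : ℝ × ℝ => p.2)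
    continuous_snd.continuousOn
  have hB' : ∀ p ∈ E, |p.2| ≤ |B| := fun p hp => by
    have := hB p hp
    rw [Real.norm_eq_abs] at this
    exact this.trans (le_abs_self B)
  set d : ℝ := a / (800 * (L + 1)) with hd
  have hd0 : 0 < d := by positivity
  have hLd : L * (2 * d) ≤ a / 400 := by
    have : (800 * (L + 1)) * d = a := by rw [hd]; field_simp
    nlinarith
  obtain ⟨m, hm⟩ := exists_nat_gt ((2 * |B| + 1) / d)
  have hm0' : (0:ℝ) < m := lt_of_le_of_lt (by positivity) hm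
  have hm0 : 0 < m := by exact_mod_cast hm0'
  have hmd : 2 * |B| + 1 ≤ m * d := by
    rw [div_lt_iff₀ hd0] at hm; exact hm.le
  have hcov : ∀ x ∈ E, -|B| ≤ x.2 ∧ x.2 ≤ -|B| + m * d := by
    intro x hx
    have := abs_le.1 (hB' x hx)
    constructor <;> linarith
  set t : ℝ := a / (4000 * m) with ht
  have ht0 : 0 < t := by positivity
  have hm1 : (1:ℝ) ≤ m := by exact_mod_cast hm0
  have hta : t ≤ a / 4000 := by
    rw [ht]
    apply div_le_div_of_nonneg_left ha.le (by norm_num)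
    linarith
  -- neighbourhoods of the jump hairs
  have hKx : ∀ x ∈ cut J, ∃ K, K ∈ J ∧ x ∈ K.car := fun x hx => hx
  have hne : cut J = ∅ ∨ ∃ x0 : ℝ × ℝ, x0 ∈ cut J := (cut J).eq_empty_or_nonempty
  have hHn : Nonempty Hair := ⟨⟨0, 0, 1, one_pos⟩⟩
  choose! Kx hKxJ hxKx using hKx
  have hO : ∀ x ∈ cut J, ∃ O, IsOpen O ∧ (Kx x).car ⊆ O ∧
      ∀ q ∈ O ∩ Eᶜ, ∀ q' ∈ O ∩ Eᶜ, |φ q - φ q'| ≤ a + a := fun x hx =>
    hosc _ (hJ _ (hKxJ x hx)) a ha
  choose! O hOo hKO hOφ using hO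
  have hccx : ∀ x ∈ cut J, cc E x = (Kx x).car := fun x hx =>
    cc_of_mem (hJ _ (hKxJ x hx)) (hxKx x hx)
  obtain ⟨n, p, N, hp, hNo, hNU, hNd, hNsat, hNcov⟩ := exists_thick hE.cpt (isCompact_cut J) hJE
    (fun x => (O x ∩ W) ∩ (cut (J.erase (Kx x)))ᶜ)
    (fun x hx => ((hOo x hx).inter hW).inter (isClosed_cut _).isOpen_compl)
    (fun x hx => by
      rw [hccx x hx]
      refine subset_inter (subset_inter (hKO x hx) fun y hy => hEW ?_) ?_
      · exact hJE ⟨Kx x, hKxJ x hx, hy⟩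
      · rintro y hy ⟨K', hK', hyK'⟩
        have h1 : K'.car = (Kx x).car := by
          rw [← cc_of_mem (hJ _ (Finset.mem_of_mem_erase hK')) hyK',
            ← cc_of_mem (hJ _ (hKxJ x hx)) hy]
        exact Finset.ne_of_mem_erase hK' (Hair.car_injective h1))
  -- the piece of `x ∈ cut J` contains the whole hair and no other
  have hpieceJ : ∀ K ∈ J, ∃ i, K.car ⊆ N i ∧ K = Kx (p i) := by
    intro K hK
    have hx : (K.x, K.b) ∈ K.car := bot_mem_car K
    obtain ⟨i, hi⟩ := mem_iUnion.1 (hNcov ⟨K, hK, hx⟩)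
    have h1 : cc E (K.x, K.b) = K.car := cc_of_mem (hJ K hK) hx
    have h2 : K.car ⊆ N i := by
      rw [← h1]
      exact hNsat i _ (hJE ⟨K, hK, hx⟩) ⟨(K.x, K.b), by rw [h1]; exact hx, hi⟩
    refine ⟨i, h2, ?_⟩
    by_contra hne
    exact (hNU i hi).2 ⟨K, Finset.mem_erase.2 ⟨hne, hK⟩, hx⟩
  -- keep only the pieces which contain their hair
  set s0 : Finset (Fin n) := Finset.univ.filter fun i => (Kx (p i)).car ⊆ N i with hs0
  let e := s0.equivFin
  set l := s0.card with hl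
  let N' : Fin l → Set (ℝ × ℝ) := fun j => N (e.symm j).1
  let K' : Fin l → Hair := fun j => Kx (p (e.symm j).1)
  have hKN' : ∀ j, (K' j).car ⊆ N' j := fun j => (Finset.mem_filter.1 (e.symm j).2).2
  have hK'J : ∀ j, K' j ∈ J := fun j => hKxJ _ (hp _)
  have hN'd : ∀ i j, i ≠ j → Disjoint (N' i) (N' j) := by
    intro i j hij
    refine hNd _ _ fun h => hij ?_
    exact e.symm.injective (Subtype.ext h)
  have hκ : ∀ j, ∃ κ, |κ| ≤ R ∧ ∀ q ∈ N' j ∩ Eᶜ, |φ q - κ| ≤ 2 * a := by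
    intro j
    rcases (N' j ∩ Eᶜ).eq_empty_or_nonempty with h0 | ⟨q0, hq0⟩
    · refine ⟨0, by simpa using hR0, by rw [h0]; simp⟩
    · refine ⟨φ q0, hR q0, fun q hq => ?_⟩
      have := hOφ _ (hp (e.symm j).1) q ⟨(hNU _ hq.1).1.1, hq.2⟩ q0 ⟨(hNU _ hq0.1).1.1, hq0.2⟩
      linarith
  choose κ hκR hκ using hκ
  set ε1 : ℝ := √ε / 2 with hε1
  have hε10 : 0 < ε1 := by positivity
  obtain ⟨φ₁, hD1, hoff1, hsup1, hR1, hflat1, hgr1⟩ := flatten_all hE hS (fun j => hNo _) hN'd
    (fun j => hJ _ (hK'J j)) hKN' hφcl (k := κ) (A := 2 * a) (m := t / ((l + 1) * (2 * a)))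
    (ε := ε1 / (l + 1)) (by positivity) (by positivity) (by positivity) hκ hR hκR Finset.univ
  have hcard : ((Finset.univ : Finset (Fin l)).card : ℝ) = l := by simp
  rw [hcard] at hD1
  have hlt : (l:ℝ) * (t / ((l + 1) * (2 * a)) * (2 * a)) ≤ t := by
    have e1 : (l:ℝ) * (t / ((l + 1) * (2 * a)) * (2 * a)) = t * (l / (l + 1)) := by field_simp
    rw [e1]
    have : (l:ℝ) / (l + 1) ≤ 1 := by rw [div_le_one (by positivity)]; linarith
    nlinarith
  have hgrow : ∀ x ∈ E, ∀ P ⊆ cc E x, ∀ b, OscLe Eᶜ P φ b → OscLe Eᶜ P φ₁ (b + t) := by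
    intro x hx P hP b hb
    have := hgr1 x hx P hP b hb
    rw [hcard] at this
    exact this.mono (by linarith)
  have hflatJ : ∀ K ∈ J, OscLe Eᶜ K.car φ₁ 0 := by
    intro K hK
    obtain ⟨i, hi, hKi⟩ := hpieceJ K hK
    have his : i ∈ s0 := Finset.mem_filter.2 ⟨Finset.mem_univ _, by rw [← hKi]; exact hi⟩
    have h3 := hflat1 (e ⟨i, his⟩) (Finset.mem_univ _)
    have e3 : K' (e ⟨i, his⟩) = K := by
      change Kx (p (e.symm (e ⟨i, his⟩)).1) = K
      rw [Equiv.symm_apply_apply]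
      exact hKi.symm
    rwa [e3] at h3
  have hpt : ∀ x ∈ E, Disjoint (cc E x) (cut J) → OscLe Eᶜ {x} φ 0 := by
    intro x hx hdis
    have := osc_portion (V := Eᶜ) hL hsl (isCompact_cc hE.cpt x) (convex_cc hE hx) hdis
      (P := {x}) (singleton_subset_iff.2 (mem_connectedComponentIn hx)) (d := 0) (by
        rintro y rfl z rfl; simp)
    simpa using this
  set a₁ : ℝ := 101 / 100 * a with ha1
  have ha10 : 0 < a₁ := by positivity
  -- the components of the family
  have hg1 : ∀ x ∈ gset Eᶜ E φ₁ (a₁ / 4), Disjoint (cc E x) (cut J) := by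
    intro x hx
    rcases cut_dich hJ x with ⟨K, hK, hKe⟩ | h1
    · exfalso
      refine hx.2 ⟨0, by positivity, ?_⟩
      rw [hKe]; exact hflatJ K hK
    · exact h1
  have hg2 : ∀ x ∈ gset Eᶜ E φ₁ (a₁ / 4), ∃ K ∈ hairs E, cc E x = K.car := by
    intro x hx
    rcases comp_cases hE hx.1 with h1 | h1
    · exfalso
      refine hx.2 ⟨t, by rw [ha1]; linarith, ?_⟩
      have := hgrow x hx.1 _ Subset.rfl 0 (by rw [h1]; exact hpt x hx.1 (hg1 x hx))
      simpa using this
    · exact h1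
  have hgHr : gset Eᶜ E φ₁ (a₁ / 4) ⊆ un (hairs E) := by
    intro x hx
    obtain ⟨K, hK, hKe⟩ := hg2 x hx
    exact mem_un.2 ⟨K, hK, by rw [← hKe]; exact mem_connectedComponentIn hx.1⟩
  obtain ⟨φ₂, hcl2, hR2, hD2, hosc2, hsup2, hoff2, -⟩ := step_b St (φ := φ₁) hD1.2.2.1 hR0 hR1
    (a := a₁) ha10
    (fun x hx => (hgrow x hx.1 _ Subset.rfl a (hosc _ ⟨x, hx.1, rfl⟩)).mono
      (by rw [ha1]; linarith))
    hgHr (d := d) (B0 := -|B|) (m := m) hd0 hm0 hcov
    (fun x hx s => by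
      obtain ⟨K, hK, hKe⟩ := hg2 x hx
      have h1 := osc_portion (V := Eᶜ) hL hsl (isCompact_cc hE.cpt x) (convex_cc hE hx.1)
        (hg1 x hx) (P := cc E x ∩ {y | s ≤ y.2 ∧ y.2 ≤ s + 2 * d}) inter_subset_left
        (d := 2 * d) (by
          rintro y ⟨hy, hy1, hy2⟩ z ⟨hz, hz1, hz2⟩
          rw [hKe] at hy hz
          rw [Prod.dist_eq, hy.1, hz.1, dist_self, Real.dist_eq]
          refine max_le (by positivity) ?_
          rw [abs_le]; constructor <;> linarith)
      refine (hgrow x hx.1 _ inter_subset_left _ h1).mono ?_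
      rw [ha1]; linarith)
    (fun q hq => by
      rcases cut_dich hJ q with ⟨K, hK, hKe⟩ | h1
      · refine ((hflatJ K hK).mono_set ?_).mono (by positivity)
        rw [singleton_subset_iff, ← hKe]; exact mem_connectedComponentIn hq
      · have := hgrow q hq {q} (singleton_subset_iff.2 (mem_connectedComponentIn hq)) 0
          (hpt q hq h1)
        refine this.mono ?_
        rw [zero_add, ht, ha1, div_le_div_iff₀ (by positivity) (by positivity)]
        nlinarith [mul_pos ha hm0'])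
    hW (gset_subset.trans hEW) hε10
  -- the final correction on the cut
  have hD := hD1.trans hD2
  obtain ⟨J₂, hJ₂, L₂, C₂, hL₂, hsl₂, hC₂⟩ := hcl2.1
  have hJJ : ∀ K ∈ J ∪ J₂, K ∈ hairs E := fun K hK => by
    rcases Finset.mem_union.1 hK with h1 | h1
    · exact hJ K h1
    · exact hJ₂ K h1
  have hJJE : cut (J ∪ J₂) ⊆ E := cut_sub hJJ
  have hsupV : ∀ q ∈ Eᶜ, |φ₂ q - φ q| ≤ 8 * a := by
    intro q hq
    have h1 := abs_le.1 (hsup1 q hq)
    have h2 := abs_le.1 (hsup2 q hq)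
    rw [ha1] at h2
    rw [abs_le]; constructor <;> linarith
  set φ' : ℝ × ℝ → ℝ := fun q => if q ∈ cut (J ∪ J₂) then φ q else φ₂ q with hφ'
  have hin : ∀ q ∈ cut (J ∪ J₂), φ' q = φ q := fun q hq => if_pos hq
  have heq : ∀ q ∉ cut (J ∪ J₂), φ' q = φ₂ q := fun q hq => if_neg hq
  have heqV : ∀ q ∈ Eᶜ, φ' q = φ₂ q := fun q hq => heq q fun h => hq (hJJE h)
  refine ⟨φ', ⟨J ∪ J₂, hJJ, L₂, C₂, hL₂, ?_, ?_⟩, ?_, ?_, ?_, ?_⟩
  · refine (hsl₂.mono ?_).congr fun q hq => (heq q hq.2).symm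
    exact sdiff_subset_sdiff_right (cut_mono Finset.subset_union_right)
  · intro q hq
    rw [heq q hq.2]
    exact hC₂ q ⟨mem_univ q, fun h => hq.2 (cut_mono Finset.subset_union_right h)⟩
  · intro q hq
    by_cases hqc : q ∈ cut (J ∪ J₂)
    · exact hin q hqc
    · rw [heq q hqc, hoff2 q hq]
      refine hoff1 q fun j _ hj => hq ?_
      exact (hNU _ hj).1.2
  · intro q
    by_cases hqc : q ∈ cut (J ∪ J₂)
    · rw [hin q hqc, sub_self, abs_zero]; positivity
    · rw [heq q hqc]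
      by_cases hqE : q ∈ E
      · have hq1 : q ∈ univ \ cut J := ⟨mem_univ q, fun h => hqc (cut_mono
          Finset.subset_union_left h)⟩
        have hq2 : q ∈ univ \ cut J₂ := ⟨mem_univ q, fun h => hqc (cut_mono
          Finset.subset_union_right h)⟩
        have hc1 := hsl.continuousAt (isOpen_diff_cut isOpen_univ J) hq1
        have hc2 := hsl₂.continuousAt (isOpen_diff_cut isOpen_univ J₂) hq2
        have hc : Tendsto (fun y => |φ₂ y - φ y|) (𝓝[Eᶜ] q) (𝓝 |φ₂ q - φ q|) :=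
          ((hc2.sub hc1).abs).mono_left nhdsWithin_le_nhds
        have hnb : (𝓝[Eᶜ] q).NeBot := mem_closure_iff_nhdsWithin_neBot.1 (hclos hqE)
        exact le_of_tendsto hc (by
          filter_upwards [self_mem_nhdsWithin] with y hy using hsupV y hy)
      · exact hsupV q hqE
  · have e1 : ∫ q in Eᶜ, g2 (fun q => φ' q - φ q) q = ∫ q in Eᶜ, g2 (fun q => φ₂ q - φ q) q := by
      refine setIntegral_congr_fun hEo.measurableSet fun q hq => ?_
      refine g2_congr ?_
      filter_upwards [hEo.mem_nhds hq] with y hy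
      rw [heqV y hy]
    rw [e1]
    refine hD.2.2.2.trans ?_
    have h1 : (l:ℝ) * (ε1 / (l + 1)) + ε1 ≤ √ε := by
      have e2 : (l:ℝ) * (ε1 / (l + 1)) = ε1 * (l / (l + 1)) := by field_simp
      have : (l:ℝ) / (l + 1) ≤ 1 := by rw [div_le_one (by positivity)]; linarith
      rw [e2]
      have h3 : ε1 * (l / (l + 1)) ≤ ε1 * 1 := mul_le_mul_of_nonneg_left this hε10.le
      rw [hε1] at h3 ⊢
      linarith
    have h0 : 0 ≤ (l:ℝ) * (ε1 / (l + 1)) + ε1 := by positivity
    calc ((l:ℝ) * (ε1 / (l + 1)) + ε1) ^ 2 ≤ (√ε) ^ 2 := by gcongr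
      _ = ε := Real.sq_sqrt hε.le
  · rintro P ⟨x, hx, rfl⟩
    refine ((hosc2 x hx).congr isOpen_univ (subset_univ _) fun q hq => heqV q hq.2).mono ?_
    rw [ha1]; linarith

end Crest.Agent.R105.Stp_722
end

-- ▼ part R105/Stp12_722

/-!
Row 105 (Koebe): **leaf STEP of 257's skeleton `Skp2_257`**.
-/

set_option autoImplicit false

open Set Filter Topology Metric MeasureTheory

namespace Crest.Agent.R105.Stp_722

open CF_363 Skp2_257 SkLim2_363

theorem DE_of_Ds {E : Set (ℝ × ℝ)} {χ χ' : ℝ × ℝ → ℝ} {ε : ℝ} (h : Lop3_744.Ds E χ χ' ε) :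
    DE E χ χ' ε := by
  obtain ⟨h1, h2, h3, h4, h5⟩ := h
  exact ⟨h3, h1, h2, (setIntegral_le_integral h4 (Eventually.of_forall fun p =>
    g2_nonneg _ p)).trans h5⟩

/-- **STEP** of `Skp2_257`. -/
theorem step : Skp2_257.STEP := by
  intro E hE hL hS
  refine stepOut_of hE ?_ hS
  intro B B' G W χ c c' R τ m ε h1 h2 h3 h4 h5 h6 h7 h8 h9 h10 h11 h12 h13 h14 h15 h16
  obtain ⟨z, z', hz, hz', ho, hcl, hd⟩ := (Lop4_744.setup hE hL).layer B B' G W χ c c' R τ m ε
    h1 h2 h3 h4 h5 h6 h7 h8 h9 h10 h11 h12 h13 h14 h15 h16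
  exact ⟨z, z', hz, hz', ho, hcl, DE_of_Ds hd⟩

end Crest.Agent.R105.Stp_722
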