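import Crest.Agent.R105.Str2_421
import Crest.Agent.R105.Kin3_238

-- ▼ part R105/Str3_421
section

/-!
Row 105, lemma A: the stream function on a rectangle (helper421).
Part 3: the stream function, `Lines` without the hair condition.
-/

open MeasureTheory Set Filter Topology
open Crest.Agent.R105.CF_363 (CF SL Hair cut gx gy ramp)
open Crest.Agent.R105.Mp_87 (lam Lines)

namespace Crest.Agent.R105.Str_421

/-- the stream function on vertical lines -/
noncomputable def psi (X1 : ℝ × ℝ → ℝ) (μ : Measure (ℝ × ℝ)) (p : ℝ × ℝ) : ℝ :=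
  -lam μ p.1 - ∫ t in {t : ℝ | p.2 < t}, X1 (p.1, t)

/-- the stream function on horizontal lines, up to a constant on each line -/
noncomputable def GG (X2 : ℝ × ℝ → ℝ) (μ : Measure (ℝ × ℝ)) (p : ℝ × ℝ) : ℝ :=
  -(∫ s in {s : ℝ | s < p.1}, X2 (s, p.2)) - (μ {q | q.1 < p.1 ∧ q.2 < p.2}).toReal

/-- the constant -/
noncomputable def CC (a b : ℝ) (X1 X2 : ℝ × ℝ → ℝ) (μ : Measure (ℝ × ℝ)) (y : ℝ) : ℝ :=
  (b - a)⁻¹ * ∫ x in a..b, (psi X1 μ (x, y) - GG X2 μ (x, y))

/-- the stream function on horizontal lines -/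
noncomputable def Psi (a b : ℝ) (X1 X2 : ℝ × ℝ → ℝ) (μ : Measure (ℝ × ℝ)) (p : ℝ × ℝ) : ℝ :=
  GG X2 μ p + CC a b X1 X2 μ p.2

section

variable {a b c B : ℝ} {𝓗 : Set Hair} {X1 X2 : ℝ × ℝ → ℝ} {μ : Measure (ℝ × ℝ)}
  [IsFiniteMeasure μ]

theorem meas_psi (m1 : Measurable X1) : Measurable (psi X1 μ) := by
  have h1 : Measurable (fun p : ℝ × ℝ => lam μ p.1) :=
    (Crest.Agent.R105.Mp_87.lam_mono μ).measurable.comp measurable_fst
  have hS : MeasurableSet {r : (ℝ × ℝ) × ℝ | r.1.2 < r.2} :=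
    measurableSet_lt (measurable_snd.comp measurable_fst) measurable_snd
  have hF : Measurable ({r : (ℝ × ℝ) × ℝ | r.1.2 < r.2}.indicator
      (fun r => X1 (r.1.1, r.2))) := by
    refine Measurable.indicator ?_ hS
    exact m1.comp ((measurable_fst.comp measurable_fst).prodMk measurable_snd)
  have h2 : Measurable (fun p : ℝ × ℝ => ∫ t, ({r : (ℝ × ℝ) × ℝ | r.1.2 < r.2}.indicator
      (fun r => X1 (r.1.1, r.2))) (p, t)) :=
    (hF.stronglyMeasurable.integral_prod_right').measurable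
  have h3 : (fun p : ℝ × ℝ => ∫ t in {t : ℝ | p.2 < t}, X1 (p.1, t)) =
      fun p : ℝ × ℝ => ∫ t, ({r : (ℝ × ℝ) × ℝ | r.1.2 < r.2}.indicator
      (fun r => X1 (r.1.1, r.2))) (p, t) := by
    ext p
    rw [← integral_indicator (show MeasurableSet {t : ℝ | p.2 < t} from measurableSet_Ioi)]
    rfl
  unfold psi
  have h2' := h3 ▸ h2
  exact h1.neg.sub h2'

theorem meas_GG (m2 : Measurable X2) : Measurable (GG X2 μ) := by
  have hS : MeasurableSet {r : (ℝ × ℝ) × ℝ | r.2 < r.1.1} :=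
    measurableSet_lt measurable_snd (measurable_fst.comp measurable_fst)
  have hF : Measurable ({r : (ℝ × ℝ) × ℝ | r.2 < r.1.1}.indicator
      (fun r => X2 (r.2, r.1.2))) := by
    refine Measurable.indicator ?_ hS
    exact m2.comp (measurable_snd.prodMk (measurable_snd.comp measurable_fst))
  have h2 : Measurable (fun p : ℝ × ℝ => ∫ t, ({r : (ℝ × ℝ) × ℝ | r.2 < r.1.1}.indicator
      (fun r => X2 (r.2, r.1.2))) (p, t)) :=
    (hF.stronglyMeasurable.integral_prod_right').measurable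
  have h3 : (fun p : ℝ × ℝ => ∫ t in {t : ℝ | t < p.1}, X2 (t, p.2)) =
      fun p : ℝ × ℝ => ∫ t, ({r : (ℝ × ℝ) × ℝ | r.2 < r.1.1}.indicator
      (fun r => X2 (r.2, r.1.2))) (p, t) := by
    ext p
    rw [← integral_indicator (show MeasurableSet {t : ℝ | t < p.1} from measurableSet_Iio)]
    rfl
  have h2' := h3 ▸ h2
  have hT : MeasurableSet {r : (ℝ × ℝ) × (ℝ × ℝ) | r.2.1 < r.1.1 ∧ r.2.2 < r.1.2} :=
    (measurableSet_lt (measurable_fst.comp measurable_snd) (measurable_fst.comp measurable_fst)).inter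
    (measurableSet_lt (measurable_snd.comp measurable_snd) (measurable_snd.comp measurable_fst))
  have h4 : Measurable (fun p : ℝ × ℝ => μ {q : ℝ × ℝ | q.1 < p.1 ∧ q.2 < p.2}) :=
    measurable_measure_prodMk_left (ν := μ) hT
  unfold GG
  exact h2'.neg.sub h4.ennreal_toReal

theorem meas_CC (m1 : Measurable X1) (m2 : Measurable X2) : Measurable (CC a b X1 X2 μ) := by
  have h : Measurable (fun p : ℝ × ℝ => psi X1 μ p - GG X2 μ p) := (meas_psi m1).sub (meas_GG m2)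
  unfold CC
  refine Measurable.const_mul ?_ _
  unfold intervalIntegral
  exact (h.stronglyMeasurable.integral_prod_left' (μ := volume.restrict (Ioc a b))).measurable.sub
    (h.stronglyMeasurable.integral_prod_left' (μ := volume.restrict (Ioc b a))).measurable

theorem meas_Psi (m1 : Measurable X1) (m2 : Measurable X2) : Measurable (Psi a b X1 X2 μ) := by
  unfold Psi
  exact (meas_GG m2).add ((meas_CC m1 m2).comp measurable_snd)

omit [IsFiniteMeasure μ] in
/-- `lam` as an integral -/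
theorem lam_eq (x : ℝ) : lam μ x = ∫ _q in {q : ℝ × ℝ | q.1 < x}, (1 : ℝ) ∂μ := by
  unfold lam
  rw [setIntegral_const, smul_eq_mul, mul_one]; rfl

omit [IsFiniteMeasure μ] in
theorem mu_eq (x t : ℝ) : (μ {q : ℝ × ℝ | q.1 < x ∧ q.2 < t}).toReal =
    ∫ _q in {q : ℝ × ℝ | q.1 < x}, (1 : ℝ) ∂(μ.restrict {q | q.2 < t}) := by
  rw [setIntegral_const, smul_eq_mul, mul_one, measureReal_def,
    Measure.restrict_apply (measurableSet_lt measurable_fst measurable_const)]
  rfl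

variable {D : ℝ → ℝ} {M : ℝ}

theorem D_psi (h1 : Integrable X1) (hD : Integrable D) (hDm : Measurable D)
    (hDb : ∀ x, |D x| ≤ M) (t : ℝ) :
    Integrable (fun x => D x * psi X1 μ (x, t)) ∧
    ∫ x, D x * psi X1 μ (x, t) =
      -((∫ x, D x) * (μ univ).toReal) + (∫ q, P D q.1 ∂μ) - AA X1 D t := by
  have hone : Integrable (fun _ : ℝ × ℝ => (1 : ℝ)) μ := integrable_const _
  have k1 := dualQ (τ := fun q : ℝ × ℝ => q.1) hone hD measurable_fst
  have k1' := integrable_dualQ (τ := fun q : ℝ × ℝ => q.1) hone hD measurable_fst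
  have hU : Integrable (fun p : ℝ × ℝ => D p.1 * X1 p) := int_mul_fst h1 hDm hDb
  have hU' : Integrable (Function.uncurry fun x y : ℝ => D x * X1 (x, y))
      ((volume : Measure ℝ).prod ((volume : Measure ℝ).restrict {y : ℝ | t < y})) := by
    have e : ((volume : Measure ℝ).prod ((volume : Measure ℝ).restrict {y : ℝ | t < y})) =
        (volume : Measure (ℝ × ℝ)).restrict (univ ×ˢ {y : ℝ | t < y}) := by
      rw [Measure.volume_eq_prod, ← Measure.prod_restrict, Measure.restrict_univ]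
    rw [e]
    exact hU.restrict
  have e2 : ∀ x, D x * (∫ s in {s : ℝ | t < s}, X1 (x, s)) =
      ∫ s in {s : ℝ | t < s}, D x * X1 (x, s) := fun x => (integral_const_mul _ _).symm
  have k2 : ∫ x, D x * (∫ s in {s : ℝ | t < s}, X1 (x, s)) = AA X1 D t := by
    simp only [e2]
    rw [integral_integral_swap hU']
    unfold AA
    exact (integral_Ici_eq_integral_Ioi (μ := volume)
      (f := fun y => ∫ x, D x * X1 (x, y)) (x := t)).symm
  have k2' : Integrable (fun x => D x * (∫ s in {s : ℝ | t < s}, X1 (x, s))) := by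
    simp only [e2]
    exact hU'.integral_prod_left
  have e3 : (fun x => D x * psi X1 μ (x, t)) = fun x =>
      -(D x * ∫ _q in {q : ℝ × ℝ | q.1 < x}, (1 : ℝ) ∂μ) -
        D x * (∫ s in {s : ℝ | t < s}, X1 (x, s)) := by
    ext x; unfold psi; rw [lam_eq]; ring
  rw [e3]
  refine ⟨k1'.neg.sub k2', ?_⟩
  have k1n : Integrable (fun x => -(D x * ∫ _q in {q : ℝ × ℝ | q.1 < x}, (1 : ℝ) ∂μ)) := k1'.neg
  rw [integral_sub k1n k2', integral_neg, k2, k1]
  simp only [one_mul, integral_const, smul_eq_mul, mul_one]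
  rw [measureReal_def]; ring

theorem D_GG (hD : Integrable D) (t : ℝ)
    (ht : Integrable (fun s => X2 (s, t))) :
    Integrable (fun x => D x * GG X2 μ (x, t)) ∧
    ∫ x, D x * GG X2 μ (x, t) =
      -((∫ x, D x) * ∫ s, X2 (s, t)) + WW X2 (P D) t
        - (∫ x, D x) * (μ {q | q.2 < t}).toReal + ∫ q in {q : ℝ × ℝ | q.2 < t}, P D q.1 ∂μ := by
  have hone : Integrable (fun _ : ℝ × ℝ => (1 : ℝ)) (μ.restrict {q | q.2 < t}) := integrable_const _
  have k1 := dualQ (τ := fun q : ℝ × ℝ => q.1) hone hD measurable_fst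
  have k1' := integrable_dualQ (τ := fun q : ℝ × ℝ => q.1) hone hD measurable_fst
  have k2 := dualQ (τ := fun s : ℝ => s) ht hD measurable_id
  have k2' := integrable_dualQ (τ := fun s : ℝ => s) ht hD measurable_id
  have e3 : (fun x => D x * GG X2 μ (x, t)) = fun x =>
      -(D x * ∫ s in {s : ℝ | s < x}, X2 (s, t)) -
        D x * ∫ _q in {q : ℝ × ℝ | q.1 < x}, (1 : ℝ) ∂(μ.restrict {q | q.2 < t}) := by
    ext x; unfold GG; rw [mu_eq]; ring
  rw [e3]
  have k2n : Integrable (fun x => -(D x * ∫ s in {s : ℝ | s < x}, X2 (s, t))) := k2'.neg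
  refine ⟨k2n.sub k1', ?_⟩
  rw [integral_sub k2n k1', integral_neg, k2, k1]
  simp only [one_mul, integral_const, smul_eq_mul, mul_one]
  rw [measureReal_def, Measure.restrict_apply MeasurableSet.univ, univ_inter]
  have e4 : ∫ ω, X2 (ω, t) * P D ω = WW X2 (P D) t := by
    unfold WW; congr 1; ext s; ring
  rw [e4]; ring

theorem int_split {α : ℝ → ℝ} {A0 : ℝ} (hαm : Measurable α) (hA : ∀ x, |α x| ≤ A0) (t : ℝ) :
    (∫ q in {q : ℝ × ℝ | q.2 < t}, α q.1 ∂μ) = (∫ q, α q.1 ∂μ) - NN μ α t :=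
  int_lt (τ := fun q : ℝ × ℝ => q.2) (integrable_fst hαm hA) measurable_snd t

/-- the difference `ψ - G` on a horizontal line against a zero mean density -/
theorem D_diff (h1 : Integrable X1) (hD : Integrable D) (hDm : Measurable D)
    (hDb : ∀ x, |D x| ≤ M) (h0 : ∫ x, D x = 0) (t : ℝ) (ht : Integrable (fun s => X2 (s, t))) :
    Integrable (fun x => D x * (psi X1 μ (x, t) - GG X2 μ (x, t))) ∧
    ∫ x, D x * (psi X1 μ (x, t) - GG X2 μ (x, t)) = - BR X1 X2 μ D (P D) t := by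
  obtain ⟨i1, e1⟩ := D_psi (μ := μ) h1 hD hDm hDb t
  obtain ⟨i2, e2⟩ := D_GG (μ := μ) hD t ht
  have e : (fun x => D x * (psi X1 μ (x, t) - GG X2 μ (x, t))) = fun x =>
      D x * psi X1 μ (x, t) - D x * GG X2 μ (x, t) := by ext x; ring
  rw [e]
  refine ⟨i1.sub i2, ?_⟩
  rw [integral_sub i1 i2, e1, e2, h0, int_split (P_measurable hD hDb).measurable (P_bdd hD)]
  unfold BR
  ring

/-- the zero mean densities -/
noncomputable def DD (a b ξ : ℝ) (x : ℝ) : ℝ := I1 a ξ x - ((ξ - a) / (b - a)) * I1 a b x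

theorem DD_meas (a b ξ : ℝ) : Measurable (DD a b ξ) :=
  (I1_meas a ξ).sub ((I1_meas a b).const_mul _)

theorem DD_int (a b ξ : ℝ) : Integrable (DD a b ξ) :=
  (I1_int a ξ).sub ((I1_int a b).const_mul _)

theorem DD_bdd (a b ξ : ℝ) (x : ℝ) : |DD a b ξ x| ≤ 1 + |(ξ - a) / (b - a)| := by
  unfold DD
  refine (abs_sub _ _).trans (add_le_add (I1_bdd _ _ _) ?_)
  rw [abs_mul]
  calc _ ≤ |(ξ - a) / (b - a)| * 1 := mul_le_mul_of_nonneg_left (I1_bdd _ _ _) (abs_nonneg _)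
    _ = _ := mul_one _

theorem DD_zero {a b ξ : ℝ} (hab : a < b) (hξ : a ≤ ξ) : ∫ x, DD a b ξ x = 0 := by
  unfold DD
  rw [integral_sub (I1_int _ _) ((I1_int _ _).const_mul _), integral_const_mul,
    I1_total a ξ hξ, I1_total a b hab.le]
  have : b - a ≠ 0 := by linarith
  field_simp
  ring

/-- the horizontal identity -/
theorem br_zero (h : FlowF a b c B 𝓗 X1 X2 μ) (hD : Integrable D) (hDm : Measurable D)
    (hDb : ∀ x, |D x| ≤ M) : ∀ᵐ t, c < t → BR X1 X2 μ D (P D) t = 0 := by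
  have key : ∀ n : ℕ, ∀ᵐ t, t ∈ Ioo c (n : ℝ) → BR X1 X2 μ D (P D) t = 0 := by
    intro n
    refine zero_of_tests (fun u' hu' => ?_) (fun u' x hu' hx hxv => ?_)
    · exact (fi_int (μ := μ) h.int1 h.int2 hDm hDb (P_measurable hD hDb).measurable (P_bdd hD)
        (I1_int u' n) (I1_meas u' n) (I1_bdd u' n)).2.2.2
    · refine flow_prod h hD hDm hDb (I1_int u' x) (I1_meas u' x) (I1_bdd u' x)
        ⟨u' - c, by linarith, fun t ht => I1_left (by linarith)⟩
  filter_upwards [ae_all_iff.mpr key] with t ht hct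
  obtain ⟨n, hn⟩ := exists_nat_gt t
  exact ht n ⟨hct, hn⟩

/-- the function `G + C` agrees with `ψ` on almost every horizontal line -/
theorem E_line (hab : a < b) (h : FlowF a b c B 𝓗 X1 X2 μ) :
    ∀ᵐ t, c < t → ∀ᵐ x, x ∈ Ioo a b → Psi a b X1 X2 μ (x, t) = psi X1 μ (x, t) := by
  have h2 : ∀ᵐ t : ℝ, Integrable (fun s => X2 (s, t)) := by
    have := h.int2
    rw [Measure.volume_eq_prod] at this
    exact this.prod_left_ae
  have h3 : ∀ᵐ t : ℝ, ∀ ξ : ℚ, c < t → BR X1 X2 μ (DD a b ξ) (P (DD a b ξ)) t = 0 :=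
    ae_all_iff.mpr fun ξ => br_zero h (DD_int a b ξ) (DD_meas a b ξ) (DD_bdd a b ξ)
  filter_upwards [h2, h3] with t ht2 ht3 hct
  have i0 : Integrable (fun x => I1 a b x * (psi X1 μ (x, t) - GG X2 μ (x, t))) := by
    have i1 := (D_psi (μ := μ) h.int1 (I1_int a b) (I1_meas a b) (I1_bdd a b) t).1
    have i2 := (D_GG (μ := μ) (I1_int a b) t ht2).1
    refine (i1.sub i2).congr (Eventually.of_forall fun x => ?_)
    simp only [Pi.sub_apply]; ring
  have i3 : IntegrableOn (fun x => psi X1 μ (x, t) - GG X2 μ (x, t)) (Ioc a b) := I1_mul_int i0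
  have i4 : IntervalIntegrable (fun x => psi X1 μ (x, t) - GG X2 μ (x, t)) volume a b := by
    rw [intervalIntegrable_iff_integrableOn_Ioc_of_le hab.le]; exact i3
  have key := ae_zero_of_prim (k := fun x => (psi X1 μ (x, t) - GG X2 μ (x, t)) - CC a b X1 X2 μ t)
    (u := a) (v := b) (i4.sub intervalIntegrable_const) (fun ξ hξ => ?_)
  · filter_upwards [key] with x hx hxI
    have := hx hxI
    unfold Psi
    simp only at this ⊢
    linarith
  · have hz := DD_zero hab hξ.1.le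
    obtain ⟨-, e⟩ := D_diff (μ := μ) (X2 := X2) h.int1 (DD_int a b ξ) (DD_meas a b ξ)
      (DD_bdd a b ξ) hz t ht2
    rw [ht3 ξ hct, neg_zero] at e
    have i5 : IntervalIntegrable (fun x => psi X1 μ (x, t) - GG X2 μ (x, t)) volume a ξ :=
      i4.mono_set (by rw [uIcc_of_le hab.le, uIcc_of_le hξ.1.le]; exact Icc_subset_Icc_right hξ.2.le)
    have i6 : Integrable (fun x => I1 a ξ x * (psi X1 μ (x, t) - GG X2 μ (x, t))) := by
      have := (intervalIntegrable_iff_integrableOn_Ioc_of_le hξ.1.le).mp i5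
      rw [← integrable_indicator_iff measurableSet_Ioc] at this
      refine this.congr (Eventually.of_forall fun x => ?_)
      simp only [I1]
      by_cases h : x ∈ Ioc a (ξ : ℝ)
      · rw [indicator_of_mem h, indicator_of_mem h, one_mul]
      · rw [indicator_of_notMem h, indicator_of_notMem h, zero_mul]
    have e1 : ∫ x, DD a b ξ x * (psi X1 μ (x, t) - GG X2 μ (x, t)) =
        (∫ x in a..ξ, (psi X1 μ (x, t) - GG X2 μ (x, t))) -
        ((ξ - a) / (b - a)) * ∫ x in a..b, (psi X1 μ (x, t) - GG X2 μ (x, t)) := by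
      rw [← I1_mul a ξ hξ.1.le, ← I1_mul a b hab.le, ← integral_const_mul,
        ← integral_sub i6 (i0.const_mul _)]
      congr 1; ext x; unfold DD; ring
    rw [intervalIntegral.integral_sub i5 intervalIntegrable_const, intervalIntegral.integral_const,
      smul_eq_mul]
    rw [e1] at e
    unfold CC
    rw [← e]
    ring

theorem E_ae (hab : a < b) (h : FlowF a b c B 𝓗 X1 X2 μ) :
    ∀ᵐ p : ℝ × ℝ, p.1 ∈ Ioo a b → c < p.2 → Psi a b X1 X2 μ p = psi X1 μ p := by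
  have hm : MeasurableSet {p : ℝ × ℝ | p.1 ∈ Ioo a b → c < p.2 →
      Psi a b X1 X2 μ p = psi X1 μ p} := by
    have e : {p : ℝ × ℝ | p.1 ∈ Ioo a b → c < p.2 → Psi a b X1 X2 μ p = psi X1 μ p} =
        ((Prod.fst ⁻¹' (Ioo a b) ∩ Prod.snd ⁻¹' (Ioi c)))ᶜ ∪
          {p : ℝ × ℝ | Psi a b X1 X2 μ p = psi X1 μ p} := by
      ext p
      simp only [mem_setOf_eq, mem_union, mem_compl_iff, mem_inter_iff, mem_preimage, mem_Ioi]
      tauto
    rw [e]
    exact (((measurable_fst measurableSet_Ioo).inter (measurable_snd measurableSet_Ioi)).compl).union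
      (measurableSet_eq_fun (meas_Psi h.m1 h.m2) (meas_psi h.m1))
  rw [Measure.volume_eq_prod, Measure.ae_prod_iff_ae_ae hm,
    Measure.ae_ae_comm (p := fun x y : ℝ => (x, y).1 ∈ Ioo a b → c < (x, y).2 →
      Psi a b X1 X2 μ (x, y) = psi X1 μ (x, y)) hm]
  filter_upwards [E_line hab h] with t ht
  by_cases hct : c < t
  · filter_upwards [ht hct] with x hx hxI _
    exact hx hxI
  · exact Eventually.of_forall fun x _ hh => absurd hh hct

/-- vertical increments -/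
theorem V_ae (h : FlowF a b c B 𝓗 X1 X2 μ) : ∀ᵐ x : ℝ, ∀ y y' : ℝ,
    psi X1 μ (x, y') - psi X1 μ (x, y) = ∫ t in y..y', X1 (x, t) := by
  have h1 : ∀ᵐ x : ℝ, Integrable (fun t => X1 (x, t)) := by
    have := h.int1
    rw [Measure.volume_eq_prod] at this
    exact this.prod_right_ae
  filter_upwards [h1] with x hx y y'
  have := intervalIntegral.integral_Ioi_sub_Ioi' (f := fun t => X1 (x, t)) (a := y) (b := y')
    hx.integrableOn hx.integrableOn
  unfold psi
  rw [← this]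
  simp only
  change _ - (∫ t in Ioi y', X1 (x, t)) - (_ - (∫ t in Ioi y, X1 (x, t))) = _
  ring

/-- horizontal increments -/
theorem H_ae (h : FlowF a b c B 𝓗 X1 X2 μ) : ∀ᵐ y : ℝ, ∀ x x' : ℝ, x ≤ x' →
    Psi a b X1 X2 μ (x', y) - Psi a b X1 X2 μ (x, y) =
      -(∫ s in x..x', X2 (s, y)) - (μ {q | q.1 ∈ Ico x x' ∧ q.2 < y}).toReal := by
  have h1 : ∀ᵐ y : ℝ, Integrable (fun s => X2 (s, y)) := by
    have := h.int2
    rw [Measure.volume_eq_prod] at this
    exact this.prod_left_ae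
  filter_upwards [h1] with y hy x x' hxx
  have e1 := intervalIntegral.integral_Iic_sub_Iic (f := fun s => X2 (s, y)) (μ := volume)
    (a := x) (b := x') hy.integrableOn hy.integrableOn
  rw [integral_Iic_eq_integral_Iio, integral_Iic_eq_integral_Iio] at e1
  have e2 : (μ {q : ℝ × ℝ | q.1 < x' ∧ q.2 < y}).toReal =
      (μ {q : ℝ × ℝ | q.1 < x ∧ q.2 < y}).toReal +
        (μ {q : ℝ × ℝ | q.1 ∈ Ico x x' ∧ q.2 < y}).toReal := by
    rw [← ENNReal.toReal_add (measure_ne_top _ _) (measure_ne_top _ _), ← measure_union]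
    · congr 2
      ext q
      simp only [mem_setOf_eq, mem_union, mem_Ico]
      constructor
      · rintro ⟨h1, h2⟩
        rcases lt_or_ge q.1 x with h3 | h3
        · exact Or.inl ⟨h3, h2⟩
        · exact Or.inr ⟨⟨h3, h1⟩, h2⟩
      · rintro (⟨h1, h2⟩ | ⟨⟨h1, h1'⟩, h2⟩)
        · exact ⟨lt_of_lt_of_le h1 hxx, h2⟩
        · exact ⟨h1', h2⟩
    · rw [Set.disjoint_left]
      rintro q ⟨h1, -⟩ ⟨⟨h2, -⟩, -⟩
      exact absurd h1 (not_lt.mpr h2)
    · exact ((measurable_fst measurableSet_Ico).inter (measurable_snd measurableSet_Iio))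
  unfold Psi GG
  simp only
  rw [e2, ← e1]
  change -(∫ s in Iio x', X2 (s, y)) - _ + _ - (-(∫ s in Iio x, X2 (s, y)) - _ + _) = _
  ring

omit [IsFiniteMeasure μ] in
theorem strip_eq (h : FlowF a b c B 𝓗 X1 X2 μ) (p : ℝ × ℝ) (hp : B ≤ p.2) :
    psi X1 μ p = - lam μ p.1 := by
  unfold psi
  have : ∫ t in {t : ℝ | p.2 < t}, X1 (p.1, t) = 0 := by
    refine setIntegral_eq_zero_of_forall_eq_zero fun t ht => h.z1 _ ?_
    rintro ⟨-, -, -, h4⟩
    exact absurd (lt_of_le_of_lt hp ht) (not_lt.mpr h4.le)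
  rw [this, sub_zero]

end

end Crest.Agent.R105.Str_421
end

-- ▼ part R105/Str4_421
section

/-!
Row 105, lemma A: the stream function on a rectangle (helper421).
Part 4: the stream function is constant along the hairs (T), and `Lines`.
-/

open MeasureTheory Set Filter Topology
open Crest.Agent.R105.CF_363 (CF SL Hair cut gx gy ramp)
open Crest.Agent.R105.Mp_87 (lam Lines)

namespace Crest.Agent.R105.Str_421

/-- derivative of the ramp -/
noncomputable def rD (ξ r : ℝ) (x : ℝ) : ℝ := -(1 / r) * I1 ξ (ξ + r) x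

/-- one-sided ramp -/
noncomputable def rB (ξ r : ℝ) (x : ℝ) : ℝ := if ξ < x then ramp r (x - ξ) else 0

section Ramp

variable {ξ r : ℝ}

theorem rD_meas : Measurable (rD ξ r) := (I1_meas _ _).const_mul _

theorem rD_int : Integrable (rD ξ r) := (I1_int _ _).const_mul _

theorem rD_bdd (hr : 0 < r) (x : ℝ) : |rD ξ r x| ≤ 1 / r := by
  unfold rD
  rw [abs_mul, abs_neg, abs_of_pos (show 0 < 1 / r by positivity)]
  calc _ ≤ 1 / r * 1 := mul_le_mul_of_nonneg_left (I1_bdd _ _ _) (by positivity)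
    _ = _ := mul_one _

theorem rD_total (hr : 0 < r) : ∫ x, rD ξ r x = -1 := by
  unfold rD
  rw [integral_const_mul, I1_total _ _ (by linarith)]
  field_simp
  ring

theorem rD_left {x : ℝ} (h : x ≤ ξ) : rD ξ r x = 0 := by
  unfold rD; rw [I1_left h, mul_zero]

theorem rD_right {x : ℝ} (h : ξ + r < x) : rD ξ r x = 0 := by
  unfold rD; rw [I1_right h, mul_zero]

theorem P_rD_left {x : ℝ} (h : x ≤ ξ) : P (rD ξ r) x = 0 :=
  P_eq_zero fun _ ht => rD_left (ht.trans h)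

theorem P_rD_right (hr : 0 < r) {x : ℝ} (h : ξ < x) : 1 + P (rD ξ r) x = ramp r (x - ξ) := by
  have hx : |x - ξ| = x - ξ := abs_of_pos (by linarith)
  rcases le_or_gt x (ξ + r) with h1 | h1
  · have e := P_sub (rD_int (ξ := ξ) (r := r)) ξ x
    rw [P_rD_left le_rfl, sub_zero] at e
    have e2 : ∫ t in ξ..x, rD ξ r t = ∫ _t in ξ..x, -(1 / r) := by
      refine intervalIntegral.integral_congr_ae (Eventually.of_forall fun t ht => ?_)
      rw [uIoc_of_le h.le] at ht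
      unfold rD I1
      rw [indicator_of_mem (show t ∈ Ioc ξ (ξ + r) from ⟨ht.1, ht.2.trans h1⟩), mul_one]
    rw [e, e2, intervalIntegral.integral_const, smul_eq_mul]
    unfold ramp
    rw [hx, max_eq_right]
    · field_simp; ring
    · have : (x - ξ) / r ≤ 1 := by rw [div_le_one hr]; linarith
      linarith
  · rw [P_eq_total rD_int (fun t ht => rD_right (h1.trans ht)), rD_total hr,
      Crest.Agent.R105.CF_363.ramp_eq_zero hr (by rw [hx]; linarith)]
    ring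

/-- `1 + P D = β + 1_{x ≤ ξ}` -/
theorem P_rD (hr : 0 < r) (x : ℝ) :
    P (rD ξ r) x = rB ξ r x + (Iic ξ).indicator (fun _ => (1 : ℝ)) x - 1 := by
  unfold rB
  split_ifs with h
  · rw [indicator_of_notMem (show x ∉ Iic ξ from fun hh => absurd h (not_lt.mpr hh)), add_zero,
      ← P_rD_right hr h]
    ring
  · rw [indicator_of_mem (show x ∈ Iic ξ from not_lt.mp h), P_rD_left (not_lt.mp h)]
    ring

theorem rB_meas (hr : 0 < r) : Measurable (rB ξ r) := by
  have e : rB ξ r = fun x => P (rD ξ r) x - (Iic ξ).indicator (fun _ => (1 : ℝ)) x + 1 := by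
    ext x; rw [P_rD hr]; ring
  rw [e]
  exact ((P_measurable rD_int (rD_bdd hr)).measurable.sub
    (measurable_const.indicator measurableSet_Iic)).add_const _

theorem rB_bdd (hr : 0 < r) (x : ℝ) : |rB ξ r x| ≤ 1 := by
  unfold rB
  split_ifs
  · rw [abs_of_nonneg (Crest.Agent.R105.CF_363.ramp_nonneg _ _)]
    exact Crest.Agent.R105.CF_363.ramp_le_one hr.le _
  · simp

theorem rB_deriv (hr : 0 < r) : ∀ᵐ x, HasDerivAt (rB ξ r) (rD ξ r x) x := by
  have hne : ∀ᵐ x : ℝ, x ≠ ξ := by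
    rw [ae_iff]; simp
  filter_upwards [P_hasDerivAt (rD_int (ξ := ξ) (r := r)), hne] with x hx hxne
  rcases lt_or_gt_of_ne hxne with h | h
  · rw [rD_left h.le]
    refine (hasDerivAt_const x (0 : ℝ)).congr_of_eventuallyEq ?_
    filter_upwards [Iio_mem_nhds h] with z hz
    unfold rB
    rw [if_neg (not_lt.mpr (le_of_lt hz))]
  · refine (hx.const_add 1).congr_of_eventuallyEq ?_
    filter_upwards [Ioi_mem_nhds h] with z hz
    unfold rB
    rw [if_pos (show ξ < z from hz), P_rD_right hr hz]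

theorem int_PrD {Ω : Type*} [MeasurableSpace Ω] {ν : Measure Ω} {f : Ω → ℝ} {τ : Ω → ℝ}
    (hf : Integrable f ν) (hτ : Measurable τ) (hr : 0 < r) :
    ∫ ω, P (rD ξ r) (τ ω) * f ω ∂ν =
      (∫ ω, rB ξ r (τ ω) * f ω ∂ν) + (∫ ω in {ω | τ ω ≤ ξ}, f ω ∂ν) - ∫ ω, f ω ∂ν := by
  have hS : MeasurableSet {ω | τ ω ≤ ξ} := measurableSet_le hτ measurable_const
  have i1 : Integrable (fun ω => rB ξ r (τ ω) * f ω) ν :=
    hf.bdd_mul (c := 1) ((rB_meas hr).comp hτ).aestronglyMeasurable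
      (Eventually.of_forall fun ω => by rw [Real.norm_eq_abs]; exact rB_bdd hr _)
  have i2 : Integrable ({ω | τ ω ≤ ξ}.indicator f) ν := hf.indicator hS
  have i12 : Integrable (fun ω => rB ξ r (τ ω) * f ω + {ω | τ ω ≤ ξ}.indicator f ω) ν := i1.add i2
  rw [← integral_indicator hS, ← integral_add i1 i2, ← integral_sub i12 hf]
  congr 1
  ext ω
  rw [P_rD hr]
  by_cases hω : τ ω ≤ ξ
  · rw [indicator_of_mem (show ω ∈ {ω | τ ω ≤ ξ} from hω),
      indicator_of_mem (show τ ω ∈ Iic ξ from hω)]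
    ring
  · rw [indicator_of_notMem (show ω ∉ {ω | τ ω ≤ ξ} from hω),
      indicator_of_notMem (show τ ω ∉ Iic ξ from hω)]
    ring

end Ramp

section T

variable {a b c B : ℝ} {𝓗 : Set Hair} {X1 X2 : ℝ × ℝ → ℝ} {μ : Measure (ℝ × ℝ)}
  [IsFiniteMeasure μ]

/-- the flow tested with a one-sided ramp at a hair -/
theorem hair_test (h : FlowF a b c B 𝓗 X1 X2 μ) {K : Hair} (hK : K ∈ 𝓗)
    (hμK : μ K.car = 0) {v : ℝ} (hv : K.b < v)
    (hv' : K.t = v ∨ B ≤ K.t) {r : ℝ} (hr : 0 < r) {E : ℝ → ℝ} {ME : ℝ}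
    (hE : Integrable E) (hEm : Measurable E) (hEb : ∀ x, |E x| ≤ ME)
    (hE0 : ∃ δ > 0, ∀ t ≤ c + δ, E t = 0) (hEK : ∀ t ≤ K.b, E t = 0) (hEv : ∀ t, v < t → E t = 0)
    (hEt : ∫ t, E t = 0) :
    ∫ t, E t * BR X1 X2 μ (rD K.x r) (rB K.x r) t = 0 := by
  have hME : 0 ≤ ME := (abs_nonneg _).trans (hEb 0)
  refine flow_line h (rB_meas hr) (rB_bdd hr) rD_meas (rD_bdd hr) (rB_deriv hr) hE hEm hEb hE0
    {K} (by simpa using hK) ?_ ?_
  · have : cut {K} = K.car := by ext p; simp [Crest.Agent.R105.CF_363.cut]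
    rw [this]; exact hμK
  · have hc := Crest.Agent.R105.CF_363.CF_ramp_right ⟨K.x, K.b, v, hv⟩ (χ := P E)
      (A := ∫ t, |E t|) (M := ME) (r := r) (integral_nonneg fun _ => abs_nonneg _) hME hr
      (P_lip hE hEb) (P_bdd hE) (fun y hy => by
        simp only [mem_Icc, not_and_or, not_le] at hy
        rcases hy with hy | hy
        · exact P_eq_zero fun t ht => hEK t (ht.trans hy.le)
        · rw [P_eq_total hE (fun t ht => hEv t (hy.trans ht)), hEt])
    have e : (fun p : ℝ × ℝ => rB K.x r p.1 * P E p.2) =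
        fun p : ℝ × ℝ => if K.x < p.1 then P E p.2 * ramp r (p.1 - K.x) else 0 := by
      ext p; unfold rB; split_ifs
      · exact mul_comm _ _
      · exact zero_mul _
    rw [e]
    refine hc.mono ?_
    rintro p ⟨⟨-, -, -, hp4⟩, hpn⟩ ⟨hq1, hq2, hq3⟩
    simp only at hq1 hq2 hq3
    apply hpn
    refine ⟨K, by simp, hq1, hq2, ?_⟩
    rcases hv' with hv' | hv'
    · rw [hv']; exact hq3
    · exact hp4.trans hv'

/-- the bracket is constant along a hair -/
theorem hair_const (h : FlowF a b c B 𝓗 X1 X2 μ) {K : Hair} (hK : K ∈ 𝓗)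
    (hμK : μ K.car = 0) {v : ℝ} (hv : K.b < v) (hcv : c < v)
    (hv' : K.t = v ∨ B ≤ K.t) {r : ℝ} (hr : 0 < r) :
    ∃ κ, ∀ᵐ t, t ∈ Ioo (max K.b c) v → BR X1 X2 μ (rD K.x r) (rB K.x r) t = κ := by
  have huv : max K.b c < v := max_lt hv hcv
  obtain ⟨w, hw1, hw2⟩ := exists_between huv
  refine ⟨_, const_of_tests hw1 hw2 (fun u' hu' => ?_) (fun u' x hu' hx hxv => ?_)⟩
  · exact (fi_int (μ := μ) h.int1 h.int2 rD_meas (rD_bdd hr) (rB_meas hr) (rB_bdd hr)
      (I1_int u' v) (I1_meas u' v) (I1_bdd u' v)).2.2.2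
  · have hub : K.b < u' := lt_of_le_of_lt (le_max_left _ _) hu'
    have huc : c < u' := lt_of_le_of_lt (le_max_right _ _) hu'
    have hwb : K.b < w := lt_of_le_of_lt (le_max_left _ _) hw1
    have hwc : c < w := lt_of_le_of_lt (le_max_right _ _) hw1
    refine hair_test h hK hμK hv hv' hr
      (E := fun t => I1 u' x t - ((x - u') / (v - w)) * I1 w v t)
      (ME := 1 + |(x - u') / (v - w)|)
      ((I1_int _ _).sub ((I1_int _ _).const_mul _))
      ((I1_meas _ _).sub ((I1_meas _ _).const_mul _)) (fun t => ?_) ?_ ?_ ?_ ?_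
    · refine (abs_sub _ _).trans (add_le_add (I1_bdd _ _ _) ?_)
      rw [abs_mul]
      calc _ ≤ |(x - u') / (v - w)| * 1 := mul_le_mul_of_nonneg_left (I1_bdd _ _ _) (abs_nonneg _)
        _ = _ := mul_one _
    · refine ⟨min u' w - c, by rw [gt_iff_lt, sub_pos]; exact lt_min huc hwc, fun t ht => ?_⟩
      have ht' : t ≤ min u' w := by linarith
      rw [I1_left (ht'.trans (min_le_left _ _)), I1_left (ht'.trans (min_le_right _ _))]
      ring
    · intro t ht
      rw [I1_left (ht.trans hub.le), I1_left (ht.trans hwb.le)]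
      ring
    · intro t ht
      rw [I1_right (hxv.trans ht), I1_right ht]
      ring
    · rw [integral_sub (I1_int _ _) ((I1_int _ _).const_mul _), integral_const_mul,
        I1_total _ _ hx, I1_total _ _ hw2.le]
      have : v - w ≠ 0 := by linarith
      field_simp
      ring

omit [IsFiniteMeasure μ] in
theorem X2_line (h : FlowF a b c B 𝓗 X1 X2 μ) : ∀ᵐ t : ℝ, Integrable (fun s => X2 (s, t)) := by
  have := h.int2
  rw [Measure.volume_eq_prod] at this
  exact this.prod_left_ae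

/-- `Ψ` on a vertical line through the bracket of the one-sided ramp -/
theorem Psi_hair (hab : a < b) (h : FlowF a b c B 𝓗 X1 X2 μ) {ξ r : ℝ} (hξ : a < ξ) (hr : 0 < r)
    (hξr : ξ + r < b) :
    ∀ᵐ t, c < t → Psi a b X1 X2 μ (ξ, t) = BR X1 X2 μ (rD ξ r) (rB ξ r) t
      - (μ {q | q.1 ≤ ξ}).toReal + (μ {q | q.1 = ξ ∧ q.2 < t}).toReal := by
  filter_upwards [X2_line h, E_line hab h] with t ht2 htE hct
  obtain ⟨i1, e1⟩ := D_psi (μ := μ) h.int1 (rD_int (ξ := ξ) (r := r)) rD_meas (rD_bdd hr) t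
  obtain ⟨i2, e2⟩ := D_GG (μ := μ) (rD_int (ξ := ξ) (r := r)) t ht2
  have e3 : ∫ x, rD ξ r x * Psi a b X1 X2 μ (x, t) = ∫ x, rD ξ r x * psi X1 μ (x, t) := by
    refine integral_congr_ae ?_
    filter_upwards [htE hct] with x hx
    by_cases hI : x ∈ Ioc ξ (ξ + r)
    · rw [hx ⟨hξ.trans hI.1, lt_of_le_of_lt hI.2 hξr⟩]
    · have : rD ξ r x = 0 := by unfold rD I1; rw [indicator_of_notMem hI, mul_zero]
      rw [this, zero_mul, zero_mul]
  have e4 : ∫ x, rD ξ r x * Psi a b X1 X2 μ (x, t) =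
      (∫ x, rD ξ r x * GG X2 μ (x, t)) + (∫ x, rD ξ r x) * CC a b X1 X2 μ t := by
    rw [← integral_mul_const, ← integral_add i2 (rD_int.mul_const _)]
    congr 1; ext x; unfold Psi; ring
  have w1 := int_PrD (ξ := ξ) (r := r) (τ := fun s : ℝ => s) ht2 measurable_id hr
  have hone : Integrable (fun _ : ℝ × ℝ => (1 : ℝ)) μ := integrable_const _
  have hone' : Integrable (fun _ : ℝ × ℝ => (1 : ℝ)) (μ.restrict {q | q.2 < t}) :=
    integrable_const _
  have w2 := int_PrD (ξ := ξ) (r := r) (τ := fun q : ℝ × ℝ => q.1) hone measurable_fst hr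
  have w3 := int_PrD (ξ := ξ) (r := r) (τ := fun q : ℝ × ℝ => q.1) hone' measurable_fst hr
  have w4 := int_split (μ := μ) (α := rB ξ r) (rB_meas hr) (rB_bdd hr) t
  simp only [mul_one, integral_const, smul_eq_mul, measureReal_def] at w2 w3
  rw [Measure.restrict_apply_univ, Measure.restrict_apply_univ,
    Measure.restrict_apply (measurableSet_le measurable_fst measurable_const)] at w3
  rw [Measure.restrict_apply_univ] at w2
  have m1 : (μ ({q : ℝ × ℝ | q.1 ≤ ξ} ∩ {q | q.2 < t})).toReal =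
      (μ {q : ℝ × ℝ | q.1 < ξ ∧ q.2 < t}).toReal + (μ {q : ℝ × ℝ | q.1 = ξ ∧ q.2 < t}).toReal := by
    rw [← ENNReal.toReal_add (measure_ne_top _ _) (measure_ne_top _ _), ← measure_union]
    · congr 2
      ext q
      constructor
      · rintro ⟨h1, h2⟩
        rcases lt_or_eq_of_le (show q.1 ≤ ξ from h1) with h3 | h3
        · exact Or.inl ⟨h3, h2⟩
        · exact Or.inr ⟨h3, h2⟩
      · rintro (⟨h1, h2⟩ | ⟨h1, h2⟩)
        · exact ⟨le_of_lt h1, h2⟩
        · exact ⟨le_of_eq h1, h2⟩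
    · rw [Set.disjoint_left]
      rintro q ⟨h1, -⟩ ⟨h2, -⟩
      exact absurd h2 (ne_of_lt h1)
    · exact ((measurable_fst (measurableSet_singleton ξ)).inter (measurable_snd measurableSet_Iio))
  have w1' : WW X2 (P (rD ξ r)) t = WW X2 (rB ξ r) t + (∫ s in Iio ξ, X2 (s, t))
      - ∫ s, X2 (s, t) := by
    rw [← integral_Iic_eq_integral_Iio]; exact w1
  rw [e3, e1, e2, rD_total hr, w1', w3, w2, w4, m1] at e4
  unfold Psi GG BR
  simp only
  change -(∫ s in Iio ξ, X2 (s, t)) - _ + _ = _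
  linarith

omit [IsFiniteMeasure μ] in
/-- above the level the bracket vanishes -/
theorem BR_top (h : FlowF a b c B 𝓗 X1 X2 μ) (D α : ℝ → ℝ) {t : ℝ} (ht : B < t) :
    BR X1 X2 μ D α t = 0 := by
  have e1 : AA X1 D t = 0 := by
    unfold AA
    refine setIntegral_eq_zero_of_forall_eq_zero fun y hy => ?_
    have : (fun x => D x * X1 (x, y)) = fun _ => 0 := by
      ext x
      rw [h.z1 (x, y) (fun hh => absurd (ht.trans_le hy) (not_lt.mpr hh.2.2.2.le)), mul_zero]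
    rw [this, integral_zero]
  have e2 : WW X2 α t = 0 := by
    unfold WW
    have : (fun x => α x * X2 (x, t)) = fun _ => 0 := by
      ext x
      rw [h.z2 (x, t) (fun hh => absurd ht (not_lt.mpr hh.2.2.2.le)), mul_zero]
    rw [this, integral_zero]
  have e3 : NN μ α t = 0 := by
    unfold NN
    have h0 : μ {q : ℝ × ℝ | t ≤ q.2} = 0 := by
      refine measure_mono_null ?_ (ae_iff.mp h.carried)
      intro q hq hh
      exact absurd (ht.trans_le hq) (not_lt.mpr hh.2.2.2)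
    exact setIntegral_measure_zero _ h0
  unfold BR; rw [e1, e2, e3]; ring

theorem exists_of_ae {Q : ℝ → Prop} {u v : ℝ} (huv : u < v) (h : ∀ᵐ t, t ∈ Ioo u v → Q t) :
    ∃ t ∈ Ioo u v, Q t := by
  by_contra hcon
  push Not at hcon
  have : volume (Ioo u v) = 0 := by
    refine measure_mono_null (fun t ht => ?_) (ae_iff.mp h)
    exact fun hh => hcon t ht (hh ht)
  rw [Real.volume_Ioo, ENNReal.ofReal_eq_zero] at this
  linarith

omit [IsFiniteMeasure μ] in
/-- above the level -/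
theorem Psi_top (h : FlowF a b c B 𝓗 X1 X2 μ) (x : ℝ) {t : ℝ} (ht : B < t) :
    Psi a b X1 X2 μ (x, t) = - lam μ x := by
  have hG : ∀ x, GG X2 μ (x, t) = - lam μ x := by
    intro x
    unfold GG lam
    have e1 : (fun s => X2 (s, t)) = fun _ => 0 := by
      ext s
      exact h.z2 (s, t) (fun hh => absurd ht (not_lt.mpr hh.2.2.2.le))
    have e2 : μ {q : ℝ × ℝ | q.1 < x ∧ q.2 < t} = μ {q : ℝ × ℝ | q.1 < x} := by
      refine measure_congr ?_
      filter_upwards [h.carried] with q hq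
      have : q.2 < t := lt_of_le_of_lt hq.2.2.2 ht
      exact propext ⟨fun hh => hh.1, fun hh => ⟨hh, this⟩⟩
    simp only [e1]
    rw [integral_zero, e2]; ring
  have hC : CC a b X1 X2 μ t = 0 := by
    unfold CC
    have : (fun x => psi X1 μ (x, t) - GG X2 μ (x, t)) = fun _ => 0 := by
      ext x
      rw [strip_eq h (x, t) ht.le, hG x]; ring
    rw [this]; simp
  unfold Psi
  rw [hG x, hC, add_zero]

/-- **(T)** -/
theorem T (hab : a < b) (hcB : c < B) (h : FlowF a b c B 𝓗 X1 X2 μ) {K : Hair} (hK : K ∈ 𝓗)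
    (hKa : a < K.x) (hKb : K.x < b) (hμ : μ {q | q.1 = K.x ∧ q.2 ≤ K.t} = 0) :
    ∃ κ, (∀ᵐ y, c < y → K.b < y → y < K.t → Psi a b X1 X2 μ (K.x, y) = κ) ∧
      (B ≤ K.t → κ = -lam μ K.x) := by
  obtain ⟨r, hr, hr'⟩ : ∃ r > 0, K.x + r < b := ⟨(b - K.x) / 2, by linarith, by linarith⟩
  have hμK : μ K.car = 0 := by
    refine measure_mono_null ?_ hμ
    intro q hq
    exact ⟨hq.1, hq.2.2⟩
  have hP := Psi_hair hab h hKa hr hr'
  have hz : ∀ t, t < K.t → (μ {q : ℝ × ℝ | q.1 = K.x ∧ q.2 < t}).toReal = 0 := by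
    intro t ht
    have : μ {q : ℝ × ℝ | q.1 = K.x ∧ q.2 < t} = 0 := by
      refine measure_mono_null ?_ hμ
      intro q hq
      exact ⟨hq.1, (lt_trans hq.2 ht).le⟩
    rw [this]; rfl
  rcases lt_or_ge K.t B with hB | hB
  · rcases le_or_gt K.t c with hc | hc
    · exact ⟨0, Eventually.of_forall fun y hy _ hy' => absurd (hy.trans hy') (not_lt.mpr hc),
        fun hh => absurd hB (not_lt.mpr hh)⟩
    obtain ⟨κ, hκ⟩ := hair_const h hK hμK K.hbt hc (Or.inl rfl) hr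
    refine ⟨κ - (μ {q | q.1 ≤ K.x}).toReal, ?_, fun hh => absurd hB (not_lt.mpr hh)⟩
    filter_upwards [hκ, hP] with t h1 h2 hct hbt htt
    rw [h2 hct, h1 ⟨max_lt hbt hct, htt⟩, hz t htt, add_zero]
  · have hv : K.b < max K.t (B + 2) := lt_of_lt_of_le K.hbt (le_max_left _ _)
    have hcv : c < max K.t (B + 2) := lt_of_lt_of_le (by linarith) (le_max_right _ _)
    obtain ⟨κ, hκ⟩ := hair_const h hK hμK hv hcv (Or.inr hB) hr
    have hκ0 : max K.b c < max K.t (B + 2) → κ = 0 := by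
      intro hlt
      have hlt2 : max B (max K.b c) < max K.t (B + 2) :=
        max_lt (lt_of_lt_of_le (by linarith) (le_max_right _ _)) hlt
      obtain ⟨t, ht1, ht2⟩ := exists_of_ae (Q := fun t => BR X1 X2 μ (rD K.x r) (rB K.x r) t = κ)
        hlt2 (by
          filter_upwards [hκ] with t ht hI
          exact ht ⟨lt_of_le_of_lt (le_max_right _ _) hI.1, hI.2⟩)
      rw [← ht2]
      exact BR_top h _ _ (lt_of_le_of_lt (le_max_left _ _) ht1.1)
    have hκ1 : κ = 0 := hκ0 (max_lt hv hcv)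
    refine ⟨-lam μ K.x, ?_, fun _ => rfl⟩
    have hlam : (μ {q : ℝ × ℝ | q.1 ≤ K.x}).toReal = lam μ K.x := by
      unfold lam
      congr 1
      refine measure_congr ?_
      have h0 : ∀ᵐ q ∂μ, ¬ (q.1 = K.x ∧ q.2 ≤ K.t) := by
        rw [ae_iff]; simpa using hμ
      filter_upwards [h.carried, h0] with q hq1 hq2
      refine propext ⟨fun hh => ?_, fun hh => le_of_lt hh⟩
      exact lt_of_le_of_ne hh (fun he => hq2 ⟨he, hq1.2.2.2.trans hB⟩)
    filter_upwards [hκ, hP] with t h1 h2 hct hbt htt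
    rw [h2 hct, h1 ⟨max_lt hbt hct, lt_of_lt_of_le htt (le_max_left _ _)⟩, hz t htt, hκ1, hlam]
    ring

omit [IsFiniteMeasure μ] in
/-- small mass near an abscissa without atom -/
theorem small_strip [IsFiniteMeasure μ] {x0 : ℝ} (h0 : μ {q | q.1 = x0} = 0) {ε : ℝ} (hε : 0 < ε) :
    ∃ r > 0, (μ {q : ℝ × ℝ | |q.1 - x0| < r}).toReal < ε := by
  have hanti : Antitone fun n : ℕ => {q : ℝ × ℝ | |q.1 - x0| < 1 / ((n : ℝ) + 1)} := by
    intro m n hmn q hq
    refine lt_of_lt_of_le (show |q.1 - x0| < 1 / ((n : ℝ) + 1) from hq) ?_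
    exact one_div_le_one_div_of_le (by positivity) (by exact_mod_cast Nat.add_le_add_right hmn 1)
  have hmeas : ∀ n : ℕ, MeasurableSet {q : ℝ × ℝ | |q.1 - x0| < 1 / ((n : ℝ) + 1)} := fun n =>
    measurableSet_lt (by fun_prop) measurable_const
  have hlim := tendsto_measure_iInter_atTop (μ := μ)
    (s := fun n : ℕ => {q : ℝ × ℝ | |q.1 - x0| < 1 / ((n : ℝ) + 1)})
    (fun n => (hmeas n).nullMeasurableSet) hanti ⟨0, measure_ne_top _ _⟩
  have hinter : (⋂ n : ℕ, {q : ℝ × ℝ | |q.1 - x0| < 1 / ((n : ℝ) + 1)}) = {q | q.1 = x0} := by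
    ext q
    constructor
    · intro hq
      by_contra hne
      have hpos : 0 < |q.1 - x0| := abs_pos.mpr (sub_ne_zero.mpr hne)
      obtain ⟨n, hn⟩ := exists_nat_one_div_lt hpos
      exact absurd (mem_iInter.mp hq n) (not_lt.mpr hn.le)
    · intro hq
      refine mem_iInter.mpr fun n => ?_
      show |q.1 - x0| < 1 / ((n : ℝ) + 1)
      rw [show q.1 = x0 from hq, sub_self, abs_zero]
      positivity
  rw [hinter, h0] at hlim
  have h1 : ∀ᶠ n : ℕ in atTop, μ {q : ℝ × ℝ | |q.1 - x0| < 1 / ((n : ℝ) + 1)} <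
      ENNReal.ofReal ε := hlim.eventually_lt_const (ENNReal.ofReal_pos.mpr hε)
  obtain ⟨n, hn⟩ := h1.exists
  refine ⟨1 / ((n : ℝ) + 1), by positivity, ?_⟩
  have h2 := (ENNReal.toReal_lt_toReal (measure_ne_top μ _) ENNReal.ofReal_ne_top).mpr hn
  rwa [ENNReal.toReal_ofReal hε.le] at h2

/-- the stream function below the level in the shadow of a solid -/
theorem Psi_solid (hab : a < b) (h : FlowF a b c B 𝓗 X1 X2 μ) {α β b0 x0 : ℝ} (hαβ : α < β)
    (h1 : α ≤ x0) (h2 : x0 ≤ β) (hx0 : a < x0 ∧ x0 < b)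
    (hX : ∀ᵐ p : ℝ × ℝ, p.1 ∈ Ioo α β → b0 < p.2 → X1 p = 0)
    (h0 : μ {q | q.1 = x0} = 0) :
    ∀ᵐ y : ℝ, c < y → b0 < y → Psi a b X1 X2 μ (x0, y) = -lam μ x0 := by
  have hψ : ∀ᵐ x : ℝ, x ∈ Ioo α β → ∀ y, b0 < y → psi X1 μ (x, y) = -lam μ x := by
    filter_upwards [Crest.Agent.R105.CF_363.ae_unswap hX] with x hx hxI y hy
    unfold psi
    have : ∫ t in {t : ℝ | y < t}, X1 (x, t) = 0 := by
      refine integral_eq_zero_of_ae ?_
      refine (ae_restrict_iff' measurableSet_Ioi).mpr ?_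
      filter_upwards [hx] with t ht hty
      exact ht hxI (hy.trans hty)
    rw [this, sub_zero]
  filter_upwards [E_line hab h, H_ae h, X2_line h] with y hE hH hX2 hcy hby
  have hgood : ∀ᵐ x : ℝ, x ∈ Ioo α β → x ∈ Ioo a b → Psi a b X1 X2 μ (x, y) = -lam μ x := by
    filter_upwards [hψ, hE hcy] with x hx1 hx2 hxα hxa
    rw [hx2 hxa, hx1 hxα y hby]
  by_contra hne
  set η := |Psi a b X1 X2 μ (x0, y) + lam μ x0| with hη
  have hηpos : 0 < η := abs_pos.mpr (fun hh => hne (by linarith))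
  obtain ⟨r, hr, hrμ⟩ := small_strip (μ := μ) h0 (show 0 < η / 4 by positivity)
  have hcont : Continuous fun x => ∫ s in x0..x, X2 (s, y) :=
    intervalIntegral.continuous_primitive (fun a b => hX2.intervalIntegrable) x0
  obtain ⟨δ, hδ, hδ2⟩ := Metric.continuousAt_iff.mp (hcont.continuousAt (x := x0)) (η / 4)
    (by positivity)
  -- a good abscissa close to `x0`
  set ρ := min r δ with hρ
  have hρ0 : 0 < ρ := lt_min hr hδ
  have hlt : max (max α a) (x0 - ρ) < min (min β b) (x0 + ρ) := by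
    rw [max_lt_iff, max_lt_iff]
    refine ⟨⟨?_, ?_⟩, ?_⟩
    · refine lt_min (lt_min hαβ ?_) ?_ <;> linarith [hx0.2]
    · refine lt_min (lt_min ?_ hab) ?_ <;> linarith [hx0.1]
    · refine lt_min (lt_min ?_ ?_) ?_ <;> linarith [hx0.2]
  obtain ⟨x, hxI, hx⟩ := exists_of_ae (Q := fun x => Psi a b X1 X2 μ (x, y) = -lam μ x) hlt (by
    filter_upwards [hgood] with x hx hxI
    have k1 := lt_of_le_of_lt (le_max_left _ _) hxI.1
    have k2 := lt_of_lt_of_le hxI.2 (min_le_left _ _)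
    exact hx ⟨lt_of_le_of_lt (le_max_left _ _) k1, lt_of_lt_of_le k2 (min_le_left _ _)⟩
      ⟨lt_of_le_of_lt (le_max_right _ _) k1, lt_of_lt_of_le k2 (min_le_right _ _)⟩)
  have k3 := lt_of_le_of_lt (le_max_right _ _) hxI.1
  have k4 := lt_of_lt_of_le hxI.2 (min_le_right _ _)
  have hxr : |x - x0| < ρ := by rw [abs_lt]; constructor <;> linarith
  have hI : |∫ s in x0..x, X2 (s, y)| < η / 4 := by
    have := hδ2 (x := x) (by rw [Real.dist_eq]; exact lt_of_lt_of_le hxr (min_le_right _ _))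
    rwa [intervalIntegral.integral_same, Real.dist_eq, sub_zero] at this
  have hμle : ∀ S : Set (ℝ × ℝ), S ⊆ {q : ℝ × ℝ | |q.1 - x0| < r} → (μ S).toReal ≤ η / 4 :=
    fun S hS => (ENNReal.toReal_mono (measure_ne_top _ _) (measure_mono hS)).trans hrμ.le
  have hxr' : |x - x0| < r := lt_of_lt_of_le hxr (min_le_left _ _)
  rw [abs_lt] at hxr'
  have hlamdiff : ∀ u v : ℝ, u ≤ v → lam μ v - lam μ u = (μ {q : ℝ × ℝ | q.1 ∈ Ico u v}).toReal := by
    intro u v huv
    unfold lam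
    have : μ {q : ℝ × ℝ | q.1 < v} = μ {q : ℝ × ℝ | q.1 < u} + μ {q : ℝ × ℝ | q.1 ∈ Ico u v} := by
      rw [← measure_union]
      · congr 1
        ext q
        constructor
        · intro hq
          rcases lt_or_ge q.1 u with h3 | h3
          · exact Or.inl h3
          · exact Or.inr ⟨h3, hq⟩
        · rintro (hq | hq)
          · exact lt_of_lt_of_le hq huv
          · exact hq.2
      · rw [Set.disjoint_left]
        intro q h3 h4
        exact absurd (show q.1 < u from h3) (not_lt.mpr h4.1)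
      · exact measurable_fst measurableSet_Ico
    rw [this, ENNReal.toReal_add (measure_ne_top _ _) (measure_ne_top _ _)]
    ring
  rcases le_total x0 x with hle | hle
  · have e1 := hH x0 x hle
    have e2 := hlamdiff x0 x hle
    have e3 := hμle {q | q.1 ∈ Ico x0 x ∧ q.2 < y} (fun q hq => by
      show |q.1 - x0| < r
      rw [abs_lt]; constructor <;> linarith [hq.1.1, hq.1.2])
    have e4 := hμle {q | q.1 ∈ Ico x0 x} (fun q hq => by
      show |q.1 - x0| < r
      rw [abs_lt]; constructor <;> linarith [hq.1, hq.2])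
    have e5 := (ENNReal.toReal_nonneg (a := μ {q : ℝ × ℝ | q.1 ∈ Ico x0 x ∧ q.2 < y}))
    have e6 := (ENNReal.toReal_nonneg (a := μ {q : ℝ × ℝ | q.1 ∈ Ico x0 x}))
    have e7 : Psi a b X1 X2 μ (x0, y) + lam μ x0 = (∫ s in x0..x, X2 (s, y)) +
        (μ {q : ℝ × ℝ | q.1 ∈ Ico x0 x ∧ q.2 < y}).toReal -
        (μ {q : ℝ × ℝ | q.1 ∈ Ico x0 x}).toReal := by linarith
    rw [abs_lt] at hI
    have e8 : η < η := by
      conv_lhs => rw [hη, e7]
      rw [abs_lt]; constructor <;> linarith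
    exact lt_irrefl _ e8
  · have e1 := hH x x0 hle
    have e2 := hlamdiff x x0 hle
    have e3 := hμle {q | q.1 ∈ Ico x x0 ∧ q.2 < y} (fun q hq => by
      show |q.1 - x0| < r
      rw [abs_lt]; constructor <;> linarith [hq.1.1, hq.1.2])
    have e4 := hμle {q | q.1 ∈ Ico x x0} (fun q hq => by
      show |q.1 - x0| < r
      rw [abs_lt]; constructor <;> linarith [hq.1, hq.2])
    have e5 := (ENNReal.toReal_nonneg (a := μ {q : ℝ × ℝ | q.1 ∈ Ico x x0 ∧ q.2 < y}))
    have e6 := (ENNReal.toReal_nonneg (a := μ {q : ℝ × ℝ | q.1 ∈ Ico x x0}))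
    rw [intervalIntegral.integral_symm] at e1
    have e7 : Psi a b X1 X2 μ (x0, y) + lam μ x0 = (∫ s in x0..x, X2 (s, y)) -
        (μ {q : ℝ × ℝ | q.1 ∈ Ico x x0 ∧ q.2 < y}).toReal +
        (μ {q : ℝ × ℝ | q.1 ∈ Ico x x0}).toReal := by linarith
    rw [abs_lt] at hI
    have e8 : η < η := by
      conv_lhs => rw [hη, e7]
      rw [abs_lt]; constructor <;> linarith
    exact lt_irrefl _ e8

/-- **(S)** at the abscissae without atoms -/
theorem S' (hab : a < b) (hcB : c < B) (h : FlowF a b c B 𝓗 X1 X2 μ) :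
    ∀ᵐ y, c < y → μ {q | q.2 < y ∧ μ {q' : ℝ × ℝ | q'.1 = q.1} = 0 ∧
      Psi a b X1 X2 μ (q.1, y) ≠ -lam μ q.1} = 0 := by
  have hm1 : Measurable (fun q : ℝ × ℝ => μ {q' : ℝ × ℝ | q'.1 = q.1}) := by
    have hS : MeasurableSet {r : (ℝ × ℝ) × (ℝ × ℝ) | r.2.1 = r.1.1} :=
      measurableSet_eq_fun (measurable_fst.comp measurable_snd) (measurable_fst.comp measurable_fst)
    exact measurable_measure_prodMk_left (ν := μ) hS
  have hm2 : Measurable (fun r : (ℝ × ℝ) × ℝ => Psi a b X1 X2 μ (r.1.1, r.2)) :=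
    (meas_Psi h.m1 h.m2).comp ((measurable_fst.comp measurable_fst).prodMk measurable_snd)
  have hm3 : Measurable (fun r : (ℝ × ℝ) × ℝ => -lam μ r.1.1) :=
    ((Crest.Agent.R105.Mp_87.lam_mono μ).measurable.comp
      (measurable_fst.comp measurable_fst)).neg
  have hm : MeasurableSet {r : (ℝ × ℝ) × ℝ | ¬ (c < r.2 ∧ r.1.2 < r.2 ∧
      μ {q' : ℝ × ℝ | q'.1 = r.1.1} = 0 ∧ Psi a b X1 X2 μ (r.1.1, r.2) ≠ -lam μ r.1.1)} := by
    refine MeasurableSet.compl ?_
    refine (measurableSet_lt measurable_const measurable_snd).inter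
      ((measurableSet_lt (measurable_snd.comp measurable_fst) measurable_snd).inter
      (((hm1.comp measurable_fst) (measurableSet_singleton 0)).inter ?_))
    exact (measurableSet_eq_fun hm2 hm3).compl
  have key : ∀ᵐ q ∂μ, ∀ᵐ y : ℝ, ¬ (c < y ∧ q.2 < y ∧
      μ {q' : ℝ × ℝ | q'.1 = q.1} = 0 ∧ Psi a b X1 X2 μ (q.1, y) ≠ -lam μ q.1) := by
    filter_upwards [h.carried, h.sat] with q hq1 hq2
    by_cases hat : μ {q' : ℝ × ℝ | q'.1 = q.1} = 0
    swap
    · exact Eventually.of_forall fun y hy => hat hy.2.2.1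
    rcases hq2 with ⟨K, hK, hKx, hKb, hKt⟩ | ⟨α, β, b0, hαβ, hα, hβ, hb0, hX⟩
    swap
    · filter_upwards [Psi_solid hab h hαβ hα hβ ⟨hq1.1, hq1.2.1⟩ hX hat] with y hy
      rintro ⟨h1, h2, -, h4⟩
      exact h4 (hy h1 (lt_of_le_of_lt hb0 h2))
    obtain ⟨κ, hκ1, hκ2⟩ := T hab hcB h hK (by rw [hKx]; exact hq1.1) (by rw [hKx]; exact hq1.2.1)
      (measure_mono_null (fun q' hq' => by
        show q'.1 = q.1
        rw [← hKx]; exact hq'.1) hat)
    have hne : ∀ᵐ y : ℝ, y ≠ B := by rw [ae_iff]; simp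
    filter_upwards [hκ1, hne] with y hy hyB
    rintro ⟨h1, h2, -, h4⟩
    apply h4
    rcases lt_or_gt_of_ne hyB with hlt | hgt
    · have := hy h1 (lt_of_le_of_lt hKb h2) (lt_of_lt_of_le hlt hKt)
      rw [hκ2 hKt, hKx] at this
      exact this
    · exact Psi_top h _ hgt
  have key2 := (Measure.ae_ae_comm (μ := μ) (ν := (volume : Measure ℝ))
    (p := fun q y => ¬ (c < y ∧ q.2 < y ∧
      μ {q' : ℝ × ℝ | q'.1 = q.1} = 0 ∧ Psi a b X1 X2 μ (q.1, y) ≠ -lam μ q.1)) hm).mp key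
  filter_upwards [key2] with y hy hcy
  rw [ae_iff] at hy
  refine measure_mono_null ?_ hy
  rintro q ⟨h1, h2, h3⟩
  simp only [not_not]
  exact ⟨hcy, h1, h2, h3⟩

end T

end Crest.Agent.R105.Str_421
end

-- ▼ part R105/Str5_421

/-!
Row 105, lemma A: the stream function on a rectangle (helper421).
Part 5: input = `Half` of 238; strict form of (T); (S) relative to the columns without mass below.
-/

open MeasureTheory Set Filter Topology
open Crest.Agent.R105.CF_363 (CF CFJ SL Hair cut gx gy ramp)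
open Crest.Agent.R105.Mp_87 (lam Lines)
open Crest.Agent.R105.Kin_238 (Wl Wo Vl lowSet Half)

namespace Crest.Agent.R105.Str_421

variable {a b c B : ℝ} {𝓗 g : Set Hair} {X1 X2 : ℝ × ℝ → ℝ} {μ : Measure (ℝ × ℝ)}

theorem flowF_of_half (hg : g ⊆ 𝓗) (G : Crest.Agent.R105.Kin_238.GG a b c B g) (h : Half 𝓗 a b c B g X1 X2 μ) :
    FlowF a b c B 𝓗 X1 X2 μ where
  m1 := h.m1
  m2 := h.m2
  i1 := integrable_of_box h.L1 (fun p hp => h.z1 p (fun hh => hp ⟨hh.1.1, hh.1.2, hh.2.1, hh.2.2⟩))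
  i2 := integrable_of_box h.L2 (fun p hp => h.z2 p (fun hh => hp ⟨hh.1.1, hh.1.2, hh.2.1, hh.2.2⟩))
  z1 p hp := h.z1 p (fun hh => hp ⟨hh.1.1, hh.1.2, hh.2.1, hh.2.2⟩)
  z2 p hp := h.z2 p (fun hh => hp ⟨hh.1.1, hh.1.2, hh.2.1, hh.2.2⟩)
  carried := by
    have h1 : ∀ᵐ q ∂μ, q ∈ lowSet g B := by rw [ae_iff]; exact h.carried
    filter_upwards [h1] with q hq
    have := G.lowSet_subset hq
    exact ⟨this.1.1, this.1.2, this.2.1, this.2.2⟩
  sat := by
    have h1 : ∀ᵐ q ∂μ, q ∈ lowSet g B := by rw [ae_iff]; exact h.carried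
    filter_upwards [h1] with q hq
    obtain ⟨K, hK, hq, hqB⟩ := hq
    exact Or.inl ⟨K, hg hK, hq.1.symm, hq.2.1, G.topB K hK⟩
  F := by
    intro J hJ hμJ e hCF he0
    have hW : Wm a b c B = Wl a b c B := by
      ext p
      exact ⟨fun hh => ⟨⟨hh.1, hh.2.1⟩, hh.2.2.1, hh.2.2.2⟩,
        fun hh => ⟨hh.1.1, hh.1.2, hh.2.1, hh.2.2⟩⟩
    rw [hW] at hCF
    have heV : e ∈ Vl 𝓗 a b c B := by
      refine ⟨⟨J, hJ, hCF⟩, ?_⟩
      obtain ⟨δ, hδ, h0⟩ := he0
      exact ⟨δ, hδ, fun p hp hpc => h0 p (hW ▸ hp) hpc⟩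
    rw [← h.F e J heV hCF hμJ]
    rw [setIntegral_eq_integral_of_forall_compl_eq_zero,
      setIntegral_eq_integral_of_forall_compl_eq_zero]
    · intro p hp
      rw [h.z1 p hp, h.z2 p hp]; ring
    · intro p hp
      have hp' : p ∉ Wo a b c B := fun hh => hp ⟨hh.1.1, hh.1.2, hh.2.1, hh.2.2.le⟩
      rw [h.z1 p hp', h.z2 p hp']; ring

/-- **(T)** with the strict condition and no mass at the tip -/
theorem T_strict [IsFiniteMeasure μ] (hab : a < b) (hcB : c < B) (h : FlowF a b c B 𝓗 X1 X2 μ)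
    {K : Hair} (hK : K ∈ 𝓗) (hKa : a < K.x) (hKb : K.x < b)
    (hμ : μ {q | q.1 = K.x ∧ q.2 < K.t} = 0) (hpt : μ {(K.x, K.t)} = 0) :
    ∃ κ, (∀ᵐ y, c < y → y ∈ Ioo K.b K.t → Psi a b X1 X2 μ (K.x, y) = κ) ∧
      (B ≤ K.t → κ = -lam μ K.x) := by
  have h4 : μ {q | q.1 = K.x ∧ q.2 ≤ K.t} = 0 := by
    refine measure_mono_null ?_ (measure_union_null hμ hpt)
    rintro q ⟨h1, h2⟩
    rcases lt_or_eq_of_le h2 with h3 | h3
    · exact Or.inl ⟨h1, h3⟩
    · exact Or.inr (Prod.ext h1 h3)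
  obtain ⟨κ, k1, k2⟩ := T hab hcB h hK hKa hKb h4
  refine ⟨κ, ?_, k2⟩
  filter_upwards [k1] with y hy hcy hyI
  exact hy hcy hyI.1 hyI.2

/-- **(T)** with the strict condition -/
theorem T_half (hab : a < b) (hcB : c < B) (hg : g ⊆ 𝓗) (G : Crest.Agent.R105.Kin_238.GG a b c B g)
    (h : Half 𝓗 a b c B g X1 X2 μ)
    (hdis : ∀ K ∈ 𝓗, ∀ K' ∈ 𝓗, ∀ p, p ∈ K.car → p ∈ K'.car → K = K')
    (hBt : ∀ K ∈ g, B < K.t) {K : Hair} (hK : K ∈ 𝓗) (hKa : a < K.x) (hKb : K.x < b)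
    (hμ : μ {q | q.1 = K.x ∧ q.2 < K.t} = 0) :
    ∃ κ, (∀ᵐ y, c < y → y ∈ Ioo K.b K.t → Psi a b X1 X2 μ (K.x, y) = κ) ∧
      (B ≤ K.t → κ = -lam μ K.x) := by
  have : IsFiniteMeasure μ := h.fin
  have h1 : ∀ᵐ q ∂μ, q ∈ lowSet g B := by rw [ae_iff]; exact h.carried
  have h2 : ∀ᵐ q ∂μ, ¬ (q.1 = K.x ∧ q.2 < K.t) := by rw [ae_iff]; simpa using hμ
  have h3 : ∀ᵐ q ∂μ, ¬ (q.1 = K.x ∧ q.2 ≤ K.t) := by
    filter_upwards [h1, h2] with q hq1 hq2
    rintro ⟨h4, h5⟩
    rcases lt_or_eq_of_le h5 with h6 | h6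
    · exact hq2 ⟨h4, h6⟩
    · obtain ⟨K', hK', hq, hqB⟩ := hq1
      have hqK : q ∈ K.car := ⟨h4, by rw [h6]; exact K.hbt.le, h6.le⟩
      have := hdis K hK K' (hg hK') q hqK hq
      have hb := hBt K' hK'
      rw [← this, ← h6] at hb
      exact absurd hqB (not_le.mpr hb)
  have h4 : μ {q | q.1 = K.x ∧ q.2 ≤ K.t} = 0 := by
    rw [ae_iff] at h3; simpa using h3
  obtain ⟨κ, k1, k2⟩ := T hab hcB (flowF_of_half hg G h) hK hKa hKb h4
  refine ⟨κ, ?_, k2⟩
  filter_upwards [k1] with y hy hcy hyI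
  exact hy hcy hyI.1 hyI.2

/-- **(S)** relative to the columns without mass below -/
theorem S_rel [IsFiniteMeasure μ] (hab : a < b) (hcB : c < B) (h : FlowF a b c B 𝓗 X1 X2 μ) :
    ∀ᵐ y, c < y → μ {q | q.2 < y ∧ μ {q2 : ℝ × ℝ | q2.1 = q.1 ∧ q2.2 < y} = 0 ∧
      Psi a b X1 X2 μ (q.1, y) ≠ -lam μ q.1} = 0 := by
  have hcount : Set.Countable {t : ℝ | 0 < μ {q : ℝ × ℝ | q.1 = t}} :=
    Measure.countable_meas_level_set_pos measurable_fst
  filter_upwards [S' hab hcB h] with y hy hcy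
  have h1 : μ (⋃ t ∈ {t : ℝ | 0 < μ {q : ℝ × ℝ | q.1 = t}},
      {q : ℝ × ℝ | q.1 = t ∧ q.2 < y ∧ μ {q2 : ℝ × ℝ | q2.1 = t ∧ q2.2 < y} = 0}) = 0 := by
    rw [measure_biUnion_null_iff hcount]
    intro t _
    by_cases h0 : μ {q2 : ℝ × ℝ | q2.1 = t ∧ q2.2 < y} = 0
    · refine measure_mono_null ?_ h0
      intro q hq
      exact ⟨hq.1, hq.2.1⟩
    · have : {q : ℝ × ℝ | q.1 = t ∧ q.2 < y ∧ μ {q2 : ℝ × ℝ | q2.1 = t ∧ q2.2 < y} = 0} = ∅ := by
        ext q
        constructor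
        · intro hq; exact absurd hq.2.2 h0
        · intro hq; exact absurd hq (by simp)
      rw [this]; exact measure_empty
  refine measure_mono_null ?_ (measure_union_null (hy hcy) h1)
  rintro q ⟨h2, h3, h4⟩
  by_cases h5 : μ {q' : ℝ × ℝ | q'.1 = q.1} = 0
  · exact Or.inl ⟨h2, h5, h4⟩
  · right
    simp only [mem_iUnion]
    exact ⟨q.1, pos_iff_ne_zero.mpr h5, rfl, h2, h3⟩

/-- **The stream function on a rectangle** (lemma A). -/
theorem lines [IsFiniteMeasure μ] (hab : a < b) (hcB : c < B) (h : FlowF a b c B 𝓗 X1 X2 μ)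
    (hL1 : MemLp X1 2 (volume : Measure (ℝ × ℝ))) (hL2 : MemLp X2 2 (volume : Measure (ℝ × ℝ))) :
    Lines a b c B 1 X1 X2 μ (psi X1 μ) (Psi a b X1 X2 μ) where
  mψ := meas_psi h.m1
  mΨ := meas_Psi h.m1 h.m2
  L1 := hL1
  L2 := hL2
  strip p hp := by rw [strip_eq h p hp]; ring
  V := by
    filter_upwards [V_ae h] with x hx _ y y' _ _
    exact hx y y'
  H := by
    filter_upwards [H_ae h] with y hy _ x _ x' _ hxx
    rw [hy x x' hxx]; ring
  E := E_ae hab h
  S := by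
    filter_upwards [S_rel hab hcB h] with y hy hcy
    simpa only [neg_one_mul] using hy hcy

/-- **`Lines` from 238's `Half`.** -/
theorem lines_half (hab : a < b) (hcB : c < B) (hg : g ⊆ 𝓗)
    (G : Crest.Agent.R105.Kin_238.GG a b c B g) (h : Half 𝓗 a b c B g X1 X2 μ) :
    Lines a b c B 1 X1 X2 μ (psi X1 μ) (Psi a b X1 X2 μ) := by
  have : IsFiniteMeasure μ := h.fin
  exact lines hab hcB (flowF_of_half hg G h) h.L1 h.L2

end Crest.Agent.R105.Str_421
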