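import Mathlib
import Crest.Agent.R105.Rd0_557
import Crest.Agent.R105.Pln7_897_Mg
import Crest.Agent.R105.Cen2_985
import Crest.Agent.R105.IfB3_641
import Crest.Agent.R105.Pln4_868_Mg
import Crest.Agent.R105.Dir4_508
import Crest.Agent.R105.Stp12_722_Mg
import Crest.Agent.R105.Lop1_744
import Crest.Agent.R105.Sin3_925
import Crest.Agent.R105.SkLim2_363
import Crest.Agent.R105.Skc2_49
import Crest.Agent.R105.Skst2_49
import Crest.Agent.R105.Psi12_425
import Crest.Agent.R105.Psi9_425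
import Crest.Agent.R105.Str5_421
import Crest.Agent.R105.Kin7_238
import Crest.Agent.R105.Mp8_87
import Crest.Agent.R105.NulN1_421

-- ▼ part R105/Rend1_256
section

/-!
Row 105, S0139, last step (RED-END), part 1: smooth radial cut-offs and the boundary term over a
thin shell, without line integrals.
-/

set_option autoImplicit false

open Set Filter MeasureTheory Metric
open scoped Topology ComplexConjugate

namespace Crest.Agent.R105.Rend_256

/-- radial smooth cut-off: `1` for `‖z - c‖ ≤ a`, `0` for `b ≤ ‖z - c‖` -/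
noncomputable def bmp (c : ℂ) (a b : ℝ) (z : ℂ) : ℝ :=
  Real.smoothTransition ((b ^ 2 - ‖z - c‖ ^ 2) / (b ^ 2 - a ^ 2))

/-- the density of the gradient of `bmp` -/
noncomputable def dns (c : ℂ) (a b : ℝ) (z : ℂ) : ℝ :=
  2 * deriv Real.smoothTransition ((b ^ 2 - ‖z - c‖ ^ 2) / (b ^ 2 - a ^ 2)) / (b ^ 2 - a ^ 2)

section

variable {c : ℂ} {a b : ℝ}

theorem bmp_nonneg (z : ℂ) : 0 ≤ bmp c a b z := Real.smoothTransition.nonneg _

theorem bmp_le_one (z : ℂ) : bmp c a b z ≤ 1 := Real.smoothTransition.le_one _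

theorem sq_sub_pos (ha : 0 < a) (hab : a < b) : 0 < b ^ 2 - a ^ 2 := by nlinarith

theorem bmp_eq_one (ha : 0 < a) (hab : a < b) {z : ℂ} (hz : ‖z - c‖ ≤ a) : bmp c a b z = 1 := by
  refine Real.smoothTransition.one_of_one_le ?_
  rw [one_le_div (sq_sub_pos ha hab)]
  have := norm_nonneg (z - c)
  nlinarith

theorem bmp_eq_zero (ha : 0 < a) (hab : a < b) {z : ℂ} (hz : b ≤ ‖z - c‖) : bmp c a b z = 0 := by
  refine Real.smoothTransition.zero_of_nonpos ?_
  have h1 : b ^ 2 - ‖z - c‖ ^ 2 ≤ 0 := by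
    have := norm_nonneg (z - c)
    nlinarith
  exact div_nonpos_of_nonpos_of_nonneg h1 (sq_sub_pos ha hab).le

theorem contDiff_bmp {n : ℕ∞} : ContDiff ℝ n (bmp c a b) := by
  unfold bmp
  refine Real.smoothTransition.contDiff.comp ?_
  refine ContDiff.div_const ?_ _
  refine contDiff_const.sub ?_
  exact (contDiff_id.sub contDiff_const).norm_sq ℝ

theorem hasCompactSupport_bmp (ha : 0 < a) (hab : a < b) : HasCompactSupport (bmp c a b) := by
  refine HasCompactSupport.of_support_subset_isCompact (isCompact_closedBall c b) ?_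
  intro z hz
  rw [mem_closedBall, dist_eq_norm]
  by_contra h
  push Not at h
  exact hz (bmp_eq_zero ha hab h.le)

theorem hasFDerivAt_bmp (z : ℂ) :
    HasFDerivAt (bmp c a b) (-(dns c a b z) • (innerSL ℝ (z - c) : ℂ →L[ℝ] ℝ)) z := by
  have h1 : HasFDerivAt (fun z : ℂ => ‖z - c‖ ^ 2) (2 • (innerSL ℝ (z - c) : ℂ →L[ℝ] ℝ)) z := by
    have := ((hasFDerivAt_id (𝕜 := ℝ) z).sub_const c).norm_sq
    simpa using this
  have h2 : HasFDerivAt (fun z : ℂ => (b ^ 2 - ‖z - c‖ ^ 2) / (b ^ 2 - a ^ 2))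
      ((-(2 / (b ^ 2 - a ^ 2))) • (innerSL ℝ (z - c) : ℂ →L[ℝ] ℝ)) z := by
    have h3 := (h1.const_sub (b ^ 2)).mul_const ((b ^ 2 - a ^ 2)⁻¹)
    have h3' : (b ^ 2 - a ^ 2)⁻¹ • -(2 • (innerSL ℝ (z - c) : ℂ →L[ℝ] ℝ)) =
        (-(2 / (b ^ 2 - a ^ 2))) • (innerSL ℝ (z - c) : ℂ →L[ℝ] ℝ) := by
      rw [← Nat.cast_smul_eq_nsmul ℝ, smul_neg, smul_smul, ← neg_smul]
      congr 1
      push_cast
      ring
    rw [← h3']
    simpa only [div_eq_mul_inv] using h3
  have h4 : HasDerivAt Real.smoothTransition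
      (deriv Real.smoothTransition ((b ^ 2 - ‖z - c‖ ^ 2) / (b ^ 2 - a ^ 2)))
      ((b ^ 2 - ‖z - c‖ ^ 2) / (b ^ 2 - a ^ 2)) :=
    ((Real.smoothTransition.contDiff (n := 1)).differentiable (by norm_num) _).hasDerivAt
  have h5 := h4.comp_hasFDerivAt z h2
  rw [smul_smul] at h5
  have h6 : deriv Real.smoothTransition ((b ^ 2 - ‖z - c‖ ^ 2) / (b ^ 2 - a ^ 2)) *
      -(2 / (b ^ 2 - a ^ 2)) = -(dns c a b z) := by
    unfold dns
    ring
  rw [h6] at h5
  exact h5

theorem fderiv_bmp_apply (z v : ℂ) :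
    fderiv ℝ (bmp c a b) z v = -(dns c a b z) * inner ℝ (z - c) v := by
  rw [(hasFDerivAt_bmp z).fderiv]
  rfl

theorem dns_nonneg (ha : 0 < a) (hab : a < b) (z : ℂ) : 0 ≤ dns c a b z := by
  unfold dns
  have h1 := sq_sub_pos ha hab
  have h2 : 0 ≤ deriv Real.smoothTransition ((b ^ 2 - ‖z - c‖ ^ 2) / (b ^ 2 - a ^ 2)) :=
    Real.smoothTransition.monotone.deriv_nonneg
  positivity

theorem dns_inner (ha : 0 < a) (hab : a < b) {z : ℂ} (hz : ‖z - c‖ < a ∨ b < ‖z - c‖) (v : ℂ) :
    dns c a b z * inner ℝ (z - c) v = 0 := by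
  have h1 : fderiv ℝ (bmp c a b) z = 0 := by
    rcases hz with hz | hz
    · have : bmp c a b =ᶠ[𝓝 z] fun _ => (1 : ℝ) := by
        have ho : IsOpen {z : ℂ | ‖z - c‖ < a} := isOpen_lt (by fun_prop) continuous_const
        filter_upwards [ho.mem_nhds hz] with w hw
        exact bmp_eq_one ha hab (le_of_lt hw)
      rw [this.fderiv_eq]
      simp
    · have : bmp c a b =ᶠ[𝓝 z] fun _ => (0 : ℝ) := by
        have ho : IsOpen {z : ℂ | b < ‖z - c‖} := isOpen_lt continuous_const (by fun_prop)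
        filter_upwards [ho.mem_nhds hz] with w hw
        exact bmp_eq_zero ha hab (le_of_lt hw)
      rw [this.fderiv_eq]
      simp
  have h2 := fderiv_bmp_apply (c := c) (a := a) (b := b) z v
  rw [h1, _root_.zero_apply] at h2
  linarith

theorem dns_sq (ha : 0 < a) (hab : a < b) {z : ℂ} (hz : ‖z - c‖ < a ∨ b < ‖z - c‖) :
    dns c a b z * ‖z - c‖ ^ 2 = 0 := by
  have := dns_inner ha hab hz (z - c)
  rwa [real_inner_self_eq_norm_sq] at this

end

/-- the integral of a directional derivative of a compactly supported function vanishes -/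
theorem integral_fderiv_eq_zero {Ψ : ℂ → ℝ} (hΨ : ContDiff ℝ 1 Ψ) (hc : HasCompactSupport Ψ)
    (v : ℂ) : ∫ ζ, fderiv ℝ Ψ ζ v = 0 := by
  have hd : Continuous (fun ζ => fderiv ℝ Ψ ζ v) :=
    (hΨ.continuous_fderiv (by norm_num)).clm_apply continuous_const
  have hcd : HasCompactSupport (fun ζ => fderiv ℝ Ψ ζ v) := by
    refine (hc.fderiv (𝕜 := ℝ)).mono ?_
    intro x hx
    simp only [Function.mem_support] at hx ⊢
    intro h0
    exact hx (by rw [h0]; simp)
  have h := integral_mul_fderiv_eq_neg_fderiv_mul_of_integrable (μ := (volume : Measure ℂ))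
    (f := fun _ : ℂ => (1 : ℝ)) (g := Ψ) (v := v) ?_ ?_ ?_ ?_ ?_
  · simpa using h
  · simp
  · simpa using hd.integrable_of_hasCompactSupport hcd
  · simpa using hΨ.continuous.integrable_of_hasCompactSupport hc
  · intro x _
    fun_prop
  · intro x _
    exact (hΨ.differentiable (by norm_num)) x

section

variable {c : ℂ} {a b : ℝ}

theorem continuous_dns : Continuous (dns c a b) := by
  unfold dns
  have h1 : Continuous (deriv Real.smoothTransition) :=
    (Real.smoothTransition.contDiff (n := 1)).continuous_deriv (by norm_num)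
  have h2 : Continuous (fun z : ℂ => (b ^ 2 - ‖z - c‖ ^ 2) / (b ^ 2 - a ^ 2)) :=
    (continuous_const.sub ((continuous_id.sub continuous_const).norm.pow 2)).div_const _
  exact (continuous_const.mul (h1.comp h2)).div_const _

theorem integrable_bmp (ha : 0 < a) (hab : a < b) : Integrable (bmp c a b) :=
  (contDiff_bmp (n := 1)).continuous.integrable_of_hasCompactSupport (hasCompactSupport_bmp ha hab)

theorem volume_real_closedBall {r : ℝ} (hr : 0 ≤ r) :
    volume.real (closedBall c r) = Real.pi * r ^ 2 := by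
  rw [Measure.real, Complex.volume_closedBall]
  simp only [NNReal.pi, ENNReal.toReal_mul, ENNReal.toReal_pow, ENNReal.toReal_ofReal hr]
  exact mul_comm _ _

theorem le_integral_bmp (ha : 0 < a) (hab : a < b) : Real.pi * a ^ 2 ≤ ∫ z, bmp c a b z := by
  rw [← volume_real_closedBall (c := c) ha.le]
  have h1 : volume.real (closedBall c a) = ∫ z, (closedBall c a).indicator (fun _ => (1 : ℝ)) z := by
    rw [integral_indicator measurableSet_closedBall]
    simp
  rw [h1]
  refine integral_mono ?_ (integrable_bmp ha hab) ?_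
  · rw [integrable_indicator_iff measurableSet_closedBall]
    exact integrableOn_const (measure_closedBall_lt_top.ne)
  · intro z
    by_cases hz : z ∈ closedBall c a
    · simp only [indicator_of_mem hz]
      rw [bmp_eq_one ha hab (by rwa [← dist_eq_norm])]
    · simp only [indicator_of_notMem hz]
      exact bmp_nonneg z

theorem integral_bmp_le (ha : 0 < a) (hab : a < b) : ∫ z, bmp c a b z ≤ Real.pi * b ^ 2 := by
  rw [← volume_real_closedBall (c := c) (ha.trans hab).le]
  have h1 : volume.real (closedBall c b) = ∫ z, (closedBall c b).indicator (fun _ => (1 : ℝ)) z := by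
    rw [integral_indicator measurableSet_closedBall]
    simp
  rw [h1]
  refine integral_mono (integrable_bmp ha hab) ?_ ?_
  · rw [integrable_indicator_iff measurableSet_closedBall]
    exact integrableOn_const (measure_closedBall_lt_top.ne)
  · intro z
    by_cases hz : z ∈ closedBall c b
    · simp only [indicator_of_mem hz]
      exact bmp_le_one z
    · simp only [indicator_of_notMem hz]
      rw [mem_closedBall, dist_eq_norm, not_le] at hz
      exact (bmp_eq_zero ha hab hz.le).le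



theorem integrable_dns_sq (ha : 0 < a) (hab : a < b) :
    Integrable (fun z => dns c a b z * ‖z - c‖ ^ 2) := by
  have h : Continuous (fun z => dns c a b z * ‖z - c‖ ^ 2) :=
    continuous_dns.mul ((continuous_id.sub continuous_const).norm.pow 2)
  refine h.integrable_of_hasCompactSupport ?_
  refine HasCompactSupport.of_support_subset_isCompact (isCompact_closedBall c b) ?_
  intro z hz
  rw [mem_closedBall, dist_eq_norm]
  by_contra h
  push Not at h
  exact hz (dns_sq ha hab (Or.inr h))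

/-- `∫ m |z - c|² = 2 ∫ η` -/
theorem integral_dns_sq (ha : 0 < a) (hab : a < b) :
    ∫ z, dns c a b z * ‖z - c‖ ^ 2 = 2 * ∫ z, bmp c a b z := by
  have hre : ContDiff ℝ 1 (fun z : ℂ => bmp c a b z * (z - c).re) :=
    (contDiff_bmp (n := 1)).mul (Complex.reCLM.contDiff.comp (contDiff_id.sub contDiff_const))
  have him : ContDiff ℝ 1 (fun z : ℂ => bmp c a b z * (z - c).im) :=
    (contDiff_bmp (n := 1)).mul (Complex.imCLM.contDiff.comp (contDiff_id.sub contDiff_const))
  have h1 := integral_fderiv_eq_zero hre ((hasCompactSupport_bmp ha hab).mul_right) 1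
  have h2 := integral_fderiv_eq_zero him ((hasCompactSupport_bmp ha hab).mul_right) Complex.I
  have d0 : ∀ z, HasFDerivAt (bmp c a b) (fderiv ℝ (bmp c a b) z) z := fun z =>
    ((contDiff_bmp (n := 1)).differentiable (by norm_num) z).hasFDerivAt
  have dre : ∀ z, HasFDerivAt (fun z : ℂ => (z - c).re) Complex.reCLM z := fun z => by
    have := Complex.reCLM.hasFDerivAt (x := z - c)
    exact this.comp z ((hasFDerivAt_id z).sub_const c)
  have dim : ∀ z, HasFDerivAt (fun z : ℂ => (z - c).im) Complex.imCLM z := fun z => by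
    have := Complex.imCLM.hasFDerivAt (x := z - c)
    exact this.comp z ((hasFDerivAt_id z).sub_const c)
  have e1 : ∀ z, fderiv ℝ (fun z : ℂ => bmp c a b z * (z - c).re) z 1 =
      bmp c a b z - dns c a b z * (z - c).re ^ 2 := by
    intro z
    have := ((d0 z).mul (dre z)).fderiv
    have e : fderiv ℝ (fun z : ℂ => bmp c a b z * (z - c).re) z =
      bmp c a b z • Complex.reCLM + (z - c).re • fderiv ℝ (bmp c a b) z := this
    rw [e]
    simp only [_root_.add_apply, _root_.smul_apply, smul_eq_mul, fderiv_bmp_apply]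
    simp
    ring
  have e2 : ∀ z, fderiv ℝ (fun z : ℂ => bmp c a b z * (z - c).im) z Complex.I =
      bmp c a b z - dns c a b z * (z - c).im ^ 2 := by
    intro z
    have := ((d0 z).mul (dim z)).fderiv
    have e : fderiv ℝ (fun z : ℂ => bmp c a b z * (z - c).im) z =
      bmp c a b z • Complex.imCLM + (z - c).im • fderiv ℝ (bmp c a b) z := this
    rw [e]
    simp only [_root_.add_apply, _root_.smul_apply, smul_eq_mul, fderiv_bmp_apply]
    simp
    ring
  simp only [e1] at h1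
  simp only [e2] at h2
  have hb := integrable_bmp (c := c) ha hab
  have hs := integrable_dns_sq (c := c) ha hab
  have key : ∀ z, dns c a b z * ‖z - c‖ ^ 2 =
      2 * bmp c a b z - ((bmp c a b z - dns c a b z * (z - c).re ^ 2) +
        (bmp c a b z - dns c a b z * (z - c).im ^ 2)) := by
    intro z
    rw [← Complex.normSq_eq_norm_sq, Complex.normSq_apply]
    ring
  have hi1 : Integrable (fun z => bmp c a b z - dns c a b z * (z - c).re ^ 2) := by
    refine hb.sub ?_
    refine hs.mono' ?_ ?_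
    · have h : Continuous (fun z => dns c a b z * (z - c).re ^ 2) :=
        continuous_dns.mul ((Complex.continuous_re.comp (continuous_id.sub continuous_const)).pow 2)
      exact h.aestronglyMeasurable
    · refine ae_of_all _ fun z => ?_
      have h0 := dns_nonneg (c := c) ha hab z
      rw [Real.norm_eq_abs, abs_of_nonneg (by positivity)]
      refine mul_le_mul_of_nonneg_left ?_ h0
      rw [← Complex.normSq_eq_norm_sq, Complex.normSq_apply]
      nlinarith [sq_nonneg (z - c).im]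
  have hi2 : Integrable (fun z => bmp c a b z - dns c a b z * (z - c).im ^ 2) := by
    refine hb.sub ?_
    refine hs.mono' ?_ ?_
    · have h : Continuous (fun z => dns c a b z * (z - c).im ^ 2) :=
        continuous_dns.mul ((Complex.continuous_im.comp (continuous_id.sub continuous_const)).pow 2)
      exact h.aestronglyMeasurable
    · refine ae_of_all _ fun z => ?_
      have h0 := dns_nonneg (c := c) ha hab z
      rw [Real.norm_eq_abs, abs_of_nonneg (by positivity)]
      refine mul_le_mul_of_nonneg_left ?_ h0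
      rw [← Complex.normSq_eq_norm_sq, Complex.normSq_apply]
      nlinarith [sq_nonneg (z - c).re]
  simp only [key]
  have hi12 : Integrable (fun z => (bmp c a b z - dns c a b z * (z - c).re ^ 2) +
    (bmp c a b z - dns c a b z * (z - c).im ^ 2)) := hi1.add hi2
  rw [integral_sub (hb.const_mul 2) hi12, integral_add hi1 hi2, h1, h2,
    integral_const_mul]
  ring

/-- **the boundary term over a thin shell** -/
theorem shell {c c' : ℂ} {a b ρ : ℝ} (ha : 0 < a) (hab : a < b) {F : ℂ → ℂ}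
    (hm : AEStronglyMeasurable F volume)
    (hF : ∀ z, a ≤ ‖z - c‖ → ‖z - c‖ ≤ b → ‖F z - c'‖ ≤ ρ) :
    Integrable (fun z => fderiv ℝ (bmp c a b) z (F z - z)) ∧
    2 * Real.pi * a ^ 2 - 2 * Real.pi * b ^ 2 / a * ρ ≤
      ∫ z, fderiv ℝ (bmp c a b) z (F z - z) := by
  have hρ : 0 ≤ ρ := by
    have h := hF (c + a) (by simp [abs_of_pos ha]) (by simp [abs_of_pos ha, hab.le])
    exact (norm_nonneg _).trans h
  have hs := integrable_dns_sq (c := c) ha hab
  have hconst : Integrable (fun z => dns c a b z * inner ℝ (z - c) (c' - c)) := by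
    have h : Continuous (fun z => dns c a b z * inner ℝ (z - c) (c' - c)) :=
      continuous_dns.mul ((continuous_id.sub continuous_const).inner continuous_const)
    refine h.integrable_of_hasCompactSupport ?_
    refine HasCompactSupport.of_support_subset_isCompact (isCompact_closedBall c b) ?_
    intro z hz
    rw [mem_closedBall, dist_eq_norm]
    by_contra h
    push Not at h
    exact hz (dns_inner ha hab (Or.inr h) _)
  have hc0 : ∫ z, dns c a b z * inner ℝ (z - c) (c' - c) = 0 := by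
    have h := integral_fderiv_eq_zero (contDiff_bmp (n := 1) (c := c) (a := a) (b := b))
      (hasCompactSupport_bmp ha hab) (c' - c)
    simp only [fderiv_bmp_apply, neg_mul, integral_neg, neg_eq_zero] at h
    exact h
  have hbd : ∀ z, |dns c a b z * inner ℝ (z - c) (F z - c')| ≤
      ρ / a * (dns c a b z * ‖z - c‖ ^ 2) := by
    intro z
    have h0 := dns_nonneg (c := c) ha hab z
    by_cases hz : ‖z - c‖ < a ∨ b < ‖z - c‖
    · rw [dns_inner ha hab hz, dns_sq ha hab hz]
      simp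
    · push Not at hz
      have h1 := hF z hz.1 hz.2
      have h2 : |inner ℝ (z - c) (F z - c')| ≤ ‖z - c‖ * ‖F z - c'‖ := abs_real_inner_le_norm _ _
      rw [abs_mul, abs_of_nonneg h0]
      have h3 : ‖z - c‖ * ‖F z - c'‖ ≤ ρ / a * ‖z - c‖ ^ 2 := by
        have h4 : ‖z - c‖ * ‖F z - c'‖ ≤ ‖z - c‖ * ρ :=
          mul_le_mul_of_nonneg_left h1 (norm_nonneg _)
        have h5 : ‖z - c‖ * ρ ≤ ρ / a * ‖z - c‖ ^ 2 := by
          rw [div_mul_eq_mul_div, le_div_iff₀ ha]
          have := norm_nonneg (z - c)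
          nlinarith [mul_nonneg (mul_nonneg this hρ) (sub_nonneg.2 hz.1)]
        exact h4.trans h5
      calc dns c a b z * |inner ℝ (z - c) (F z - c')| ≤
          dns c a b z * (ρ / a * ‖z - c‖ ^ 2) :=
            mul_le_mul_of_nonneg_left (h2.trans h3) h0
        _ = _ := by ring
  have hF' : Integrable (fun z => dns c a b z * inner ℝ (z - c) (F z - c')) := by
    refine (hs.const_mul (ρ / a)).mono' ?_ (ae_of_all _ fun z => by
      rw [Real.norm_eq_abs]; exact hbd z)
    refine continuous_dns.aestronglyMeasurable.mul ?_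
    exact (continuous_id.sub continuous_const).aestronglyMeasurable.inner
      (hm.sub aestronglyMeasurable_const)
  have key : ∀ z, fderiv ℝ (bmp c a b) z (F z - z) =
      dns c a b z * ‖z - c‖ ^ 2 - dns c a b z * inner ℝ (z - c) (F z - c') -
        dns c a b z * inner ℝ (z - c) (c' - c) := by
    intro z
    rw [fderiv_bmp_apply]
    have : F z - z = (F z - c') + (c' - c) - (z - c) := by ring
    rw [this, inner_sub_right, inner_add_right, real_inner_self_eq_norm_sq]
    ring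
  have hint : Integrable (fun z => fderiv ℝ (bmp c a b) z (F z - z)) := by
    simp only [key]
    exact (hs.sub hF').sub hconst
  refine ⟨hint, ?_⟩
  simp only [key]
  have hsF : Integrable (fun z => dns c a b z * ‖z - c‖ ^ 2 -
    dns c a b z * inner ℝ (z - c) (F z - c')) := hs.sub hF'
  rw [integral_sub hsF hconst, integral_sub hs hF', hc0, sub_zero, integral_dns_sq ha hab]
  have h1 : ∫ z, dns c a b z * inner ℝ (z - c) (F z - c') ≤
      ρ / a * (2 * ∫ z, bmp c a b z) := by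
    rw [← integral_dns_sq ha hab, ← integral_const_mul]
    exact integral_mono hF' (hs.const_mul _) fun z => (le_abs_self _).trans (hbd z)
  have h2 := le_integral_bmp (c := c) ha hab
  have h3 := integral_bmp_le (c := c) ha hab
  have h4 : ρ / a * (2 * ∫ z, bmp c a b z) ≤ ρ / a * (2 * (Real.pi * b ^ 2)) := by
    refine mul_le_mul_of_nonneg_left ?_ (by positivity)
    linarith
  have h5 : ρ / a * (2 * (Real.pi * b ^ 2)) = 2 * Real.pi * b ^ 2 / a * ρ := by ring
  linarith

end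

end Crest.Agent.R105.Rend_256
end

-- ▼ part R105/Rend2_256
section

/-!
Row 105, S0139, FLUX, part 2: integration by parts for `η * w` from `BP`.
-/

set_option autoImplicit false

open Set Filter MeasureTheory Metric
open scoped Topology NNReal

namespace Crest.Agent.R105.Rend_256

open Crest.AnalysisR

theorem removable_mono {C E : Set ℂ} (hE : IsConformallyRemovable E) (h : C ⊆ E) :
    IsConformallyRemovable C := fun φ hφ => hE φ (hφ.mono (compl_subset_compl.2 h))

/-- a.e. differentiability of a locally Lipschitz function on a set -/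
theorem ae_diff {w : ℂ → ℝ} {S : Set ℂ}
    (hloc : ∀ z ∈ S, ∃ K : ℝ≥0, ∃ t ∈ 𝓝 z, LipschitzOnWith K w t) :
    ∀ᵐ z, z ∈ S → DifferentiableAt ℝ w z := by
  rw [ae_iff]
  refine measure_null_of_locally_null _ fun z hz => ?_
  simp only [mem_ofPred_eq, Classical.not_imp] at hz
  obtain ⟨K, t, ht, hK⟩ := hloc z hz.1
  refine ⟨interior t ∩ {a | ¬(a ∈ S → DifferentiableAt ℝ w a)}, ?_, ?_⟩
  · refine inter_mem (mem_nhdsWithin_of_mem_nhds (interior_mem_nhds.2 ht)) self_mem_nhdsWithin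
  · have h := (hK.mono interior_subset).ae_differentiableWithinAt_of_mem (μ := volume)
    rw [ae_iff] at h
    refine measure_mono_null ?_ h
    rintro x ⟨hx1, hx2⟩
    simp only [mem_ofPred_eq, Classical.not_imp] at hx2 ⊢
    refine ⟨hx1, fun h3 => hx2.2 (h3.differentiableAt (isOpen_interior.mem_nhds hx1))⟩

theorem lipschitzOn_mul {η w : ℂ → ℝ} (hη : ContDiff ℝ 1 η) {z : ℂ} {K : ℝ≥0} {t : Set ℂ}
    (ht : t ∈ 𝓝 z) (hK : LipschitzOnWith K w t) :
    ∃ K' : ℝ≥0, ∃ t' ∈ 𝓝 z, LipschitzOnWith K' (fun z => η z * w z) t' := by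
  obtain ⟨K1, t1, ht1, hK1⟩ := hη.contDiffAt.exists_lipschitzOnWith (x := z)
  -- bounded neighbourhood
  have hwc : ContinuousAt w z := (hK.continuousOn).continuousAt ht
  have hηc : ContinuousAt η z := hη.continuous.continuousAt
  have hb1 : ∀ᶠ y in 𝓝 z, |w y| < |w z| + 1 :=
    (hwc.abs.eventually_lt continuousAt_const (by simp))
  have hb2 : ∀ᶠ y in 𝓝 z, |η y| < |η z| + 1 :=
    (hηc.abs.eventually_lt continuousAt_const (by simp))
  refine ⟨Real.toNNReal ((|η z| + 1) * K + (|w z| + 1) * K1), t ∩ t1 ∩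
    ({y | |w y| < |w z| + 1} ∩ {y | |η y| < |η z| + 1}),
    inter_mem (inter_mem ht ht1) (inter_mem hb1 hb2), ?_⟩
  refine LipschitzOnWith.of_dist_le_mul fun x hx y hy => ?_
  have e1 : dist (η x * w x) (η y * w y) ≤ |η x| * dist (w x) (w y) + |w y| * dist (η x) (η y) := by
    simp only [Real.dist_eq]
    rw [← abs_mul, ← abs_mul]
    have : η x * w x - η y * w y = η x * (w x - w y) + w y * (η x - η y) := by ring
    rw [this]
    exact abs_add_le _ _
  have e2 := hK.dist_le_mul x hx.1.1 y hy.1.1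
  have e3 := hK1.dist_le_mul x hx.1.2 y hy.1.2
  have e4 : |η x| ≤ |η z| + 1 := le_of_lt hx.2.2
  have e5 : |w y| ≤ |w z| + 1 := le_of_lt hy.2.1
  have hpos : 0 ≤ (|η z| + 1) * (K : ℝ) + (|w z| + 1) * K1 := by positivity
  rw [Real.coe_toNNReal _ hpos]
  calc dist (η x * w x) (η y * w y) ≤ _ := e1
    _ ≤ (|η z| + 1) * (K * dist x y) + (|w z| + 1) * (K1 * dist x y) := by
      refine add_le_add (mul_le_mul e4 e2 dist_nonneg (by positivity))
        (mul_le_mul e5 e3 dist_nonneg (by positivity))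
    _ = _ := by ring

section

variable {B C0 : Set ℂ} {w η : ℂ → ℝ}

/-- `w * g` is continuous if `w` is continuous off `B` and `g` vanishes near `B` -/
theorem continuous_mul_of_near {X : Type*} [NormedAddCommGroup X] [NormedSpace ℝ X] {g : ℂ → X}
    (hBc : IsClosed B) (hw : ContinuousOn w Bᶜ) (hg : Continuous g)
    (hN : ∀ z ∈ B, ∀ᶠ y in 𝓝 z, g y = 0) :
    Continuous fun z => w z • g z := by
  rw [continuous_iff_continuousAt]
  intro z
  by_cases hz : z ∈ B
  · have h : (fun z => w z • g z) =ᶠ[𝓝 z] fun _ => (0 : X) := by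
      filter_upwards [hN z hz] with y hy
      rw [hy, smul_zero]
    exact h.continuousAt
  · exact (hw.continuousAt (hBc.isOpen_compl.mem_nhds hz)).smul hg.continuousAt

theorem fderiv_zero_near (hN : ∀ z ∈ B, ∀ᶠ y in 𝓝 z, η y = 0) :
    ∀ z ∈ B, ∀ᶠ y in 𝓝 z, fderiv ℝ η y = 0 := by
  intro z hz
  filter_upwards [(hN z hz).eventually_nhds] with y hy
  have : η =ᶠ[𝓝 y] fun _ => (0 : ℝ) := hy
  rw [this.fderiv_eq]
  simp

/-- **integration by parts from `BP`** -/
theorem bp_apply (hB : Rd_557.BP) (hC0 : IsCompact (C0 ∪ B)) (hCd : IsTotallyDisconnected C0)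
    (hCr : IsConformallyRemovable C0) (hCv : volume C0 = 0) (hBc : IsClosed B)
    (hw : ContinuousOn w Bᶜ)
    (hloc : ∀ z, z ∉ B → z ∉ C0 → ∃ K : ℝ≥0, ∃ t ∈ 𝓝 z, LipschitzOnWith K w t)
    (hη : ContDiff ℝ 1 η) (hηc : HasCompactSupport η)
    (hN : ∀ z ∈ B, ∀ᶠ y in 𝓝 z, η y = 0)
    (hen : IntegrableOn (fun z => ‖fderiv ℝ w z‖ ^ 2) (tsupport η)) (e : ℂ) :
    Integrable (fun z => η z * fderiv ℝ w z e) ∧ Integrable (fun z => w z * fderiv ℝ η z e) ∧
      (∫ z, η z * fderiv ℝ w z e) + ∫ z, w z * fderiv ℝ η z e = 0 := by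
  have hfη : Continuous (fderiv ℝ η) := hη.continuous_fderiv (by norm_num)
  have hfN := fderiv_zero_near hN
  -- the second function
  have hc2 : Continuous fun z => w z • fderiv ℝ η z := continuous_mul_of_near hBc hw hfη hfN
  have hs2 : HasCompactSupport fun z => w z • fderiv ℝ η z := by
    refine (hηc.fderiv (𝕜 := ℝ)).mono ?_
    intro x hx h0
    refine hx ?_
    simp only at h0 ⊢
    rw [h0, smul_zero]
  have hi2 : Integrable (fun z => w z * fderiv ℝ η z e) := by
    have h : Continuous fun z => (w z • fderiv ℝ η z) e := hc2.clm_apply continuous_const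
    refine h.integrable_of_hasCompactSupport (hs2.mono ?_)
    intro x hx h0
    refine hx ?_
    simp only at h0 ⊢
    rw [h0]
    rfl
  -- bound of η
  obtain ⟨M, hM⟩ : ∃ M : ℝ, ∀ z, |η z| ≤ M := by
    obtain ⟨M, hM⟩ := hη.continuous.bounded_above_of_compact_support hηc
    exact ⟨M, hM⟩
  have hM0 : 0 ≤ M := (abs_nonneg _).trans (hM 0)
  have hmf : Measurable (fderiv ℝ w) := measurable_fderiv ℝ w
  have hK : IsCompact (tsupport η) := hηc
  have hi0 : Integrable ((tsupport η).indicator fun z => ‖fderiv ℝ w z‖ ^ 2) := by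
    rwa [integrable_indicator_iff (isClosed_tsupport η).measurableSet]
  have hione : Integrable ((tsupport η).indicator fun _ => (1 : ℝ)) := by
    rw [integrable_indicator_iff (isClosed_tsupport η).measurableSet]
    exact integrableOn_const hK.measure_lt_top.ne
  have hi1 : Integrable (fun z => η z * fderiv ℝ w z e) := by
    refine ((hi0.add hione).const_mul (M * ‖e‖)).mono' ?_ (ae_of_all _ fun z => ?_)
    · exact hη.continuous.aestronglyMeasurable.mul
        ((hmf.apply_continuousLinearMap e).aestronglyMeasurable)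
    · by_cases hz : z ∈ tsupport η
      · simp only [Pi.add_apply, indicator_of_mem hz]
        rw [norm_mul, Real.norm_eq_abs]
        have h1 := (fderiv ℝ w z).le_opNorm e
        have h2 : ‖fderiv ℝ w z‖ ≤ ‖fderiv ℝ w z‖ ^ 2 + 1 := by
          nlinarith [sq_nonneg (‖fderiv ℝ w z‖ - 1), norm_nonneg (fderiv ℝ w z)]
        calc |η z| * ‖fderiv ℝ w z e‖ ≤ M * (‖fderiv ℝ w z‖ * ‖e‖) :=
              mul_le_mul (hM z) h1 (norm_nonneg _) hM0
          _ ≤ M * ((‖fderiv ℝ w z‖ ^ 2 + 1) * ‖e‖) := by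
              refine mul_le_mul_of_nonneg_left ?_ hM0
              exact mul_le_mul_of_nonneg_right h2 (norm_nonneg _)
          _ = _ := by ring
      · have h0 : η z = 0 := image_eq_zero_of_notMem_tsupport hz
        rw [h0, zero_mul, norm_zero]
        simp only [Pi.add_apply, indicator_of_notMem hz]
        simp
  refine ⟨hi1, hi2, ?_⟩
  -- the product
  set v : ℂ → ℝ := fun z => η z * w z with hv
  have hvc : Continuous v := by
    have := continuous_mul_of_near hBc hw hη.continuous hN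
    refine this.congr fun z => ?_
    simp only [hv, smul_eq_mul]
    ring
  have hvs : HasCompactSupport v := hηc.mul_right
  have hdis : ∀ z ∈ tsupport η, z ∉ B := fun z hz hzB =>
    (notMem_tsupport_iff_eventuallyEq.2 (hN z hzB)) hz
  have hvl : ∀ z ∉ C0 ∩ tsupport η, ∃ K : ℝ≥0, ∃ t ∈ 𝓝 z, LipschitzOnWith K v t := by
    intro z hz
    by_cases hzt : z ∈ tsupport η
    · obtain ⟨K, t, ht, hK⟩ := hloc z (hdis z hzt) fun h => hz ⟨h, hzt⟩
      exact lipschitzOn_mul hη ht hK
    · have h0 : ∀ᶠ y in 𝓝 z, η y = 0 := notMem_tsupport_iff_eventuallyEq.1 hzt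
      refine ⟨0, {y | η y = 0}, h0, ?_⟩
      refine LipschitzOnWith.of_dist_le_mul fun x hx y hy => ?_
      simp only [mem_ofPred_eq] at hx hy
      simp [hv, hx, hy]
  have hCc : IsCompact (C0 ∩ tsupport η) := by
    have h1 : C0 ∩ tsupport η = (C0 ∪ B) ∩ tsupport η := by
      ext z
      constructor
      · rintro ⟨h1, h2⟩
        exact ⟨Or.inl h1, h2⟩
      · rintro ⟨h1 | h1, h2⟩
        · exact ⟨h1, h2⟩
        · exact absurd h1 (hdis z h2)
    rw [h1]
    exact hC0.inter_right (isClosed_tsupport η)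
  have hae := ae_diff (w := w) (S := (B ∪ C0)ᶜ) fun z hz => by
    rw [mem_compl_iff, mem_union, not_or] at hz
    exact hloc z hz.1 hz.2
  have hC0' : ∀ᵐ z, z ∉ C0 := by
    rw [ae_iff]
    simpa using hCv
  have hder : ∀ᵐ z, fderiv ℝ v z = η z • fderiv ℝ w z + w z • fderiv ℝ η z := by
    filter_upwards [hae, hC0'] with z h1 h2
    by_cases hzB : z ∈ B
    · have e1 : v =ᶠ[𝓝 z] fun _ => (0 : ℝ) := by
        filter_upwards [hN z hzB] with y hy
        simp [hv, hy]
      rw [e1.fderiv_eq, (hN z hzB).self_of_nhds, (hfN z hzB).self_of_nhds]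
      simp
    · have hd := h1 (by rw [mem_compl_iff, mem_union, not_or]; exact ⟨hzB, h2⟩)
      exact ((hη.differentiable (by norm_num) z).hasFDerivAt.mul hd.hasFDerivAt).fderiv
  have hsq2 : Integrable fun z => ‖w z • fderiv ℝ η z‖ ^ 2 := by
    have h : Continuous fun z => ‖w z • fderiv ℝ η z‖ ^ 2 := hc2.norm.pow 2
    refine h.integrable_of_hasCompactSupport (hs2.mono ?_)
    intro x hx h0
    refine hx ?_
    simp only at h0 ⊢
    rw [h0]
    simp
  have hven : Integrable fun z => ‖fderiv ℝ v z‖ ^ 2 := by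
    refine ((hi0.const_mul (2 * M ^ 2)).add (hsq2.const_mul 2)).mono' ?_ ?_
    · exact ((measurable_fderiv ℝ v).norm.pow_const 2).aestronglyMeasurable
    · filter_upwards [hder] with z hz
      rw [Real.norm_eq_abs, abs_of_nonneg (by positivity), hz]
      have h1 : ‖η z • fderiv ℝ w z + w z • fderiv ℝ η z‖ ^ 2 ≤
          2 * ‖η z • fderiv ℝ w z‖ ^ 2 + 2 * ‖w z • fderiv ℝ η z‖ ^ 2 := by
        have := norm_add_le (η z • fderiv ℝ w z) (w z • fderiv ℝ η z)
        nlinarith [norm_nonneg (η z • fderiv ℝ w z + w z • fderiv ℝ η z),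
          sq_nonneg (‖η z • fderiv ℝ w z‖ - ‖w z • fderiv ℝ η z‖),
          norm_nonneg (η z • fderiv ℝ w z), norm_nonneg (w z • fderiv ℝ η z)]
      refine h1.trans ?_
      simp only [Pi.add_apply]
      refine add_le_add ?_ le_rfl
      by_cases hzt : z ∈ tsupport η
      · rw [indicator_of_mem hzt, norm_smul, mul_pow, Real.norm_eq_abs]
        have h3 : |η z| ^ 2 ≤ M ^ 2 := pow_le_pow_left₀ (abs_nonneg _) (hM z) 2
        nlinarith [sq_nonneg ‖fderiv ℝ w z‖]
      · rw [indicator_of_notMem hzt, image_eq_zero_of_notMem_tsupport hzt]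
        simp
  have h := hB (C0 ∩ tsupport η) hCc (fun t ht => hCd t (ht.trans inter_subset_left))
    (removable_mono hCr inter_subset_left) v hvc hvs hvl hven.integrableOn e
  have hC1 : ∀ᵐ z, z ∈ (C0 ∩ tsupport η)ᶜ := by
    filter_upwards [hC0'] with z hz h
    exact hz h.1
  rw [Measure.restrict_eq_self_of_ae_mem hC1] at h
  rw [← integral_add hi1 hi2, ← h]
  refine integral_congr_ae ?_
  filter_upwards [hder] with z hz
  rw [hz]
  simp

end

/-- `∫ 2η + z·∇η = 0` -/
theorem ibp_id {η : ℂ → ℝ} (hη : ContDiff ℝ 1 η) (hηc : HasCompactSupport η) :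
    Integrable (fun z => fderiv ℝ η z z) ∧ ∫ z, fderiv ℝ η z z = -(2 * ∫ z, η z) := by
  have hre : ContDiff ℝ 1 (fun z : ℂ => η z * z.re) := hη.mul Complex.reCLM.contDiff
  have him : ContDiff ℝ 1 (fun z : ℂ => η z * z.im) := hη.mul Complex.imCLM.contDiff
  have h1 := integral_fderiv_eq_zero hre (hηc.mul_right) 1
  have h2 := integral_fderiv_eq_zero him (hηc.mul_right) Complex.I
  have e1 : ∀ z, fderiv ℝ (fun z : ℂ => η z * z.re) z 1 = η z + z.re * fderiv ℝ η z 1 := by
    intro z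
    have d0 : HasFDerivAt η (fderiv ℝ η z) z := (hη.differentiable (by norm_num) z).hasFDerivAt
    have e : fderiv ℝ (fun z : ℂ => η z * z.re) z = η z • Complex.reCLM + z.re • fderiv ℝ η z :=
      (d0.mul Complex.reCLM.hasFDerivAt).fderiv
    rw [e]
    simp
  have e2 : ∀ z, fderiv ℝ (fun z : ℂ => η z * z.im) z Complex.I =
      η z + z.im * fderiv ℝ η z Complex.I := by
    intro z
    have d0 : HasFDerivAt η (fderiv ℝ η z) z := (hη.differentiable (by norm_num) z).hasFDerivAt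
    have e : fderiv ℝ (fun z : ℂ => η z * z.im) z = η z • Complex.imCLM + z.im • fderiv ℝ η z :=
      (d0.mul Complex.imCLM.hasFDerivAt).fderiv
    rw [e]
    simp
  simp only [e1] at h1
  simp only [e2] at h2
  have hi : Integrable η := hη.continuous.integrable_of_hasCompactSupport hηc
  have hfc : Continuous (fderiv ℝ η) := hη.continuous_fderiv (by norm_num)
  have hfs : HasCompactSupport (fderiv ℝ η) := hηc.fderiv (𝕜 := ℝ)
  have hg1 : Integrable (fun z : ℂ => z.re * fderiv ℝ η z 1) := by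
    have h : Continuous (fun z : ℂ => z.re * fderiv ℝ η z 1) :=
      Complex.continuous_re.mul (hfc.clm_apply continuous_const)
    refine h.integrable_of_hasCompactSupport (hfs.mono ?_)
    intro x hx h0
    refine hx ?_
    simp only at h0 ⊢
    rw [h0]
    simp
  have hg2 : Integrable (fun z : ℂ => z.im * fderiv ℝ η z Complex.I) := by
    have h : Continuous (fun z : ℂ => z.im * fderiv ℝ η z Complex.I) :=
      Complex.continuous_im.mul (hfc.clm_apply continuous_const)
    refine h.integrable_of_hasCompactSupport (hfs.mono ?_)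
    intro x hx h0
    refine hx ?_
    simp only at h0 ⊢
    rw [h0]
    simp
  rw [integral_add hi hg1] at h1
  rw [integral_add hi hg2] at h2
  have key : ∀ z : ℂ, fderiv ℝ η z z = z.re * fderiv ℝ η z 1 + z.im * fderiv ℝ η z Complex.I := by
    intro z
    have : (z : ℂ) = z.re • (1 : ℂ) + z.im • Complex.I := by
      apply Complex.ext <;> simp
    conv_lhs => rw [this]
    rw [map_add, map_smul, map_smul, smul_eq_mul, smul_eq_mul]
    simp
  constructor
  · simp only [key]
    exact hg1.add hg2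
  · simp only [key]
    rw [integral_add hg1 hg2]
    linarith

end Crest.Agent.R105.Rend_256
end

-- ▼ part R105/Rend3_256
section

/-!
Row 105, S0139, FLUX, part 3: estimates for one real component of the planarised map.
-/

set_option autoImplicit false

open Set Filter MeasureTheory Metric
open scoped Topology NNReal

namespace Crest.Agent.R105.Rend_256

open Crest.AnalysisR Rd_557

section

variable {U : Set ℂ} {L : ℝ} {v : ℂ → ℝ} {B : Set ℂ} {ε : ℝ} {C0 A : Set ℂ} {h : ℂ → ℝ}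
  {Ψ : ℂ → ℝ → ℝ}

theorem integrable_h (P : PlanOut U L v B ε C0 A h Ψ) : Integrable h := by
  have hA : volume A ≠ ⊤ :=
    ((measure_mono P.AL).trans_lt measure_closedBall_lt_top).ne
  have h1 : Integrable (A.indicator fun _ => (1 : ℝ)) := by
    rw [integrable_indicator_iff P.Am]
    exact integrableOn_const hA
  refine (h1.add P.h2).mono' P.hm.aestronglyMeasurable (ae_of_all _ fun z => ?_)
  rw [Real.norm_eq_abs, abs_of_nonneg (P.h0 z)]
  by_cases hz : z ∈ A
  · simp only [Pi.add_apply, indicator_of_mem hz]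
    nlinarith [sq_nonneg (h z - 1)]
  · rw [P.hA z hz]
    simp only [Pi.add_apply, indicator_of_notMem hz]
    simp [P.hA z hz]

theorem psi_sub (P : PlanOut U L v B ε C0 A h Ψ) (z : ℂ) (s t : ℝ) :
    |Ψ z s - Ψ z t| ≤ |s - t| := by
  rcases le_total s t with hst | hst
  · have h1 := P.mono z hst
    have h2 := P.lip z s t hst
    rw [abs_sub_comm, abs_of_nonneg (by linarith), abs_sub_comm, abs_of_nonneg (by linarith)]
    exact h2
  · have h1 := P.mono z hst
    have h2 := P.lip z t s hst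
    rw [abs_of_nonneg (by linarith), abs_of_nonneg (by linarith)]
    exact h2

/-- squared gradient bound -/
theorem energy (P : PlanOut U L v B ε C0 A h Ψ) (hU : IsOpen U) {g : ℂ → ℝ} {S : Set ℂ}
    (hS : MeasurableSet S) (hSB : Disjoint S B)
    (hg : ∀ z ∈ U, ‖fderiv ℝ v z‖ ≤ g z)
    (hgi : IntegrableOn (fun z => g z ^ 2) (U ∩ S)) :
    IntegrableOn (fun z => ‖fderiv ℝ (fun z => Ψ z (v z)) z‖ ^ 2) S := by
  have h1 : IntegrableOn (U.indicator fun z => 8 * g z ^ 2) S := by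
    rw [IntegrableOn, integrable_indicator_iff hU.measurableSet, IntegrableOn,
      Measure.restrict_restrict hU.measurableSet]
    exact hgi.const_mul 8
  have h2 : IntegrableOn (fun z => 2 * h z ^ 2) S := (P.h2.const_mul 2).integrableOn
  refine Integrable.mono' (h1.add h2) ?_ ?_
  · exact ((measurable_fderiv ℝ _).norm.pow_const 2).aestronglyMeasurable
  · rw [ae_restrict_iff' hS]
    filter_upwards [P.derU, P.derC] with z h3 h4 hz
    rw [Real.norm_eq_abs, abs_of_nonneg (by positivity)]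
    have hzB : z ∉ B := fun hb => hSB.le_bot ⟨hz, hb⟩
    have h0 := P.h0 z
    by_cases hzU : z ∈ U
    · have h5 := h3 hzU
      have h6 : A.indicator (fun z => ‖fderiv ℝ v z‖) z ≤ g z := by
        by_cases hzA : z ∈ A
        · rw [indicator_of_mem hzA]
          exact hg z hzU
        · rw [indicator_of_notMem hzA]
          exact (norm_nonneg _).trans (hg z hzU)
      have h7 : ‖fderiv ℝ (fun z => Ψ z (v z)) z‖ ≤ 2 * g z + h z := by
        have := norm_sub_norm_le (fderiv ℝ (fun z => Ψ z (v z)) z) (fderiv ℝ v z)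
        have := hg z hzU
        linarith
      have h8 : 0 ≤ g z := (norm_nonneg _).trans (hg z hzU)
      simp only [Pi.add_apply, indicator_of_mem hzU]
      have := norm_nonneg (fderiv ℝ (fun z => Ψ z (v z)) z)
      nlinarith [sq_nonneg (2 * g z - h z)]
    · have h5 := h4 hzU hzB
      simp only [Pi.add_apply, indicator_of_notMem hzU]
      have := norm_nonneg (fderiv ℝ (fun z => Ψ z (v z)) z)
      nlinarith

/-- bulk estimate -/
theorem bulk (P : PlanOut U L v B ε C0 A h Ψ) (hU : IsOpen U) {g d η : ℂ → ℝ} {e : ℂ}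
    (he : ‖e‖ ≤ 1) (hg : ∀ z ∈ U, ‖fderiv ℝ v z‖ ≤ g z)
    (hd : ∀ z ∈ U, fderiv ℝ v z e = d z)
    (hηB : ∀ z ∈ B, η z = 0) {M : ℝ} (hM : ∀ z, |η z| ≤ M)
    (hgA : IntegrableOn g (A ∩ U))
    (hi : Integrable (fun z => η z * fderiv ℝ (fun z => Ψ z (v z)) z e))
    (hid : IntegrableOn (fun z => η z * d z) U) :
    ∫ z, η z * fderiv ℝ (fun z => Ψ z (v z)) z e ≤
      (∫ z in U, η z * d z) + M * ((∫ z in A ∩ U, g z) + ∫ z, h z) := by
  have hM0 : 0 ≤ M := (abs_nonneg _).trans (hM 0)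
  have h1 : Integrable (U.indicator fun z => η z * d z) := by
    rwa [integrable_indicator_iff hU.measurableSet]
  have h2 : Integrable ((A ∩ U).indicator g) := by
    rwa [integrable_indicator_iff (P.Am.inter hU.measurableSet)]
  have h3 := integrable_h P
  have h23 : Integrable (fun z => M * ((A ∩ U).indicator g z + h z)) := (h2.add h3).const_mul M
  rw [← integral_indicator hU.measurableSet, ← integral_indicator (P.Am.inter hU.measurableSet),
    ← integral_add h2 h3, ← integral_const_mul, ← integral_add h1 h23]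
  refine integral_mono_ae hi (h1.add h23) ?_
  filter_upwards [P.derU, P.derC] with z h4 h5
  have h0 := P.h0 z
  by_cases hzU : z ∈ U
  · rw [indicator_of_mem hzU]
    have h6 := h4 hzU
    have h7 : A.indicator (fun z => ‖fderiv ℝ v z‖) z ≤ (A ∩ U).indicator g z := by
      by_cases hzA : z ∈ A
      · rw [indicator_of_mem hzA, indicator_of_mem (show z ∈ A ∩ U from ⟨hzA, hzU⟩)]
        exact hg z hzU
      · rw [indicator_of_notMem hzA, indicator_of_notMem (fun h => hzA h.1)]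
    have h8 : |fderiv ℝ (fun z => Ψ z (v z)) z e - d z| ≤ (A ∩ U).indicator g z + h z := by
      rw [← hd z hzU]
      have h9 := (fderiv ℝ (fun z => Ψ z (v z)) z - fderiv ℝ v z).le_opNorm e
      rw [_root_.sub_apply, Real.norm_eq_abs] at h9
      have h10 : ‖fderiv ℝ (fun z => Ψ z (v z)) z - fderiv ℝ v z‖ * ‖e‖ ≤
          ‖fderiv ℝ (fun z => Ψ z (v z)) z - fderiv ℝ v z‖ * 1 :=
        mul_le_mul_of_nonneg_left he (norm_nonneg _)
      linarith
    have h11 : η z * (fderiv ℝ (fun z => Ψ z (v z)) z e - d z) ≤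
        M * ((A ∩ U).indicator g z + h z) := by
      refine (le_abs_self _).trans ?_
      rw [abs_mul]
      exact mul_le_mul (hM z) h8 (abs_nonneg _) hM0
    linarith
  · rw [indicator_of_notMem hzU]
    by_cases hzB : z ∈ B
    · rw [hηB z hzB, indicator_of_notMem (fun h => hzU h.2)]
      simp only [zero_mul, zero_add]
      positivity
    · have h6 := h5 hzU hzB
      have h9 := (fderiv ℝ (fun z => Ψ z (v z)) z).le_opNorm e
      rw [Real.norm_eq_abs] at h9
      have h10 : ‖fderiv ℝ (fun z => Ψ z (v z)) z‖ * ‖e‖ ≤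
          ‖fderiv ℝ (fun z => Ψ z (v z)) z‖ * 1 :=
        mul_le_mul_of_nonneg_left he (norm_nonneg _)
      rw [indicator_of_notMem (fun h => hzU h.2), zero_add, zero_add]
      refine (le_abs_self _).trans ?_
      rw [abs_mul]
      exact mul_le_mul (hM z) (by linarith) (abs_nonneg _) hM0

end

end Crest.Agent.R105.Rend_256
end

-- ▼ part R105/Rend4_256
section

/-!
Row 105, S0139, FLUX, part 4: the boundary term at one disc for the planarised map.
-/

set_option autoImplicit false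

open Set Filter MeasureTheory Metric
open scoped Topology NNReal

namespace Crest.Agent.R105.Rend_256

open Crest.AnalysisR Rd_557

theorem fderiv_bmp_zero {c : ℂ} {a b : ℝ} (ha : 0 < a) (hab : a < b) {z : ℂ}
    (hz : ‖z - c‖ < a ∨ b < ‖z - c‖) : ∀ᶠ y in 𝓝 z, fderiv ℝ (bmp c a b) y = 0 := by
  have hn : Continuous fun z : ℂ => ‖z - c‖ := by fun_prop
  have ho : IsOpen {z : ℂ | ‖z - c‖ < a ∨ b < ‖z - c‖} :=
    ((isOpen_lt hn continuous_const).union (isOpen_lt continuous_const hn) :)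
  filter_upwards [ho.mem_nhds hz] with y hy
  ext v
  rw [fderiv_bmp_apply, neg_mul, dns_inner ha hab hy]
  simp

theorem apply_pair (l : ℂ →L[ℝ] ℝ) (x y : ℝ) :
    l (⟨x, y⟩ : ℂ) = x * l 1 + y * l Complex.I := by
  have : (⟨x, y⟩ : ℂ) = x • (1 : ℂ) + y • Complex.I := by
    apply Complex.ext <;> simp
  rw [this, map_add, map_smul, map_smul, smul_eq_mul, smul_eq_mul]

theorem cst_bmp {U : Set ℂ} {L : ℝ} {v : ℂ → ℝ} {B : Set ℂ} {ε : ℝ} {C0 A : Set ℂ} {h : ℂ → ℝ}
    {Ψ : ℂ → ℝ → ℝ} (P : PlanOut U L v B ε C0 A h Ψ) {c : ℂ} {a b : ℝ} (ha : 0 < a) (hab : a < b)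
    (m : ℝ) {e : ℂ} (he : ‖e‖ ≤ 1) :
    -(∫ z, bmp c a b z * h z) ≤ ∫ z, Ψ z m * fderiv ℝ (bmp c a b) z e := by
  obtain ⟨K, hK⟩ := (contDiff_bmp (n := 1) (c := c) (a := a) (b := b)).lipschitzWith_of_hasCompactSupport
    (hasCompactSupport_bmp ha hab) (by norm_num)
  have h1 := P.cst m (bmp c a b) K hK (hasCompactSupport_bmp ha hab) e
  have h2 : ∫ z, |bmp c a b z| * h z = ∫ z, bmp c a b z * h z := by
    refine integral_congr_ae (ae_of_all _ fun z => ?_)
    simp only
    rw [abs_of_nonneg (bmp_nonneg z)]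
  rw [h2] at h1
  have h3 : 0 ≤ ∫ z, bmp c a b z * h z :=
    integral_nonneg fun z => mul_nonneg (bmp_nonneg z) (P.h0 z)
  have h4 := (abs_le.1 h1).1
  nlinarith [mul_le_mul_of_nonneg_right he h3]

/-- integrability of `w ∂β` -/
theorem integrable_w {B : Set ℂ} {w : ℂ → ℝ} (hBc : IsClosed B) (hw : ContinuousOn w Bᶜ)
    {c : ℂ} {a b : ℝ} (ha : 0 < a) (hab : a < b)
    (hB : ∀ z ∈ B, ‖z - c‖ < a ∨ b < ‖z - c‖) (e : ℂ) :
    Integrable fun z => w z * fderiv ℝ (bmp c a b) z e := by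
  have hfη : Continuous (fderiv ℝ (bmp c a b)) := contDiff_bmp.continuous_fderiv (n := 1)
    (by norm_num)
  have hc2 : Continuous fun z => w z • fderiv ℝ (bmp c a b) z :=
    continuous_mul_of_near hBc hw hfη fun z hz => fderiv_bmp_zero ha hab (hB z hz)
  have h : Continuous fun z => (w z • fderiv ℝ (bmp c a b) z) e := hc2.clm_apply continuous_const
  refine h.integrable_of_hasCompactSupport ?_
  refine ((hasCompactSupport_bmp (c := c) ha hab).fderiv (𝕜 := ℝ)).mono ?_
  intro x hx h0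
  refine hx ?_
  simp only at h0 ⊢
  rw [h0]
  simp

/-- **the boundary term at one disc** -/
theorem shell_pair {U : Set ℂ} {L : ℝ} {v1 v2 : ℂ → ℝ} {B : Set ℂ} {ε : ℝ} {C1 C2 A1 A2 : Set ℂ}
    {h1 h2 : ℂ → ℝ} {Ψ1 Ψ2 : ℂ → ℝ → ℝ} (P1 : PlanOut U L v1 B ε C1 A1 h1 Ψ1)
    (P2 : PlanOut U L v2 B ε C2 A2 h2 Ψ2) (hBc : IsClosed B)
    {c : ℂ} {a b : ℝ} (ha : 0 < a) (hab : a < b)
    (hB : ∀ z ∈ B, ‖z - c‖ < a ∨ b < ‖z - c‖) {m1 m2 ρ : ℝ} (hρ : 0 ≤ ρ)
    (hv : ∀ z, a ≤ ‖z - c‖ → ‖z - c‖ ≤ b → (v1 z - m1) ^ 2 + (v2 z - m2) ^ 2 ≤ ρ ^ 2) :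
    2 * Real.pi * a ^ 2 - 2 * Real.pi * b ^ 2 / a * ρ - 2 * (∫ z, bmp c a b z) -
      ((∫ z, bmp c a b z * h1 z) + ∫ z, bmp c a b z * h2 z) ≤
      (∫ z, Ψ1 z (v1 z) * fderiv ℝ (bmp c a b) z 1) +
        ∫ z, Ψ2 z (v2 z) * fderiv ℝ (bmp c a b) z Complex.I := by
  classical
  set β := bmp c a b with hβ
  have hi1 : Integrable fun z => Ψ1 z (v1 z) * fderiv ℝ β z 1 :=
    integrable_w hBc P1.cont ha hab hB 1
  have hi2 : Integrable fun z => Ψ2 z (v2 z) * fderiv ℝ β z Complex.I :=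
    integrable_w hBc P2.cont ha hab hB Complex.I
  -- off the annulus the derivative vanishes
  have hoff : ∀ z, (‖z - c‖ < a ∨ b < ‖z - c‖) → fderiv ℝ β z = 0 := fun z hz =>
    (fderiv_bmp_zero ha hab hz).self_of_nhds
  have hmβ : ∀ e : ℂ, Continuous fun z => fderiv ℝ β z e := fun e =>
    (contDiff_bmp.continuous_fderiv (n := 1) (by norm_num)).clm_apply continuous_const
  have hsβ : ∀ e : ℂ, HasCompactSupport fun z => fderiv ℝ β z e := by
    intro e
    refine ((hasCompactSupport_bmp (c := c) ha hab).fderiv (𝕜 := ℝ)).mono ?_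
    intro x hx h0
    refine hx ?_
    simp only [hβ] at h0 ⊢
    rw [h0]
    simp
  have hmw : ∀ {Ψ : ℂ → ℝ → ℝ} {v : ℂ → ℝ}, ContinuousOn (fun z => Ψ z (v z)) Bᶜ →
      (∀ s, Measurable fun z => Ψ z s) → ∀ m : ℝ,
      AEStronglyMeasurable (Bᶜ.indicator fun z => Ψ z (v z) - Ψ z m) volume := by
    intro Ψ v hc hm m
    rw [aestronglyMeasurable_indicator_iff hBc.measurableSet.compl]
    exact (hc.aestronglyMeasurable hBc.measurableSet.compl).sub
      (hm m).aestronglyMeasurable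
  -- the difference functions
  set D1 : ℂ → ℝ := Bᶜ.indicator fun z => Ψ1 z (v1 z) - Ψ1 z m1 with hD1
  set D2 : ℂ → ℝ := Bᶜ.indicator fun z => Ψ2 z (v2 z) - Ψ2 z m2 with hD2
  have hmD1 : AEStronglyMeasurable D1 volume := hmw P1.cont P1.meas m1
  have hmD2 : AEStronglyMeasurable D2 volume := hmw P2.cont P2.meas m2
  have hBz : ∀ z, ¬(‖z - c‖ < a ∨ b < ‖z - c‖) → z ∈ Bᶜ := fun z hz hzB => hz (hB z hzB)
  have hsq : ∀ z, ¬(‖z - c‖ < a ∨ b < ‖z - c‖) → D1 z ^ 2 + D2 z ^ 2 ≤ ρ ^ 2 := by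
    intro z hz
    have hz' := hBz z hz
    push Not at hz
    simp only [hD1, hD2, indicator_of_mem hz']
    have e1 : (Ψ1 z (v1 z) - Ψ1 z m1) ^ 2 ≤ (v1 z - m1) ^ 2 := sq_le_sq.2 (psi_sub P1 z _ _)
    have e2 : (Ψ2 z (v2 z) - Ψ2 z m2) ^ 2 ≤ (v2 z - m2) ^ 2 := sq_le_sq.2 (psi_sub P2 z _ _)
    linarith [hv z hz.1 hz.2]
  have hD1le : ∀ z, ¬(‖z - c‖ < a ∨ b < ‖z - c‖) → |D1 z| ≤ ρ := fun z hz =>
    abs_le_of_sq_le_sq (by nlinarith [hsq z hz, sq_nonneg (D2 z)]) hρ
  have hD2le : ∀ z, ¬(‖z - c‖ < a ∨ b < ‖z - c‖) → |D2 z| ≤ ρ := fun z hz =>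
    abs_le_of_sq_le_sq (by nlinarith [hsq z hz, sq_nonneg (D1 z)]) hρ
  have hDi : ∀ (D : ℂ → ℝ), AEStronglyMeasurable D volume →
      (∀ z, ¬(‖z - c‖ < a ∨ b < ‖z - c‖) → |D z| ≤ ρ) → ∀ e : ℂ,
      Integrable fun z => D z * fderiv ℝ β z e := by
    intro D hD hle e
    refine ((((hmβ e).norm).integrable_of_hasCompactSupport (hsβ e).norm).const_mul ρ).mono'
      (hD.mul (hmβ e).aestronglyMeasurable) (ae_of_all _ fun z => ?_)
    by_cases hz : ‖z - c‖ < a ∨ b < ‖z - c‖
    · rw [hoff z hz]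
      simp
    · rw [norm_mul]
      exact mul_le_mul_of_nonneg_right (by rw [Real.norm_eq_abs]; exact hle z hz) (norm_nonneg _)
  have hj1 := hDi D1 hmD1 hD1le 1
  have hj2 := hDi D2 hmD2 hD2le Complex.I
  -- the frozen part
  have eq1 : ∀ z, Ψ1 z m1 * fderiv ℝ β z 1 =
      Ψ1 z (v1 z) * fderiv ℝ β z 1 - D1 z * fderiv ℝ β z 1 := by
    intro z
    by_cases hz : ‖z - c‖ < a ∨ b < ‖z - c‖
    · rw [hoff z hz]; simp
    · simp only [hD1, indicator_of_mem (hBz z hz)]
      ring
  have eq2 : ∀ z, Ψ2 z m2 * fderiv ℝ β z Complex.I =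
      Ψ2 z (v2 z) * fderiv ℝ β z Complex.I - D2 z * fderiv ℝ β z Complex.I := by
    intro z
    by_cases hz : ‖z - c‖ < a ∨ b < ‖z - c‖
    · rw [hoff z hz]; simp
    · simp only [hD2, indicator_of_mem (hBz z hz)]
      ring
  have k1 := cst_bmp P1 (c := c) ha hab m1 (e := 1) (by simp)
  have k2 := cst_bmp P2 (c := c) ha hab m2 (e := Complex.I) (by simp)
  rw [← hβ] at k1 k2
  simp only [eq1] at k1
  simp only [eq2] at k2
  rw [integral_sub hi1 hj1] at k1
  rw [integral_sub hi2 hj2] at k2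
  -- the oscillating part
  set F : ℂ → ℂ := fun z => c + (⟨D1 z, D2 z⟩ : ℂ) with hF
  have hmF : AEStronglyMeasurable F volume := by
    refine aestronglyMeasurable_const.add ?_
    have : (fun z => (⟨D1 z, D2 z⟩ : ℂ)) = fun z => (D1 z : ℂ) + (D2 z : ℂ) * Complex.I := by
      funext z
      apply Complex.ext <;> simp
    rw [this]
    exact (Complex.continuous_ofReal.comp_aestronglyMeasurable hmD1).add
      ((Complex.continuous_ofReal.comp_aestronglyMeasurable hmD2).mul_const _)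
  have hFle : ∀ z, a ≤ ‖z - c‖ → ‖z - c‖ ≤ b → ‖F z - c‖ ≤ ρ := by
    intro z hz1 hz2
    have hz : ¬(‖z - c‖ < a ∨ b < ‖z - c‖) := by
      push Not
      exact ⟨hz1, hz2⟩
    have e1 := hsq z hz
    have e2 : ‖F z - c‖ ^ 2 ≤ ρ ^ 2 := by
      rw [← Complex.normSq_eq_norm_sq, Complex.normSq_apply]
      simp only [hF, add_sub_cancel_left]
      nlinarith
    exact (abs_le_of_sq_le_sq' e2 hρ).2
  obtain ⟨s1, s2⟩ := shell (c' := c) ha hab hmF hFle
  rw [← hβ] at s1 s2
  obtain ⟨t1, t2⟩ := ibp_id (contDiff_bmp (n := 1) (c := c) (a := a) (b := b))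
    (hasCompactSupport_bmp ha hab)
  rw [← hβ] at t1 t2
  have hcz : Integrable fun z => fderiv ℝ β z c := (hmβ c).integrable_of_hasCompactSupport (hsβ c)
  have hc0 : ∫ z, fderiv ℝ β z c = 0 := integral_fderiv_eq_zero
    (contDiff_bmp (n := 1) (c := c) (a := a) (b := b)) (hasCompactSupport_bmp ha hab) c
  have eq3 : ∀ z, fderiv ℝ β z (F z - z) = D1 z * fderiv ℝ β z 1 +
      D2 z * fderiv ℝ β z Complex.I + fderiv ℝ β z c - fderiv ℝ β z z := by
    intro z
    rw [map_sub]
    simp only [hF]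
    rw [map_add, apply_pair (fderiv ℝ β z) (D1 z) (D2 z)]
    ring
  simp only [eq3] at s2
  have hj12 : Integrable fun z => D1 z * fderiv ℝ β z 1 + D2 z * fderiv ℝ β z Complex.I :=
    hj1.add hj2
  have hj12c : Integrable fun z => D1 z * fderiv ℝ β z 1 + D2 z * fderiv ℝ β z Complex.I +
    fderiv ℝ β z c := hj12.add hcz
  rw [integral_sub hj12c t1, integral_add hj12 hcz, integral_add hj1 hj2, hc0, t2] at s2
  linarith

end Crest.Agent.R105.Rend_256
end

-- ▼ part R105/Rend5_256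
section

/-!
Row 105, S0139, FLUX, part 5: the cut-off `φ - Σ β_i` and the inequality at fixed `δ`.
-/

set_option autoImplicit false

open Set Filter MeasureTheory Metric
open scoped Topology NNReal

namespace Crest.Agent.R105.Rend_256

open Crest.AnalysisR Rd_557

/-- integrability of `w ∂φ` -/
theorem integrable_wD {B : Set ℂ} {w φ : ℂ → ℝ} (hBc : IsClosed B) (hw : ContinuousOn w Bᶜ)
    (hφ : ContDiff ℝ 1 φ) (hφc : HasCompactSupport φ)
    (hB : ∀ z ∈ B, ∀ᶠ y in 𝓝 z, fderiv ℝ φ y = 0) (e : ℂ) :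
    Integrable fun z => w z * fderiv ℝ φ z e := by
  have hfη : Continuous (fderiv ℝ φ) := hφ.continuous_fderiv (by norm_num)
  have hc2 : Continuous fun z => w z • fderiv ℝ φ z := continuous_mul_of_near hBc hw hfη hB
  have h : Continuous fun z => (w z • fderiv ℝ φ z) e := hc2.clm_apply continuous_const
  refine h.integrable_of_hasCompactSupport ?_
  refine (hφc.fderiv (𝕜 := ℝ)).mono ?_
  intro x hx h0
  refine hx ?_
  simp only at h0 ⊢
  rw [h0]
  simp

section Sum

variable {ι : Type} {c : ι → ℂ} {r : ι → ℝ} {s : Finset ι} {δ : ℝ}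

/-- the sum of the radial cut-offs -/
noncomputable def sg (c : ι → ℂ) (r : ι → ℝ) (s : Finset ι) (δ : ℝ) (z : ℂ) : ℝ :=
  ∑ i ∈ s, bmp (c i) (r i + δ) (r i + 2 * δ) z

/-- hypotheses on `δ` -/
structure Sep (c : ι → ℂ) (r : ι → ℝ) (s : Finset ι) (δ : ℝ) : Prop where
  pos : 0 < δ
  rpos : ∀ i ∈ s, 0 < r i
  disj : ∀ i ∈ s, ∀ j ∈ s, i ≠ j →
    Disjoint (closedBall (c i) (r i + 2 * δ)) (closedBall (c j) (r j + 2 * δ))

theorem Sep.a (S : Sep c r s δ) {i : ι} (hi : i ∈ s) : 0 < r i + δ := add_pos (S.rpos i hi) S.pos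

theorem Sep.ab (S : Sep c r s δ) (i : ι) : r i + δ < r i + 2 * δ := by
  have := S.pos
  linarith

theorem bmp_zero_of_notMem (S : Sep c r s δ) {i : ι} (hi : i ∈ s) {z : ℂ}
    (hz : z ∉ closedBall (c i) (r i + 2 * δ)) : bmp (c i) (r i + δ) (r i + 2 * δ) z = 0 := by
  rw [mem_closedBall, dist_eq_norm, not_le] at hz
  exact bmp_eq_zero (S.a hi) (S.ab i) hz.le

theorem sg_eq (S : Sep c r s δ) {i : ι} (hi : i ∈ s) {z : ℂ}
    (hz : z ∈ closedBall (c i) (r i + 2 * δ)) :
    sg c r s δ z = bmp (c i) (r i + δ) (r i + 2 * δ) z := by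
  unfold sg
  refine Finset.sum_eq_single_of_mem i hi fun j hj hji => ?_
  exact bmp_zero_of_notMem S hj fun h => (S.disj i hi j hj hji.symm).le_bot ⟨hz, h⟩

theorem sg_eq_zero (S : Sep c r s δ) {z : ℂ}
    (hz : ∀ i ∈ s, z ∉ closedBall (c i) (r i + 2 * δ)) : sg c r s δ z = 0 :=
  Finset.sum_eq_zero fun i hi => bmp_zero_of_notMem S hi (hz i hi)

theorem sg_nonneg (z : ℂ) : 0 ≤ sg c r s δ z := Finset.sum_nonneg fun _ _ => bmp_nonneg z

theorem sg_le_one (S : Sep c r s δ) (z : ℂ) : sg c r s δ z ≤ 1 := by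
  by_cases h : ∀ i ∈ s, z ∉ closedBall (c i) (r i + 2 * δ)
  · rw [sg_eq_zero S h]
    exact zero_le_one
  · push Not at h
    obtain ⟨i, hi, hz⟩ := h
    rw [sg_eq S hi hz]
    exact bmp_le_one z

theorem sg_near (S : Sep c r s δ) {z : ℂ} (hz : z ∈ big c r s) : ∀ᶠ y in 𝓝 z, sg c r s δ y = 1 := by
  simp only [big, mem_iUnion, exists_prop] at hz
  obtain ⟨i, hi, hz⟩ := hz
  have hp := S.pos
  have h1 : z ∈ ball (c i) (r i + δ) := by
    rw [mem_ball]
    rw [mem_closedBall] at hz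
    linarith
  filter_upwards [isOpen_ball.mem_nhds h1] with y hy
  rw [mem_ball] at hy
  rw [sg_eq S hi (by rw [mem_closedBall]; linarith)]
  exact bmp_eq_one (S.a hi) (S.ab i) (by rw [← dist_eq_norm]; exact hy.le)

theorem contDiff_sg : ContDiff ℝ 1 (sg c r s δ) := by
  unfold sg
  exact ContDiff.sum fun i _ => contDiff_bmp (n := 1)

theorem bmp_fderiv_near (S : Sep c r s δ) {i : ι} (hi : i ∈ s) {z : ℂ} (hz : z ∈ big c r s) :
    ‖z - c i‖ < r i + δ ∨ r i + 2 * δ < ‖z - c i‖ := by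
  simp only [big, mem_iUnion, exists_prop] at hz
  obtain ⟨j, hj, hz⟩ := hz
  have hp := S.pos
  by_cases hij : i = j
  · subst hij
    left
    rw [← dist_eq_norm]
    rw [mem_closedBall] at hz
    linarith
  · right
    rw [← dist_eq_norm]
    by_contra h
    push Not at h
    refine (S.disj i hi j hj hij).le_bot ⟨h, ?_⟩
    rw [mem_closedBall] at hz ⊢
    linarith

theorem isClosed_big : IsClosed (big c r s) := by
  unfold big
  exact isClosed_biUnion_finset fun i _ => isClosed_closedBall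

theorem fderiv_sg (z e : ℂ) : fderiv ℝ (sg c r s δ) z e =
    ∑ i ∈ s, fderiv ℝ (bmp (c i) (r i + δ) (r i + 2 * δ)) z e := by
  have h : HasFDerivAt (sg c r s δ)
      (∑ i ∈ s, fderiv ℝ (bmp (c i) (r i + δ) (r i + 2 * δ)) z) z := by
    unfold sg
    exact HasFDerivAt.fun_sum fun i _ =>
      ((contDiff_bmp (n := 1)).differentiable (by norm_num) z).hasFDerivAt
  rw [h.fderiv, _root_.sum_apply]

end Sum

section Deriv

variable {U : Set ℂ} {f F : ℂ → ℂ}

theorem hasFDerivAt_F (hU : IsOpen U) (hf : DifferentiableOn ℂ f U) (hF : ∀ z ∈ U, F z = f z)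
    {z : ℂ} (hz : z ∈ U) : HasFDerivAt F (deriv f z • (1 : ℂ →L[ℝ] ℂ)) z := by
  have h1 := (hf.differentiableAt (hU.mem_nhds hz)).hasDerivAt.complexToReal_fderiv
  refine h1.congr_of_eventuallyEq ?_
  filter_upwards [hU.mem_nhds hz] with y hy
  exact hF y hy

theorem fre (hU : IsOpen U) (hf : DifferentiableOn ℂ f U) (hF : ∀ z ∈ U, F z = f z)
    {z : ℂ} (hz : z ∈ U) : fderiv ℝ (fun z => (F z).re) z 1 = (deriv f z).re ∧
      ‖fderiv ℝ (fun z => (F z).re) z‖ ≤ ‖deriv f z‖ := by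
  have h2 : HasFDerivAt (fun z => (F z).re) (Complex.reCLM.comp (deriv f z • (1 : ℂ →L[ℝ] ℂ))) z :=
    Complex.reCLM.hasFDerivAt.comp z (hasFDerivAt_F hU hf hF hz)
  rw [h2.fderiv]
  refine ⟨by simp, ContinuousLinearMap.opNorm_le_bound _ (norm_nonneg _) fun w => ?_⟩
  simp only [ContinuousLinearMap.comp_apply, _root_.smul_apply, Complex.reCLM_apply,
    one_apply_eq_self, smul_eq_mul]
  rw [← norm_mul, Real.norm_eq_abs]
  exact Complex.abs_re_le_norm _

theorem fim (hU : IsOpen U) (hf : DifferentiableOn ℂ f U) (hF : ∀ z ∈ U, F z = f z)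
    {z : ℂ} (hz : z ∈ U) : fderiv ℝ (fun z => (F z).im) z Complex.I = (deriv f z).re ∧
      ‖fderiv ℝ (fun z => (F z).im) z‖ ≤ ‖deriv f z‖ := by
  have h2 : HasFDerivAt (fun z => (F z).im) (Complex.imCLM.comp (deriv f z • (1 : ℂ →L[ℝ] ℂ))) z :=
    Complex.imCLM.hasFDerivAt.comp z (hasFDerivAt_F hU hf hF hz)
  rw [h2.fderiv]
  refine ⟨by simp, ContinuousLinearMap.opNorm_le_bound _ (norm_nonneg _) fun w => ?_⟩
  simp only [ContinuousLinearMap.comp_apply, _root_.smul_apply, Complex.imCLM_apply,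
    one_apply_eq_self, smul_eq_mul]
  rw [← norm_mul, Real.norm_eq_abs]
  exact Complex.abs_im_le_norm _

/-- square integrable ⟹ integrable on bounded sets -/
theorem integrableOn_of_sq {g : ℂ → ℝ} {S : Set ℂ} (hm : Measurable g) (hg : ∀ z, 0 ≤ g z)
    (hS : volume S ≠ ⊤) (h : IntegrableOn (fun z => g z ^ 2) S) : IntegrableOn g S := by
  have h1 : IntegrableOn (fun _ : ℂ => (1 : ℝ)) S := integrableOn_const hS
  refine Integrable.mono' (h1.add h) hm.aestronglyMeasurable (ae_of_all _ fun z => ?_)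
  rw [Real.norm_eq_abs, abs_of_nonneg (hg z)]
  simp only [Pi.add_apply]
  nlinarith [sq_nonneg (g z - 1)]

end Deriv

end Crest.Agent.R105.Rend_256
end

-- ▼ part R105/Rend6_256
section

/-!
Row 105, S0139, FLUX, part 6: the inequality at fixed `s`, `δ`.
-/

set_option autoImplicit false

open Set Filter MeasureTheory Metric
open scoped Topology NNReal

namespace Crest.Agent.R105.Rend_256

open Crest.AnalysisR Rd_557

section

variable {U : Set ℂ} {f F : ℂ → ℂ} {L : ℝ} {ι : Type} {c : ι → ℂ} {r : ι → ℝ} {c' : ι → ℂ}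
  {R : ι → ℝ}

set_option maxHeartbeats 1600000 in
theorem approx (hB : BP) (hr : IsConformallyRemovable (frontier U)) (D : Dat U f L c r c' R F)
    {ε : ℝ} {s : Finset ι} {C1 A1 C2 A2 : Set ℂ} {h1 h2 : ℂ → ℝ} {Ψ1 Ψ2 : ℂ → ℝ → ℝ}
    (P1 : PlanOut U L (fun z => (F z).re) (big c r s) ε C1 A1 h1 Ψ1)
    (P2 : PlanOut U L (fun z => (F z).im) (big c r s) ε C2 A2 h2 Ψ2)
    {T : ℝ} (hT : 3 * |L| + 2 ≤ T) {φ : ℂ → ℝ} (hφ : ContDiff ℝ 1 φ) (hφc : HasCompactSupport φ)
    (hφ1 : ∀ z, ‖z‖ ≤ T → φ z = 1) {M : ℝ} (hM : ∀ z, |φ z| ≤ M) {δ : ℝ} (S : Sep c r s δ)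
    (hδ : δ ≤ 1 / 2) {ρ : ι → ℝ} (hρ0 : ∀ i ∈ s, 0 ≤ ρ i)
    (hρ : ∀ i ∈ s, ∀ z, r i + δ ≤ ‖z - c i‖ → ‖z - c i‖ ≤ r i + 2 * δ → ‖F z - c' i‖ ≤ ρ i) :
    (∑ i ∈ s, (2 * Real.pi * (r i + δ) ^ 2 -
        2 * Real.pi * (r i + 2 * δ) ^ 2 / (r i + δ) * ρ i)) -
      (M + 1) * (((∫ z in A1 ∩ U, ‖deriv f z‖) + ∫ z, h1 z) +
        ((∫ z in A2 ∩ U, ‖deriv f z‖) + ∫ z, h2 z)) -
      ((∫ z, h1 z) + ∫ z, h2 z) -
      (∫ z in U ∩ ⋃ i ∈ s, closedBall (c i) (r i + 2 * δ), 2 * (‖deriv f z‖ + 1)) ≤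
    ∫ z in U, (φ z * (2 * (deriv f z - 1).re) + fderiv ℝ φ z (f z - z)) := by
  classical
  have hU : IsOpen U := D.re.ext.1
  have hUm : MeasurableSet U := hU.measurableSet
  have habsL := abs_nonneg L
  have hLabs := le_abs_self L
  -- the discs are in the region where `φ = 1`
  have hin : ∀ i ∈ s, closedBall (c i) (r i + 2 * δ) ⊆ ball 0 T := by
    intro i hi z hz
    have h1 : closedBall (c i) (r i) ⊆ closedBall 0 L := fun w hw => D.re.hL (D.re.comp i w hw).1
    have h2 : ‖c i‖ + r i ≤ L := by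
      by_cases hc : c i = 0
      · have h3 : ((r i : ℝ) : ℂ) ∈ closedBall (c i) (r i) := by
          rw [hc, mem_closedBall_zero_iff, Complex.norm_real, Real.norm_eq_abs,
            abs_of_pos (S.rpos i hi)]
        have h4 := h1 h3
        rw [mem_closedBall_zero_iff, Complex.norm_real, Real.norm_eq_abs,
          abs_of_pos (S.rpos i hi)] at h4
        rw [hc, norm_zero]
        linarith
      · have hcn : 0 < ‖c i‖ := norm_pos_iff.2 hc
        set w : ℂ := c i + ((r i / ‖c i‖ : ℝ) : ℂ) * c i with hw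
        have h3 : w ∈ closedBall (c i) (r i) := by
          rw [mem_closedBall, dist_eq_norm, hw, add_sub_cancel_left, norm_mul, Complex.norm_real,
            Real.norm_eq_abs, abs_of_pos (div_pos (S.rpos i hi) hcn)]
          rw [div_mul_cancel₀ _ hcn.ne']
        have h4 := h1 h3
        have h5 : w = ((1 + r i / ‖c i‖ : ℝ) : ℂ) * c i := by
          rw [hw]
          push_cast
          ring
        rw [mem_closedBall_zero_iff, h5, norm_mul, Complex.norm_real, Real.norm_eq_abs,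
          abs_of_pos (by have := div_pos (S.rpos i hi) hcn; linarith), add_mul, one_mul,
          div_mul_cancel₀ _ hcn.ne'] at h4
        exact h4
    rw [mem_closedBall, dist_eq_norm] at hz
    rw [mem_ball_zero_iff]
    have h6 : ‖z‖ ≤ ‖z - c i‖ + ‖c i‖ := by
      have := norm_add_le (z - c i) (c i)
      simpa using this
    linarith
  have hφn : ∀ z, ‖z‖ < T → ∀ᶠ y in 𝓝 z, φ y = 1 := by
    intro z hz
    have ho : IsOpen {y : ℂ | ‖y‖ < T} := isOpen_lt continuous_norm continuous_const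
    filter_upwards [ho.mem_nhds hz] with y hy
    exact hφ1 y (le_of_lt hy)
  have hφd : ∀ z, ‖z‖ < T → fderiv ℝ φ z = 0 := by
    intro z hz
    have : φ =ᶠ[𝓝 z] fun _ => (1 : ℝ) := hφn z hz
    rw [this.fderiv_eq]
    simp
  have hUT : ∀ z, z ∉ U → ‖z‖ < T := by
    intro z hz
    have := D.re.hL hz
    rw [mem_closedBall_zero_iff] at this
    linarith
  have hBT : ∀ z ∈ big c r s, ‖z‖ < T := by
    intro z hz
    simp only [big, mem_iUnion, exists_prop] at hz
    obtain ⟨i, hi, hz⟩ := hz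
    have h3 := hin i hi (closedBall_subset_closedBall (by linarith [S.pos]) hz)
    rwa [mem_ball_zero_iff] at h3
  -- the big radius
  obtain ⟨T', hT'⟩ : ∃ T' : ℝ, T ≤ T' ∧ ∀ z, T' < ‖z‖ → φ z = 0 := by
    obtain ⟨T1, hT1⟩ := hφc.isCompact.isBounded.subset_closedBall 0
    refine ⟨max T T1, le_max_left _ _, fun z hz => ?_⟩
    by_contra h
    have := hT1 (subset_tsupport _ h)
    rw [mem_closedBall_zero_iff] at this
    exact absurd (le_max_right T T1) (not_le.2 (hz.trans_le this))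
  set σ := sg c r s δ with hσ
  have hσc : ContDiff ℝ 1 σ := contDiff_sg
  have hσ0 : ∀ z, T ≤ ‖z‖ → σ z = 0 := fun z hz => sg_eq_zero S fun i hi h => by
    have := hin i hi h
    rw [mem_ball_zero_iff] at this
    linarith
  set η : ℂ → ℝ := fun z => φ z - σ z with hη
  have hηc : ContDiff ℝ 1 η := hφ.sub hσc
  have hη0 : ∀ z, T' < ‖z‖ → η z = 0 := fun z hz => by
    simp only [hη]
    rw [hT'.2 z hz, hσ0 z (hT'.1.trans hz.le), sub_zero]
  have hηs : HasCompactSupport η := by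
    refine HasCompactSupport.of_support_subset_isCompact (isCompact_closedBall 0 T') ?_
    intro z hz
    rw [mem_closedBall_zero_iff]
    by_contra h
    exact hz (hη0 z (not_le.1 h))
  have hηT : tsupport η ⊆ closedBall 0 T' := by
    refine closure_minimal ?_ isClosed_closedBall
    intro z hz
    rw [mem_closedBall_zero_iff]
    by_contra h
    exact hz (hη0 z (not_le.1 h))
  have hηN : ∀ z ∈ big c r s, ∀ᶠ y in 𝓝 z, η y = 0 := by
    intro z hz
    filter_upwards [sg_near S hz, hφn z (hBT z hz)] with y hy1 hy2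
    simp only [hη, hσ]
    rw [hy1, hy2, sub_self]
  have hηB : ∀ z ∈ big c r s, η z = 0 := fun z hz => (hηN z hz).self_of_nhds
  have hηM : ∀ z, |η z| ≤ M + 1 := by
    intro z
    have e1 : |η z| ≤ |φ z| + |σ z| := abs_sub _ _
    have e2 : |σ z| ≤ 1 := by
      rw [abs_of_nonneg (sg_nonneg z)]
      exact sg_le_one S z
    linarith [hM z]
  have hdisj : Disjoint (tsupport η) (big c r s) := by
    rw [Set.disjoint_left]
    intro z hz hzB
    exact (notMem_tsupport_iff_eventuallyEq.2 (hηN z hzB)) hz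
  have hBc : IsClosed (big c r s) := isClosed_big
  -- gradient data
  have hgm : Measurable fun z => ‖deriv f z‖ := (measurable_deriv f).norm
  have hre := fun z (hz : z ∈ U) => fre hU D.hf D.eq hz
  have him := fun z (hz : z ∈ U) => fim hU D.hf D.eq hz
  have hgi : IntegrableOn (fun z => ‖deriv f z‖ ^ 2) (U ∩ tsupport η) :=
    (D.en T').mono_set (inter_subset_inter_right _ hηT)
  have hg1 : ∀ t : ℝ, IntegrableOn (fun z => ‖deriv f z‖) (U ∩ closedBall 0 t) := fun t =>
    integrableOn_of_sq hgm (fun _ => norm_nonneg _)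
      ((measure_mono inter_subset_right).trans_lt measure_closedBall_lt_top).ne (D.en t)
  have hen1 := energy P1 hU (isClosed_tsupport η).measurableSet hdisj (fun z hz => (hre z hz).2) hgi
  have hen2 := energy P2 hU (isClosed_tsupport η).measurableSet hdisj (fun z hz => (him z hz).2) hgi
  obtain ⟨a1, b1, i1⟩ := bp_apply hB P1.C0c P1.C0d (removable_mono hr P1.C0f)
    (measure_mono_null P1.C0f D.nul) hBc P1.cont P1.loc hηc hηs hηN hen1 1
  obtain ⟨a2, b2, i2⟩ := bp_apply hB P2.C0c P2.C0d (removable_mono hr P2.C0f)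
    (measure_mono_null P2.C0f D.nul) hBc P2.cont P2.loc hηc hηs hηN hen2 Complex.I
  -- integrability on `U` against compactly supported continuous functions
  have hUi : ∀ χ : ℂ → ℝ, Continuous χ → (∀ z, T' < ‖z‖ → χ z = 0) →
      (∃ M', ∀ z, |χ z| ≤ M') →
      IntegrableOn (fun z => χ z * (deriv f z).re) U ∧ IntegrableOn χ U ∧ Integrable χ := by
    rintro χ hχ hχ0 ⟨M', hM'⟩
    have hcs : HasCompactSupport χ := by
      refine HasCompactSupport.of_support_subset_isCompact (isCompact_closedBall 0 T') ?_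
      intro z hz
      rw [mem_closedBall_zero_iff]
      by_contra h
      exact hz (hχ0 z (not_le.1 h))
    have hi := hχ.integrable_of_hasCompactSupport hcs (μ := (volume : Measure ℂ))
    refine ⟨?_, hi.integrableOn, hi⟩
    have h3 : IntegrableOn ((closedBall 0 T').indicator fun z => M' * ‖deriv f z‖) U := by
      rw [IntegrableOn, integrable_indicator_iff measurableSet_closedBall, IntegrableOn,
        Measure.restrict_restrict measurableSet_closedBall, inter_comm]
      exact (hg1 T').const_mul M'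
    refine Integrable.mono' h3 ?_ (ae_of_all _ fun z => ?_)
    · exact (hχ.measurable.mul (Complex.measurable_re.comp (measurable_deriv f))).aestronglyMeasurable
    · by_cases hz : z ∈ closedBall 0 T'
      · rw [indicator_of_mem hz, norm_mul, Real.norm_eq_abs]
        exact mul_le_mul (hM' z) (Complex.abs_re_le_norm _) (norm_nonneg _)
          ((abs_nonneg _).trans (hM' z))
      · rw [indicator_of_notMem hz]
        rw [mem_closedBall_zero_iff, not_le] at hz
        rw [hχ0 z hz]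
        simp
  obtain ⟨jη1, jη2, jη3⟩ := hUi η hηc.continuous hη0 ⟨M + 1, hηM⟩
  obtain ⟨jφ1, jφ2, jφ3⟩ := hUi φ hφ.continuous hT'.2 ⟨M, hM⟩
  obtain ⟨jσ1, jσ2, jσ3⟩ := hUi σ hσc.continuous
    (fun z hz => hσ0 z (hT'.1.trans hz.le)) ⟨1, fun z => by
      rw [abs_of_nonneg (sg_nonneg z)]
      exact sg_le_one S z⟩
  -- bulk
  have hAg : ∀ {A : Set ℂ}, A ⊆ closedBall 0 (3 * L + 1) →
      IntegrableOn (fun z => ‖deriv f z‖) (A ∩ U) := fun hA =>
    (hg1 (3 * L + 1)).mono_set fun z hz => ⟨hz.2, hA hz.1⟩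
  have k1 := bulk P1 hU (d := fun z => (deriv f z).re) (e := 1) (by simp)
    (fun z hz => (hre z hz).2) (fun z hz => (hre z hz).1) hηB hηM (hAg P1.AL) a1 jη1
  have k2 := bulk P2 hU (d := fun z => (deriv f z).re) (e := Complex.I) (by simp)
    (fun z hz => (him z hz).2) (fun z hz => (him z hz).1) hηB hηM (hAg P2.AL) a2 jη1
  -- boundary terms: expansion
  have hφB : ∀ z ∈ big c r s, ∀ᶠ y in 𝓝 z, fderiv ℝ φ y = 0 := by
    intro z hz
    have ho : IsOpen {y : ℂ | ‖y‖ < T} := isOpen_lt continuous_norm continuous_const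
    filter_upwards [ho.mem_nhds (hBT z hz)] with y hy
    exact hφd y hy
  have dη : ∀ z e, fderiv ℝ η z e = fderiv ℝ φ z e -
      ∑ i ∈ s, fderiv ℝ (bmp (c i) (r i + δ) (r i + 2 * δ)) z e := by
    intro z e
    rw [← fderiv_sg]
    have : HasFDerivAt η (fderiv ℝ φ z - fderiv ℝ σ z) z :=
      (hφ.differentiable (by norm_num) z).hasFDerivAt.sub
        (hσc.differentiable (by norm_num) z).hasFDerivAt
    rw [this.fderiv]
    rfl
  have wφ1 := integrable_wD hBc P1.cont hφ hφc hφB 1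
  have wφ2 := integrable_wD hBc P2.cont hφ hφc hφB Complex.I
  have wβ1 : ∀ i ∈ s, Integrable fun z => Ψ1 z (F z).re *
      fderiv ℝ (bmp (c i) (r i + δ) (r i + 2 * δ)) z 1 := fun i hi =>
    integrable_w hBc P1.cont (S.a hi) (S.ab i) (fun z hz => bmp_fderiv_near S hi hz) 1
  have wβ2 : ∀ i ∈ s, Integrable fun z => Ψ2 z (F z).im *
      fderiv ℝ (bmp (c i) (r i + δ) (r i + 2 * δ)) z Complex.I := fun i hi =>
    integrable_w hBc P2.cont (S.a hi) (S.ab i) (fun z hz => bmp_fderiv_near S hi hz) Complex.I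
  have x1 : ∫ z, Ψ1 z (F z).re * fderiv ℝ η z 1 = (∫ z, Ψ1 z (F z).re * fderiv ℝ φ z 1) -
      ∑ i ∈ s, ∫ z, Ψ1 z (F z).re * fderiv ℝ (bmp (c i) (r i + δ) (r i + 2 * δ)) z 1 := by
    rw [← integral_finsetSum s wβ1, ← integral_sub wφ1 (integrable_finsetSum s wβ1)]
    refine integral_congr_ae (ae_of_all _ fun z => ?_)
    simp only
    rw [dη, mul_sub, Finset.mul_sum]
  have x2 : ∫ z, Ψ2 z (F z).im * fderiv ℝ η z Complex.I =
      (∫ z, Ψ2 z (F z).im * fderiv ℝ φ z Complex.I) -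
      ∑ i ∈ s, ∫ z, Ψ2 z (F z).im *
        fderiv ℝ (bmp (c i) (r i + δ) (r i + 2 * δ)) z Complex.I := by
    rw [← integral_finsetSum s wβ2, ← integral_sub wφ2 (integrable_finsetSum s wβ2)]
    refine integral_congr_ae (ae_of_all _ fun z => ?_)
    simp only
    rw [dη, mul_sub, Finset.mul_sum]
  -- far part
  obtain ⟨y1, y2⟩ := ibp_id hφ hφc
  have far : ∀ z, Ψ1 z (F z).re * fderiv ℝ φ z 1 + Ψ2 z (F z).im * fderiv ℝ φ z Complex.I -
      fderiv ℝ φ z z = U.indicator (fun z => fderiv ℝ φ z (f z - z)) z := by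
    intro z
    by_cases hz : ‖z‖ < T
    · rw [hφd z hz]
      by_cases hzU : z ∈ U
      · rw [indicator_of_mem hzU, hφd z hz]; simp
      · rw [indicator_of_notMem hzU]; simp
    · have hzU : z ∈ U := by
        by_contra h
        exact hz (hUT z h)
      have hA : ∀ {A : Set ℂ}, A ⊆ closedBall 0 (3 * L + 1) → z ∉ A := by
        intro A hA h
        have := hA h
        rw [mem_closedBall_zero_iff] at this
        exact hz (by linarith)
      rw [indicator_of_mem hzU, P1.off z (hA P1.AL), P2.off z (hA P2.AL), D.eq z hzU, map_sub,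
        ← apply_pair]
  have wφ12 : Integrable fun z => Ψ1 z (F z).re * fderiv ℝ φ z 1 +
    Ψ2 z (F z).im * fderiv ℝ φ z Complex.I := wφ1.add wφ2
  have jf : Integrable (U.indicator fun z => fderiv ℝ φ z (f z - z)) := by
    refine (wφ12.sub y1).congr (ae_of_all _ fun z => ?_)
    exact far z
  have x3 : (∫ z, Ψ1 z (F z).re * fderiv ℝ φ z 1) +
      (∫ z, Ψ2 z (F z).im * fderiv ℝ φ z Complex.I) =
      (∫ z in U, fderiv ℝ φ z (f z - z)) - 2 * ∫ z, φ z := by
    rw [← integral_indicator hUm, ← integral_add wφ1 wφ2]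
    have : ∫ z, U.indicator (fun z => fderiv ℝ φ z (f z - z)) z =
        ∫ z, (Ψ1 z (F z).re * fderiv ℝ φ z 1 + Ψ2 z (F z).im * fderiv ℝ φ z Complex.I -
          fderiv ℝ φ z z) := integral_congr_ae (ae_of_all _ fun z => (far z).symm)
    rw [this, integral_sub wφ12 y1, y2]
    ring
  -- discs
  have hβi : ∀ i ∈ s, Integrable (bmp (c i) (r i + δ) (r i + 2 * δ)) := fun i hi =>
    integrable_bmp (S.a hi) (S.ab i)
  have hβh : ∀ {h : ℂ → ℝ}, Integrable h → ∀ i ∈ s,
      Integrable fun z => bmp (c i) (r i + δ) (r i + 2 * δ) z * h z := by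
    intro h hh i hi
    refine hh.norm.mono' ((contDiff_bmp (n := 1)).continuous.aestronglyMeasurable.mul
      hh.aestronglyMeasurable) (ae_of_all _ fun z => ?_)
    rw [norm_mul, Real.norm_eq_abs, abs_of_nonneg (bmp_nonneg z)]
    exact mul_le_of_le_one_left (norm_nonneg _) (bmp_le_one z)
  have x4 : ∀ i ∈ s, 2 * Real.pi * (r i + δ) ^ 2 -
      2 * Real.pi * (r i + 2 * δ) ^ 2 / (r i + δ) * ρ i -
      2 * (∫ z, bmp (c i) (r i + δ) (r i + 2 * δ) z) -
      ((∫ z, bmp (c i) (r i + δ) (r i + 2 * δ) z * h1 z) +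
        ∫ z, bmp (c i) (r i + δ) (r i + 2 * δ) z * h2 z) ≤
      (∫ z, Ψ1 z (F z).re * fderiv ℝ (bmp (c i) (r i + δ) (r i + 2 * δ)) z 1) +
        ∫ z, Ψ2 z (F z).im * fderiv ℝ (bmp (c i) (r i + δ) (r i + 2 * δ)) z Complex.I := by
    intro i hi
    refine shell_pair P1 P2 hBc (S.a hi) (S.ab i) (fun z hz => bmp_fderiv_near S hi hz)
      (m1 := (c' i).re) (m2 := (c' i).im) (hρ0 i hi) fun z hz1 hz2 => ?_
    have h3 := hρ i hi z hz1 hz2
    have h4 : ‖F z - c' i‖ ^ 2 ≤ ρ i ^ 2 := pow_le_pow_left₀ (norm_nonneg _) h3 2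
    rw [← Complex.normSq_eq_norm_sq, Complex.normSq_apply] at h4
    simp only [Complex.sub_re, Complex.sub_im] at h4
    nlinarith
  have x5 := Finset.sum_le_sum x4
  rw [Finset.sum_sub_distrib, Finset.sum_sub_distrib, Finset.sum_add_distrib,
    Finset.sum_add_distrib, ← Finset.mul_sum, ← integral_finsetSum s hβi,
    ← integral_finsetSum s (hβh (integrable_h P1)),
    ← integral_finsetSum s (hβh (integrable_h P2))] at x5
  have hσh : ∀ {h : ℂ → ℝ}, Integrable h → (∀ z, 0 ≤ h z) →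
      ∫ z, ∑ i ∈ s, bmp (c i) (r i + δ) (r i + 2 * δ) z * h z ≤ ∫ z, h z := by
    intro h hh h0
    refine integral_mono (integrable_finsetSum s (hβh hh)) hh fun z => ?_
    simp only
    rw [← Finset.sum_mul]
    exact mul_le_of_le_one_left (h0 z) (sg_le_one S z)
  have x6 := hσh (integrable_h P1) P1.h0
  have x7 := hσh (integrable_h P2) P2.h0
  have x8 : ∫ z, ∑ i ∈ s, bmp (c i) (r i + δ) (r i + 2 * δ) z = ∫ z, σ z := rfl
  -- positivity on the complement
  have x9 : ∫ z in U, η z ≤ (∫ z, φ z) - ∫ z, σ z := by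
    rw [← integral_sub jφ3 jσ3]
    have e1 : ∫ z, (φ z - σ z) = (∫ z in U, η z) + ∫ z in Uᶜ, η z :=
      (integral_add_compl hUm jη3).symm
    rw [e1]
    have : 0 ≤ ∫ z in Uᶜ, η z := by
      refine setIntegral_nonneg hUm.compl fun z hz => ?_
      simp only [hη]
      rw [hφ1 z (hUT z hz).le]
      linarith [sg_le_one S z]
    linarith
  -- bulk on `U`
  set E : Set ℂ := ⋃ i ∈ s, closedBall (c i) (r i + 2 * δ) with hE
  have hEm : MeasurableSet E := by
    rw [hE]
    exact Finset.measurableSet_biUnion _ fun i _ => measurableSet_closedBall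
  have hEs : E ⊆ closedBall 0 T := by
    rw [hE]
    exact iUnion₂_subset fun i hi => (hin i hi).trans ball_subset_closedBall
  have jE : IntegrableOn (fun z => 2 * (‖deriv f z‖ + 1)) (U ∩ E) := by
    have h3 : IntegrableOn (fun z => ‖deriv f z‖) (U ∩ E) :=
      (hg1 T).mono_set (inter_subset_inter_right _ hEs)
    have h4 : IntegrableOn (fun _ : ℂ => (1 : ℝ)) (U ∩ E) := integrableOn_const
      ((measure_mono (inter_subset_right.trans hEs)).trans_lt measure_closedBall_lt_top).ne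
    exact (h3.add h4).const_mul 2
  have x10 : -(∫ z in U ∩ E, 2 * (‖deriv f z‖ + 1)) ≤
      2 * (∫ z in U, σ z * (deriv f z).re) - 2 * ∫ z in U, σ z := by
    rw [← integral_const_mul, ← integral_const_mul,
      ← integral_sub (jσ1.const_mul 2) (jσ2.const_mul 2), ← integral_neg,
      ← integral_indicator (hUm.inter hEm), ← integral_indicator hUm]
    refine integral_mono ?_ ?_ fun z => ?_
    · rw [integrable_indicator_iff (hUm.inter hEm)]
      exact jE.neg
    · rw [integrable_indicator_iff hUm]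
      exact (jσ1.const_mul 2).sub (jσ2.const_mul 2)
    · simp only
      by_cases hzU : z ∈ U
      · rw [indicator_of_mem hzU]
        by_cases hzE : z ∈ E
        · rw [indicator_of_mem (show z ∈ U ∩ E from ⟨hzU, hzE⟩)]
          have e1 := sg_nonneg (c := c) (r := r) (s := s) (δ := δ) z
          have e2 := sg_le_one S z
          rw [← hσ] at e1 e2
          have e3 := neg_le_of_abs_le (Complex.abs_re_le_norm (deriv f z))
          have e4 := norm_nonneg (deriv f z)
          nlinarith [mul_nonneg e1 (show 0 ≤ (deriv f z).re + ‖deriv f z‖ by linarith),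
            mul_nonneg (show 0 ≤ 1 - σ z by linarith) e4]
        · rw [indicator_of_notMem (fun h => hzE h.2)]
          have e1 : σ z = 0 := by
            refine sg_eq_zero S fun i hi h => hzE ?_
            rw [hE]
            exact mem_iUnion₂.2 ⟨i, hi, h⟩
          rw [e1]
          simp
      · rw [indicator_of_notMem (fun h => hzU h.1), indicator_of_notMem hzU]
  have x11 : (∫ z in U, η z * (deriv f z).re) =
      (∫ z in U, φ z * (deriv f z).re) - ∫ z in U, σ z * (deriv f z).re := by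
    rw [← integral_sub jφ1 jσ1]
    refine integral_congr_ae (ae_of_all _ fun z => ?_)
    simp only [hη]
    ring
  have x12 : (∫ z in U, η z) = (∫ z in U, φ z) - ∫ z in U, σ z := by
    rw [← integral_sub jφ2 jσ2]
  have x13 : ∫ z in U, (φ z * (2 * (deriv f z - 1).re) + fderiv ℝ φ z (f z - z)) =
      2 * (∫ z in U, φ z * (deriv f z).re) - 2 * (∫ z in U, φ z) +
        ∫ z in U, fderiv ℝ φ z (f z - z) := by
    have jf' : IntegrableOn (fun z => fderiv ℝ φ z (f z - z)) U :=
      (integrable_indicator_iff hUm).1 jf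
    have j3 : IntegrableOn (fun z => 2 * (φ z * (deriv f z).re) - 2 * φ z) U :=
      (jφ1.const_mul 2).sub (jφ2.const_mul 2)
    rw [← integral_const_mul, ← integral_const_mul,
      ← integral_sub (jφ1.const_mul 2) (jφ2.const_mul 2), ← integral_add j3 jf']
    refine integral_congr_ae (ae_of_all _ fun z => ?_)
    simp only [Complex.sub_re, Complex.one_re]
    ring
  rw [x13]
  rw [x1] at i1
  rw [x2] at i2
  rw [x8] at x5
  rw [mul_add (M + 1) ((∫ z in A1 ∩ U, ‖deriv f z‖) + ∫ z, h1 z)]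
  linarith [x3, x5, x6, x7, x9, x10, x11, x12, k1, k2, i1, i2]

end

end Crest.Agent.R105.Rend_256
end

-- ▼ part R105/Rend7_256
section

/-!
Row 105, S0139, FLUX, part 7: limits `δ → 0`, `ε' → 0`, `s → all`. Main theorem `fluxP`.
-/

set_option autoImplicit false

open Set Filter MeasureTheory Metric
open scoped Topology NNReal

namespace Crest.Agent.R105.Rend_256

open Crest.AnalysisR Rd_557

section

variable {U : Set ℂ} {f F : ℂ → ℂ} {L : ℝ} {ι : Type} {c : ι → ℂ} {r : ι → ℝ} {c' : ι → ℂ}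
  {R : ι → ℝ}

theorem eventually_sep (D : Dat U f L c r c' R F) {s : Finset ι} (hs : ∀ i ∈ s, 0 < r i) :
    ∀ᶠ δ in 𝓝[>] (0 : ℝ), Sep c r s δ := by
  have h1 : ∀ i ∈ s, ∀ j ∈ s, i ≠ j → ∀ᶠ δ in 𝓝[>] (0 : ℝ),
      Disjoint (closedBall (c i) (r i + 2 * δ)) (closedBall (c j) (r j + 2 * δ)) := by
    intro i hi j hj hij
    have h2 : r i + r j < dist (c i) (c j) :=
      (disjoint_closedBall_closedBall_iff (hs i hi).le (hs j hj).le).1 (D.re.disj hij)
    have h3 : Tendsto (fun δ : ℝ => (r i + 2 * δ) + (r j + 2 * δ)) (𝓝[>] 0) (𝓝 (r i + r j)) := by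
      have : Continuous fun δ : ℝ => (r i + 2 * δ) + (r j + 2 * δ) := by fun_prop
      have h4 := this.tendsto 0
      simp only [mul_zero, add_zero] at h4
      exact h4.mono_left nhdsWithin_le_nhds
    filter_upwards [h3.eventually_lt_const h2] with δ hδ
    exact closedBall_disjoint_closedBall hδ
  have h5 : ∀ᶠ δ in 𝓝[>] (0 : ℝ), ∀ i ∈ s, ∀ j ∈ s, i ≠ j →
      Disjoint (closedBall (c i) (r i + 2 * δ)) (closedBall (c j) (r j + 2 * δ)) := by
    rw [eventually_all_finset]
    intro i hi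
    rw [eventually_all_finset]
    intro j hj
    by_cases hij : i = j
    · exact Eventually.of_forall fun _ h => absurd hij h
    · filter_upwards [h1 i hi j hj hij] with δ hδ _ using hδ
  filter_upwards [h5, self_mem_nhdsWithin] with δ h6 h7
  exact ⟨h7, hs, h6⟩

theorem eventually_near (D : Dat U f L c r c' R F) {s : Finset ι} (hs : ∀ i ∈ s, 0 < r i)
    {ε : ℝ} (hε : 0 < ε) :
    ∀ᶠ δ in 𝓝[>] (0 : ℝ), ∀ i ∈ s, ∀ z, ‖z - c i‖ ≤ r i + 2 * δ → ‖F z - c' i‖ ≤ R i + ε := by
  rw [eventually_all_finset]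
  intro i hi
  obtain ⟨N, hN, hsub, hN2⟩ := D.nearC i ε hε
  obtain ⟨d, hd, hdN⟩ := (isCompact_closedBall (c i) (r i)).exists_cthickening_subset_open hN hsub
  have h1 : ∀ᶠ δ in 𝓝[>] (0 : ℝ), 2 * δ < d := by
    have : Tendsto (fun δ : ℝ => 2 * δ) (𝓝[>] 0) (𝓝 0) := by
      have h2 : Continuous fun δ : ℝ => 2 * δ := by fun_prop
      have h4 := h2.tendsto 0
      simp only [mul_zero] at h4
      exact h4.mono_left nhdsWithin_le_nhds
    exact this.eventually_lt_const hd
  filter_upwards [h1, self_mem_nhdsWithin] with δ h2 h3 z hz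
  refine hN2 z (hdN ?_)
  rw [cthickening_closedBall hd.le (hs i hi).le, mem_closedBall, dist_eq_norm]
  linarith

theorem tendsto_tail (D : Dat U f L c r c' R F) {s : Finset ι} (T : ℝ)
    (hT : ∀ i ∈ s, closedBall (c i) (r i + 2) ⊆ closedBall 0 T) :
    Tendsto (fun n : ℕ => ∫ z in U ∩ ⋃ i ∈ s, closedBall (c i) (r i + 2 * (1 / ((n : ℝ) + 1))),
      2 * (‖deriv f z‖ + 1)) atTop (𝓝 0) := by
  have hUm : MeasurableSet U := D.re.ext.1.measurableSet
  have hEm : ∀ n : ℕ, MeasurableSet (⋃ i ∈ s, closedBall (c i) (r i + 2 * (1 / ((n : ℝ) + 1)))) :=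
    fun n => Finset.measurableSet_biUnion _ fun i _ => measurableSet_closedBall
  have hsub : ∀ n : ℕ, (⋃ i ∈ s, closedBall (c i) (r i + 2 * (1 / ((n : ℝ) + 1)))) ⊆
      closedBall 0 T := by
    intro n
    refine iUnion₂_subset fun i hi => Subset.trans (closedBall_subset_closedBall ?_) (hT i hi)
    have : 1 / ((n : ℝ) + 1) ≤ 1 := by
      rw [div_le_one (by positivity)]
      have := Nat.cast_nonneg (α := ℝ) n
      linarith
    linarith
  have hgm : Measurable fun z => 2 * (‖deriv f z‖ + 1) :=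
    (((measurable_deriv f).norm).add_const 1).const_mul 2
  have hint : IntegrableOn (fun z => 2 * (‖deriv f z‖ + 1)) (U ∩ closedBall 0 T) := by
    have h3 : IntegrableOn (fun z => ‖deriv f z‖) (U ∩ closedBall 0 T) :=
      integrableOn_of_sq (measurable_deriv f).norm (fun _ => norm_nonneg _)
      ((measure_mono inter_subset_right).trans_lt measure_closedBall_lt_top).ne (D.en T)
    have h4 : IntegrableOn (fun _ : ℂ => (1 : ℝ)) (U ∩ closedBall 0 T) := integrableOn_const
      ((measure_mono inter_subset_right).trans_lt measure_closedBall_lt_top).ne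
    exact (h3.add h4).const_mul 2
  have key : ∀ n : ℕ, ∫ z in U ∩ ⋃ i ∈ s, closedBall (c i) (r i + 2 * (1 / ((n : ℝ) + 1))),
      2 * (‖deriv f z‖ + 1) =
      ∫ z, (U ∩ ⋃ i ∈ s, closedBall (c i) (r i + 2 * (1 / ((n : ℝ) + 1)))).indicator
        (fun z => 2 * (‖deriv f z‖ + 1)) z := fun n =>
    (integral_indicator (hUm.inter (hEm n))).symm
  simp only [key]
  rw [← integral_zero ℂ ℝ (μ := (volume : Measure ℂ))]
  refine tendsto_integral_of_dominated_convergence
    ((U ∩ closedBall 0 T).indicator fun z => 2 * (‖deriv f z‖ + 1)) ?_ ?_ ?_ ?_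
  · intro n
    exact (hgm.indicator (hUm.inter (hEm n))).aestronglyMeasurable
  · rwa [integrable_indicator_iff (hUm.inter measurableSet_closedBall)]
  · intro n
    refine ae_of_all _ fun z => ?_
    by_cases hz : z ∈ U ∩ ⋃ i ∈ s, closedBall (c i) (r i + 2 * (1 / ((n : ℝ) + 1)))
    · rw [indicator_of_mem hz, indicator_of_mem (show z ∈ U ∩ closedBall 0 T from
        ⟨hz.1, hsub n hz.2⟩), Real.norm_eq_abs, abs_of_nonneg (by positivity)]
    · rw [indicator_of_notMem hz, norm_zero]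
      exact indicator_nonneg (fun _ _ => by positivity) _
  · refine ae_of_all _ fun z => ?_
    by_cases hzU : z ∈ U
    · have h1 : ∀ᶠ n : ℕ in atTop, ∀ i ∈ s,
          z ∉ closedBall (c i) (r i + 2 * (1 / ((n : ℝ) + 1))) := by
        rw [eventually_all_finset]
        intro i hi
        have h2 : r i < dist z (c i) := by
          by_contra h
          push Not at h
          exact (D.re.comp i z h).1 hzU
        have h3 : Tendsto (fun n : ℕ => r i + 2 * (1 / ((n : ℝ) + 1))) atTop (𝓝 (r i)) := by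
          have := (tendsto_one_div_add_atTop_nhds_zero_nat (𝕜 := ℝ)).const_mul 2 |>.const_add (r i)
          simpa using this
        filter_upwards [h3.eventually_lt_const h2] with n hn h
        rw [mem_closedBall] at h
        linarith
      refine tendsto_const_nhds.congr' ?_
      filter_upwards [h1] with n hn
      rw [indicator_of_notMem]
      rintro ⟨-, h⟩
      simp only [mem_iUnion, exists_prop] at h
      obtain ⟨i, hi, h⟩ := h
      exact hn i hi h
    · refine tendsto_const_nhds.congr fun n => ?_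
      rw [indicator_of_notMem fun h => hzU h.1]

/-- the inequality at fixed `s` after `δ → 0`, `ε' → 0` -/
theorem limit_delta (hB : BP) (hr : IsConformallyRemovable (frontier U))
    (D : Dat U f L c r c' R F)
    {ε : ℝ} {s : Finset ι} (hs : ∀ i ∈ s, 0 < r i)
    {C1 A1 C2 A2 : Set ℂ} {h1 h2 : ℂ → ℝ} {Ψ1 Ψ2 : ℂ → ℝ → ℝ}
    (P1 : PlanOut U L (fun z => (F z).re) (big c r s) ε C1 A1 h1 Ψ1)
    (P2 : PlanOut U L (fun z => (F z).im) (big c r s) ε C2 A2 h2 Ψ2)
    {T : ℝ} (hT : 3 * |L| + 2 ≤ T) {φ : ℂ → ℝ} (hφ : ContDiff ℝ 1 φ) (hφc : HasCompactSupport φ)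
    (hφ1 : ∀ z, ‖z‖ ≤ T → φ z = 1) {M : ℝ} (hM : ∀ z, |φ z| ≤ M) :
    (∑ i ∈ s, (2 * Real.pi * r i ^ 2 - 2 * Real.pi * r i * R i)) -
      (M + 1) * (((∫ z in A1 ∩ U, ‖deriv f z‖) + ∫ z, h1 z) +
        ((∫ z in A2 ∩ U, ‖deriv f z‖) + ∫ z, h2 z)) -
      ((∫ z, h1 z) + ∫ z, h2 z) ≤
    ∫ z in U, (φ z * (2 * (deriv f z - 1).re) + fderiv ℝ φ z (f z - z)) := by
  set I := ∫ z in U, (φ z * (2 * (deriv f z - 1).re) + fderiv ℝ φ z (f z - z)) with hI
  set K := (M + 1) * (((∫ z in A1 ∩ U, ‖deriv f z‖) + ∫ z, h1 z) +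
        ((∫ z in A2 ∩ U, ‖deriv f z‖) + ∫ z, h2 z)) with hK
  set K' := (∫ z, h1 z) + ∫ z, h2 z with hK'
  -- a large ball
  obtain ⟨T2, hT2⟩ : ∃ T2 : ℝ, ∀ i ∈ s, closedBall (c i) (r i + 2) ⊆ closedBall 0 T2 := by
    refine ⟨∑ i ∈ s, (‖c i‖ + (r i + 2)), fun i hi z hz => ?_⟩
    rw [mem_closedBall_zero_iff]
    rw [mem_closedBall, dist_eq_norm] at hz
    have h3 : ‖c i‖ + (r i + 2) ≤ ∑ i ∈ s, (‖c i‖ + (r i + 2)) :=
      Finset.single_le_sum (f := fun i => ‖c i‖ + (r i + 2))
        (fun j hj => by have := hs j hj; positivity) hi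
    have h4 : ‖z‖ ≤ ‖z - c i‖ + ‖c i‖ := by
      have := norm_add_le (z - c i) (c i)
      simpa using this
    linarith
  have hseq : Tendsto (fun n : ℕ => 1 / ((n : ℝ) + 1)) atTop (𝓝[>] 0) := by
    refine tendsto_nhdsWithin_iff.2 ⟨tendsto_one_div_add_atTop_nhds_zero_nat, ?_⟩
    exact Eventually.of_forall fun n => by
      simp only [mem_Ioi]
      positivity
  have step : ∀ ε' > 0, (∑ i ∈ s, (2 * Real.pi * r i ^ 2 - 2 * Real.pi * r i * (R i + ε'))) -
      K - K' ≤ I := by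
    intro ε' hε'
    have hev := hseq.eventually ((eventually_sep D hs).and ((eventually_near D hs hε').and
      (eventually_nhdsWithin_of_eventually_nhds (eventually_le_nhds
        (show (0 : ℝ) < 1 / 2 by norm_num)))))
    have hlim : Tendsto (fun n : ℕ => (∑ i ∈ s, (2 * Real.pi * (r i + 1 / ((n : ℝ) + 1)) ^ 2 -
        2 * Real.pi * (r i + 2 * (1 / ((n : ℝ) + 1))) ^ 2 / (r i + 1 / ((n : ℝ) + 1)) *
          (R i + ε'))) - K - K' -
        ∫ z in U ∩ ⋃ i ∈ s, closedBall (c i) (r i + 2 * (1 / ((n : ℝ) + 1))),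
          2 * (‖deriv f z‖ + 1)) atTop
        (𝓝 ((∑ i ∈ s, (2 * Real.pi * r i ^ 2 - 2 * Real.pi * r i * (R i + ε'))) - K - K' - 0)) := by
      refine Tendsto.sub ?_ (tendsto_tail D T2 hT2)
      refine Tendsto.sub_const (Tendsto.sub_const ?_ _) _
      refine tendsto_finsetSum _ fun i hi => ?_
      have hri := hs i hi
      have h0 : Tendsto (fun n : ℕ => 1 / ((n : ℝ) + 1)) atTop (𝓝 0) :=
        tendsto_one_div_add_atTop_nhds_zero_nat
      have h5 : ContinuousAt (fun x : ℝ => 2 * Real.pi * (r i + x) ^ 2 -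
          2 * Real.pi * (r i + 2 * x) ^ 2 / (r i + x) * (R i + ε')) 0 := by
        have : r i + 0 ≠ 0 := by simpa using hri.ne'
        fun_prop (disch := assumption)
      have h6 := h5.tendsto.comp h0
      have h7 : 2 * Real.pi * (r i + 0) ^ 2 -
          2 * Real.pi * (r i + 2 * 0) ^ 2 / (r i + 0) * (R i + ε') =
          2 * Real.pi * r i ^ 2 - 2 * Real.pi * r i * (R i + ε') := by
        simp only [add_zero, mul_zero]
        field_simp
      rw [h7] at h6
      exact h6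
    rw [sub_zero] at hlim
    refine le_of_tendsto hlim ?_
    filter_upwards [hev] with n hn
    obtain ⟨hS, hn2, hn3⟩ := hn
    exact approx hB hr D P1 P2 hT hφ hφc hφ1 hM hS hn3
      (ρ := fun i => R i + ε') (fun i _ => add_nonneg (D.re.R0 i) hε'.le)
      fun i hi z _ hz => hn2 i hi z hz
  have hcont : Continuous fun ε' : ℝ =>
      (∑ i ∈ s, (2 * Real.pi * r i ^ 2 - 2 * Real.pi * r i * (R i + ε'))) - K - K' := by
    fun_prop
  have hlim := (hcont.tendsto 0).mono_left (nhdsWithin_le_nhds (s := Ioi 0))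
  simp only [add_zero] at hlim
  exact le_of_tendsto hlim (eventually_nhdsWithin_of_forall fun ε' hε' => step ε' hε')

/-- bound of the error over the bad set `A` -/
theorem bad_le (D : Dat U f L c r c' R F) {A : Set ℂ}
    (hAL : A ⊆ closedBall 0 (3 * L + 1)) {t : ℝ} (ht : 0 < t)
    (hA : volume A ≤ ENNReal.ofReal (t ^ 2)) :
    ∫ z in A ∩ U, ‖deriv f z‖ ≤
      t * (1 + ∫ z in U ∩ closedBall 0 (3 * L + 1), ‖deriv f z‖ ^ 2) := by
  have hUm : MeasurableSet U := D.re.ext.1.measurableSet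
  have hfin : volume (A ∩ U) ≠ ⊤ :=
    ((measure_mono inter_subset_left).trans_lt (hA.trans_lt ENNReal.ofReal_lt_top)).ne
  have hsub : A ∩ U ⊆ U ∩ closedBall 0 (3 * L + 1) := fun z hz => ⟨hz.2, hAL hz.1⟩
  have h2 : IntegrableOn (fun z => ‖deriv f z‖ ^ 2) (A ∩ U) := (D.en _).mono_set hsub
  have h1 : IntegrableOn (fun z => ‖deriv f z‖) (A ∩ U) :=
    integrableOn_of_sq (measurable_deriv f).norm (fun _ => norm_nonneg _) hfin h2
  have h3 : IntegrableOn (fun z => 1 / t + t * ‖deriv f z‖ ^ 2) (A ∩ U) :=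
    (integrableOn_const hfin).add (h2.const_mul t)
  have h4 : ∫ z in A ∩ U, ‖deriv f z‖ ≤ ∫ z in A ∩ U, (1 / t + t * ‖deriv f z‖ ^ 2) := by
    refine setIntegral_mono h1 h3 fun z => ?_
    have e1 : 0 ≤ (t * ‖deriv f z‖ - 1) ^ 2 := sq_nonneg _
    have e2 : ‖deriv f z‖ ≤ (1 + t ^ 2 * ‖deriv f z‖ ^ 2) / t := by
      rw [le_div_iff₀ ht]
      nlinarith [norm_nonneg (deriv f z)]
    refine e2.trans (le_of_eq ?_)
    field_simp
  have h5 : ∫ z in A ∩ U, (1 / t + t * ‖deriv f z‖ ^ 2) =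
      volume.real (A ∩ U) * (1 / t) + t * ∫ z in A ∩ U, ‖deriv f z‖ ^ 2 := by
    have hc : Integrable (fun _ : ℂ => 1 / t) (volume.restrict (A ∩ U)) := integrableOn_const hfin
    rw [integral_add hc (h2.const_mul t), integral_const_mul,
      setIntegral_const, smul_eq_mul]
  have h6 : volume.real (A ∩ U) ≤ t ^ 2 := by
    refine ENNReal.toReal_le_of_le_ofReal (by positivity) ?_
    exact (measure_mono inter_subset_left).trans hA
  have h7 : ∫ z in A ∩ U, ‖deriv f z‖ ^ 2 ≤
      ∫ z in U ∩ closedBall 0 (3 * L + 1), ‖deriv f z‖ ^ 2 :=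
    setIntegral_mono_set (D.en _) (ae_of_all _ fun _ => by positivity) hsub.eventuallyLE
  have h8 : volume.real (A ∩ U) * (1 / t) ≤ t := by
    have : volume.real (A ∩ U) * (1 / t) ≤ t ^ 2 * (1 / t) :=
      mul_le_mul_of_nonneg_right h6 (by positivity)
    refine this.trans (le_of_eq ?_)
    field_simp
  rw [h5] at h4
  nlinarith [mul_le_mul_of_nonneg_left h7 ht.le]

/-- **FLUX** -/
theorem flux (hB : BP) (hP : PlanP) (hr : IsConformallyRemovable (frontier U))
    (D : Dat U f L c r c' R F) : Flux U f r R := by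
  classical
  unfold Flux
  filter_upwards [eventually_ge_atTop (3 * |L| + 2)] with T hT φ hφ hφc hφ1
  obtain ⟨M, hM⟩ : ∃ M : ℝ, ∀ z, |φ z| ≤ M := by
    obtain ⟨M, hM⟩ := hφ.continuous.bounded_above_of_compact_support hφc
    exact ⟨M, hM⟩
  have hM0 : 0 ≤ M := (abs_nonneg _).trans (hM 0)
  set I := ∫ z in U, (φ z * (2 * (deriv f z - 1).re) + fderiv ℝ φ z (f z - z)) with hI
  set M2 := ∫ z in U ∩ closedBall 0 (3 * L + 1), ‖deriv f z‖ ^ 2 with hM2
  have hM20 : 0 ≤ M2 := integral_nonneg fun _ => by positivity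
  -- summability
  have hsum : Summable fun i => r i * (R i - r i) := by
    refine Summable.of_norm_bounded (g := fun i => 2 * r i ^ 2 + R i ^ 2)
      ((D.re.sr.mul_left 2).add D.re.sR) fun i => ?_
    rw [Real.norm_eq_abs, abs_le]
    constructor <;> nlinarith [sq_nonneg (r i), sq_nonneg (R i), sq_nonneg (R i - r i),
      sq_nonneg (R i + r i), D.re.r0 i, D.re.R0 i]
  have step : ∀ t : ℝ, 0 < t → t ≤ 1 →
      -(2 * Real.pi * ∑' i, r i * (R i - r i)) -
        t * (2 * Real.pi + (M + 1) * (2 * (1 + M2) + 2) + 2) ≤ I := by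
    intro t ht ht1
    obtain ⟨s1, hs1, H1⟩ := hP D.re D.nul (t ^ 2) (by positivity)
    obtain ⟨s2, hs2, H2⟩ := hP D.im D.nul (t ^ 2) (by positivity)
    have hnhds : ∀ᶠ s : Finset ι in atTop,
        ∑ i ∈ s, r i * (R i - r i) < (∑' i, r i * (R i - r i)) + t :=
      hsum.hasSum.eventually_lt_const (by linarith)
    obtain ⟨s3, hs3⟩ := eventually_atTop.1 hnhds
    set s0 := s1 ∪ s2 ∪ s3 with hs0
    set s := s0.filter fun i => 0 < r i with hsd
    have hpos : ∀ i ∈ s, 0 < r i := fun i hi => (Finset.mem_filter.1 hi).2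
    have hss1 : s1 ⊆ s := fun i hi => Finset.mem_filter.2
      ⟨Finset.mem_union_left _ (Finset.mem_union_left _ hi), hs1 i hi⟩
    have hss2 : s2 ⊆ s := fun i hi => Finset.mem_filter.2
      ⟨Finset.mem_union_left _ (Finset.mem_union_right _ hi), hs2 i hi⟩
    have hsum0 : ∑ i ∈ s, r i * (R i - r i) = ∑ i ∈ s0, r i * (R i - r i) := by
      rw [hsd, Finset.sum_filter_of_ne]
      intro i _ hne
      rcases (D.re.r0 i).eq_or_lt with h | h
      · exact absurd (by rw [← h]; ring) hne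
      · exact h
    have hlt : ∑ i ∈ s, r i * (R i - r i) < (∑' i, r i * (R i - r i)) + t := by
      rw [hsum0]
      exact hs3 s0 Finset.subset_union_right
    obtain ⟨C1, A1, h1, Ψ1, P1⟩ := H1 s hss1 hpos
    obtain ⟨C2, A2, h2, Ψ2, P2⟩ := H2 s hss2 hpos
    have key := limit_delta hB hr D hpos P1 P2 hT hφ hφc hφ1 hM
    rw [← hI] at key
    have b1 := bad_le D P1.AL ht P1.Av
    have b2 := bad_le D P2.AL ht P2.Av
    rw [← hM2] at b1 b2
    have b3 : ∫ z, h1 z ≤ t := P1.h1.trans (by nlinarith)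
    have b4 : ∫ z, h2 z ≤ t := P2.h1.trans (by nlinarith)
    have b5 : ∑ i ∈ s, (2 * Real.pi * r i ^ 2 - 2 * Real.pi * r i * R i) =
        -(2 * Real.pi * ∑ i ∈ s, r i * (R i - r i)) := by
      rw [Finset.mul_sum, ← Finset.sum_neg_distrib]
      refine Finset.sum_congr rfl fun i _ => ?_
      ring
    rw [b5] at key
    have b6 : (M + 1) * (((∫ z in A1 ∩ U, ‖deriv f z‖) + ∫ z, h1 z) +
        ((∫ z in A2 ∩ U, ‖deriv f z‖) + ∫ z, h2 z)) ≤
        (M + 1) * ((t * (1 + M2) + t) + (t * (1 + M2) + t)) := by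
      refine mul_le_mul_of_nonneg_left ?_ (by linarith)
      linarith
    have hpi := Real.pi_pos
    have b7 : 2 * Real.pi * ∑ i ∈ s, r i * (R i - r i) ≤
        2 * Real.pi * ((∑' i, r i * (R i - r i)) + t) :=
      mul_le_mul_of_nonneg_left hlt.le (by positivity)
    nlinarith
  have hcont : Continuous fun t : ℝ => -(2 * Real.pi * ∑' i, r i * (R i - r i)) -
        t * (2 * Real.pi + (M + 1) * (2 * (1 + M2) + 2) + 2) := by
    fun_prop
  have hlim := (hcont.tendsto 0).mono_left (nhdsWithin_le_nhds (s := Ioi 0))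
  simp only [zero_mul, sub_zero] at hlim
  refine le_of_tendsto hlim ?_
  filter_upwards [self_mem_nhdsWithin, eventually_nhdsWithin_of_eventually_nhds
    (eventually_le_nhds (show (0 : ℝ) < 1 by norm_num))] with t h1 h2
  exact step t h1 h2

end

/-- **`FluxP`** (owner: helper256) -/
theorem fluxP : FluxP := fun hB hP _ _ _ _ _ _ _ _ _ hr D => flux hB hP hr D

end Crest.Agent.R105.Rend_256
end

-- ▼ part R105/Fin139_641
section

/-!
# Row 105, S0139: final assembly. The two remaining leaves are hypotheses: `ATTP` and `LEMA`.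
-/

set_option autoImplicit false

open Set Filter Metric Topology MeasureTheory

namespace Crest.Agent.R105.Fin139_641

/-- PP (no hairs) from `LEMA` -/
theorem pp_of (hL : Skp2_257.LEMA) : Skp2_257.PP :=
  Skp2_257.pp_of_leaves hL Isx_909.nullim Iso_938.isog Isl_157.isolim
    (Skp2_257.stepall_of Lop1_744.lay Sin_925.single Stp_722.step)
    SkLim2_363.lim Skc2_49.cfpl Skst2_49.start

/-- [B] from `ATTP` and `LEMA` -/
theorem bp_of (hA : IfB_641.ATTP) (hL : Skp2_257.LEMA) : Rd_557.BP :=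
  IfB_641.BP_of_leaves Clo_871.selp hA Dir_508.dirp Uv_913.univp Pic_442.nullp Pln_868.planp
    (Skp4_257.ppp_of (pp_of hL) Pln_868.pln Adp_987.picp Adp_987.elp)


end Crest.Agent.R105.Fin139_641
end

-- ▼ part R105/Psi13_425
section

/-!
Row 105 (helper425): square integrability of the glued function, the flux of `χ f`.
-/

open MeasureTheory Set Filter Topology
open scoped NNReal ENNReal ContDiff

namespace Crest.Agent.R105.Psi13_425

open Psi5_425 Psi7_425 Psi8_425 Psi_425 CF_363 Skp2_257 Mp_87 Psi10_425 Psi11_425 Psi12_425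

variable {E S : Set (ℝ × ℝ)} {g : Set Hair} {a b c d Bm Bp : ℝ} {X1 X2 Y1 Y2 : ℝ × ℝ → ℝ}
  {μ ν : Measure (ℝ × ℝ)} {fl fu : ℝ × ℝ → ℝ}

/-- Cauchy-Schwarz for a finite measure -/
theorem sq_integral_le {β : Measure ℝ} [IsFiniteMeasure β] {u : ℝ → ℝ} (hu : Integrable u β)
    (hu2 : Integrable (fun t => u t ^ 2) β) :
    (∫ t, |u t| ∂β) ^ 2 ≤ β.real univ * ∫ t, u t ^ 2 ∂β := by
  set k := ∫ t, |u t| ∂β with hk
  set M := β.real univ with hM
  have hM0 : 0 ≤ M := measureReal_nonneg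
  have h1 : 0 ≤ ∫ t, (M * |u t| - k) ^ 2 ∂β := integral_nonneg fun t => sq_nonneg _
  have i1 : Integrable (fun t => 2 * M * k * |u t|) β := (Integrable.abs hu).const_mul _
  have i0 : Integrable (fun t => M ^ 2 * u t ^ 2) β := hu2.const_mul _
  have i2 : Integrable (fun t => M ^ 2 * u t ^ 2 - 2 * M * k * |u t|) β := i0.sub i1
  have h2 : ∫ t, (M * |u t| - k) ^ 2 ∂β =
      M ^ 2 * (∫ t, u t ^ 2 ∂β) - 2 * M * k * k + M * k ^ 2 := by
    have e1 : ∀ t, (M * |u t| - k) ^ 2 =
        M ^ 2 * u t ^ 2 - 2 * M * k * |u t| + k ^ 2 := by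
      intro t; rw [sub_sq, mul_pow, sq_abs]; ring
    simp_rw [e1]
    rw [integral_add i2 (integrable_const _), integral_sub i0 i1, integral_const_mul,
      integral_const_mul, integral_const, smul_eq_mul, ← hk]
  rw [h2] at h1
  rcases eq_or_lt_of_le hM0 with h3 | h3
  · have h4 : β = 0 := by
      rw [← Measure.measure_univ_eq_zero]
      have h5 : (β univ).toReal = 0 := h3.symm
      rcases (ENNReal.toReal_eq_zero_iff _).1 h5 with h6 | h6
      · exact h6
      · exact absurd h6 (measure_ne_top _ _)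
    rw [hk, h4]; simp
  · have h4 : 0 ≤ M * (M * (∫ t, u t ^ 2 ∂β) - k ^ 2) := by
      have : M * (M * (∫ t, u t ^ 2 ∂β) - k ^ 2) =
        M ^ 2 * (∫ t, u t ^ 2 ∂β) - 2 * M * k * k + M * k ^ 2 := by ring
      rw [this]; exact h1
    have h5 := nonneg_of_mul_nonneg_right h4 h3
    linarith

theorem memLp_prod {α β : Measure ℝ} [IsFiniteMeasure α] [IsFiniteMeasure β] {m : ℝ}
    {F U : ℝ × ℝ → ℝ} (hU : MemLp U 2 (α.prod β)) (hF : AEStronglyMeasurable F (α.prod β))
    (hb : ∀ᵐ p ∂(α.prod β), |F p| ≤ m + ∫ t, |U (p.1, t)| ∂β) : MemLp F 2 (α.prod β) := by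
  have hUi : Integrable U (α.prod β) := hU.integrable (by norm_num)
  have hUa : Integrable (fun p => |U p|) (α.prod β) := hUi.abs
  have hU2 : Integrable (fun p => U p ^ 2) (α.prod β) := hU.integrable_sq
  have hkm : AEStronglyMeasurable (fun x => ∫ t, |U (x, t)| ∂β) α := hUa.1.integral_prod_right'
  have hk2 : Integrable (fun x => (∫ t, |U (x, t)| ∂β) ^ 2) α := by
    refine Integrable.mono' (hU2.integral_prod_left.const_mul (β.real univ)) (hkm.pow 2) ?_
    filter_upwards [hU2.prod_right_ae, hUi.prod_right_ae] with x h2 h3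
    rw [Real.norm_eq_abs, abs_of_nonneg (sq_nonneg _)]
    exact sq_integral_le h3 h2
  have hkL : MemLp (fun x => ∫ t, |U (x, t)| ∂β) 2 α := (memLp_two_iff_integrable_sq hkm).2 hk2
  have hmk : MemLp (fun x => |m| + ∫ t, |U (x, t)| ∂β) 2 α := (memLp_const |m|).add hkL
  refine MemLp.mono (hmk.comp_fst β) hF ?_
  filter_upwards [hb] with p hp
  have hk0 : 0 ≤ ∫ t, |U (p.1, t)| ∂β := integral_nonneg fun t => abs_nonneg _
  rw [Real.norm_eq_abs, Real.norm_eq_abs, abs_of_nonneg (add_nonneg (abs_nonneg m) hk0)]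
  have := le_abs_self m
  linarith

theorem abs_ii_le' {u : ℝ → ℝ} {c d y y' : ℝ} (hy : y ∈ Ioo c d) (hy' : y' ∈ Ioo c d)
    (hu : IntegrableOn u (Ioo c d)) : |∫ t in y..y', u t| ≤ ∫ t in Ioo c d, |u t| := by
  have h1 : |∫ t in y..y', u t| ≤ ∫ t in uIoc y y', |u t| := by
    have := intervalIntegral.norm_integral_le_integral_norm_uIoc (f := u) (a := y) (b := y')
      (μ := volume)
    simpa [Real.norm_eq_abs] using this
  refine h1.trans ?_
  refine setIntegral_mono_set (Integrable.abs hu) (Eventually.of_forall fun t => abs_nonneg _)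
    (LE.le.eventuallyLE ?_)
  intro t ht
  rw [mem_uIoc] at ht
  rcases ht with h | h
  · exact ⟨hy.1.trans h.1, lt_of_le_of_lt h.2 hy'.2⟩
  · exact ⟨hy'.1.trans h.1, lt_of_le_of_lt h.2 hy.2⟩

theorem memLp_rect {a b c d m : ℝ} {F U : ℝ × ℝ → ℝ}
    (hU : MemLp U 2 (volume : Measure (ℝ × ℝ)))
    (hF : AEStronglyMeasurable F (volume.restrict (Ioo a b ×ˢ Ioo c d)))
    {e : ℝ} (he : e ∈ Ioo c d)
    (hb : ∀ᵐ x, x ∈ Ioo a b → ∀ y, c < y → y < d → |F (x, y)| ≤ m + |∫ t in e..y, U (x, t)|) :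
    MemLp F 2 (volume.restrict (Ioo a b ×ˢ Ioo c d)) := by
  have hfin1 : IsFiniteMeasure ((volume : Measure ℝ).restrict (Ioo a b)) :=
    ⟨by rw [Measure.restrict_apply_univ, Real.volume_Ioo]; exact ENNReal.ofReal_lt_top⟩
  have hfin2 : IsFiniteMeasure ((volume : Measure ℝ).restrict (Ioo c d)) :=
    ⟨by rw [Measure.restrict_apply_univ, Real.volume_Ioo]; exact ENNReal.ofReal_lt_top⟩
  have hprod : (volume : Measure (ℝ × ℝ)).restrict (Ioo a b ×ˢ Ioo c d) =
      ((volume : Measure ℝ).restrict (Ioo a b)).prod ((volume : Measure ℝ).restrict (Ioo c d)) := by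
    rw [Measure.prod_restrict, Measure.volume_eq_prod]
  have hUr : MemLp U 2 (((volume : Measure ℝ).restrict (Ioo a b)).prod
      ((volume : Measure ℝ).restrict (Ioo c d))) := by
    rw [← hprod]; exact hU.restrict _
  have hUi : Integrable U (((volume : Measure ℝ).restrict (Ioo a b)).prod
      ((volume : Measure ℝ).restrict (Ioo c d))) := hUr.integrable (by norm_num)
  rw [hprod] at hF ⊢
  refine memLp_prod (m := m) hUr hF ?_
  have h5 : ∀ᵐ p ∂(((volume : Measure ℝ).restrict (Ioo a b)).prod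
      ((volume : Measure ℝ).restrict (Ioo c d))), p.1 ∈ Ioo a b ∧ p.2 ∈ Ioo c d := by
    rw [← hprod]
    exact ae_restrict_mem (measurableSet_Ioo.prod measurableSet_Ioo)
  have h6' : ∀ᵐ x ∂((volume : Measure ℝ).restrict (Ioo a b)),
      ∀ y, c < y → y < d → |F (x, y)| ≤ m + |∫ t in e..y, U (x, t)| := by
    rw [ae_restrict_iff' measurableSet_Ioo]; exact hb
  have h6 := (Measure.quasiMeasurePreserving_fst (μ := (volume : Measure ℝ).restrict (Ioo a b))
    (ν := (volume : Measure ℝ).restrict (Ioo c d))).ae h6'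
  have h7 := (Measure.quasiMeasurePreserving_fst (μ := (volume : Measure ℝ).restrict (Ioo a b))
    (ν := (volume : Measure ℝ).restrict (Ioo c d))).ae hUi.prod_right_ae
  filter_upwards [h5, h6, h7] with p hp h8 h9
  have h10 : |F p| ≤ m + |∫ t in e..p.2, U (p.1, t)| := h8 p.2 hp.2.1 hp.2.2
  have h11 : |∫ t in e..p.2, U (p.1, t)| ≤ ∫ t in Ioo c d, |U (p.1, t)| :=
    abs_ii_le' he hp.2 h9
  exact h10.trans (add_le_add le_rfl h11)

variable (H : Two E S g a b c d Bm Bp X1 X2 Y1 Y2 μ ν fl fu)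
include H

theorem Two.memLp : MemLp (glue Bm Bp fl fu) 2 (volume.restrict (Ioo a b ×ˢ Ioo c d)) := by
  have hlt := H.lt
  have := H.finμ
  have h1 := H.cB
  have h2 := H.Bd
  refine memLp_rect (m := (μ univ).toReal) H.mV2 ?_
    (e := (Bm + Bp) / 2) ⟨by linarith, by linarith⟩ ?_
  · have hm : MeasurableSet ((Ioo a b ×ˢ Ioo c d) \ S) :=
      (measurableSet_Ioo.prod measurableSet_Ioo).diff H.cS.measurableSet
    have h3 := H.cont.aestronglyMeasurable (μ := (volume : Measure (ℝ × ℝ))) hm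
    have hS0 : volume S = 0 := measure_mono_null (H.SG.trans (un_sub H.sub)) H.null
    have h4 : (volume : Measure (ℝ × ℝ)).restrict ((Ioo a b ×ˢ Ioo c d) \ S) =
        volume.restrict (Ioo a b ×ˢ Ioo c d) :=
      Measure.restrict_congr_set (sdiff_null_ae_eq_self hS0)
    rwa [h4] at h3
  · filter_upwards [H.ver'] with x hx hxab y hy hyd
    rw [hx hxab y hy hyd]
    refine (abs_add_le _ _).trans ?_
    gcongr
    unfold lam
    rw [abs_neg, abs_of_nonneg ENNReal.toReal_nonneg]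
    exact ENNReal.toReal_mono (measure_ne_top _ _) (measure_mono (subset_univ _))

theorem Two.str : Str (un g) S a b c d (glue Bm Bp fl fu) (V1 X2 Y2) (V2 X1 Y1) where
  cont := H.cont
  L2 := Two.memLp H
  L2x := H.mV1
  L2y := H.mV2
  hor := H.hor
  ver := H.ver

omit H in
theorem tsupport_rf {χ : ℝ × ℝ → ℝ} (h : HasCompactSupport χ) :
    HasCompactSupport (fun p => χ (rf p)) ∧ tsupport (fun p => χ (rf p)) ⊆ rf ⁻¹' tsupport χ := by
  have h1 : tsupport (fun p => χ (rf p)) ⊆ rf ⁻¹' tsupport χ :=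
    closure_minimal (fun p hp => subset_tsupport χ hp)
      ((isClosed_tsupport χ).preimage continuous_rf)
  refine ⟨?_, h1⟩
  refine HasCompactSupport.of_support_subset_isCompact (K := rf '' tsupport χ)
    (h.isCompact.image continuous_rf) fun p hp => ⟨rf p, subset_tsupport χ hp, rf_rf p⟩

theorem Two.line {χ : ℝ × ℝ → ℝ} (hχ : ContDiff ℝ 1 χ) (hχc : HasCompactSupport χ)
    (hχs : tsupport χ ⊆ Ioo a b ×ˢ Ioo c d) (hχG : ∀ p ∈ un g, χ p = 1) :
    ∀ᵐ y, y ∈ Ioo c d →
      ∫ x, (gx χ (x, y) * glue Bm Bp fl fu (x, y) + χ (x, y) * V1 X2 Y2 (x, y)) =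
        if y < (Bm + Bp) / 2 then (μ {q | q.2 < y}).toReal else (ν {q | q.2 < -y}).toReal := by
  have hlt := H.lt
  have h1 := H.lo.flux χ hχ hχc (hχs.trans (prod_mono Subset.rfl (subset_univ _))) hχG
  obtain ⟨hc', hs'⟩ := tsupport_rf hχc
  have h2 := H.up.flux (fun p => χ (rf p)) (hχ.comp (by unfold rf; fun_prop)) hc'
    (hs'.trans fun p hp => ⟨(hχs hp).1, trivial⟩) (fun p hp => hχG (rf p) (by
      rw [Kin_238.un_reflH] at hp; exact hp))
  filter_upwards [h1, ae_neg h2] with y h3 h4 hy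
  split_ifs with hm
  · rw [← h3 hy.1 (by linarith)]
    congr 1; funext x
    have e1 : glue Bm Bp fl fu (x, y) = fl (x, y) := if_pos hm
    rw [e1]
    show _ + χ (x, y) * (-X2 (x, y) - Y2 (rf (x, y))) = _
    rw [H.zY2 (rf (x, y)) (by show -Bp ≤ -y; linarith)]
    ring
  · rw [← h4 (by linarith [hy.2]) (by linarith)]
    congr 1; funext x
    have e1 : glue Bm Bp fl fu (x, y) = fu (x, -y) := if_neg hm
    have e2 : gx (fun p => χ (rf p)) (x, -y) = gx χ (x, y) := by
      rw [gx_rf]; simp [rf]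
    have e3 : rf (x, -y) = (x, y) := by simp [rf]
    rw [e1, e2, e3]
    show _ + χ (x, y) * (-X2 (x, y) - Y2 (rf (x, y))) = _
    rw [H.zX2 (x, y) (by show Bm ≤ y; linarith)]
    have e4 : rf (x, y) = (x, -y) := rfl
    rw [e4]
    ring

theorem Two.value {χ : ℝ × ℝ → ℝ} (hχ : ContDiff ℝ 1 χ) (hχc : HasCompactSupport χ)
    (hχs : tsupport χ ⊆ Ioo a b ×ˢ Ioo c d) (hχG : ∀ p ∈ un g, χ p = 1) :
    0 < ∫ p in Ioo a b ×ˢ Ioo c d, (gx χ p * glue Bm Bp fl fu p + χ p * V1 X2 Y2 p) := by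
  have hlt := H.lt
  have hcB := H.cB
  have hBd := H.Bd
  have hfμ := H.finμ
  have hχgx : Continuous (gx χ) := continuous_gx hχ
  have hχgxc : HasCompactSupport (gx χ) := hχc.fderiv_apply (𝕜 := ℝ) ((1:ℝ), (0:ℝ))
  set R : Set (ℝ × ℝ) := Ioo a b ×ˢ Ioo c d with hR
  have hRm : MeasurableSet R := measurableSet_Ioo.prod measurableSet_Ioo
  have hfinR : IsFiniteMeasure ((volume : Measure (ℝ × ℝ)).restrict R) :=
    ⟨by rw [Measure.restrict_apply_univ]; exact lt_top_iff_ne_top.mpr (volume_rect a b c d)⟩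
  set Q : ℝ × ℝ → ℝ := fun p => gx χ p * glue Bm Bp fl fu p + χ p * V1 X2 Y2 p with hQ
  have hQi : IntegrableOn Q R := by
    have h1 := (memLp_mul_bdd (Two.memLp H) hχgx hχgxc).integrable (by norm_num)
    have h2 := (memLp_mul_bdd (H.mV1.restrict R) hχ.continuous hχc).integrable (by norm_num)
    exact h1.add h2
  have hQ0 : ∀ p ∉ R, Q p = 0 := by
    intro p hp
    have h1 : χ p = 0 := image_eq_zero_of_notMem_tsupport fun h => hp (hχs h)
    have h2 : gx χ p = 0 := image_eq_zero_of_notMem_tsupport fun h => hp (hχs (tsupport_gx h))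
    rw [hQ]; simp only
    rw [h1, h2]; ring
  have hQR : R.indicator Q = Q := by
    rw [indicator_eq_self]
    intro p hp
    by_contra hcon
    exact hp (hQ0 p hcon)
  have hQi2 : Integrable Q ((volume : Measure ℝ).prod (volume : Measure ℝ)) := by
    rw [← Measure.volume_eq_prod, ← hQR, integrable_indicator_iff hRm]
    exact hQi
  rw [← integral_indicator hRm, hQR, Measure.volume_eq_prod, integral_prod_symm _ hQi2]
  have hline := Two.line H hχ hχc hχs hχG
  set bb : ℝ → ℝ := fun y => ∫ x, Q (x, y) with hbb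
  have hbi : Integrable bb volume := hQi2.integral_prod_right
  have hb0 : ∀ y, y ∉ Ioo c d → bb y = 0 := by
    intro y hy
    rw [hbb]; simp only
    rw [← integral_zero ℝ ℝ (μ := volume)]
    congr 1; funext x
    exact hQ0 (x, y) fun h => hy h.2
  have hbnn : ∀ᵐ y, 0 ≤ bb y := by
    filter_upwards [hline] with y hy
    by_cases hy' : y ∈ Ioo c d
    · have e1 : bb y = _ := hy hy'
      rw [e1]
      split_ifs <;> exact ENNReal.toReal_nonneg
    · rw [hb0 y hy']
  have hbm : ∀ᵐ y, y ∈ Ioo Bm ((Bm + Bp) / 2) → bb y = (μ univ).toReal := by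
    filter_upwards [hline] with y hy hy'
    have e1 : bb y = _ := hy ⟨by linarith [hy'.1], by linarith [hy'.2]⟩
    rw [e1, if_pos hy'.2]
    congr 1
    refine measure_congr ?_
    rw [eventuallyEq_set]
    filter_upwards [H.carμ] with q hq
    exact ⟨fun _ => trivial, fun _ => lt_of_le_of_lt hq hy'.1⟩
  have h1 : ∫ y in Ioo Bm ((Bm + Bp) / 2), bb y ≤ ∫ y, bb y :=
    setIntegral_le_integral hbi hbnn
  have h2 : ∫ y in Ioo Bm ((Bm + Bp) / 2), bb y =
      ∫ y in Ioo Bm ((Bm + Bp) / 2), (μ univ).toReal := by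
    refine setIntegral_congr_ae measurableSet_Ioo ?_
    filter_upwards [hbm] with y hy hy' using hy hy'
  rw [h2, setIntegral_const, Measure.real, Real.volume_Ioo,
    ENNReal.toReal_ofReal (by linarith), smul_eq_mul] at h1
  have h3 : 0 < ((Bm + Bp) / 2 - Bm) * (μ univ).toReal :=
    mul_pos (by linarith) H.pos
  exact lt_of_lt_of_le h3 h1

end Crest.Agent.R105.Psi13_425
end

-- ▼ part R105/Str6_421
section

/-!
Row 105, lemma A: the stream function on a rectangle (helper421).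
Part 6: `Appr` of 87 from `Half` of 238.
-/

open MeasureTheory Set Filter Topology
open Crest.Agent.R105.CF_363 (CF CFJ SL Hair cut gx gy ramp)
open Crest.Agent.R105.Mp_87 (lam Lines Appr)
open Crest.Agent.R105.Kin_238 (Wl Wo Vl lowSet Half)

namespace Crest.Agent.R105.Str_421

variable {a b c B : ℝ} {𝓗 g : Set Hair} {X1 X2 : ℝ × ℝ → ℝ} {μ : Measure (ℝ × ℝ)}

theorem appr_half (hab : a < b) (hcB : c < B) (hg : g ⊆ 𝓗)
    (G : Crest.Agent.R105.Kin_238.GG a b c B g) (h : Half 𝓗 a b c B g X1 X2 μ)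
    (hdis : ∀ K ∈ 𝓗, ∀ K' ∈ 𝓗, ∀ p, p ∈ K.car → p ∈ K'.car → K = K')
    (hBt : ∀ K ∈ g, B < K.t) :
    ∃ κ : Hair → ℝ, (∀ K ∈ 𝓗, K.x ∈ Ioo a b → μ {q | q.1 = K.x ∧ q.2 < K.t} = 0 →
        (∀ᵐ y, c < y → y ∈ Ioo K.b K.t → Psi a b X1 X2 μ (K.x, y) = κ K) ∧
          (B ≤ K.t → κ K = -lam μ K.x)) ∧
      ∃ (J : ℕ → Finset Hair) (z : ℕ → ℝ × ℝ → ℝ), (∀ n, ∀ K ∈ J n, K ∈ 𝓗) ∧
        Appr a b c B 1 X1 X2 μ (Psi a b X1 X2 μ) J z κ := by
  classical
  have hT : ∀ K : Hair, ∃ κ : ℝ, K ∈ 𝓗 → K.x ∈ Ioo a b → μ {q | q.1 = K.x ∧ q.2 < K.t} = 0 →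
      (∀ᵐ y, c < y → y ∈ Ioo K.b K.t → Psi a b X1 X2 μ (K.x, y) = κ) ∧
        (B ≤ K.t → κ = -lam μ K.x) := by
    intro K
    by_cases hK : K ∈ 𝓗 ∧ K.x ∈ Ioo a b ∧ μ {q | q.1 = K.x ∧ q.2 < K.t} = 0
    · obtain ⟨κ, hκ⟩ := T_half hab hcB hg G h hdis hBt hK.1 hK.2.1.1 hK.2.1.2 hK.2.2
      exact ⟨κ, fun _ _ _ => hκ⟩
    · exact ⟨0, fun h1 h2 h3 => absurd ⟨h1, h2, h3⟩ hK⟩
  choose κ hκ using hT
  obtain ⟨J, z, hzV, hJ, hzCF, hzSL, hc1, hc2⟩ := h.exists_seq
  refine ⟨κ, hκ, J, z, hJ, ?_⟩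
  exact
    { mX1 := h.m1
      mX2 := h.m2
      X1B := fun p hp => h.z1 p (fun hh => absurd hh.2.2 (not_lt.mpr hp))
      X2B := fun p hp => h.z2 p (fun hh => absurd hh.2.2 (not_lt.mpr hp))
      disj := by
        intro n K hK K' hK' hne
        rw [Set.disjoint_left]
        intro p hp hp'
        exact hne (hdis K (hJ n K hK) K' (hJ n K' hK') p hp hp')
      sl := hzSL
      c1 := hc1
      c2 := hc2
      T := by
        intro n K hK hx hμ
        obtain ⟨k1, k2⟩ := hκ K (hJ n K hK) hx hμ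
        exact ⟨k1, fun hB => by rw [k2 hB]; ring⟩ }

end Crest.Agent.R105.Str_421
end

-- ▼ part R105/NulN2_421
section

/-!
Row 105, lemma A (helper421): from the box to every neighbourhood.
Part 2: values near a hair, cut-off functions, `Null` in the box implies `NullN`.
-/

open MeasureTheory Set Filter Topology
open scoped NNReal ENNReal

namespace Crest.Agent.R105.NulN_421

open CF_363 Kin_238 Skp2_257

variable {a b c B : ℝ} {J : Finset Hair} {e : ℝ × ℝ → ℝ} {L : ℝ}

/-- near a hair the values are not much smaller than some trace on the hair -/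
theorem near_hair (h : SL (Wl a b c B \ cut J) L e) (hL : 0 ≤ L) {K : Hair}
    (hx : a < K.x ∧ K.x < b) (hcK : c < K.b) (hKB : K.b ≤ B) (hBK : B ≤ K.t)
    (hJ : ∀ K' ∈ J, K' ≠ K → Disjoint K.car K'.car) {η : ℝ} (hη : 0 < η) :
    ∃ O : Set (ℝ × ℝ), IsOpen O ∧ K.car ⊆ O ∧ ∀ p ∈ O, p ∉ K.car → p.2 < B →
      ∃ (σ : Bool) (y : ℝ), K.b ≤ y ∧ y ≤ B ∧ tr e σ K.x y - η ≤ e p := by
  classical
  set C' := cut (J.filter (· ≠ K)) with hC'
  set U : Set (ℝ × ℝ) := ((Ioo a b) ×ˢ (Ioi c)) ∩ C'ᶜ with hU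
  have hUo : IsOpen U := (isOpen_Ioo.prod isOpen_Ioi).inter (isCompact_cut _).isClosed.isOpen_compl
  have hKU : K.car ⊆ U := by
    intro q hq
    have hq1 : q.1 = K.x := hq.1
    have hq2 : K.b ≤ q.2 := hq.2.1
    refine ⟨⟨by rw [hq1]; exact hx, lt_of_lt_of_le hcK hq2⟩, ?_⟩
    rintro ⟨K', hK', hqK'⟩
    rw [Finset.mem_filter] at hK'
    exact (Set.disjoint_left.mp (hJ K' hK'.1 hK'.2)) hq hqK'
  obtain ⟨r, hr, hrU⟩ := K.isCompact_car.exists_thickening_subset_open hUo hKU
  set r' := min r (η / (L + 1)) with hr'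
  have hr'0 : 0 < r' := lt_min hr (by positivity)
  have hr'U : Metric.thickening r' K.car ⊆ U :=
    (Metric.thickening_mono (min_le_left _ _) _).trans hrU
  have hLr : L * r' ≤ η := by
    have h1 : r' ≤ η / (L + 1) := min_le_right _ _
    have h2 : L * r' ≤ (L + 1) * (η / (L + 1)) := by
      refine mul_le_mul (by linarith) h1 hr'0.le (by linarith)
    rwa [mul_div_cancel₀ _ (by linarith : L + 1 ≠ 0)] at h2
  have hconv : Convex ℝ (Metric.thickening r' K.car) := by
    refine Convex.thickening ?_ _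
    rw [K.car_eq]
    exact (convex_singleton _).prod (convex_Icc _ _)
  refine ⟨Metric.thickening r' K.car, Metric.isOpen_thickening,
    Metric.self_subset_thickening hr'0 _, ?_⟩
  intro p hp hpK hpB
  obtain ⟨z, hz, hpz⟩ := Metric.mem_thickening_iff.mp hp
  have hz1 : z.1 = K.x := hz.1
  have hz2 : K.b ≤ z.2 := hz.2.1
  rw [Prod.dist_eq, max_lt_iff, Real.dist_eq, Real.dist_eq, hz1] at hpz
  obtain ⟨d1, d2⟩ := hpz
  rw [abs_lt] at d1 d2
  set y := max p.2 K.b with hy
  have hyb : K.b ≤ y := le_max_right _ _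
  have hyB : y ≤ B := max_le hpB.le hKB
  have hyp : |p.2 - y| ≤ r' := by
    rw [hy, abs_le]
    rcases le_total p.2 K.b with h1 | h1
    · rw [max_eq_right h1]; constructor <;> linarith
    · rw [max_eq_left h1]; constructor <;> linarith
  have hycar : (K.x, y) ∈ K.car := ⟨rfl, hyb, hyB.trans hBK⟩
  -- the side
  have key : ∀ (σ : Bool), (∀ s ∈ sInt σ K.x r', 0 ≤ (p.1 - K.x) * (s - K.x)) →
      ∃ (σ : Bool) (y : ℝ), K.b ≤ y ∧ y ≤ B ∧ tr e σ K.x y - η ≤ e p := by
    intro σ hσ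
    refine ⟨σ, y, hyb, hyB, ?_⟩
    have ht : Tendsto (fun s => e (s, y)) (side σ K.x) (𝓝 (tr e σ K.x y)) := by
      obtain ⟨g, hg, hge⟩ := exists_tr h σ hx
      rw [(hge y (lt_of_lt_of_le hcK hyb) hyB).1]
      exact (hge y (lt_of_lt_of_le hcK hyb) hyB).2
    have hle : tr e σ K.x y ≤ e p + η := by
      refine le_of_tendsto ht ?_
      filter_upwards [sInt_mem (σ := σ) (x := K.x) hr'0] with s hs
      obtain ⟨hs1, hs2⟩ := sInt_subset hs
      have hsd : |p.1 - s| ≤ r' := by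
        have h3 := hσ s hs
        rw [abs_lt] at hs1
        rw [abs_le]
        rcases le_or_gt K.x p.1 with h4 | h4
        · rcases lt_or_gt_of_ne hs2 with h5 | h5
          · have h6 : p.1 = K.x := by
              by_contra hne
              have : 0 < p.1 - K.x := lt_of_le_of_ne (by linarith) (fun hh => hne (by linarith))
              nlinarith
            constructor <;> linarith
          · constructor <;> linarith
        · rcases lt_or_gt_of_ne hs2 with h5 | h5
          · constructor <;> linarith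
          · exfalso; nlinarith
      have hsy : (s, y) ∈ Metric.thickening r' K.car := by
        refine Metric.mem_thickening_iff.mpr ⟨(K.x, y), hycar, ?_⟩
        rw [Prod.dist_eq]
        simp only [dist_self, Real.dist_eq]
        exact max_lt hs1 hr'0
      have hseg : segment ℝ p (s, y) ⊆ Wl a b c B \ cut J := by
        intro q hq
        have hqT : q ∈ Metric.thickening r' K.car := hconv.segment_subset hp hsy hq
        have hqU := hr'U hqT
        have hqB : q.2 ≤ B := by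
          have hcB : Convex ℝ {q : ℝ × ℝ | q.2 ≤ B} :=
            convex_halfSpace_le (LinearMap.snd ℝ ℝ ℝ).isLinear B
          exact hcB.segment_subset (show p.2 ≤ B from hpB.le) (show y ≤ B from hyB) hq
        refine ⟨⟨hqU.1.1, hqU.1.2, hqB⟩, ?_⟩
        rintro ⟨K', hK', hqK'⟩
        by_cases hne : K' = K
        · subst hne
          obtain ⟨u, v, hu, hv, huv, rfl⟩ := hq
          have hq1 : u * p.1 + v * s = K'.x := hqK'.1
          have h3 := hσ s hs
          have h4 : v = 0 := by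
            by_contra hv0
            have hvp : 0 < v := lt_of_le_of_ne hv (Ne.symm hv0)
            have h5 : u * (p.1 - K'.x) + v * (s - K'.x) = 0 := by
              have : u * (p.1 - K'.x) + v * (s - K'.x) = (u * p.1 + v * s) - (u + v) * K'.x := by
                ring
              rw [this, hq1, huv]; ring
            have h6 : 0 < (s - K'.x) ^ 2 := by
              have : s - K'.x ≠ 0 := sub_ne_zero.mpr hs2
              positivity
            have h7 : u * ((p.1 - K'.x) * (s - K'.x)) + v * (s - K'.x) ^ 2 = 0 := by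
              have : u * ((p.1 - K'.x) * (s - K'.x)) + v * (s - K'.x) ^ 2 =
                (u * (p.1 - K'.x) + v * (s - K'.x)) * (s - K'.x) := by ring
              rw [this, h5, zero_mul]
            have h8 : 0 ≤ u * ((p.1 - K'.x) * (s - K'.x)) := mul_nonneg hu h3
            have h9 : 0 < v * (s - K'.x) ^ 2 := mul_pos hvp h6
            linarith
          subst h4
          have h5 : u = 1 := by linarith
          subst h5
          apply hpK
          simpa using hqK'
        · exact hqU.2 ⟨K', Finset.mem_filter.mpr ⟨hK', hne⟩, hqK'⟩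
      have h10 := h p (s, y) hseg
      have h11 : dist p (s, y) ≤ r' := by
        rw [Prod.dist_eq, Real.dist_eq, Real.dist_eq]
        exact max_le hsd hyp
      have h12 : |e p - e (s, y)| ≤ η :=
        h10.trans ((mul_le_mul_of_nonneg_left h11 hL).trans hLr)
      rw [abs_le] at h12
      linarith [h12.1]
    linarith
  rcases le_or_gt K.x p.1 with h1 | h1
  · refine key true fun s hs => ?_
    have : s ∈ Ioo K.x (K.x + r') := by simpa [sInt] using hs
    exact mul_nonneg (by linarith) (by linarith [this.1])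
  · refine key false fun s hs => ?_
    have : s ∈ Ioo (K.x - r') K.x := by simpa [sInt] using hs
    exact mul_nonneg_of_nonpos_of_nonpos (by linarith) (by linarith [this.2])

/-- Lipschitz cut-off functions -/
theorem exists_chi {G N : Set (ℝ × ℝ)} (hG : IsCompact G) (hN : IsOpen N) (hGN : G ⊆ N) :
    ∃ (χ : ℝ × ℝ → ℝ) (ℓ : ℝ≥0), LipschitzWith ℓ χ ∧ (∀ p, 0 ≤ χ p ∧ χ p ≤ 1) ∧
      (∃ O, IsOpen O ∧ G ⊆ O ∧ ∀ p ∈ O, χ p = 1) ∧ IsCompact (tsupport χ) ∧ tsupport χ ⊆ N := by
  rcases G.eq_empty_or_nonempty with rfl | hne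
  · refine ⟨fun _ => 0, 0, LipschitzWith.const _, fun p => ⟨le_rfl, zero_le_one⟩,
      ⟨∅, isOpen_empty, le_rfl, fun p hp => absurd hp (notMem_empty p)⟩, ?_, ?_⟩
    · have : tsupport (fun _ : ℝ × ℝ => (0 : ℝ)) = ∅ := by
        rw [tsupport_eq_empty_iff]; rfl
      rw [this]; exact isCompact_empty
    · have : tsupport (fun _ : ℝ × ℝ => (0 : ℝ)) = ∅ := by
        rw [tsupport_eq_empty_iff]; rfl
      rw [this]; exact empty_subset _
  obtain ⟨δ, hδ, hδN⟩ := hG.exists_cthickening_subset_open hN hGN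
  set r := δ / 2 with hr
  have hr0 : 0 < r := by positivity
  have hsupp : tsupport (fun p => max 0 (min 1 (2 - Metric.infDist p G / r))) ⊆
      Metric.cthickening δ G := by
    refine closure_minimal ?_ Metric.isClosed_cthickening
    intro p hp
    by_contra hcon
    apply hp
    have hcon2 : δ ≤ Metric.infDist p G := by
      by_contra hlt
      exact hcon (Metric.thickening_subset_cthickening _ _
        ((Metric.mem_thickening_iff_infDist_lt hne).mpr (not_le.mp hlt)))
    have h1 : 2 ≤ Metric.infDist p G / r := by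
      rw [le_div_iff₀ hr0]; linarith
    have h2 : min 1 (2 - Metric.infDist p G / r) ≤ 0 := (min_le_right _ _).trans (by linarith)
    exact max_eq_left h2
  refine ⟨fun p => max 0 (min 1 (2 - Metric.infDist p G / r)), (1 / r).toNNReal, ?_, fun p =>
    ⟨le_max_left _ _, max_le zero_le_one (min_le_left _ _)⟩, ?_, ?_, ?_⟩
  · refine LipschitzWith.const_max (LipschitzWith.const_min ?_ 1) 0
    refine LipschitzWith.of_dist_le_mul fun p q => ?_
    have h1 := (Metric.lipschitz_infDist_pt G).dist_le_mul p q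
    rw [NNReal.coe_one, one_mul] at h1
    rw [Real.coe_toNNReal _ (by positivity), Real.dist_eq]
    have h2 : 2 - Metric.infDist p G / r - (2 - Metric.infDist q G / r) =
        (1 / r) * (Metric.infDist q G - Metric.infDist p G) := by ring
    rw [h2, abs_mul, abs_of_pos (by positivity : 0 < 1 / r), abs_sub_comm, ← Real.dist_eq]
    exact mul_le_mul_of_nonneg_left h1 (by positivity)
  · refine ⟨Metric.thickening r G, Metric.isOpen_thickening,
      Metric.self_subset_thickening hr0 G, fun p hp => ?_⟩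
    rw [Metric.mem_thickening_iff_infDist_lt hne] at hp
    have h1 : Metric.infDist p G / r ≤ 1 := by rw [div_le_one hr0]; exact hp.le
    simp only
    rw [min_eq_left (by linarith), max_eq_right zero_le_one]
  · exact hG.cthickening.of_isClosed_subset (isClosed_tsupport _) hsupp
  · exact hsupp.trans hδN

/-- cutting off one half -/
theorem half_cut {𝓗 : Set Hair} (he : e ∈ Vl 𝓗 a b c B) (hcB : c < B)
    (he01 : ∀ p, 0 ≤ e p ∧ e p ≤ 1) {χ : ℝ × ℝ → ℝ} {ℓ : ℝ≥0} (hχ : LipschitzWith ℓ χ)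
    (hχ01 : ∀ p, 0 ≤ χ p ∧ χ p ≤ 1) (hχs : tsupport χ ⊆ Ioo a b ×ˢ Ioi c) :
    ∃ z : ℝ × ℝ → ℝ, CFJ 𝓗 (Lo B) z ∧ (∀ p, 0 ≤ z p ∧ z p ≤ 1) ∧
      (∀ p, p ∉ tsupport χ → z p = 0) ∧
      En (Lo B) z ≤ (2 + 4 * ℓ ^ 2 * (B - c) ^ 2) * En (Wo a b c B) e ∧
      ∀ p ∈ Wo a b c B, z p = χ p * e p := by
  set N0 : Set (ℝ × ℝ) := Ioo a b ×ˢ Ioi c with hN0
  have hN0o : IsOpen N0 := isOpen_Ioo.prod isOpen_Ioi
  have hA : IsOpen (tsupport χ)ᶜ := (isClosed_tsupport χ).isOpen_compl
  obtain ⟨heJ, δ, hδ, he0⟩ := he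
  have hχCF : CF (Wl a b c B) χ :=
    CF_of_lipschitz hχ (C := 1) fun p _ => by rw [abs_of_nonneg (hχ01 p).1]; exact (hχ01 p).2
  have hprod : CFJ 𝓗 (Wl a b c B) (fun p => χ p * e p) := hχCF.cfj.mul heJ
  have hz0 : ∀ p, p ∉ tsupport χ → N0.indicator (fun p => χ p * e p) p = 0 := by
    intro p hp
    by_cases hpN : p ∈ N0
    · rw [indicator_of_mem hpN, image_eq_zero_of_notMem_tsupport hp, zero_mul]
    · exact indicator_of_notMem hpN _
  have hzW : ∀ p ∈ Wo a b c B, N0.indicator (fun p => χ p * e p) p = χ p * e p := by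
    intro p hp
    exact indicator_of_mem (show p ∈ N0 from ⟨hp.1, hp.2.1⟩) _
  refine ⟨N0.indicator (fun p => χ p * e p), ?_, ?_, hz0, ?_, hzW⟩
  · refine hprod.indicator hN0o hA ?_ ?_ ?_
    · intro p _
      by_cases hpN : p ∈ N0
      · exact Or.inl hpN
      · exact Or.inr fun hh => hpN (hχs hh)
    · rintro p ⟨hpB, hpN⟩
      exact ⟨hpN.1, hpN.2, (show p.2 < B from hpB).le⟩
    · rintro p ⟨-, hp⟩
      rw [image_eq_zero_of_notMem_tsupport hp, zero_mul]
  · intro p
    by_cases hpN : p ∈ N0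
    · rw [indicator_of_mem hpN]
      exact ⟨mul_nonneg (hχ01 p).1 (he01 p).1, mul_le_one₀ (hχ01 p).2 (he01 p).1 (he01 p).2⟩
    · rw [indicator_of_notMem hpN]; exact ⟨le_rfl, zero_le_one⟩
  · obtain ⟨J, -, L, C, hL, hSL, hC⟩ := heJ
    have h1 := en_cut hSL hC hcB hδ he0 hχ (fun p => by
      rw [abs_of_nonneg (hχ01 p).1]; exact (hχ01 p).2)
    refine le_trans (le_of_eq ?_) h1
    unfold En
    have hLo : MeasurableSet (Lo B) := measurableSet_lt measurable_snd measurable_const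
    have hsub : Wo a b c B ⊆ Lo B := fun p hp => hp.2.2
    have e1 : ∫ p in Lo B, g2 (N0.indicator (fun p => χ p * e p)) p =
        ∫ p in Wo a b c B, g2 (N0.indicator (fun p => χ p * e p)) p := by
      refine setIntegral_eq_of_subset_of_forall_sdiff_eq_zero hLo hsub ?_
      rintro p ⟨hpB, hpW⟩
      have hpN : p ∉ tsupport χ := by
        intro hh
        have := hχs hh
        exact hpW ⟨this.1, this.2, hpB⟩
      have : N0.indicator (fun p => χ p * e p) =ᶠ[𝓝 p] fun _ => 0 := by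
        filter_upwards [hA.mem_nhds hpN] with q hq using hz0 q hq
      unfold g2
      rw [gx_congr this, gy_congr this]
      simp
    rw [e1]
    refine setIntegral_congr_fun measurableSet_Wo fun p hp => ?_
    have : N0.indicator (fun p => χ p * e p) =ᶠ[𝓝 p] fun p => χ p * e p := by
      filter_upwards [isOpen_Wo.mem_nhds hp] with q hq using hzW q hq
    simp only [g2]
    rw [gx_congr this, gy_congr this]

/-- clamping -/
theorem clamp_Vl {𝓗 : Set Hair} (he : e ∈ Vl 𝓗 a b c B) :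
    (fun p => max (min (e p) 1) 0) ∈ Vl 𝓗 a b c B ∧
      En (Wo a b c B) (fun p => max (min (e p) 1) 0) ≤ En (Wo a b c B) e := by
  obtain ⟨heJ, δ, hδ, he0⟩ := he
  constructor
  · refine ⟨(heJ.min (CFJ_const 1)).max (CFJ_const 0), δ, hδ, fun p hp hpc => ?_⟩
    show max (min (e p) 1) 0 = 0
    rw [he0 p hp hpc]; simp
  · obtain ⟨J, -, L, C, hL, hSL, hC⟩ := heJ
    have h1 : SL (Wo a b c B \ cut J) L e := hSL.mono (sdiff_subset_sdiff_left Wo_subset)
    have h2 := h1.min (SL_const (1 : ℝ))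
    exact (En_max_const_le h2 0 isOpen_Wo (isClosed_cut J) (volume_cut J) volume_Wo_lt.ne).trans
      (En_min_const_le h1 1 isOpen_Wo (isClosed_cut J) (volume_cut J) volume_Wo_lt.ne)

theorem clamp_add {s t : ℝ} (h : 9 / 10 ≤ s + t) :
    9 / 10 ≤ max (min s 1) 0 + max (min t 1) 0 := by
  have a1 : 0 ≤ max (min s 1) 0 := le_max_right _ _
  have a2 : 0 ≤ max (min t 1) 0 := le_max_right _ _
  rcases le_or_gt 1 s with h1 | h1
  · have : max (min s 1) 0 = 1 := by rw [min_eq_right h1]; norm_num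
    linarith
  rcases le_or_gt 1 t with h2 | h2
  · have : max (min t 1) 0 = 1 := by rw [min_eq_right h2]; norm_num
    linarith
  have a3 : s ≤ max (min s 1) 0 := by rw [min_eq_left h1.le]; exact le_max_left _ _
  have a4 : t ≤ max (min t 1) 0 := by rw [min_eq_left h2.le]; exact le_max_left _ _
  linarith

theorem tsupport_rf (χ : ℝ × ℝ → ℝ) : tsupport (fun p => χ (rf p)) ⊆ rf ⁻¹' tsupport χ := by
  refine closure_minimal ?_ ((isClosed_tsupport χ).preimage continuous_rf)
  intro p hp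
  exact subset_closure hp

/-- **`Null` in the box implies `NullN`** (LEMA (vi)). -/
theorem nullN_of_null {E : Set (ℝ × ℝ)} (_hE : Pic E) {g : Set Hair} {Bm Bp : ℝ}
    (hg : Fam E g Bm Bp) {d : ℝ} (hc : c < Bm) (hd : Bp < d)
    (hbox : E ⊆ Ioo a b ×ˢ Ioo c d) (h : Null (hairs E) a b c Bm (-d) (-Bp) g) :
    NullN E g Bm Bp := by
  intro N hN hgN ε hε
  have hunE : un g ⊆ E := by
    intro q hq
    obtain ⟨K, hK, hqK⟩ := mem_un.mp hq
    exact car_subset (hg.sub hK) hqK
  obtain ⟨χ, ℓ, hχ, hχ01, ⟨Oχ, hOo, hgO, hO1⟩, hχc, hχs⟩ := exists_chi hg.cpt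
    (hN.inter (isOpen_Ioo.prod isOpen_Ioo)) (fun q hq => ⟨hgN hq, hbox (hunE hq)⟩)
  have hχs1 : tsupport χ ⊆ Ioo a b ×ˢ Ioi c := fun q hq => ⟨(hχs hq).2.1, (hχs hq).2.2.1⟩
  set χ' : ℝ × ℝ → ℝ := fun p => χ (rf p) with hχ'
  have hχ'L : LipschitzWith ℓ χ' := by
    have := hχ.comp isometry_rf.lipschitz
    rwa [mul_one] at this
  have hχ'01 : ∀ p, 0 ≤ χ' p ∧ χ' p ≤ 1 := fun p => hχ01 _
  have hχ's : tsupport χ' ⊆ Ioo a b ×ˢ Ioi (-d) := by
    intro q hq
    have h1 := hχs (tsupport_rf χ hq)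
    have h2 : -q.2 < d := h1.2.2.2
    exact ⟨h1.2.1, by show -d < q.2; linarith⟩
  set C1 : ℝ := 2 + 4 * ℓ ^ 2 * (Bm - c) ^ 2 + 4 * ℓ ^ 2 * (-Bp - -d) ^ 2 with hC1
  have hC10 : 0 < C1 := by positivity
  obtain ⟨e, he, e', he', hen, hkey⟩ := h (ε / C1) (by positivity)
  obtain ⟨hk1, hk2⟩ := clamp_Vl he
  obtain ⟨hk1', hk2'⟩ := clamp_Vl he'
  have hcl : ∀ (f : ℝ × ℝ → ℝ) p, 0 ≤ max (min (f p) 1) 0 ∧ max (min (f p) 1) 0 ≤ 1 := fun f p =>
    ⟨le_max_right _ _, max_le (min_le_right _ _) zero_le_one⟩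
  obtain ⟨z, z1, z2, z3, z4, z5⟩ := half_cut hk1 hc (hcl e) hχ hχ01 hχs1
  obtain ⟨z', z1', z2', z3', z4', z5'⟩ := half_cut hk1' (by linarith : -d < -Bp) (hcl e')
    hχ'L hχ'01 hχ's
  have hE1 := En_nonneg (Wo a b c Bm) e
  have hE2 := En_nonneg (Wo a b (-d) (-Bp)) e'
  have hUp : Up Bp = rf ⁻¹' Lo (-Bp) := by
    ext q
    show Bp < q.2 ↔ -q.2 < -Bp
    constructor <;> intro _ <;> linarith
  refine ⟨z, fun p => z' (rf p), ⟨z1, z2, ⟨tsupport χ, hχc, fun q hq => (hχs hq).1,
    fun p _ hp => z3 p hp⟩, ?_⟩, ⟨?_, fun p => z2' _, ⟨tsupport χ, hχc, fun q hq => (hχs hq).1,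
    fun p _ hp => z3' _ (fun hh => hp ?_)⟩, ?_⟩, ?_⟩
  · refine z4.trans ?_
    have k1 : (2 + 4 * (ℓ : ℝ) ^ 2 * (Bm - c) ^ 2) * En (Wo a b c Bm) (fun p => max (min (e p) 1) 0) ≤
        C1 * (ε / C1) := by
      refine mul_le_mul ?_ (by linarith) (En_nonneg _ _) hC10.le
      have : 0 ≤ 4 * (ℓ : ℝ) ^ 2 * (-Bp - -d) ^ 2 := by positivity
      linarith
    rwa [mul_div_cancel₀ _ hC10.ne'] at k1
  · rw [hUp]
    have := z1'.refl
    rwa [reflH_reflH] at this
  · have := tsupport_rf χ hh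
    simpa using this
  · rw [hUp, En_rf]
    refine z4'.trans ?_
    have k1 : (2 + 4 * (ℓ : ℝ) ^ 2 * (-Bp - -d) ^ 2) *
        En (Wo a b (-d) (-Bp)) (fun p => max (min (e' p) 1) 0) ≤ C1 * (ε / C1) := by
      refine mul_le_mul ?_ (by linarith) (En_nonneg _ _) hC10.le
      have : 0 ≤ 4 * (ℓ : ℝ) ^ 2 * (Bm - c) ^ 2 := by positivity
      linarith
    rwa [mul_div_cancel₀ _ hC10.ne'] at k1
  · intro K hK
    have hKE : K.car ⊆ E := car_subset (hg.sub hK)
    obtain ⟨hb1, hb2⟩ := hg.crs K hK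
    have hlt := hg.lt
    have hKb := hbox (hKE (⟨rfl, le_rfl, K.hbt.le⟩ : (K.x, K.b) ∈ K.car))
    have hKt := hbox (hKE (⟨rfl, K.hbt.le, le_rfl⟩ : (K.x, K.t) ∈ K.car))
    obtain ⟨heJ, -⟩ := he
    obtain ⟨heJ', -⟩ := he'
    obtain ⟨J, hJ, L, C, hL, hSL, hC⟩ := heJ
    obtain ⟨J', hJ', L', C', hL', hSL', hC'⟩ := heJ'
    obtain ⟨O1, hO1o, hKO1, hO1p⟩ := near_hair hSL hL (K := K) hKb.1 hKb.2.1 hb1 (by linarith)
      (fun K' hK' hne => hairs_disj (hg.sub hK) (hJ K' hK') (Ne.symm hne))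
      (η := 1 / 20) (by norm_num)
    obtain ⟨O2, hO2o, hKO2, hO2p⟩ := near_hair hSL' hL' (K := K.refl) (by simpa using hKb.1)
      (by have := hKt.2.2; simp only [Hair.refl_b]; linarith) (by simp only [Hair.refl_b]; linarith)
      (by simp only [Hair.refl_t]; linarith)
      (fun K' hK' hne => by
        have h1 : K'.refl ∈ hairs E := hJ' K' hK'
        have h2 : K ≠ K'.refl := fun hh => hne (by rw [hh, Hair.refl_refl])
        have h3 := hairs_disj (hg.sub hK) h1 h2
        rw [Set.disjoint_left] at h3 ⊢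
        intro p hp hp'
        rw [Hair.mem_car_refl] at hp
        refine h3 hp ?_
        rw [Hair.mem_car_refl]
        simpa using hp')
      (η := 1 / 20) (by norm_num)
    refine ⟨O1 ∩ rf ⁻¹' O2 ∩ Oχ, (hO1o.inter (hO2o.preimage continuous_rf)).inter hOo, ?_, ?_⟩
    · intro q hq
      refine ⟨⟨hKO1 hq, hKO2 ?_⟩, hgO (mem_un.mpr ⟨K, hK, hq⟩)⟩
      rw [Hair.mem_car_refl]; simpa using hq
    · rintro p ⟨hpO, hpE⟩ hpB q ⟨hqO, hqE⟩ hqB
      obtain ⟨σ, y, hy1, hy2, hy3⟩ := hO1p p hpO.1.1 (fun hh => hpE (hKE hh)) hpB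
      obtain ⟨σ', y', hy1', hy2', hy3'⟩ := hO2p (rf q) hqO.1.2 (fun hh => hqE (hKE (by
        rw [Hair.mem_car_refl] at hh; simpa using hh)))
        (by have : Bp < q.2 := hqB
            simp only [rf_snd]; linarith)
      have h1 := hkey K hK σ σ' y y' hy1 hy2 hy1' hy2'
      simp only [Hair.refl_x] at hy3'
      have hχp : χ p = 1 := hO1 p hpO.2
      have hχq : χ q = 1 := hO1 q hqO.2
      have hpS : p ∈ tsupport χ := subset_closure (by
        show χ p ≠ 0
        rw [hχp]; exact one_ne_zero)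
      have hqS : q ∈ tsupport χ := subset_closure (by
        show χ q ≠ 0
        rw [hχq]; exact one_ne_zero)
      have hpW : p ∈ Wo a b c Bm := ⟨(hχs hpS).2.1, (hχs hpS).2.2.1, hpB⟩
      have hqW : rf q ∈ Wo a b (-d) (-Bp) := by
        refine ⟨(hχs hqS).2.1, ?_, ?_⟩
        · have := (hχs hqS).2.2.2
          simp only [rf_snd]; linarith
        · have : Bp < q.2 := hqB
          simp only [rf_snd]; linarith
      show (9 / 10 : ℝ) ≤ z p + z' (rf q)
      rw [z5 p hpW, z5' (rf q) hqW, hχp, hχ']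
      simp only [rf_rf, hχq, one_mul]
      exact clamp_add (by linarith)

end Crest.Agent.R105.NulN_421
end

-- ▼ part R105/Psi14_425

/-!
Row 105 (helper425): **lemma A** (`Skp2_257.LEMA`).
-/

open MeasureTheory Set Filter Topology
open scoped NNReal ENNReal ContDiff

namespace Crest.Agent.R105.Psi14_425

open Psi8_425 CF_363 Skp2_257 Mp_87 Psi10_425 Psi11_425 Psi12_425 Psi13_425 Kin_238

variable {E S : Set (ℝ × ℝ)} {g : Set Hair} {a b c d Bm Bp m : ℝ} {X1 X2 Y1 Y2 : ℝ × ℝ → ℝ}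
  {μ ν : Measure (ℝ × ℝ)}

theorem hBt (hg : Fam E g Bm Bp) : ∀ K ∈ g, Bm < K.t := fun K hK =>
  lt_of_lt_of_le hg.lt (hg.crs K hK).2

theorem exists_two (hE : Pic E) (hg : Fam E g Bm Bp) (hab : a < b) (hcB : c < Bm) (hBd : Bp < d)
    (hbox : E ⊆ Ioo a b ×ˢ Ioo c d) (hm : 0 < m)
    (F : Flow (hairs E) a b c Bm (-d) (-Bp) g m X1 X2 μ Y1 Y2 ν)
    (sing : (S = ∅ ∧ ∀ x, μ {q | q.1 = x} = 0) ∨ (∃ K₀, g = {K₀} ∧ S = K₀.car)) :
    ∃ fl fu, Two E S g a b c d Bm Bp X1 X2 Y1 Y2 μ ν fl fu := by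
  have hfμ : IsFiniteMeasure μ := F.lo.fin
  have hfν : IsFiniteMeasure ν := F.up.fin
  have hlt := hg.lt
  -- lower half
  have G := gg_lo hE.cpt hg hbox
  have L := Str_421.lines_half hab hcB hg.sub G F.lo
  obtain ⟨κ, hκ, J, z, hJ, A⟩ := Str_421.appr_half hab hcB hg.sub G F.lo
    (fun K hK K' hK' p hp hp' => eq_of_mem hK hK' hp hp') (hBt hg)
  have hcar : ∀ᵐ q ∂μ, ∃ K ∈ g, q ∈ K.car ∧ q.2 ≤ Bm := by
    have h1 : ∀ᵐ q ∂μ, q ∈ lowSet g Bm := by rw [ae_iff]; exact F.lo.carried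
    filter_upwards [h1] with q hq using hq
  have C : Ctx E g S a b c Bm Bp μ :=
    { cE := hE.cpt
      box := fun p hp => ⟨(hbox hp).1.1, (hbox hp).1.2, (hbox hp).2.1⟩
      ab := hab
      cB := hcB
      BT := hg.lt
      crs := hg.crs
      sub := hg.sub
      carried := hcar
      sing := sing }
  have hTT : TT E c Bm (Str_421.Psi a b X1 X2 μ) μ := by
    intro K hK hμK
    have hb := hbox (car_sub hK (bot_mem K))
    exact ⟨κ K, hκ K hK hb.1 hμK⟩
  obtain ⟨fl, hfl⟩ := exists_hf C L A hJ hTT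
  -- upper half
  have G' := gg_up hE.cpt hg hbox
  have hsub' : reflH g ⊆ reflH (hairs E) := fun K hK => hg.sub hK
  have hH : hairs (rf ⁻¹' E) = reflH (hairs E) := hairs_rf E
  have L' := Str_421.lines_half hab (by linarith : -d < -Bp) hsub' G' F.up
  obtain ⟨κ', hκ', J', z', hJ', A'⟩ := Str_421.appr_half hab (by linarith : -d < -Bp) hsub' G' F.up
    (fun K hK K' hK' p hp hp' => eq_of_mem (E := rf ⁻¹' E) (by rw [hH]; exact hK)
      (by rw [hH]; exact hK') hp hp') (fun K hK => by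
      have := (hg.crs K.refl hK).1
      simp only [Hair.refl_b] at this
      linarith)
  have hcar' : ∀ᵐ q ∂ν, ∃ K ∈ reflH g, q ∈ K.car ∧ q.2 ≤ -Bp := by
    have h1 : ∀ᵐ q ∂ν, q ∈ lowSet (reflH g) (-Bp) := by rw [ae_iff]; exact F.up.carried
    filter_upwards [h1] with q hq using hq
  have C' : Ctx (rf ⁻¹' E) (reflH g) (rf ⁻¹' S) a b (-d) (-Bp) (-Bm) ν :=
    { cE := by
        rw [← rf_image_eq_preimage]
        exact hE.cpt.image continuous_rf
      box := fun p hp => by
        have := hbox hp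
        simp only [mem_prod, mem_Ioo, rf_fst, rf_snd] at this
        exact ⟨this.1.1, this.1.2, by linarith [this.2.2]⟩
      ab := hab
      cB := by linarith
      BT := by linarith
      crs := fun K hK => by
        have := hg.crs K.refl hK
        simp only [Hair.refl_b, Hair.refl_t] at this
        exact ⟨by linarith [this.2], by linarith [this.1]⟩
      sub := by rw [hH]; exact hsub'
      carried := hcar'
      sing := by
        rcases sing with ⟨h1, h2⟩ | ⟨K₀, h1, h2⟩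
        · left
          refine ⟨by rw [h1]; rfl, fun x => ?_⟩
          have := F.marg {x} (measurableSet_singleton x)
          simp only [mem_singleton_iff] at this
          rw [← this]; exact h2 x
        · right
          refine ⟨K₀.refl, ?_, by rw [h2, Hair.car_refl]⟩
          ext K
          rw [h1]
          show K.refl ∈ ({K₀} : Set Hair) ↔ K ∈ ({K₀.refl} : Set Hair)
          rw [mem_singleton_iff, mem_singleton_iff]
          constructor
          · intro h; rw [← h, Hair.refl_refl]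
          · intro h; rw [h, Hair.refl_refl] }
  have hTT' : TT (rf ⁻¹' E) (-d) (-Bp) (Str_421.Psi a b Y1 Y2 ν) ν := by
    intro K hK hμK
    have hb := C'.box _ (car_sub hK (bot_mem K))
    exact ⟨κ' K, hκ' K (by rw [← hH]; exact hK) ⟨hb.1, hb.2.1⟩ hμK⟩
  obtain ⟨fu, hfu⟩ := exists_hf C' L' A' (fun n K hK => by rw [hH]; exact hJ' n K hK) hTT'
  refine ⟨fl, fu, ?_⟩
  exact
    { cE := hE.cpt
      null := hE.null
      box := hbox
      ab := hab
      cB := hcB
      lt := hg.lt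
      Bd := hBd
      SG := C.SG
      cS := C.closedS
      sub := hg.sub
      cG := hg.cpt.isClosed
      finμ := hfμ
      finν := hfν
      L1 := F.lo.L1
      L2 := F.lo.L2
      M1 := F.up.L1
      M2 := F.up.L2
      zX1 := fun p hp => F.lo.z1 p fun h => absurd h.2.2 (not_lt.2 hp)
      zX2 := fun p hp => F.lo.z2 p fun h => absurd h.2.2 (not_lt.2 hp)
      zY1 := fun p hp => F.up.z1 p fun h => absurd h.2.2 (not_lt.2 hp)
      zY2 := fun p hp => F.up.z2 p fun h => absurd h.2.2 (not_lt.2 hp)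
      carμ := by filter_upwards [hcar] with q hq; obtain ⟨K, _, _, h⟩ := hq; exact h
      pos := by
        have := F.mass
        rw [Measure.real] at this
        rw [this]; exact hm
      lo := hfl
      up := hfu
      marg := fun x => by
        have := F.marg (Iio x) measurableSet_Iio
        simp only [mem_Iio] at this
        unfold lam
        rw [this] }

theorem contra (hE : Pic E) (hg : Fam E g Bm Bp) (hEL : ELg E g) (hab : a < b) (hcB : c < Bm)
    (hBd : Bp < d) (hbox : E ⊆ Ioo a b ×ˢ Ioo c d) (hm : 0 < m)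
    (F : Flow (hairs E) a b c Bm (-d) (-Bp) g m X1 X2 μ Y1 Y2 ν)
    (sing : (S = ∅ ∧ ∀ x, μ {q | q.1 = x} = 0) ∨ (∃ K₀, g = {K₀} ∧ S = K₀.car)) : False := by
  obtain ⟨fl, fu, H⟩ := exists_two hE hg hab hcB hBd hbox hm F sing
  have hRo : IsOpen (Ioo a b ×ˢ Ioo c d : Set (ℝ × ℝ)) := isOpen_Ioo.prod isOpen_Ioo
  -- the cut-off
  obtain ⟨Lc, hLc, hEL1, hLR⟩ := exists_compact_between hE.cpt hRo hbox
  obtain ⟨χ, hχ, hχ1, hχ0, -⟩ := MsB_425.cutoff hE.cpt.isClosed hEL1
  have hχs : tsupport χ ⊆ Lc := by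
    refine closure_minimal (fun p hp => ?_) hLc.isClosed
    by_contra hcon
    exact hp (hχ0 p hcon)
  have hχc : HasCompactSupport χ := hLc.of_isClosed_subset (isClosed_tsupport χ) hχs
  have hχE : ∀ p ∈ E, χ p = 1 := fun p hp =>
    ((eventually_nhdsSet_iff_forall.1 hχ1) p hp).self_of_nhds
  have hGE : un g ⊆ E := un_sub hg.sub
  obtain ⟨ψ, hψ⟩ := core hE.cpt.isClosed hE.null H.cG H.cS H.SG hGE (Two.str H) hχ hχc
    (hχs.trans hLR)
  have hval := Two.value H (hχ.of_le (by norm_num)) hχc (hχs.trans hLR)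
    (fun p hp => hχE p (hGE hp))
  rw [← hψ.val] at hval
  obtain ⟨ψ', hreg, hPL, hosc, hne⟩ := Psi9_425.test hE.cpt hE.null H.cS H.SG hψ hχE
    (Two.const H hE) hval.ne'
  refine hne (hEL ψ' ?_ hPL)
  rcases sing with ⟨h1, -⟩ | ⟨K₀, h1, h2⟩
  · left
    refine ⟨hreg, fun P hP => hosc P hP ?_⟩
    rw [h1]; exact disjoint_empty P
  · right
    refine ⟨hreg, K₀, hg.sub (by rw [h1]; rfl), fun P hP hne' => hosc P hP ?_⟩
    rw [h2, Set.disjoint_left]
    intro p hp hp'
    obtain ⟨q, _, rfl⟩ := hP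
    have hK₀ : K₀ ∈ hairs E := hg.sub (by rw [h1]; rfl)
    obtain ⟨q', _, hq'⟩ := hK₀
    rw [hq'] at hp' hne'
    exact hne' (by rw [connectedComponentIn_eq hp, connectedComponentIn_eq hp'])

theorem null_single (hE : Pic E) (hEL : ∀ g Bm Bp, Fam E g Bm Bp → ELg E g) {K : Hair}
    (hg : Fam E {K} Bm Bp) (hab : a < b) (hcB : c < Bm) (hBd : Bp < d)
    (hbox : E ⊆ Ioo a b ×ˢ Ioo c d) : Null (hairs E) a b c Bm (-d) (-Bp) {K} := by
  by_contra hnot
  obtain ⟨m, X1, X2, μ, Y1, Y2, ν, hm, F, -⟩ := exists_flow_fam hE.cpt hg hbox hnot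
  exact contra hE hg (hEL _ _ _ hg) hab hcB hBd hbox hm F (Or.inr ⟨K, rfl, rfl⟩)

theorem null_fam (hE : Pic E) (hEL : ∀ g Bm Bp, Fam E g Bm Bp → ELg E g)
    (hg : Fam E g Bm Bp) (hab : a < b) (hcB : c < Bm) (hBd : Bp < d)
    (hbox : E ⊆ Ioo a b ×ˢ Ioo c d) : Null (hairs E) a b c Bm (-d) (-Bp) g := by
  by_contra hnot
  obtain ⟨m, X1, X2, μ, Y1, Y2, ν, hm, F, hat⟩ := exists_flow_fam hE.cpt hg hbox hnot
  refine contra (S := ∅) hE hg (hEL _ _ _ hg) hab hcB hBd hbox hm F (Or.inl ⟨rfl, fun x => ?_⟩)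
  by_cases hx : ∃ K ∈ g, K.x = x
  · obtain ⟨K, hK, rfl⟩ := hx
    exact hat K hK (null_single hE hEL (Kin_238.fam_singleton hg hK) hab hcB hBd hbox)
  · rw [measure_eq_zero_iff_ae_notMem]
    have h1 : ∀ᵐ q ∂μ, q ∈ lowSet g Bm := by rw [ae_iff]; exact F.lo.carried
    filter_upwards [h1] with q hq hqx
    obtain ⟨K, hK, hqK, -⟩ := hq
    exact hx ⟨K, hK, (Hair.mem_car.1 hqK).1.symm.trans hqx⟩

/-- **LEMA** -/
theorem lema : LEMA := by
  intro E hE hEL g Bm Bp hg
  obtain ⟨a, b, c, d, hab, hcB, hBd, hbox⟩ := exists_box hE.cpt Bm Bp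
  exact NulN_421.nullN_of_null hE hg hcB hBd hbox (null_fam hE hEL hg hab hcB hBd hbox)

end Crest.Agent.R105.Psi14_425
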