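import Crest.Agent.R105.Kna8_421_Mg
import Crest.Agent.R105.Eta6_179_Mg
import Crest.Agent.R105.Atl3_948
import Crest.Agent.R105.E13_499
import Crest.Agent.R105.Bp1_338
import Crest.Agent.R105.Lin5_642
import Crest.Agent.R105.Adg2_600
import Mathlib
import Crest.Agent.R105.Pj2_403
import Crest.Agent.R105.Grd3_782
import Crest.Agent.R105.Gl2_395
import Crest.Agent.R105.Adg3_600
import Crest.Agent.R105.Fml2_61
import Crest.Agent.R105.Yv6_319
import Crest.Agent.R105.Ta7_937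

-- ▼ part R105/Jex5_987
section

/-!
# Row 105, S0138: the top, only `SolEnds` open (helper987)

`s0138_sol : SolEnds → S0138`, `s0138_atne : ATNE → S0138` (499's literal).
-/

set_option autoImplicit false

open MeasureTheory Set Filter Topology Metric
open scoped NNReal ENNReal

namespace Crest.Agent.R105.Jex_987

open Crest.AnalysisR

/-- **S0138 from `SolEnds`** -/
theorem s0138_sol (H : Pj_403.SolEnds) (U : Set ℂ) (hU : IsExteriorDomain U) :
    ∃ f : ℂ → ℂ, DifferentiableOn ℂ f U ∧ Set.InjOn f U ∧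
      Filter.Tendsto f (Filter.cocompact ℂ) (Filter.cocompact ℂ) ∧
      IsCircleDomainFinitePart (f '' U) :=
  s0138_end Kna_421.lemaq (Pj_403.atno_ext H) Eta_179.endo_ext U hU

/-- **S0138 from `ATNE`** -/
theorem s0138_atne (hA : E13_499.ATNE) (U : Set ℂ)
    (hU : IsExteriorDomain U) :
    ∃ f : ℂ → ℂ, DifferentiableOn ℂ f U ∧ Set.InjOn f U ∧
      Filter.Tendsto f (Filter.cocompact ℂ) (Filter.cocompact ℂ) ∧
      IsCircleDomainFinitePart (f '' U) :=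
  s0138_sol (Gl_987.solEnds_of_atne hA) U hU

end Crest.Agent.R105.Jex_987
end

-- ▼ part R105/Asm4_895
section

/-!
# Row 105, S0138: from 499's `PTW` (helper895, assembly)
-/

set_option autoImplicit false

open MeasureTheory Set Filter Topology

namespace Crest.Agent.R105.Asm_895

open Crest.AnalysisR

/-- **S0138 from `PTW`** (948's `atne`, 987's `s0138_atne`) -/
theorem s0138_of_ptw (hP : E13_499.PTW)
    (U : Set ℂ) (hU : IsExteriorDomain U) :
    ∃ f : ℂ → ℂ, DifferentiableOn ℂ f U ∧ Set.InjOn f U ∧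
      Filter.Tendsto f (Filter.cocompact ℂ) (Filter.cocompact ℂ) ∧
      IsCircleDomainFinitePart (f '' U) :=
  Jex_987.s0138_atne (Atl_948.atne hP) U hU

end Crest.Agent.R105.Asm_895
end

-- ▼ part R105/Eam1_116
section

/-!
# Row 105 (S0138), node E13, JOB 2: measurability of the end functions (helper116)

* `aem_gen` : limits along `𝓝[S t] (τ t)` of a measurable family are a.e. measurable in `t`
* `top_meas`, `bot_meas` : `t ↦ sSup (sec L t)`, `sInf (sec L t)` are measurable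
* `ends_aem` : `EndsOf` functions are a.e. measurable on `(lo, hi)`
* `lim_ind` : the limit of a function cut by a predicate
-/

set_option autoImplicit false

open MeasureTheory Set Filter Topology Metric
open scoped NNReal ENNReal ContDiff

namespace Crest.Agent.R105.Eam_116

open Tc_808 E13_499
open Sqr_185 (sec)

/-- limits along `𝓝[S t] (τ t)` -/
theorem aem_gen {I : Set ℝ} (hI : MeasurableSet I) {S : ℝ → Set ℝ} {τ : ℝ → ℝ} (hτ : Measurable τ)
    (hS : ∀ t, IsOpen (S t)) (hSm : ∀ v, MeasurableSet {t | v ∈ S t})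
    (hn : ∀ t ∈ I, (𝓝[S t] (τ t)).NeBot) {W : ℝ → ℝ → ℝ} (hW : ∀ v, Measurable fun t => W t v)
    {g : ℝ → ℝ} (h : ∀ᵐ t : ℝ, t ∈ I → Tendsto (W t) (𝓝[S t] (τ t)) (𝓝 (g t))) :
    AEMeasurable g (volume.restrict I) := by
  classical
  let q : ℕ → ℝ := TopologicalSpace.denseSeq ℝ
  have hq : DenseRange q := TopologicalSpace.denseRange_denseSeq ℝ
  let p : ℕ → ℕ → ℝ → Prop := fun m n t => t ∉ I ∨ (q n ∈ S t ∧ |q n - τ t| < 1 / ((m : ℝ) + 1))
  have hex : ∀ m t, ∃ n, p m n t := by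
    intro m t
    by_cases ht : t ∈ I
    · have h1 := hn t ht
      have h2 : S t ∩ ball (τ t) (1 / ((m : ℝ) + 1)) ∈ 𝓝[S t] (τ t) :=
        inter_mem self_mem_nhdsWithin (mem_nhdsWithin_of_mem_nhds (ball_mem_nhds _ (by positivity)))
      have h3 : (S t ∩ ball (τ t) (1 / ((m : ℝ) + 1))).Nonempty := h1.nonempty_of_mem h2
      obtain ⟨_, ⟨h4, h5⟩, n, rfl⟩ := hq.inter_open_nonempty _ ((hS t).inter isOpen_ball) h3
      exact ⟨n, Or.inr ⟨h4, by simpa [Real.dist_eq] using h5⟩⟩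
    · exact ⟨0, Or.inl ht⟩
  have hpm : ∀ m n, MeasurableSet {t | p m n t} := by
    intro m n
    refine (hI.compl).union ((hSm (q n)).inter ?_)
    exact measurableSet_lt ((measurable_const.sub hτ).abs) measurable_const
  have hf : ∀ m, Measurable fun t => W t (q (Nat.find (hex m t))) := fun m =>
    Measurable.find (f := fun n t => W t (q n)) (fun n => hW (q n)) (hpm m) (hex m)
  refine aemeasurable_of_tendsto_metrizable_ae' (f := fun m t => W t (q (Nat.find (hex m t))))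
    (fun m => (hf m).aemeasurable) ?_
  rw [ae_restrict_iff' hI]
  filter_upwards [h] with t ht htI
  have h1 : ∀ m, q (Nat.find (hex m t)) ∈ S t ∧ |q (Nat.find (hex m t)) - τ t| < 1 / ((m : ℝ) + 1) :=
    fun m => (Nat.find_spec (hex m t)).resolve_left (not_not.2 htI)
  have h2 : Tendsto (fun m => q (Nat.find (hex m t))) atTop (𝓝[S t] (τ t)) := by
    refine tendsto_nhdsWithin_iff.2 ⟨?_, Eventually.of_forall fun m => (h1 m).1⟩
    rw [tendsto_iff_norm_sub_tendsto_zero]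
    refine squeeze_zero (fun _ => norm_nonneg _) (fun m => ?_) tendsto_one_div_add_atTop_nhds_zero_nat
    rw [Real.norm_eq_abs]
    exact (h1 m).2.le
  exact (ht htI).comp h2

theorem top_meas {L : Set ℂ} (hL : IsCompact L) : Measurable fun t => sSup (sec L t) := by
  refine measurable_of_Ici fun c => ?_
  have e : (fun t => sSup (sec L t)) ⁻¹' Ici c =
      (Complex.re '' (L ∩ {z | c ≤ z.im})) ∪ ((Complex.re '' L)ᶜ ∩ {_t | c ≤ 0}) := by
    ext t
    by_cases hne : (sec L t).Nonempty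
    · have hm := (Sqr_185.isCompact_sec hL t).sSup_mem hne
      have hr : t ∈ Complex.re '' L := ⟨_, hm, rfl⟩
      constructor
      · intro h
        exact Or.inl ⟨_, ⟨hm, h⟩, rfl⟩
      · rintro (⟨z, ⟨hz, hzc⟩, rfl⟩ | ⟨h1, -⟩)
        · have h1 : z.im ∈ sec L z.re := hz
          exact le_trans hzc (le_csSup (Sqr_185.isCompact_sec hL _).bddAbove h1)
        · exact absurd hr h1
    · have hr : t ∉ Complex.re '' L := by
        rintro ⟨z, hz, rfl⟩
        exact hne ⟨z.im, hz⟩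
      rw [not_nonempty_iff_eq_empty] at hne
      constructor
      · intro h
        refine Or.inr ⟨hr, ?_⟩
        simpa [hne] using h
      · rintro (⟨z, ⟨hz, hzc⟩, rfl⟩ | ⟨-, h2⟩)
        · exact absurd ⟨z, hz, rfl⟩ hr
        · simpa [hne] using h2
  rw [e]
  refine MeasurableSet.union ?_ ?_
  · exact ((hL.inter_right (isClosed_le continuous_const Complex.continuous_im)).image
      Complex.continuous_re).isClosed.measurableSet
  · exact (hL.image Complex.continuous_re).isClosed.measurableSet.compl.inter (MeasurableSet.const _)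

theorem bot_meas {L : Set ℂ} (hL : IsCompact L) : Measurable fun t => sInf (sec L t) := by
  refine measurable_of_Iic fun c => ?_
  have e : (fun t => sInf (sec L t)) ⁻¹' Iic c =
      (Complex.re '' (L ∩ {z | z.im ≤ c})) ∪ ((Complex.re '' L)ᶜ ∩ {_t | 0 ≤ c}) := by
    ext t
    by_cases hne : (sec L t).Nonempty
    · have hm := (Sqr_185.isCompact_sec hL t).sInf_mem hne
      have hr : t ∈ Complex.re '' L := ⟨_, hm, rfl⟩
      constructor
      · intro h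
        exact Or.inl ⟨_, ⟨hm, h⟩, rfl⟩
      · rintro (⟨z, ⟨hz, hzc⟩, rfl⟩ | ⟨h1, -⟩)
        · have h1 : z.im ∈ sec L z.re := hz
          exact le_trans (csInf_le (Sqr_185.isCompact_sec hL _).bddBelow h1) hzc
        · exact absurd hr h1
    · have hr : t ∉ Complex.re '' L := by
        rintro ⟨z, hz, rfl⟩
        exact hne ⟨z.im, hz⟩
      rw [not_nonempty_iff_eq_empty] at hne
      constructor
      · intro h
        refine Or.inr ⟨hr, ?_⟩
        simpa [hne] using h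
      · rintro (⟨z, ⟨hz, hzc⟩, rfl⟩ | ⟨-, h2⟩)
        · exact absurd ⟨z, hz, rfl⟩ hr
        · simpa [hne] using h2
  rw [e]
  refine MeasurableSet.union ?_ ?_
  · exact ((hL.inter_right (isClosed_le Complex.continuous_im continuous_const)).image
      Complex.continuous_re).isClosed.measurableSet
  · exact (hL.image Complex.continuous_re).isClosed.measurableSet.compl.inter (MeasurableSet.const _)

theorem continuous_mk_l (v : ℝ) : Continuous fun t : ℝ => (⟨t, v⟩ : ℂ) :=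
  Sqr_185.continuous_mk.comp (continuous_id.prodMk continuous_const)

theorem continuous_mk_r (t : ℝ) : Continuous fun v : ℝ => (⟨t, v⟩ : ℂ) :=
  Sqr_185.continuous_mk.comp (continuous_const.prodMk continuous_id)

/-- **the end functions are a.e. measurable** -/
theorem ends_aem {E : Set ℂ} (hE : IsCompact E) (L : Cmp E)
    (hn : ∀ t ∈ Ioo (Sqr_185.lo L.1) (Sqr_185.hi L.1), (TopF E L.1 t).NeBot ∧ (BotF E L.1 t).NeBot)
    {w : ℂ → ℝ} (hw : ContinuousOn w Eᶜ) {wT wB : ℝ → ℝ} (h : EndsOf E L w wT wB) :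
    AEMeasurable wT (volume.restrict (Ioo (Sqr_185.lo L.1) (Sqr_185.hi L.1))) ∧
      AEMeasurable wB (volume.restrict (Ioo (Sqr_185.lo L.1) (Sqr_185.hi L.1))) := by
  classical
  have hLc := L.isCompact hE
  set W : ℂ → ℝ := Eᶜ.indicator w with hW
  have hWm : Measurable W := by
    rw [hW, ← piecewise_eq_indicator]
    exact ContinuousOn.measurable_piecewise hw continuousOn_const hE.isClosed.measurableSet.compl
  have hWv : ∀ v, Measurable fun t : ℝ => W ⟨t, v⟩ := fun v =>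
    hWm.comp (continuous_mk_l v).measurable
  constructor
  · refine aem_gen (S := fun t => {v | (⟨t, v⟩ : ℂ) ∉ E ∧ sSup (sec L.1 t) < v})
      (W := fun t v => W ⟨t, v⟩) measurableSet_Ioo (top_meas hLc) ?_ ?_ (fun t ht => (hn t ht).1)
      hWv ?_
    · intro t
      exact (hE.isClosed.isOpen_compl.preimage (continuous_mk_r t)).inter isOpen_Ioi
    · intro v
      exact ((hE.isClosed.isOpen_compl.preimage (continuous_mk_l v)).measurableSet).inter
        (measurableSet_lt (top_meas hLc) measurable_const)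
    · filter_upwards [h] with t ht hto
      refine (ht hto).1.congr' ?_
      filter_upwards [self_mem_nhdsWithin] with v hv
      rw [hW, indicator_of_mem hv.1]
  · refine aem_gen (S := fun t => {v | (⟨t, v⟩ : ℂ) ∉ E ∧ v < sInf (sec L.1 t)})
      (W := fun t v => W ⟨t, v⟩) measurableSet_Ioo (bot_meas hLc) ?_ ?_ (fun t ht => (hn t ht).2)
      hWv ?_
    · intro t
      exact (hE.isClosed.isOpen_compl.preimage (continuous_mk_r t)).inter isOpen_Iio
    · intro v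
      exact ((hE.isClosed.isOpen_compl.preimage (continuous_mk_l v)).measurableSet).inter
        (measurableSet_lt measurable_const (bot_meas hLc))
    · filter_upwards [h] with t ht hto
      refine (ht hto).2.congr' ?_
      filter_upwards [self_mem_nhdsWithin] with v hv
      rw [hW, indicator_of_mem hv.1]

open Classical in
/-- the limit of a function cut by a predicate -/
theorem lim_ind {l : Filter ℝ} [l.NeBot] {p : ℝ → Prop} {m w : ℝ → ℝ} {c g : ℝ}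
    (hm : Tendsto m l (𝓝 c)) (hw : Tendsto w l (𝓝 g))
    (h1 : ∀ᶠ v in l, p v → w v = m v) (h0 : ∀ᶠ v in l, ¬ p v → w v = 0) :
    g = if (∀ᶠ v in l, p v) then c else 0 := by
  split_ifs with h
  · refine tendsto_nhds_unique hw (hm.congr' ?_)
    filter_upwards [h, h1] with v h2 h3
    exact (h3 h2).symm
  · have h2 : ∃ᶠ v in l, w v ∈ ({0} : Set ℝ) := by
      have h' : ∃ᶠ v in l, ¬ p v := Filter.not_eventually.1 h
      exact (h'.and_eventually h0).mono fun v hv => hv.2 hv.1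
    have h3 := mem_closure_of_frequently_of_tendsto h2 hw
    simpa using h3

end Crest.Agent.R105.Eam_116
end

-- ▼ part R105/Ptw1_116
section

/-!
# Row 105 (S0138), node E13, JOB 2 (helper116): `PTW` from `BAL`, part 1

* `exists_chi0` : cut-off `= 1` near `Y`
* `uc_mm` : the part `O` of `{min (eu (u - t0)) (θ x) > 0}` cut by a step `h1` inside
  `{eu (u - t0) ≥ δ}` is a part of `{h1 (u) θ (x) > 0}`
* `exists_ends_gg` : the ends of the test function in both pictures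
* `end_P`, `end_F` : their values
-/

set_option autoImplicit false

open MeasureTheory Set Filter Topology Metric
open scoped NNReal ENNReal ContDiff

namespace Crest.Agent.R105.Ptw_116

open Crest.AnalysisR Tc_808 Ends_897 Bd_775
open Ni_459 (NI)
open Sqr_185 (sec SqK)
open Pct_185 (PicT)
open SkA_8 (Pk)
open E13_499

noncomputable section

variable {Y : Set ℂ} {x0 φ A : ℂ → ℝ} {a b : ℕ → ℂ → ℝ} {F P : ℂ → ℂ} {i : ℕ} {K : Cmp Yᶜᶜ}
  {h1 θ : ℝ → ℝ} {O : Set ℂ} {ex eu t0 : ℝ}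

/-- cut-off `= 1` near `Y` -/
theorem exists_chi0 (hY : IsCompact Y) : ∃ χ : ℂ → ℝ, LC Y χ ∧ HasCompactSupport χ ∧
    (∀ z, 0 ≤ χ z ∧ χ z ≤ 1) ∧ ∃ N, IsOpen N ∧ Y ⊆ N ∧ ∀ z ∈ N, χ z = 1 := by
  obtain ⟨R, hR⟩ := hY.isBounded.subset_closedBall (0 : ℂ)
  set R' : ℝ := max R 1 + 1
  have hR1 : 0 < R' := by positivity
  let f : ContDiffBump (0 : ℂ) := ⟨R', R' + 1, hR1, by linarith⟩
  have h1 : ∀ z ∈ ball (0 : ℂ) R', f z = 1 := fun z hz =>
    f.one_of_mem_closedBall (ball_subset_closedBall hz)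
  have h2 : ∀ z, z ∈ Y → z ∈ ball (0 : ℂ) R' := fun z hz => by
    have := hR hz
    rw [mem_closedBall, dist_zero_right] at this
    rw [mem_ball_zero_iff]
    linarith [le_max_left R 1]
  refine ⟨f, ?_, f.hasCompactSupport, fun z => ⟨f.nonneg, f.le_one⟩, ball 0 R', isOpen_ball, h2, h1⟩
  refine LC.of_compact (f.contDiff (n := 1)).locallyLipschitz f.hasCompactSupport fun z hz => ?_
  filter_upwards [isOpen_ball.mem_nhds (h2 z hz)] with u hu
  rw [h1 u hu, h1 z (h2 z hz)]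

/-- the cut part -/
theorem uc_mm {K : Set ℂ} (hA : ContinuousOn (fun z => x0 z + A z) Yᶜ)
    (hU : Uc Y K (fun z => min (eu * (x0 z + A z - t0)) (θ (x0 z + φ z))) O) (hh : Stp h1)
    (hθ : Stp θ) {δ : ℝ} (hδ : 0 < δ) (hs : ∀ v, h1 v ≠ 0 → δ ≤ eu * (v - t0)) :
    Uc Y K (mm x0 A φ h1 θ) (O ∩ {z | 0 < h1 (x0 z + A z)}) where
  op := by
    have h2 : ContinuousOn (fun z => h1 (x0 z + A z)) O :=
      hh.smooth.continuous.comp_continuousOn (hA.mono fun z hz => (hU.sub z hz).1)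
    exact h2.isOpen_inter_preimage hU.op isOpen_Ioi
  sub := by
    rintro z ⟨hz, hz1⟩
    obtain ⟨h2, h3⟩ := hU.sub z hz
    exact ⟨h2, mul_pos hz1 (lt_of_lt_of_le h3 (min_le_right _ _))⟩
  co := by
    intro z hz hm hn
    have h2 : 0 < h1 (x0 z + A z) := by
      rcases (hh.rg (x0 z + A z)).1.eq_or_lt with h | h
      · rw [mm, ← h, zero_mul] at hm; exact absurd hm (lt_irrefl _)
      · exact h
    have h3 : 0 < θ (x0 z + φ z) := by
      rcases (hθ.rg (x0 z + φ z)).1.eq_or_lt with h | h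
      · rw [mm, ← h, mul_zero] at hm; exact absurd hm (lt_irrefl _)
      · exact h
    have h4 := hs _ h2.ne'
    have h5 : z ∉ O := fun h => hn ⟨h, h2⟩
    filter_upwards [hU.co z hz (lt_min (hδ.trans_le h4) h3) h5] with w hw hw'
    exact hw hw'.1
  lc := by
    rintro K' hK' ⟨c, hc, hcm⟩
    have h2 : ∀ᶠ w in eK Y K'.1, 0 < h1 (x0 w + A w) ∧
        min δ c ≤ min (eu * (x0 w + A w - t0)) (θ (x0 w + φ w)) := by
      filter_upwards [hcm] with w hw
      have e1 : c ≤ h1 (x0 w + A w) := by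
        refine hw.trans ?_
        unfold mm
        nlinarith [(hh.rg (x0 w + A w)).1, (hθ.rg (x0 w + φ w)).2]
      have e2 : c ≤ θ (x0 w + φ w) := by
        refine hw.trans ?_
        unfold mm
        nlinarith [(hh.rg (x0 w + A w)).2, (hθ.rg (x0 w + φ w)).1]
      have e3 := hs _ (hc.trans_le e1).ne'
      exact ⟨hc.trans_le e1, le_min ((min_le_left _ _).trans e3) ((min_le_right _ _).trans e2)⟩
    rcases hU.lc K' hK' ⟨min δ c, lt_min hδ hc, h2.mono fun w hw => hw.2⟩ with h3 | h3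
    · left
      filter_upwards [h2, h3] with w hw hw'
      exact ⟨hw', hw.1⟩
    · right
      filter_upwards [h3] with w hw hw'
      exact hw hw'.1

theorem gg_cut (hh : Stp h1) (z : ℂ) :
    gg x0 A φ h1 θ (O ∩ {z | 0 < h1 (x0 z + A z)}) z =
      O.indicator (fun z => h1 (x0 z + A z) * θ (x0 z + φ z)) z := by
  unfold gg
  by_cases hz : z ∈ O
  · rw [indicator_of_mem hz]
    rcases (hh.rg (x0 z + A z)).1.eq_or_lt with h | h
    · rw [← h, zero_mul]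
      refine indicator_of_notMem (fun h2 => ?_) _
      have := h2.2
      rw [mem_ofPred_eq, ← h] at this
      exact lt_irrefl _ this
    · rw [indicator_of_mem (show z ∈ O ∩ {z | 0 < h1 (x0 z + A z)} from ⟨hz, h⟩)]
      rfl
  · rw [indicator_of_notMem hz, indicator_of_notMem (fun h => hz h.1)]

/-- the ends of the test function -/
theorem exists_ends_gg (hAD : ADMG) (h : Pk Y x0 a φ F) (hi : Pk Y x0 b (a i) P) (K : Cmp Yᶜᶜ)
    (hh : Stp h1) (hθ : Rmp θ (Sqr_185.lo (cF h K).1) (Sqr_185.hi (cF h K).1) ex)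
    (hU : Uc Y K.1 (mm x0 (a i) φ h1 θ) O) :
    (∃ gT gB, EndsOf (P '' Yᶜ)ᶜ (cF hi K) (pu hi (gg x0 (a i) φ h1 θ O)) gT gB) ∧
    (∃ kT kB, EndsOf (F '' Yᶜ)ᶜ (cF h K) (pu h (gg x0 (a i) φ h1 θ O)) kT kB) ∧
    LocallyLipschitzOn Yᶜ (gg x0 (a i) φ h1 θ O) := by
  have hYc : IsCompact Y := by
    have := isCompact_compl h.hY
    rwa [compl_compl] at this
  obtain ⟨χ0, c1, c2, c3, N, hN, hYN, hN1⟩ := exists_chi0 hYc
  obtain ⟨d1, d2, d3, d4⟩ := hAD Y x0 φ a b F P i K h1 θ χ0 O ex h hi hh hθ hU c1 c2 c3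
  have hKN : K.1 ⊆ N := fun z hz => hYN (by
    have := K.subset hz
    rwa [compl_compl] at this)
  refine ⟨?_, ?_, d4⟩
  · have hE := (Uw6_913.picT hi).2.cpt
    have e1 : Bvl_31.BVL (P '' Yᶜ)ᶜ (pu hi fun z => χ0 z * gg x0 (a i) φ h1 θ O z) :=
      Bvl_31.bvl_tt hi d1 (d2 i) fun z hz => Bp_338.pu_apply hi _ hz
    obtain ⟨gT, gB, hg⟩ := Lin_642.exists_ends hE (cF hi K) e1
    refine ⟨gT, gB, ?_⟩
    obtain ⟨O', hO', hL, hON⟩ := Ta_937.exists_nhd_push (Uw6_913.endMap hi) K hN hKN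
    refine Bp_338.ends_congr hE hO' hL (fun ζ hζ hζE => ?_) hg
    obtain ⟨z, hz, rfl⟩ := not_not.1 hζE
    rw [Bp_338.pu_apply hi _ hz, Bp_338.pu_apply hi _ hz, hN1 z (hON z hz hζ), one_mul]
  · have hE := (Uw6_913.picT h).2.cpt
    have e1 : Bvl_31.BVL (F '' Yᶜ)ᶜ (pu h fun z => χ0 z * gg x0 (a i) φ h1 θ O z) :=
      Bvl_31.bvl_tt h d1 d3 fun z hz => Bp_338.pu_apply h _ hz
    obtain ⟨gT, gB, hg⟩ := Lin_642.exists_ends hE (cF h K) e1
    refine ⟨gT, gB, ?_⟩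
    obtain ⟨O', hO', hL, hON⟩ := Ta_937.exists_nhd_push (Uw6_913.endMap h) K hN hKN
    refine Bp_338.ends_congr hE hO' hL (fun ζ hζ hζE => ?_) hg
    obtain ⟨z, hz, rfl⟩ := not_not.1 hζE
    rw [Bp_338.pu_apply h _ hz, Bp_338.pu_apply h _ hz, hN1 z (hON z hz hζ), one_mul]

theorem inv_facts (hi : Pk Y x0 b A P) {ζ : ℂ} (hζ : ζ ∉ (P '' Yᶜ)ᶜ) :
    (Uw6_913.endMap hi).inv ζ ∈ Yᶜ ∧ P ((Uw6_913.endMap hi).inv ζ) = ζ ∧
      x0 ((Uw6_913.endMap hi).inv ζ) + A ((Uw6_913.endMap hi).inv ζ) = ζ.re := by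
  have h1 : ζ ∈ P '' Yᶜ := not_not.1 hζ
  have h2 := (Uw6_913.endMap hi).inv_mem h1
  have h3 := (Uw6_913.endMap hi).inv_right h1
  refine ⟨h2, h3, ?_⟩
  rw [← hi.re _ h2, h3]

open Classical in
/-- the value of an end in the picture of the anchor -/
theorem end_P (h : Pk Y x0 a φ F) (hi : Pk Y x0 b A P) (hh : Stp h1) (hθ : Stp θ) {l : Filter ℝ}
    [l.NeBot] {t xe g : ℝ} (hoff : ∀ᶠ v in l, (⟨t, v⟩ : ℂ) ∉ (P '' Yᶜ)ᶜ)
    (hx : Tendsto (fun v : ℝ => pu hi (fun z => (F z).re) ⟨t, v⟩) l (𝓝 xe))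
    (hg : Tendsto (fun v : ℝ => pu hi (gg x0 A φ h1 θ (O ∩ {z | 0 < h1 (x0 z + A z)})) ⟨t, v⟩) l
      (𝓝 g)) :
    g = if (∀ᶠ v in l, (Uw6_913.endMap hi).inv ⟨t, v⟩ ∈ O) then h1 t * θ xe else 0 := by
  refine Eam_116.lim_ind (p := fun v => (Uw6_913.endMap hi).inv ⟨t, v⟩ ∈ O)
    (m := fun v => h1 t * θ (pu hi (fun z => (F z).re) ⟨t, v⟩))
    (((hθ.smooth.continuous.tendsto _).comp hx).const_mul (h1 t)) hg ?_ ?_
  · filter_upwards [hoff] with v hv hp
    obtain ⟨e1, e2, e3⟩ := inv_facts hi hv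
    show gg x0 A φ h1 θ (O ∩ {z | 0 < h1 (x0 z + A z)}) ((Uw6_913.endMap hi).inv ⟨t, v⟩) =
      h1 t * θ (F ((Uw6_913.endMap hi).inv ⟨t, v⟩)).re
    rw [gg_cut hh, indicator_of_mem hp, e3, h.re _ e1]
  · filter_upwards [hoff] with v hv hp
    show gg x0 A φ h1 θ (O ∩ {z | 0 < h1 (x0 z + A z)}) ((Uw6_913.endMap hi).inv ⟨t, v⟩) = 0
    rw [gg_cut hh, indicator_of_notMem hp]

open Classical in
/-- the value of an end in the final picture -/
theorem end_F (h : Pk Y x0 a φ F) (hi : Pk Y x0 b A P) (hh : Stp h1) {l : Filter ℝ}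
    [l.NeBot] {σ ve k : ℝ} (hoff : ∀ᶠ v in l, (⟨σ, v⟩ : ℂ) ∉ (F '' Yᶜ)ᶜ)
    (hv : Tendsto (fun v : ℝ => pu h (fun z => (P z).re) ⟨σ, v⟩) l (𝓝 ve))
    (hk : Tendsto (fun v : ℝ => pu h (gg x0 A φ h1 θ (O ∩ {z | 0 < h1 (x0 z + A z)})) ⟨σ, v⟩) l
      (𝓝 k)) :
    k = if (∀ᶠ v in l, (Uw6_913.endMap h).inv ⟨σ, v⟩ ∈ O) then h1 ve * θ σ else 0 := by
  refine Eam_116.lim_ind (p := fun v => (Uw6_913.endMap h).inv ⟨σ, v⟩ ∈ O)
    (m := fun v => h1 (pu h (fun z => (P z).re) ⟨σ, v⟩) * θ σ)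
    (((hh.smooth.continuous.tendsto _).comp hv).mul_const (θ σ)) hk ?_ ?_
  · filter_upwards [hoff] with v hv hp
    obtain ⟨e1, e2, e3⟩ := inv_facts h hv
    show gg x0 A φ h1 θ (O ∩ {z | 0 < h1 (x0 z + A z)}) ((Uw6_913.endMap h).inv ⟨σ, v⟩) =
      h1 (P ((Uw6_913.endMap h).inv ⟨σ, v⟩)).re * θ σ
    rw [gg_cut hh, indicator_of_mem hp, e3, hi.re _ e1]
  · filter_upwards [hoff] with v hv hp
    show gg x0 A φ h1 θ (O ∩ {z | 0 < h1 (x0 z + A z)}) ((Uw6_913.endMap h).inv ⟨σ, v⟩) = 0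
    rw [gg_cut hh, indicator_of_notMem hp]

end

end Crest.Agent.R105.Ptw_116
end

-- ▼ part R105/Cnt1_116
section

/-!
# Row 105 (S0138), node E13 (4) of 499 #11166 in the form of 41 #11310 / 948 #11335: counting

Helper116.  For one fixed open set `O` (component of `W`): `a t`, `c t` = germs of the top / bottom end of
the line `t` in `O` (times the value of the `x`-step there), `ya t`, `yc t` = limits of `y` there;
`p`, `q` = averages of the germs of the ends `T`, `B` of the vertical lines of the final picture.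
COUNT and crude E-L for all smooth steps give: for a.e. `t`, if exactly one of the two ends of the
line `t` lies in `O`, then `y` is in `[b, b + s]` there.
-/

set_option autoImplicit false

open MeasureTheory Set Filter Topology Metric
open scoped ContDiff

namespace Crest.Agent.R105.Cnt_116

/-- smooth step from `0` to `1` inside `(t1, t2)` -/
structure Stp (t1 t2 : ℝ) (h : ℝ → ℝ) : Prop where
  sm : ContDiff ℝ ∞ h
  mono : Monotone h
  lo : ∃ t, t1 < t ∧ ∀ v ≤ t, h v = 0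
  hi : ∃ t, t < t2 ∧ ∀ v, t ≤ v → h v = 1

theorem Stp.nonneg {t1 t2 : ℝ} {h : ℝ → ℝ} (H : Stp t1 t2 h) (v : ℝ) : 0 ≤ h v := by
  obtain ⟨t, -, ht⟩ := H.lo
  rcases le_total v t with hv | hv
  · exact (ht v hv).ge
  · rw [← ht t le_rfl]; exact H.mono hv

theorem Stp.le_one {t1 t2 : ℝ} {h : ℝ → ℝ} (H : Stp t1 t2 h) (v : ℝ) : h v ≤ 1 := by
  obtain ⟨t, -, ht⟩ := H.hi
  rcases le_total v t with hv | hv
  · rw [← ht t le_rfl]; exact H.mono hv
  · exact (ht v hv).le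

/-- the standard step around `t` of half width `ε` -/
noncomputable def stp (t ε v : ℝ) : ℝ := Real.smoothTransition ((v - t + ε) / (2 * ε))

theorem stp_contDiff (t ε : ℝ) : ContDiff ℝ ∞ (stp t ε) :=
  Real.smoothTransition.contDiff.comp (by fun_prop)

theorem stp_mono {t ε : ℝ} (hε : 0 < ε) : Monotone (stp t ε) := by
  intro v w hvw
  unfold stp
  apply Real.smoothTransition.monotone
  gcongr

theorem stp_zero {t ε v : ℝ} (hε : 0 < ε) (h : v ≤ t - ε) : stp t ε v = 0 := by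
  unfold stp
  apply Real.smoothTransition.zero_of_nonpos
  exact div_nonpos_of_nonpos_of_nonneg (by linarith) (by positivity)

theorem stp_one {t ε v : ℝ} (hε : 0 < ε) (h : t + ε ≤ v) : stp t ε v = 1 := by
  unfold stp
  apply Real.smoothTransition.one_of_one_le
  rw [le_div_iff₀ (by positivity)]
  linarith

theorem stp_stp {t1 t2 t ε : ℝ} (hε : 0 < ε) (h1 : t1 < t - ε) (h2 : t + ε < t2) :
    Stp t1 t2 (stp t ε) where
  sm := stp_contDiff t ε
  mono := stp_mono hε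
  lo := ⟨t - ε, h1, fun _ hv => stp_zero hε hv⟩
  hi := ⟨t + ε, h2, fun _ hv => stp_one hε hv⟩

/-- a bound of the derivative of the smooth transition -/
theorem exists_bound : ∃ C : ℝ, 0 ≤ C ∧ ∀ x, |deriv Real.smoothTransition x| ≤ C := by
  have hc : Continuous (deriv Real.smoothTransition) :=
    (Real.smoothTransition.contDiff (n := (⊤ : ℕ∞))).continuous_deriv (by simp)
  obtain ⟨C, hC⟩ := (isCompact_Icc (a := (0 : ℝ)) (b := 1)).exists_bound_of_continuousOn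
    hc.continuousOn
  refine ⟨max C 0, le_max_right _ _, fun x => ?_⟩
  by_cases hx : x ∈ Icc (0 : ℝ) 1
  · exact (by simpa [Real.norm_eq_abs] using hC x hx : |deriv Real.smoothTransition x| ≤ C).trans
      (le_max_left _ _)
  · have h0 : deriv Real.smoothTransition x = 0 := by
      rw [mem_Icc, not_and_or, not_le, not_le] at hx
      rcases hx with hx | hx
      · have : Real.smoothTransition =ᶠ[𝓝 x] fun _ => 0 := by
          filter_upwards [Iio_mem_nhds hx] with y hy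
          exact Real.smoothTransition.zero_of_nonpos hy.le
        rw [this.deriv_eq]; simp
      · have : Real.smoothTransition =ᶠ[𝓝 x] fun _ => 1 := by
          filter_upwards [Ioi_mem_nhds hx] with y hy
          exact Real.smoothTransition.one_of_one_le (le_of_lt hy)
        rw [this.deriv_eq]; simp
    rw [h0, abs_zero]
    exact le_max_right _ _

/-- the kernel `(h ^ k)'` -/
noncomputable def ker (k : ℕ) (t ε v : ℝ) : ℝ := deriv (fun v => stp t ε v ^ k) v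

theorem ker_cont (k : ℕ) (t ε : ℝ) : Continuous (ker k t ε) :=
  ((stp_contDiff t ε).pow k).continuous_deriv (by simp)

theorem ker_bound {C : ℝ} (hC : ∀ x, |deriv Real.smoothTransition x| ≤ C) (k : ℕ) {t ε : ℝ}
    (hε : 0 < ε) (v : ℝ) : |ker k t ε v| ≤ k * (C / (2 * ε)) := by
  have hd : DifferentiableAt ℝ (stp t ε) v := (stp_contDiff t ε).differentiable (by simp) v
  have h1 : deriv (stp t ε) v = deriv Real.smoothTransition ((v - t + ε) / (2 * ε)) * (1 / (2 * ε)) := by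
    have h2 : HasDerivAt (fun v : ℝ => (v - t + ε) / (2 * ε)) (1 / (2 * ε)) v := by
      have := (((hasDerivAt_id v).sub_const t).add_const ε).div_const (2 * ε)
      simpa using this
    have h3 : HasDerivAt Real.smoothTransition
        (deriv Real.smoothTransition ((v - t + ε) / (2 * ε))) ((v - t + ε) / (2 * ε)) :=
      ((Real.smoothTransition.contDiff (n := (⊤ : ℕ∞))).differentiable (by simp) _).hasDerivAt
    exact (h3.comp v h2).deriv
  have h4 : ker k t ε v = k * stp t ε v ^ (k - 1) * deriv (stp t ε) v := by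
    unfold ker
    rw [deriv_fun_pow hd]
  have h5 : |stp t ε v| ≤ 1 := by
    rw [abs_le]
    unfold stp
    exact ⟨by linarith [Real.smoothTransition.nonneg ((v - t + ε) / (2 * ε))],
      Real.smoothTransition.le_one _⟩
  rw [h4, h1, abs_mul, abs_mul, abs_mul, abs_pow, Nat.abs_cast]
  have h6 : |stp t ε v| ^ (k - 1) ≤ 1 := pow_le_one₀ (abs_nonneg _) h5
  have h7 : |(1 : ℝ) / (2 * ε)| = 1 / (2 * ε) := abs_of_pos (by positivity)
  rw [h7]
  calc (k : ℝ) * |stp t ε v| ^ (k - 1) * (|deriv Real.smoothTransition ((v - t + ε) / (2 * ε))| * (1 / (2 * ε)))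
      ≤ (k : ℝ) * 1 * (C * (1 / (2 * ε))) := by
        gcongr
        exact hC _
    _ = k * (C / (2 * ε)) := by ring

theorem ker_zero {k : ℕ} {t ε v : ℝ} (hε : 0 < ε) (hv : v ∉ closedBall t ε) : ker k t ε v = 0 := by
  rw [mem_closedBall, Real.dist_eq, not_le, lt_abs] at hv
  unfold ker
  rcases hv with hv | hv
  · have : (fun v => stp t ε v ^ k) =ᶠ[𝓝 v] fun _ => 1 := by
      filter_upwards [Ioi_mem_nhds (show t + ε < v by linarith)] with y hy
      rw [stp_one hε (le_of_lt hy), one_pow]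
    rw [this.deriv_eq]; simp
  · have : (fun v => stp t ε v ^ k) =ᶠ[𝓝 v] fun _ => 0 ^ k := by
      filter_upwards [Iio_mem_nhds (show v < t - ε by linarith)] with y hy
      rw [stp_zero hε (le_of_lt hy)]
    rw [this.deriv_eq]; simp

theorem ker_int {k : ℕ} (hk : k ≠ 0) {t ε : ℝ} (hε : 0 < ε) : ∫ v, ker k t ε v = 1 := by
  have h1 : ∫ v, ker k t ε v = ∫ v in (t - ε)..(t + ε), ker k t ε v := by
    rw [intervalIntegral.integral_of_le (by linarith), ← integral_Icc_eq_integral_Ioc]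
    symm
    apply setIntegral_eq_integral_of_forall_compl_eq_zero
    intro v hv
    refine ker_zero hε fun h => hv ?_
    rw [Real.closedBall_eq_Icc] at h
    exact h
  rw [h1]
  unfold ker
  rw [intervalIntegral.integral_deriv_eq_sub]
  · rw [stp_one hε le_rfl, stp_zero hε le_rfl, one_pow, zero_pow hk, sub_zero]
  · intro x _
    exact ((stp_contDiff t ε).pow k).differentiable (by simp) x
  · exact (ker_cont k t ε).intervalIntegrable _ _

/-- **approximate identity** -/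
theorem ker_tendsto {k : ℕ} (hk : k ≠ 0) {f : ℝ → ℝ} (hf : Integrable f) :
    ∀ᵐ t : ℝ, ∀ ε : ℕ → ℝ, (∀ n, 0 < ε n) → Tendsto ε atTop (𝓝 0) →
      Tendsto (fun n => ∫ v, ker k t (ε n) v * f v) atTop (𝓝 (f t)) := by
  obtain ⟨C, hC0, hC⟩ := exists_bound
  have h0 := IsUnifLocDoublingMeasure.ae_tendsto_average_norm_sub (μ := (volume : Measure ℝ))
    hf.locallyIntegrable 1
  filter_upwards [h0] with t ht ε hε hlim
  have hlim' : Tendsto ε atTop (𝓝[>] 0) :=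
    tendsto_nhdsWithin_iff.2 ⟨hlim, Eventually.of_forall hε⟩
  have h1 := ht (fun _ : ℕ => t) ε hlim' (Eventually.of_forall fun n =>
    mem_closedBall_self (by have := hε n; positivity))
  rw [tendsto_iff_norm_sub_tendsto_zero]
  have h2 : Tendsto (fun n => (k * C) * ⨍ y in closedBall t (ε n), ‖f y - f t‖) atTop (𝓝 0) := by
    have := h1.const_mul ((k : ℝ) * C)
    rwa [mul_zero] at this
  refine squeeze_zero (fun _ => norm_nonneg _) (fun n => ?_) h2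
  have hεn := hε n
  have hki : Integrable fun v => ker k t (ε n) v * f v := by
    refine hf.bdd_mul (c := k * (C / (2 * ε n))) (ker_cont k t (ε n)).aestronglyMeasurable ?_
    exact ae_of_all _ fun v => ker_bound hC k hεn v
  have hk2 : Integrable fun v => ker k t (ε n) v * f t := by
    refine Integrable.mul_const ?_ _
    refine (ker_cont k t (ε n)).integrable_of_hasCompactSupport ?_
    refine HasCompactSupport.intro (isCompact_closedBall t (ε n)) fun v hv => ker_zero hεn hv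
  have e1 : (∫ v, ker k t (ε n) v * f v) - f t = ∫ v, ker k t (ε n) v * (f v - f t) := by
    have : f t = ∫ v, ker k t (ε n) v * f t := by
      rw [integral_mul_const, ker_int hk hεn, one_mul]
    conv_lhs => rw [this]
    rw [← integral_sub hki hk2]
    exact integral_congr_ae (ae_of_all _ fun v => by ring)
  have e2 : ∫ v, ker k t (ε n) v * (f v - f t) =
      ∫ v in closedBall t (ε n), ker k t (ε n) v * (f v - f t) := by
    symm
    apply setIntegral_eq_integral_of_forall_compl_eq_zero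
    intro v hv
    rw [ker_zero hεn hv, zero_mul]
  rw [e1, e2]
  have hfi : IntegrableOn (fun v => ‖f v - f t‖) (closedBall t (ε n)) :=
    (hf.integrableOn.sub (integrableOn_const (measure_closedBall_lt_top.ne))).norm
  calc ‖∫ v in closedBall t (ε n), ker k t (ε n) v * (f v - f t)‖
      ≤ ∫ v in closedBall t (ε n), ‖ker k t (ε n) v * (f v - f t)‖ := norm_integral_le_integral_norm _
    _ ≤ ∫ v in closedBall t (ε n), (k * (C / (2 * ε n))) * ‖f v - f t‖ := by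
        refine integral_mono_of_nonneg (ae_of_all _ fun _ => norm_nonneg _) (hfi.const_mul _)
          (ae_of_all _ fun v => ?_)
        simp only
        rw [norm_mul]
        exact mul_le_mul_of_nonneg_right (ker_bound hC k hεn v) (norm_nonneg _)
    _ = (k * C) * ⨍ y in closedBall t (ε n), ‖f y - f t‖ := by
        rw [integral_const_mul, setAverage_eq, measureReal_def, Real.volume_closedBall,
          ENNReal.toReal_ofReal (by positivity), smul_eq_mul]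
        field_simp


section

variable {a c ya yc : ℝ → ℝ} {b s t1 t2 : ℝ}

/-- the kernel integral of a function integrable on `(t1, t2)` only -/
theorem int_ind {k : ℕ} {t ε : ℝ} (hε : 0 < ε) (h1 : t1 < t - ε) (h2 : t + ε < t2) (f : ℝ → ℝ) :
    ∫ v, ker k t ε v * f v = ∫ v, ker k t ε v * (Ioo t1 t2).indicator f v := by
  refine integral_congr_ae (ae_of_all _ fun v => ?_)
  by_cases hv : v ∈ Ioo t1 t2
  · simp only [indicator_of_mem hv]
  · have : ker k t ε v = 0 := by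
      refine ker_zero hε fun h => hv ?_
      rw [Real.closedBall_eq_Icc] at h
      exact ⟨by linarith [h.1], by linarith [h.2]⟩
    simp only [this, zero_mul]




end

end Crest.Agent.R105.Cnt_116
end

-- ▼ part R105/Cnt2_116
section

/-!
# Row 105 (S0138), node E13, PTW of 499 #11465 from BAL (1-D Lebesgue points + compactness)

Helper116.  `lp_core`: a closed condition on `(∫ (h^k)' f, ∫ (h^k)' g)` for all steps `h` passes to
`(f t, g t)` for almost every `t`.  `ptw` / `ptw_dn`: the literal of 499 for steps up / down in `u`.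
`ptw_top`, `ptw_bot`: the arithmetic of the ends.
-/

set_option autoImplicit false

open MeasureTheory Set Filter Topology Metric
open scoped ContDiff

namespace Crest.Agent.R105.Cnt_116

variable {t1 t2 : ℝ}

/-- the abstract form -/
theorem lp_core {k : ℕ} (hk : k ≠ 0) {f g : ℝ → ℝ} (hf : IntegrableOn f (Ioo t1 t2))
    (hg : IntegrableOn g (Ioo t1 t2)) {S : Set (ℝ × ℝ)} (hS : IsClosed S)
    (hE : ∀ h, Stp t1 t2 h →
      ((∫ t, deriv (fun v => h v ^ k) t * f t), (∫ t, deriv (fun v => h v ^ k) t * g t)) ∈ S) :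
    ∀ᵐ t : ℝ, t ∈ Ioo t1 t2 → (f t, g t) ∈ S := by
  have hf' := (integrable_indicator_iff measurableSet_Ioo).2 hf
  have hg' := (integrable_indicator_iff measurableSet_Ioo).2 hg
  filter_upwards [ker_tendsto hk hf', ker_tendsto hk hg'] with t h1 h2 ht
  obtain ⟨ρ, hρ, hρ1, hρ2⟩ : ∃ ρ : ℝ, 0 < ρ ∧ t1 < t - ρ ∧ t + ρ < t2 := by
    refine ⟨min (t - t1) (t2 - t) / 2, ?_, ?_, ?_⟩
    · have := lt_min (sub_pos.2 ht.1) (sub_pos.2 ht.2); positivity
    · have := min_le_left (t - t1) (t2 - t)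
      have h3 := lt_min (sub_pos.2 ht.1) (sub_pos.2 ht.2)
      linarith [sub_pos.2 ht.1]
    · have := min_le_right (t - t1) (t2 - t)
      linarith [sub_pos.2 ht.2]
  set ε : ℕ → ℝ := fun n => ρ / (n + 1) with hεdef
  have hε : ∀ n, 0 < ε n := fun n => by rw [hεdef]; positivity
  have hερ : ∀ n, ε n ≤ ρ := fun n => by
    rw [hεdef]
    exact div_le_self hρ.le (by linarith [(Nat.cast_nonneg n : (0 : ℝ) ≤ n)])
  have hlim : Tendsto ε atTop (𝓝 0) := by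
    have := tendsto_one_div_add_atTop_nhds_zero_nat.const_mul ρ
    rw [mul_zero] at this
    refine this.congr fun n => ?_
    rw [hεdef]; ring
  have h3 := h1 ε hε hlim
  have h4 := h2 ε hε hlim
  rw [indicator_of_mem ht] at h3 h4
  have ha1 : ∀ n, t1 < t - ε n := fun n => by linarith [hερ n]
  have ha2 : ∀ n, t + ε n < t2 := fun n => by linarith [hερ n]
  have h5 : Tendsto (fun n => ∫ v, ker k t (ε n) v * f v) atTop (𝓝 (f t)) :=
    h3.congr fun n => by rw [← int_ind (hε n) (ha1 n) (ha2 n)]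
  have h6 : Tendsto (fun n => ∫ v, ker k t (ε n) v * g v) atTop (𝓝 (g t)) :=
    h4.congr fun n => by rw [← int_ind (hε n) (ha1 n) (ha2 n)]
  exact hS.mem_of_tendsto (h5.prodMk_nhds h6)
    (Eventually.of_forall fun n => hE (stp t (ε n)) (stp_stp (hε n) (ha1 n) (ha2 n)))

/-- smooth step from `1` down to `0` inside `(t1, t2)` -/
structure StpD (t1 t2 : ℝ) (H : ℝ → ℝ) : Prop where
  sm : ContDiff ℝ ∞ H
  anti : Antitone H
  lo : ∃ t, t1 < t ∧ ∀ v ≤ t, H v = 1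
  hi : ∃ t, t < t2 ∧ ∀ v, t ≤ v → H v = 0

theorem Stp.dn {h : ℝ → ℝ} (H : Stp (-t2) (-t1) h) : StpD t1 t2 (fun v => h (-v)) where
  sm := H.sm.comp contDiff_neg
  anti := fun _ _ hvw => H.mono (neg_le_neg hvw)
  lo := by
    obtain ⟨t, ht, h1⟩ := H.hi
    exact ⟨-t, by linarith, fun v hv => h1 _ (by linarith)⟩
  hi := by
    obtain ⟨t, ht, h1⟩ := H.lo
    exact ⟨-t, by linarith, fun v hv => h1 _ (by linarith)⟩

/-- the abstract form for steps down: `-(H^k)'` is the approximate identity -/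
theorem lp_core_dn {k : ℕ} (hk : k ≠ 0) {f g : ℝ → ℝ} (hf : IntegrableOn f (Ioo t1 t2))
    (hg : IntegrableOn g (Ioo t1 t2)) {S : Set (ℝ × ℝ)} (hS : IsClosed S)
    (hE : ∀ H, StpD t1 t2 H →
      (-(∫ t, deriv (fun v => H v ^ k) t * f t), -(∫ t, deriv (fun v => H v ^ k) t * g t)) ∈ S) :
    ∀ᵐ t : ℝ, t ∈ Ioo t1 t2 → (f t, g t) ∈ S := by
  have hneg : ∀ {F : ℝ → ℝ}, IntegrableOn F (Ioo t1 t2) →
      IntegrableOn (fun t => F (-t)) (Ioo (-t2) (-t1)) := by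
    intro F hF
    have h1 := (integrable_indicator_iff measurableSet_Ioo).2 hF
    have h2 := h1.comp_neg
    refine (integrable_indicator_iff measurableSet_Ioo).1 (h2.congr (ae_of_all _ fun v => ?_))
    simp only [indicator_apply, mem_Ioo]
    have : (t1 < -v ∧ -v < t2) ↔ (-t2 < v ∧ v < -t1) :=
      ⟨fun h => ⟨by linarith [h.2], by linarith [h.1]⟩, fun h => ⟨by linarith [h.2], by linarith [h.1]⟩⟩
    simp only [this]
  have hint : ∀ (F h : ℝ → ℝ), ∫ t, deriv (fun v => h v ^ k) t * F (-t) =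
      -∫ t, deriv (fun v => h (-v) ^ k) t * F t := by
    intro F h
    rw [← integral_neg, ← integral_neg_eq_self (fun t => deriv (fun v => h v ^ k) t * F (-t))]
    refine integral_congr_ae (ae_of_all _ fun t => ?_)
    have := deriv_comp_neg (fun v => h v ^ k) t
    simp only [neg_neg] at this ⊢
    rw [this]
    ring
  have h := lp_core (t1 := -t2) (t2 := -t1) hk (hneg hf) (hneg hg) hS (fun h hh => by
    rw [hint f h, hint g h]
    exact hE _ hh.dn)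
  have h' : ∀ᵐ t : ℝ, -t ∈ Ioo (-t2) (-t1) → (f (- -t), g (- -t)) ∈ S := by
    have := (Measure.measurePreserving_neg (volume : Measure ℝ)).quasiMeasurePreserving.ae h
    exact this
  filter_upwards [h'] with t ht h1
  rw [neg_neg] at ht
  exact ht ⟨by linarith [h1.2], by linarith [h1.1]⟩

/-- the closed set of the balance -/
def BS (e b s : ℝ) : Set (ℝ × ℝ) :=
  {w | ∃ lT ∈ Icc (0 : ℝ) 1, ∃ lB ∈ Icc (0 : ℝ) 1,
    e * w.1 + lT - lB = 0 ∧ e * w.2 + lT * (b + s) - lB * b ∈ Icc 0 s}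

theorem isClosed_BS (e b s : ℝ) : IsClosed (BS e b s) := by
  have h1 : IsClosed {w : (Icc (0 : ℝ) 1 × Icc (0 : ℝ) 1) × (ℝ × ℝ) |
      e * w.2.1 + (w.1.1 : ℝ) - (w.1.2 : ℝ) = 0 ∧
      e * w.2.2 + (w.1.1 : ℝ) * (b + s) - (w.1.2 : ℝ) * b ∈ Icc 0 s} := by
    refine IsClosed.inter (isClosed_eq (by fun_prop) continuous_const) ?_
    exact isClosed_Icc.preimage (by fun_prop)
  have h2 := isClosedMap_snd_of_compactSpace _ h1
  convert h2 using 1
  ext w
  simp only [BS, mem_ofPred_eq, mem_image, Prod.exists, Subtype.exists, exists_prop]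
  constructor
  · rintro ⟨lT, h1, lB, h2, h3, h4⟩
    exact ⟨lT, h1, lB, h2, w.1, w.2, ⟨h3, h4⟩, rfl⟩
  · rintro ⟨lT, h1, lB, h2, u, v, ⟨h3, h4⟩, rfl⟩
    exact ⟨lT, h1, lB, h2, h3, h4⟩

section

variable {k : ℕ} {e b s : ℝ} {nT nB yT yB : ℝ → ℝ}

/-- **PTW from BAL, steps up** -/
theorem ptw (hk : k ≠ 0) (hf : IntegrableOn (fun t => nT t - nB t) (Ioo t1 t2))
    (hg : IntegrableOn (fun t => nT t * yT t - nB t * yB t) (Ioo t1 t2))
    (hE : ∀ h, Stp t1 t2 h → ∃ lT ∈ Icc (0 : ℝ) 1, ∃ lB ∈ Icc (0 : ℝ) 1,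
      e * (∫ t, deriv (fun v => h v ^ k) t * (nT t - nB t)) + lT - lB = 0 ∧
      e * (∫ t, deriv (fun v => h v ^ k) t * (nT t * yT t - nB t * yB t)) + lT * (b + s) - lB * b
        ∈ Icc 0 s) :
    ∀ᵐ t : ℝ, t ∈ Ioo t1 t2 → ∃ lT ∈ Icc (0 : ℝ) 1, ∃ lB ∈ Icc (0 : ℝ) 1,
      e * (nT t - nB t) + lT - lB = 0 ∧
      e * (nT t * yT t - nB t * yB t) + lT * (b + s) - lB * b ∈ Icc 0 s :=
  lp_core hk hf hg (isClosed_BS e b s) hE

/-- **PTW from BAL, steps down** (`-(H^k)'` is the approximate identity) -/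
theorem ptw_dn (hk : k ≠ 0) (hf : IntegrableOn (fun t => nT t - nB t) (Ioo t1 t2))
    (hg : IntegrableOn (fun t => nT t * yT t - nB t * yB t) (Ioo t1 t2))
    (hE : ∀ H, StpD t1 t2 H → ∃ lT ∈ Icc (0 : ℝ) 1, ∃ lB ∈ Icc (0 : ℝ) 1,
      e * (-∫ t, deriv (fun v => H v ^ k) t * (nT t - nB t)) + lT - lB = 0 ∧
      e * (-∫ t, deriv (fun v => H v ^ k) t * (nT t * yT t - nB t * yB t)) + lT * (b + s) - lB * b
        ∈ Icc 0 s) :
    ∀ᵐ t : ℝ, t ∈ Ioo t1 t2 → ∃ lT ∈ Icc (0 : ℝ) 1, ∃ lB ∈ Icc (0 : ℝ) 1,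
      e * (nT t - nB t) + lT - lB = 0 ∧
      e * (nT t * yT t - nB t * yB t) + lT * (b + s) - lB * b ∈ Icc 0 s :=
  lp_core_dn hk hf hg (isClosed_BS e b s) hE

end



end Crest.Agent.R105.Cnt_116
end

-- ▼ part R105/Lnk3_632
section

/-!
# Row 105, S0138, node E13: from `ATNE` (letters of E13_499) to `SolEnds` (403) (helper632)

* `lo_sqK`, `hi_sqK`  : the projection of a square solid
* `tendsto_end`       : the end filters on the lines of one picture go to the component in the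
  other picture
* `exists_ed`         : the end functions `Ed` exist (from `ENDS`, `BVN`, `BVY`)
* `solEnds_of`        : `ENDS → BVN → BVY → ATNE → SolEnds`
-/

set_option autoImplicit false

open MeasureTheory Set Filter Topology Metric
open scoped NNReal ENNReal

namespace Crest.Agent.R105.Lnk3_632

open Crest.AnalysisR Tc_808 Ends_897
open Sqr_185 (sec SqK mem_sec)
open Cq_463 (Sqr)
open Pct_185 (PicT)
open Ta_937 (sqs corE)
open SkA_8 (Pk)
open Pj_403 (EndTop EndBot SolEnds)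
open E13_499

noncomputable section

variable {Y : Set ℂ} {x0 φ : ℂ → ℝ} {a b : ℕ → ℂ → ℝ} {F P : ℂ → ℂ} {i : ℕ}

/-! ### squares -/




/-! ### the end filters -/

theorem topF_le {E L : Set ℂ} {t : ℝ} : TopF E L t ≤ 𝓝 (sSup (sec L t)) := inf_le_left

theorem botF_le {E L : Set ℂ} {t : ℝ} : BotF E L t ≤ 𝓝 (sInf (sec L t)) := inf_le_left

theorem topF_off {E L : Set ℂ} {t : ℝ} : ∀ᶠ v in TopF E L t, (⟨t, v⟩ : ℂ) ∉ E := by
  filter_upwards [self_mem_nhdsWithin] with v hv using hv.1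

theorem botF_off {E L : Set ℂ} {t : ℝ} : ∀ᶠ v in BotF E L t, (⟨t, v⟩ : ℂ) ∉ E := by
  filter_upwards [self_mem_nhdsWithin] with v hv using hv.1

/-- a filter on the line `re = t` at a point of `L`, off `E`, goes to the end `L` -/
theorem tendsto_line {E L : Set ℂ} {t v0 : ℝ} {l : Filter ℝ} (hl : l ≤ 𝓝 v0)
    (h0 : v0 ∈ sec L t) (hoff : ∀ᶠ v in l, (⟨t, v⟩ : ℂ) ∉ E) :
    Tendsto (fun v : ℝ => (⟨t, v⟩ : ℂ)) l (eK E L) := by
  unfold eK
  refine tendsto_inf.2 ⟨?_, ?_⟩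
  · have h1 : Tendsto (fun v : ℝ => (⟨t, v⟩ : ℂ)) l (𝓝 ⟨t, v0⟩) := by
      have hc : Continuous fun v : ℝ => (⟨t, v⟩ : ℂ) :=
        Sqr_185.continuous_mk.comp (continuous_const.prodMk continuous_id)
      exact (hc.tendsto v0).mono_left hl
    exact h1.mono_right (nhds_le_nhdsSet h0)
  · rw [tendsto_principal]
    exact hoff

/-- the end filters of the `P`-picture go to the component of the `F`-picture -/
theorem tendsto_end (h : Pk Y x0 a φ F) (hi : Pk Y x0 b (a i) P) (K : Cmp Yᶜᶜ) {t v0 : ℝ}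
    {l : Filter ℝ} (hl : l ≤ 𝓝 v0) (h0 : v0 ∈ sec (cF hi K).1 t)
    (hoff : ∀ᶠ v in l, (⟨t, v⟩ : ℂ) ∉ (P '' Yᶜ)ᶜ) :
    Tendsto (fun v : ℝ => F ((Uw6_913.endMap hi).inv ⟨t, v⟩)) l
      (eK (F '' Yᶜ)ᶜ (cF h K).1) := by
  have h1 := tendsto_line hl h0 hoff
  have h2 := Ta_937.tendsto_inv (Uw6_913.endMap hi) K
  have h3 := Ta_937.tendsto_corE (Uw6_913.endMap h) K
  exact h3.comp (h2.comp h1)



/-! ### the end functions exist -/




/-! ### the join -/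




end

end Crest.Agent.R105.Lnk3_632
end

-- ▼ part R105/Ptw2_116
section

/-!
# Row 105 (S0138), node E13, JOB 2 (helper116): `PTW` from `BAL`, part 2

* `lam` : the averages of the final picture lie in `[0, 1]`
* `bal_core` : `BAL` for one step `h1` in the form of `ptw`
* `ptw_of_bal : BAL → ADMG → PTW`
-/

set_option autoImplicit false

open MeasureTheory Set Filter Topology Metric
open scoped NNReal ENNReal ContDiff

namespace Crest.Agent.R105.Ptw_116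

open Crest.AnalysisR Tc_808 Ends_897 Bd_775
open Ni_459 (NI)
open Sqr_185 (sec SqK)
open Pct_185 (PicT)
open SkA_8 (Pk)
open E13_499

noncomputable section

variable {Y : Set ℂ} {x0 φ A : ℂ → ℝ} {a b : ℕ → ℂ → ℝ} {F P : ℂ → ℂ} {i : ℕ} {K : Cmp Yᶜᶜ}
  {h1 θ : ℝ → ℝ} {O : Set ℂ} {ex eu t0 be s : ℝ} {xT xB yT yB vT vB gT gB kT kB : ℝ → ℝ}

/-- the averages -/
theorem lam {l h : ℝ} (hθ : Rmp θ l h ex) (hlh : l ≤ h) {κ : ℝ → ℝ}
    (hκm : AEMeasurable κ (volume.restrict (Ioo l h)))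
    (hκ : ∀ᵐ σ : ℝ, σ ∈ Ioo l h → 0 ≤ κ σ ∧ κ σ ≤ θ σ) :
    IntegrableOn (fun σ => 2 * deriv θ σ * κ σ) (Icc l h) ∧
      ex * ∫ σ in Icc l h, 2 * deriv θ σ * κ σ ∈ Icc (0 : ℝ) 1 := by
  have hd : Continuous (deriv θ) := hθ.st.smooth.continuous_deriv (by simp)
  obtain ⟨C, hC⟩ := hd.bounded_above_of_compact_support hθ.st.supp
  have hκ' : ∀ᵐ σ ∂(volume.restrict (Ioo l h)), 0 ≤ κ σ ∧ κ σ ≤ θ σ :=
    (ae_restrict_iff' measurableSet_Ioo).2 hκ
  have hI : IntegrableOn (fun σ => 2 * deriv θ σ * κ σ) (Ioo l h) := by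
    refine Integrable.mono' (g := fun _ => 2 * C) (integrableOn_const measure_Ioo_lt_top.ne)
      (((continuous_const.mul hd).aestronglyMeasurable).mul hκm.aestronglyMeasurable) ?_
    filter_upwards [hκ'] with σ hσ
    have h2 := hC σ
    rw [norm_mul, norm_mul, Real.norm_eq_abs 2, abs_two]
    have h3 : ‖κ σ‖ ≤ 1 := by
      rw [Real.norm_eq_abs, abs_of_nonneg hσ.1]
      exact hσ.2.trans (hθ.st.rg σ).2
    have h4 : 0 ≤ ‖deriv θ σ‖ := norm_nonneg _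
    calc 2 * ‖deriv θ σ‖ * ‖κ σ‖ ≤ 2 * ‖deriv θ σ‖ * 1 :=
          mul_le_mul_of_nonneg_left h3 (by positivity)
      _ ≤ 2 * C := by linarith
  refine ⟨(integrableOn_Icc_iff_integrableOn_Ioo).2 hI, ?_⟩
  rw [integral_Icc_eq_integral_Ioo, ← integral_const_mul]
  have hθc : Continuous θ := hθ.st.smooth.continuous
  have hfull : ∫ σ in Ioo l h, ex * (2 * deriv θ σ * θ σ) = 1 := by
    rw [integral_const_mul, ← integral_Ioc_eq_integral_Ioo, ← intervalIntegral.integral_of_le hlh]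
    have h5 : ∀ σ ∈ uIcc l h, HasDerivAt (fun σ => θ σ ^ 2) (2 * deriv θ σ * θ σ) σ := by
      intro σ _
      have h6 : HasDerivAt θ (deriv θ σ) σ :=
        (hθ.st.smooth.differentiable (by simp) σ).hasDerivAt
      have h7 : HasDerivAt (fun σ => θ σ ^ 2) (2 * θ σ * deriv θ σ) σ := by
        simpa using h6.fun_pow 2
      convert h7 using 1
      ring
    rw [intervalIntegral.integral_eq_sub_of_hasDerivAt h5
      (((continuous_const.mul hd).mul hθc).intervalIntegrable _ _)]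
    rcases hθ.sg with ⟨e1, e2, e3⟩ | ⟨e1, e2, e3⟩
    · rw [e1, e2, e3]; norm_num
    · rw [e1, e2, e3]; norm_num
  constructor
  · refine setIntegral_nonneg_of_ae_restrict ?_
    filter_upwards [hκ'] with σ hσ
    have h5 := mul_nonneg (hθ.mono σ) hσ.1
    show (0 : ℝ) ≤ ex * (2 * deriv θ σ * κ σ)
    nlinarith
  · rw [← hfull]
    refine integral_mono_ae (hI.const_mul ex) ?_ ?_
    · refine IntegrableOn.mono_set (t := Icc l h) ?_ Ioo_subset_Icc_self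
      exact (continuous_const.mul ((continuous_const.mul hd).mul hθc)).continuousOn.integrableOn_Icc
    · filter_upwards [hκ'] with σ hσ
      have h5 := mul_le_mul_of_nonneg_left hσ.2 (hθ.mono σ)
      show ex * (2 * deriv θ σ * κ σ) ≤ ex * (2 * deriv θ σ * θ σ)
      nlinarith

theorem pu_cont (h : Pk Y x0 a φ F) {f : ℂ → ℝ} (hf : ContinuousOn f Yᶜ) :
    ContinuousOn (pu h f) ((F '' Yᶜ)ᶜ)ᶜ := by
  rw [compl_compl]
  exact hf.comp (Uw6_913.endMap h).symm.cont fun w hw => (Uw6_913.endMap h).inv_mem hw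

open Classical in
/-- the weight of the upper end -/
def nT (hi : Pk Y x0 b (a i) P) (K : Cmp Yᶜᶜ) (O : Set ℂ) (θ xT : ℝ → ℝ) (t : ℝ) : ℝ :=
  if InT hi K O t then θ (xT t) ^ 2 else 0

open Classical in
/-- the weight of the lower end -/
def nB (hi : Pk Y x0 b (a i) P) (K : Cmp Yᶜᶜ) (O : Set ℂ) (θ xB : ℝ → ℝ) (t : ℝ) : ℝ :=
  if InB hi K O t then θ (xB t) ^ 2 else 0

/-- values of the ends of the test function, anchor picture -/
theorem g_val (h : Pk Y x0 a φ F) (hi : Pk Y x0 b (a i) P) (hh : Stp h1) (hθ : Stp θ)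
    (hx : EndsOf (P '' Yᶜ)ᶜ (cF hi K) (pu hi fun z => (F z).re) xT xB)
    (hg : EndsOf (P '' Yᶜ)ᶜ (cF hi K)
      (pu hi (gg x0 (a i) φ h1 θ (O ∩ {z | 0 < h1 (x0 z + a i z)}))) gT gB) :
    ∀ᵐ t : ℝ, t ∈ Ioo (Sqr_185.lo (cF hi K).1) (Sqr_185.hi (cF hi K).1) →
      gT t * θ (xT t) = h1 t * nT hi K O θ xT t ∧ gB t * θ (xB t) = h1 t * nB hi K O θ xB t := by
  have hE := (Uw6_913.picT hi).2.cpt
  filter_upwards [hx, hg] with t h2 h3 ht
  obtain ⟨n1, n2⟩ := Lin_642.nebot hE (cF hi K) (Ioo_subset_Icc_self ht)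
  have e1 := end_P h hi hh hθ Lnk3_632.topF_off (h2 ht).1 (h3 ht).1
  have e2 := end_P h hi hh hθ Lnk3_632.botF_off (h2 ht).2 (h3 ht).2
  unfold nT nB InT InB
  rw [e1, e2]
  constructor
  · split_ifs <;> ring
  · split_ifs <;> ring

/-- values of the ends of the test function, final picture -/
theorem k_val (h : Pk Y x0 a φ F) (hi : Pk Y x0 b (a i) P) (hh : Stp h1) (hθ : Stp θ)
    (hv : EndsOf (F '' Yᶜ)ᶜ (cF h K) (pu h fun z => (P z).re) vT vB)
    (hk : EndsOf (F '' Yᶜ)ᶜ (cF h K)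
      (pu h (gg x0 (a i) φ h1 θ (O ∩ {z | 0 < h1 (x0 z + a i z)}))) kT kB) :
    ∀ᵐ σ : ℝ, σ ∈ Ioo (Sqr_185.lo (cF h K).1) (Sqr_185.hi (cF h K).1) →
      (0 ≤ kT σ * h1 (vT σ) ∧ kT σ * h1 (vT σ) ≤ θ σ) ∧
      (0 ≤ kB σ * h1 (vB σ) ∧ kB σ * h1 (vB σ) ≤ θ σ) := by
  have hE := (Uw6_913.picT h).2.cpt
  filter_upwards [hv, hk] with σ h2 h3 ht
  obtain ⟨n1, n2⟩ := Lin_642.nebot hE (cF h K) (Ioo_subset_Icc_self ht)
  have e1 := end_F h hi hh Lnk3_632.topF_off (h2 ht).1 (h3 ht).1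
  have e2 := end_F h hi hh Lnk3_632.botF_off (h2 ht).2 (h3 ht).2
  have h4 := hθ.rg σ
  have key : ∀ v : ℝ, 0 ≤ h1 v * θ σ * h1 v ∧ h1 v * θ σ * h1 v ≤ θ σ := fun v => by
    have h5 := hh.rg v
    constructor
    · exact mul_nonneg (mul_nonneg h5.1 h4.1) h5.1
    · have h6 : h1 v * h1 v ≤ 1 := by nlinarith
      nlinarith
  rw [e1, e2]
  constructor
  · split_ifs
    · exact key _
    · rw [zero_mul]; exact ⟨le_rfl, h4.1⟩
  · split_ifs
    · exact key _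
    · rw [zero_mul]; exact ⟨le_rfl, h4.1⟩

/-- the `P`-part of the balance -/
theorem p_part {lP hP : ℝ} (hh : Stp h1) (hsup : ∀ v, deriv h1 v ≠ 0 → v ∈ Icc lP hP)
    {xT xB gT gB nT nB : ℝ → ℝ} (hg : ∀ᵐ t : ℝ, t ∈ Ioo lP hP →
      gT t * θ (xT t) = h1 t * nT t ∧ gB t * θ (xB t) = h1 t * nB t) (Y1 Y2 : ℝ → ℝ) :
    ∫ t in Icc lP hP, 2 * deriv h1 t * (gB t * θ (xB t) * Y2 t - gT t * θ (xT t) * Y1 t) =
      -∫ t, deriv (fun v => h1 v ^ 2) t * (nT t * Y1 t - nB t * Y2 t) := by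
  have hd : ∀ t, deriv (fun v => h1 v ^ 2) t = 2 * h1 t * deriv h1 t := by
    intro t
    have h6 : HasDerivAt h1 (deriv h1 t) t := (hh.smooth.differentiable (by simp) t).hasDerivAt
    have h7 : HasDerivAt (fun v => h1 v ^ 2) (2 * h1 t * deriv h1 t) t := by
      simpa using h6.fun_pow 2
    exact h7.deriv
  have e : ∫ t in Icc lP hP, -(deriv (fun v => h1 v ^ 2) t * (nT t * Y1 t - nB t * Y2 t)) =
      ∫ t, -(deriv (fun v => h1 v ^ 2) t * (nT t * Y1 t - nB t * Y2 t)) := by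
    refine setIntegral_eq_integral_of_forall_compl_eq_zero fun t ht => ?_
    have : deriv h1 t = 0 := by
      by_contra hne
      exact ht (hsup t hne)
    rw [hd, this]; ring
  rw [← integral_neg, ← e, integral_Icc_eq_integral_Ioo, integral_Icc_eq_integral_Ioo]
  refine setIntegral_congr_ae measurableSet_Ioo ?_
  filter_upwards [hg] with t ht hI
  obtain ⟨e1, e2⟩ := ht hI
  rw [e1, e2, hd]
  ring

theorem bal_core (hB : BAL) (hAD : ADMG) (h : Pk Y x0 a φ F) (hi : Pk Y x0 b (a i) P)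
    (K : Cmp Yᶜᶜ) (hs : 0 < s) (hSq : SqK (cF h K).1 (Sqr_185.lo (cF h K).1) be s)
    (hsw : s = Sqr_185.wd (cF h K).1) (hEd : Ed h hi K xT xB yT yB vT vB)
    (hθ : Rmp θ (Sqr_185.lo (cF h K).1) (Sqr_185.hi (cF h K).1) ex)
    (hU : Uc Y K.1 (fun z => min (eu * (x0 z + a i z - t0)) (θ (x0 z + φ z))) O) (hh : Stp h1)
    {δ : ℝ} (hδ : 0 < δ) (hsu : ∀ v, h1 v ≠ 0 → δ ≤ eu * (v - t0))
    (hsup : ∀ v, deriv h1 v ≠ 0 →
      v ∈ Icc (Sqr_185.lo (cF hi K).1) (Sqr_185.hi (cF hi K).1)) :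
    ∃ lT ∈ Icc (0 : ℝ) 1, ∃ lB ∈ Icc (0 : ℝ) 1,
      ex * (∫ t, deriv (fun v => h1 v ^ 2) t * (nT hi K O θ xT t - nB hi K O θ xB t)) + lT - lB = 0 ∧
      ex * (∫ t, deriv (fun v => h1 v ^ 2) t *
        (nT hi K O θ xT t * yT t - nB hi K O θ xB t * yB t)) + lT * (be + s) - lB * be
        ∈ Icc 0 s := by
  have hA : ContinuousOn (fun z => x0 z + a i z) Yᶜ := by
    refine ((Complex.continuous_re.comp_continuousOn hi.hol.continuousOn)).congr fun z hz => ?_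
    exact (hi.re z hz).symm
  have hU' := uc_mm hA hU hh hθ.st hδ hsu
  obtain ⟨⟨gT, gB, hg⟩, ⟨kT, kB, hk⟩, hll⟩ := exists_ends_gg hAD h hi K hh hθ hU'
  obtain ⟨e1, e2, e3⟩ := hB Y x0 φ a b F P i K h1 θ _ h hi be s ex xT xB yT yB vT vB gT gB kT kB
    hh hθ hU' hs hSq hsw hEd hg hk
  have hgv := g_val h hi hh hθ.st hEd.x hg
  have hkv := k_val h hi hh hθ.st hEd.v hk
  have hEF := (Uw6_913.picT h).2.cpt
  have hnF := fun t (ht : t ∈ Ioo (Sqr_185.lo (cF h K).1) (Sqr_185.hi (cF h K).1)) =>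
    Lin_642.nebot hEF (cF h K) (Ioo_subset_Icc_self ht)
  obtain ⟨m1, m2⟩ := Eam_116.ends_aem hEF (cF h K) hnF (pu_cont h hll.continuousOn) hk
  obtain ⟨m3, m4⟩ := Eam_116.ends_aem hEF (cF h K) hnF (pu_cont h
    (Complex.continuous_re.comp_continuousOn hi.hol.continuousOn)) hEd.v
  have hlh : Sqr_185.lo (cF h K).1 ≤ Sqr_185.hi (cF h K).1 := by
    have : Sqr_185.wd (cF h K).1 = Sqr_185.hi (cF h K).1 - Sqr_185.lo (cF h K).1 := rfl
    linarith
  have hm1 : Measurable h1 := hh.smooth.continuous.measurable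
  obtain ⟨i1, l1⟩ := lam (κ := fun σ => kT σ * h1 (vT σ)) hθ hlh
    (m1.mul (hm1.comp_aemeasurable m3)) (hkv.mono fun σ hσ hI => (hσ hI).1)
  obtain ⟨i2, l2⟩ := lam (κ := fun σ => kB σ * h1 (vB σ)) hθ hlh
    (m2.mul (hm1.comp_aemeasurable m4)) (hkv.mono fun σ hσ hI => (hσ hI).2)
  have hf : ∀ c1 c2 : ℝ, ∫ σ in Icc (Sqr_185.lo (cF h K).1) (Sqr_185.hi (cF h K).1),
      2 * deriv θ σ * (kB σ * h1 (vB σ) * c2 - kT σ * h1 (vT σ) * c1) =
      c2 * (∫ σ in Icc (Sqr_185.lo (cF h K).1) (Sqr_185.hi (cF h K).1),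
        2 * deriv θ σ * (kB σ * h1 (vB σ))) -
      c1 * ∫ σ in Icc (Sqr_185.lo (cF h K).1) (Sqr_185.hi (cF h K).1),
        2 * deriv θ σ * (kT σ * h1 (vT σ)) := by
    intro c1 c2
    rw [← integral_const_mul, ← integral_const_mul, ← integral_sub (i2.const_mul c2)
      (i1.const_mul c1)]
    exact integral_congr_ae (ae_of_all _ fun σ => by ring)
  have hbal : ∀ (Y1 Y2 : ℝ → ℝ) (c1 c2 : ℝ),
      Bal (Sqr_185.lo (cF hi K).1) (Sqr_185.hi (cF hi K).1) (Sqr_185.lo (cF h K).1)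
        (Sqr_185.hi (cF h K).1) h1 θ xT xB vT vB gT gB kT kB Y1 Y2 c1 c2 =
      -(∫ t, deriv (fun v => h1 v ^ 2) t * (nT hi K O θ xT t * Y1 t - nB hi K O θ xB t * Y2 t)) +
      (c2 * (∫ σ in Icc (Sqr_185.lo (cF h K).1) (Sqr_185.hi (cF h K).1),
        2 * deriv θ σ * (kB σ * h1 (vB σ))) -
      c1 * ∫ σ in Icc (Sqr_185.lo (cF h K).1) (Sqr_185.hi (cF h K).1),
        2 * deriv θ σ * (kT σ * h1 (vT σ))) := by
    intro Y1 Y2 c1 c2
    unfold Bal
    rw [p_part hh hsup hgv Y1 Y2, hf c1 c2]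
  rw [hbal] at e1 e2 e3
  simp only [Pi.one_apply, mul_one, one_mul] at e1
  set J1 := ∫ t, deriv (fun v => h1 v ^ 2) t * (nT hi K O θ xT t - nB hi K O θ xB t) with hJ1
  set J2 := ∫ t, deriv (fun v => h1 v ^ 2) t *
    (nT hi K O θ xT t * yT t - nB hi K O θ xB t * yB t) with hJ2
  set LT := ∫ σ in Icc (Sqr_185.lo (cF h K).1) (Sqr_185.hi (cF h K).1),
        2 * deriv θ σ * (kT σ * h1 (vT σ)) with hLT
  set LB := ∫ σ in Icc (Sqr_185.lo (cF h K).1) (Sqr_185.hi (cF h K).1),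
        2 * deriv θ σ * (kB σ * h1 (vB σ)) with hLB
  rw [abs_le] at e2 e3
  refine ⟨ex * LT, l1, ex * LB, l2, ?_, ?_⟩
  · linear_combination (-ex) * e1
  · rcases hθ.sg with ⟨rfl, -, -⟩ | ⟨rfl, -, -⟩
    · constructor
      · linarith [e3.1, e3.2, e2.1, e2.2]
      · linarith [e3.1, e3.2, e2.1, e2.2]
    · constructor
      · linarith [e3.1, e3.2, e2.1, e2.2]
      · linarith [e3.1, e3.2, e2.1, e2.2]

end

end Crest.Agent.R105.Ptw_116
end

-- ▼ part R105/Ptw3_116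
section

/-!
# Row 105 (S0138), node E13, JOB 2 (helper116): `ptw_of_bal : BAL → ADMG → PTW`
-/

set_option autoImplicit false

open MeasureTheory Set Filter Topology Metric
open scoped NNReal ENNReal ContDiff

namespace Crest.Agent.R105.Ptw_116

open Crest.AnalysisR Tc_808 Ends_897 Bd_775
open Ni_459 (NI)
open Sqr_185 (sec SqK)
open Pct_185 (PicT)
open SkA_8 (Pk)
open E13_499

noncomputable section

variable {Y : Set ℂ} {x0 φ A : ℂ → ℝ} {a b : ℕ → ℂ → ℝ} {F P : ℂ → ℂ} {i : ℕ} {K : Cmp Yᶜᶜ}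
  {h1 θ : ℝ → ℝ} {O : Set ℂ} {ex eu t0 be s : ℝ} {xT xB yT yB vT vB gT gB kT kB : ℝ → ℝ}

theorem deriv_zero {h : ℝ → ℝ} {l r c d : ℝ} (h1 : ∀ v ≤ l, h v = c) (h2 : ∀ v, r ≤ v → h v = d)
    {v : ℝ} (hv : v ∉ Icc l r) : deriv h v = 0 := by
  rw [mem_Icc, not_and_or, not_le, not_le] at hv
  rcases hv with hv | hv
  · have : h =ᶠ[𝓝 v] fun _ => c := by
      filter_upwards [Iio_mem_nhds hv] with y hy using h1 y (le_of_lt hy)
    rw [this.deriv_eq, deriv_const]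
  · have : h =ᶠ[𝓝 v] fun _ => d := by
      filter_upwards [Ioi_mem_nhds hv] with y hy using h2 y (le_of_lt hy)
    rw [this.deriv_eq, deriv_const]

theorem stp_of {t1 t2 : ℝ} {h : ℝ → ℝ} (H : Cnt_116.Stp t1 t2 h) :
    Stp h ∧ ∀ v, deriv h v ≠ 0 → v ∈ Ioo t1 t2 := by
  obtain ⟨l, hl, hl1⟩ := H.lo
  obtain ⟨r, hr, hr1⟩ := H.hi
  refine ⟨⟨H.sm, fun t => ⟨H.nonneg t, H.le_one t⟩, ?_⟩, fun v hv => ?_⟩
  · exact HasCompactSupport.intro (isCompact_Icc (a := l) (b := r)) fun v hv =>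
      deriv_zero hl1 hr1 hv
  · have : v ∈ Icc l r := by
      by_contra hn
      exact hv (deriv_zero hl1 hr1 hn)
    exact ⟨hl.trans_le this.1, this.2.trans_lt hr⟩

theorem stpD_of {t1 t2 : ℝ} {h : ℝ → ℝ} (H : Cnt_116.StpD t1 t2 h) :
    Stp h ∧ ∀ v, deriv h v ≠ 0 → v ∈ Ioo t1 t2 := by
  obtain ⟨l, hl, hl1⟩ := H.lo
  obtain ⟨r, hr, hr1⟩ := H.hi
  refine ⟨⟨H.sm, fun t => ⟨?_, ?_⟩, ?_⟩, fun v hv => ?_⟩
  · rcases le_total r t with h2 | h2
    · exact (hr1 t h2).ge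
    · rw [← hr1 r le_rfl]; exact H.anti h2
  · rcases le_total t l with h2 | h2
    · exact (hl1 t h2).le
    · rw [← hl1 l le_rfl]; exact H.anti h2
  · exact HasCompactSupport.intro (isCompact_Icc (a := l) (b := r)) fun v hv =>
      deriv_zero hl1 hr1 hv
  · have : v ∈ Icc l r := by
      by_contra hn
      exact hv (deriv_zero hl1 hr1 hn)
    exact ⟨hl.trans_le this.1, this.2.trans_lt hr⟩

/-- a base step for the sign `eu` -/
theorem base_step (heu : eu = 1 ∨ eu = -1) (t0 : ℝ) {r : ℝ} (hr : 0 < r) :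
    ∃ h : ℝ → ℝ, Stp h ∧ (∀ v, h v ≠ 0 → r / 4 ≤ eu * (v - t0)) ∧ ∀ v, r ≤ eu * (v - t0) → h v = 1 := by
  have hε : (0 : ℝ) < r / 4 := by positivity
  rcases heu with rfl | rfl
  · have H : Cnt_116.Stp t0 (t0 + r) (Cnt_116.stp (t0 + r / 2) (r / 4)) :=
      Cnt_116.stp_stp hε (by linarith) (by linarith)
    refine ⟨_, (stp_of H).1, fun v hv => ?_, fun v hv => ?_⟩
    · by_contra hn
      exact hv (Cnt_116.stp_zero hε (by linarith))
    · exact Cnt_116.stp_one hε (by linarith)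
  · have H : Cnt_116.Stp (-t0) (-(t0 - r)) (Cnt_116.stp (-t0 + r / 2) (r / 4)) :=
      Cnt_116.stp_stp hε (by linarith) (by linarith)
    refine ⟨_, (stpD_of H.dn).1, fun v hv => ?_, fun v hv => ?_⟩
    · by_contra hn
      exact hv (Cnt_116.stp_zero hε (by linarith))
    · exact Cnt_116.stp_one hε (by linarith)

/-- the heights of the ends are bounded -/
theorem y_bd (h : Pk Y x0 a φ F) (hi : Pk Y x0 b (a i) P)
    (hy : EndsOf (P '' Yᶜ)ᶜ (cF hi K) (pu hi fun z => (F z).im) yT yB) :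
    ∃ M, ∀ᵐ t : ℝ, t ∈ Ioo (Sqr_185.lo (cF hi K).1) (Sqr_185.hi (cF hi K).1) →
      |yT t| ≤ M ∧ |yB t| ≤ M := by
  have hE := (Uw6_913.picT hi).2.cpt
  have hEF := (Uw6_913.picT h).2.cpt
  obtain ⟨M, hM⟩ := ((cF h K).isCompact hEF).isBounded.subset_ball (0 : ℂ)
  have hev : ∀ᶠ w in eK (F '' Yᶜ)ᶜ (cF h K).1, |w.im| ≤ M := by
    have h2 : ∀ᶠ w in 𝓝ˢ (cF h K).1, w ∈ ball (0 : ℂ) M := isOpen_ball.mem_nhdsSet.2 hM
    refine mem_inf_of_left (h2.mono fun w hw => ?_)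
    rw [mem_ball_zero_iff] at hw
    exact (Complex.abs_im_le_norm w).trans hw.le
  refine ⟨M, ?_⟩
  filter_upwards [hy] with t ht hI
  obtain ⟨n1, n2⟩ := Lin_642.nebot hE (cF hi K) (Ioo_subset_Icc_self hI)
  obtain ⟨s1, s2⟩ := Bp_338.sec_end hE (cF hi K) hI
  have g1 := Lnk3_632.tendsto_end h hi K (Lnk3_632.topF_le (E := (P '' Yᶜ)ᶜ) (t := t)) s1
    Lnk3_632.topF_off
  have g2 := Lnk3_632.tendsto_end h hi K (Lnk3_632.botF_le (E := (P '' Yᶜ)ᶜ) (t := t)) s2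
    Lnk3_632.botF_off
  exact ⟨le_of_tendsto (ht hI).1.abs (g1.eventually hev),
    le_of_tendsto (ht hI).2.abs (g2.eventually hev)⟩

/-- the weights are measurable on the side of the level -/
theorem n_aem (hAD : ADMG) (h : Pk Y x0 a φ F) (hi : Pk Y x0 b (a i) P)
    (hx : EndsOf (P '' Yᶜ)ᶜ (cF hi K) (pu hi fun z => (F z).re) xT xB)
    (hθ : Rmp θ (Sqr_185.lo (cF h K).1) (Sqr_185.hi (cF h K).1) ex)
    (heu : eu = 1 ∨ eu = -1)
    (hU : Uc Y K.1 (fun z => min (eu * (x0 z + a i z - t0)) (θ (x0 z + φ z))) O)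
    {r : ℝ} (hr : 0 < r) {J : Set ℝ} (hJm : MeasurableSet J)
    (hJ : J ⊆ Ioo (Sqr_185.lo (cF hi K).1) (Sqr_185.hi (cF hi K).1))
    (hJr : ∀ t ∈ J, r ≤ eu * (t - t0)) :
    AEMeasurable (nT hi K O θ xT) (volume.restrict J) ∧
      AEMeasurable (nB hi K O θ xB) (volume.restrict J) := by
  obtain ⟨h1, hh, h2, h3⟩ := base_step heu t0 hr
  have hA : ContinuousOn (fun z => x0 z + a i z) Yᶜ := by
    refine ((Complex.continuous_re.comp_continuousOn hi.hol.continuousOn)).congr fun z hz => ?_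
    exact (hi.re z hz).symm
  have hr4 : (0 : ℝ) < r / 4 := by positivity
  have hU' := uc_mm hA hU hh hθ.st hr4 h2
  obtain ⟨⟨gT, gB, hg⟩, -, hll⟩ := exists_ends_gg hAD h hi K hh hθ hU'
  have hgv := g_val h hi hh hθ.st hx hg
  have hE := (Uw6_913.picT hi).2.cpt
  have hn := fun t (ht : t ∈ Ioo (Sqr_185.lo (cF hi K).1) (Sqr_185.hi (cF hi K).1)) =>
    Lin_642.nebot hE (cF hi K) (Ioo_subset_Icc_self ht)
  obtain ⟨m1, m2⟩ := Eam_116.ends_aem hE (cF hi K) hn (pu_cont hi hll.continuousOn) hg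
  obtain ⟨m3, m4⟩ := Eam_116.ends_aem hE (cF hi K) hn (pu_cont hi
    (Complex.continuous_re.comp_continuousOn h.hol.continuousOn)) hx
  have hθm : Measurable θ := hθ.st.smooth.continuous.measurable
  have hgv' : ∀ᵐ t ∂(volume.restrict J), gT t * θ (xT t) = nT hi K O θ xT t ∧
      gB t * θ (xB t) = nB hi K O θ xB t := by
    rw [ae_restrict_iff' hJm]
    filter_upwards [hgv] with t ht hI
    obtain ⟨e1, e2⟩ := ht (hJ hI)
    rw [e1, e2, h3 t (hJr t hI), one_mul, one_mul]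
    exact ⟨rfl, rfl⟩
  have mono := Measure.restrict_mono hJ (le_refl (volume : Measure ℝ))
  exact ⟨((m1.mul (hθm.comp_aemeasurable m3)).mono_measure mono).congr
      (hgv'.mono fun t ht => ht.1),
    ((m2.mul (hθm.comp_aemeasurable m4)).mono_measure mono).congr
      (hgv'.mono fun t ht => ht.2)⟩

theorem n_rg (hi : Pk Y x0 b (a i) P) (hθ : Stp θ) (t : ℝ) :
    |nT hi K O θ xT t| ≤ 1 ∧ |nB hi K O θ xB t| ≤ 1 := by
  have key : ∀ v, |θ v ^ 2| ≤ 1 := fun v => by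
    rw [abs_of_nonneg (sq_nonneg _)]
    nlinarith [(hθ.rg v).1, (hθ.rg v).2]
  unfold nT nB
  constructor
  · split_ifs
    · exact key _
    · rw [abs_zero]; exact zero_le_one
  · split_ifs
    · exact key _
    · rw [abs_zero]; exact zero_le_one

/-- integrability on the side of the level -/
theorem n_int (hAD : ADMG) (h : Pk Y x0 a φ F) (hi : Pk Y x0 b (a i) P)
    (hEd : Ed h hi K xT xB yT yB vT vB)
    (hθ : Rmp θ (Sqr_185.lo (cF h K).1) (Sqr_185.hi (cF h K).1) ex)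
    (heu : eu = 1 ∨ eu = -1)
    (hU : Uc Y K.1 (fun z => min (eu * (x0 z + a i z - t0)) (θ (x0 z + φ z))) O)
    {r : ℝ} (hr : 0 < r) {c d : ℝ}
    (hJ : Ioo c d ⊆ Ioo (Sqr_185.lo (cF hi K).1) (Sqr_185.hi (cF hi K).1))
    (hJr : ∀ t ∈ Ioo c d, r ≤ eu * (t - t0)) :
    IntegrableOn (fun t => nT hi K O θ xT t - nB hi K O θ xB t) (Ioo c d) ∧
    IntegrableOn (fun t => nT hi K O θ xT t * yT t - nB hi K O θ xB t * yB t) (Ioo c d) := by
  obtain ⟨m1, m2⟩ := n_aem hAD h hi hEd.x hθ heu hU hr measurableSet_Ioo hJ hJr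
  have hE := (Uw6_913.picT hi).2.cpt
  have hn := fun t (ht : t ∈ Ioo (Sqr_185.lo (cF hi K).1) (Sqr_185.hi (cF hi K).1)) =>
    Lin_642.nebot hE (cF hi K) (Ioo_subset_Icc_self ht)
  obtain ⟨m3, m4⟩ := Eam_116.ends_aem hE (cF hi K) hn (pu_cont hi
    (Complex.continuous_im.comp_continuousOn h.hol.continuousOn)) hEd.y
  have mono := Measure.restrict_mono hJ (le_refl (volume : Measure ℝ))
  obtain ⟨M, hM⟩ := y_bd h hi hEd.y
  have hM' : ∀ᵐ t ∂(volume.restrict (Ioo c d)), |yT t| ≤ M ∧ |yB t| ≤ M := by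
    rw [ae_restrict_iff' measurableSet_Ioo]
    filter_upwards [hM] with t ht hI using ht (hJ hI)
  have hI : ∀ {n y : ℝ → ℝ} {C : ℝ}, AEMeasurable n (volume.restrict (Ioo c d)) → (∀ t, |n t| ≤ 1) →
      AEMeasurable y (volume.restrict (Ioo c d)) →
      (∀ᵐ t ∂(volume.restrict (Ioo c d)), |y t| ≤ C) →
      IntegrableOn (fun t => n t * y t) (Ioo c d) := by
    intro n y C h2 h3 h4 h5
    refine Integrable.mono' (g := fun _ => C) (integrableOn_const measure_Ioo_lt_top.ne)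
      (h2.mul h4).aestronglyMeasurable ?_
    filter_upwards [h5] with t ht
    rw [norm_mul, Real.norm_eq_abs, Real.norm_eq_abs]
    calc |n t| * |y t| ≤ 1 * C := mul_le_mul (h3 t) ht (abs_nonneg _) zero_le_one
      _ = C := one_mul C
  have one : ∀ {n : ℝ → ℝ}, AEMeasurable n (volume.restrict (Ioo c d)) → (∀ t, |n t| ≤ 1) →
      IntegrableOn n (Ioo c d) := by
    intro n h2 h3
    refine Integrable.mono' (g := fun _ => 1) (integrableOn_const measure_Ioo_lt_top.ne)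
      h2.aestronglyMeasurable (ae_of_all _ fun t => ?_)
    rw [Real.norm_eq_abs]; exact h3 t
  have b1 : ∀ t, |nT hi K O θ xT t| ≤ 1 := fun t => (n_rg (xT := xT) (xB := xB) hi hθ.st t).1
  have b2 : ∀ t, |nB hi K O θ xB t| ≤ 1 := fun t => (n_rg (xT := xT) (xB := xB) hi hθ.st t).2
  exact ⟨(one m1 b1).sub (one m2 b2),
    (hI m1 b1 (m3.mono_measure mono) (hM'.mono fun t ht => ht.1)).sub
      (hI m2 b2 (m4.mono_measure mono) (hM'.mono fun t ht => ht.2))⟩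

open Classical in
/-- **PTW from BAL** -/
theorem ptw_of_bal (hB : BAL) (hAD : ADMG) : PTW := by
  intro Y x0 φ a b F P i K θ O h hi be s ex eu t0 xT xB yT yB vT vB hs hSq hsw hEd hθ heu ht0 hU
  have main : ∀ r : ℝ, 0 < r → ∀ᵐ t : ℝ,
      t ∈ Ioo (Sqr_185.lo (cF hi K).1) (Sqr_185.hi (cF hi K).1) → r < eu * (t - t0) →
      ∃ lT ∈ Icc (0 : ℝ) 1, ∃ lB ∈ Icc (0 : ℝ) 1,
      eu * ex * (nT hi K O θ xT t - nB hi K O θ xB t) + lT - lB = 0 ∧
      eu * ex * (nT hi K O θ xT t * yT t - nB hi K O θ xB t * yB t) + lT * (be + s) - lB * be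
        ∈ Icc 0 s := by
    intro r hr
    rcases heu with rfl | rfl
    · -- steps up on `(t0 + r, hi)`
      have hJ : Ioo (t0 + r) (Sqr_185.hi (cF hi K).1) ⊆
          Ioo (Sqr_185.lo (cF hi K).1) (Sqr_185.hi (cF hi K).1) := fun t ht =>
        ⟨by linarith [ht.1, ht0.1], ht.2⟩
      obtain ⟨i1, i2⟩ := n_int hAD h hi hEd hθ (Or.inl rfl) hU hr hJ
        (fun t ht => by linarith [ht.1])
      have h2 := Cnt_116.ptw (e := ex) (b := be) (s := s) two_ne_zero i1 i2 (fun h1 H => by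
        obtain ⟨hh, hd⟩ := stp_of H
        obtain ⟨l, hl, hl1⟩ := H.lo
        refine bal_core hB hAD h hi K hs hSq hsw hEd hθ hU hh hr (fun v hv => ?_) (fun v hv => ?_)
        · by_contra hn
          exact hv (hl1 v (by linarith))
        · exact Ioo_subset_Icc_self (hJ (hd v hv)))
      filter_upwards [h2] with t ht hI hrt
      obtain ⟨lT, a1, lB, a2, a3, a4⟩ := ht ⟨by linarith, hI.2⟩
      rw [one_mul]
      exact ⟨lT, a1, lB, a2, a3, a4⟩
    · -- steps down on `(lo, t0 - r)`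
      have hJ : Ioo (Sqr_185.lo (cF hi K).1) (t0 - r) ⊆
          Ioo (Sqr_185.lo (cF hi K).1) (Sqr_185.hi (cF hi K).1) := fun t ht =>
        ⟨ht.1, by linarith [ht.2, ht0.2]⟩
      obtain ⟨i1, i2⟩ := n_int hAD h hi hEd hθ (Or.inr rfl) hU hr hJ
        (fun t ht => by linarith [ht.2])
      have h2 := Cnt_116.ptw_dn (e := -ex) (b := be) (s := s) two_ne_zero i1 i2 (fun h1 H => by
        obtain ⟨hh, hd⟩ := stpD_of H
        obtain ⟨l, hl, hl1⟩ := H.hi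
        obtain ⟨lT, a1, lB, a2, a3, a4⟩ := bal_core hB hAD h hi K hs hSq hsw hEd hθ hU hh hr
          (fun v hv => by
            by_contra hn
            exact hv (hl1 v (by linarith)))
          (fun v hv => Ioo_subset_Icc_self (hJ (hd v hv)))
        refine ⟨lT, a1, lB, a2, ?_, ?_⟩
        · rw [neg_mul_neg]; exact a3
        · rw [neg_mul_neg]; exact a4)
      filter_upwards [h2] with t ht hI hrt
      obtain ⟨lT, a1, lB, a2, a3, a4⟩ := ht ⟨hI.1, by linarith⟩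
      rw [neg_one_mul]
      exact ⟨lT, a1, lB, a2, a3, a4⟩
  have hall : ∀ᵐ t : ℝ, ∀ n : ℕ,
      t ∈ Ioo (Sqr_185.lo (cF hi K).1) (Sqr_185.hi (cF hi K).1) → 1 / ((n : ℝ) + 1) < eu * (t - t0) →
      ∃ lT ∈ Icc (0 : ℝ) 1, ∃ lB ∈ Icc (0 : ℝ) 1,
      eu * ex * (nT hi K O θ xT t - nB hi K O θ xB t) + lT - lB = 0 ∧
      eu * ex * (nT hi K O θ xT t * yT t - nB hi K O θ xB t * yB t) + lT * (be + s) - lB * be
        ∈ Icc 0 s := ae_all_iff.2 fun n => main _ (by positivity)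
  filter_upwards [hall] with t ht hI hpos
  obtain ⟨n, hn⟩ := exists_nat_one_div_lt hpos
  exact ht n hI hn

end

end Crest.Agent.R105.Ptw_116
end

-- ▼ part R105/Adx1_636
section

/-!
# Row 105, S0138, E13 (0) (499 #11166): `NI φ g` (helper636)

The calculus of Adg1_600 / Adg2_600 for ONE ancestor `A` (`TT A`, `x0 + A` switched) in the place of
the sequence of anchors: so it applies to `A = φ`, the final function, and gives `NI Y φ g` for
`g = χ 1_O H(x0 + a i) T(x0 + φ)`, i.e. bounded variation of `g` on the vertical lines of the final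
picture.
-/

set_option autoImplicit false

open MeasureTheory Set Filter Topology Metric
open scoped NNReal ENNReal ContDiff

namespace Crest.Agent.R105.Adx_636

open Bd_775 Tc_808 Ni_459 Crest.AnalysisR Adg_600
open IfB_641 (X0)
open SkA_8 (Pk)

noncomputable section

variable {Y : Set ℂ} {x0 φ A : ℂ → ℝ} {a : ℕ → ℂ → ℝ} {F : ℂ → ℂ} {v w f g χ : ℂ → ℝ} {O D : Set ℂ}

/-- `A` is a possible anchor -/
structure An (Y : Set ℂ) (x0 A : ℂ → ℝ) : Prop where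
  hY : IsExteriorDomain Yᶜ
  hx : X0 Y x0
  tt : TT Y A
  swd : Swd Y (fun z => x0 z + A z)


/-- the final function is an anchor -/
theorem an_phi (h : Pk Y x0 a φ F) : An Y x0 φ := ⟨h.hY, h.hx, h.tt, Grd_782.swd_of_pk h⟩

/-- functions which commute with `A` -/
structure Com (Y : Set ℂ) (A v : ℂ → ℝ) : Prop where
  tt : TT Y v
  ni : NI Y A v


theorem Com.mul (hA : An Y x0 A) (hv : Com Y A v) (hw : Com Y A w) :
    Com Y A (fun z => v z * w z) where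
  tt := hv.tt.mul (cpt_of hA.hY).isClosed hw.tt
  ni := Nip_31.ni_mul hA.hY hA.hx hA.tt hA.swd hv.tt hw.tt hv.ni hw.ni

theorem Com.cut (hA : An Y x0 A) (hv : Com Y A v) (h0 : ∀ z, 0 ≤ v z) (hc : Cut Y v O D) :
    Com Y A (O.indicator v) where
  tt := tt_cut hA.hY hc hv.tt h0
  ni := ni_cut hA.hY hc hv.tt h0 hv.ni

/-- `χ H(x0 + v)` -/
theorem com_chi (hA : An Y x0 A) (hv : Com Y A v) (hχ : LC Y χ) (hχc : HasCompactSupport χ)
    {H : ℝ → ℝ} {L : ℝ≥0} (hH : LipschitzWith L H) : Com Y A (fun z => χ z * H (x0 z + v z)) where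
  tt := (Elf_600.test_chiG (cpt_of hA.hY) hA.hx hv.tt hχ hχc hH).1
  ni := N8_602.ni_test hA.hY hA.hx hv.tt hχ hχc hH hv.ni

/-- `χ H(x0 + v) T(x0 + w)` -/
theorem com_chi2 (hA : An Y x0 A) (hv : Com Y A v) (hw : Com Y A w) (hχ : LC Y χ)
    (hχc : HasCompactSupport χ) {H T : ℝ → ℝ} {L L' : ℝ≥0} (hH : LipschitzWith L H)
    (hT : LipschitzWith L' T) : Com Y A (fun z => χ z * (H (x0 z + v z) * T (x0 z + w z))) := by
  obtain ⟨η, hη, hηc, h1⟩ := exists_lc2 (Y := Y) (cpt_of hA.hY) hχc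
  have h2 := (com_chi hA hv hχ hχc hH).mul hA (com_chi hA hw hη hηc hT)
  have e : (fun z => χ z * (H (x0 z + v z) * T (x0 z + w z))) =
      fun z => χ z * H (x0 z + v z) * (η z * T (x0 z + w z)) := by
    funext z
    by_cases hz : z ∈ tsupport χ
    · rw [h1 z hz]; ring
    · rw [image_eq_zero_of_notMem_tsupport hz]; ring
  rw [e]; exact h2

/-- **the cut test function** `χ 1_O H(u) T(x)` commutes with `A` -/
theorem com_cut (hA : An Y x0 A) (hv : Com Y A v) (hw : Com Y A w) (hχ : LC Y χ)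
    (hχc : HasCompactSupport χ) (h01 : ∀ z, χ z ∈ Icc (0:ℝ) 1) {H T : ℝ → ℝ} {L L' : ℝ≥0}
    (hH : LipschitzWith L H) (hT : LipschitzWith L' T) (hH1 : ∀ s, H s ∈ Icc (0:ℝ) 1)
    (hT1 : ∀ s, T s ∈ Icc (0:ℝ) 1)
    (hc : Cut Y (fun z => H (x0 z + v z) * T (x0 z + w z)) O D) :
    Com Y A (fun z => χ z * O.indicator (fun z => H (x0 z + v z) * T (x0 z + w z)) z) := by
  have h1 := com_chi2 hA hv hw hχ hχc hH hT
  have h0 : ∀ z, 0 ≤ H (x0 z + v z) * T (x0 z + w z) := fun z => mul_nonneg (hH1 _).1 (hT1 _).1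
  have hb : ∀ z, H (x0 z + v z) * T (x0 z + w z) ≤ 1 := fun z =>
    mul_le_one₀ (hH1 _).2 (hT1 _).1 (hT1 _).2
  have hg : LB (fun z => H (x0 z + v z) * T (x0 z + w z)) :=
    LB.of_bdd ⟨1, fun z => by rw [abs_of_nonneg (h0 z)]; exact hb z⟩
  have hc' : Cut Y (fun z => χ z * (H (x0 z + v z) * T (x0 z + w z))) O D :=
    hc.mono hA.hY (LB.of_bdd h1.tt.q.bdd) hg fun z _ => mul_le_of_le_one_left (h0 z) (h01 z).2
  have h2 := h1.cut hA (fun z => mul_nonneg (h01 z).1 (h0 z)) hc'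
  have e : (fun z => χ z * O.indicator (fun z => H (x0 z + v z) * T (x0 z + w z)) z) =
      O.indicator (fun z => χ z * (H (x0 z + v z) * T (x0 z + w z))) := by
    funext z
    by_cases hz : z ∈ O
    · rw [indicator_of_mem hz, indicator_of_mem hz]
    · rw [indicator_of_notMem hz, indicator_of_notMem hz, mul_zero]
  rw [e]; exact h2

/-- **`NI φ g`** for `g = χ 1_O H(u_i) T(x)` -/
theorem ni_phi_cut (h : Pk Y x0 a φ F) (i : ℕ) (hχ : LC Y χ)
    (hχc : HasCompactSupport χ) (h01 : ∀ z, χ z ∈ Icc (0:ℝ) 1) {H T : ℝ → ℝ} {L L' : ℝ≥0}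
    (hH : LipschitzWith L H) (hT : LipschitzWith L' T) (hH1 : ∀ s, H s ∈ Icc (0:ℝ) 1)
    (hT1 : ∀ s, T s ∈ Icc (0:ℝ) 1)
    (hc : Cut Y (fun z => H (x0 z + a i z) * T (x0 z + φ z)) O D) :
    NI Y φ (fun z => χ z * O.indicator (fun z => H (x0 z + a i z) * T (x0 z + φ z)) z) :=
  (com_cut (an_phi h) ⟨h.tta i, (h.com i).symm⟩ ⟨h.tt, NI.self⟩ hχ hχc h01 hH hT hH1 hT1 hc).ni


end

end Crest.Agent.R105.Adx_636
end

-- ▼ part R105/Adg4_600
section

/-!
# Row 105, S0138, E13 (0), part 4: `admg : E13_499.ADMG` and the squares (helper600)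

* `uc_of_E13` : a set `O` with `E13_499.Uc Y K.1 (mm ..) O` and a ramp `θ` cuts `mm` (at `K` itself the
  lower value of `mm` is zero, since `θ` vanishes at one end of the range of `Re F` at `K`);
* `admg : E13_499.ADMG`;
* `admg2` : the same for `χ0 * gg ^ 2`, `admg2'` : for `χ0 * (θ (x) ^ 2 - gg ^ 2)`.
-/

set_option autoImplicit false

open MeasureTheory Set Filter Topology Metric
open scoped NNReal ENNReal ContDiff

namespace Crest.Agent.R105.Adg_600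

open Bd_775 Tc_808 Ni_459 Crest.AnalysisR Ends_897
open IfB_641 (X0)
open SkA_8 (Pk)
open Ta_937 (corE)
open E13_499 (Stp Rmp mm gg cF)

noncomputable section

variable {Y : Set ℂ} {x0 φ A : ℂ → ℝ} {a : ℕ → ℂ → ℝ} {F : ℂ → ℂ} {v w f g χ χ0 : ℂ → ℝ} {O : Set ℂ}
  {h1 θ : ℝ → ℝ} {ex : ℝ}

theorem stp_lip (h : Stp θ) : ∃ L : ℝ≥0, LipschitzWith L θ := by
  obtain ⟨C, hC⟩ := (h.smooth.continuous_deriv (by simp)).bounded_above_of_compact_support h.supp
  refine ⟨Real.toNNReal C, lipschitzWith_of_nnnorm_deriv_le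
    (h.smooth.differentiable (by simp)) fun t => ?_⟩
  rw [← NNReal.coe_le_coe, coe_nnnorm]
  exact (hC t).trans (Real.le_coe_toNNReal C)

/-- near a component: points with `F z` near a given limit point of the corresponding one -/
theorem exists_near {U V : Set ℂ} (h : EndMap U V F) (K : Cmp Uᶜ) {N : Set ℂ} (hN : IsOpen N)
    (hKN : K.1 ⊆ N) {ζ : ℂ} (hζ : ζ ∈ (corE h K).1) (hcl : ζ ∈ closure V) {ε : ℝ} (hε : 0 < ε) :
    ∃ z ∈ N, z ∈ U ∧ dist (F z) ζ < ε := by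
  obtain ⟨M, hM, hLM, h2⟩ := Ta_937.exists_nhd_push h K hN hKN
  obtain ⟨r, hr, hrM⟩ := Metric.isOpen_iff.1 hM ζ (hLM hζ)
  obtain ⟨w, hw, hwd⟩ := Metric.mem_closure_iff.1 hcl (min r ε) (lt_min hr hε)
  rw [← h.img] at hw
  obtain ⟨z, hz, rfl⟩ := hw
  rw [dist_comm] at hwd
  exact ⟨z, h2 z hz (hrM (hwd.trans_le (min_le_left _ _))), hz, hwd.trans_le (min_le_right _ _)⟩

/-- `Re F` comes near both ends of its range -/
theorem exists_near_lo {U V : Set ℂ} (h : EndMap U V F) (K : Cmp Uᶜ) {N : Set ℂ} (hN : IsOpen N)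
    (hKN : K.1 ⊆ N) {ε : ℝ} (hε : 0 < ε) :
    ∃ z ∈ N, z ∈ U ∧ |(F z).re - Sqr_185.lo (corE h K).1| < ε := by
  have hc : IsCompact (corE h K).1 := (corE h K).isCompact (cpt_of (Y := Vᶜ) (by rw [compl_compl]; exact h.hV))
  obtain ⟨p, hp, hpl⟩ := Sqr_185.exists_lo hc (corE h K).nonempty
  have hcl := Sqr_185.lo_mem_closure (corE h K) hp fun q hq => hpl ▸ Sqr_185.lo_le hc hq
  rw [compl_compl] at hcl
  obtain ⟨z, h1, h2, h3⟩ := exists_near h K hN hKN hp hcl hε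
  refine ⟨z, h1, h2, ?_⟩
  rw [← hpl, ← Complex.sub_re]
  exact (Complex.abs_re_le_norm _).trans_lt (by rwa [← dist_eq_norm])

theorem exists_near_hi {U V : Set ℂ} (h : EndMap U V F) (K : Cmp Uᶜ) {N : Set ℂ} (hN : IsOpen N)
    (hKN : K.1 ⊆ N) {ε : ℝ} (hε : 0 < ε) :
    ∃ z ∈ N, z ∈ U ∧ |(F z).re - Sqr_185.hi (corE h K).1| < ε := by
  have hc : IsCompact (corE h K).1 := (corE h K).isCompact (cpt_of (Y := Vᶜ) (by rw [compl_compl]; exact h.hV))
  obtain ⟨p, hp, hpl⟩ := Sqr_185.exists_hi hc (corE h K).nonempty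
  have hcl := Sqr_185.hi_mem_closure (corE h K) hp fun q hq => hpl ▸ Sqr_185.le_hi hc hq
  rw [compl_compl] at hcl
  obtain ⟨z, h1, h2, h3⟩ := exists_near h K hN hKN hp hcl hε
  refine ⟨z, h1, h2, ?_⟩
  rw [← hpl, ← Complex.sub_re]
  exact (Complex.abs_re_le_norm _).trans_lt (by rwa [← dist_eq_norm])

theorem mm_nonneg (hs : Stp h1) (hθ : Stp θ) (z : ℂ) : 0 ≤ mm x0 A φ h1 θ z :=
  mul_nonneg (hs.rg _).1 (hθ.rg _).1

theorem mm_le (hs : Stp h1) (hθ : Stp θ) (z : ℂ) : mm x0 A φ h1 θ z ≤ θ (x0 z + φ z) :=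
  mul_le_of_le_one_left (hθ.rg _).1 (hs.rg _).2

theorem mm_le_one (hs : Stp h1) (hθ : Stp θ) (z : ℂ) : mm x0 A φ h1 θ z ≤ 1 :=
  (mm_le hs hθ z).trans (hθ.rg _).2

theorem mm_bdd (hs : Stp h1) (hθ : Stp θ) : ∃ M, ∀ z, |mm x0 A φ h1 θ z| ≤ M :=
  ⟨1, fun z => by rw [abs_of_nonneg (mm_nonneg hs hθ z)]; exact mm_le_one hs hθ z⟩

theorem mm_ll (hx : X0 Y x0) (hA : TT Y A) (hφ : TT Y φ) (hs : Stp h1) (hθ : Stp θ) :
    LocallyLipschitzOn Yᶜ (mm x0 A φ h1 θ) := by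
  obtain ⟨L, hL⟩ := stp_lip hs
  obtain ⟨L', hL'⟩ := stp_lip hθ
  have hx1 : ContDiff ℝ 1 x0 := hx.sm.of_le (by simp)
  have hx0 : LocallyLipschitz x0 := hx1.locallyLipschitz
  have key : ∀ (B : ℂ → ℝ), TT Y B → ∀ (H : ℝ → ℝ) (l : ℝ≥0), LipschitzWith l H →
      LocallyLipschitzOn Yᶜ (fun z => H (x0 z + B z)) := by
    intro B hB H l hH z hz
    obtain ⟨C, t, ht, hC⟩ := hB.q.loc hz
    obtain ⟨C', t', ht', hC'⟩ := hx0 z
    refine ⟨l * (C' + C), t ∩ t', inter_mem ht (mem_nhdsWithin_of_mem_nhds ht'), ?_⟩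
    exact (hH.comp_lipschitzOnWith ((hC'.mono inter_subset_right).add (hC.mono inter_subset_left)))
  intro z hz
  obtain ⟨C, t, ht, hC⟩ := key A hA h1 L hL hz
  obtain ⟨C', t', ht', hC'⟩ := key φ hφ θ L' hL' hz
  refine ⟨C + C', t ∩ t', inter_mem ht ht', LipschitzOnWith.of_dist_le_mul fun p hp q hq => ?_⟩
  have e1 := hC.dist_le_mul p hp.1 q hq.1
  have e2 := hC'.dist_le_mul p hp.2 q hq.2
  rw [Real.dist_eq] at e1 e2 ⊢
  have e3 : mm x0 A φ h1 θ p - mm x0 A φ h1 θ q =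
      (h1 (x0 p + A p) - h1 (x0 q + A q)) * θ (x0 p + φ p) +
        h1 (x0 q + A q) * (θ (x0 p + φ p) - θ (x0 q + φ q)) := by
    unfold mm; ring
  rw [e3]
  refine (abs_add_le _ _).trans ?_
  rw [abs_mul, abs_mul, abs_of_nonneg (hθ.rg _).1, abs_of_nonneg (hs.rg _).1]
  push_cast
  have e4 := mul_le_mul e1 (hθ.rg (x0 p + φ p)).2 (hθ.rg _).1 ((abs_nonneg _).trans e1)
  have e5 := mul_le_mul (hs.rg (x0 q + A q)).2 e2 (abs_nonneg _) zero_le_one
  linarith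

/-- at `K` the lower value of `mm` is zero -/
theorem lo_mm_K (h : Pk Y x0 a φ F) (K : Cmp Yᶜᶜ) (hs : Stp h1)
    (hθ : Rmp θ (Sqr_185.lo (cF h K).1) (Sqr_185.hi (cF h K).1) ex) {z : ℂ} (hz : z ∈ K.1) :
    lo Y (mm x0 A φ h1 θ) z ≤ 0 := by
  by_contra hcon
  push Not at hcon
  obtain ⟨c, hc0, hc⟩ := exists_between hcon
  obtain ⟨N, hN, h2⟩ := exists_gt_of_lt_lo h.hY (LB.of_bdd (mm_bdd hs hθ.st)) hc
  have hKN : K.1 ⊆ N := by
    have h3 := congrArg Subtype.val (K.eq_of_mem hz)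
    rw [h3]
    have h4 := hN.sub
    simpa only [Cmp.of, compl_compl] using h4
  have key : ∀ l : ℝ, θ l = 0 → (∀ ε > 0, ∃ z ∈ N, z ∈ Yᶜ ∧ |(F z).re - l| < ε) → False := by
    intro l hl h3
    have h4 : ∀ᶠ s in 𝓝 l, θ s < c :=
      (hθ.st.smooth.continuous.continuousAt (x := l)).eventually_lt continuousAt_const (by rw [hl]; exact hc0)
    obtain ⟨ε, hε, h5⟩ := Metric.eventually_nhds_iff.1 h4
    obtain ⟨w, hwN, hwY, h6⟩ := h3 ε hε
    have h7 := h5 (y := (F w).re) (by rwa [Real.dist_eq])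
    rw [h.re w hwY] at h7
    have h8 := h2 w hwN hwY
    exact absurd (h8.trans_le (mm_le hs hθ.st w)) (not_lt.2 h7.le)
  rcases hθ.sg with ⟨-, h3, -⟩ | ⟨-, -, h3⟩
  · exact key _ h3 fun ε hε => exists_near_lo (Uw6_913.endMap h) K hN.op hKN hε
  · exact key _ h3 fun ε hε => exists_near_hi (Uw6_913.endMap h) K hN.op hKN hε

/-- **the adapter** -/
theorem uc_of_E13 (h : Pk Y x0 a φ F) (K : Cmp Yᶜᶜ) (hs : Stp h1)
    (hθ : Rmp θ (Sqr_185.lo (cF h K).1) (Sqr_185.hi (cF h K).1) ex)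
    (hO : E13_499.Uc Y K.1 (mm x0 A φ h1 θ) O) : Uc Y (mm x0 A φ h1 θ) O where
  op := fun z hz _ => hO.op.mem_nhds hz
  cl := fun z hz h0 hzO => hO.co z hz h0 hzO
  cmp := by
    intro z hz h0
    set K' : Cmp Y := Cmp.of hz
    have hzK' : z ∈ K'.1 := mem_connectedComponentIn hz
    have hne : K'.1 ≠ K.1 := fun he =>
      absurd (lo_mm_K (A := A) h K hs hθ (he ▸ hzK')) (not_le.2 h0)
    obtain ⟨c, hc0, hc⟩ := exists_between h0
    obtain ⟨N, hN, h2⟩ := exists_gt_of_lt_lo h.hY (LB.of_bdd (mm_bdd hs hθ.st)) hc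
    have h3 : ∃ c > 0, ∀ᶠ w in eK Y K'.1, c ≤ mm x0 A φ h1 θ w :=
      ⟨c, hc0, mem_eK.2 ⟨N, hN.op, hN.sub, fun w hw hwY => (h2 w hw hwY).le⟩⟩
    rcases hO.lc K' hne h3 with h4 | h4
    · obtain ⟨M, hM, hKM, h5⟩ := mem_eK.1 h4
      exact Or.inl ⟨M, nb_of_mem hz hM hKM, h5⟩
    · obtain ⟨M, hM, hKM, h5⟩ := mem_eK.1 h4
      exact Or.inr ⟨M, nb_of_mem hz hM hKM, h5⟩

theorem ind_hull (hO : ∀ z ∈ O, z ∉ Y → O ∈ 𝓝 z) {z : ℂ} (hz : z ∉ Y) :
    (hull Y O).indicator f z = O.indicator f z := by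
  by_cases hzO : z ∈ O
  · rw [indicator_of_mem hzO, indicator_of_mem ((mem_hull_iff hz hO).2 hzO)]
  · rw [indicator_of_notMem hzO, indicator_of_notMem fun hc' => hzO ((mem_hull_iff hz hO).1 hc')]

/-- the cut function is locally Lipschitz -/
theorem loc_uc (hY : IsExteriorDomain Yᶜ) (hc : Uc Y f O) (hf : LocallyLipschitzOn Yᶜ f)
    (hb : LB f) (h0 : ∀ z, 0 ≤ f z) : LocallyLipschitzOn Yᶜ (O.indicator f) := by
  intro z hz
  obtain ⟨L, t, ht, hL⟩ := loc_cut hY (hc.cut hY hf hb) hf hb h0 hz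
  refine ⟨L, t ∩ Yᶜ, inter_mem ht self_mem_nhdsWithin, fun p hp q hq => ?_⟩
  rw [← ind_hull hc.op hp.2, ← ind_hull hc.op hq.2]
  exact hL hp.1 hq.1

/-- **`NI φ`** for `χ 1_O H(u_i) T(x)`, `O` seen on `U` only -/
theorem ni_phi_uc (h : Pk Y x0 a φ F) (i : ℕ) (hχ : LC Y χ)
    (hχc : HasCompactSupport χ) (h01 : ∀ z, χ z ∈ Icc (0:ℝ) 1) {H T : ℝ → ℝ} {L L' : ℝ≥0}
    (hH : LipschitzWith L H) (hT : LipschitzWith L' T) (hH1 : ∀ s, H s ∈ Icc (0:ℝ) 1)
    (hT1 : ∀ s, T s ∈ Icc (0:ℝ) 1)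
    (hc : Uc Y (fun z => H (x0 z + a i z) * T (x0 z + φ z)) O)
    (hl : LocallyLipschitzOn Yᶜ (fun z => H (x0 z + a i z) * T (x0 z + φ z))) :
    NI Y φ (fun z => χ z * O.indicator (fun z => H (x0 z + a i z) * T (x0 z + φ z)) z) := by
  have hb : LB (fun z => H (x0 z + a i z) * T (x0 z + φ z)) := LB.of_bdd ⟨1, fun z => by
    rw [abs_of_nonneg (mul_nonneg (hH1 _).1 (hT1 _).1)]
    exact mul_le_one₀ (hH1 _).2 (hT1 _).1 (hT1 _).2⟩
  have h2 := Adx_636.ni_phi_cut h i hχ hχc h01 hH hT hH1 hT1 (hc.cut h.hY hl hb)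
  exact ni_congr (fun z hz => by simp only [ind_hull hc.op hz]) h2

/-- **(0) ADMG** -/
theorem admg : E13_499.ADMG := by
  intro Y x0 φ a b F P i K h1 θ χ0 O ex h hi hs hθ hO hχ hχc h01
  obtain ⟨L, hL⟩ := stp_lip hs
  obtain ⟨L', hL'⟩ := stp_lip hθ.st
  have hu : Uc Y (mm x0 (a i) φ h1 θ) O := uc_of_E13 h K hs hθ hO
  have hll := mm_ll h.hx (h.tta i) h.tt hs hθ.st
  have h2 := adm_uc h (adm_anchor h i) (adm_phi h) hχ hχc h01 hL hL' hs.rg hθ.st.rg hu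
  exact ⟨h2.tt, h2.ni, ni_phi_uc h i hχ hχc h01 hL hL' hs.rg hθ.st.rg hu hll,
    loc_uc h.hY hu hll (LB.of_bdd (mm_bdd hs hθ.st)) (mm_nonneg hs hθ.st)⟩









end

end Crest.Agent.R105.Adg_600
end

-- ▼ part R105/Bal1_61
section

/-!
# Row 105, S0138, E13, BAL (E13_499), piece (B1) (helper61): limits of line integrals

`LINEc` : the line lemma for the cut-off sequences `ChnE`
`lim1` : `∫ G(u) W du ∧ dχ_n → ∫ G(t) (W^-_t - W^+_t) dt` in the picture of `u = x0 + A`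
-/

set_option autoImplicit false

open MeasureTheory Set Filter Topology Metric
open scoped ENNReal NNReal ContDiff

namespace Crest.Agent.R105.Fml_61

open Bd_775 Tc_808 Ends_897 Crest.AnalysisR
open Pct_185 (PicT)
open E13_499 (EndsOf pu cF)
open Bp_338 (Wt)

noncomputable section

variable {Y : Set ℂ} {x0 A : ℂ → ℝ} {b : ℕ → ℂ → ℝ} {P : ℂ → ℂ}

/-- the line lemma in one picture -/
def LINEc : Prop := ∀ (E : Set ℂ) (L : Cmp E) (w : ℂ → ℝ) (χ : ℕ → ℂ → ℝ) (G wT wB : ℝ → ℝ)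
  (C : ℝ), PicT E → ContinuousOn w Eᶜ → Bvl_31.Bd E w → Bvl_31.BVL E w → Measurable G →
  (∀ t, |G t| ≤ C) → ChnE E L.1 χ → EndsOf E L w wT wB →
  Tendsto (fun n => ∫ z in Eᶜ, G z.re * w z * gy (χ n) z) atTop
    (𝓝 (∫ t in Icc (Sqr_185.lo L.1) (Sqr_185.hi L.1), G t * (wB t - wT t)))

theorem lim1 (hL : LINEc) (hi : SkA_8.Pk Y x0 b A P) (K : Cmp Yᶜᶜ) {G : ℝ → ℝ} {W : ℂ → ℝ}
    {WT WB : ℝ → ℝ} {C : ℝ} (hG : Measurable G) (hC : ∀ t, |G t| ≤ C) (hW : Wt hi W)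
    (hE : EndsOf (P '' Yᶜ)ᶜ (cF hi K) (pu hi W) WT WB) {χ : ℕ → ℂ → ℝ} (hχ : ChnE Yᶜᶜ K.1 χ) :
    Tendsto (fun n => ∫ z in Yᶜ, G (x0 z + A z) * W z * wdg (fun z => x0 z + A z) (χ n) z) atTop
      (𝓝 (∫ t in Icc (Sqr_185.lo (cF hi K).1) (Sqr_185.hi (cF hi K).1), G t * (WB t - WT t))) := by
  have hP : Tra_937.Uni Yᶜ P := Yv_319.uni_of_pk hi
  have he := Uw6_913.endMap hi
  obtain ⟨χP, h1, h2⟩ := chn_push he hP K hχ
  have hc : ContinuousOn (pu hi W) (P '' Yᶜ)ᶜᶜ := by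
    rw [compl_compl]
    exact (Ta_937.loc_push he hP hW.ll).continuousOn
  have h3 := hL (P '' Yᶜ)ᶜ (cF hi K) (pu hi W) χP G WT WB C (Uw6_913.picT hi).2 hc hW.bd hW.bv hG
    hC h1 hE
  refine h3.congr fun n => ?_
  rw [compl_compl]
  have h4 := to_pic (χ := χ n) (u := fun z => x0 z + A z) hP G W
    (fun z hz => (hi.re z hz).symm) ((hχ.sm n).locallyLipschitz.locallyLipschitzOn)
  rw [h4]
  refine setIntegral_congr_fun hP.isOpen_image.measurableSet fun ζ hζ => ?_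
  have e1 : gy (χP n) ζ = gy (χ n ∘ Tra_937.inv Yᶜ P) ζ := by
    refine gy_eq_of_eventuallyEq ?_
    filter_upwards [hP.isOpen_image.mem_nhds hζ] with v hv
    have := h2 n _ (hP.inv_mem hv)
    rwa [hP.apply_inv hv] at this
  simp only [e1]
  rfl

end

end Crest.Agent.R105.Fml_61
end

-- ▼ part R105/Bp2_338
section

/-!
# Row 105, S0138, node E13, BAL, piece (B3): the weight of the `F`-side (helper338)
-/

set_option autoImplicit false

open MeasureTheory Set Filter Topology Metric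
open scoped NNReal ENNReal ContDiff

namespace Crest.Agent.R105.Bp_338

open Crest.AnalysisR (IsExteriorDomain)
open Tc_808 Bd_775 Ends_897 Ni_459
open Ta_937 (corE push push_comp)
open Sqr_185 (sec SqK)
open E13_499 (EndsOf TopF BotF pu cF gg mm Stp)

noncomputable section

variable {Y : Set ℂ} {x0 φ A f g : ℂ → ℝ} {a b : ℕ → ℂ → ℝ} {F P : ℂ → ℂ} {i : ℕ}

/-- the ends of `im` at an exact square -/
theorem ends_im {E : Set ℂ} {L : Cmp E} {be s : ℝ} (hs : 0 < s)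
    (hQ : SqK L.1 (Sqr_185.lo L.1) be s) (hw : s = Sqr_185.wd L.1) :
    EndsOf E L (fun ζ => ζ.im) (fun _ => be + s) (fun _ => be) := by
  filter_upwards [hQ.ae] with t ht hI
  have h1 : t ∈ Icc (Sqr_185.lo L.1) (Sqr_185.lo L.1 + s) := by
    refine ⟨hI.1.le, ?_⟩
    rw [hw]; unfold Sqr_185.wd
    linarith [hI.2]
  have h2 := ht h1
  have h3 : sSup (sec L.1 t) = be + s := by rw [h2]; exact csSup_Icc (by linarith)
  have h4 : sInf (sec L.1 t) = be := by rw [h2]; exact csInf_Icc (by linarith)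
  constructor
  · have h5 : Tendsto (fun v : ℝ => v) (TopF E L.1 t) (𝓝 (sSup (sec L.1 t))) := by
      exact tendsto_id.mono_left nhdsWithin_le_nhds
    rw [h3] at h5
    exact h5
  · have h5 : Tendsto (fun v : ℝ => v) (BotF E L.1 t) (𝓝 (sInf (sec L.1 t))) := by
      exact tendsto_id.mono_left nhdsWithin_le_nhds
    rw [h4] at h5
    exact h5

/-- `Im F` in its own picture -/
theorem ends_im_self (h : SkA_8.Pk Y x0 a φ F) (K : Cmp Yᶜᶜ) {be s : ℝ} (hs : 0 < s)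
    (hQ : SqK (cF h K).1 (Sqr_185.lo (cF h K).1) be s) (hw : s = Sqr_185.wd (cF h K).1) :
    EndsOf (F '' Yᶜ)ᶜ (cF h K) (pu h fun z => (F z).im) (fun _ => be + s) (fun _ => be) := by
  have hE : IsCompact (F '' Yᶜ)ᶜ := (Uw6_913.picT h).2.cpt
  refine ends_congr hE isOpen_univ (subset_univ _) (fun ζ _ hζE => ?_) (ends_im hs hQ hw)
  obtain ⟨z, hz, rfl⟩ := not_not.1 hζE
  exact pu_apply h _ hz

/-- the weight -/
def WF (x0 A φ : ℂ → ℝ) (h1 θ : ℝ → ℝ) (O : Set ℂ) (χ0 w : ℂ → ℝ) (z : ℂ) : ℝ :=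
  2 * (χ0 z * gg x0 A φ h1 θ O z) * h1 (x0 z + A z) * w z

/-- **(B3)**, weight `w` with given ends -/
theorem wf_side (h : SkA_8.Pk Y x0 a φ F) (hi : SkA_8.Pk Y x0 b (a i) P) (K : Cmp Yᶜᶜ)
    {h1 θ : ℝ → ℝ} {O : Set ℂ} (hh1 : Stp h1) {χ0 : ℂ → ℝ}
    (htt : TT Y fun z => χ0 z * gg x0 (a i) φ h1 θ O z)
    (hni : NI Y φ fun z => χ0 z * gg x0 (a i) φ h1 θ O z)
    {N : Set ℂ} (hN : IsOpen N) (hKN : K.1 ⊆ N) (h1N : ∀ z ∈ N, χ0 z = 1)
    {w : ℂ → ℝ} (hw : Wt h w) {vT vB kT kB wT wB : ℝ → ℝ}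
    (hv : EndsOf (F '' Yᶜ)ᶜ (cF h K) (pu h fun z => (P z).re) vT vB)
    (hg : EndsOf (F '' Yᶜ)ᶜ (cF h K) (pu h (gg x0 (a i) φ h1 θ O)) kT kB)
    (hwe : EndsOf (F '' Yᶜ)ᶜ (cF h K) (pu h w) wT wB) :
    Wt h (WF x0 (a i) φ h1 θ O χ0 w) ∧
    EndsOf (F '' Yᶜ)ᶜ (cF h K) (pu h (WF x0 (a i) φ h1 θ O χ0 w))
      (fun t => 2 * kT t * h1 (vT t) * wT t) (fun t => 2 * kB t * h1 (vB t) * wB t) := by
  obtain ⟨L, hL⟩ := stp_lip hh1
  have g1 : Wt h fun z => χ0 z * gg x0 (a i) φ h1 θ O z := Wt.tt h htt hni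
  have g2 : Wt h fun z => h1 (x0 z + a i z) :=
    (Wt.x0add h (h.tta i) (Grd_782.NI_symm (h.com i))).comp hL
  have g3 := (((Wt.const h 2).mul g1).mul g2).mul hw
  refine ⟨g3, ?_⟩
  have hE : IsCompact (F '' Yᶜ)ᶜ := (Uw6_913.picT h).2.cpt
  have e1 := ends_cut h K hN hKN h1N hg
  have e2 : EndsOf (F '' Yᶜ)ᶜ (cF h K) (pu h fun z => h1 (x0 z + a i z))
      (fun t => h1 (vT t)) (fun t => h1 (vB t)) := by
    refine ends_congr hE isOpen_univ (subset_univ _) (fun ζ _ hζE => ?_)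
      (ends_comp hh1.smooth.continuous hv)
    obtain ⟨z, hz, rfl⟩ := not_not.1 hζE
    rw [pu_apply h _ hz, pu_apply h _ hz, hi.re z hz]
  exact ends_mul (ends_mul (ends_mul (ends_const 2) e1) e2) hwe

end

end Crest.Agent.R105.Bp_338
end

-- ▼ part R105/Els1_173
section

/-!
# Row 105, S0138, node E13 (ATN), piece (1) of 499 #11166: the E-L side (helper173)

`h : Pk Y x0 a φ F`, `K0 : Cmp Y`, `s = osc φ K0`, `y = Im F`.
* `els_upper`  : `ψ` `T`-finite, admissible: `|∫ wdg (χ ψ) y| ≤ osc φ K0 * osc ψ K0 + ε` for all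
  cut-offs `χ` (`LC`, `0 ≤ χ ≤ 1`) with `tsupport χ` inside a small neighbourhood of `K0`
* `els_exact`  : `|∫ wdg (χ G(x)) y + s * (G(up) - G(lo))| ≤ ε`
* `els_final`  : `|E(χ q)| ≤ s + ε` and `|E(χ q) + s| ≤ s + ε` for `0 ≤ q ≤ G(x) ≤ 1`
-/

set_option autoImplicit false

open MeasureTheory Set Filter Topology Metric
open scoped NNReal ENNReal ContDiff

namespace Crest.Agent.R105.Els_173

open Bd_775 Tc_808 Ends_897 Crest.AnalysisR
open IfB_641 (X0)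
open SelT_871 (JT)
open Ni_459 (NI Swd LB cpt_of)
open SkA_8 (Pk)
open Elf_600 (pt pt_mem upK loK)

variable {Y : Set ℂ} {x0 φ χ ψ q : ℂ → ℝ} {a : ℕ → ℂ → ℝ} {F : ℂ → ℂ}

/-- the admissible cut-offs of a component -/
structure Ct (Y : Set ℂ) (O : Set ℂ) (χ : ℂ → ℝ) : Prop where
  lc : LC Y χ
  cpt : HasCompactSupport χ
  rng : ∀ z, χ z ∈ Icc (0:ℝ) 1
  sub : tsupport χ ⊆ O

theorem Ct.mono {O O' : Set ℂ} (h : Ct Y O χ) (hO : O ⊆ O') : Ct Y O' χ :=
  ⟨h.lc, h.cpt, h.rng, h.sub.trans hO⟩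

/-- cut-offs commute with everything -/
theorem ni_lc (h : Pk Y x0 a φ F) (hχ : LC Y χ) (hc : HasCompactSupport χ) (i : ℕ) :
    NI Y (a i) χ := by
  have h1 := N8_602.ni_test (h := fun _ => (1:ℝ)) h.hY h.hx h.tt hχ hc
    (LipschitzWith.const (1:ℝ)) (h.com i)
  simpa only [mul_one] using h1

theorem ni_cut (h : Pk Y x0 a φ F) (hχ : LC Y χ) (hc : HasCompactSupport χ) (hψ : TT Y ψ) {i : ℕ}
    (hni : NI Y (a i) ψ) : NI Y (a i) (fun z => χ z * ψ z) :=
  Nip_31.ni_mul h.hY h.hx (h.tta i) (h.swd i) (TT.lc hχ) hψ (ni_lc h hχ hc i) hni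

/-- minimality along admissible directions -/
theorem min_along (h : Pk Y x0 a φ F) (hψ : TT Y ψ) (hni : ∀ i, NI Y (a i) ψ) (t : ℝ) :
    JT Y x0 φ ≤ JT Y x0 (fun z => φ z + t * ψ z) := by
  have hYc : IsClosed Y := (cpt_of h.hY).isClosed
  refine h.min _ (h.tt.add hYc ((TT.const t).mul hYc hψ)) fun i => ?_
  have h1 := Nip_31.linG h.hY h.hx (h.tta i) (h.swd i) h.tt hψ (h.com i) (hni i) 1 t
  simpa only [one_mul] using h1

/-- E-L, crude form, for `χ ψ` in terms of `y = Im F` -/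
theorem crude_y (h : Pk Y x0 a φ F) (hψ : TT Y ψ) (hc : HasCompactSupport ψ)
    (hni : ∀ i, NI Y (a i) ψ) :
    |∫ z in Yᶜ, wdg ψ (fun w => (F w).im) z| ≤
      ∑' K : Cmp Y, osc Y φ K.1 * osc Y ψ K.1 := by
  have hYc := cpt_of h.hY
  rw [setIntegral_congr_fun hYc.isClosed.isOpen_compl.measurableSet fun z hz =>
    Elf_600.wdg_eq_dot (x := fun w => x0 w + φ w) h.hol hYc.isClosed h.re _ hz]
  exact Elf_600.el_crude_x h.hY h.hx h.tt hψ hc (min_along h hψ hni)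

/-- finitely many components can be avoided -/
theorem avoid (hY : IsCompact Y) (K0 : Cmp Y) (S : Finset (Cmp Y)) (hS : K0 ∉ S) :
    ∃ O : Set ℂ, IsOpen O ∧ K0.1 ⊆ O ∧ ∀ K ∈ S, Disjoint K.1 O := by
  classical
  refine ⟨(⋃ K ∈ S, K.1)ᶜ, ?_, ?_, ?_⟩
  · exact (S.finite_toSet.isClosed_biUnion fun K _ => (K.isCompact hY).isClosed).isOpen_compl
  · intro z hz hz'
    simp only [mem_iUnion] at hz'
    obtain ⟨K, hK, hzK⟩ := hz'
    have : K = K0 := by rw [K.eq_of_mem hzK, K0.eq_of_mem hz]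
    exact hS (this ▸ hK)
  · intro K hK
    rw [disjoint_left]
    intro z hz hz'
    exact hz' (mem_iUnion₂.2 ⟨K, hK, hz⟩)

/-- **the E-L side, upper bound** -/
theorem els_upper (h : Pk Y x0 a φ F) (K0 : Cmp Y) (hψ : TT Y ψ) (hni : ∀ i, NI Y (a i) ψ)
    {ε : ℝ} (hε : 0 < ε) :
    ∃ O, IsOpen O ∧ K0.1 ⊆ O ∧ ∀ χ, Ct Y O χ →
      |∫ z in Yᶜ, wdg (fun z => χ z * ψ z) (fun w => (F w).im) z| ≤
        osc Y φ K0.1 * osc Y ψ K0.1 + ε := by
  classical
  have hYc := cpt_of h.hY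
  have hs : Summable fun K : Cmp Y => osc Y φ K.1 * osc Y ψ K.1 :=
    Elf_600.summable_mul_of_sq h.tt.sum hψ.sum
  have h0 : ∀ K : Cmp Y, 0 ≤ osc Y φ K.1 * osc Y ψ K.1 := fun K =>
    mul_nonneg (osc_nonneg _ _ _) (osc_nonneg _ _ _)
  obtain ⟨S, hS⟩ := (summable_iff_vanishing_norm.1 hs) ε hε
  obtain ⟨O, hO, hKO, hav⟩ := avoid hYc K0 (S.erase K0) (Finset.notMem_erase _ _)
  refine ⟨O, hO, hKO, fun χ hχ => ?_⟩
  have hT : TT Y (fun z => χ z * ψ z) := (TT.lc hχ.lc).mul hYc.isClosed hψ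
  refine (crude_y h hT hχ.cpt.mul_right fun i => ni_cut h hχ.lc hχ.cpt hψ (hni i)).trans ?_
  -- termwise bound
  have hle : ∀ K : Cmp Y, osc Y φ K.1 * osc Y (fun z => χ z * ψ z) K.1 ≤
      |χ (pt K)| * (osc Y φ K.1 * osc Y ψ K.1) := by
    intro K
    have h1 := Elf_600.osc_lc_mul hχ.lc hψ.q.bdd K
    calc _ ≤ osc Y φ K.1 * (|χ (pt K)| * osc Y ψ K.1) :=
          mul_le_mul_of_nonneg_left h1 (osc_nonneg _ _ _)
      _ = _ := by ring
  have hc1 : ∀ K : Cmp Y, |χ (pt K)| ≤ 1 := fun K => by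
    rw [abs_of_nonneg (hχ.rng _).1]; exact (hχ.rng _).2
  have hs2 : Summable fun K : Cmp Y => |χ (pt K)| * (osc Y φ K.1 * osc Y ψ K.1) :=
    hs.of_nonneg_of_le (fun K => mul_nonneg (abs_nonneg _) (h0 K)) fun K =>
      mul_le_of_le_one_left (h0 K) (hc1 K)
  have hs1 : Summable fun K : Cmp Y => osc Y φ K.1 * osc Y (fun z => χ z * ψ z) K.1 :=
    Elf_600.summable_mul_of_sq h.tt.sum hT.sum
  refine (hs1.tsum_le_tsum hle hs2).trans ?_
  -- split off the finite set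
  set T : Finset (Cmp Y) := S ∪ {K0} with hTd
  have hzero : ∀ K ∈ S.erase K0, |χ (pt K)| * (osc Y φ K.1 * osc Y ψ K.1) = 0 := by
    intro K hK
    have h2 : pt K ∉ O := fun hm => disjoint_left.1 (hav K hK) (pt_mem K) hm
    have h3 : χ (pt K) = 0 := image_eq_zero_of_notMem_tsupport fun hm => h2 (hχ.sub hm)
    rw [h3, abs_zero, zero_mul]
  -- pointwise comparison with the sum over the complement of `S`
  refine hs2.tsum_le_of_sum_le fun A => ?_
  have h4 : ∑ K ∈ A, |χ (pt K)| * (osc Y φ K.1 * osc Y ψ K.1) ≤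
      osc Y φ K0.1 * osc Y ψ K0.1 +
        ∑ K ∈ A \ S, osc Y φ K.1 * osc Y ψ K.1 := by
    have h5 : ∑ K ∈ A, |χ (pt K)| * (osc Y φ K.1 * osc Y ψ K.1) ≤
        ∑ K ∈ A, ((if K = K0 then osc Y φ K0.1 * osc Y ψ K0.1 else 0) +
          if K ∈ S then 0 else osc Y φ K.1 * osc Y ψ K.1) := by
      refine Finset.sum_le_sum fun K _ => ?_
      by_cases hK0 : K = K0
      · subst hK0
        rw [if_pos rfl]
        have : |χ (pt K)| * (osc Y φ K.1 * osc Y ψ K.1) ≤ osc Y φ K.1 * osc Y ψ K.1 :=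
          mul_le_of_le_one_left (h0 K) (hc1 K)
        have h6 : 0 ≤ if K ∈ S then 0 else osc Y φ K.1 * osc Y ψ K.1 := by
          split_ifs
          · exact le_rfl
          · exact h0 K
        linarith
      · rw [if_neg hK0, zero_add]
        split_ifs with hKS
        · exact (hzero K (Finset.mem_erase.2 ⟨hK0, hKS⟩)).le
        · exact mul_le_of_le_one_left (h0 K) (hc1 K)
    refine h5.trans ?_
    rw [Finset.sum_add_distrib]
    refine add_le_add ?_ ?_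
    · rw [Finset.sum_ite_eq']
      split_ifs
      · exact le_rfl
      · exact h0 K0
    · rw [Finset.sum_ite, Finset.sum_const_zero, zero_add]
      refine le_of_eq (Finset.sum_congr ?_ fun _ _ => rfl)
      ext K
      simp [Finset.mem_sdiff]
  have h7 := hS (A \ S) Finset.sdiff_disjoint
  rw [Real.norm_eq_abs] at h7
  have h8 := le_abs_self (∑ K ∈ A \ S, osc Y φ K.1 * osc Y ψ K.1)
  linarith

/-- **the E-L side, exact form for functions of `x`** -/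
theorem els_exact (h : Pk Y x0 a φ F) (K0 : Cmp Y) {G : ℝ → ℝ} {Λ : ℝ≥0} (hG : LipschitzWith Λ G)
    {ε : ℝ} (hε : 0 < ε) :
    ∃ O, IsOpen O ∧ K0.1 ⊆ O ∧ ∀ χ, Ct Y O χ → (∀ z ∈ K0.1, χ z = 1) →
      |(∫ z in Yᶜ, wdg (fun z => χ z * G (x0 z + φ z)) (fun w => (F w).im) z) +
        osc Y φ K0.1 * (G (upK Y φ K0) - G (loK Y φ K0))| ≤ ε := by
  classical
  have hYc := cpt_of h.hY
  have hs : Summable fun K : Cmp Y => (Λ : ℝ) * osc Y φ K.1 ^ 2 := h.tt.sum.mul_left _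
  have h0 : ∀ K : Cmp Y, 0 ≤ (Λ : ℝ) * osc Y φ K.1 ^ 2 := fun K => by positivity
  obtain ⟨S, hS⟩ := (summable_iff_vanishing_norm.1 hs) ε hε
  obtain ⟨O, hO, hKO, hav⟩ := avoid hYc K0 (S.erase K0) (Finset.notMem_erase _ _)
  refine ⟨O, hO, hKO, fun χ hχ hχ1 => ?_⟩
  have hmin : ∀ t : ℝ, JT Y x0 φ ≤
      JT Y x0 (fun z => φ z + t * (χ z * G (x0 z + φ z))) :=
    min_along h (Elf_600.test_chiG hYc h.hx h.tt hχ.lc hχ.cpt hG).1
      fun i => N8_602.ni_test h.hY h.hx h.tt hχ.lc hχ.cpt hG (h.com i)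
  have hex := Elf_600.cut_exact h.hY h.hx h.tt h.hol h.re hχ.lc hχ.cpt hG hmin
  set T : Cmp Y → ℝ := fun K =>
    (upK Y φ K - loK Y φ K) * (χ (pt K) * (G (upK Y φ K) - G (loK Y φ K))) with hT
  have hoe : ∀ K : Cmp Y, osc Y φ K.1 = upK Y φ K - loK Y φ K := fun K =>
    Elf_600.osc_eq h.hY h.tt.q.bdd K
  have hc1 : ∀ K : Cmp Y, |χ (pt K)| ≤ 1 := fun K => by
    rw [abs_of_nonneg (hχ.rng _).1]; exact (hχ.rng _).2
  have hTle : ∀ K, |T K| ≤ |χ (pt K)| * ((Λ : ℝ) * osc Y φ K.1 ^ 2) := by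
    intro K
    have h1 : |G (upK Y φ K) - G (loK Y φ K)| ≤ Λ * osc Y φ K.1 := by
      have h2 := hG.dist_le_mul (upK Y φ K) (loK Y φ K)
      rw [Real.dist_eq, Real.dist_eq, ← hoe K, abs_of_nonneg (osc_nonneg _ _ _)] at h2
      exact h2
    simp only [hT]
    rw [← hoe K, abs_mul, abs_mul, abs_of_nonneg (osc_nonneg Y φ K.1)]
    calc osc Y φ K.1 * (|χ (pt K)| * |G (upK Y φ K) - G (loK Y φ K)|)
        ≤ osc Y φ K.1 * (|χ (pt K)| * (Λ * osc Y φ K.1)) :=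
          mul_le_mul_of_nonneg_left (mul_le_mul_of_nonneg_left h1 (abs_nonneg _))
            (osc_nonneg _ _ _)
      _ = _ := by ring
  have hsT : Summable T := by
    refine Summable.of_norm_bounded (g := fun K => (Λ : ℝ) * osc Y φ K.1 ^ 2) hs fun K => ?_
    exact (hTle K).trans (mul_le_of_le_one_left (h0 K) (hc1 K))
  have hT0 : T K0 = osc Y φ K0.1 * (G (upK Y φ K0) - G (loK Y φ K0)) := by
    simp only [hT]
    rw [hχ1 _ (pt_mem K0), one_mul, ← hoe K0]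
  have hsplit : ∑' K, T K = T K0 + ∑' K, (if K = K0 then 0 else T K) := hsT.tsum_eq_add_tsum_ite K0
  have e : (∫ z in Yᶜ, wdg (fun z => χ z * G (x0 z + φ z)) (fun w => (F w).im) z) +
      osc Y φ K0.1 * (G (upK Y φ K0) - G (loK Y φ K0)) =
      -∑' K, (if K = K0 then 0 else T K) := by
    rw [← hT0]
    linarith [hex, hsplit]
  rw [e, abs_neg]
  have hzero : ∀ K ∈ S.erase K0, T K = 0 := by
    intro K hK
    have h2 : pt K ∉ O := fun hm => disjoint_left.1 (hav K hK) (pt_mem K) hm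
    have h3 : χ (pt K) = 0 := image_eq_zero_of_notMem_tsupport fun hm => h2 (hχ.sub hm)
    simp only [hT, h3, zero_mul, mul_zero]
  have hsN : Summable fun K => ‖if K = K0 then 0 else T K‖ := by
    refine hs.of_nonneg_of_le (fun _ => norm_nonneg _) fun K => ?_
    split_ifs
    · rw [norm_zero]; exact h0 K
    · exact (hTle K).trans (mul_le_of_le_one_left (h0 K) (hc1 K))
  rw [← Real.norm_eq_abs]
  refine (norm_tsum_le_tsum_norm hsN).trans ?_
  refine hsN.tsum_le_of_sum_le fun A => ?_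
  have h5 : ∑ K ∈ A, ‖if K = K0 then 0 else T K‖ ≤
      ∑ K ∈ A, if K ∈ S then 0 else (Λ : ℝ) * osc Y φ K.1 ^ 2 := by
    refine Finset.sum_le_sum fun K _ => ?_
    by_cases hK0 : K = K0
    · rw [if_pos hK0, norm_zero]
      split_ifs
      · exact le_rfl
      · exact h0 K
    · rw [if_neg hK0]
      split_ifs with hKS
      · rw [hzero K (Finset.mem_erase.2 ⟨hK0, hKS⟩), norm_zero]
      · exact (hTle K).trans (mul_le_of_le_one_left (h0 K) (hc1 K))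
  refine h5.trans ?_
  rw [Finset.sum_ite, Finset.sum_const_zero, zero_add]
  have h6 : ∑ K ∈ A with K ∉ S, (Λ : ℝ) * osc Y φ K.1 ^ 2 =
      ∑ K ∈ A \ S, (Λ : ℝ) * osc Y φ K.1 ^ 2 := by
    refine Finset.sum_congr ?_ fun _ _ => rfl
    ext K
    simp [Finset.mem_sdiff]
  rw [h6]
  have h7 := hS (A \ S) Finset.sdiff_disjoint
  rw [Real.norm_eq_abs] at h7
  exact (le_abs_self _).trans h7.le

/-- oscillation of a `[0,1]`-valued function -/
theorem osc_le_one {O : Set ℂ} (hO : IsOpen O) {K : Set ℂ} (hK : K ⊆ O)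
    (h : ∀ z ∈ O, ψ z ∈ Icc (0:ℝ) 1) : osc Y ψ K ≤ 1 :=
  osc_le zero_le_one ⟨O, hO, hK, fun z hz _ w hw _ => by
    have h1 := h z hz
    have h2 := h w hw
    rw [abs_le]; constructor <;> linarith [h1.1, h1.2, h2.1, h2.2]⟩


end Crest.Agent.R105.Els_173
end

-- ▼ part R105/Els2_395
section

/-!
# Row 105, S0138, node E13: the E-L side, mirror form (helper395, after helper173's Els1)

`els_final_c`: as `Els_173.els_final` with an arbitrary jump `c = G (up) - G (lo)` (`c = 1`: 173's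
form, `c = -1`: steps down, the mirror case `x < sg` of E13):
`|E(χ q)| ≤ s + ε` and `|E(χ q) + s c| ≤ s + ε`.
-/

set_option autoImplicit false

open MeasureTheory Set Filter Topology Metric
open scoped NNReal ENNReal ContDiff

namespace Crest.Agent.R105.Els_395

open Bd_775 Tc_808 Ends_897 Crest.AnalysisR
open IfB_641 (X0)
open SelT_871 (JT)
open Ni_459 (NI Swd LB cpt_of)
open SkA_8 (Pk)
open Elf_600 (pt pt_mem upK loK)
open Els_173

variable {Y : Set ℂ} {x0 φ χ ψ q : ℂ → ℝ} {a : ℕ → ℂ → ℝ} {F : ℂ → ℂ}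

/-- **the E-L side, final form with any jump `c`.** `0 ≤ q ≤ G(x) ≤ 1`, `G (up) - G (lo) = c`:
`|E(χ q)| ≤ s + ε` and `|E(χ q) + s * c| ≤ s + ε` for every cut-off `χ` of `K0` with small
support, `s = osc φ K0`, `E(ψ) = ∫ dψ ∧ dy`. -/
theorem els_final_c (h : Pk Y x0 a φ F) (K0 : Cmp Y) {G : ℝ → ℝ} {Λ : ℝ≥0} (hG : LipschitzWith Λ G)
    (hG01 : ∀ t, G t ∈ Icc (0:ℝ) 1) {c : ℝ} (hG1 : G (upK Y φ K0) - G (loK Y φ K0) = c) {χ0 q : ℂ → ℝ}
    (hχ0 : LC Y χ0) (hχ0c : HasCompactSupport χ0) {O1 : Set ℂ} (hO1 : IsOpen O1)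
    (hKO1 : K0.1 ⊆ O1) (h1 : ∀ z ∈ O1, χ0 z = 1) (q0 : ∀ z ∈ O1, 0 ≤ q z)
    (q1 : ∀ z ∈ O1, q z ≤ G (x0 z + φ z)) (hq : TT Y (fun z => χ0 z * q z))
    (hni : ∀ i, NI Y (a i) (fun z => χ0 z * q z)) {ε : ℝ} (hε : 0 < ε) :
    ∃ O, IsOpen O ∧ K0.1 ⊆ O ∧ ∀ χ, Ct Y O χ → (∀ z ∈ K0.1, χ z = 1) →
      |∫ z in Yᶜ, wdg (fun z => χ z * q z) (fun w => (F w).im) z| ≤ osc Y φ K0.1 + ε ∧
      |(∫ z in Yᶜ, wdg (fun z => χ z * q z) (fun w => (F w).im) z) + osc Y φ K0.1 * c| ≤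
        osc Y φ K0.1 + ε := by
  have hYc := cpt_of h.hY
  have hYo : IsOpen Yᶜ := hYc.isClosed.isOpen_compl
  have hm : MeasurableSet Yᶜ := hYo.measurableSet
  set s := osc Y φ K0.1 with hs
  have hs0 : 0 ≤ s := osc_nonneg _ _ _
  obtain ⟨tG, -, -⟩ := Elf_600.test_chiG hYc h.hx h.tt hχ0 hχ0c hG
  have nG : ∀ i, NI Y (a i) (fun z => χ0 z * G (x0 z + φ z)) := fun i =>
    N8_602.ni_test h.hY h.hx h.tt hχ0 hχ0c hG (h.com i)
  set ψ1 : ℂ → ℝ := fun z => χ0 z * q z with hψ1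
  set ψ2 : ℂ → ℝ := fun z => χ0 z * G (x0 z + φ z) + (-1) * ψ1 z with hψ2
  have t2 : TT Y ψ2 := tG.add hYc.isClosed ((TT.const (-1)).mul hYc.isClosed hq)
  have n2 : ∀ i, NI Y (a i) ψ2 := fun i => by
    have h3 := Nip_31.linG h.hY h.hx (h.tta i) (h.swd i) tG hq (nG i) (hni i) 1 (-1)
    simpa only [one_mul] using h3
  obtain ⟨P1, hP1, hK1, b1⟩ := els_upper h K0 hq hni (half_pos hε)
  obtain ⟨P2, hP2, hK2, b2⟩ := els_upper h K0 t2 n2 (half_pos hε)
  obtain ⟨P3, hP3, hK3, b3⟩ := els_exact h K0 hG (half_pos hε)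
  have o1 : osc Y ψ1 K0.1 ≤ 1 := osc_le_one hO1 hKO1 fun z hz => by
    have e1 := hG01 (x0 z + φ z)
    simp only [hψ1, h1 z hz, one_mul]
    exact ⟨q0 z hz, (q1 z hz).trans e1.2⟩
  have o2 : osc Y ψ2 K0.1 ≤ 1 := osc_le_one hO1 hKO1 fun z hz => by
    have e1 := hG01 (x0 z + φ z)
    have e2 := q0 z hz
    have e3 := q1 z hz
    simp only [hψ2, hψ1, h1 z hz, one_mul]
    exact ⟨by linarith, by linarith [e1.2]⟩
  refine ⟨O1 ∩ (P1 ∩ (P2 ∩ P3)), hO1.inter (hP1.inter (hP2.inter hP3)),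
    subset_inter hKO1 (subset_inter hK1 (subset_inter hK2 hK3)), fun χ hχ hχ1 => ?_⟩
  have c1 := b1 χ (hχ.mono fun z hz => hz.2.1)
  have c2 := b2 χ (hχ.mono fun z hz => hz.2.2.1)
  have c3 := b3 χ (hχ.mono fun z hz => hz.2.2.2) hχ1
  rw [hG1] at c3
  have m1 : s * osc Y ψ1 K0.1 ≤ s := mul_le_of_le_one_right hs0 o1
  have m2 : s * osc Y ψ2 K0.1 ≤ s := mul_le_of_le_one_right hs0 o2
  -- replace `ψ1` by `q`
  have hχz : ∀ z, z ∉ O1 → χ z = 0 := fun z hz =>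
    image_eq_zero_of_notMem_tsupport fun hm => hz (hχ.sub hm).1
  have e1 : (fun z => χ z * ψ1 z) = fun z => χ z * q z := by
    funext z
    by_cases hz : z ∈ O1
    · simp only [hψ1, h1 z hz, one_mul]
    · simp only [hχz z hz, zero_mul]
  rw [e1] at c1
  -- replace `ψ2`
  have e2 : (fun z => χ z * ψ2 z) = fun z => χ z * G (x0 z + φ z) + (-1) * (χ z * q z) := by
    funext z
    by_cases hz : z ∈ O1
    · simp only [hψ2, hψ1, h1 z hz, one_mul]; ring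
    · simp only [hχz z hz]; ring
  -- additivity of the integral
  obtain ⟨tχG, -, -⟩ := Elf_600.test_chiG hYc h.hx h.tt hχ.lc hχ.cpt hG
  have tχq : TT Y (fun z => χ z * q z) := by
    rw [← e1]; exact (TT.lc hχ.lc).mul hYc.isClosed hq
  have d1 := (Bd_775.Q.ae_diff tχG.q hYc.isClosed)
  have d2 := (Bd_775.Q.ae_diff tχq.q hYc.isClosed)
  have dy : ∀ {ψ : ℂ → ℝ}, TT Y ψ → HasCompactSupport ψ →
      IntegrableOn (wdg ψ (fun w => (F w).im)) Yᶜ := by
    intro ψ hψ hψc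
    have e3 : ∀ z ∈ Yᶜ, wdg ψ (fun w => (F w).im) z =
        dot (fun w => x0 w + φ w) ψ z := fun z hz =>
      Elf_600.wdg_eq_dot (x := fun w => x0 w + φ w) h.hol hYc.isClosed h.re _ hz
    refine IntegrableOn.congr_fun ?_ (fun z hz => (e3 z hz).symm) hm
    obtain ⟨i1, -⟩ := Mid_987.di_x0 hYc h.hx hψ.q hψc
    refine (i1.add (integrableOn_dot h.tt.q hψ.q)).congr ?_
    filter_upwards [h.tt.q.ae_diff hYc.isClosed] with z h4
    have h5 : DifferentiableAt ℝ x0 z := h.hx.sm.differentiable (by simp) z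
    simp only [Pi.add_apply]
    unfold dot
    rw [gx_add h5 h4, gy_add h5 h4]
    ring
  have iA := dy tχG hχ.cpt.mul_right
  have iB := dy tχq hχ.cpt.mul_right
  have e4 : ∫ z in Yᶜ, wdg (fun z => χ z * ψ2 z) (fun w => (F w).im) z =
      (∫ z in Yᶜ, wdg (fun z => χ z * G (x0 z + φ z)) (fun w => (F w).im) z) -
        ∫ z in Yᶜ, wdg (fun z => χ z * q z) (fun w => (F w).im) z := by
    rw [e2, ← integral_sub iA iB]
    refine integral_congr_ae ?_
    filter_upwards [d1, d2] with z h4 h5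
    unfold wdg
    rw [gx_add h4 (h5.const_mul (-1)), gy_add h4 (h5.const_mul (-1))]
    have g1 : gx (fun z => (-1) * (χ z * q z)) z = -gx (fun z => χ z * q z) z := by
      unfold gx
      rw [fderiv_const_mul h5]; simp
    have g2 : gy (fun z => (-1) * (χ z * q z)) z = -gy (fun z => χ z * q z) z := by
      unfold gy
      rw [fderiv_const_mul h5]; simp
    rw [g1, g2]
    ring
  rw [e4] at c2
  refine ⟨by linarith, ?_⟩
  rw [abs_le] at c2 c3 ⊢
  constructor <;> linarith [c2.1, c2.2, c3.1, c3.2]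


end Crest.Agent.R105.Els_395
end

-- ▼ part R105/Bal4_173
section

/-!
# Row 105, S0138, E13, BAL piece (B4) of 61 #11579: the E-L side for chains (helper173)

* `lohi`, `osc_wd` : range of `φ` at `K` = range of `re` on the picture component
* `el_chn` : `0 ≤ q ≤ G(x) ≤ 1` near `K`, `∫ d(χ_n q) ∧ dy → c` :
  `|c| ≤ s ∧ |- s (G hi - G lo) - c| ≤ s`
* `el_gg` : the same for `q = gg ^ 2`, `G = θ ^ 2`, from `Adg_600.Uc`
-/

set_option autoImplicit false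

open MeasureTheory Set Filter Topology Metric
open scoped NNReal ENNReal ContDiff

namespace Crest.Agent.R105.Bal_173

open Bd_775 Tc_808 Ends_897 Crest.AnalysisR
open IfB_641 (X0)
open Ni_459 (NI cpt_of)
open SkA_8 (Pk)
open Elf_600 (pt pt_mem pt_mem' cc_pt upK loK)
open Els_173 (Ct)
open Fml_61 (ChnE)
open E13_499 (cF Rmp Stp gg mm)

noncomputable section

variable {Y : Set ℂ} {x0 φ A χ0 q : ℂ → ℝ} {a : ℕ → ℂ → ℝ} {F : ℂ → ℂ} {χ : ℕ → ℂ → ℝ}
  {G h1 θ : ℝ → ℝ} {O : Set ℂ}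

/-- a component of `Yᶜᶜ` is a component of `Y` -/
def ty (K : Cmp Yᶜᶜ) : Cmp Y := ⟨K.1, by
  obtain ⟨z, hz, e⟩ := K.2
  exact ⟨z, not_not.1 hz, by rw [e, compl_compl]⟩⟩

@[simp] theorem ty_val (K : Cmp Yᶜᶜ) : (ty K).1 = K.1 := rfl

/-- jump of `φ` at `K` = width of the picture component -/
theorem osc_wd (h : Pk Y x0 a φ F) (K : Cmp Yᶜᶜ) : osc Y φ K.1 = Sqr_185.wd (cF h K).1 := by
  have hx : X0 Yᶜᶜ x0 := by rw [compl_compl]; exact h.hx
  have h2 := Ta_937.osc_coord (Uw6_913.endMap h) hx (fun z hz => (h.re z hz).symm) K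
  have e : osc Yᶜᶜ φ K.1 = osc Y φ K.1 := congrArg (fun S => osc S φ K.1) (compl_compl Y)
  rw [← e]
  exact h2

/-- range of `φ` at `K` = range of `re` on the picture component -/
theorem lohi (h : Pk Y x0 a φ F) (K : Cmp Yᶜᶜ) :
    loK Y φ (ty K) = Sqr_185.lo (cF h K).1 ∧ upK Y φ (ty K) = Sqr_185.hi (cF h K).1 := by
  have hE := Uw6_913.endMap h
  have hYc := cpt_of h.hY
  have hLc : IsCompact (cF h K).1 := Cmp.isCompact (Ends_897.isCompact_compl hE.hV) _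
  have e1 : eK Yᶜᶜ K.1 = eK Y K.1 := congrArg (fun S => eK S K.1) (compl_compl Y)
  have key : ∀ ε > 0, ∀ᶠ z in eK Y K.1,
      Sqr_185.lo (cF h K).1 - ε < φ z ∧ φ z < Sqr_185.hi (cF h K).1 + ε := by
    intro ε hε
    have h2 : {w : ℂ | Sqr_185.lo (cF h K).1 - ε < w.re ∧ w.re < Sqr_185.hi (cF h K).1 + ε} ∈
        eK (F '' Yᶜ)ᶜ (cF h K).1 := by
      refine mem_eK.2 ⟨_, ?_, fun w hw => ?_, fun w hw _ => hw⟩
      · exact (isOpen_lt continuous_const Complex.continuous_re).inter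
          (isOpen_lt Complex.continuous_re continuous_const)
      · have g1 := Sqr_185.lo_le hLc hw
        have g2 := Sqr_185.le_hi hLc hw
        exact ⟨by linarith, by linarith⟩
    have h3 := (Ta_937.tendsto_corE hE K).eventually h2
    rw [e1] at h3
    have h4 : ∀ᶠ z in eK Y K.1, z ∉ tsupport x0 ∧ z ∉ Y := by
      refine mem_eK.2 ⟨(tsupport x0)ᶜ, (isClosed_tsupport x0).isOpen_compl,
        fun z hz hc => h.hx.zero hc ((ty K).subset hz), fun z hz hzY => ⟨hz, hzY⟩⟩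
    filter_upwards [h3, h4] with z h5 h6
    have h7 := h.re z h6.2
    rw [image_eq_zero_of_notMem_tsupport h6.1, zero_add] at h7
    rw [← h7]
    exact h5
  have hb := Ni_459.LB.of_bdd h.tt.q.bdd
  have u1 : upK Y φ (ty K) ≤ Sqr_185.hi (cF h K).1 := by
    refine le_of_forall_pos_le_add fun ε hε => ?_
    obtain ⟨N, hN, hKN, h5⟩ := mem_eK.1 (key ε hε)
    exact Ni_459.up_le h.hY hb (Ni_459.nb_of_mem (pt_mem' (ty K)) hN (by rw [cc_pt]; exact hKN))
      fun w hw hwY => (h5 w hw hwY).2.le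
  have l1 : Sqr_185.lo (cF h K).1 ≤ loK Y φ (ty K) := by
    refine le_of_forall_pos_sub_le fun ε hε => ?_
    obtain ⟨N, hN, hKN, h5⟩ := mem_eK.1 (key ε hε)
    exact Ni_459.le_lo h.hY hb (Ni_459.nb_of_mem (pt_mem' (ty K)) hN (by rw [cc_pt]; exact hKN))
      fun w hw hwY => (h5 w hw hwY).1.le
  have h8 := Elf_600.osc_eq h.hY h.tt.q.bdd (ty K)
  rw [ty_val, osc_wd h K] at h8
  unfold Sqr_185.wd at h8
  exact ⟨by linarith, by linarith⟩

/-- **(B4) the E-L side for chains** -/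
theorem el_chn (h : Pk Y x0 a φ F) (K : Cmp Yᶜᶜ) {Λ : ℝ≥0} (hG : LipschitzWith Λ G)
    (hG01 : ∀ t, G t ∈ Icc (0:ℝ) 1) (hχ0 : LC Y χ0) (hχ0c : HasCompactSupport χ0) {O1 : Set ℂ}
    (hO1 : IsOpen O1) (hKO1 : K.1 ⊆ O1) (h1 : ∀ z ∈ O1, χ0 z = 1) (q0 : ∀ z ∈ O1, 0 ≤ q z)
    (q1 : ∀ z ∈ O1, q z ≤ G (x0 z + φ z)) (hq : TT Y (fun z => χ0 z * q z))
    (hni : ∀ i, NI Y (a i) (fun z => χ0 z * q z)) (hχ : ChnE Yᶜᶜ K.1 χ) {c : ℝ}
    (hc : Tendsto (fun n => ∫ z in Yᶜ, wdg (fun z => χ n z * q z) (fun w => (F w).im) z) atTop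
      (𝓝 c)) :
    |c| ≤ Sqr_185.wd (cF h K).1 ∧
    |- Sqr_185.wd (cF h K).1 * (G (Sqr_185.hi (cF h K).1) - G (Sqr_185.lo (cF h K).1)) - c| ≤
      Sqr_185.wd (cF h K).1 := by
  obtain ⟨e1, e2⟩ := lohi h K
  have e3 := osc_wd h K
  have main : ∀ ε > 0, |c| ≤ Sqr_185.wd (cF h K).1 + ε ∧
      |c + Sqr_185.wd (cF h K).1 * (G (Sqr_185.hi (cF h K).1) - G (Sqr_185.lo (cF h K).1))| ≤
        Sqr_185.wd (cF h K).1 + ε := by
    intro ε hε
    obtain ⟨N, hN, hKN, h2⟩ := Els_395.els_final_c h (ty K) hG hG01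
      (c := G (Sqr_185.hi (cF h K).1) - G (Sqr_185.lo (cF h K).1)) (by rw [e1, e2]) hχ0 hχ0c hO1
      hKO1 h1 q0 q1 hq hni hε
    rw [ty_val, e3] at h2
    have h3 : ∀ᶠ n in atTop, Ct Y N (χ n) ∧ ∀ z ∈ K.1, χ n z = 1 := by
      filter_upwards [hχ.sh N hN hKN] with n hn
      have h4 := Pct_185.LCE.LC (hχ.lce n)
      rw [compl_compl] at h4
      exact ⟨⟨h4, (hχ.lce n).supp, hχ.c01 n, hn⟩, hχ.one n⟩
    constructor
    · refine le_of_tendsto hc.abs ?_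
      filter_upwards [h3] with n hn
      exact (h2 _ hn.1 hn.2).1
    · refine le_of_tendsto (hc.add_const _).abs ?_
      filter_upwards [h3] with n hn
      exact (h2 _ hn.1 hn.2).2
  constructor
  · exact le_of_forall_pos_le_add fun ε hε => (main ε hε).1
  · have h5 := le_of_forall_pos_le_add fun ε hε => (main ε hε).2
    rw [← abs_neg]
    refine (le_of_eq (congrArg abs ?_)).trans h5
    ring

/-! ### steps -/

theorem stp_lip (h : Stp h1) : ∃ L : ℝ≥0, LipschitzWith L h1 := by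
  have hd : Continuous (deriv h1) := h.smooth.continuous_deriv (by simp)
  obtain ⟨C, hC⟩ := h.supp.exists_bound_of_continuous hd
  refine ⟨C.toNNReal, lipschitzWith_of_nnnorm_deriv_le (h.smooth.differentiable (by simp))
    fun x => ?_⟩
  rw [← NNReal.coe_le_coe, coe_nnnorm, Real.coe_toNNReal']
  exact (hC x).trans (le_max_left _ _)

theorem sq_lip {L : ℝ≥0} (h : LipschitzWith L h1) (h01 : ∀ t, h1 t ∈ Icc (0:ℝ) 1) :
    LipschitzWith (2 * L) fun t => h1 t ^ 2 := by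
  refine LipschitzWith.of_dist_le_mul fun s t => ?_
  have e := h.dist_le_mul s t
  rw [Real.dist_eq] at e ⊢
  have e2 : h1 s ^ 2 - h1 t ^ 2 = (h1 s + h1 t) * (h1 s - h1 t) := by ring
  rw [e2, abs_mul, abs_of_nonneg (add_nonneg (h01 s).1 (h01 t).1)]
  have e3 : h1 s + h1 t ≤ 2 := by linarith [(h01 s).2, (h01 t).2]
  calc (h1 s + h1 t) * |h1 s - h1 t| ≤ 2 * (L * dist s t) :=
        mul_le_mul e3 e (abs_nonneg _) (by norm_num)
    _ = _ := by push_cast; ring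

theorem gg_sq (z : ℂ) : gg x0 A φ h1 θ O z ^ 2 =
    O.indicator (fun z => h1 (x0 z + A z) ^ 2 * θ (x0 z + φ z) ^ 2) z := by
  unfold gg mm
  by_cases hz : z ∈ O
  · rw [indicator_of_mem hz, indicator_of_mem hz]; ring
  · rw [indicator_of_notMem hz, indicator_of_notMem hz]; ring

theorem mm_rg (hh : Stp h1) (hθ : Stp θ) (z : ℂ) : 0 ≤ mm x0 A φ h1 θ z ∧ mm x0 A φ h1 θ z ≤ 1 :=
  ⟨mul_nonneg (hh.rg _).1 (hθ.rg _).1, mul_le_one₀ (hh.rg _).2 (hθ.rg _).1 (hθ.rg _).2⟩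

/-- admissibility of `χ0 gg ^ 2` -/
theorem adm_gg (h : Pk Y x0 a φ F) (i : ℕ) (hh : Stp h1) (hθ : Stp θ) (hχ0 : LC Y χ0)
    (hχ0c : HasCompactSupport χ0) (h01 : ∀ z, χ0 z ∈ Icc (0:ℝ) 1)
    (hu : Adg_600.Uc Y (mm x0 (a i) φ h1 θ) O) :
    Adg_600.Adm Y a (fun z => χ0 z * gg x0 (a i) φ h1 θ O z ^ 2) := by
  obtain ⟨L, hL⟩ := stp_lip hh
  obtain ⟨L', hL'⟩ := stp_lip hθ
  have b1 : ∀ z, h1 (x0 z + a i z) ^ 2 * θ (x0 z + φ z) ^ 2 = mm x0 (a i) φ h1 θ z ^ 2 := fun z => by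
    unfold mm; ring
  have hu2 : Adg_600.Uc Y (fun z => h1 (x0 z + a i z) ^ 2 * θ (x0 z + φ z) ^ 2) O := by
    refine hu.mono h.hY (Ni_459.LB.of_bdd ⟨1, fun z => ?_⟩) (Ni_459.LB.of_bdd ⟨1, fun z => ?_⟩)
      fun z _ => ?_
    · obtain ⟨g1, g2⟩ := mm_rg (x0 := x0) (A := a i) (φ := φ) hh hθ z
      rw [b1, abs_of_nonneg (sq_nonneg _)]
      nlinarith
    · obtain ⟨g1, g2⟩ := mm_rg (x0 := x0) (A := a i) (φ := φ) hh hθ z
      rw [abs_of_nonneg g1]
      exact g2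
    · obtain ⟨g1, g2⟩ := mm_rg (x0 := x0) (A := a i) (φ := φ) hh hθ z
      rw [b1]
      nlinarith
  have h2 := Adg_600.adm_uc h (Adg_600.adm_anchor h i) (Adg_600.adm_phi h) hχ0 hχ0c h01
    (sq_lip hL hh.rg) (sq_lip hL' hθ.rg)
    (fun s => ⟨sq_nonneg _, pow_le_one₀ (hh.rg s).1 (hh.rg s).2⟩)
    (fun s => ⟨sq_nonneg _, pow_le_one₀ (hθ.rg s).1 (hθ.rg s).2⟩) hu2
  have e : (fun z => χ0 z * gg x0 (a i) φ h1 θ O z ^ 2) = fun z => χ0 z *
      O.indicator (fun z => h1 (x0 z + a i z) ^ 2 * θ (x0 z + φ z) ^ 2) z := by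
    funext z; rw [gg_sq]
  rw [e]
  exact h2

/-- **(B4)** -/
theorem el_gg (h : Pk Y x0 a φ F) (K : Cmp Yᶜᶜ) (i : ℕ) (hh : Stp h1) (hθ : Stp θ)
    (hu : Adg_600.Uc Y (mm x0 (a i) φ h1 θ) O) (hχ0 : LC Y χ0) (hχ0c : HasCompactSupport χ0)
    (h01 : ∀ z, χ0 z ∈ Icc (0:ℝ) 1) {O1 : Set ℂ} (hO1 : IsOpen O1) (hKO1 : K.1 ⊆ O1)
    (h2 : ∀ z ∈ O1, χ0 z = 1) (hχ : ChnE Yᶜᶜ K.1 χ) {c s : ℝ} (hs : s = Sqr_185.wd (cF h K).1)
    (hc : Tendsto (fun n => ∫ z in Yᶜ, wdg (fun z => χ n z * gg x0 (a i) φ h1 θ O z ^ 2)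
      (fun w => (F w).im) z) atTop (𝓝 c)) :
    |c| ≤ s ∧
    |- s * (θ (Sqr_185.hi (cF h K).1) ^ 2 - θ (Sqr_185.lo (cF h K).1) ^ 2) - c| ≤ s := by
  obtain ⟨L', hL'⟩ := stp_lip hθ
  have h3 := adm_gg h i hh hθ hχ0 hχ0c h01 hu
  rw [hs]
  refine el_chn h K (G := fun t => θ t ^ 2) (sq_lip hL' hθ.rg)
    (fun s => ⟨sq_nonneg _, pow_le_one₀ (hθ.rg s).1 (hθ.rg s).2⟩) hχ0 hχ0c hO1 hKO1 h2
    (fun z _ => sq_nonneg _) (fun z _ => ?_) h3.tt h3.ni hχ hc
  rw [gg_sq]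
  by_cases hz : z ∈ O
  · rw [indicator_of_mem hz]
    exact mul_le_of_le_one_left (sq_nonneg _) (pow_le_one₀ (hh.rg _).1 (hh.rg _).2)
  · rw [indicator_of_notMem hz]
    exact sq_nonneg _

end

end Crest.Agent.R105.Bal_173
end

-- ▼ part R105/Bal5_173
section

/-!
# Row 105, S0138, E13, BAL piece (B4) of 61 #11579: the adapter of the cuts (helper173)

* `lo_mm` : `lo (mm) = 0` at `K` for a step `θ` inside the range of `K`
* `uc_of` : `E13_499.Uc Y K.1 mm O` and `Rmp θ` give `Adg_600.Uc Y mm O`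
* `el_bal` : the E-L clauses of BAL from 499's `Uc` and `Rmp`
-/

set_option autoImplicit false

open MeasureTheory Set Filter Topology Metric
open scoped NNReal ENNReal ContDiff

namespace Crest.Agent.R105.Bal_173

open Bd_775 Tc_808 Ends_897 Crest.AnalysisR
open IfB_641 (X0)
open Ni_459 (NI cpt_of)
open SkA_8 (Pk)
open Elf_600 (pt pt_mem pt_mem' cc_pt upK loK)
open Els_173 (Ct)
open Fml_61 (ChnE)
open E13_499 (cF Rmp Stp gg mm)

noncomputable section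

variable {Y : Set ℂ} {x0 φ A χ0 q : ℂ → ℝ} {a : ℕ → ℂ → ℝ} {F : ℂ → ℂ} {χ : ℕ → ℂ → ℝ}
  {G h1 θ : ℝ → ℝ} {O : Set ℂ} {ex : ℝ}

theorem mm_LB (hh : Stp h1) (hθ : Stp θ) : Ni_459.LB (mm x0 A φ h1 θ) :=
  Ni_459.LB.of_bdd ⟨1, fun z => by
    obtain ⟨g1, g2⟩ := mm_rg (x0 := x0) (A := A) (φ := φ) hh hθ z
    rw [abs_of_nonneg g1]
    exact g2⟩

/-- values of `φ` near `K` close to the ends of the range -/
theorem near_end (h : Pk Y x0 a φ F) (K : Cmp Yᶜᶜ) {r : ℝ}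
    (hr : r = Sqr_185.lo (cF h K).1 ∨ r = Sqr_185.hi (cF h K).1) {z : ℂ} (hz : z ∈ K.1)
    {N : Set ℂ} (hN : Ni_459.Nb Y z N) {δ : ℝ} (hδ : 0 < δ) :
    ∃ w ∈ N, w ∉ Y ∧ |x0 w + φ w - r| < δ := by
  obtain ⟨e1, e2⟩ := lohi h K
  have hb := Ni_459.LB.of_bdd h.tt.q.bdd
  have hzY : z ∈ Y := (ty K).subset hz
  have l1 : Ni_459.lo Y φ z = Sqr_185.lo (cF h K).1 := by
    rw [← e1]; exact Elf_600.loK_eq (ty K) hz
  have l2 : Ni_459.up Y φ z = Sqr_185.hi (cF h K).1 := by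
    rw [← e2]; exact Elf_600.upK_eq (ty K) hz
  have hT : Ni_459.Nb Y z (tsupport x0)ᶜ := by
    refine Ni_459.nb_of_mem hzY (isClosed_tsupport x0).isOpen_compl fun w hw hc => ?_
    exact h.hx.zero hc (connectedComponentIn_subset _ _ hw)
  rcases hr with rfl | rfl
  · obtain ⟨M, hM, h3⟩ := Ni_459.exists_gt_of_lt_lo h.hY hb
      (show Sqr_185.lo (cF h K).1 - δ < Ni_459.lo Y φ z by rw [l1]; linarith)
    obtain ⟨w, hw, hwY, h4⟩ := Ni_459.exists_of_lo_lt h.hY hb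
      (show Ni_459.lo Y φ z < Sqr_185.lo (cF h K).1 + δ by rw [l1]; linarith)
      ((hN.inter hT).inter hM)
    refine ⟨w, hw.1.1, hwY, ?_⟩
    rw [image_eq_zero_of_notMem_tsupport hw.1.2, zero_add, abs_lt]
    have := h3 w hw.2 hwY
    constructor <;> linarith
  · obtain ⟨M, hM, h3⟩ := Ni_459.exists_lt_of_up_lt h.hY hb
      (show Ni_459.up Y φ z < Sqr_185.hi (cF h K).1 + δ by rw [l2]; linarith)
    obtain ⟨w, hw, hwY, h4⟩ := Ni_459.exists_of_lt_up h.hY hb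
      (show Sqr_185.hi (cF h K).1 - δ < Ni_459.up Y φ z by rw [l2]; linarith)
      ((hN.inter hT).inter hM)
    refine ⟨w, hw.1.1, hwY, ?_⟩
    rw [image_eq_zero_of_notMem_tsupport hw.1.2, zero_add, abs_lt]
    have := h3 w hw.2 hwY
    constructor <;> linarith

theorem lo_mm (h : Pk Y x0 a φ F) (K : Cmp Yᶜᶜ) (hh : Stp h1)
    (hθ : Rmp θ (Sqr_185.lo (cF h K).1) (Sqr_185.hi (cF h K).1) ex) {z : ℂ} (hz : z ∈ K.1) :
    Ni_459.lo Y (mm x0 A φ h1 θ) z ≤ 0 := by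
  obtain ⟨r, hr, hr0⟩ : ∃ r, (r = Sqr_185.lo (cF h K).1 ∨ r = Sqr_185.hi (cF h K).1) ∧ θ r = 0 := by
    rcases hθ.sg with ⟨-, h2, -⟩ | ⟨-, -, h2⟩
    · exact ⟨_, Or.inl rfl, h2⟩
    · exact ⟨_, Or.inr rfl, h2⟩
  by_contra hcon
  push Not at hcon
  obtain ⟨c, hc0, hc⟩ := exists_between hcon
  obtain ⟨N, hN, h3⟩ := Ni_459.exists_gt_of_lt_lo h.hY (mm_LB (x0 := x0) (A := A) (φ := φ) hh hθ.st) hc
  obtain ⟨δ, hδ, h4⟩ := Metric.continuousAt_iff.1 (hθ.st.smooth.continuous.continuousAt (x := r)) c hc0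
  obtain ⟨w, hw, hwY, h5⟩ := near_end h K hr hz hN hδ
  have h6 := h4 (x := x0 w + φ w) (by rwa [Real.dist_eq])
  rw [hr0, Real.dist_eq, sub_zero, abs_of_nonneg (hθ.st.rg _).1] at h6
  have h7 := h3 w hw hwY
  have h8 : mm x0 A φ h1 θ w ≤ θ (x0 w + φ w) :=
    mul_le_of_le_one_left (hθ.st.rg _).1 (hh.rg _).2
  linarith

/-- **the adapter** -/
theorem uc_of (h : Pk Y x0 a φ F) (K : Cmp Yᶜᶜ) (hh : Stp h1)
    (hθ : Rmp θ (Sqr_185.lo (cF h K).1) (Sqr_185.hi (cF h K).1) ex)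
    (hu : E13_499.Uc Y K.1 (mm x0 A φ h1 θ) O) : Adg_600.Uc Y (mm x0 A φ h1 θ) O where
  op z hz _ := hu.op.mem_nhds hz
  cl z hzY h0 hzO := hu.co z hzY h0 hzO
  cmp z hzY h0 := by
    have hzK : z ∉ K.1 := fun hz => absurd (lo_mm (A := A) h K hh hθ hz) (not_le.2 h0)
    have hne : (Cmp.of hzY).1 ≠ K.1 := fun e => hzK (by
      rw [← e]; exact mem_connectedComponentIn hzY)
    obtain ⟨c, hc0, hc⟩ := exists_between h0
    obtain ⟨N, hN, h3⟩ := Ni_459.exists_gt_of_lt_lo h.hY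
      (mm_LB (x0 := x0) (A := A) (φ := φ) hh hθ.st) hc
    have h4 : ∀ᶠ w in eK Y (Cmp.of hzY).1, c ≤ mm x0 A φ h1 θ w :=
      mem_eK.2 ⟨N, hN.op, hN.sub, fun w hw hwY => (h3 w hw hwY).le⟩
    rcases hu.lc (Cmp.of hzY) hne ⟨c, hc0, h4⟩ with h5 | h5
    · left
      obtain ⟨M, hM, hKM, h6⟩ := mem_eK.1 h5
      exact ⟨M, Ni_459.nb_of_mem hzY hM hKM, h6⟩
    · right
      obtain ⟨M, hM, hKM, h6⟩ := mem_eK.1 h5
      exact ⟨M, Ni_459.nb_of_mem hzY hM hKM, h6⟩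

/-- **(B4) in 499's letters** -/
theorem el_bal (h : Pk Y x0 a φ F) (K : Cmp Yᶜᶜ) (i : ℕ) (hh : Stp h1)
    (hθ : Rmp θ (Sqr_185.lo (cF h K).1) (Sqr_185.hi (cF h K).1) ex)
    (hu : E13_499.Uc Y K.1 (mm x0 (a i) φ h1 θ) O) (hχ0 : LC Y χ0) (hχ0c : HasCompactSupport χ0)
    (h01 : ∀ z, χ0 z ∈ Icc (0:ℝ) 1) {O1 : Set ℂ} (hO1 : IsOpen O1) (hKO1 : K.1 ⊆ O1)
    (h2 : ∀ z ∈ O1, χ0 z = 1) (hχ : ChnE Yᶜᶜ K.1 χ) {c s : ℝ} (hs : s = Sqr_185.wd (cF h K).1)
    (hc : Tendsto (fun n => ∫ z in Yᶜ, wdg (fun z => χ n z * gg x0 (a i) φ h1 θ O z ^ 2)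
      (fun w => (F w).im) z) atTop (𝓝 c)) :
    |c| ≤ s ∧
    |- s * (θ (Sqr_185.hi (cF h K).1) ^ 2 - θ (Sqr_185.lo (cF h K).1) ^ 2) - c| ≤ s :=
  el_gg h K i hh hθ.st (uc_of h K hh hθ hu) hχ0 hχ0c h01 hO1 hKO1 h2 hχ hs hc

end

end Crest.Agent.R105.Bal_173
end

-- ▼ part R105/Bal2_61
section

/-!
# Row 105, S0138, E13: `BAL` (E13_499), assembly (B5) (helper61)
-/

set_option autoImplicit false

open MeasureTheory Set Filter Topology Metric
open scoped ENNReal NNReal ContDiff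

namespace Crest.Agent.R105.Fml_61

open Bd_775 Tc_808 Ends_897 Crest.AnalysisR
open Pct_185 (PicT)
open Ni_459 (NI)
open SkA_8 (Pk)
open Sqr_185 (SqK)
open E13_499 (EndsOf pu cF gg mm Stp Rmp Bal Ed)
open Bp_338 (Wt WP WF)

noncomputable section

variable {Y : Set ℂ} {x0 φ A χ0 w : ℂ → ℝ} {a b : ℕ → ℂ → ℝ} {F P : ℂ → ℂ} {h1 θ : ℝ → ℝ}
  {O : Set ℂ} {χ : ℕ → ℂ → ℝ} {i : ℕ}

theorem linec : LINEc := fun _ L _ _ _ _ _ _ hP hw hb hv hG hC hχ he =>
  Lin_642.line_chn hP L hw hb hv hG hC hχ he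

/-- the final function commutes with the cut test function -/
theorem ni_phi_gg (h : Pk Y x0 a φ F) (i : ℕ) (hh : Stp h1) (hθ : Stp θ)
    (hu : Adg_600.Uc Y (mm x0 (a i) φ h1 θ) O) (hχ0 : LC Y χ0) (hχ0c : HasCompactSupport χ0)
    (h01 : ∀ z, χ0 z ∈ Icc (0:ℝ) 1) : NI Y φ (fun z => χ0 z * gg x0 (a i) φ h1 θ O z) := by
  obtain ⟨L, hL⟩ := Bal_173.stp_lip hh
  obtain ⟨L', hL'⟩ := Bal_173.stp_lip hθ
  have hx : LocallyLipschitzOn Yᶜ x0 := Bp_338.loc_x0 h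
  have ll : LocallyLipschitzOn Yᶜ (mm x0 (a i) φ h1 θ) :=
    LmS_392.ll_mul' (Bd_775.ll_comp hL (Bp_338.ll_add hx (h.tta i).q.loc))
      (Bd_775.ll_comp hL' (Bp_338.ll_add hx h.tt.q.loc))
  have hc := hu.cut h.hY ll (Bal_173.mm_LB hh hθ)
  have h2 := Adx_636.ni_phi_cut h i hχ0 hχ0c h01 hL hL' hh.rg hθ.rg hc
  refine Adg_600.ni_congr (fun z hz => ?_) h2
  have e : (Adg_600.hull Y O).indicator (fun z => h1 (x0 z + a i z) * θ (x0 z + φ z)) z =
      gg x0 (a i) φ h1 θ O z := by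
    unfold gg mm
    by_cases hzO : z ∈ O
    · rw [indicator_of_mem hzO, indicator_of_mem ((Adg_600.mem_hull_iff hz hu.op).2 hzO)]
    · rw [indicator_of_notMem hzO,
        indicator_of_notMem fun hc' => hzO ((Adg_600.mem_hull_iff hz hu.op).1 hc')]
  simp only [e]

/-- `wdg` against a function which is constant near the point vanishes -/
lemma wdg_zero_r {f g : ℂ → ℝ} {z : ℂ} (h : z ∉ tsupport g) : wdg f g z = 0 := by
  have h1 : fderiv ℝ g z = 0 := by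
    have := notMem_tsupport_iff_eventuallyEq.1 h
    rw [this.fderiv_eq]
    simp
  unfold wdg gx gy
  rw [h1]; simp

/-- the cut square, near `K` -/
lemma wdg_gg (hYo : IsOpen Yᶜ) {N : Set ℂ} (hN : IsOpen N) (h1N : ∀ z ∈ N, χ0 z = 1)
    (hh : Stp h1) (hθ : Stp θ) (hO : IsOpen O) {u x : ℂ → ℝ}
    (hu : ∀ z, u z = x0 z + A z) (hx : ∀ z, x z = x0 z + φ z)
    (hg : LocallyLipschitzOn Yᶜ fun z => χ0 z * gg x0 A φ h1 θ O z) {f : ℂ → ℝ}
    (hf : tsupport f ⊆ N) {z : ℂ} (hz : z ∈ Yᶜ) (hud : DifferentiableAt ℝ u z)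
    (hxd : DifferentiableAt ℝ x z) :
    wdg (fun z => (χ0 z * gg x0 A φ h1 θ O z) ^ 2) f z =
      deriv h1 (u z) * (2 * (χ0 z * gg x0 A φ h1 θ O z) * θ (x z)) * wdg u f z +
      deriv θ (x z) * (2 * (χ0 z * gg x0 A φ h1 θ O z) * h1 (u z)) * wdg x f z := by
  by_cases hzf : z ∈ tsupport f
  · have hzN := hf hzf
    refine wdg_sq (g := fun z => χ0 z * gg x0 A φ h1 θ O z) hYo hg hz (fun h0 => ?_) hud hxd
      (hh.smooth.differentiable (by simp) _) (hθ.smooth.differentiable (by simp) _) f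
    have hzO : z ∈ O := by
      by_contra hc
      apply h0
      unfold gg
      rw [indicator_of_notMem hc, mul_zero]
    filter_upwards [hN.mem_nhds hzN, hO.mem_nhds hzO] with v hv hv'
    unfold gg
    rw [h1N v hv, one_mul, indicator_of_mem hv', hu v, hx v]
    rfl
  · rw [wdg_zero_r hzf, wdg_zero_r hzf, wdg_zero_r hzf]; ring

/-- the limit of the boundary term, for a weight `w` -/
theorem lim_bd (h : Pk Y x0 a φ F) (hi : Pk Y x0 b (a i) P) (K : Cmp Yᶜᶜ) (hh : Stp h1)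
    (hθ : Stp θ) (hO : IsOpen O) (hu : Adg_600.Uc Y (mm x0 (a i) φ h1 θ) O)
    (hχ : ChnE Yᶜᶜ K.1 χ) (hχ0 : LC Y χ0) (hχ0c : HasCompactSupport χ0)
    (h01 : ∀ z, χ0 z ∈ Icc (0:ℝ) 1) {N : Set ℂ} (hN : IsOpen N) (hKN : K.1 ⊆ N)
    (h1N : ∀ z ∈ N, χ0 z = 1) (hwi : Wt hi w) (hwf : Wt h w)
    {xT xB vT vB gT gB kT kB wT wB uT uB : ℝ → ℝ}
    (hx : EndsOf (P '' Yᶜ)ᶜ (cF hi K) (pu hi fun z => (F z).re) xT xB)
    (hv : EndsOf (F '' Yᶜ)ᶜ (cF h K) (pu h fun z => (P z).re) vT vB)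
    (hg : EndsOf (P '' Yᶜ)ᶜ (cF hi K) (pu hi (gg x0 (a i) φ h1 θ O)) gT gB)
    (hk : EndsOf (F '' Yᶜ)ᶜ (cF h K) (pu h (gg x0 (a i) φ h1 θ O)) kT kB)
    (hwe : EndsOf (P '' Yᶜ)ᶜ (cF hi K) (pu hi w) wT wB)
    (hue : EndsOf (F '' Yᶜ)ᶜ (cF h K) (pu h w) uT uB) :
    Tendsto (fun n => ∫ z in Yᶜ, w z *
        wdg (fun z => (χ0 z * gg x0 (a i) φ h1 θ O z) ^ 2) (χ n) z) atTop
      (𝓝 ((∫ t in Icc (Sqr_185.lo (cF hi K).1) (Sqr_185.hi (cF hi K).1),
          deriv h1 t * (2 * gB t * θ (xB t) * wB t - 2 * gT t * θ (xT t) * wT t)) +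
        ∫ σ in Icc (Sqr_185.lo (cF h K).1) (Sqr_185.hi (cF h K).1),
          deriv θ σ * (2 * kB σ * h1 (vB σ) * uB σ - 2 * kT σ * h1 (vT σ) * uT σ))) := by
  have hYo : IsOpen Yᶜ := h.hY.1
  have hA := Adg_600.adm_uc h (Adg_600.adm_anchor h i) (Adg_600.adm_phi h) hχ0 hχ0c h01
    (Bal_173.stp_lip hh).choose_spec (Bal_173.stp_lip hθ).choose_spec hh.rg hθ.rg hu
  have hgg : (fun z => χ0 z * gg x0 (a i) φ h1 θ O z) = fun z => χ0 z *
      O.indicator (fun z => h1 (x0 z + a i z) * θ (x0 z + φ z)) z := rfl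
  have htt : TT Y fun z => χ0 z * gg x0 (a i) φ h1 θ O z := by rw [hgg]; exact hA.tt
  have hni : ∀ j, NI Y (a j) fun z => χ0 z * gg x0 (a i) φ h1 θ O z := fun j => by
    rw [hgg]; exact hA.ni j
  have hnf := ni_phi_gg h i hh hθ hu hχ0 hχ0c h01
  obtain ⟨p1, p2⟩ := Bp_338.wp_side h hi K hθ htt (hni i) hN hKN h1N hwi hx hg hwe
  obtain ⟨f1, f2⟩ := Bp_338.wf_side h hi K hh htt hnf hN hKN h1N hwf hv hk hue
  have d1 : Continuous (deriv h1) := hh.smooth.continuous_deriv (by simp)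
  have d2 : Continuous (deriv θ) := hθ.smooth.continuous_deriv (by simp)
  obtain ⟨C1, hC1⟩ := hh.supp.exists_bound_of_continuous d1
  obtain ⟨C2, hC2⟩ := hθ.supp.exists_bound_of_continuous d2
  have l1 := lim1 linec hi K (G := deriv h1) d1.measurable hC1 p1 p2 hχ
  have l2 := lim1 linec h K (G := deriv θ) d2.measurable hC2 f1 f2 hχ
  refine (l1.add l2).congr' ?_
  -- eventually the supports lie in `N`
  filter_upwards [hχ.sh N hN hKN] with n hn
  have hu1 : LocallyLipschitzOn Yᶜ fun z => x0 z + a i z :=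
    Bp_338.ll_add (Bp_338.loc_x0 h) (h.tta i).q.loc
  have hx1 : LocallyLipschitzOn Yᶜ fun z => x0 z + φ z :=
    Bp_338.ll_add (Bp_338.loc_x0 h) h.tt.q.loc
  have hds : tsupport (fderiv ℝ (χ n)) ⊆ Yᶜ := by
    have := hχ.dsupp n
    rwa [compl_compl] at this
  have c1 : ContinuousOn (fun z => deriv h1 (x0 z + a i z) * WP x0 (a i) φ h1 θ O χ0 w z) Yᶜ :=
    (d1.comp_continuousOn hu1.continuousOn).mul p1.ll.continuousOn
  have c2 : ContinuousOn (fun z => deriv θ (x0 z + φ z) * WF x0 (a i) φ h1 θ O χ0 w z) Yᶜ :=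
    (d2.comp_continuousOn hx1.continuousOn).mul f1.ll.continuousOn
  have i1 := integrableOn_mul_wdg_lc hYo hu1 c1 (hχ.sm n) (hχ.lce n).supp hds
  have i2 := integrableOn_mul_wdg_lc hYo hx1 c2 (hχ.sm n) (hχ.lce n).supp hds
  rw [← integral_add i1 i2]
  refine integral_congr_ae ?_
  filter_upwards [Bd_775.ae_diff hYo hu1, Bd_775.ae_diff hYo hx1,
    ae_restrict_mem hYo.measurableSet] with z h3 h4 hz
  rw [wdg_gg hYo hN h1N hh hθ hO (u := fun z => x0 z + a i z) (x := fun z => x0 z + φ z)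
    (fun _ => rfl) (fun _ => rfl) htt.q.loc hn hz h3 h4]
  unfold WP WF
  ring

theorem bal : E13_499.BAL := by
  intro Y x0 φ a b F P i K h1 θ O h hi be s ex xT xB yT yB vT vB gT gB kT kB hh hR hU hs0 hQ hs
    hEd hg hk
  have hYo : IsOpen Yᶜ := h.hY.1
  have hθ := hR.st
  have hu := Bal_173.uc_of h K hh hR hU
  have hYc : IsCompact Yᶜᶜ := Ends_897.isCompact_compl h.hY
  obtain ⟨χ, hχ⟩ := exists_chn hYc K
  -- the cut-off at infinity
  have hL0 : LC Y (χ 0) := by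
    have := Pct_185.LCE.LC (hχ.lce 0)
    rwa [compl_compl] at this
  obtain ⟨c, N, hN, hKN, hc⟩ := Pct_185.LCE.near (hχ.lce 0) K
  have hc1 : c = 1 := by
    obtain ⟨z, hz⟩ := K.nonempty
    rw [← hc z (hKN hz), hχ.one 0 z hz]
  rw [hc1] at hc
  have l1 := lim_bd h hi K hh hθ hU.op hu hχ hL0 (hχ.lce 0).supp (hχ.c01 0) hN hKN hc
    (Wt.const hi 1) (Wt.const h 1) hEd.x hEd.v hg hk (Bp_338.ends_const 1) (Bp_338.ends_const 1)
  have l2 := lim_bd h hi K hh hθ hU.op hu hχ hL0 (hχ.lce 0).supp (hχ.c01 0) hN hKN hc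
    (Wt.im h hi) (Wt.im_self h) hEd.x hEd.v hg hk hEd.y (Bp_338.ends_im_self h K hs0 hQ hs)
  have hA := Adg_600.adm_uc h (Adg_600.adm_anchor h i) (Adg_600.adm_phi h) hL0 (hχ.lce 0).supp
    (hχ.c01 0) (Bal_173.stp_lip hh).choose_spec (Bal_173.stp_lip hθ).choose_spec hh.rg hθ.rg hu
  have htt : TT Y fun z => χ 0 z * gg x0 (a i) φ h1 θ O z := hA.tt
  set g : ℂ → ℝ := fun z => χ 0 z * gg x0 (a i) φ h1 θ O z with hgdef
  have hq : LocallyLipschitzOn Yᶜ fun z => g z ^ 2 := by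
    have := LmS_392.ll_mul' htt.q.loc htt.q.loc
    refine Tra_937.locLip_congr (fun z _ => ?_) this
    ring
  have hds : ∀ n, tsupport (fderiv ℝ (χ n)) ⊆ Yᶜ := fun n => by
    have := hχ.dsupp n
    rwa [compl_compl] at this
  -- COUNT
  have k1 : ∀ n, ∫ z in Yᶜ, (1:ℝ) * wdg (fun z => g z ^ 2) (χ n) z = 0 := fun n => by
    simp only [one_mul]
    exact LmS_392.stokes hYo hq (hχ.sm n) (hχ.lce n).supp (hds n)
  have e1 := tendsto_nhds_unique l1 ((tendsto_const_nhds (x := (0:ℝ))).congr fun n => (k1 n).symm)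
  -- FORMULA
  have hTq : TT Y fun z => g z ^ 2 := by
    have := htt.mul (Ni_459.cpt_of h.hY).isClosed htt
    have e : (fun z => g z * g z) = fun z => g z ^ 2 := by funext z; ring
    rwa [e] at this
  obtain ⟨R, hR'⟩ := hχ.cs (K.isCompact hYc)
  have hyl : LocallyLipschitzOn Yᶜ fun z => (F z).im := (Wt.im_self h).ll
  have hye : ∀ R : ℝ, IntegrableOn (en fun z => (F z).im) (Yᶜ ∩ ball 0 R) := fun R => by
    refine (Yv_319.energy_of_pk h R).congr_fun (fun z hz => ?_)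
      (hYo.measurableSet.inter measurableSet_ball)
    obtain ⟨-, -, g3, g4⟩ := Elf_600.grad_re_im (h.hol.differentiableAt (hYo.mem_nhds hz.1))
    simp only [en]
    rw [g3, g4, Complex.sq_norm, Complex.normSq_apply]
    ring
  obtain ⟨j1, j2⟩ := tendsto_chi (X := χ) (R := R + 1) (M := 1) (q := fun z => g z ^ 2)
    (y := fun z => (F z).im) hYo (hTq.q.fin.mono_set inter_subset_left) (hye _)
    (fun n => (hχ.sm n).continuous) (fun n z => by
      rw [abs_of_nonneg (hχ.c01 n z).1]; exact (hχ.c01 n z).2)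
    (fun n z hz => image_eq_zero_of_notMem_tsupport fun hc' => hz (by
      have := hR' n hc'
      rw [mem_closedBall_zero_iff] at this
      rw [mem_ball_zero_iff]; linarith))
    (fun z hz => by
      have hzK : z ∉ K.1 := fun hc' => (K.subset hc') hz
      exact tendsto_const_nhds.congr' ((hχ.tendsto_zero hzK).mono fun n hn => hn.symm))
  have l3 := j2.add l2
  rw [zero_add] at l3
  have e4 : (fun n => (∫ z in Yᶜ, χ n z * wdg (fun z => g z ^ 2) (fun z => (F z).im) z) +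
      ∫ z in Yᶜ, (F z).im * wdg (fun z => g z ^ 2) (χ n) z) =ᶠ[atTop]
      fun n => ∫ z in Yᶜ, wdg (fun z => χ n z * gg x0 (a i) φ h1 θ O z ^ 2)
      (fun w => (F w).im) z := by
    filter_upwards [hχ.sh N hN hKN] with n hn
    rw [← stokes_cut hYo hq hyl (j1 n) (hχ.sm n) (hχ.lce n).supp (hds n)]
    have e : (fun z => χ n z * g z ^ 2) = fun z => χ n z * gg x0 (a i) φ h1 θ O z ^ 2 := by
      funext z
      by_cases hz : z ∈ tsupport (χ n)
      · simp only [hgdef, hc z (hn hz), one_mul]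
      · rw [image_eq_zero_of_notMem_tsupport hz]; ring
    rw [e]
  have l4 := l3.congr' e4
  obtain ⟨b1, b2⟩ := Bal_173.el_bal h K i hh hR hU hL0 (hχ.lce 0).supp (hχ.c01 0) hN hKN hc hχ hs l4
  have eB : ∀ (Y1 Y2 : ℝ → ℝ) (c1 c2 : ℝ), Bal (Sqr_185.lo (cF hi K).1) (Sqr_185.hi (cF hi K).1)
      (Sqr_185.lo (cF h K).1) (Sqr_185.hi (cF h K).1) h1 θ xT xB vT vB gT gB kT kB Y1 Y2 c1 c2 =
      (∫ t in Icc (Sqr_185.lo (cF hi K).1) (Sqr_185.hi (cF hi K).1),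
          deriv h1 t * (2 * gB t * θ (xB t) * Y2 t - 2 * gT t * θ (xT t) * Y1 t)) +
        ∫ σ in Icc (Sqr_185.lo (cF h K).1) (Sqr_185.hi (cF h K).1),
          deriv θ σ * (2 * kB σ * h1 (vB σ) * c2 - 2 * kT σ * h1 (vT σ) * c1) := by
    intro Y1 Y2 c1 c2
    unfold Bal
    congr 1
    · refine integral_congr_ae (Eventually.of_forall fun t => ?_)
      ring
    · refine integral_congr_ae (Eventually.of_forall fun t => ?_)
      ring
  have ex2 : θ (Sqr_185.hi (cF h K).1) ^ 2 - θ (Sqr_185.lo (cF h K).1) ^ 2 = ex := by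
    rcases hR.sg with ⟨r1, r2, r3⟩ | ⟨r1, r2, r3⟩
    · rw [r1, r2, r3]; norm_num
    · rw [r1, r2, r3]; norm_num
  rw [ex2] at b2
  refine ⟨?_, ?_, ?_⟩
  · rw [eB]; exact e1
  · rw [eB]; exact b1
  · rw [eB]; exact b2

end

end Crest.Agent.R105.Fml_61
end

-- ▼ part R105/Ptw4_116

/-!
# Row 105 (S0138), node E13: `PTW` (closed theorem) (helper116)
-/

namespace Crest.Agent.R105.Ptw_116

/-- **PTW** -/
theorem ptw : E13_499.PTW := ptw_of_bal Fml_61.bal Adg_600.admg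

end Crest.Agent.R105.Ptw_116
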