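import Mathlib
import Crest.Agent.R105.Bd1_775
import Crest.Agent.R105.IfB0_641
import Crest.Agent.R105.Stk2_939
import Crest.Agent.R105.Isx2_909
import Crest.Agent.R105.Bd4_775
import Crest.Agent.R105.Mr1_61
import Crest.Agent.R105.IfB2_641

-- ▼ part R105/OneF1_871
section

/-!
Row 105 (S0139), item (1F), part 1: one-dimensional antiderivative `HH` of `h k' - k h'` for
Lipschitz `h, k`, the quadratic estimate, and the pointwise consequences.
-/

open MeasureTheory Set Filter Topology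

namespace Crest.Agent.R105.OneF_871

/-- the antiderivative of `h k' - k h'`. -/
noncomputable def HH (h k : ℝ → ℝ) (s : ℝ) : ℝ :=
  ∫ t in (0:ℝ)..s, (h t * deriv k t - k t * deriv h t)

theorem deriv_int {h : ℝ → ℝ} {L : NNReal} (hh : LipschitzWith L h) (a b : ℝ) :
    IntervalIntegrable (deriv h) volume a b := by
  have h1 : AbsolutelyContinuousOnInterval h a b :=
    LipschitzOnWith.absolutelyContinuousOnInterval (hh.lipschitzOnWith)
  exact h1.intervalIntegrable_deriv

theorem deriv_eq {h : ℝ → ℝ} {L : NNReal} (hh : LipschitzWith L h) (a b : ℝ) :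
    ∫ t in a..b, deriv h t = h b - h a := by
  have h1 : AbsolutelyContinuousOnInterval h a b :=
    LipschitzOnWith.absolutelyContinuousOnInterval (hh.lipschitzOnWith)
  exact h1.integral_deriv_eq_sub

theorem deriv_bd {h : ℝ → ℝ} {L : NNReal} (hh : LipschitzWith L h) (t : ℝ) :
    |deriv h t| ≤ L := by
  have := norm_deriv_le_of_lipschitz (x₀ := t) hh
  simpa using this

theorem mul_int {h k : ℝ → ℝ} {K : NNReal} (hh : Continuous h) (hk : LipschitzWith K k)
    (a b : ℝ) : IntervalIntegrable (fun t => h t * deriv k t) volume a b :=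
  (deriv_int hk a b).continuousOn_mul hh.continuousOn

theorem HH_sub {h k : ℝ → ℝ} {L K : NNReal} (hh : LipschitzWith L h) (hk : LipschitzWith K k)
    (r s : ℝ) :
    HH h k s - HH h k r = ∫ t in r..s, (h t * deriv k t - k t * deriv h t) := by
  unfold HH
  have i1 : ∀ a b, IntervalIntegrable (fun t => h t * deriv k t - k t * deriv h t) volume a b :=
    fun a b => (mul_int hh.continuous hk a b).sub (mul_int hk.continuous hh a b)
  rw [intervalIntegral.integral_interval_sub_left (i1 _ _) (i1 _ _)]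

theorem HH_est {h k : ℝ → ℝ} {L K : NNReal} (hh : LipschitzWith L h) (hk : LipschitzWith K k)
    (r s : ℝ) :
    |HH h k s - HH h k r - (h r * (k s - k r) - k r * (h s - h r))|
      ≤ 2 * L * K * |s - r| * |s - r| := by
  have e1 : HH h k s - HH h k r - (h r * (k s - k r) - k r * (h s - h r))
      = ∫ t in r..s, ((h t - h r) * deriv k t - (k t - k r) * deriv h t) := by
    rw [HH_sub hh hk, ← deriv_eq hk r s, ← deriv_eq hh r s, ← intervalIntegral.integral_const_mul,
      ← intervalIntegral.integral_const_mul, ← intervalIntegral.integral_sub,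
      ← intervalIntegral.integral_sub]
    · congr 1; ext t; ring
    · exact (mul_int hh.continuous hk _ _).sub (mul_int hk.continuous hh _ _)
    · exact ((deriv_int hk r s).const_mul _).sub ((deriv_int hh r s).const_mul _)
    · exact (deriv_int hk r s).const_mul _
    · exact (deriv_int hh r s).const_mul _
  rw [e1]
  have := intervalIntegral.norm_integral_le_of_norm_le_const (a := r) (b := s)
    (f := fun t => (h t - h r) * deriv k t - (k t - k r) * deriv h t)
    (C := 2 * L * K * |s - r|) ?_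
  · simpa [Real.norm_eq_abs] using this
  · intro t ht
    rw [Real.norm_eq_abs]
    have h1 : |t - r| ≤ |s - r| := by
      rcases le_total r s with hrs | hrs
      · rw [uIoc_of_le hrs] at ht
        rw [abs_of_nonneg (by linarith [ht.1]), abs_of_nonneg (by linarith)]
        linarith [ht.2]
      · rw [uIoc_of_ge hrs] at ht
        rw [abs_of_nonpos (by linarith [ht.2]), abs_of_nonpos (by linarith)]
        linarith [ht.1]
    have h2 : |h t - h r| ≤ L * |t - r| := by
      have := hh.dist_le_mul t r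
      simpa [Real.dist_eq] using this
    have h3 : |k t - k r| ≤ K * |t - r| := by
      have := hk.dist_le_mul t r
      simpa [Real.dist_eq] using this
    have h4 := deriv_bd hk t
    have h5 := deriv_bd hh t
    have hL : (0:ℝ) ≤ L := L.2
    have hK : (0:ℝ) ≤ K := K.2
    have h6 : |(h t - h r) * deriv k t| ≤ L * |s - r| * K := by
      rw [abs_mul]
      exact mul_le_mul (h2.trans (mul_le_mul_of_nonneg_left h1 hL)) h4 (abs_nonneg _) (by positivity)
    have h7 : |(k t - k r) * deriv h t| ≤ K * |s - r| * L := by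
      rw [abs_mul]
      exact mul_le_mul (h3.trans (mul_le_mul_of_nonneg_left h1 hK)) h5 (abs_nonneg _) (by positivity)
    calc |(h t - h r) * deriv k t - (k t - k r) * deriv h t|
        ≤ |(h t - h r) * deriv k t| + |(k t - k r) * deriv h t| := abs_sub _ _
      _ ≤ L * |s - r| * K + K * |s - r| * L := add_le_add h6 h7
      _ = 2 * L * K * |s - r| := by ring

/-- `HH h k` is locally Lipschitz. -/
theorem HH_locLip {h k : ℝ → ℝ} {L K : NNReal} (hh : LipschitzWith L h) (hk : LipschitzWith K k) :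
    LocallyLipschitz (HH h k) := by
  intro x
  have hL : (0:ℝ) ≤ L := L.2
  have hK : (0:ℝ) ≤ K := K.2
  -- bound on the ball of radius 1
  set A : ℝ := (|h x| + L) * K + (|k x| + K) * L + 2 * L * K * 2 with hA
  have hA0 : 0 ≤ A := by positivity
  refine ⟨⟨A, hA0⟩, Metric.ball x 1, Metric.ball_mem_nhds _ one_pos, ?_⟩
  refine LipschitzOnWith.of_dist_le_mul fun s hs r hr => ?_
  rw [Real.dist_eq, Real.dist_eq]
  show |HH h k s - HH h k r| ≤ A * |s - r|
  have h0 := HH_est hh hk r s
  have hr' : |r - x| < 1 := by simpa [Real.dist_eq] using hr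
  have hs' : |s - x| < 1 := by simpa [Real.dist_eq] using hs
  have hsr : |s - r| ≤ 2 := by
    have : s - r = (s - x) - (r - x) := by ring
    rw [this]; exact (abs_sub _ _).trans (by linarith)
  have h1 : |h r| ≤ |h x| + L := by
    have := hh.dist_le_mul r x
    rw [Real.dist_eq, Real.dist_eq] at this
    have h2 : |h r| ≤ |h x| + |h r - h x| := by
      have := abs_add_le (h x) (h r - h x)
      simpa using this
    nlinarith
  have h2 : |k r| ≤ |k x| + K := by
    have := hk.dist_le_mul r x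
    rw [Real.dist_eq, Real.dist_eq] at this
    have h2 : |k r| ≤ |k x| + |k r - k x| := by
      have := abs_add_le (k x) (k r - k x)
      simpa using this
    nlinarith
  have h3 : |k s - k r| ≤ K * |s - r| := by
    have := hk.dist_le_mul s r
    simpa [Real.dist_eq] using this
  have h4 : |h s - h r| ≤ L * |s - r| := by
    have := hh.dist_le_mul s r
    simpa [Real.dist_eq] using this
  have h5 : |h r * (k s - k r) - k r * (h s - h r)|
      ≤ (|h x| + L) * (K * |s - r|) + (|k x| + K) * (L * |s - r|) := by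
    refine (abs_sub _ _).trans ?_
    rw [abs_mul, abs_mul]
    exact add_le_add (mul_le_mul h1 h3 (abs_nonneg _) (by positivity))
      (mul_le_mul h2 h4 (abs_nonneg _) (by positivity))
  have h6 : |HH h k s - HH h k r| ≤
      |HH h k s - HH h k r - (h r * (k s - k r) - k r * (h s - h r))|
        + |h r * (k s - k r) - k r * (h s - h r)| := by
    have := abs_add_le (HH h k s - HH h k r - (h r * (k s - k r) - k r * (h s - h r)))
      (h r * (k s - k r) - k r * (h s - h r))
    simpa using this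
  have h7 : 2 * L * K * |s - r| * |s - r| ≤ 2 * L * K * 2 * |s - r| := by
    have : 0 ≤ |s - r| := abs_nonneg _
    have h8 : 2 * (L:ℝ) * K * |s - r| ≤ 2 * L * K * 2 :=
      mul_le_mul_of_nonneg_left hsr (by positivity)
    exact mul_le_mul_of_nonneg_right h8 this
  calc |HH h k s - HH h k r| ≤ _ := h6
    _ ≤ 2 * L * K * 2 * |s - r| + ((|h x| + L) * (K * |s - r|) + (|k x| + K) * (L * |s - r|)) :=
        add_le_add (h0.trans h7) h5
    _ = A * |s - r| := by rw [hA]; ring

/-! ### pointwise identities -/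

/-- If `u` is Lipschitz near `w`, `a = h ∘ u`, `b = k ∘ u` near `w` and `a, b` are differentiable at
`w`, then `B = HH h k ∘ u` is differentiable at `w` with `dB = a db - b da`. -/
theorem HH_hasFDerivAt {E : Type*} [NormedAddCommGroup E] [NormedSpace ℝ E]
    {h k : ℝ → ℝ} {L K : NNReal} (hh : LipschitzWith L h) (hk : LipschitzWith K k)
    {u a b B : E → ℝ} {w : E} {M : ℝ} (hu : ∀ᶠ w' in 𝓝 w, |u w' - u w| ≤ M * ‖w' - w‖)
    (ha : ∀ᶠ w' in 𝓝 w, a w' = h (u w')) (hb : ∀ᶠ w' in 𝓝 w, b w' = k (u w'))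
    (hB : ∀ᶠ w' in 𝓝 w, B w' = HH h k (u w'))
    (da : DifferentiableAt ℝ a w) (db : DifferentiableAt ℝ b w) :
    HasFDerivAt B (a w • fderiv ℝ b w - b w • fderiv ℝ a w) w := by
  have ha0 := ha.self_of_nhds
  have hb0 := hb.self_of_nhds
  have hB0 := hB.self_of_nhds
  -- the auxiliary function
  have h1 : HasFDerivAt (fun w' => a w * b w' - b w * a w')
      (a w • fderiv ℝ b w - b w • fderiv ℝ a w) w :=
    (db.hasFDerivAt.const_mul (a w)).sub (da.hasFDerivAt.const_mul (b w))
  -- the difference is `O(‖w' - w‖ ^ 2)`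
  have hM : 0 ≤ |M| := abs_nonneg M
  have h2 : HasFDerivAt (fun w' => B w' - (a w * b w' - b w * a w')) (0 : E →L[ℝ] ℝ) w := by
    rw [hasFDerivAt_iff_isLittleO_nhds_zero]
    have h3 : (fun v : E => B (w + v) - (a w * b (w + v) - b w * a (w + v))
        - (B w - (a w * b w - b w * a w)) - (0 : E →L[ℝ] ℝ) v)
        =O[𝓝 0] (fun v => ‖v‖ * ‖v‖) := by
      have ht : Tendsto (fun v : E => w + v) (𝓝 0) (𝓝 w) := by
        have : Tendsto (fun v : E => w + v) (𝓝 0) (𝓝 (w + 0)) :=
          (continuous_const.add continuous_id).tendsto 0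
        simpa using this
      refine Asymptotics.IsBigO.of_bound (2 * L * K * |M| * |M|) ?_
      filter_upwards [ht.eventually hu, ht.eventually ha, ht.eventually hb, ht.eventually hB]
        with v hv1 hv2 hv3 hv4
      have h4 := HH_est hh hk (u w) (u (w + v))
      have e1 : B (w + v) - (a w * b (w + v) - b w * a (w + v))
        - (B w - (a w * b w - b w * a w)) - (0 : E →L[ℝ] ℝ) v
          = HH h k (u (w + v)) - HH h k (u w)
            - (h (u w) * (k (u (w+v)) - k (u w)) - k (u w) * (h (u (w+v)) - h (u w))) := by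
        rw [hv2, hv3, hv4, ha0, hb0, hB0]
        simp
        ring
      rw [e1, Real.norm_eq_abs]
      refine h4.trans ?_
      have h5 : |u (w + v) - u w| ≤ |M| * ‖v‖ := by
        refine hv1.trans ?_
        simp only [add_sub_cancel_left]
        exact mul_le_mul_of_nonneg_right (le_abs_self M) (norm_nonneg _)
      have h6 : |u (w + v) - u w| * |u (w + v) - u w| ≤ (|M| * ‖v‖) * (|M| * ‖v‖) :=
        mul_le_mul h5 h5 (abs_nonneg _) (by positivity)
      have hL : (0:ℝ) ≤ L := L.2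
      have hK : (0:ℝ) ≤ K := K.2
      have h7 : ‖‖v‖ * ‖v‖‖ = ‖v‖ * ‖v‖ := by
        rw [Real.norm_eq_abs, abs_of_nonneg (by positivity)]
      rw [h7]
      calc 2 * (L:ℝ) * K * |u (w + v) - u w| * |u (w + v) - u w|
          = 2 * L * K * (|u (w + v) - u w| * |u (w + v) - u w|) := by ring
        _ ≤ 2 * L * K * ((|M| * ‖v‖) * (|M| * ‖v‖)) :=
            mul_le_mul_of_nonneg_left h6 (by positivity)
        _ = _ := by ring
    refine h3.trans_isLittleO ?_
    have : (fun v : E => ‖v‖ * ‖v‖) =o[𝓝 0] (fun v : E => ‖v‖) := by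
      have h8 : (fun v : E => ‖v‖) =o[𝓝 0] (fun _ : E => (1:ℝ)) := by
        rw [Asymptotics.isLittleO_one_iff]
        simpa using (continuous_norm (E := E)).tendsto 0
      have := h8.mul_isBigO (Asymptotics.isBigO_refl (fun v : E => ‖v‖) (𝓝 0))
      simpa using this
    exact this.trans_isBigO (Asymptotics.isBigO_refl _ _).norm_left
  have h3 := h2.add h1
  rw [zero_add] at h3
  refine h3.congr_of_eventuallyEq (Eventually.of_forall fun w' => ?_)
  simp

/-- If `u` is differentiable at `w` with `du(v) = 0` and `a = h ∘ u` near `w`, `h` Lipschitz, `a`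
differentiable at `w`, then `da(v) = 0`. -/
theorem ker_sub {E : Type*} [NormedAddCommGroup E] [NormedSpace ℝ E]
    {h : ℝ → ℝ} {L : NNReal} (hh : LipschitzWith L h) {u a : E → ℝ} {w : E}
    (ha : ∀ᶠ w' in 𝓝 w, a w' = h (u w'))
    (du : DifferentiableAt ℝ u w) (da : DifferentiableAt ℝ a w) {v : E}
    (hv : fderiv ℝ u w v = 0) : fderiv ℝ a w v = 0 := by
  have h1 : HasDerivAt (fun t : ℝ => u (w + t • v)) (fderiv ℝ u w v) 0 := by
    have := du.hasFDerivAt.hasLineDerivAt v
    exact this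
  have h2 : HasDerivAt (fun t : ℝ => a (w + t • v)) (fderiv ℝ a w v) 0 := by
    have := da.hasFDerivAt.hasLineDerivAt v
    exact this
  rw [hv] at h1
  have h1' := hasDerivAt_iff_isLittleO_nhds_zero.1 h1
  have h3 : HasDerivAt (fun t : ℝ => a (w + t • v)) 0 0 := by
    rw [hasDerivAt_iff_isLittleO_nhds_zero]
    refine Asymptotics.IsBigO.trans_isLittleO (g := fun t : ℝ => u (w + (0 + t) • v)
      - u (w + (0:ℝ) • v) - t • (0:ℝ)) ?_ h1'
    have ht : Tendsto (fun t : ℝ => w + t • v) (𝓝 0) (𝓝 w) := by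
      have : Tendsto (fun t : ℝ => w + t • v) (𝓝 0) (𝓝 (w + (0:ℝ) • v)) :=
        (continuous_const.add (continuous_id.smul continuous_const)).tendsto 0
      simpa using this
    refine Asymptotics.IsBigO.of_bound L ?_
    filter_upwards [ht.eventually ha] with t ht1
    have ha0 := ha.self_of_nhds
    simp only [zero_add, zero_smul, add_zero, smul_zero, sub_zero]
    rw [ht1, ha0, Real.norm_eq_abs, Real.norm_eq_abs]
    have := hh.dist_le_mul (u (w + t • v)) (u w)
    simpa [Real.dist_eq] using this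
  exact h2.unique h3

/-- `da ∧ db = 0` for functions of one function. -/
theorem wedge_zero {h k : ℝ → ℝ} {L K : NNReal} (hh : LipschitzWith L h) (hk : LipschitzWith K k)
    {u a b : ℂ → ℝ} {w : ℂ}
    (ha : ∀ᶠ w' in 𝓝 w, a w' = h (u w')) (hb : ∀ᶠ w' in 𝓝 w, b w' = k (u w'))
    (du : DifferentiableAt ℝ u w) (da : DifferentiableAt ℝ a w) (db : DifferentiableAt ℝ b w) :
    fderiv ℝ a w 1 * fderiv ℝ b w Complex.I - fderiv ℝ a w Complex.I * fderiv ℝ b w 1 = 0 := by
  by_cases h0 : fderiv ℝ u w 1 = 0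
  · rw [ker_sub hh ha du da h0, ker_sub hk hb du db h0]; ring
  · set p := fderiv ℝ u w 1 with hp
    set q := fderiv ℝ u w Complex.I with hq
    -- kernel vector `v = p I - q 1`
    have hv : fderiv ℝ u w (p • Complex.I - q • (1:ℂ)) = 0 := by
      rw [map_sub, map_smul, map_smul, ← hp, ← hq]; simp; ring
    have h1 := ker_sub hh ha du da hv
    have h2 := ker_sub hk hb du db hv
    rw [map_sub, map_smul, map_smul] at h1 h2
    simp only [smul_eq_mul] at h1 h2
    have h3 : p * (fderiv ℝ a w 1 * fderiv ℝ b w Complex.I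
        - fderiv ℝ a w Complex.I * fderiv ℝ b w 1) = 0 := by
      linear_combination fderiv ℝ a w 1 * h2 - fderiv ℝ b w 1 * h1
    exact (mul_eq_zero.1 h3).resolve_left h0

end Crest.Agent.R105.OneF_871
end

-- ▼ part R105/OneF2_871
section

/-!
Row 105 (S0139), item (1F), part 2: cut-offs near a compact set, uniform versions of germ
statements, the Stokes formula `om C χ w = 0` for `χ` locally constant near `C`.
-/

set_option autoImplicit false

open MeasureTheory Set Filter Topology Metric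
open scoped NNReal ENNReal

namespace Crest.Agent.R105.OneF_871

open Crest.Agent.R105.Bd_775

/-- Lipschitz cut-off near a compact set. -/
theorem exists_cut {C : Set ℂ} (hC : IsCompact C) {δ : ℝ} (hδ : 0 < δ) :
    ∃ (θ : ℂ → ℝ) (K : ℝ≥0), LipschitzWith K θ ∧ HasCompactSupport θ ∧ (∀ z, 0 ≤ θ z ∧ θ z ≤ 1) ∧
      (∀ z ∈ thickening δ C, θ z = 1) ∧
      (∀ z, z ∉ thickening (2 * δ) C → ∀ᶠ w in 𝓝 z, θ w = 0) := by
  have hδ2 : 0 < δ / 2 := by linarith
  set f := thickenedIndicator hδ2 (thickening δ C) with hf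
  have hK : LipschitzWith (δ / 2).toNNReal⁻¹ f := lipschitzWith_thickenedIndicator hδ2 _
  have hsub : thickening (δ / 2) (thickening δ C) ⊆ cthickening (δ / 2 + δ) C :=
    (thickening_thickening_subset _ _ _).trans (thickening_subset_cthickening _ _)
  have hz : ∀ z, z ∉ cthickening (δ / 2 + δ) C → f z = 0 := by
    intro z hz
    exact thickenedIndicator_zero hδ2 _ fun h => hz (hsub h)
  refine ⟨fun z => (f z : ℝ), (δ / 2).toNNReal⁻¹, ?_, ?_, ?_, ?_, ?_⟩
  · refine LipschitzWith.of_dist_le_mul fun x y => ?_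
    have := hK.dist_le_mul x y
    rwa [NNReal.dist_eq] at this
  · refine HasCompactSupport.intro (hC.cthickening (r := δ / 2 + δ)) fun z h => ?_
    rw [hz z h]; rfl
  · intro z
    exact ⟨(f z).2, by exact_mod_cast thickenedIndicator_le_one hδ2 _ z⟩
  · intro z hz
    have h1 : f z = 1 := thickenedIndicator_one hδ2 _ hz
    show ((f z : ℝ≥0) : ℝ) = 1
    rw [h1]; rfl
  · intro z hz'
    have h1 : z ∉ cthickening (δ / 2 + δ) C := by
      intro h
      exact hz' (cthickening_subset_thickening' (by linarith) (by linarith) C h)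
    have h2 : (cthickening (δ / 2 + δ) C)ᶜ ∈ 𝓝 z :=
      isClosed_cthickening.isOpen_compl.mem_nhds h1
    filter_upwards [h2] with w hw
    show ((f w : ℝ≥0) : ℝ) = 0
    rw [hz w hw]; rfl

/-- uniform version of germ statements with labels. -/
theorem unif {C : Set ℂ} (hC : IsCompact C) {ι : Type*} {l : ℂ → ι}
    (hl : ∀ z ∈ C, ∀ᶠ w in 𝓝 z, l w = l z) {R : ι → ℂ → Prop}
    (hR : ∀ z ∈ C, ∀ᶠ w in 𝓝 z, R (l z) w) :
    ∃ δ > 0, ∀ w ∈ thickening δ C, R (l w) w ∧ (∀ᶠ w' in 𝓝 w, l w' = l w) ∧ l w ∈ l '' C := by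
  have h1 : ∀ z : C, ∃ ε > 0, ∀ w ∈ ball (z : ℂ) ε, l w = l z ∧ R (l z) w := by
    intro z
    have := (hl z z.2).and (hR z z.2)
    obtain ⟨ε, hε, h⟩ := Metric.eventually_nhds_iff_ball.1 this
    exact ⟨ε, hε, h⟩
  choose ε hε h1 using h1
  obtain ⟨δ, hδ, h2⟩ := lebesgue_number_lemma_of_metric (s := C)
    (c := fun z : C => ball (z : ℂ) (ε z)) hC (fun z => isOpen_ball)
    (fun z hz => mem_iUnion.2 ⟨⟨z, hz⟩, mem_ball_self (hε _)⟩)
  refine ⟨δ, hδ, fun w hw => ?_⟩
  obtain ⟨z, hz, hwz⟩ := mem_thickening_iff.1 hw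
  obtain ⟨i, hi⟩ := h2 z hz
  have e1 := (h1 i w (hi hwz)).1
  have e2 := (h1 i z (hi (mem_ball_self hδ))).1
  refine ⟨?_, ?_, ?_⟩
  · rw [e1]; exact (h1 i w (hi hwz)).2
  · have h3 : ball z δ ∈ 𝓝 w := isOpen_ball.mem_nhds hwz
    filter_upwards [h3] with w' hw'
    rw [(h1 i w' (hi hw')).1, e1]
  · rw [e1]; exact mem_image_of_mem _ i.2

/-- the labels near `C` are finitely many -/
theorem finite_labels {C : Set ℂ} (hC : IsCompact C) {ι : Type*} {l : ℂ → ι}
    (hl : ∀ z ∈ C, ∀ᶠ w in 𝓝 z, l w = l z) : (l '' C).Finite := by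
  obtain ⟨t, ht, h⟩ := hC.elim_nhds_subcover (fun z => {w | l w = l z}) (fun z hz => hl z hz)
  refine (t.finite_toSet.image l).subset ?_
  rintro _ ⟨z, hz, rfl⟩
  obtain ⟨i, hi, hzi⟩ := mem_iUnion₂.1 (h hz)
  exact ⟨i, hi, hzi.symm⟩

lemma wdg_zero_left {u v : ℂ → ℝ} {z : ℂ} {c : ℝ} (h : ∀ᶠ w in 𝓝 z, u w = c) :
    wdg u v z = 0 := by
  have : u =ᶠ[𝓝 z] fun _ => c := h
  unfold wdg
  rw [gx_eq_of_eventuallyEq this, gy_eq_of_eventuallyEq this, gx_const, gy_const]; ring

lemma wdg_zero_right {u v : ℂ → ℝ} {z : ℂ} {c : ℝ} (h : ∀ᶠ w in 𝓝 z, v w = c) :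
    wdg u v z = 0 := by
  have : v =ᶠ[𝓝 z] fun _ => c := h
  unfold wdg
  rw [gx_eq_of_eventuallyEq this, gy_eq_of_eventuallyEq this, gx_const, gy_const]; ring

lemma en_zero {u : ℂ → ℝ} {z : ℂ} {c : ℝ} (h : ∀ᶠ w in 𝓝 z, u w = c) : en u z = 0 := by
  have : u =ᶠ[𝓝 z] fun _ => c := h
  rw [en_eq_of_eventuallyEq this, en_const]

/-- functions vanishing near `C` which are in `Q C` are in `LC C`. -/
theorem LC.of_zero {C : Set ℂ} (hC : IsClosed C) {f : ℂ → ℝ} (hf : Q C f)
    (h0 : ∀ z ∈ C, ∀ᶠ w in 𝓝 z, f w = 0) : LC C f := by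
  refine ⟨?_, hf.bdd, ?_, ?_⟩
  · intro z
    by_cases hz : z ∈ C
    · refine ⟨0, _, h0 z hz, ?_⟩
      refine LipschitzOnWith.of_dist_le_mul fun x hx y hy => ?_
      simp only [mem_ofPred_eq] at hx hy
      rw [hx, hy]; simp
    · obtain ⟨K, t, ht, h⟩ := hf.loc hz
      rw [hC.isOpen_compl.nhdsWithin_eq hz] at ht
      exact ⟨K, t, ht, h⟩
  · have h1 : IntegrableOn (en f) C := by
      refine (integrableOn_zero (s := C) (μ := volume)).congr_fun ?_ hC.measurableSet
      intro z hz
      exact (en_zero (h0 z hz)).symm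
    have := hf.fin.union h1
    rwa [compl_union_self, integrableOn_univ] at this
  · intro z hz
    filter_upwards [h0 z hz] with w hw
    rw [hw, (h0 z hz).self_of_nhds]

/-- the Stokes hypothesis: bounded, locally Lipschitz functions of finite energy on the plane. -/
def StokesP : Prop := ∀ f g : ℂ → ℝ, LocallyLipschitz f → LocallyLipschitz g →
  (∃ M, ∀ z, |f z| ≤ M) → (∃ M, ∀ z, |g z| ≤ M) → Integrable (en f) → Integrable (en g) →
  ∫ z, wdg f g z = 0

theorem cut_lc {C : Set ℂ} {θ : ℂ → ℝ} {K : ℝ≥0} (hK : LipschitzWith K θ)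
    (hc : HasCompactSupport θ) {δ : ℝ} (hδ : 0 < δ) (h1 : ∀ z ∈ thickening δ C, θ z = 1) :
    LC C θ := by
  refine LC.of_lipschitz hK hc fun z hz => ?_
  have : thickening δ C ∈ 𝓝 z := isOpen_thickening.mem_nhds (self_subset_thickening hδ C hz)
  filter_upwards [this] with w hw
  rw [h1 w hw, h1 z (self_subset_thickening hδ C hz)]

/-- **Stokes**: `∫_{Cᶜ} dχ ∧ dw = 0` for `χ` locally constant near the compact set `C`. -/
theorem stokes (St : StokesP) {C : Set ℂ} (hC : IsCompact C) {χ w : ℂ → ℝ} (hχ : LC C χ)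
    (hw : Q C w) : om C χ w = 0 := by
  have hCc := hC.isClosed
  obtain ⟨δ, hδ, hU⟩ := unif hC (l := χ) hχ.lc (R := fun _ _ => True)
    (fun _ _ => Eventually.of_forall fun _ => trivial)
  obtain ⟨θ, K, hK, hc, h01, h1, h0⟩ := exists_cut hC (δ := δ / 2) (by linarith)
  have hθ : LC C θ := cut_lc hK hc (by linarith : 0 < δ / 2) h1
  set w' : ℂ → ℝ := fun z => (1 - θ z) * w z with hw'
  have hq : Q C w' := ((Q.const C 1).sub hCc hθ.q).mul hCc hw
  have hz : ∀ z ∈ C, ∀ᶠ x in 𝓝 z, w' x = 0 := by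
    intro z hz
    have : thickening (δ / 2) C ∈ 𝓝 z :=
      isOpen_thickening.mem_nhds (self_subset_thickening (by linarith) C hz)
    filter_upwards [this] with x hx
    simp only [hw', h1 x hx]; ring
  have hL : LC C w' := LC.of_zero hCc hq hz
  have hS := St χ w' hχ.lip hL.lip hχ.bdd hL.bdd hχ.fin hL.fin
  -- compare
  have e1 : ∫ z in Cᶜ, wdg χ w' z = ∫ z, wdg χ w' z := by
    refine setIntegral_eq_integral_of_forall_compl_eq_zero fun z hz' => ?_
    exact wdg_zero_right (hz z (not_not.1 hz'))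
  have e2 : ∫ z in Cᶜ, wdg χ w z = ∫ z in Cᶜ, wdg χ w' z := by
    refine setIntegral_congr_fun hCc.isOpen_compl.measurableSet fun z _ => ?_
    by_cases hzd : z ∈ thickening δ C
    · rw [wdg_zero_left (hU z hzd).2.1, wdg_zero_left (hU z hzd).2.1]
    · refine wdg_eq_of_eventuallyEq (EventuallyEq.refl _ _) ?_
      have := h0 z (by rw [show 2 * (δ / 2) = δ by ring]; exact hzd)
      filter_upwards [this] with x hx
      simp only [hw', hx]; ring
  show ∫ z in Cᶜ, wdg χ w z = 0
  rw [e2, e1, hS]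

lemma wdg_add_left {u v w : ℂ → ℝ} {z : ℂ} (hu : DifferentiableAt ℝ u z)
    (hv : DifferentiableAt ℝ v z) :
    wdg (fun x => u x + v x) w z = wdg u w z + wdg v w z := by
  unfold wdg; rw [gx_add hu hv, gy_add hu hv]; ring


theorem om_add_left {C : Set ℂ} (hC : IsClosed C) {u v w : ℂ → ℝ} (hu : Q C u) (hv : Q C v)
    (hw : Q C w) : om C (fun z => u z + v z) w = om C u w + om C v w := by
  unfold om
  rw [← integral_add (integrableOn_wdg hu hw) (integrableOn_wdg hv hw)]
  refine integral_congr_ae ?_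
  filter_upwards [hu.ae_diff hC, hv.ae_diff hC] with z h1 h2
  exact wdg_add_left h1 h2

theorem om_add_right {C : Set ℂ} (hC : IsClosed C) {u v w : ℂ → ℝ} (hu : Q C u) (hv : Q C v)
    (hw : Q C w) : om C w (fun z => u z + v z) = om C w u + om C w v := by
  rw [om_antisymm, om_add_left hC hu hv hw, om_antisymm (u := u), om_antisymm (u := v)]; ring

/-- the form `om` depends only on the germs at `C` (first argument) -/
theorem om_congr_left (St : StokesP) {C : Set ℂ} (hC : IsCompact C) {u v w : ℂ → ℝ} (hu : Q C u)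
    (hv : Q C v) (hw : Q C w) (h : ∀ z ∈ C, ∀ᶠ x in 𝓝 z, u x = v x) : om C u w = om C v w := by
  have hCc := hC.isClosed
  have h1 : Q C (fun z => u z - v z) := hu.sub hCc hv
  have h2 : LC C (fun z => u z - v z) := LC.of_zero hCc h1 fun z hz => by
    filter_upwards [h z hz] with x hx
    rw [hx]; ring
  have h3 := stokes St hC h2 hw
  have h4 : (fun z => (u z - v z) + v z) = u := by funext z; ring
  have h5 := om_add_left hCc h1 hv hw
  rw [h4, h3, zero_add] at h5
  exact h5

/-- the form `om` depends only on the germs at `C` (second argument) -/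
theorem om_congr_right (St : StokesP) {C : Set ℂ} (hC : IsCompact C) {u v w : ℂ → ℝ} (hu : Q C u)
    (hv : Q C v) (hw : Q C w) (h : ∀ z ∈ C, ∀ᶠ x in 𝓝 z, u x = v x) : om C w u = om C w v := by
  rw [om_antisymm, om_congr_left St hC hu hv hw h, ← om_antisymm]

end Crest.Agent.R105.OneF_871
end

-- ▼ part R105/OneF3_871
section

/-!
Row 105 (S0139), item (1F), part 3: ONE FUNCTION.  If `a, a'` are, near the compact set `C`,
(finitely many) Lipschitz functions of one function `u ∈ Q C`, then `om C a a' = 0`.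
-/

set_option autoImplicit false

open MeasureTheory Set Filter Topology Metric
open scoped NNReal ENNReal

namespace Crest.Agent.R105.OneF_871

open Crest.Agent.R105.Bd_775

/-- near `C` the function `a` is a Lipschitz function of `u`, chosen by a locally constant label -/
def Lab (C : Set ℂ) (u a : ℂ → ℝ) : Prop :=
  ∃ (ι : Type) (l : ℂ → ι) (h : ι → ℝ → ℝ), (∀ i, ∃ K : ℝ≥0, LipschitzWith K (h i)) ∧
    (∀ z ∈ C, ∀ᶠ w in 𝓝 z, l w = l z) ∧ (∀ z ∈ C, ∀ᶠ w in 𝓝 z, a w = h (l z) (u w))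

section
variable {C : Set ℂ} {u a a' : ℂ → ℝ}

theorem Lab.of_lc (h : ∀ z ∈ C, ∀ᶠ w in 𝓝 z, a w = a z) : Lab C u a :=
  ⟨ℝ, a, fun c _ => c, fun c => ⟨0, LipschitzWith.const c⟩, h, h⟩

theorem Lab.self : Lab C u u :=
  ⟨Unit, fun _ => (), fun _ s => s, fun _ => ⟨1, LipschitzWith.id⟩,
    fun _ _ => Eventually.of_forall fun _ => rfl, fun _ _ => Eventually.of_forall fun _ => rfl⟩

theorem Lab.congr (h : Lab C u a) (h' : ∀ z ∈ C, ∀ᶠ w in 𝓝 z, a' w = a w) : Lab C u a' := by
  obtain ⟨ι, l, f, hf, hl, ha⟩ := h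
  refine ⟨ι, l, f, hf, hl, fun z hz => ?_⟩
  filter_upwards [h' z hz, ha z hz] with w h1 h2
  rw [h1, h2]

theorem Lab.comp {g : ℝ → ℝ} {K : ℝ≥0} (hg : LipschitzWith K g) (h : Lab C u a) :
    Lab C u (fun z => g (a z)) := by
  obtain ⟨ι, l, f, hf, hl, ha⟩ := h
  refine ⟨ι, l, fun i s => g (f i s), fun i => ?_, hl, fun z hz => ?_⟩
  · obtain ⟨L, hL⟩ := hf i
    exact ⟨K * L, hg.comp hL⟩
  · filter_upwards [ha z hz] with w h1
    rw [h1]

theorem Lab.add (h : Lab C u a) (h' : Lab C u a') : Lab C u (fun z => a z + a' z) := by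
  obtain ⟨ι, l, f, hf, hl, ha⟩ := h
  obtain ⟨ι', l', f', hf', hl', ha'⟩ := h'
  refine ⟨ι × ι', fun z => (l z, l' z), fun p s => f p.1 s + f' p.2 s, fun p => ?_, ?_, ?_⟩
  · obtain ⟨L, hL⟩ := hf p.1
    obtain ⟨L', hL'⟩ := hf' p.2
    exact ⟨L + L', hL.add hL'⟩
  · intro z hz
    filter_upwards [hl z hz, hl' z hz] with w h1 h2
    rw [h1, h2]
  · intro z hz
    filter_upwards [ha z hz, ha' z hz] with w h1 h2
    rw [h1, h2]

/-- product of two bounded-range Lipschitz functions of one variable -/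
theorem lip_mul_clamp {f g : ℝ → ℝ} {K L : ℝ≥0} (hf : LipschitzWith K f) (hg : LipschitzWith L g)
    {M : ℝ} (hM : 0 ≤ M) :
    ∃ N : ℝ≥0, LipschitzWith N
      (fun s => f (max (-M) (min M s)) * g (max (-M) (min M s))) := by
  set c : ℝ → ℝ := fun s => max (-M) (min M s) with hc
  have hcl : LipschitzWith 1 c := by
    have h1 : LipschitzWith 1 (fun s : ℝ => min M s) := LipschitzWith.id.const_min M
    exact h1.const_max (-M)
  have hcb : ∀ s, |c s| ≤ M := by
    intro s
    rw [abs_le]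
    exact ⟨le_max_left _ _, max_le (by linarith) (min_le_left _ _)⟩
  have hfb : ∀ s, |f (c s)| ≤ |f 0| + K * M := by
    intro s
    have h1 := hf.dist_le_mul (c s) 0
    rw [Real.dist_eq, Real.dist_eq, sub_zero] at h1
    have h2 : |f (c s)| ≤ |f 0| + |f (c s) - f 0| := by
      have := abs_add_le (f 0) (f (c s) - f 0)
      rwa [add_sub_cancel] at this
    have h3 : (K : ℝ) * |c s| ≤ K * M := mul_le_mul_of_nonneg_left (hcb s) K.2
    linarith
  have hgb : ∀ s, |g (c s)| ≤ |g 0| + L * M := by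
    intro s
    have h1 := hg.dist_le_mul (c s) 0
    rw [Real.dist_eq, Real.dist_eq, sub_zero] at h1
    have h2 : |g (c s)| ≤ |g 0| + |g (c s) - g 0| := by
      have := abs_add_le (g 0) (g (c s) - g 0)
      rwa [add_sub_cancel] at this
    have h3 : (L : ℝ) * |c s| ≤ L * M := mul_le_mul_of_nonneg_left (hcb s) L.2
    linarith
  have hA : 0 ≤ (|f 0| + K * M) * L + (|g 0| + L * M) * K := by positivity
  refine ⟨⟨_, hA⟩, LipschitzWith.of_dist_le_mul fun x y => ?_⟩
  have e1 := (hf.comp hcl).dist_le_mul x y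
  have e2 := (hg.comp hcl).dist_le_mul x y
  simp only [Function.comp_apply, mul_one, Real.dist_eq] at e1 e2 ⊢
  have : f (c x) * g (c x) - f (c y) * g (c y)
      = f (c x) * (g (c x) - g (c y)) + g (c y) * (f (c x) - f (c y)) := by ring
  rw [this]
  refine (abs_add_le _ _).trans ?_
  rw [abs_mul, abs_mul]
  have e3 : |f (c x)| * |g (c x) - g (c y)| ≤ (|f 0| + K * M) * (L * |x - y|) :=
    mul_le_mul (hfb x) e2 (abs_nonneg _) (by positivity)
  have e4 : |g (c y)| * |f (c x) - f (c y)| ≤ (|g 0| + L * M) * (K * |x - y|) :=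
    mul_le_mul (hgb y) e1 (abs_nonneg _) (by positivity)
  show _ ≤ ((|f 0| + K * M) * L + (|g 0| + L * M) * K) * |x - y|
  nlinarith

theorem Lab.mul {M : ℝ} (hM : ∀ z, |u z| ≤ M) (h : Lab C u a) (h' : Lab C u a') :
    Lab C u (fun z => a z * a' z) := by
  obtain ⟨ι, l, f, hf, hl, ha⟩ := h
  obtain ⟨ι', l', f', hf', hl', ha'⟩ := h'
  have hM0 : 0 ≤ M := (abs_nonneg _).trans (hM 0)
  refine ⟨ι × ι', fun z => (l z, l' z), fun p s => f p.1 (max (-M) (min M s)) *
    f' p.2 (max (-M) (min M s)), fun p => ?_, ?_, ?_⟩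
  · obtain ⟨L, hL⟩ := hf p.1
    obtain ⟨L', hL'⟩ := hf' p.2
    exact lip_mul_clamp hL hL' hM0
  · intro z hz
    filter_upwards [hl z hz, hl' z hz] with w h1 h2
    rw [h1, h2]
  · intro z hz
    filter_upwards [ha z hz, ha' z hz] with w h1 h2
    have h3 := abs_le.1 (hM w)
    rw [h1, h2, min_eq_right h3.2, max_eq_right h3.1]

/-- everything generated by one function has a labelling -/
theorem Lab.gen {M : ℝ} (hM : ∀ z, |u z| ≤ M) (h : Gen C (fun _ : Unit => u) a) : Lab C u a := by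
  induction h with
  | const c => exact Lab.of_lc fun _ _ => Eventually.of_forall fun _ => rfl
  | lc h => exact Lab.of_lc h.lc
  | of i => exact Lab.self
  | add _ _ h1 h2 => exact h1.add h2
  | mul _ _ h1 h2 => exact h1.mul hM h2
  | comp hh _ h1 => exact h1.comp hh

/-- **ONE FUNCTION**: `a, a'` are near `C` Lipschitz functions of `u`. -/
theorem core (St : StokesP) (hC : IsCompact C) (hu : Q C u) (ha : Q C a) (ha' : Q C a')
    (hL : Lab C u a) (hL' : Lab C u a') : om C a a' = 0 := by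
  have hCc := hC.isClosed
  obtain ⟨M, hM⟩ := hu.bdd
  obtain ⟨A, hA⟩ := ha.bdd
  obtain ⟨A', hA'⟩ := ha'.bdd
  have hM0 : 0 ≤ M := (abs_nonneg _).trans (hM 0)
  have hA0 : 0 ≤ A := (abs_nonneg _).trans (hA 0)
  have hA0' : 0 ≤ A' := (abs_nonneg _).trans (hA' 0)
  obtain ⟨ι, l, f, hf, hl, hf1⟩ := hL
  obtain ⟨ι', l', f', hf', hl', hf1'⟩ := hL'
  choose K hK using hf
  choose K' hK' using hf'
  set p : ℂ → ι × ι' := fun z => (l z, l' z) with hp
  have hpl : ∀ z ∈ C, ∀ᶠ w in 𝓝 z, p w = p z := by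
    intro z hz
    filter_upwards [hl z hz, hl' z hz] with w h1 h2
    simp only [hp, h1, h2]
  obtain ⟨δ, hδ, hU⟩ := unif hC hpl (R := fun q w => a w = f q.1 (u w) ∧ a' w = f' q.2 (u w))
    (fun z hz => (hf1 z hz).and (hf1' z hz))
  obtain ⟨θ, κ, hκ, hc, h01, h1, h0⟩ := exists_cut hC (δ := δ / 4) (by linarith)
  obtain ⟨η, κ', hκ', hc', h01', h1', h0'⟩ := exists_cut hC (δ := δ / 2) (by linarith)
  have hθ : LC C θ := cut_lc hκ hc (by linarith : 0 < δ / 4) h1
  have hη : LC C η := cut_lc hκ' hc' (by linarith : 0 < δ / 2) h1'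
  rw [show 2 * (δ / 4) = δ / 2 by ring] at h0
  rw [show 2 * (δ / 2) = δ by ring] at h0'
  set N := thickening δ C with hN
  have hNo : IsOpen N := isOpen_thickening
  -- the function `B`
  set B : ℂ → ℝ := fun w => HH (f (l w)) (f' (l' w)) (u w) with hB
  set W : ℂ → ℝ := fun w => η w * B w with hW
  have hCN : C ⊆ N := self_subset_thickening hδ C
  have hloc : ∀ z ∈ N, (∀ᶠ w in 𝓝 z, a w = f (l z) (u w)) ∧ (∀ᶠ w in 𝓝 z, a' w = f' (l' z) (u w))
      ∧ (∀ᶠ w in 𝓝 z, B w = HH (f (l z)) (f' (l' z)) (u w)) := by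
    intro z hz
    have e1 := hNo.mem_nhds hz
    have e2 := (hU z hz).2.1
    refine ⟨?_, ?_, ?_⟩
    · filter_upwards [e1, e2] with w hw1 hw2
      have := (hU w hw1).1.1
      rw [hw2] at this
      exact this
    · filter_upwards [e1, e2] with w hw1 hw2
      have := (hU w hw1).1.2
      rw [hw2] at this
      exact this
    · filter_upwards [e2] with w hw2
      have h3 : l w = l z := congrArg Prod.fst hw2
      have h4 : l' w = l' z := congrArg Prod.snd hw2
      simp only [hB, h3, h4]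
  -- `B` is bounded on `N`
  have hBb : ∃ b : ℝ, 0 ≤ b ∧ ∀ w ∈ N, |B w| ≤ b := by
    have h2 : ∀ q : ι × ι', ∃ b : ℝ, ∀ s, |s| ≤ M → |HH (f q.1) (f' q.2) s| ≤ b := by
      intro q
      have hcont : Continuous (HH (f q.1) (f' q.2)) :=
        (HH_locLip (hK q.1) (hK' q.2)).continuous
      obtain ⟨b, hb⟩ := (isCompact_Icc (a := -M) (b := M)).exists_bound_of_continuousOn
        hcont.continuousOn
      exact ⟨b, fun s hs => by simpa using hb s (abs_le.1 hs)⟩
    choose b hb using h2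
    have hfin : (b '' (p '' C)).Finite := (finite_labels hC hpl).image b
    obtain ⟨b0, hb0⟩ := hfin.bddAbove
    refine ⟨max b0 0, le_max_right _ _, fun w hw => ?_⟩
    have h3 := hb (p w) (u w) (hM w)
    exact h3.trans ((hb0 (mem_image_of_mem b (hU w hw).2.2)).trans (le_max_left _ _))
  obtain ⟨b, hb0, hb⟩ := hBb
  -- derivative of `B`
  have hBd : ∀ z ∈ N, z ∈ Cᶜ → DifferentiableAt ℝ a z → DifferentiableAt ℝ a' z →
      HasFDerivAt B (a z • fderiv ℝ a' z - a' z • fderiv ℝ a z) z := by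
    intro z hz hzC h3 h4
    obtain ⟨e1, e2, e3⟩ := hloc z hz
    obtain ⟨L, t, ht, hLt⟩ := hu.loc hzC
    rw [hCc.isOpen_compl.nhdsWithin_eq hzC] at ht
    refine HH_hasFDerivAt (hK (l z)) (hK' (l' z)) (u := u) (M := L) ?_ e1 e2 e3 h3 h4
    filter_upwards [ht] with w hw
    have := hLt.dist_le_mul w hw z (mem_of_mem_nhds ht)
    rwa [Real.dist_eq, dist_eq_norm] at this
  -- `W` is in `Q C`
  have hWn : ∀ z ∉ N, ∀ᶠ w in 𝓝 z, W w = 0 := by
    intro z hz
    filter_upwards [h0' z hz] with w hw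
    simp only [hW, hw, zero_mul]
  have hη1 : ∀ z, |η z| ≤ 1 := fun z => by
    rw [abs_of_nonneg (h01' z).1]; exact (h01' z).2
  have hWb : ∀ z, |W z| ≤ b := by
    intro z
    by_cases hz : z ∈ N
    · simp only [hW, abs_mul]
      calc |η z| * |B z| ≤ 1 * b := mul_le_mul (hη1 z) (hb z hz) (abs_nonneg _) zero_le_one
        _ = b := one_mul b
    · rw [(hWn z hz).self_of_nhds, abs_zero]; exact hb0
  have hWq : Q C W := by
    refine ⟨⟨b, hWb⟩, ?_, ?_⟩
    · intro z hz
      by_cases hzN : z ∈ N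
      · obtain ⟨e1, e2, e3⟩ := hloc z hzN
        -- near `z`: Lipschitz
        obtain ⟨L, t, ht, hLt⟩ := hu.loc hz
        obtain ⟨L2, s, hs, hLs⟩ := HH_locLip (hK (l z)) (hK' (l' z)) (u z)
        rw [hCc.isOpen_compl.nhdsWithin_eq hz] at ht ⊢
        have huc : ContinuousAt u z := by
          have := hu.loc.continuousOn.continuousAt (hCc.isOpen_compl.mem_nhds hz)
          exact this
        have hBl : LipschitzOnWith (L2 * L) B (t ∩ (u ⁻¹' s) ∩ {w | B w = HH (f (l z)) (f' (l' z)) (u w)}) := by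
          refine LipschitzOnWith.of_dist_le_mul fun x hx y hy => ?_
          rw [hx.2, hy.2]
          have g1 := hLs.dist_le_mul (u x) hx.1.2 (u y) hy.1.2
          have g2 := hLt.dist_le_mul x hx.1.1 y hy.1.1
          push_cast
          calc dist (HH (f (l z)) (f' (l' z)) (u x)) (HH (f (l z)) (f' (l' z)) (u y))
              ≤ L2 * dist (u x) (u y) := g1
            _ ≤ L2 * (L * dist x y) := mul_le_mul_of_nonneg_left g2 L2.2
            _ = _ := by ring
        refine ⟨b.toNNReal * κ' + (1 : ℝ≥0) * (L2 * L),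
          (t ∩ (u ⁻¹' s) ∩ {w | B w = HH (f (l z)) (f' (l' z)) (u w)}) ∩ N, ?_, ?_⟩
        · exact inter_mem (inter_mem (inter_mem ht (huc.preimage_mem_nhds hs)) e3)
            (hNo.mem_nhds hzN)
        · refine LipschitzOnWith.of_dist_le_mul fun x hx y hy => ?_
          have g1 := hBl.dist_le_mul x hx.1 y hy.1
          have g2 := hκ'.dist_le_mul x y
          rw [Real.dist_eq] at g1 g2 ⊢
          have g3 : W x - W y = B x * (η x - η y) + η y * (B x - B y) := by
            simp only [hW]; ring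
          rw [g3]
          refine (abs_add_le _ _).trans ?_
          rw [abs_mul, abs_mul]
          have g4 : |B x| * |η x - η y| ≤ b * (κ' * dist x y) :=
            mul_le_mul (hb x hx.2) g2 (abs_nonneg _) hb0
          have g5 : |η y| * |B x - B y| ≤ 1 * (((L2 * L : ℝ≥0) : ℝ) * dist x y) :=
            mul_le_mul (hη1 y) g1 (abs_nonneg _) zero_le_one
          push_cast at g5 ⊢
          rw [Real.coe_toNNReal b hb0]
          nlinarith
      · rw [hCc.isOpen_compl.nhdsWithin_eq hz]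
        refine ⟨0, _, hWn z hzN, ?_⟩
        refine LipschitzOnWith.of_dist_le_mul fun x hx y hy => ?_
        simp only [mem_ofPred_eq] at hx hy
        rw [hx, hy]; simp
    · have hdom : IntegrableOn (fun z => 2 * b ^ 2 * en η z + 2 * (2 * A ^ 2 * en a' z +
          2 * A' ^ 2 * en a z)) Cᶜ :=
        ((hη.q.fin.const_mul _).add (((ha'.fin.const_mul _).add (ha.fin.const_mul _)).const_mul _))
      refine Integrable.mono' hdom (measurable_en _).aestronglyMeasurable ?_
      filter_upwards [ha.ae_diff hCc, ha'.ae_diff hCc, hη.q.ae_diff hCc,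
        ae_restrict_mem hCc.isOpen_compl.measurableSet] with z g1 g2 g3 g4
      rw [Real.norm_of_nonneg (en_nonneg _ _)]
      have n1 := en_nonneg η z
      have n2 := en_nonneg a z
      have n3 := en_nonneg a' z
      by_cases hzN : z ∈ N
      · have g5 := hBd z hzN g4 g1 g2
        have g6 : DifferentiableAt ℝ B z := g5.differentiableAt
        have x1 : gx B z = a z * gx a' z - a' z * gx a z := by
          unfold gx; rw [g5.fderiv]; simp
        have y1 : gy B z = a z * gy a' z - a' z * gy a z := by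
          unfold gy; rw [g5.fderiv]; simp
        have x2 : gx W z = η z * gx B z + B z * gx η z := gx_mul g3 g6
        have y2 : gy W z = η z * gy B z + B z * gy η z := gy_mul g3 g6
        have s1 : η z ^ 2 ≤ 1 := by
          rw [← sq_abs]; have := hη1 z; nlinarith [abs_nonneg (η z)]
        have s2 : B z ^ 2 ≤ b ^ 2 := by
          rw [← sq_abs]; exact pow_le_pow_left₀ (abs_nonneg _) (hb z hzN) 2
        have s3 : a z ^ 2 ≤ A ^ 2 := by
          rw [← sq_abs]; exact pow_le_pow_left₀ (abs_nonneg _) (hA z) 2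
        have s4 : a' z ^ 2 ≤ A' ^ 2 := by
          rw [← sq_abs]; exact pow_le_pow_left₀ (abs_nonneg _) (hA' z) 2
        have t1 : en B z ≤ 2 * A ^ 2 * en a' z + 2 * A' ^ 2 * en a z := by
          have : en B z ≤ 2 * (a z ^ 2 * en a' z) + 2 * (a' z ^ 2 * en a z) := by
            unfold en; rw [x1, y1]
            nlinarith [sq_nonneg (a z * gx a' z + a' z * gx a z),
              sq_nonneg (a z * gy a' z + a' z * gy a z)]
          have u1 := mul_le_mul_of_nonneg_right s3 n3
          have u2 := mul_le_mul_of_nonneg_right s4 n2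
          nlinarith
        have t2 : en W z ≤ 2 * (η z ^ 2 * en B z) + 2 * (B z ^ 2 * en η z) := by
          unfold en; rw [x2, y2]
          nlinarith [sq_nonneg (η z * gx B z - B z * gx η z),
            sq_nonneg (η z * gy B z - B z * gy η z)]
        have n4 := en_nonneg B z
        have t3 := mul_le_mul_of_nonneg_right s1 n4
        have t4 := mul_le_mul_of_nonneg_right s2 n1
        nlinarith
      · rw [en_zero (hWn z hzN)]
        positivity
  -- reduce to `θ a`, `θ a'`
  have hθa : Q C (fun z => θ z * a z) := hθ.q.mul hCc ha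
  have hθa' : Q C (fun z => θ z * a' z) := hθ.q.mul hCc ha'
  have hnear : ∀ z ∈ C, ∀ᶠ w in 𝓝 z, θ w = 1 := by
    intro z hz
    have : thickening (δ / 4) C ∈ 𝓝 z :=
      isOpen_thickening.mem_nhds (self_subset_thickening (by linarith) C hz)
    filter_upwards [this] with w hw
    exact h1 w hw
  have r1 : om C a a' = om C (fun z => θ z * a z) (fun z => θ z * a' z) := by
    rw [om_congr_left St hC ha hθa ha', om_congr_right St hC ha' hθa' hθa]
    · intro z hz
      filter_upwards [hnear z hz] with w hw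
      rw [hw, one_mul]
    · intro z hz
      filter_upwards [hnear z hz] with w hw
      rw [hw, one_mul]
  -- `χ = θ²`
  have hθ1 : ∀ z, |θ z| ≤ 1 := fun z => by
    rw [abs_of_nonneg (h01 z).1]; exact (h01 z).2
  have hχ : LC C (fun z => θ z * θ z) := by
    refine LC.of_compact ?_ ?_ ?_
    · have := ll_mul (O := univ) (locallyLipschitzOn_univ.2 hθ.lip)
        (locallyLipschitzOn_univ.2 hθ.lip) hθ1 hθ1
      exact locallyLipschitzOn_univ.1 this
    · exact hc.mul_left
    · intro z hz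
      filter_upwards [hθ.lc z hz] with w hw
      rw [hw]
  have hS := stokes St hC hχ hWq
  have r2 : 2 * om C (fun z => θ z * a z) (fun z => θ z * a' z) = om C (fun z => θ z * θ z) W := by
    unfold om
    rw [← integral_const_mul]
    refine integral_congr_ae ?_
    filter_upwards [hu.ae_diff hCc, ha.ae_diff hCc, ha'.ae_diff hCc, hθ.q.ae_diff hCc,
      ae_restrict_mem hCc.isOpen_compl.measurableSet] with z g0 g1 g2 g3 g4
    by_cases hz : z ∈ thickening (δ / 2) C
    · have hzN : z ∈ N := thickening_mono (by linarith) C hz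
      obtain ⟨e1, e2, e3⟩ := hloc z hzN
      have g5 := hBd z hzN g4 g1 g2
      have g6 : W =ᶠ[𝓝 z] B := by
        filter_upwards [isOpen_thickening.mem_nhds hz] with w hw
        simp only [hW, h1' w hw, one_mul]
      have x1 : gx W z = a z * gx a' z - a' z * gx a z := by
        rw [gx_eq_of_eventuallyEq g6]; unfold gx; rw [g5.fderiv]; simp
      have y1 : gy W z = a z * gy a' z - a' z * gy a z := by
        rw [gy_eq_of_eventuallyEq g6]; unfold gy; rw [g5.fderiv]; simp
      have w0 : gx a z * gy a' z - gy a z * gx a' z = 0 :=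
        wedge_zero (hK (l z)) (hK' (l' z)) e1 e2 g0 g1 g2
      unfold wdg
      rw [gx_mul g3 g1, gy_mul g3 g1, gx_mul g3 g2, gy_mul g3 g2, gx_mul g3 g3, gy_mul g3 g3,
        x1, y1]
      linear_combination (2 * θ z ^ 2) * w0
    · have k0 := h0 z hz
      have k1 : ∀ᶠ w in 𝓝 z, θ w * a w = 0 := by
        filter_upwards [k0] with w hw
        rw [hw, zero_mul]
      have k2 : ∀ᶠ w in 𝓝 z, θ w * θ w = 0 := by
        filter_upwards [k0] with w hw
        rw [hw, zero_mul]
      rw [wdg_zero_left k1, wdg_zero_left k2, mul_zero]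
  rw [r1]
  linarith

/-- **ONE FUNCTION IS ISOTROPIC.** -/
theorem iso_one (St : StokesP) (hC : IsCompact C) (hu : Q C u) : Iso C (fun _ : Unit => u) := by
  intro v w hv hw
  obtain ⟨M, hM⟩ := hu.bdd
  exact core St hC hu (hv.q hC.isClosed fun _ => hu) (hw.q hC.isClosed fun _ => hu)
    (Lab.gen hM hv) (Lab.gen hM hw)

end
end Crest.Agent.R105.OneF_871
end

-- ▼ part R105/Clo1_871
section

/-!
Row 105 (S0139), CLOSE, isotropy half: if `F` consists of generated functions which are locally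
constant at the points of a clopen piece `P = {χ = 1}` of `C`, and `u = ψ` near `C \ P`, then
`insert u F` is isotropic.
-/

set_option autoImplicit false

open MeasureTheory Set Filter Topology Metric
open scoped NNReal ENNReal

namespace Crest.Agent.R105.Clo_871

open Crest.Agent.R105.Bd_775 Crest.Agent.R105.OneF_871

variable {C : Set ℂ}

/-- `χ A` and `(1 - χ) B` are orthogonal for `om`, `χ` the indicator of a clopen piece -/
theorem om_split (St : StokesP) (hC : IsCompact C) {χ A B : ℂ → ℝ} (hχ : LC C χ)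
    (h01 : ∀ z ∈ C, χ z = 0 ∨ χ z = 1) (hA : Q C A) (hB : Q C B) :
    om C (fun z => χ z * A z) (fun z => (1 - χ z) * B z) = 0 := by
  classical
  have hCc := hC.isClosed
  have hX : Q C (fun z => χ z * A z) := hχ.q.mul hCc hA
  have hY : Q C (fun z => (1 - χ z) * B z) := ((Q.const C 1).sub hCc hχ.q).mul hCc hB
  refine core St hC (u := fun z => χ z * A z + (1 - χ z) * B z) (hX.add hCc hY) hX hY ?_ ?_
  · refine ⟨ℝ, χ, fun c s => if c = 1 then s else 0, fun c => ?_, hχ.lc, fun z hz => ?_⟩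
    · by_cases hc : c = 1
      · refine ⟨1, ?_⟩
        simp only [hc, if_true]; exact LipschitzWith.id
      · refine ⟨0, ?_⟩
        simp only [hc, if_false]; exact LipschitzWith.const (0:ℝ)
    · filter_upwards [hχ.lc z hz] with w hw
      rcases h01 z hz with h | h
      · rw [hw, h]; simp
      · rw [hw, h]; simp
  · refine ⟨ℝ, χ, fun c s => if c = 1 then 0 else s, fun c => ?_, hχ.lc, fun z hz => ?_⟩
    · by_cases hc : c = 1
      · refine ⟨0, ?_⟩
        simp only [hc, if_true]; exact LipschitzWith.const (0:ℝ)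
      · refine ⟨1, ?_⟩
        simp only [hc, if_false]; exact LipschitzWith.id
    · filter_upwards [hχ.lc z hz] with w hw
      rcases h01 z hz with h | h
      · rw [hw, h]; simp
      · rw [hw, h]; simp

/-- labelling on a clopen piece: everything generated by `u` and functions which are locally
constant at the points of `P = {χ = 1}` -/
theorem lab_piece {χ u : ℂ → ℝ} {F : Set (ℂ → ℝ)} {M : ℝ} (hM : ∀ z, |u z| ≤ M)
    (hF : ∀ g ∈ F, ∀ z ∈ C, χ z = 1 → ∀ᶠ w in 𝓝 z, g w = g z) {a : ℂ → ℝ}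
    (ha : IfB_641.Gen C (insert u F) a) : Lab {z ∈ C | χ z = 1} u a := by
  unfold IfB_641.Gen at ha
  induction ha with
  | const c => exact Lab.of_lc fun _ _ => Eventually.of_forall fun _ => rfl
  | lc h => exact Lab.of_lc fun z hz => h.lc z hz.1
  | of i =>
    rcases i.2 with h | h
    · have : (i : ℂ → ℝ) = u := h
      show Lab _ u (i : ℂ → ℝ)
      rw [this]; exact Lab.self
    · exact Lab.of_lc fun z hz => hF _ h z hz.1 hz.2
  | add _ _ h1 h2 => exact h1.add h2
  | mul _ _ h1 h2 => exact h1.mul hM h2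
  | comp hh _ h1 => exact h1.comp hh

/-- from the clopen piece to `C` -/
theorem lab_ext {χ u a : ℂ → ℝ} (hχ : LC C χ) (h01 : ∀ z ∈ C, χ z = 0 ∨ χ z = 1)
    (h : Lab {z ∈ C | χ z = 1} u a) : Lab C u (fun z => χ z * a z) := by
  classical
  obtain ⟨ι, l, f, hf, hl, ha⟩ := h
  refine ⟨Option ι, fun w => if χ w = 1 then some (l w) else none,
    fun o => match o with
      | some i => f i
      | none => fun _ => 0, ?_, ?_, ?_⟩
  · rintro (_ | i)
    · exact ⟨0, LipschitzWith.const (0:ℝ)⟩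
    · exact hf i
  · intro z hz
    rcases h01 z hz with h0 | h1
    · filter_upwards [hχ.lc z hz] with w hw
      simp [hw, h0]
    · filter_upwards [hχ.lc z hz, hl z ⟨hz, h1⟩] with w hw hw2
      simp [hw, h1, hw2]
  · intro z hz
    rcases h01 z hz with h0 | h1
    · filter_upwards [hχ.lc z hz] with w hw
      simp [hw, h0]
    · filter_upwards [hχ.lc z hz, ha z ⟨hz, h1⟩] with w hw hw2
      simp [hw, h1, hw2]

/-- the same expression in `ψ` instead of `u` -/
theorem transfer {χ u ψ : ℂ → ℝ} {F S : Set (ℂ → ℝ)}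
    (hF : ∀ g ∈ F, IfB_641.Gen C (insert ψ S) g)
    (hu : ∀ z ∈ C, χ z = 0 → ∀ᶠ w in 𝓝 z, u w = ψ w) {a : ℂ → ℝ}
    (ha : IfB_641.Gen C (insert u F) a) :
    ∃ a', IfB_641.Gen C (insert ψ S) a' ∧ ∀ z ∈ C, χ z = 0 → ∀ᶠ w in 𝓝 z, a w = a' w := by
  unfold IfB_641.Gen at ha
  induction ha with
  | const c => exact ⟨_, IfB_641.Gen.const c, fun _ _ _ => Eventually.of_forall fun _ => rfl⟩
  | lc h => exact ⟨_, IfB_641.Gen.lc h, fun _ _ _ => Eventually.of_forall fun _ => rfl⟩
  | of i =>
    rcases i.2 with h | h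
    · have : (i : ℂ → ℝ) = u := h
      refine ⟨ψ, IfB_641.Gen.of (mem_insert _ _), fun z hz h0 => ?_⟩
      filter_upwards [hu z hz h0] with w hw
      rw [← hw]
      exact congrFun this w
    · exact ⟨_, hF _ h, fun _ _ _ => Eventually.of_forall fun _ => rfl⟩
  | add _ _ h1 h2 =>
    obtain ⟨a1, g1, e1⟩ := h1
    obtain ⟨a2, g2, e2⟩ := h2
    refine ⟨_, g1.add g2, fun z hz h0 => ?_⟩
    filter_upwards [e1 z hz h0, e2 z hz h0] with w w1 w2
    rw [w1, w2]
  | mul _ _ h1 h2 =>
    obtain ⟨a1, g1, e1⟩ := h1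
    obtain ⟨a2, g2, e2⟩ := h2
    refine ⟨_, g1.mul g2, fun z hz h0 => ?_⟩
    filter_upwards [e1 z hz h0, e2 z hz h0] with w w1 w2
    rw [w1, w2]
  | comp hh _ h1 =>
    obtain ⟨a1, g1, e1⟩ := h1
    refine ⟨_, IfB_641.Gen.comp hh g1, fun z hz h0 => ?_⟩
    filter_upwards [e1 z hz h0] with w w1
    rw [w1]

/-- **CLOSE, isotropy half.** -/
theorem close_iso (St : StokesP) (hC : IsCompact C) {χ u ψ : ℂ → ℝ} {F S : Set (ℂ → ℝ)}
    (hS : IfB_641.Iso C (insert ψ S)) (hSQ : ∀ s ∈ S, Q C s) (hψ : Q C ψ) (hu : Q C u)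
    (hF : ∀ g ∈ F, IfB_641.Gen C (insert ψ S) g) (hχ : LC C χ)
    (h01 : ∀ z ∈ C, χ z = 0 ∨ χ z = 1)
    (hP : ∀ g ∈ F, ∀ z ∈ C, χ z = 1 → ∀ᶠ w in 𝓝 z, g w = g z)
    (hoff : ∀ z ∈ C, χ z = 0 → ∀ᶠ w in 𝓝 z, u w = ψ w) : IfB_641.Iso C (insert u F) := by
  intro A B hA hB
  have hCc := hC.isClosed
  have hTQ : ∀ s ∈ insert ψ S, Q C s := by
    rintro s (rfl | hs)
    · exact hψ
    · exact hSQ s hs
  have hFQ : ∀ s ∈ insert u F, Q C s := by
    rintro s (rfl | hs)
    · exact hu
    · exact IfB_641.Gen.q hCc hTQ (hF s hs)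
  have qA : Q C A := IfB_641.Gen.q hCc hFQ hA
  have qB : Q C B := IfB_641.Gen.q hCc hFQ hB
  have qχ := hχ.q
  have q1χ : Q C (fun z => 1 - χ z) := (Q.const C 1).sub hCc qχ
  obtain ⟨A', gA', eA⟩ := transfer hF hoff hA
  obtain ⟨B', gB', eB⟩ := transfer hF hoff hB
  have qA' : Q C A' := IfB_641.Gen.q hCc hTQ gA'
  have qB' : Q C B' := IfB_641.Gen.q hCc hTQ gB'
  obtain ⟨M, hM⟩ := hu.bdd
  have lA := lab_ext hχ h01 (lab_piece hM hP hA)
  have lB := lab_ext hχ h01 (lab_piece hM hP hB)
  -- the four pieces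
  have q1 := qχ.mul hCc qA
  have q2 := q1χ.mul hCc qA
  have q3 := qχ.mul hCc qB
  have q4 := q1χ.mul hCc qB
  have eqA : (fun z => χ z * A z + (1 - χ z) * A z) = A := by funext z; ring
  have eqB : (fun z => χ z * B z + (1 - χ z) * B z) = B := by funext z; ring
  have s1 := om_add_left hCc q1 q2 qB
  rw [eqA] at s1
  have s2 := om_add_right hCc q3 q4 q1
  rw [eqB] at s2
  have s3 := om_add_right hCc q3 q4 q2
  rw [eqB] at s3
  have t1 : om C (fun z => χ z * A z) (fun z => χ z * B z) = 0 := core St hC hu q1 q3 lA lB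
  have t2 : om C (fun z => χ z * A z) (fun z => (1 - χ z) * B z) = 0 :=
    om_split St hC hχ h01 qA qB
  have t3 : om C (fun z => (1 - χ z) * A z) (fun z => χ z * B z) = 0 := by
    rw [om_antisymm, om_split St hC hχ h01 qB qA, neg_zero]
  have t4 : om C (fun z => (1 - χ z) * A z) (fun z => (1 - χ z) * B z) = 0 := by
    have q5 := q1χ.mul hCc qA'
    have q6 := q1χ.mul hCc qB'
    rw [om_congr_left St hC q2 q5 q4, om_congr_right St hC q4 q6 q5]
    · have g1 : IfB_641.Gen C (insert ψ S) (fun z => 1 - χ z) :=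
        (IfB_641.Gen.const 1).sub (IfB_641.Gen.lc hχ)
      exact hS _ _ (g1.mul gA') (g1.mul gB')
    · intro z hz
      rcases h01 z hz with h | h
      · filter_upwards [eB z hz h] with w hw
        rw [hw]
      · filter_upwards [hχ.lc z hz] with w hw
        rw [hw, h]; ring
    · intro z hz
      rcases h01 z hz with h | h
      · filter_upwards [eA z hz h] with w hw
        rw [hw]
      · filter_upwards [hχ.lc z hz] with w hw
        rw [hw, h]; ring
  rw [s1, s2, s3, t1, t2, t3, t4]; ring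

end Crest.Agent.R105.Clo_871
end

-- ▼ part R105/Clo2_871
section

/-!
Row 105 (S0139), CLOSE: an atom of `ψ` at `q` is closed at arbitrarily small cost, after a cheap
flattening of finitely many `b i` near `q`.
-/

set_option autoImplicit false

open MeasureTheory Set Filter Topology Metric
open scoped NNReal ENNReal

namespace Crest.Agent.R105.Clo_871

open Crest.Agent.R105.Bd_775 Crest.Agent.R105.OneF_871

/-- the Stokes hypothesis holds (939) -/
theorem stokesP : StokesP := by
  intro f g hf hg hfb hgb hfe hge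
  have h := Stk_939.om_of_zero' (C := ∅) isClosed_empty (κ := f) (u := g)
    ⟨hfb, hf.locallyLipschitzOn, hfe.integrableOn⟩ (fun z hz => absurd hz (notMem_empty z))
    hg.locallyLipschitzOn hge.integrableOn
  unfold om at h
  rwa [compl_empty, setIntegral_univ] at h

variable {C : Set ℂ}

/-- one function is isotropic -/
theorem iso_one (hC : IsCompact C) {u : ℂ → ℝ} (hu : Q C u) : Bd_775.Iso C (fun _ : Unit => u) :=
  OneF_871.iso_one stokesP hC hu

/-- closing the atom: the function `(1 - ζ) ψ` -/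
theorem close_fun (hC : IsClosed C) {q : ℂ} {ψ : ℂ → ℝ} (hψ : IfB_641.D1 C q ψ) {M : ℝ}
    (hM : ∀ z, |ψ z| ≤ M) {ρ ε : ℝ} (hρ : 0 < ρ) (hε : 0 < ε) :
    ∃ u : ℂ → ℝ, D C u ∧ (∀ z, |u z| ≤ M) ∧ (∀ z ∉ closedBall q ρ, u z = ψ z) ∧
      (∀ z ∉ closedBall q ρ, ∀ᶠ w in 𝓝 z, u w = ψ w) ∧
      IntegrableOn (en (fun z => u z - ψ z)) Cᶜ ∧
      ∫ z in Cᶜ, en (fun z => u z - ψ z) z ≤ ε := by
  have hM0 : 0 ≤ M := (abs_nonneg _).trans (hM 0)
  have hQ := hψ.toQ
  -- a small ball
  obtain ⟨ρ', hρ', hρρ, hsm⟩ : ∃ ρ' > 0, ρ' ≤ ρ ∧ ∫ z in Cᶜ ∩ closedBall q ρ', en ψ z ≤ ε / 4 := by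
    have hI : IntegrableOn (en ψ) Cᶜ := hQ.fin
    have h1 : Tendsto (fun n : ℕ => ∫ z in Cᶜ ∩ closedBall q (ρ / (n + 1)), en ψ z) atTop
        (𝓝 (∫ z in ⋂ n : ℕ, (Cᶜ ∩ closedBall q (ρ / (n + 1))), en ψ z)) := by
      refine tendsto_setIntegral_of_antitone
        (fun n => hC.isOpen_compl.measurableSet.inter measurableSet_closedBall) ?_
        ⟨0, hI.mono_set inter_subset_left⟩
      intro m n hmn
      refine inter_subset_inter_right _ (closedBall_subset_closedBall ?_)
      have : (m : ℝ) ≤ n := by exact_mod_cast hmn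
      exact div_le_div_of_nonneg_left hρ.le (by positivity) (by linarith)
    have h2 : ∫ z in ⋂ n : ℕ, (Cᶜ ∩ closedBall q (ρ / (n + 1))), en ψ z = 0 := by
      have h3 : (⋂ n : ℕ, (Cᶜ ∩ closedBall q (ρ / (n + 1)))) ⊆ {q} := by
        intro z hz
        rw [mem_iInter] at hz
        by_contra hne
        have hd : 0 < dist z q := dist_pos.2 hne
        obtain ⟨n, hn⟩ := exists_nat_gt (ρ / dist z q)
        have h4 := (hz n).2
        rw [mem_closedBall] at h4
        have h5 : ρ < n * dist z q := by rwa [div_lt_iff₀ hd] at hn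
        have h6 : dist z q * (n + 1) ≤ ρ := by rwa [le_div_iff₀ (by positivity)] at h4
        nlinarith
      have h4 : volume (⋂ n : ℕ, (Cᶜ ∩ closedBall q (ρ / (n + 1)))) = 0 :=
        measure_mono_null h3 (by simp)
      rw [Measure.restrict_eq_zero.2 h4, integral_zero_measure]
    rw [h2] at h1
    obtain ⟨n, hn⟩ := ((h1.eventually (gt_mem_nhds (show (0:ℝ) < ε / 4 by positivity)))).exists
    refine ⟨ρ / (n + 1), by positivity, ?_, hn.le⟩
    exact div_le_self hρ.le (by linarith [(Nat.cast_nonneg n : (0:ℝ) ≤ n)])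
  obtain ⟨ζ, ⟨K, hK⟩, hcs, hts, h01, hnear, hei, he⟩ :=
    Stk_939.exists_cut_pt q hρ' (show 0 < ε / (4 * (M ^ 2 + 1)) by positivity)
  have hζ1 : ∀ z, |ζ z| ≤ 1 := fun z => by
    rw [abs_of_nonneg (h01 z).1]; exact (h01 z).2
  have hζQ : Q C ζ := by
    refine ⟨⟨1, hζ1⟩, hK.locallyLipschitz.locallyLipschitzOn, hei.integrableOn⟩
  have hoff : ∀ z ∉ closedBall q ρ', ∀ᶠ w in 𝓝 z, ζ w = 0 := by
    intro z hz
    have : z ∉ tsupport ζ := fun h => hz (hts h)
    exact notMem_tsupport_iff_eventuallyEq.1 this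
  set u : ℂ → ℝ := fun z => (1 - ζ z) * ψ z with hu
  have huQ : Q C u := ((Q.const C 1).sub hC hζQ).mul hC hQ
  have huc : Continuous u := by
    rw [continuous_iff_continuousAt]
    intro z
    by_cases hz : z = q
    · subst hz
      have : u =ᶠ[𝓝 z] fun _ => (0:ℝ) := by
        filter_upwards [hnear] with w hw
        simp only [hu, hw]; ring
      exact continuousAt_const.congr this.symm
    · exact (continuousAt_const.sub hK.continuous.continuousAt).mul (hψ.cont z hz)
  have hev : ∀ z ∉ closedBall q ρ, ∀ᶠ w in 𝓝 z, u w = ψ w := by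
    intro z hz
    filter_upwards [hoff z fun h => hz (closedBall_subset_closedBall hρρ h)] with w hw
    simp only [hu, hw]; ring
  have hd : Q C (fun z => u z - ψ z) := huQ.sub hC hQ
  refine ⟨u, huQ.d huc, fun z => ?_, fun z hz => (hev z hz).self_of_nhds, hev, hd.fin, ?_⟩
  · simp only [hu, abs_mul]
    have : |1 - ζ z| ≤ 1 := by
      rw [abs_le]; constructor <;> linarith [(h01 z).1, (h01 z).2]
    calc |1 - ζ z| * |ψ z| ≤ 1 * M := mul_le_mul this (hM z) (abs_nonneg _) zero_le_one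
      _ = M := one_mul M
  · -- energy of `u - ψ = - ζ ψ`
    have e1 : ∀ᵐ z ∂(volume.restrict Cᶜ), en (fun z => u z - ψ z) z ≤
        2 * (closedBall q ρ').indicator (en ψ) z + 2 * M ^ 2 * en ζ z := by
      filter_upwards [hQ.ae_diff hC, hζQ.ae_diff hC] with z d1 d2
      have hfun : (fun z => u z - ψ z) = fun z => (-1) * (ζ z * ψ z) := by
        funext w; simp only [hu]; ring
      by_cases hz : z ∈ closedBall q ρ'
      · rw [indicator_of_mem hz, hfun]
        have hd3 : DifferentiableAt ℝ (fun z => ζ z * ψ z) z := d2.mul d1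
        have x1 : gx (fun z => (-1) * (ζ z * ψ z)) z = -(ζ z * gx ψ z + ψ z * gx ζ z) := by
          rw [gx_mul (differentiableAt_const _) hd3, gx_mul d2 d1, gx_const]; ring
        have y1 : gy (fun z => (-1) * (ζ z * ψ z)) z = -(ζ z * gy ψ z + ψ z * gy ζ z) := by
          rw [gy_mul (differentiableAt_const _) hd3, gy_mul d2 d1, gy_const]; ring
        have s1 : ζ z ^ 2 ≤ 1 := by
          rw [← sq_abs]; have := hζ1 z; nlinarith [abs_nonneg (ζ z)]
        have s2 : ψ z ^ 2 ≤ M ^ 2 := by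
          rw [← sq_abs]; exact pow_le_pow_left₀ (abs_nonneg _) (hM z) 2
        have n1 := en_nonneg ζ z
        have n2 := en_nonneg ψ z
        have t1 : en (fun z => (-1) * (ζ z * ψ z)) z ≤
            2 * (ζ z ^ 2 * en ψ z) + 2 * (ψ z ^ 2 * en ζ z) := by
          unfold en; rw [x1, y1]
          nlinarith [sq_nonneg (ζ z * gx ψ z - ψ z * gx ζ z),
            sq_nonneg (ζ z * gy ψ z - ψ z * gy ζ z)]
        have t2 := mul_le_mul_of_nonneg_right s1 n2
        have t3 := mul_le_mul_of_nonneg_right s2 n1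
        nlinarith
      · rw [indicator_of_notMem hz]
        have : ∀ᶠ w in 𝓝 z, (fun z => u z - ψ z) w = 0 := by
          filter_upwards [hoff z hz] with w hw
          simp only [hu, hw]; ring
        rw [en_zero this]
        have := en_nonneg ζ z
        positivity
    have i1 : IntegrableOn (fun z => (closedBall q ρ').indicator (en ψ) z) Cᶜ :=
      hQ.fin.indicator measurableSet_closedBall
    calc ∫ z in Cᶜ, en (fun z => u z - ψ z) z
        ≤ ∫ z in Cᶜ, (2 * (closedBall q ρ').indicator (en ψ) z + 2 * M ^ 2 * en ζ z) :=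
          integral_mono_ae hd.fin ((i1.const_mul 2).add (hei.integrableOn.const_mul _)) e1
      _ = 2 * (∫ z in Cᶜ, (closedBall q ρ').indicator (en ψ) z) +
            2 * M ^ 2 * (∫ z in Cᶜ, en ζ z) := by
          rw [integral_add (i1.const_mul 2) (hei.integrableOn.const_mul _), integral_const_mul,
            integral_const_mul]
      _ ≤ 2 * (ε / 4) + 2 * M ^ 2 * (ε / (4 * (M ^ 2 + 1))) := by
          have j1 : ∫ z in Cᶜ, (closedBall q ρ').indicator (en ψ) z ≤ ε / 4 := by
            rw [setIntegral_indicator measurableSet_closedBall]; exact hsm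
          have j2 : ∫ z in Cᶜ, en ζ z ≤ ε / (4 * (M ^ 2 + 1)) := by
            refine le_trans ?_ he
            exact setIntegral_le_integral hei (Eventually.of_forall fun z => en_nonneg ζ z)
          have : 0 ≤ 2 * M ^ 2 := by positivity
          nlinarith [mul_le_mul_of_nonneg_left j2 this]
      _ ≤ ε := by
          have h4 : 2 * M ^ 2 * (ε / (4 * (M ^ 2 + 1))) ≤ ε / 2 := by
            rw [← sub_nonneg]
            have : ε / 2 - 2 * M ^ 2 * (ε / (4 * (M ^ 2 + 1))) = ε / (2 * (M ^ 2 + 1)) := by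
              field_simp; ring
            rw [this]; positivity
          linarith

/-- **CLOSE** (775 #9829) -/
theorem close (hC : IsCompact C) (htd : IsTotallyDisconnected C) {b : ℕ → Hn C}
    {ψ : ℂ → ℝ} {q : ℂ} (hq : q ∈ C) (hψ : IfB_641.D1 C q ψ)
    (hiso : IfB_641.Iso C (insert ψ (range fun i => (b i).1))) {M : ℝ} (hM : ∀ z, |ψ z| ≤ M)
    (n : ℕ) {δ ε : ℝ} (hδ : 0 < δ) (hε : 0 < ε) :
    ∃ (c : ℕ → Hn C) (u : Hn C), (∀ i ≤ n, Near C δ (c i).1 (b i).1) ∧
      IfB_641.Iso C (insert u.1 ((fun i => (c i).1) '' Iic n)) ∧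
      (∀ z, |u.1 z| ≤ M) ∧ (∀ z ∉ closedBall q δ, u.1 z = ψ z) ∧
      IntegrableOn (en (fun z => u.1 z - ψ z)) Cᶜ ∧
      ∫ z in Cᶜ, en (fun z => u.1 z - ψ z) z ≤ ε := by
  have hCc := hC.isClosed
  -- flattening
  have hflat : ∀ i, ∃ c : Hn C, Gen C (fun _ : Unit => (b i).1) c.1 ∧
      (∀ᶠ z in 𝓝 q, c.1 z = c.1 q) ∧ Near C δ c.1 (b i).1 := by
    intro i
    obtain ⟨w, hg, hD, hl, hcv, hs, he⟩ := Isx_909.exists_flat_seq hC (b i).2
      (G := {q}) isCompact_singleton (singleton_subset_iff.2 hq) (by simp)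
    have h1 := hcv.eq δ hδ
    have h2 : ∀ᶠ k : ℕ in atTop, 1 / ((k:ℝ) + 1) < min δ (δ ^ 2) :=
      tendsto_one_div_add_atTop_nhds_zero_nat.eventually (gt_mem_nhds (by positivity))
    obtain ⟨k, hk1, hk2⟩ := (h1.and h2).exists
    refine ⟨⟨w k, hD k⟩, hg k, hl k q rfl, Or.inr hk1, fun z => ?_, ?_⟩
    · exact (hs k z).trans (hk2.le.trans (min_le_left _ _))
    · exact (he k).trans (ENNReal.ofReal_le_ofReal (hk2.le.trans (min_le_right _ _)))
  choose c hcg hcl hcn using hflat
  -- common ball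
  obtain ⟨r, hr, hball⟩ : ∃ r > 0, ∀ i ≤ n, ∀ z ∈ ball q r, (c i).1 z = (c i).1 q := by
    have : ∀ᶠ z in 𝓝 q, ∀ i ∈ Iic n, (c i).1 z = (c i).1 q :=
      (eventually_all_finite (finite_Iic n)).2 fun i _ => hcl i
    obtain ⟨r, hr, h⟩ := Metric.eventually_nhds_iff_ball.1 this
    exact ⟨r, hr, fun i hi z hz => h z hz i hi⟩
  -- clopen split
  obtain ⟨P, P', hP, hP', hCP, hdis, hd1, hd2⟩ := Mr_61.sep hC htd (P := {q}) (Q := (ball q r)ᶜ)
    isClosed_singleton isOpen_ball.isClosed_compl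
    (disjoint_left.2 fun z hz hz' => hz' (by rw [mem_singleton_iff.1 hz]; exact mem_ball_self hr))
  have hPc : IsCompact P := hC.of_isClosed_subset hP (by rw [hCP]; exact subset_union_left)
  have hqP : q ∈ P := by
    rw [hCP] at hq
    rcases hq with h | h
    · exact h
    · exact absurd (mem_singleton q) (disjoint_left.1 hd2 h)
  have hPball : P ⊆ ball q r := fun z hz => not_not.1 fun h => disjoint_left.1 hd1 hz h
  obtain ⟨χ, hχ, hχ1, hχ0⟩ := Mr_61.exists_cut hC htd hPc hP' hdis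
  have hχ1' : ∀ z ∈ P, ∀ᶠ w in 𝓝 z, χ w = 1 := fun z hz => eventually_nhdsSet_iff_forall.1 hχ1 z hz
  have hχ0' : ∀ z ∈ P', ∀ᶠ w in 𝓝 z, χ w = 0 := fun z hz => eventually_nhdsSet_iff_forall.1 hχ0 z hz
  have hχL : LC C χ := by
    refine LC.of_compact ?_ hχ.cpt hχ.lc
    exact (hχ.sm.of_le (by norm_num) : ContDiff ℝ 1 χ).locallyLipschitz
  -- radius of the cut-off
  obtain ⟨ρ, hρ, hρδ, hρP⟩ : ∃ ρ > 0, ρ ≤ δ ∧ Disjoint (closedBall q ρ) P' := by
    have hqP' : q ∉ P' := disjoint_left.1 hdis hqP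
    have : P'ᶜ ∈ 𝓝 q := hP'.isOpen_compl.mem_nhds hqP'
    obtain ⟨s, hs, hs'⟩ := Metric.nhds_basis_closedBall.mem_iff.1 this
    refine ⟨min s δ, by positivity, min_le_right _ _, disjoint_left.2 fun z hz hz' => ?_⟩
    exact hs' (closedBall_subset_closedBall (min_le_left _ _) hz) hz'
  obtain ⟨u, huD, huM, huo, huo', hui, hue⟩ := close_fun hCc hψ hM hρ hε
  have hbQ : ∀ s ∈ range (fun i => (b i).1), Q C s := by
    rintro _ ⟨i, rfl⟩; exact (b i).2.q
  refine ⟨c, ⟨u, huD⟩, fun i _ => hcn i, ?_, huM, fun z hz => huo z fun h =>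
    hz (closedBall_subset_closedBall hρδ h), hui, hue⟩
  refine close_iso stokesP hC hiso hbQ hψ.toQ huD.q (χ := χ) ?_ hχL ?_ ?_ ?_
  · rintro _ ⟨i, hi, rfl⟩
    refine IfB_641.Gen.trans (S := {(b i).1}) ?_ ?_
    · rintro s (rfl : s = (b i).1)
      exact IfB_641.Gen.of (mem_insert_of_mem _ (mem_range_self i))
    · have : ({(b i).1} : Set (ℂ → ℝ)) = range (fun _ : Unit => (b i).1) := by simp
      rw [this]
      exact IfB_641.gen_range.2 (hcg i)
  · intro z hz
    rw [hCP] at hz
    rcases hz with h | h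
    · exact Or.inr (hχ1' z h).self_of_nhds
    · exact Or.inl (hχ0' z h).self_of_nhds
  · rintro _ ⟨i, hi, rfl⟩ z hz hz1
    have hzP : z ∈ P := by
      rw [hCP] at hz
      rcases hz with h | h
      · exact h
      · have := (hχ0' z h).self_of_nhds
        rw [hz1] at this; norm_num at this
    have hzb := hPball hzP
    filter_upwards [isOpen_ball.mem_nhds hzb] with w hw
    rw [hball i hi w hw, hball i hi z hzb]
  · intro z hz hz0
    have hzP : z ∈ P' := by
      rw [hCP] at hz
      rcases hz with h | h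
      · have := (hχ1' z h).self_of_nhds
        rw [hz0] at this; norm_num at this
      · exact h
    exact huo' z fun h => disjoint_left.1 hρP h hzP

end Crest.Agent.R105.Clo_871
end

-- ▼ part R105/Selp_871

/-!
Row 105 (S0139), SELP = selection (658) + complete metric (775) + CLOSE (871), from a lower bound
of `J` (775 Bd5).
-/

set_option autoImplicit false
set_option linter.style.haveILetI false

open MeasureTheory Set Filter Topology Metric
open scoped NNReal ENNReal

namespace Crest.Agent.R105.Clo_871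

open Crest.Agent.R105.Bd_775 Crest.Agent.R105.OneF_871

/-- the lower bound of `J` (775 Bd5) -/
def JLow : Prop := ∀ (C : Set ℂ) (x0 : ℂ → ℝ), IfB_641.TD C → IfB_641.X0 C x0 →
  ∃ L : ℝ, ∀ u, D C u → L ≤ IfB_641.J C x0 u

variable {C : Set ℂ}

theorem iso_pair (hC : IsCompact C) (v : Hn C) (o : Hn C) (ho : o.1 = fun _ => 0) :
    IsoH C {v, o} := by
  unfold IsoH
  refine IfB_641.Iso.trans (T := range (fun _ : Unit => v.1)) ?_
    (IfB_641.iso_range.2 (iso_one hC v.2.q))
  rintro _ ⟨s, hs, rfl⟩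
  rcases hs with rfl | hs
  · exact IfB_641.Gen.of ⟨(), rfl⟩
  · rw [mem_singleton_iff] at hs
    subst hs
    simp only [ho]
    exact IfB_641.Gen.const 0

/-- closing does not raise `J` by more than `g` -/
theorem j_close (hC : IsCompact C) {x0 : ℂ → ℝ} (hx : IfB_641.X0 C x0) {q : ℂ} (hq : q ∈ C)
    {ψ : ℂ → ℝ} (hψ : IfB_641.D1 C q ψ) {g : ℝ} (hg : 0 < g) :
    ∃ δ₀ > 0, ∃ ε > 0, ∀ u : Hn C, (∀ z ∉ closedBall q δ₀, u.1 z = ψ z) →
      IntegrableOn (en (fun z => u.1 z - ψ z)) Cᶜ → ∫ z in Cᶜ, en (fun z => u.1 z - ψ z) z ≤ ε →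
      IfB_641.J C x0 u.1 ≤ IfB_641.J C x0 ψ + g := by
  have hCc := hC.isClosed
  -- `lap x0 = 0` near `q`
  have h1 : (tsupport (IfB_641.lap x0))ᶜ ∈ 𝓝 q :=
    (isClosed_tsupport _).isOpen_compl.mem_nhds fun h => hx.lap_sub h hq
  obtain ⟨δ₀, hδ₀, hδ⟩ := Metric.nhds_basis_closedBall.mem_iff.1 h1
  set A := IfB_641.di C ψ ψ with hA
  have hA0 : 0 ≤ A := di_self_nonneg _
  set t : ℝ := g / (2 * (A + 1)) with ht
  have ht0 : 0 < t := by positivity
  refine ⟨δ₀, hδ₀, g / (2 * (1 + 1 / t)), by positivity, fun u hu _ he => ?_⟩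
  have h2 : ∫ z, u.1 z * IfB_641.lap x0 z = ∫ z, ψ z * IfB_641.lap x0 z := by
    congr 1; funext z
    by_cases hz : z ∈ closedBall q δ₀
    · have h3 : IfB_641.lap x0 z = 0 := image_eq_zero_of_notMem_tsupport (hδ hz)
      rw [h3, mul_zero, mul_zero]
    · rw [hu z hz]
  have h3 := di_le hCc u.2.q hψ.toQ ht0
  have h4 : IfB_641.di C (fun w => u.1 w - ψ w) (fun w => u.1 w - ψ w) ≤ g / (2 * (1 + 1 / t)) := by
    rw [di_self]; exact he
  have h5 : (1 + 1 / t) * IfB_641.di C (fun w => u.1 w - ψ w) (fun w => u.1 w - ψ w) ≤ g / 2 := by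
    calc (1 + 1 / t) * IfB_641.di C (fun w => u.1 w - ψ w) (fun w => u.1 w - ψ w)
        ≤ (1 + 1 / t) * (g / (2 * (1 + 1 / t))) := mul_le_mul_of_nonneg_left h4 (by positivity)
      _ = g / 2 := by field_simp
  have h6 : t * A ≤ g / 2 := by
    rw [ht]
    calc g / (2 * (A + 1)) * A ≤ g / (2 * (A + 1)) * (A + 1) :=
          mul_le_mul_of_nonneg_left (by linarith) (by positivity)
      _ = g / 2 := by field_simp
  unfold IfB_641.J
  rw [h2]
  rw [← hA] at h3 ⊢
  linarith

/-- **SELP**, from the lower bound of `J`. -/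
theorem selp_of (hJ : JLow) : IfB_641.SELP := by
  intro C x0 hTD hx v hv η hη
  have hC := hTD.cpt
  have hCc := hC.isClosed
  obtain ⟨L, hL⟩ := hJ C x0 hTD hx
  letI := metr hCc
  haveI : CompleteSpace (Hn C) := complete hCc
  have hint : Integrable (IfB_641.lap x0) :=
    hx.lap_cont.integrable_of_hasCompactSupport hx.lap_cpt
  have hcont : Continuous fun x : Hn C => IfB_641.J C x0 x.1 := continuous_J hCc hint
  have hpred : Sel_658.IsoPred (IsoH C) := isoPred hCc
  set o : Hn C := ⟨fun _ => 0, (Q.const C 0).d continuous_const⟩ with ho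
  set r : ℝ := min η 1 with hr
  have hr0 : 0 < r := by positivity
  obtain ⟨b, m, hd, hiso, hlim, -, hmin⟩ := Sel_658.select hpred hcont (L := L)
    (fun x => hL x.1 x.2) (v := (⟨v, hv⟩ : Hn C)) (u₀ := o) (iso_pair hC _ _ rfl)
    (half_pos hr0)
  have hnear : Near C r (b 0).1 v := near_of_dist_lt hCc (lt_of_le_of_lt hd (by linarith))
  have hisoR : IfB_641.Iso C (range fun k => (b k).1) := by
    have : (range fun k => (b k).1) = (fun x : Hn C => x.1) '' range b := by
      rw [← range_comp]; rfl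
    rw [this]; exact hiso
  refine ⟨fun k => (b k).1, m, ⟨fun i => (b i).2, hisoR, hlim, ?_⟩, fun z => ?_, ?_⟩
  · intro ψ hT hI
    -- it is enough to have `m ≤ J ψ + 2 g`
    refine le_of_forall_pos_le_add fun g hg => ?_
    obtain ⟨n, δ, hδ, hsel⟩ := hmin (g / 2) (half_pos hg)
    rcases hT with hD | ⟨q, hq, hψ⟩
    · have h1 := hsel b ⟨ψ, hD⟩ (fun i _ => by rw [dist_self]; exact hδ.le) ?_
      · simp only at h1
        linarith
      · show IfB_641.Iso C _
        refine IfB_641.Iso.mono ?_ hI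
        rintro _ ⟨s, hs, rfl⟩
        rcases hs with rfl | ⟨i, -, rfl⟩
        · exact mem_insert _ _
        · exact mem_insert_of_mem _ (mem_range_self i)
    · obtain ⟨δ₀, hδ₀, ε, hε, hj⟩ := j_close hC hx hq hψ (half_pos hg)
      obtain ⟨M, hM⟩ := hψ.toQ.bdd
      obtain ⟨c, u, hc1, hc2, -, hc4, hc5, hc6⟩ := close hC hTD.td hq hψ hI hM n
        (δ := min δ δ₀) (by positivity) hε
      have h1 := hsel c u (fun i hi => ?_) ?_
      · have h2 := hj u (fun z hz => hc4 z fun h => hz (closedBall_subset_closedBall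
          (min_le_right _ _) h)) hc5 hc6
        linarith
      · have h3 : dist (c i) (b i) ≤ min δ δ₀ := dist_le_of_near hCc (by positivity) (hc1 i hi)
        exact h3.trans (min_le_left _ _)
      · show IfB_641.Iso C _
        refine IfB_641.Iso.mono ?_ hc2
        rintro _ ⟨s, hs, rfl⟩
        rcases hs with rfl | ⟨i, hi, rfl⟩
        · exact mem_insert _ _
        · exact mem_insert_of_mem _ ⟨i, hi, rfl⟩
  · exact (hnear.sup z).trans (min_le_left _ _)
  · rw [di_self]
    have h1 : r ^ 2 ≤ η := by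
      have h2 : r ≤ 1 := min_le_right _ _
      have h3 : r ≤ η := min_le_left _ _
      nlinarith
    refine (en_integral_le ((b 0).2.q.sub hCc hv.q) (by positivity) hnear.enr).trans h1

end Crest.Agent.R105.Clo_871
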